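import Crest.Agent.R267.Calc_957

-- ▼ part R267/TLine_996
section

/-!
# Row 267, T3a: derivatives of `Im G` along fibre directions
-/

set_option autoImplicit false

noncomputable section

namespace Crest.Agent.R267.TLine_996

open Set Filter Topology Finset
open Crest.Agent.R267.T3aDefs_957 Crest.Agent.R267.Calc_957

/-! ### the gauge `gq` -/

/-- derivative of `gq K A ·`. -/
def gqd (K A B : ℝ) : ℝ :=
  (max 0 (B - K ^ 2 * A)) ^ 2 * (3 * (A + B) - 2 * max 0 (B - K ^ 2 * A)) /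
    ((3 * K ^ 2 + 3) * (A + B) ^ 3)

lemma gq_of_le {K A B : ℝ} (h : B ≤ K ^ 2 * A) : gq K A B = A := by
  rw [gq, max_eq_left (by linarith)]; simp

lemma gqd_of_le {K A B : ℝ} (h : B ≤ K ^ 2 * A) : gqd K A B = 0 := by
  rw [gqd, max_eq_left (by linarith)]; simp

lemma le_gq {K A B : ℝ} : A ≤ gq K A B := by
  unfold gq
  have : 0 ≤ (max 0 (B - K ^ 2 * A)) ^ 3 / ((3 * K ^ 2 + 3) * (A + B) ^ 2) := by
    have := le_max_left (0 : ℝ) (B - K ^ 2 * A)
    positivity
  linarith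

lemma u_le {K A B : ℝ} (hA : 0 ≤ A) (hB : 0 ≤ B) : max 0 (B - K ^ 2 * A) ≤ B :=
  max_le hB (by nlinarith [sq_nonneg K, mul_nonneg (sq_nonneg K) hA])

lemma gq_le {K A B : ℝ} (hA : 0 ≤ A) (hB : 0 ≤ B) : gq K A B ≤ A + B := by
  unfold gq
  have h0 := le_max_left (0 : ℝ) (B - K ^ 2 * A)
  have h1 := u_le (K := K) hA hB
  set u := max 0 (B - K ^ 2 * A)
  have : u ^ 3 / ((3 * K ^ 2 + 3) * (A + B) ^ 2) ≤ B := by
    rcases (add_nonneg hA hB).eq_or_lt' with h | h
    · rw [h]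
      simpa using hB
    · rw [div_le_iff₀ (by positivity)]
      have h2 : u ^ 2 ≤ (A + B) ^ 2 := pow_le_pow_left₀ h0 (by linarith) 2
      calc u ^ 3 = u * u ^ 2 := by ring
        _ ≤ B * (A + B) ^ 2 := mul_le_mul h1 h2 (by positivity) hB
        _ ≤ B * ((3 * K ^ 2 + 3) * (A + B) ^ 2) := by
            refine mul_le_mul_of_nonneg_left ?_ hB
            have h3 : (0 : ℝ) ≤ (A + B) ^ 2 := by positivity
            have h4 : (1 : ℝ) ≤ 3 * K ^ 2 + 3 := by nlinarith [sq_nonneg K]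
            nlinarith
  linarith

lemma gq_ge {K A B : ℝ} (hA : 0 ≤ A) (hB : 0 ≤ B) :
    (A + B) / (200 * (K ^ 2 + 1)) ≤ gq K A B := by
  have hK := sq_nonneg K
  rcases le_total B (2 * K ^ 2 * A) with h | h
  · refine le_trans ?_ le_gq
    rw [div_le_iff₀ (by positivity)]
    nlinarith [mul_nonneg hA hK]
  · rcases le_total B A with hAB | hAB
    · refine le_trans ?_ le_gq
      rw [div_le_iff₀ (by positivity)]
      nlinarith [mul_nonneg hA hK]
    · rcases hB.eq_or_lt' with h0 | h0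
      · refine le_trans ?_ le_gq
        rw [div_le_iff₀ (by positivity)]
        nlinarith [mul_nonneg hA hK]
      · have h1 : B / 2 ≤ max 0 (B - K ^ 2 * A) := le_trans (by linarith) (le_max_right _ _)
        unfold gq
        set u := max 0 (B - K ^ 2 * A)
        have h2 : (B / 2) ^ 3 ≤ u ^ 3 := pow_le_pow_left₀ (by positivity) h1 3
        have h3 : (A + B) ^ 2 ≤ 4 * B ^ 2 := by nlinarith
        have h4 : (A + B) / (200 * (K ^ 2 + 1)) ≤ u ^ 3 / ((3 * K ^ 2 + 3) * (A + B) ^ 2) := by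
          rw [div_le_div_iff₀ (by positivity) (by positivity)]
          calc (A + B) * ((3 * K ^ 2 + 3) * (A + B) ^ 2)
              ≤ (2 * B) * ((3 * K ^ 2 + 3) * (4 * B ^ 2)) := by gcongr; linarith
            _ = (B / 2) ^ 3 * (192 * (K ^ 2 + 1)) := by ring
            _ ≤ (B / 2) ^ 3 * (200 * (K ^ 2 + 1)) := by
                refine mul_le_mul_of_nonneg_left ?_ (by positivity)
                nlinarith
            _ ≤ u ^ 3 * (200 * (K ^ 2 + 1)) := by gcongr
        linarith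

lemma gqd_nonneg {K A B : ℝ} (hA : 0 ≤ A) (hB : 0 ≤ B) : 0 ≤ gqd K A B := by
  unfold gqd
  have h1 := u_le (K := K) hA hB
  have h0 := le_max_left (0 : ℝ) (B - K ^ 2 * A)
  set u := max 0 (B - K ^ 2 * A)
  have : 0 ≤ 3 * (A + B) - 2 * u := by linarith
  positivity

lemma gqd_le {K A B : ℝ} (hA : 0 ≤ A) (hB : 0 ≤ B) : gqd K A B ≤ 1 / (K ^ 2 + 1) := by
  unfold gqd
  have h1 := u_le (K := K) hA hB
  have h0 := le_max_left (0 : ℝ) (B - K ^ 2 * A)
  set u := max 0 (B - K ^ 2 * A)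
  rcases (add_nonneg hA hB).eq_or_lt' with h | h
  · have hA' : A = 0 := by linarith
    have hB' : B = 0 := by linarith
    subst hA' hB'
    simp
    positivity
  · rw [div_le_div_iff₀ (by positivity) (by positivity)]
    have h2 : u ^ 2 ≤ (A + B) ^ 2 := pow_le_pow_left₀ h0 (by linarith) 2
    have h3 : u ^ 2 * (3 * (A + B) - 2 * u) ≤ (A + B) ^ 2 * (3 * (A + B)) :=
      mul_le_mul h2 (by linarith) (by linarith) (by positivity)
    nlinarith [sq_nonneg K]

lemma hasDerivAt_gq {K A B : ℝ} (h : 0 < A + B) :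
    HasDerivAt (fun y => gq K A y) (gqd K A B) B := by
  have h1 : HasDerivAt (fun y : ℝ => y - K ^ 2 * A) 1 B := by
    simpa using (hasDerivAt_id B).sub_const (K ^ 2 * A)
  have h2 : HasDerivAt (fun y : ℝ => (max 0 (y - K ^ 2 * A)) ^ 3)
      (3 * (max 0 (B - K ^ 2 * A)) ^ 2) B := by
    have := (hasDerivAt_tp 1 (B - K ^ 2 * A)).comp B h1
    refine this.congr_deriv ?_
    unfold tp
    norm_num
  have h3 : HasDerivAt (fun y : ℝ => (3 * K ^ 2 + 3) * (A + y) ^ 2)
      ((3 * K ^ 2 + 3) * (2 * (A + B))) B := by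
    have : HasDerivAt (fun y : ℝ => (A + y) ^ 2) (2 * (A + B)) B := by
      have h4 : HasDerivAt (fun y : ℝ => A + y) 1 B := (hasDerivAt_id B).const_add A
      exact (h4.pow 2).congr_deriv (by norm_num)
    exact this.const_mul _
  have h5 := (h2.div h3 (by positivity)).const_add A
  refine h5.congr_deriv ?_
  unfold gqd
  set u := max 0 (B - K ^ 2 * A)
  field_simp

/-! ### the fibre line -/

section space

variable {N : ℕ} (D : LD N)

/-- point on the fibre line through `z` in the direction `Y`. -/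
def ln (z : Fin N → ℂ) (Y : Fin N → ℝ) (h : ℝ) : Fin N → ℂ := z + h • LD.vt Y

@[simp] lemma ln_zero (z : Fin N → ℂ) (Y : Fin N → ℝ) : ln z Y 0 = z := by simp [ln]

lemma ln_apply (z : Fin N → ℂ) (Y : Fin N → ℝ) (h : ℝ) (i : Fin N) :
    ln z Y h i = z i + (h * Y i : ℝ) * Complex.I := by
  simp [ln, LD.vt]
  ring

@[simp] lemma ln_re (z : Fin N → ℂ) (Y : Fin N → ℝ) (h : ℝ) (i : Fin N) :
    (ln z Y h i).re = (z i).re := by
  rw [ln_apply]; simp

@[simp] lemma ln_im (z : Fin N → ℂ) (Y : Fin N → ℝ) (h : ℝ) (i : Fin N) :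
    (ln z Y h i).im = (z i).im + h * Y i := by
  rw [ln_apply]; simp

lemma hasDerivAt_line {F : (Fin N → ℂ) → ℂ} {z : Fin N → ℂ} (hF : DifferentiableAt ℝ F z)
    (Y : Fin N → ℝ) : HasDerivAt (fun h => F (ln z Y h)) (fderiv ℝ F z (LD.vt Y)) 0 := by
  have h1 : HasDerivAt (fun h : ℝ => ln z Y h) (LD.vt Y) 0 := by
    unfold ln
    simpa using ((hasDerivAt_id (0 : ℝ)).smul_const (LD.vt Y)).const_add z
  have h2 : HasFDerivAt F (fderiv ℝ F z) (ln z Y 0) := by
    rw [ln_zero]; exact hF.hasFDerivAt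
  exact h2.comp_hasDerivAt (0 : ℝ) h1

/-- derivative of `pl` along the fibre. -/
def plt (M : ℕ) (w : ℂ) : ℂ := if 0 < w.re then pvd M (w.im / w.re) else -Complex.I

lemma hasDerivAt_pl (ga : ℝ) (M : ℕ) (z : Fin N → ℂ) (Y : Fin N → ℝ) (i : Fin N) :
    HasDerivAt (fun h => pl ga M (ln z Y h i)) (Y i * plt M (z i)) 0 := by
  unfold plt
  split_ifs with hs
  · have h1 : (fun h => pl ga M (ln z Y h i)) =
        fun h => ((z i).re : ℂ) * pv ga M (((z i).im + h * Y i) / (z i).re) := by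
      funext h
      rw [pl_of_pos (by simpa using hs), ln_re, ln_im]
    rw [h1]
    have h2 : HasDerivAt (fun h : ℝ => ((z i).im + h * Y i) / (z i).re) (Y i / (z i).re) 0 := by
      simpa using (((hasDerivAt_id (0 : ℝ)).mul_const (Y i)).const_add (z i).im).div_const (z i).re
    have h3 : HasDerivAt (pv ga M) (pvd M ((z i).im / (z i).re))
        (((z i).im + 0 * Y i) / (z i).re) := by
      simpa using hasDerivAt_pv ga M ((z i).im / (z i).re)
    have h4 := (h3.scomp (0 : ℝ) h2).const_mul ((z i).re : ℂ)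
    refine h4.congr_deriv ?_
    have : ((z i).re : ℂ) ≠ 0 := by exact_mod_cast hs.ne'
    rw [Complex.real_smul]
    push_cast
    field_simp
  · have h1 : (fun h => pl ga M (ln z Y h i)) =
        fun h : ℝ => -((2 - ga : ℝ) : ℂ) * ((z i).re : ℂ) -
          Complex.I * (((z i).im + h * Y i : ℝ) : ℂ) := by
      funext h
      rw [pl_of_nonpos (by simpa using not_lt.1 hs), ln_re, ln_im]
    rw [h1]
    have h2 : HasDerivAt (fun h : ℝ => (z i).im + h * Y i) (Y i) 0 := by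
      simpa using ((hasDerivAt_id (0 : ℝ)).mul_const (Y i)).const_add (z i).im
    have h3 := (h2.ofReal_comp.const_mul Complex.I).const_sub
      (-((2 - ga : ℝ) : ℂ) * ((z i).re : ℂ))
    refine h3.congr_deriv ?_
    ring

/-! ### the total gauge -/

/-- `|s|²`. -/
def SA (z : Fin N → ℂ) : ℝ := ∑ j, (z j).re ^ 2

/-- `|t|²`. -/
def SB (z : Fin N → ℂ) : ℝ := ∑ j, (z j).im ^ 2

lemma SA_nonneg (z : Fin N → ℂ) : 0 ≤ SA z := sum_nonneg fun _ _ => sq_nonneg _

lemma SB_nonneg (z : Fin N → ℂ) : 0 ≤ SB z := sum_nonneg fun _ _ => sq_nonneg _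

lemma SAB_pos {z : Fin N → ℂ} (hz : z ≠ 0) : 0 < SA z + SB z := by
  obtain ⟨j, hj⟩ : ∃ j, z j ≠ 0 := by
    by_contra h
    push Not at h
    exact hz (funext h)
  have h1 : 0 < (z j).re ^ 2 + (z j).im ^ 2 := by
    by_contra h
    have ha : (z j).re = 0 := by nlinarith [sq_nonneg (z j).re, sq_nonneg (z j).im]
    have hb : (z j).im = 0 := by nlinarith [sq_nonneg (z j).re, sq_nonneg (z j).im]
    exact hj (Complex.ext ha hb)
  have h2 : (z j).re ^ 2 ≤ SA z :=
    single_le_sum (f := fun j => (z j).re ^ 2) (fun i _ => sq_nonneg _) (mem_univ j)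
  have h3 : (z j).im ^ 2 ≤ SB z :=
    single_le_sum (f := fun j => (z j).im ^ 2) (fun i _ => sq_nonneg _) (mem_univ j)
  linarith

lemma NN_eq (K : ℝ) (z : Fin N → ℂ) : NN K z = √(gq K (SA z) (SB z)) := rfl

lemma gq_pos {K A B : ℝ} (hA : 0 ≤ A) (hB : 0 ≤ B) (h : 0 < A + B) : 0 < gq K A B :=
  lt_of_lt_of_le (by positivity) (gq_ge hA hB)

lemma NN_pos (K : ℝ) {z : Fin N → ℂ} (hz : z ≠ 0) : 0 < NN K z :=
  Real.sqrt_pos.2 (gq_pos (SA_nonneg z) (SB_nonneg z) (SAB_pos hz))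

lemma NN_sq (K : ℝ) {z : Fin N → ℂ} (hz : z ≠ 0) : NN K z ^ 2 = gq K (SA z) (SB z) :=
  Real.sq_sqrt (gq_pos (SA_nonneg z) (SB_nonneg z) (SAB_pos hz)).le

/-- derivative of the total gauge along the fibre direction `Y`. -/
def NNd (K : ℝ) (z : Fin N → ℂ) (Y : Fin N → ℝ) : ℝ :=
  gqd K (SA z) (SB z) * (∑ j, (z j).im * Y j) / NN K z

lemma hasDerivAt_NN (K : ℝ) {z : Fin N → ℂ} (hz : z ≠ 0) (Y : Fin N → ℝ) :
    HasDerivAt (fun h => NN K (ln z Y h)) (NNd K z Y) 0 := by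
  have h1 : HasDerivAt (fun h => SB (ln z Y h)) (2 * ∑ j, (z j).im * Y j) 0 := by
    unfold SB
    simp only [ln_im]
    have h2 : ∀ j ∈ (univ : Finset (Fin N)),
        HasDerivAt (fun h : ℝ => ((z j).im + h * Y j) ^ 2) (2 * ((z j).im * Y j)) 0 := by
      intro j _
      have h3 : HasDerivAt (fun h : ℝ => (z j).im + h * Y j) (Y j) 0 := by
        simpa using ((hasDerivAt_id (0 : ℝ)).mul_const (Y j)).const_add (z j).im
      exact (h3.pow 2).congr_deriv (by norm_num; ring)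
    exact (HasDerivAt.fun_sum h2).congr_deriv (by rw [mul_sum])
  have h2 : HasDerivAt (fun y => gq K (SA z) y) (gqd K (SA z) (SB z)) (SB (ln z Y 0)) := by
    rw [ln_zero]
    exact hasDerivAt_gq (SAB_pos hz)
  have h3 : HasDerivAt (fun h => gq K (SA z) (SB (ln z Y h)))
      (gqd K (SA z) (SB z) * (2 * ∑ j, (z j).im * Y j)) 0 :=
    HasDerivAt.comp (h := fun h => SB (ln z Y h)) (h₂ := fun y => gq K (SA z) y) (0 : ℝ) h2 h1
  have h4 : (fun h => NN K (ln z Y h)) = fun h => √(gq K (SA z) (SB (ln z Y h))) := by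
    funext h
    rw [NN_eq]
    congr 2
    unfold SA
    simp
  rw [h4]
  have h5 := h3.sqrt (by
    rw [ln_zero]
    exact (gq_pos (SA_nonneg z) (SB_nonneg z) (SAB_pos hz)).ne')
  refine h5.congr_deriv ?_
  rw [ln_zero, ← NN_eq, NNd]
  have := (NN_pos K hz).ne'
  field_simp

/-! ### the planar gauge -/

lemma pg_sq (K : ℝ) (w : ℂ) : pg K w ^ 2 = gq K (w.re ^ 2) (w.im ^ 2) :=
  Real.sq_sqrt ((sq_nonneg _).trans le_gq)

lemma sq_pos_of_ne {w : ℂ} (h : w ≠ 0) : 0 < w.re ^ 2 + w.im ^ 2 := by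
  by_contra h1
  have ha : w.re = 0 := by nlinarith [sq_nonneg w.re, sq_nonneg w.im]
  have hb : w.im = 0 := by nlinarith [sq_nonneg w.re, sq_nonneg w.im]
  exact h (Complex.ext ha hb)


lemma pg_nonneg (K : ℝ) (w : ℂ) : 0 ≤ pg K w := Real.sqrt_nonneg _

@[simp] lemma pg_zero (K : ℝ) : pg K 0 = 0 := by simp [pg, gq]

/-- derivative of the planar gauge. -/
def pgd (K : ℝ) (w : ℂ) : ℝ := gqd K (w.re ^ 2) (w.im ^ 2) * w.im / pg K w

lemma hasDerivAt_pg (K : ℝ) {z : Fin N → ℂ} (Y : Fin N → ℝ) {i : Fin N} (hz : z i ≠ 0) :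
    HasDerivAt (fun h => pg K (ln z Y h i)) (Y i * pgd K (z i)) 0 := by
  unfold pg
  simp only [ln_re, ln_im]
  have h1 : HasDerivAt (fun h : ℝ => ((z i).im + h * Y i) ^ 2) (2 * ((z i).im * Y i)) 0 := by
    have h3 : HasDerivAt (fun h : ℝ => (z i).im + h * Y i) (Y i) 0 := by
      simpa using ((hasDerivAt_id (0 : ℝ)).mul_const (Y i)).const_add (z i).im
    exact (h3.pow 2).congr_deriv (by norm_num; ring)
  have h2 : HasDerivAt (fun y => gq K ((z i).re ^ 2) y) (gqd K ((z i).re ^ 2) ((z i).im ^ 2))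
      (((z i).im + 0 * Y i) ^ 2) := by
    rw [zero_mul, add_zero]
    exact hasDerivAt_gq (sq_pos_of_ne hz)
  have h3 : HasDerivAt (fun h => gq K ((z i).re ^ 2) (((z i).im + h * Y i) ^ 2))
      (gqd K ((z i).re ^ 2) ((z i).im ^ 2) * (2 * ((z i).im * Y i))) 0 :=
    HasDerivAt.comp (h := fun h : ℝ => ((z i).im + h * Y i) ^ 2)
      (h₂ := fun y => gq K ((z i).re ^ 2) y) (0 : ℝ) h2 h1
  have h4 := h3.sqrt (by
    rw [zero_mul, add_zero]
    exact (gq_pos (sq_nonneg _) (sq_nonneg _) (sq_pos_of_ne hz)).ne')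
  refine h4.congr_deriv ?_
  rw [zero_mul, add_zero, pgd, pg]
  have := (Real.sqrt_pos.2 (gq_pos (K := K) (sq_nonneg _) (sq_nonneg _) (sq_pos_of_ne hz))).ne'
  field_simp

lemma continuous_pg_ln (K : ℝ) {z : Fin N → ℂ} (Y : Fin N → ℝ) {i : Fin N} (hz : z i = 0) :
    Tendsto (fun h => pg K (ln z Y h i)) (𝓝 0) (𝓝 0) := by
  have h1 : ∀ h, pg K (ln z Y h i) ≤ |h * Y i| := by
    intro h
    unfold pg
    rw [ln_re, ln_im, hz]
    simp only [Complex.zero_re, Complex.zero_im, zero_add]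
    rw [← Real.sqrt_sq_eq_abs]
    apply Real.sqrt_le_sqrt
    have := gq_le (K := K) (A := 0 ^ 2) (B := (h * Y i) ^ 2) (by norm_num) (sq_nonneg _)
    simpa using this
  have h2 : Tendsto (fun h : ℝ => |h * Y i|) (𝓝 0) (𝓝 0) := by
    have : Continuous fun h : ℝ => |h * Y i| := by fun_prop
    simpa using this.tendsto 0
  exact squeeze_zero (fun h => pg_nonneg _ _) h1 h2

/-! ### relative sizes and cut-offs -/

/-- derivative of the relative size. -/
def xrd (z : Fin N → ℂ) (Y : Fin N → ℝ) (i : Fin N) : ℝ :=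
  (Y i * pgd D.K (z i) - D.xr z i * NNd D.K1 z Y) / NN D.K1 z

lemma hasDerivAt_xr {z : Fin N → ℂ} (hz : z ≠ 0) (Y : Fin N → ℝ) {i : Fin N} (hi : z i ≠ 0) :
    HasDerivAt (fun h => D.xr (ln z Y h) i) (xrd D z Y i) 0 := by
  unfold LD.xr
  have h1 := (hasDerivAt_pg D.K Y hi).div (hasDerivAt_NN D.K1 hz Y) (by
    rw [ln_zero]; exact (NN_pos _ hz).ne')
  refine h1.congr_deriv ?_
  rw [ln_zero, xrd, LD.xr]
  have := (NN_pos D.K1 hz).ne'
  field_simp

/-- derivative of the profile. -/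
def chid (d x : ℝ) : ℝ := std ((x - d) / d) / d

lemma hasDerivAt_chi (d x : ℝ) : HasDerivAt (chi d) (chid d x) x := by
  unfold chi chid
  have h1 : HasDerivAt (fun y : ℝ => (y - d) / d) (1 / d) x := by
    simpa using ((hasDerivAt_id x).sub_const d).div_const d
  have h2 := (hasDerivAt_st ((x - d) / d)).comp x h1
  rwa [mul_one_div] at h2

lemma chid_of_le {d x : ℝ} (hd : 0 < d) (h : x ≤ d) : chid d x = 0 := by
  rw [chid, std_of_le (div_nonpos_of_nonpos_of_nonneg (by linarith) hd.le), zero_div]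

lemma chid_of_ge {d x : ℝ} (hd : 0 < d) (h : 2 * d ≤ x) : chid d x = 0 := by
  rw [chid, std_of_ge (by rw [le_div_iff₀ hd]; linarith), zero_div]

lemma chid_nonneg {d x : ℝ} (hd : 0 < d) : 0 ≤ chid d x := div_nonneg (std_nonneg _) hd.le

lemma chid_le {d x : ℝ} (hd : 0 < d) : chid d x ≤ 2 / d := by
  unfold chid
  gcongr
  have := std_le ((x - d) / d)
  linarith

lemma chi_of_le {d x : ℝ} (hd : 0 < d) (h : x ≤ d) : chi d x = 0 := by
  rw [chi, st_of_le (div_nonpos_of_nonpos_of_nonneg (by linarith) hd.le)]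

lemma chi_of_ge {d x : ℝ} (hd : 0 < d) (h : 2 * d ≤ x) : chi d x = 1 := by
  rw [chi, st_of_ge (by rw [le_div_iff₀ hd]; linarith)]

lemma chi_pos {d x : ℝ} (hd : 0 < d) (h : d < x) : 0 < chi d x :=
  st_pos (div_pos (by linarith) hd)

lemma ch_nonneg (d : ℝ) (z : Fin N → ℂ) (j : Fin N) : 0 ≤ D.ch d z j := st_nonneg _

lemma ch_le_one (d : ℝ) (z : Fin N → ℂ) (j : Fin N) : D.ch d z j ≤ 1 := st_le_one _

lemma lt_of_ch_pos {d : ℝ} (hd : 0 < d) {z : Fin N → ℂ} {j : Fin N} (h : 0 < D.ch d z j) :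
    d < D.xr z j := by
  by_contra h1
  rw [LD.ch, chi_of_le hd (not_lt.1 h1)] at h
  exact lt_irrefl _ h

lemma xr_zero {z : Fin N → ℂ} {j : Fin N} (h : z j = 0) : D.xr z j = 0 := by
  simp [LD.xr, h]

/-- derivative of the cut-off along the fibre. -/
lemma hasDerivAt_ch {d : ℝ} (hd : 0 < d) {z : Fin N → ℂ} (hz : z ≠ 0) (Y : Fin N → ℝ)
    (i : Fin N) :
    HasDerivAt (fun h => D.ch d (ln z Y h) i) (chid d (D.xr z i) * xrd D z Y i) 0 := by
  rcases eq_or_ne (z i) 0 with hi | hi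
  · have h1 : Tendsto (fun h => D.xr (ln z Y h) i) (𝓝 0) (𝓝 0) := by
      unfold LD.xr
      have h2 := (hasDerivAt_NN D.K1 hz Y).continuousAt.tendsto
      rw [ln_zero] at h2
      have h3 := (continuous_pg_ln D.K Y hi).div h2 (NN_pos _ hz).ne'
      rwa [zero_div] at h3
    have h2 : (fun h => D.ch d (ln z Y h) i) =ᶠ[𝓝 0] fun _ => 0 := by
      filter_upwards [h1 (Iio_mem_nhds hd)] with h hh
      exact chi_of_le hd (le_of_lt hh)
    rw [xr_zero D hi, chid_of_le hd hd.le, zero_mul]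
    exact (hasDerivAt_const (0 : ℝ) (0 : ℝ)).congr_of_eventuallyEq h2
  · have h1 : HasDerivAt (chi d) (chid d (D.xr z i)) (D.xr (ln z Y 0) i) := by
      rw [ln_zero]; exact hasDerivAt_chi d _
    exact h1.comp (0 : ℝ) (hasDerivAt_xr D hz Y hi)

/-! ### real and imaginary part of `G` -/

lemma G_im (cB ga d : ℝ) (z : Fin N → ℂ) :
    (D.G cB ga d z).im = ∑ j, D.ch d z j * (pl ga (D.M j) (z j)).im := by
  unfold LD.G
  rw [Complex.sub_im, Complex.im_sum, Complex.ofReal_im, sub_zero]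
  exact sum_congr rfl fun j _ => Complex.im_ofReal_mul _ _

lemma G_re (cB ga d : ℝ) (z : Fin N → ℂ) :
    (D.G cB ga d z).re = ∑ j, D.ch d z j * (pl ga (D.M j) (z j)).re -
      cB * ga * ∑ e ∈ D.C, D.Be d e z := by
  unfold LD.G
  rw [Complex.sub_re, Complex.re_sum, Complex.ofReal_re]
  congr 1
  exact sum_congr rfl fun j _ => Complex.re_ofReal_mul _ _

/-- **derivative of `Im G` along the fibre.** -/
lemma fderiv_im {cB ga d : ℝ} (hd : 0 < d) {z : Fin N → ℂ} (hz : z ≠ 0)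
    (hG : DifferentiableAt ℝ (D.G cB ga d) z) (Y : Fin N → ℝ) :
    (fderiv ℝ (D.G cB ga d) z (LD.vt Y)).im =
      ∑ i, (chid d (D.xr z i) * xrd D z Y i * (pl ga (D.M i) (z i)).im +
        D.ch d z i * (Y i * (plt (D.M i) (z i)).im)) := by
  have h1 : HasDerivAt (fun h => (D.G cB ga d (ln z Y h)).im)
      (fderiv ℝ (D.G cB ga d) z (LD.vt Y)).im 0 := by
    have := hasDerivAt_line hG Y
    exact (Complex.imCLM.hasFDerivAt.comp_hasDerivAt (0 : ℝ) this)
  have h2 : HasDerivAt (fun h => (D.G cB ga d (ln z Y h)).im)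
      (∑ i, (chid d (D.xr z i) * xrd D z Y i * (pl ga (D.M i) (z i)).im +
        D.ch d z i * (Y i * (plt (D.M i) (z i)).im))) 0 := by
    simp only [G_im]
    refine HasDerivAt.fun_sum fun i _ => ?_
    have h3 := hasDerivAt_ch D hd hz Y i
    have h4 : HasDerivAt (fun h => (pl ga (D.M i) (ln z Y h i)).im)
        (Y i * (plt (D.M i) (z i)).im) 0 := by
      have := Complex.imCLM.hasFDerivAt.comp_hasDerivAt (0 : ℝ)
        (hasDerivAt_pl ga (D.M i) z Y i)
      refine this.congr_deriv ?_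
      simp
    have h5 := h3.mul h4
    refine h5.congr_deriv ?_
    simp only [ln_zero]
  exact h1.unique h2

end space

end Crest.Agent.R267.TLine_996
end
end

-- ▼ part R267/K1_996

/-!
# Row 267, T3a: fact K1 (`Im G = 0`, `Re G ≥ 0` implies `d_t Im G ≠ 0`)
-/

set_option autoImplicit false

noncomputable section

namespace Crest.Agent.R267.K1_996

open Set Filter Topology Finset
open Crest.Agent.R267.T3aDefs_957 Crest.Agent.R267.Calc_957 Crest.Agent.R267.TLine_996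

/-! ### planar facts -/

/-- far from the loops the planar function is linear. -/
def Far (M : ℕ) (w : ℂ) : Prop := (8 * (M : ℝ) + 1) * |w.re| ≤ |w.im|

lemma far_cases {M : ℕ} {w : ℂ} (h : Far M w) (hs : 0 < w.re) :
    w.im / w.re ≤ 1 ∨ 8 * (M : ℝ) + 1 ≤ w.im / w.re := by
  unfold Far at h
  rw [abs_of_pos hs] at h
  have hM : (0 : ℝ) ≤ M := M.cast_nonneg
  rcases le_total 0 w.im with h1 | h1
  · rw [abs_of_nonneg h1] at h
    exact Or.inr ((le_div_iff₀ hs).2 h)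
  · refine Or.inl ((div_le_iff₀ hs).2 ?_)
    linarith

lemma pl_far {ga : ℝ} {M : ℕ} {w : ℂ} (h : Far M w) :
    pl ga M w = -((2 - ga : ℝ) : ℂ) * w.re - Complex.I * w.im := by
  rcases le_or_gt w.re 0 with hs | hs
  · exact pl_of_nonpos hs
  · have hF : Fl M (w.im / w.re) = 0 := by
      rcases far_cases h hs with h1 | h1
      · exact Fl_low h1
      · exact Fl_high h1
    unfold pl
    rw [if_pos hs, hF]
    ring

lemma pl_far_im {ga : ℝ} {M : ℕ} {w : ℂ} (h : Far M w) : (pl ga M w).im = -w.im := by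
  rw [pl_far h]; simp

lemma pl_far_re {ga : ℝ} {M : ℕ} {w : ℂ} (h : Far M w) :
    (pl ga M w).re = -(2 - ga) * w.re := by
  rw [pl_far h]; simp

lemma plt_far_im {M : ℕ} {w : ℂ} (h : Far M w) : (plt M w).im = -1 := by
  unfold plt
  split_ifs with hs
  · rcases far_cases h hs with h1 | h1
    · rw [pvd_low h1]; simp
    · rw [pvd_high (by linarith), std_of_ge (by linarith)]; simp
  · simp

lemma abs_eq_two {v : ℝ} (h : Bfd v = 0) : |v| = 2 := by
  have key : ∀ w : ℝ, 0 ≤ w → Bfd w = 0 → w = 2 := by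
    intro w hw h
    rcases le_total w 1 with h1 | h1
    · rw [Bfd_of_abs_le (by rw [abs_of_nonneg hw]; exact h1)] at h
      norm_num at h
    · rcases le_total 3 w with h3 | h3
      · rw [Bfd_of_ge h3] at h
        norm_num at h
      · unfold Bfd at h
        rw [gfd_of_mem h1 h3, gfd_of_le (by linarith)] at h
        have h4 : (w - 2) * (2 - (w - 1) * (3 - w) * (-1) ) * 1 = (w - 2) * (2 + (w - 1) * (3 - w)) := by
          ring
        have h5 : (w - 2) * (2 + (w - 1) * (3 - w)) = 0 := by nlinarith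
        rcases mul_eq_zero.1 h5 with h6 | h6
        · linarith
        · nlinarith [mul_nonneg (sub_nonneg.2 h1) (sub_nonneg.2 h3)]
  have heven : Bfd (-v) = Bfd v := by unfold Bfd; rw [neg_neg]; ring
  rcases le_total 0 v with h0 | h0
  · rw [abs_of_nonneg h0]; exact key v h0 h
  · rw [abs_of_nonpos h0]; exact key (-v) (by linarith) (heven.trans h)

lemma Af_two {v : ℝ} (h : |v| = 2) : Af v = 0 := by
  unfold Af st
  rw [h, c01_of_mem (by norm_num) (by norm_num)]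
  norm_num

/-- critical points of the height: the value is on the left. -/
lemma re_of_crit {ga : ℝ} {M : ℕ} {w : ℂ} (h : (plt M w).im = 0) :
    0 < w.re ∧ (pl ga M w).re = -(1 - ga) * w.re := by
  unfold plt at h
  split_ifs at h with hs
  · refine ⟨hs, ?_⟩
    rw [pl_of_pos hs, Complex.re_ofReal_mul]
    rcases cases_tau M (w.im / w.re) with h1 | ⟨l, hl, h1⟩ | h1
    · rw [pvd_low (by linarith)] at h
      norm_num at h
    · rw [pvd_cell hl h1] at h
      rw [pv_cell hl h1]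
      have h2 : Bfd (w.im / w.re - sg l) = 0 := by simpa using h
      rw [Af_two (abs_eq_two h2)]
      simp
      ring
    · rw [pvd_high (by linarith)] at h
      have h2 := std_nonneg (w.im / w.re - 8 * M)
      have h3 : (0 : ℝ) ≤ M := M.cast_nonneg
      have h4 : -(1 + 8 * (M : ℝ) * std (w.im / w.re - 8 * M)) = 0 := by simpa using h
      have h5 : 0 ≤ 8 * (M : ℝ) * std (w.im / w.re - 8 * M) := by positivity
      linarith
  · norm_num at h

/-! ### bounds for the loops -/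

lemma add_Bf_mem (v : ℝ) : 0 ≤ 4 + v + Bf v ∧ 4 + v + Bf v ≤ 8 := by
  have key : ∀ w : ℝ, 0 ≤ w → 0 ≤ 4 + w + Bf w ∧ 4 + w + Bf w ≤ 8 := by
    intro w hw
    rcases le_total w 1 with h1 | h1
    · rw [Bf_of_abs_le (by rw [abs_of_nonneg hw]; exact h1)]
      constructor <;> linarith
    · rcases le_total 3 w with h3 | h3
      · rw [Bf_of_ge h3]; constructor <;> linarith
      · rw [Bf_of_nonneg hw, gf_of_mem h1 h3]
        have hx : 0 ≤ w - 1 := by linarith
        have hy : w - 1 ≤ 2 := by linarith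
        set x := w - 1 with hxd
        have hw' : w = x + 1 := by linarith
        rw [hw']
        have h5 : 0 ≤ (2 - x) ^ 3 * (x + 2) := by
          have : 0 ≤ 2 - x := by linarith
          positivity
        have h6 : x ^ 3 / 2 - x ^ 4 / 8 ≤ 2 * x := by
          have : 0 ≤ x * (16 - 4 * x ^ 2 + x ^ 3) := by
            have : 0 ≤ 16 - 4 * x ^ 2 + x ^ 3 := by nlinarith [pow_nonneg hx 3]
            positivity
          nlinarith
        constructor
        · nlinarith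
        · nlinarith
  rcases le_total 0 v with h | h
  · exact key v h
  · have := key (-v) (by linarith)
    rw [Bf_neg] at this
    constructor <;> linarith [this.1, this.2]

lemma Fl_im_abs (M : ℕ) (τ : ℝ) : |(Fl M τ).im| ≤ 8 * M := by
  have h1 : (Fl M τ).im = (∑ l ∈ range M, (4 + (τ - sg l) + Bf (τ - sg l))) -
      8 * M * st (τ - 8 * M) := by
    unfold Fl
    rw [Complex.add_im, Complex.im_sum]
    simp
  have h2 : 0 ≤ ∑ l ∈ range M, (4 + (τ - sg l) + Bf (τ - sg l)) :=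
    sum_nonneg fun l _ => (add_Bf_mem _).1
  have h3 : ∑ l ∈ range M, (4 + (τ - sg l) + Bf (τ - sg l)) ≤ 8 * M := by
    calc _ ≤ ∑ _l ∈ range M, (8 : ℝ) := sum_le_sum fun l _ => (add_Bf_mem _).2
      _ = 8 * M := by simp; ring
  have h4 := st_nonneg (τ - 8 * M)
  have h5 := st_le_one (τ - 8 * M)
  have h6 : (0 : ℝ) ≤ M := M.cast_nonneg
  have h7 : 8 * (M : ℝ) * st (τ - 8 * M) ≤ 8 * M := by nlinarith
  have h8 : 0 ≤ 8 * (M : ℝ) * st (τ - 8 * M) := by positivity
  rw [h1, abs_le]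
  constructor <;> linarith

lemma pl_im_abs (ga : ℝ) (M : ℕ) (w : ℂ) : |(pl ga M w).im| ≤ (8 * M + 1) * (|w.re| + |w.im|) := by
  have h6 : (0 : ℝ) ≤ M := M.cast_nonneg
  have h7 := abs_nonneg w.re
  have h8 := abs_nonneg w.im
  unfold pl
  split_ifs with hs
  · have h1 : (-((2 - ga : ℝ) : ℂ) * w.re - Complex.I * w.im +
        (w.re : ℂ) * Fl M (w.im / w.re)).im = -w.im + w.re * (Fl M (w.im / w.re)).im := by
      simp
    rw [h1]
    have h2 := Fl_im_abs M (w.im / w.re)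
    calc |-w.im + w.re * (Fl M (w.im / w.re)).im| ≤ |-w.im| + |w.re * (Fl M (w.im / w.re)).im| :=
          abs_add_le _ _
      _ = |w.im| + |w.re| * |(Fl M (w.im / w.re)).im| := by rw [abs_neg, abs_mul]
      _ ≤ |w.im| + |w.re| * (8 * M) := by gcongr
      _ ≤ _ := by nlinarith [mul_nonneg h6 h8]
  · have h1 : (-((2 - ga : ℝ) : ℂ) * w.re - Complex.I * w.im + 0).im = -w.im := by simp
    rw [h1, abs_neg]
    nlinarith [mul_nonneg h6 h8, mul_nonneg h6 h7]

/-! ### sizes -/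

section space

variable {N : ℕ} (D : LD N)

lemma M_le_Mx (j : Fin N) : (D.M j : ℝ) ≤ D.Mx := by
  have : D.M j ≤ D.Mx := by
    unfold LD.Mx
    exact single_le_sum (fun i _ => Nat.zero_le _) (mem_univ j)
  exact_mod_cast this

lemma re_sq_le (z : Fin N → ℂ) (j : Fin N) : (z j).re ^ 2 ≤ SA z :=
  single_le_sum (f := fun j => (z j).re ^ 2) (fun i _ => sq_nonneg _) (mem_univ j)

lemma im_sq_le (z : Fin N → ℂ) (j : Fin N) : (z j).im ^ 2 ≤ SB z :=
  single_le_sum (f := fun j => (z j).im ^ 2) (fun i _ => sq_nonneg _) (mem_univ j)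

lemma exists_im (z : Fin N → ℂ) (hN : 0 < N) : ∃ j, SB z ≤ N * (z j).im ^ 2 := by
  have : Nonempty (Fin N) := ⟨⟨0, hN⟩⟩
  obtain ⟨j, hj⟩ := Finite.exists_max fun j => (z j).im ^ 2
  refine ⟨j, ?_⟩
  calc SB z ≤ ∑ _i : Fin N, (z j).im ^ 2 := sum_le_sum fun i _ => hj i
    _ = N * (z j).im ^ 2 := by simp

/-- some variable is active (`N d² < 1`), if `|t| ≤ K₁ |s|`. -/
lemma exists_active {d : ℝ} (hd : 0 < d) (hNd : N * d ^ 2 < 1) {z : Fin N → ℂ} (hz : z ≠ 0)
    (h2 : SB z ≤ D.K1 ^ 2 * SA z) : ∃ j, 0 < D.ch d z j := by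
  by_contra h
  push Not at h
  have hx : ∀ j, D.xr z j ≤ d := by
    intro j
    by_contra h1
    exact absurd (chi_pos hd (not_le.1 h1)) (not_lt.2 (h j))
  have hA : 0 < SA z := by
    by_contra hA
    have h3 := SAB_pos hz
    have h4 : SA z = 0 := le_antisymm (not_lt.1 hA) (SA_nonneg z)
    rw [h4] at h2 h3
    linarith
  have hNN : NN D.K1 z ^ 2 = SA z := by rw [NN_sq _ hz, gq_of_le h2]
  have h3 : ∀ j, (z j).re ^ 2 ≤ d ^ 2 * SA z := by
    intro j
    have h4 : pg D.K (z j) ≤ d * NN D.K1 z := by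
      have := hx j
      unfold LD.xr at this
      rwa [div_le_iff₀ (NN_pos _ hz)] at this
    calc (z j).re ^ 2 ≤ pg D.K (z j) ^ 2 := by rw [pg_sq]; exact le_gq
      _ ≤ (d * NN D.K1 z) ^ 2 := pow_le_pow_left₀ (pg_nonneg _ _) h4 2
      _ = d ^ 2 * SA z := by rw [mul_pow, hNN]
  have h4 : SA z ≤ N * (d ^ 2 * SA z) := by
    calc SA z ≤ ∑ _i : Fin N, d ^ 2 * SA z := sum_le_sum fun i _ => h3 i
      _ = N * (d ^ 2 * SA z) := by simp
  nlinarith

lemma Be_nonneg (d : ℝ) (e : Fin N × Fin N × ℕ) (z : Fin N → ℂ) : 0 ≤ D.Be d e z := by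
  unfold LD.Be
  have h1 : ∀ j, 0 ≤ D.R d z j := fun j =>
    mul_nonneg (ch_nonneg D d z j) (le_max_left _ _)
  have h2 : ∀ m M τ, 0 ≤ win m M τ := fun m M τ =>
    mul_nonneg (st_nonneg _) (by have := st_le_one ((τ - (8 * M - 1)) / 2); linarith)
  have h3 := h1 e.1
  have h4 := h1 e.2.1
  have h5 := h2 e.2.2 (D.M e.1) ((z e.1).im / (z e.1).re)
  have h6 := h2 (D.M e.2.1 - 1) (D.M e.2.1) ((z e.2.1).im / (z e.2.1).re)
  positivity

/-! ### region II -/

/-- derivative in the direction of one variable, region II. -/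
lemma fderiv_single {cB ga d : ℝ} (hd : 0 < d) {z : Fin N → ℂ} (hz : z ≠ 0)
    (hG : DifferentiableAt ℝ (D.G cB ga d) z) (h2 : SB z ≤ D.K1 ^ 2 * SA z) (j : Fin N) :
    (fderiv ℝ (D.G cB ga d) z (LD.vt (Pi.single j 1))).im =
      chid d (D.xr z j) * (pgd D.K (z j) / NN D.K1 z) * (pl ga (D.M j) (z j)).im +
        D.ch d z j * (plt (D.M j) (z j)).im := by
  rw [fderiv_im D hd hz hG]
  have h3 : ∀ Y, NNd D.K1 z Y = 0 := fun Y => by
    rw [NNd, gqd_of_le h2, zero_mul, zero_div]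
  rw [sum_eq_single j]
  · simp [xrd, h3]
  · intro i _ hij
    simp [xrd, h3, hij]
  · intro h
    exact absurd (Finset.mem_univ j) h

lemma region2 {cB ga d : ℝ} (hc : 0 < cB) (hga : 0 < ga) (hga1 : ga < 1) (hd : 0 < d)
    (hNd : N * d ^ 2 < 1) {z : Fin N → ℂ} (hz : z ≠ 0)
    (hG : DifferentiableAt ℝ (D.G cB ga d) z) (h2 : SB z ≤ D.K1 ^ 2 * SA z)
    (hre : 0 ≤ (D.G cB ga d z).re) :
    ∃ Y : Fin N → ℝ, (fderiv ℝ (D.G cB ga d) z (LD.vt Y)).im ≠ 0 := by
  by_contra hcon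
  push Not at hcon
  have key : ∀ j, 0 < D.ch d z j →
      0 < (z j).re ∧ (pl ga (D.M j) (z j)).re = -(1 - ga) * (z j).re := by
    intro j hj
    have hN : 0 < N := Fin.pos j
    have hzj : z j ≠ 0 := by
      intro h0
      have := lt_of_ch_pos D hd hj
      rw [xr_zero D h0] at this
      linarith
    have h3 := hcon (Pi.single j 1)
    rw [fderiv_single D hd hz hG h2 j] at h3
    rcases le_total ((z j).im ^ 2) (D.K ^ 2 * (z j).re ^ 2) with h4 | h4
    · rw [pgd, gqd_of_le h4, zero_mul, zero_div, zero_div, mul_zero, zero_mul, zero_add] at h3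
      exact re_of_crit ((mul_eq_zero.1 h3).resolve_left hj.ne')
    · exfalso
      have hfar : Far (D.M j) (z j) := by
        unfold Far
        rw [← Real.sqrt_sq_eq_abs (z j).im, Real.le_sqrt (by positivity) (sq_nonneg _)]
        · refine le_trans ?_ h4
          rw [mul_pow, sq_abs]
          refine mul_le_mul_of_nonneg_right ?_ (sq_nonneg _)
          have hM := M_le_Mx D j
          have hM0 : (0 : ℝ) ≤ D.M j := Nat.cast_nonneg _
          have hN1 : (1 : ℝ) ≤ N := by exact_mod_cast hN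
          refine pow_le_pow_left₀ (by positivity) ?_ 2
          unfold LD.K LD.K1
          have h5 : 8 * (D.M j : ℝ) + 1 ≤ 8 * D.Mx + 2 := by linarith
          have h6 : 0 ≤ 8 * (D.Mx : ℝ) + 2 := by positivity
          calc 8 * (D.M j : ℝ) + 1 ≤ (8 * D.Mx + 2) * 1 := by linarith
            _ ≤ (8 * D.Mx + 2) * N := by gcongr
            _ = (8 * D.Mx + 2) * N * 1 := by ring
            _ ≤ (8 * D.Mx + 2) * N * N := by gcongr
      rw [pl_far_im hfar, plt_far_im hfar] at h3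
      have h5 : 0 ≤ chid d (D.xr z j) * (pgd D.K (z j) / NN D.K1 z) * (z j).im := by
        have h6 : 0 ≤ pgd D.K (z j) * (z j).im := by
          rw [pgd, div_mul_eq_mul_div, mul_assoc, ← sq]
          exact div_nonneg (mul_nonneg (gqd_nonneg (sq_nonneg _) (sq_nonneg _)) (sq_nonneg _))
            (pg_nonneg _ _)
        have h7 : chid d (D.xr z j) * (pgd D.K (z j) / NN D.K1 z) * (z j).im =
            chid d (D.xr z j) * (pgd D.K (z j) * (z j).im) / NN D.K1 z := by ring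
        rw [h7]
        exact div_nonneg (mul_nonneg (chid_nonneg hd) h6) (NN_pos _ hz).le
      nlinarith
  obtain ⟨j0, hj0⟩ := exists_active D hd hNd hz h2
  have h5 : (D.G cB ga d z).re < 0 := by
    rw [G_re]
    have h6 : 0 ≤ cB * ga * ∑ e ∈ D.C, D.Be d e z :=
      mul_nonneg (by positivity) (sum_nonneg fun e _ => Be_nonneg D d e z)
    have h7 : ∑ j, D.ch d z j * (pl ga (D.M j) (z j)).re < 0 := by
      refine sum_neg' (fun j _ => ?_) ⟨j0, mem_univ _, ?_⟩
      · rcases (ch_nonneg D d z j).eq_or_lt' with h8 | h8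
        · rw [h8, zero_mul]
        · obtain ⟨h9, h10⟩ := key j h8
          rw [h10]
          have : 0 < D.ch d z j * ((1 - ga) * (z j).re) :=
            mul_pos h8 (mul_pos (by linarith) h9)
          nlinarith
      · obtain ⟨h9, h10⟩ := key j0 hj0
        rw [h10]
        have : 0 < D.ch d z j0 * ((1 - ga) * (z j0).re) :=
          mul_pos hj0 (mul_pos (by linarith) h9)
        nlinarith
    linarith
  linarith

/-! ### region I -/

/-- the index of the largest `|t_j|`, region I. -/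
lemma far_of_region1 {z : Fin N → ℂ} (h2 : D.K1 ^ 2 * SA z < SB z) {j : Fin N}
    (hj : SB z ≤ N * (z j).im ^ 2) : Far (D.M j) (z j) := by
  have hN : 0 < N := Fin.pos j
  have hN1 : (1 : ℝ) ≤ N := by exact_mod_cast hN
  unfold Far
  rw [← Real.sqrt_sq_eq_abs (z j).im, Real.le_sqrt (by positivity) (sq_nonneg _), mul_pow, sq_abs]
  have hM := M_le_Mx D j
  have hM0 : (0 : ℝ) ≤ D.M j := Nat.cast_nonneg _
  have h3 : (N : ℝ) * ((8 * D.M j + 1) ^ 2 * (z j).re ^ 2) ≤ D.K1 ^ 2 * SA z := by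
    calc (N : ℝ) * ((8 * D.M j + 1) ^ 2 * (z j).re ^ 2)
        ≤ N * ((8 * D.Mx + 2) ^ 2 * SA z) := by
          have := re_sq_le z j
          gcongr
          linarith
      _ = (8 * D.Mx + 2) ^ 2 * N * 1 * SA z := by ring
      _ ≤ (8 * D.Mx + 2) ^ 2 * N * N * SA z := by
          have := SA_nonneg z
          gcongr
      _ = D.K1 ^ 2 * SA z := by unfold LD.K1; ring
  have h4 : (N : ℝ) * ((8 * D.M j + 1) ^ 2 * (z j).re ^ 2) ≤ N * (z j).im ^ 2 := by linarith
  exact le_of_mul_le_mul_left h4 (by linarith)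

lemma K1_ge_one (hN : 0 < N) : 1 ≤ D.K1 := by
  unfold LD.K1
  have hN1 : (1 : ℝ) ≤ N := by exact_mod_cast hN
  have : (0 : ℝ) ≤ D.Mx := Nat.cast_nonneg _
  nlinarith

lemma K_ge_one (hN : 0 < N) : 1 ≤ D.K := by
  unfold LD.K
  have hN1 : (1 : ℝ) ≤ N := by exact_mod_cast hN
  have := K1_ge_one D hN
  nlinarith

/-- in region I the variable with the largest `|t|` is fully active. -/
lemma xr_region1 {d : ℝ} (hd : 0 < d) (hd1 : 1600 * N * (D.K ^ 2 + 1) * d ^ 2 ≤ 1)
    {z : Fin N → ℂ} (hz : z ≠ 0) (h2 : D.K1 ^ 2 * SA z < SB z) {j : Fin N}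
    (hj : SB z ≤ N * (z j).im ^ 2) : 2 * d ≤ D.xr z j := by
  have hN : 0 < N := Fin.pos j
  have hN1 : (1 : ℝ) ≤ N := by exact_mod_cast hN
  have hK1 := K1_ge_one D hN
  unfold LD.xr
  rw [le_div_iff₀ (NN_pos _ hz)]
  refine le_of_sq_le_sq ?_ (pg_nonneg _ _)
  rw [mul_pow, NN_sq _ hz, pg_sq]
  have hAB : SA z ≤ SB z := by
    have h0 := SA_nonneg z
    have h1 : 1 ≤ D.K1 ^ 2 := one_le_pow₀ hK1
    have : 1 * SA z ≤ D.K1 ^ 2 * SA z := mul_le_mul_of_nonneg_right h1 h0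
    linarith
  have h3 : gq D.K1 (SA z) (SB z) ≤ 2 * SB z := by
    have := gq_le (K := D.K1) (SA_nonneg z) (SB_nonneg z)
    linarith
  have h4 := gq_ge (K := D.K) (sq_nonneg (z j).re) (sq_nonneg (z j).im)
  have h5 : (z j).im ^ 2 / (200 * (D.K ^ 2 + 1)) ≤ gq D.K ((z j).re ^ 2) ((z j).im ^ 2) := by
    refine le_trans ?_ h4
    gcongr
    have := sq_nonneg (z j).re
    linarith
  refine le_trans ?_ h5
  rw [le_div_iff₀ (by positivity)]
  calc (2 * d) ^ 2 * gq D.K1 (SA z) (SB z) * (200 * (D.K ^ 2 + 1))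
      ≤ (2 * d) ^ 2 * (2 * (N * (z j).im ^ 2)) * (200 * (D.K ^ 2 + 1)) := by
        gcongr
        linarith
    _ = (1600 * N * (D.K ^ 2 + 1) * d ^ 2) * (z j).im ^ 2 := by ring
    _ ≤ 1 * (z j).im ^ 2 := by gcongr
    _ = (z j).im ^ 2 := one_mul _

/-- bound of the derivative of the total gauge. -/
lemma NNd_abs {z : Fin N → ℂ} (hz : z ≠ 0) (j : Fin N) :
    |NNd D.K1 z (Pi.single j 1)| ≤ 15 := by
  have hs : ∑ i, (z i).im * (Pi.single j (1 : ℝ) : Fin N → ℝ) i = (z j).im := by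
    rw [sum_eq_single j]
    · simp
    · intro i _ hij
      simp [hij]
    · intro h; exact absurd (Finset.mem_univ j) h
  rw [NNd, hs, abs_div, abs_mul, abs_of_pos (NN_pos D.K1 hz),
    abs_of_nonneg (gqd_nonneg (SA_nonneg z) (SB_nonneg z)), div_le_iff₀ (NN_pos _ hz)]
  have hK : (0 : ℝ) ≤ D.K1 ^ 2 := sq_nonneg _
  have h1 : gqd D.K1 (SA z) (SB z) ≤ 1 / (D.K1 ^ 2 + 1) := gqd_le (SA_nonneg z) (SB_nonneg z)
  have h2 : |(z j).im| ^ 2 ≤ 200 * (D.K1 ^ 2 + 1) * NN D.K1 z ^ 2 := by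
    rw [NN_sq _ hz, sq_abs]
    have h3 := gq_ge (K := D.K1) (SA_nonneg z) (SB_nonneg z)
    rw [div_le_iff₀ (by positivity)] at h3
    have := im_sq_le z j
    have := SA_nonneg z
    linarith
  have h4 : (gqd D.K1 (SA z) (SB z) * |(z j).im|) ^ 2 ≤ (15 * NN D.K1 z) ^ 2 := by
    calc (gqd D.K1 (SA z) (SB z) * |(z j).im|) ^ 2
        = gqd D.K1 (SA z) (SB z) ^ 2 * |(z j).im| ^ 2 := by ring
      _ ≤ (1 / (D.K1 ^ 2 + 1)) ^ 2 * (200 * (D.K1 ^ 2 + 1) * NN D.K1 z ^ 2) := by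
          gcongr
          exact gqd_nonneg (SA_nonneg z) (SB_nonneg z)
      _ = 200 / (D.K1 ^ 2 + 1) * NN D.K1 z ^ 2 := by field_simp
      _ ≤ 225 * NN D.K1 z ^ 2 := by
          gcongr
          rw [div_le_iff₀ (by positivity)]
          linarith
      _ = _ := by ring
  exact le_of_sq_le_sq h4 (by have := NN_pos D.K1 hz; positivity)

/-- contribution of a variable `i` which is not the largest one. -/
lemma term_small {ga d : ℝ} (hd : 0 < d) {z : Fin N → ℂ} (hz : z ≠ 0) (i j : Fin N) :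
    |chid d (D.xr z i) * (D.xr z i * NNd D.K1 z (Pi.single j 1) / NN D.K1 z) *
      (pl ga (D.M i) (z i)).im| ≤ 4800 * (8 * D.Mx + 1) * (D.K + 1) * d := by
  have hN : 0 < N := Fin.pos i
  have hNN := NN_pos D.K1 hz
  have hK := K_ge_one D hN
  have hM0 : (0 : ℝ) ≤ D.Mx := Nat.cast_nonneg _
  rcases le_total (2 * d) (D.xr z i) with h | h
  · rw [chid_of_ge hd h, zero_mul, zero_mul, abs_zero]
    positivity
  · have hx0 : 0 ≤ D.xr z i := div_nonneg (pg_nonneg _ _) hNN.le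
    have h1 : |chid d (D.xr z i) * D.xr z i| ≤ 4 := by
      rw [abs_of_nonneg (mul_nonneg (chid_nonneg hd) hx0)]
      calc chid d (D.xr z i) * D.xr z i ≤ 2 / d * (2 * d) := by
            gcongr
            exact chid_le hd
        _ = 4 := by field_simp; norm_num
    have h2 := NNd_abs D hz j
    have h3 : |(pl ga (D.M i) (z i)).im| ≤ (8 * D.Mx + 1) * (80 * (D.K + 1) * d * NN D.K1 z) := by
      refine (pl_im_abs ga (D.M i) (z i)).trans ?_
      have h4 : pg D.K (z i) ≤ 2 * d * NN D.K1 z := by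
        unfold LD.xr at h
        rwa [div_le_iff₀ hNN] at h
      have h5 : (z i).re ^ 2 + (z i).im ^ 2 ≤ (15 * (D.K + 1) * (2 * d * NN D.K1 z)) ^ 2 := by
        have h6 := gq_ge (K := D.K) (sq_nonneg (z i).re) (sq_nonneg (z i).im)
        rw [div_le_iff₀ (by positivity), ← pg_sq] at h6
        refine h6.trans ?_
        calc pg D.K (z i) ^ 2 * (200 * (D.K ^ 2 + 1))
            ≤ (2 * d * NN D.K1 z) ^ 2 * (225 * (D.K + 1) ^ 2) := by
              have := pg_nonneg D.K (z i)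
              gcongr
              · norm_num
              · nlinarith
          _ = _ := by ring
      have hpos : 0 ≤ 15 * (D.K + 1) * (2 * d * NN D.K1 z) := by positivity
      have h6 : |(z i).re| ≤ 15 * (D.K + 1) * (2 * d * NN D.K1 z) :=
        abs_le_of_sq_le_sq (by nlinarith [sq_nonneg (z i).im]) hpos
      have h7 : |(z i).im| ≤ 15 * (D.K + 1) * (2 * d * NN D.K1 z) :=
        abs_le_of_sq_le_sq (by nlinarith [sq_nonneg (z i).re]) hpos
      have h8 := M_le_Mx D i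
      have h9 : (0 : ℝ) ≤ D.M i := Nat.cast_nonneg _
      calc (8 * (D.M i : ℝ) + 1) * (|(z i).re| + |(z i).im|)
          ≤ (8 * D.Mx + 1) * (15 * (D.K + 1) * (2 * d * NN D.K1 z) +
            15 * (D.K + 1) * (2 * d * NN D.K1 z)) := by
            gcongr
        _ = (8 * D.Mx + 1) * (60 * (D.K + 1) * d * NN D.K1 z) := by ring
        _ ≤ _ := by
            gcongr
            norm_num
    have e : chid d (D.xr z i) * (D.xr z i * NNd D.K1 z (Pi.single j 1) / NN D.K1 z) *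
        (pl ga (D.M i) (z i)).im = (chid d (D.xr z i) * D.xr z i) *
          NNd D.K1 z (Pi.single j 1) * (pl ga (D.M i) (z i)).im / NN D.K1 z := by ring
    rw [e, abs_div, abs_mul, abs_mul, abs_of_pos hNN, div_le_iff₀ hNN]
    calc |chid d (D.xr z i) * D.xr z i| * |NNd D.K1 z (Pi.single j 1)| *
          |(pl ga (D.M i) (z i)).im|
        ≤ 4 * 15 * ((8 * D.Mx + 1) * (80 * (D.K + 1) * d * NN D.K1 z)) := by gcongr
      _ = 4800 * (8 * D.Mx + 1) * (D.K + 1) * d * NN D.K1 z := by ring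

lemma region1 {cB ga d : ℝ} (hd : 0 < d) (hd1 : 1600 * N * (D.K ^ 2 + 1) * d ^ 2 ≤ 1)
    (hd2 : N * (4800 * (8 * D.Mx + 1) * (D.K + 1) * d) ≤ 1 / 2) {z : Fin N → ℂ} (hz : z ≠ 0)
    (hG : DifferentiableAt ℝ (D.G cB ga d) z) (h2 : D.K1 ^ 2 * SA z < SB z) (hN : 0 < N) :
    ∃ j, |(fderiv ℝ (D.G cB ga d) z (LD.vt (Pi.single j 1))).im + 1| ≤ 1 / 2 ∧
      Far (D.M j) (z j) ∧ 2 * d ≤ D.xr z j ∧ SB z ≤ N * (z j).im ^ 2 := by
  obtain ⟨j, hj⟩ := exists_im z hN
  have hfar := far_of_region1 D h2 hj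
  have hx := xr_region1 D hd hd1 hz h2 hj
  refine ⟨j, ?_, hfar, hx, hj⟩
  rw [fderiv_im D hd hz hG]
  have h3 : ∀ i, chid d (D.xr z i) * xrd D z (Pi.single j 1) i * (pl ga (D.M i) (z i)).im +
      D.ch d z i * ((Pi.single j (1 : ℝ) : Fin N → ℝ) i * (plt (D.M i) (z i)).im) =
      -(chid d (D.xr z i) * (D.xr z i * NNd D.K1 z (Pi.single j 1) / NN D.K1 z) *
        (pl ga (D.M i) (z i)).im) + (if i = j then -1 else 0) := by
    intro i
    by_cases hij : i = j
    · subst hij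
      rw [chid_of_ge hd hx, LD.ch, chi_of_ge hd hx, plt_far_im hfar]
      simp
    · simp [xrd, hij]
      ring
  rw [sum_congr rfl fun i _ => h3 i, sum_add_distrib, sum_ite_eq' univ j, if_pos (Finset.mem_univ j),
    add_assoc, neg_add_cancel, add_zero]
  refine (abs_sum_le_sum_abs _ _).trans ?_
  calc ∑ i, |-(chid d (D.xr z i) * (D.xr z i * NNd D.K1 z (Pi.single j 1) / NN D.K1 z) *
        (pl ga (D.M i) (z i)).im)|
      ≤ ∑ _i : Fin N, 4800 * (8 * D.Mx + 1) * (D.K + 1) * d := by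
        refine sum_le_sum fun i _ => ?_
        rw [abs_neg]
        exact term_small D hd hz i j
    _ = N * (4800 * (8 * D.Mx + 1) * (D.K + 1) * d) := by simp
    _ ≤ 1 / 2 := hd2

/-- bounds on `d` used in region I and II. -/
def dOk (d : ℝ) : Prop := N * d ^ 2 < 1 ∧ 1600 * N * (D.K ^ 2 + 1) * d ^ 2 ≤ 1 ∧
  N * (4800 * (8 * D.Mx + 1) * (D.K + 1) * d) ≤ 1 / 2

lemma exists_dOk : ∃ d0 : ℝ, 0 < d0 ∧ ∀ d, 0 < d → d ≤ d0 → dOk D d := by
  have hN : (0 : ℝ) ≤ N := Nat.cast_nonneg _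
  have hM : (0 : ℝ) ≤ D.Mx := Nat.cast_nonneg _
  have hK : 0 ≤ D.K := by unfold LD.K LD.K1; positivity
  set a : ℝ := 1 + N + 1600 * N * (D.K ^ 2 + 1) + 2 * (N * (4800 * (8 * D.Mx + 1) * (D.K + 1)))
    with ha
  have ha1 : 1 ≤ a := by
    rw [ha]
    have : 0 ≤ (N : ℝ) + 1600 * N * (D.K ^ 2 + 1) +
      2 * (N * (4800 * (8 * D.Mx + 1) * (D.K + 1))) := by positivity
    linarith
  refine ⟨1 / a, by positivity, fun d hd h => ?_⟩
  have h1 : d * a ≤ 1 := by rwa [le_div_iff₀ (by positivity)] at h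
  have h2 : d ≤ 1 := by nlinarith
  have h3 : d ^ 2 ≤ d := by nlinarith
  have e1 : 0 ≤ 1600 * (N : ℝ) * (D.K ^ 2 + 1) := by positivity
  have e2 : 0 ≤ (N : ℝ) * (4800 * (8 * D.Mx + 1) * (D.K + 1)) := by positivity
  have h4 : d * (1 + N) ≤ 1 - d * (1600 * N * (D.K ^ 2 + 1)) -
      d * (2 * (N * (4800 * (8 * D.Mx + 1) * (D.K + 1)))) := by
    rw [ha] at h1
    linarith
  have e3 : 0 ≤ d * (1600 * N * (D.K ^ 2 + 1)) := mul_nonneg hd.le e1
  have e4 : 0 ≤ d * (2 * (N * (4800 * (8 * D.Mx + 1) * (D.K + 1)))) := by positivity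
  refine ⟨?_, ?_, ?_⟩
  · nlinarith
  · have : 1600 * N * (D.K ^ 2 + 1) * d ^ 2 ≤ 1600 * N * (D.K ^ 2 + 1) * d :=
      mul_le_mul_of_nonneg_left h3 e1
    nlinarith
  · nlinarith

/-- **K1 from smoothness.** -/
theorem k1 (hS : D.Smooth) : D.K1Prop := by
  obtain ⟨d0, hd0, hd⟩ := exists_dOk D
  have h1 : LD.Ev fun c g d => 0 < c ∧ 0 < g ∧ g < 1 ∧ 0 < d ∧ dOk D d :=
    ⟨1, one_pos, fun c hc => ⟨1 / 2, by norm_num, fun g hg hg' =>
      ⟨d0, hd0, fun d h h' => ⟨by linarith, hg, by linarith, h, hd d h h'⟩⟩⟩⟩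
  refine (hS.and h1).mono fun c g d _ _ _ ⟨hs, hc, hg, hg1, hdp, hd1, hd2, hd3⟩ z hz _ hre => ?_
  have hG : DifferentiableAt ℝ (D.G c g d) z :=
    (hs.contDiffAt (isOpen_compl_singleton.mem_nhds hz)).differentiableAt (by norm_num)
  rcases le_or_gt (SB z) (D.K1 ^ 2 * SA z) with h | h
  · exact region2 D hc hg hg1 hdp hd1 hz hG h hre
  · have hN : 0 < N := by
      by_contra h0
      have h0' : N = 0 := by omega
      subst h0'
      exact hz (Subsingleton.elim _ _)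
    obtain ⟨j, hj, -⟩ := region1 D hdp hd2 hd3 hz hG h hN
    refine ⟨Pi.single j 1, fun h0 => ?_⟩
    rw [h0, zero_add, abs_one] at hj
    norm_num at hj

end space

end Crest.Agent.R267.K1_996
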