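import Crest.Agent.R267.Calc2_957
import Crest.Agent.R267.Curve_867
import Crest.Agent.R267.K1_996

-- ▼ part R267/CLine_996
section

/-!
# Row 267, T3a: derivative of `G` along an arbitrary vector `y` (form for K2)
-/

set_option autoImplicit false

noncomputable section

namespace Crest.Agent.R267.CLine_996

open Set Filter Topology Finset
open Crest.Agent.R267.T3aDefs_957 Crest.Agent.R267.Calc_957

open Crest.Agent.R267.TLine_996 (SA SB SA_nonneg SB_nonneg SAB_pos NN_eq NN_pos NN_sq chid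
  hasDerivAt_chi chid_of_le chid_of_ge chid_nonneg chid_le chi_of_le chi_of_ge ch_nonneg ch_le_one
  xr_zero sq_pos_of_ne G_im G_re)
open Crest.Agent.R267.Calc2_957 (pa pb ps pt gA gB)
open Crest.Agent.R267.K1_996 (re_sq_le im_sq_le M_le_Mx)

section space

variable {N : ℕ} (D : LD N)

/-- the line through `z` with velocity `y`. -/
def lc (z y : Fin N → ℂ) (h : ℝ) : Fin N → ℂ := z + h • y

@[simp] lemma lc_zero (z y : Fin N → ℂ) : lc z y 0 = z := by simp [lc]

lemma lc_apply (z y : Fin N → ℂ) (h : ℝ) (i : Fin N) : lc z y h i = z i + (h : ℂ) * y i := by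
  simp [lc]

@[simp] lemma lc_re (z y : Fin N → ℂ) (h : ℝ) (i : Fin N) :
    (lc z y h i).re = (z i).re + h * (y i).re := by
  rw [lc_apply]; simp

@[simp] lemma lc_im (z y : Fin N → ℂ) (h : ℝ) (i : Fin N) :
    (lc z y h i).im = (z i).im + h * (y i).im := by
  rw [lc_apply]; simp

lemma hasDerivAt_lc (z y : Fin N → ℂ) : HasDerivAt (fun h : ℝ => lc z y h) y 0 := by
  unfold lc
  simpa using ((hasDerivAt_id (0 : ℝ)).smul_const y).const_add z

lemma hasDerivAt_lc_apply (z y : Fin N → ℂ) (i : Fin N) :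
    HasDerivAt (fun h : ℝ => lc z y h i) (y i) 0 :=
  (hasDerivAt_pi.1 (hasDerivAt_lc z y)) i

lemma comp_lc {E : Type*} [NormedAddCommGroup E] [NormedSpace ℝ E] {F : (Fin N → ℂ) → E}
    {F' : (Fin N → ℂ) →L[ℝ] E} {z : Fin N → ℂ} (hF : HasFDerivAt F F' z) (y : Fin N → ℂ) :
    HasDerivAt (fun h => F (lc z y h)) (F' y) 0 := by
  have h2 : HasFDerivAt F F' (lc z y 0) := by rw [lc_zero]; exact hF
  exact h2.comp_hasDerivAt (0 : ℝ) (hasDerivAt_lc z y)

lemma comp_lc_apply {E : Type*} [NormedAddCommGroup E] [NormedSpace ℝ E] {F : ℂ → E}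
    {F' : ℂ →L[ℝ] E} {z : Fin N → ℂ} {i : Fin N} (hF : HasFDerivAt F F' (z i))
    (y : Fin N → ℂ) : HasDerivAt (fun h => F (lc z y h i)) (F' (y i)) 0 := by
  have h2 : HasFDerivAt F F' (lc z y 0 i) := by rw [lc_zero]; exact hF
  exact h2.comp_hasDerivAt (0 : ℝ) (hasDerivAt_lc_apply z y i)


/-! ### the pieces -/

/-- derivative of `pl`. -/
def plD (ga : ℝ) (M : ℕ) (w y : ℂ) : ℂ := (y.re : ℂ) * pa ga M w + (y.im : ℂ) * pb M w

lemma hasDerivAt_pl (ga : ℝ) (M : ℕ) {z : Fin N → ℂ} (y : Fin N → ℂ) {i : Fin N} (hi : z i ≠ 0) :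
    HasDerivAt (fun h => pl ga M (lc z y h i)) (plD ga M (z i) (y i)) 0 := by
  refine (comp_lc_apply (Calc2_957.hasFDerivAt_pl ga M hi) y).congr_deriv ?_
  simp [plD]

/-- derivative of the planar gauge. -/
def pgD (K : ℝ) (w y : ℂ) : ℝ := ps K w * y.re + pt K w * y.im

lemma hasDerivAt_pg (K : ℝ) {z : Fin N → ℂ} (y : Fin N → ℂ) {i : Fin N} (hi : z i ≠ 0) :
    HasDerivAt (fun h => pg K (lc z y h i)) (pgD K (z i) (y i)) 0 := by
  refine (comp_lc_apply (Calc2_957.hasFDerivAt_pg K hi) y).congr_deriv ?_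
  simp [pgD]

/-- derivative of the total gauge. -/
def NND (K : ℝ) (z y : Fin N → ℂ) : ℝ :=
  (gA K (SA z) (SB z) * (∑ j, (z j).re * (y j).re) +
    gB K (SA z) (SB z) * (∑ j, (z j).im * (y j).im)) / NN K z

lemma hasFDerivAt_SA (z : Fin N → ℂ) : HasFDerivAt (SA (N := N))
    (∑ j, (2 * (z j).re) • (Complex.reCLM.comp (ContinuousLinearMap.proj (R := ℝ) j))) z := by
  have h1 : (SA (N := N)) = fun w : Fin N → ℂ => ∑ j, (w j).re ^ 2 := rfl
  rw [h1]
  refine HasFDerivAt.fun_sum fun j _ => ?_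
  have h2 : HasFDerivAt (fun w : Fin N → ℂ => (w j).re)
      (Complex.reCLM.comp (ContinuousLinearMap.proj (R := ℝ) (φ := fun _ : Fin N => ℂ) j)) z :=
    (Complex.reCLM.comp (ContinuousLinearMap.proj (R := ℝ) (φ := fun _ : Fin N => ℂ) j)).hasFDerivAt
  refine (h2.pow 2).congr_fderiv ?_
  ext w
  simp

lemma hasFDerivAt_SB (z : Fin N → ℂ) : HasFDerivAt (SB (N := N))
    (∑ j, (2 * (z j).im) • (Complex.imCLM.comp (ContinuousLinearMap.proj (R := ℝ) j))) z := by
  have h1 : (SB (N := N)) = fun w : Fin N → ℂ => ∑ j, (w j).im ^ 2 := rfl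
  rw [h1]
  refine HasFDerivAt.fun_sum fun j _ => ?_
  have h2 : HasFDerivAt (fun w : Fin N → ℂ => (w j).im)
      (Complex.imCLM.comp (ContinuousLinearMap.proj (R := ℝ) (φ := fun _ : Fin N => ℂ) j)) z :=
    (Complex.imCLM.comp (ContinuousLinearMap.proj (R := ℝ) (φ := fun _ : Fin N => ℂ) j)).hasFDerivAt
  refine (h2.pow 2).congr_fderiv ?_
  ext w
  simp

lemma hasDerivAt_NN (K : ℝ) {z : Fin N → ℂ} (hz : z ≠ 0) (y : Fin N → ℂ) :
    HasDerivAt (fun h => NN K (lc z y h)) (NND K z y) 0 := by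
  have h0 := SAB_pos hz
  have hpos := TLine_996.gq_pos (K := K) (SA_nonneg z) (SB_nonneg z) h0
  have h1 := comp_lc ((Calc2_957.hasFDerivAt_gq K (hasFDerivAt_SA z) (hasFDerivAt_SB z) h0.ne').sqrt
    hpos.ne') y
  refine h1.congr_deriv ?_
  have hn := (NN_pos K hz).ne'
  have e1 : (∑ j, (2 * (z j).re) • (Complex.reCLM.comp (ContinuousLinearMap.proj (R := ℝ) j)) :
      (Fin N → ℂ) →L[ℝ] ℝ) y = 2 * ∑ j, (z j).re * (y j).re := by
    rw [_root_.sum_apply, mul_sum]
    refine sum_congr rfl fun j _ => ?_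
    simp [mul_assoc]
  have e2 : (∑ j, (2 * (z j).im) • (Complex.imCLM.comp (ContinuousLinearMap.proj (R := ℝ) j)) :
      (Fin N → ℂ) →L[ℝ] ℝ) y = 2 * ∑ j, (z j).im * (y j).im := by
    rw [_root_.sum_apply, mul_sum]
    refine sum_congr rfl fun j _ => ?_
    simp [mul_assoc]
  rw [_root_.smul_apply, _root_.add_apply, _root_.smul_apply, _root_.smul_apply, e1, e2, ← NN_eq,
    NND]
  simp only [smul_eq_mul]
  field_simp

/-- derivative of the relative size. -/
def xrD (z y : Fin N → ℂ) (i : Fin N) : ℝ :=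
  (pgD D.K (z i) (y i) - D.xr z i * NND D.K1 z y) / NN D.K1 z

lemma hasDerivAt_xr {z : Fin N → ℂ} (hz : z ≠ 0) (y : Fin N → ℂ) {i : Fin N} (hi : z i ≠ 0) :
    HasDerivAt (fun h => D.xr (lc z y h) i) (xrD D z y i) 0 := by
  unfold LD.xr
  have h1 := (hasDerivAt_pg D.K y hi).div (hasDerivAt_NN D.K1 hz y) (by
    rw [lc_zero]; exact (NN_pos _ hz).ne')
  refine h1.congr_deriv ?_
  rw [lc_zero, xrD, LD.xr]
  have := (NN_pos D.K1 hz).ne'
  field_simp

/-- at a vanishing variable the cut-off vanishes nearby. -/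
lemma ch_zero_near {d : ℝ} (hd : 0 < d) {z : Fin N → ℂ} (hz : z ≠ 0) (y : Fin N → ℂ) {i : Fin N}
    (hi : z i = 0) : ∀ᶠ h in 𝓝 (0 : ℝ), D.ch d (lc z y h) i = 0 := by
  have h1 : ∀ h, pg D.K (lc z y h i) ≤ √((h * (y i).re) ^ 2 + (h * (y i).im) ^ 2) := by
    intro h
    unfold pg
    rw [lc_re, lc_im, hi]
    simp only [Complex.zero_re, Complex.zero_im, zero_add]
    exact Real.sqrt_le_sqrt (TLine_996.gq_le (sq_nonneg _) (sq_nonneg _))
  have h2 : Tendsto (fun h : ℝ => √((h * (y i).re) ^ 2 + (h * (y i).im) ^ 2)) (𝓝 0) (𝓝 0) := by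
    have : Continuous fun h : ℝ => √((h * (y i).re) ^ 2 + (h * (y i).im) ^ 2) := by fun_prop
    simpa using this.tendsto 0
  have h3 := squeeze_zero (fun h => TLine_996.pg_nonneg D.K (lc z y h i)) h1 h2
  have h4 := (hasDerivAt_NN D.K1 hz y).continuousAt.tendsto
  rw [lc_zero] at h4
  have h5 := h3.div h4 (NN_pos _ hz).ne'
  rw [zero_div] at h5
  filter_upwards [h5 (Iio_mem_nhds hd)] with h hh
  exact chi_of_le hd (le_of_lt hh)

/-- derivative of the cut-off. -/
lemma hasDerivAt_ch {d : ℝ} (hd : 0 < d) {z : Fin N → ℂ} (hz : z ≠ 0) (y : Fin N → ℂ)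
    (i : Fin N) :
    HasDerivAt (fun h => D.ch d (lc z y h) i) (chid d (D.xr z i) * xrD D z y i) 0 := by
  rcases eq_or_ne (z i) 0 with hi | hi
  · rw [xr_zero D hi, chid_of_le hd hd.le, zero_mul]
    exact (hasDerivAt_const (0 : ℝ) (0 : ℝ)).congr_of_eventuallyEq (ch_zero_near D hd hz y hi)
  · have h1 : HasDerivAt (chi d) (chid d (D.xr z i)) (D.xr (lc z y 0) i) := by
      rw [lc_zero]; exact hasDerivAt_chi d _
    exact h1.comp (0 : ℝ) (hasDerivAt_xr D hz y hi)

/-- derivative of one summand of `G`. -/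
def tmD (ga d : ℝ) (z y : Fin N → ℂ) (i : Fin N) : ℂ :=
  ((chid d (D.xr z i) * xrD D z y i : ℝ) : ℂ) * pl ga (D.M i) (z i) +
    (D.ch d z i : ℂ) * plD ga (D.M i) (z i) (y i)

lemma hasDerivAt_tm {ga d : ℝ} (hd : 0 < d) {z : Fin N → ℂ} (hz : z ≠ 0) (y : Fin N → ℂ)
    (i : Fin N) :
    HasDerivAt (fun h => (D.ch d (lc z y h) i : ℂ) * pl ga (D.M i) (lc z y h i))
      (tmD D ga d z y i) 0 := by
  rcases eq_or_ne (z i) 0 with hi | hi
  · have h0 : tmD D ga d z y i = 0 := by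
      unfold tmD
      rw [xr_zero D hi, chid_of_le hd hd.le, LD.ch, xr_zero D hi, chi_of_le hd hd.le]
      simp
    rw [h0]
    refine (hasDerivAt_const (0 : ℝ) (0 : ℂ)).congr_of_eventuallyEq ?_
    filter_upwards [ch_zero_near D hd hz y hi] with h hh
    rw [hh]
    simp
  · have h1 := (hasDerivAt_ch D hd hz y i).ofReal_comp.mul (hasDerivAt_pl ga (D.M i) y hi)
    refine h1.congr_deriv ?_
    rw [lc_zero]
    unfold tmD
    ring

/-- **derivative of `G` along `y`**, if the derivatives of the couplings are known. -/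
lemma fderiv_G {cB ga d : ℝ} (hd : 0 < d) {z : Fin N → ℂ} (hz : z ≠ 0)
    (hG : DifferentiableAt ℝ (D.G cB ga d) z) (y : Fin N → ℂ) {b : Fin N × Fin N × ℕ → ℝ}
    (hb : ∀ e ∈ D.C, HasDerivAt (fun h => D.Be d e (lc z y h)) (b e) 0) :
    fderiv ℝ (D.G cB ga d) z y = ∑ i, tmD D ga d z y i - ((cB * ga * ∑ e ∈ D.C, b e : ℝ) : ℂ) := by
  have h1 := comp_lc hG.hasFDerivAt y
  have h2 : HasDerivAt (fun h => ∑ i, (D.ch d (lc z y h) i : ℂ) * pl ga (D.M i) (lc z y h i))
      (∑ i, tmD D ga d z y i) 0 := HasDerivAt.fun_sum fun i _ => hasDerivAt_tm D hd hz y i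
  have h3 : HasDerivAt (fun h => cB * ga * ∑ e ∈ D.C, D.Be d e (lc z y h))
      (cB * ga * ∑ e ∈ D.C, b e) 0 := (HasDerivAt.fun_sum hb).const_mul _
  have h4 := h2.sub h3.ofReal_comp
  exact h1.unique h4

/-! ### the harmonic coupling -/

/-- derivative of `u v / (u + v)` for nonnegative functions (also at `u = v = 0`). -/
lemma hasDerivAt_H {u v : ℝ → ℝ} {u' v' : ℝ} (hu : HasDerivAt u u' 0) (hv : HasDerivAt v v' 0)
    (hu0 : ∀ᶠ h in 𝓝 (0 : ℝ), 0 ≤ u h) (hv0 : ∀ᶠ h in 𝓝 (0 : ℝ), 0 ≤ v h) :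
    HasDerivAt (fun h => u h * v h / (u h + v h))
      ((v 0 ^ 2 * u' + u 0 ^ 2 * v') / (u 0 + v 0) ^ 2) 0 := by
  have hu1 : 0 ≤ u 0 := hu0.self_of_nhds
  have hv1 : 0 ≤ v 0 := hv0.self_of_nhds
  rcases eq_or_ne (u 0 + v 0) 0 with h | h
  · have ha : u 0 = 0 := by linarith
    have hb : v 0 = 0 := by linarith
    have hu' : u' = 0 := by
      have : IsLocalMin u 0 := by
        filter_upwards [hu0] with h hh
        rw [ha]; exact hh
      exact this.hasDerivAt_eq_zero hu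
    rw [ha, hb]
    simp only [ne_eq, OfNat.ofNat_ne_zero, not_false_eq_true, zero_pow, zero_mul, add_zero,
      div_zero]
    rw [hasDerivAt_iff_isLittleO] at hu ⊢
    rw [hu', ha] at hu
    simp only [sub_zero, smul_eq_mul, mul_zero, ha, hb, zero_div] at hu ⊢
    refine Asymptotics.IsBigO.trans_isLittleO ?_ hu
    refine Asymptotics.IsBigO.of_bound 1 ?_
    filter_upwards [hu0, hv0] with h h1 h2
    rw [one_mul, Real.norm_of_nonneg h1, Real.norm_of_nonneg (by positivity)]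
    rcases (add_nonneg h1 h2).eq_or_lt' with h3 | h3
    · rw [h3, div_zero]; exact h1
    · rw [div_le_iff₀ h3]
      nlinarith [mul_nonneg h1 h1]
  · refine ((hu.mul hv).div (hu.add hv) h).congr_deriv ?_
    simp only [Pi.mul_apply, Pi.add_apply]
    congr 1
    ring

end space

end Crest.Agent.R267.CLine_996
end
end

-- ▼ part R267/AbsG_996
section

/-!
# Row 267, T3a and T3aN: abstract lobed function, derivative along an arbitrary line

`AG N`: planar functions `P j`, gauges `pg K`, `NN K1`, cut-offs `chi d`, real coupling `B`.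
Both `T3aDefs_957.LD.G` and `T3aNDefs_88.SD.G` are instances (by `rfl`).
-/

set_option autoImplicit false

noncomputable section

namespace Crest.Agent.R267.AbsG_996

open Set Filter Topology Finset
open Crest.Agent.R267.T3aDefs_957 (chi pg NN gq)
open Crest.Agent.R267.T3aDefs_957.LD (vt vs)
open Crest.Agent.R267.Calc_957 (std st_nonneg st_le_one)
open Crest.Agent.R267.TLine_996 (SA SB SA_nonneg SB_nonneg SAB_pos NN_eq NN_pos NN_sq chid
  hasDerivAt_chi chid_of_le chid_of_ge chid_nonneg chid_le chi_of_le chi_of_ge chi_pos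
  sq_pos_of_ne pg_sq pg_nonneg pg_zero gq_ge gq_le le_gq gq_of_le)
open Crest.Agent.R267.Calc2_957 (ps pt gA gB)
open Crest.Agent.R267.K1_996 (re_sq_le im_sq_le exists_im)
open Crest.Agent.R267.CLine_996

/-- abstract lobed function. -/
structure AG (N : ℕ) where
  K1 : ℝ
  ga : ℝ
  T : ℝ
  P : Fin N → ℂ → ℂ
  B : (Fin N → ℂ) → ℝ

namespace AG

variable {N : ℕ} (A : AG N)

def K : ℝ := A.K1 * N

/-- relative size. -/
def xr (z : Fin N → ℂ) (j : Fin N) : ℝ := pg A.K (z j) / NN A.K1 z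

/-- cut-off. -/
def ch (d : ℝ) (z : Fin N → ℂ) (j : Fin N) : ℝ := chi d (A.xr z j)

/-- cut-off positive part. -/
def R (d : ℝ) (z : Fin N → ℂ) (j : Fin N) : ℝ := A.ch d z j * max 0 (z j).re

/-- the function. -/
def G (d : ℝ) (z : Fin N → ℂ) : ℂ := ∑ j, (A.ch d z j : ℂ) * A.P j (z j) - ((A.B z : ℝ) : ℂ)

/-- planar facts. -/
structure Ok : Prop where
  T1 : 1 ≤ A.T
  K1T : A.T * N ≤ A.K1
  ga0 : 0 < A.ga
  ga1 : A.ga < 1
  diff : ∀ j w, w ≠ 0 → DifferentiableAt ℝ (A.P j) w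
  far : ∀ j w, A.T * w.re < |w.im| →
    A.P j w = -((2 - A.ga : ℝ) : ℂ) * w.re - Complex.I * w.im
  hom : ∀ j w (r : ℝ), 0 < r → A.P j ((r : ℂ) * w) = (r : ℂ) * A.P j w
  re_le : ∀ j w, 0 < w.re → (A.P j w).re ≤ A.ga * w.re
  im_le : ∀ j w, |(A.P j w).im| ≤ A.T * (|w.re| + |w.im|)
  crit : ∀ j w, w ≠ 0 → (fderiv ℝ (A.P j) w Complex.I).im = 0 →
    0 < w.re ∧ (A.P j w).re ≤ -(1 - A.ga) * w.re
  B0 : ∀ z, 0 ≤ A.B z

/-! ### derivatives -/

/-- derivative of the relative size. -/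
def xrD (z y : Fin N → ℂ) (i : Fin N) : ℝ :=
  (pgD A.K (z i) (y i) - A.xr z i * NND A.K1 z y) / NN A.K1 z

lemma hasDerivAt_xr {z : Fin N → ℂ} (hz : z ≠ 0) (y : Fin N → ℂ) {i : Fin N} (hi : z i ≠ 0) :
    HasDerivAt (fun h => A.xr (lc z y h) i) (A.xrD z y i) 0 := by
  unfold AG.xr
  have h1 := (hasDerivAt_pg A.K y hi).div (hasDerivAt_NN A.K1 hz y) (by
    rw [lc_zero]; exact (NN_pos _ hz).ne')
  refine h1.congr_deriv ?_
  rw [lc_zero, xrD, AG.xr]
  have := (NN_pos A.K1 hz).ne'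
  field_simp

lemma ch_nonneg (d : ℝ) (z : Fin N → ℂ) (j : Fin N) : 0 ≤ A.ch d z j := st_nonneg _

lemma ch_le_one (d : ℝ) (z : Fin N → ℂ) (j : Fin N) : A.ch d z j ≤ 1 := st_le_one _

lemma xr_zero {z : Fin N → ℂ} {j : Fin N} (h : z j = 0) : A.xr z j = 0 := by
  simp [AG.xr, h]

lemma xr_nonneg (z : Fin N → ℂ) (j : Fin N) : 0 ≤ A.xr z j :=
  div_nonneg (pg_nonneg _ _) (Real.sqrt_nonneg _)


/-- at a vanishing variable the cut-off vanishes nearby. -/
lemma ch_zero_near {d : ℝ} (hd : 0 < d) {z : Fin N → ℂ} (hz : z ≠ 0) (y : Fin N → ℂ) {i : Fin N}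
    (hi : z i = 0) : ∀ᶠ h in 𝓝 (0 : ℝ), A.ch d (lc z y h) i = 0 := by
  have h1 : ∀ h, pg A.K (lc z y h i) ≤ √((h * (y i).re) ^ 2 + (h * (y i).im) ^ 2) := by
    intro h
    unfold pg
    rw [lc_re, lc_im, hi]
    simp only [Complex.zero_re, Complex.zero_im, zero_add]
    exact Real.sqrt_le_sqrt (TLine_996.gq_le (sq_nonneg _) (sq_nonneg _))
  have h2 : Tendsto (fun h : ℝ => √((h * (y i).re) ^ 2 + (h * (y i).im) ^ 2)) (𝓝 0) (𝓝 0) := by
    have : Continuous fun h : ℝ => √((h * (y i).re) ^ 2 + (h * (y i).im) ^ 2) := by fun_prop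
    simpa using this.tendsto 0
  have h3 := squeeze_zero (fun h => TLine_996.pg_nonneg A.K (lc z y h i)) h1 h2
  have h4 := (hasDerivAt_NN A.K1 hz y).continuousAt.tendsto
  rw [lc_zero] at h4
  have h5 := h3.div h4 (NN_pos _ hz).ne'
  rw [zero_div] at h5
  filter_upwards [h5 (Iio_mem_nhds hd)] with h hh
  exact chi_of_le hd (le_of_lt hh)

/-- derivative of the cut-off. -/
lemma hasDerivAt_ch {d : ℝ} (hd : 0 < d) {z : Fin N → ℂ} (hz : z ≠ 0) (y : Fin N → ℂ)
    (i : Fin N) :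
    HasDerivAt (fun h => A.ch d (lc z y h) i) (chid d (A.xr z i) * A.xrD z y i) 0 := by
  rcases eq_or_ne (z i) 0 with hi | hi
  · rw [xr_zero A hi, chid_of_le hd hd.le, zero_mul]
    exact (hasDerivAt_const (0 : ℝ) (0 : ℝ)).congr_of_eventuallyEq (ch_zero_near A hd hz y hi)
  · have h1 : HasDerivAt (chi d) (chid d (A.xr z i)) (A.xr (lc z y 0) i) := by
      rw [lc_zero]; exact hasDerivAt_chi d _
    exact h1.comp (0 : ℝ) (hasDerivAt_xr A hz y hi)

/-- derivative of one summand of `G`. -/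
def tmD (d : ℝ) (z y : Fin N → ℂ) (i : Fin N) : ℂ :=
  ((chid d (A.xr z i) * A.xrD z y i : ℝ) : ℂ) * A.P i (z i) +
    (A.ch d z i : ℂ) * fderiv ℝ (A.P i) (z i) (y i)

lemma tmD_zero {d : ℝ} (hd : 0 < d) {z : Fin N → ℂ} (y : Fin N → ℂ) {i : Fin N} (hi : z i = 0) :
    A.tmD d z y i = 0 := by
  unfold tmD
  rw [xr_zero A hi, chid_of_le hd hd.le, AG.ch, xr_zero A hi, chi_of_le hd hd.le]
  simp

variable {A}

lemma hasDerivAt_tm (hA : A.Ok) {d : ℝ} (hd : 0 < d) {z : Fin N → ℂ} (hz : z ≠ 0)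
    (y : Fin N → ℂ) (i : Fin N) :
    HasDerivAt (fun h => (A.ch d (lc z y h) i : ℂ) * A.P i (lc z y h i)) (A.tmD d z y i) 0 := by
  rcases eq_or_ne (z i) 0 with hi | hi
  · rw [tmD_zero A hd y hi]
    refine (hasDerivAt_const (0 : ℝ) (0 : ℂ)).congr_of_eventuallyEq ?_
    filter_upwards [ch_zero_near A hd hz y hi] with h hh
    rw [hh]
    simp
  · have h0 := comp_lc_apply (hA.diff i (z i) hi).hasFDerivAt y
    have h1 := (hasDerivAt_ch A hd hz y i).ofReal_comp.mul h0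
    refine h1.congr_deriv ?_
    rw [lc_zero]
    unfold tmD
    ring

/-- **derivative of `G` along `y`**, if the derivative of the coupling is known. -/
lemma fderiv_G (hA : A.Ok) {d : ℝ} (hd : 0 < d) {z : Fin N → ℂ} (hz : z ≠ 0)
    (hG : DifferentiableAt ℝ (A.G d) z) (y : Fin N → ℂ) {b : ℝ}
    (hb : HasDerivAt (fun h => A.B (lc z y h)) b 0) :
    fderiv ℝ (A.G d) z y = ∑ i, A.tmD d z y i - (b : ℂ) := by
  have h1 := comp_lc hG.hasFDerivAt y
  have h2 : HasDerivAt (fun h => ∑ i, (A.ch d (lc z y h) i : ℂ) * A.P i (lc z y h i))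
      (∑ i, A.tmD d z y i) 0 := HasDerivAt.fun_sum fun i _ => hasDerivAt_tm hA hd hz y i
  exact h1.unique (h2.sub hb.ofReal_comp)

/-- **derivative of `Im G` along `y`.** -/
lemma fderiv_im (hA : A.Ok) {d : ℝ} (hd : 0 < d) {z : Fin N → ℂ} (hz : z ≠ 0)
    (hG : DifferentiableAt ℝ (A.G d) z) (y : Fin N → ℂ) :
    (fderiv ℝ (A.G d) z y).im = ∑ i, (A.tmD d z y i).im := by
  have h1 : HasDerivAt (fun h => (A.G d (lc z y h)).im) (fderiv ℝ (A.G d) z y).im 0 :=
    Complex.imCLM.hasFDerivAt.comp_hasDerivAt (0 : ℝ) (comp_lc hG.hasFDerivAt y)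
  have h2 : HasDerivAt (fun h => (A.G d (lc z y h)).im) (∑ i, (A.tmD d z y i).im) 0 := by
    have h3 : (fun h => (A.G d (lc z y h)).im) =
        fun h => ∑ i, ((A.ch d (lc z y h) i : ℂ) * A.P i (lc z y h i)).im := by
      funext h
      unfold AG.G
      rw [Complex.sub_im, Complex.im_sum, Complex.ofReal_im, sub_zero]
    rw [h3]
    exact HasDerivAt.fun_sum fun i _ =>
      Complex.imCLM.hasFDerivAt.comp_hasDerivAt (0 : ℝ) (hasDerivAt_tm hA hd hz y i)
  exact h1.unique h2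



/-! ### planar pieces -/

/-- steep or `re ≤ 0`: the planar function is linear nearby. -/
lemma fderiv_far (hA : A.Ok) (j : Fin N) {w : ℂ} (h : A.T * w.re < |w.im|) (y : ℂ) :
    fderiv ℝ (A.P j) w y = -((2 - A.ga : ℝ) : ℂ) * y.re - Complex.I * y.im := by
  have h1 : A.P j =ᶠ[𝓝 w] fun w : ℂ => -((2 - A.ga : ℝ) : ℂ) * (w.re : ℂ) +
      (-Complex.I) * (w.im : ℂ) := by
    have hc : Continuous fun w : ℂ => |w.im| - A.T * w.re := by fun_prop
    have h2 := hc.continuousAt.eventually (lt_mem_nhds (sub_pos.2 h))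
    filter_upwards [h2] with w hw
    rw [hA.far j w (by linarith)]
    ring
  rw [h1.fderiv_eq, (Calc2_957.hasFDerivAt_lin _ _ w).fderiv]
  simp
  ring

/-- Euler relation. -/
lemma fderiv_hom (hA : A.Ok) (j : Fin N) {w : ℂ} (hw : 0 < w.re) :
    fderiv ℝ (A.P j) w (-(w / (w.re : ℂ))) = -(A.P j w / (w.re : ℂ)) := by
  have hw0 : w ≠ 0 := fun h => by rw [h] at hw; simp at hw
  have hF := (hA.diff j w hw0).hasFDerivAt
  have h1 : HasDerivAt (fun h : ℝ => ((1 - h / w.re : ℝ) : ℂ) * w) (-(w / (w.re : ℂ))) 0 := by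
    have h2 : HasDerivAt (fun h : ℝ => 1 - h / w.re) (-(1 / w.re)) 0 := by
      simpa using ((hasDerivAt_id (0 : ℝ)).div_const w.re).const_sub 1
    refine (h2.ofReal_comp.mul_const w).congr_deriv ?_
    push_cast
    ring
  have h3 : HasFDerivAt (A.P j) (fderiv ℝ (A.P j) w) (((1 - (0 : ℝ) / w.re : ℝ) : ℂ) * w) := by
    simpa using hF
  have h4 := h3.comp_hasDerivAt (0 : ℝ) h1
  have h5 : HasDerivAt (fun h : ℝ => A.P j (((1 - h / w.re : ℝ) : ℂ) * w))
      (-(A.P j w / (w.re : ℂ))) 0 := by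
    have h6 : (fun h : ℝ => A.P j (((1 - h / w.re : ℝ) : ℂ) * w)) =ᶠ[𝓝 0]
        fun h : ℝ => ((1 - h / w.re : ℝ) : ℂ) * A.P j w := by
      have h7 : ∀ᶠ h : ℝ in 𝓝 0, h < w.re := gt_mem_nhds hw
      filter_upwards [h7] with h hh
      rw [hA.hom]
      rw [sub_pos, div_lt_one hw]
      exact hh
    refine HasDerivAt.congr_of_eventuallyEq ?_ h6
    have h2 : HasDerivAt (fun h : ℝ => 1 - h / w.re) (-(1 / w.re)) 0 := by
      simpa using ((hasDerivAt_id (0 : ℝ)).div_const w.re).const_sub 1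
    refine (h2.ofReal_comp.mul_const (A.P j w)).congr_deriv ?_
    push_cast
    ring
  exact h4.unique h5

/-! ### sizes -/

lemma abs_re_le_pg (w : ℂ) : |w.re| ≤ pg A.K w := Calc2_957.abs_re_le_pg _ _

lemma K1_ge_one (hA : A.Ok) (hN : 0 < N) : 1 ≤ A.K1 := by
  have hN1 : (1 : ℝ) ≤ N := by exact_mod_cast hN
  have := hA.T1
  have := hA.K1T
  nlinarith

lemma K1_le_K (hA : A.Ok) (hN : 0 < N) : A.K1 ≤ A.K := by
  unfold AG.K
  have hN1 : (1 : ℝ) ≤ N := by exact_mod_cast hN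
  have := K1_ge_one hA hN
  nlinarith

lemma T_le_K1 (hA : A.Ok) (hN : 0 < N) : A.T ≤ A.K1 := by
  have hN1 : (1 : ℝ) ≤ N := by exact_mod_cast hN
  have := hA.T1
  have := hA.K1T
  nlinarith

lemma K_ge_one (hA : A.Ok) (hN : 0 < N) : 1 ≤ A.K := (K1_ge_one hA hN).trans (K1_le_K hA hN)

/-- `|t| ≤ 15 (K + 1) pg K`. -/
lemma abs_le_pg {K : ℝ} (hK : 0 ≤ K) (w : ℂ) :
    |w.re| ≤ 15 * (K + 1) * pg K w ∧ |w.im| ≤ 15 * (K + 1) * pg K w := by
  have h6 := gq_ge (K := K) (sq_nonneg w.re) (sq_nonneg w.im)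
  rw [div_le_iff₀ (by positivity), ← pg_sq] at h6
  have h5 : w.re ^ 2 + w.im ^ 2 ≤ (15 * (K + 1) * pg K w) ^ 2 := by
    refine h6.trans ?_
    calc pg K w ^ 2 * (200 * (K ^ 2 + 1)) ≤ pg K w ^ 2 * (225 * (K + 1) ^ 2) := by
          gcongr
          · norm_num
          · nlinarith
      _ = _ := by ring
  have hpos : 0 ≤ 15 * (K + 1) * pg K w := by
    have := pg_nonneg K w
    positivity
  exact ⟨abs_le_of_sq_le_sq (by nlinarith [sq_nonneg w.im]) hpos,
    abs_le_of_sq_le_sq (by nlinarith [sq_nonneg w.re]) hpos⟩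

lemma abs_le_NN {K : ℝ} (hK : 0 ≤ K) {z : Fin N → ℂ} (hz : z ≠ 0) (j : Fin N) :
    |(z j).re| ≤ NN K z ∧ |(z j).im| ≤ 15 * (K + 1) * NN K z := by
  have hNN := NN_pos K hz
  have h1 := NN_sq K hz
  have h6 := gq_ge (K := K) (SA_nonneg z) (SB_nonneg z)
  rw [div_le_iff₀ (by positivity), ← h1] at h6
  have h2 := re_sq_le z j
  have h3 := im_sq_le z j
  constructor
  · refine abs_le_of_sq_le_sq ?_ hNN.le
    rw [h1]
    exact h2.trans le_gq
  · refine abs_le_of_sq_le_sq ?_ (by positivity)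
    calc (z j).im ^ 2 ≤ SA z + SB z := by have := SA_nonneg z; linarith
      _ ≤ NN K z ^ 2 * (200 * (K ^ 2 + 1)) := h6
      _ ≤ NN K z ^ 2 * (225 * (K + 1) ^ 2) := by
          gcongr
          · norm_num
          · nlinarith
      _ = _ := by ring

/-- bound of the derivative of the total gauge. -/
lemma NND_abs {K : ℝ} (hK : 0 ≤ K) {z : Fin N → ℂ} (hz : z ≠ 0) (y : Fin N → ℂ) :
    |NND K z y| ≤ ∑ j, |(y j).re| + 15 * (K + 1) * ∑ j, |(y j).im| := by
  have hNN := NN_pos K hz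
  have gA0 := Calc2_957.gA_nonneg (K := K) (SA_nonneg z) (SB_nonneg z)
  have gA1 := Calc2_957.gA_le_one (K := K) (SA_nonneg z) (SB_nonneg z)
  have gB0 := Calc2_957.gB_nonneg (K := K) (SA_nonneg z) (SB_nonneg z)
  have gB1 := Calc2_957.gB_le (K := K) (SA_nonneg z) (SB_nonneg z)
  have e1 : |∑ j, (z j).re * (y j).re| ≤ NN K z * ∑ j, |(y j).re| := by
    refine (abs_sum_le_sum_abs _ _).trans ?_
    rw [mul_sum]
    refine sum_le_sum fun j _ => ?_
    rw [abs_mul]
    exact mul_le_mul_of_nonneg_right (abs_le_NN hK hz j).1 (abs_nonneg _)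
  have e2 : |∑ j, (z j).im * (y j).im| ≤ (15 * (K + 1) * NN K z) * ∑ j, |(y j).im| := by
    refine (abs_sum_le_sum_abs _ _).trans ?_
    rw [mul_sum]
    refine sum_le_sum fun j _ => ?_
    rw [abs_mul]
    exact mul_le_mul_of_nonneg_right (abs_le_NN hK hz j).2 (abs_nonneg _)
  have s1 : 0 ≤ ∑ j, |(y j).re| := sum_nonneg fun _ _ => abs_nonneg _
  have s2 : 0 ≤ ∑ j, |(y j).im| := sum_nonneg fun _ _ => abs_nonneg _
  unfold NND
  rw [abs_div, abs_of_pos hNN, div_le_iff₀ hNN]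
  refine (abs_add_le _ _).trans ?_
  rw [abs_mul, abs_mul, abs_of_nonneg gA0, abs_of_nonneg gB0]
  calc gA K (SA z) (SB z) * |∑ j, (z j).re * (y j).re| +
        gB K (SA z) (SB z) * |∑ j, (z j).im * (y j).im|
      ≤ 1 * (NN K z * ∑ j, |(y j).re|) + 1 * ((15 * (K + 1) * NN K z) * ∑ j, |(y j).im|) := by
        gcongr
    _ = _ := by ring

/-! ### region I -/

/-- the variable with the largest `|t|` is steep. -/
lemma far_of_region1 (hA : A.Ok) {z : Fin N → ℂ} (h2 : A.K1 ^ 2 * SA z < SB z) {j : Fin N}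
    (hj : SB z ≤ N * (z j).im ^ 2) : A.T * |(z j).re| < |(z j).im| := by
  have hN : 0 < N := Fin.pos j
  have hN1 : (1 : ℝ) ≤ N := by exact_mod_cast hN
  have hT := hA.T1
  refine abs_lt_of_sq_lt_sq' ?_ (abs_nonneg _) |>.2
  rw [mul_pow, sq_abs, sq_abs]
  have h3 : (N : ℝ) * (A.T ^ 2 * (z j).re ^ 2) ≤ A.K1 ^ 2 * SA z := by
    calc (N : ℝ) * (A.T ^ 2 * (z j).re ^ 2) ≤ N * (A.T ^ 2 * SA z) := by
          have := re_sq_le z j
          gcongr
      _ = A.T ^ 2 * N * 1 * SA z := by ring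
      _ ≤ A.T ^ 2 * N * N * SA z := by
          have := SA_nonneg z
          gcongr
      _ = (A.T * N) ^ 2 * SA z := by ring
      _ ≤ A.K1 ^ 2 * SA z := by
          have := SA_nonneg z
          have := hA.K1T
          gcongr
  have h4 : (N : ℝ) * (A.T ^ 2 * (z j).re ^ 2) < N * (z j).im ^ 2 := by linarith
  exact lt_of_mul_lt_mul_left h4 (by linarith)

/-- it is fully active. -/
lemma xr_region1 (hA : A.Ok) {d : ℝ} (hd : 0 < d) (hd1 : 1600 * N * (A.K ^ 2 + 1) * d ^ 2 ≤ 1)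
    {z : Fin N → ℂ} (hz : z ≠ 0) (h2 : A.K1 ^ 2 * SA z < SB z) {j : Fin N}
    (hj : SB z ≤ N * (z j).im ^ 2) : 2 * d ≤ A.xr z j := by
  have hN : 0 < N := Fin.pos j
  have hN1 : (1 : ℝ) ≤ N := by exact_mod_cast hN
  have hK1 := K1_ge_one hA hN
  unfold AG.xr
  rw [le_div_iff₀ (NN_pos _ hz)]
  refine le_of_sq_le_sq ?_ (pg_nonneg _ _)
  rw [mul_pow, NN_sq _ hz, pg_sq]
  have hAB : SA z ≤ SB z := by
    have h0 := SA_nonneg z
    have h1 : 1 ≤ A.K1 ^ 2 := one_le_pow₀ hK1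
    have : 1 * SA z ≤ A.K1 ^ 2 * SA z := mul_le_mul_of_nonneg_right h1 h0
    linarith
  have h3 : gq A.K1 (SA z) (SB z) ≤ 2 * SB z := by
    have := gq_le (K := A.K1) (SA_nonneg z) (SB_nonneg z)
    linarith
  have h4 := gq_ge (K := A.K) (sq_nonneg (z j).re) (sq_nonneg (z j).im)
  have h5 : (z j).im ^ 2 / (200 * (A.K ^ 2 + 1)) ≤ gq A.K ((z j).re ^ 2) ((z j).im ^ 2) := by
    refine le_trans ?_ h4
    gcongr
    have := sq_nonneg (z j).re
    linarith
  refine le_trans ?_ h5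
  rw [le_div_iff₀ (by positivity)]
  calc (2 * d) ^ 2 * gq A.K1 (SA z) (SB z) * (200 * (A.K ^ 2 + 1))
      ≤ (2 * d) ^ 2 * (2 * (N * (z j).im ^ 2)) * (200 * (A.K ^ 2 + 1)) := by
        gcongr
        linarith
    _ = (1600 * N * (A.K ^ 2 + 1) * d ^ 2) * (z j).im ^ 2 := by ring
    _ ≤ 1 * (z j).im ^ 2 := by gcongr
    _ = (z j).im ^ 2 := one_mul _

/-- `chid x · x ≤ 4`. -/
lemma chid_mul_le {d : ℝ} (hd : 0 < d) (z : Fin N → ℂ) (i : Fin N) :
    0 ≤ chid d (A.xr z i) * A.xr z i ∧ chid d (A.xr z i) * A.xr z i ≤ 4 ∧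
      (2 * d ≤ A.xr z i → chid d (A.xr z i) = 0) ∧
      chid d (A.xr z i) * A.xr z i ^ 2 ≤ 8 * d := by
  have h0 := A.xr_nonneg z i
  have h1 := chid_nonneg (x := A.xr z i) hd
  refine ⟨mul_nonneg h1 h0, ?_, fun h => chid_of_ge hd h, ?_⟩
  · rcases le_total (2 * d) (A.xr z i) with h | h
    · rw [chid_of_ge hd h, zero_mul]; norm_num
    · calc chid d (A.xr z i) * A.xr z i ≤ 2 / d * (2 * d) := by
            gcongr
            exact chid_le hd
        _ = 4 := by field_simp; norm_num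
  · rcases le_total (2 * d) (A.xr z i) with h | h
    · rw [chid_of_ge hd h, zero_mul]; positivity
    · calc chid d (A.xr z i) * A.xr z i ^ 2 ≤ 2 / d * (2 * d) ^ 2 := by
            gcongr
            exact chid_le hd
        _ = 8 * d := by field_simp; norm_num

/-- `|Im P|` in terms of the relative size. -/
lemma im_le_xr (hA : A.Ok) {z : Fin N → ℂ} (hz : z ≠ 0) (i : Fin N) :
    |(A.P i (z i)).im| ≤ 30 * A.T * (A.K + 1) * (A.xr z i * NN A.K1 z) := by
  have hN : 0 < N := Fin.pos i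
  have hK := K_ge_one hA hN
  have hT := hA.T1
  have h1 := abs_le_pg (K := A.K) (by linarith) (z i)
  have hx : A.xr z i * NN A.K1 z = pg A.K (z i) := by
    unfold AG.xr
    rw [div_mul_cancel₀ _ (NN_pos _ hz).ne']
  rw [hx]
  calc |(A.P i (z i)).im| ≤ A.T * (|(z i).re| + |(z i).im|) := hA.im_le _ _
    _ ≤ A.T * (15 * (A.K + 1) * pg A.K (z i) + 15 * (A.K + 1) * pg A.K (z i)) := by
        gcongr
        exacts [h1.1, h1.2]
    _ = _ := by ring

/-- imaginary part of one summand. -/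
lemma tm_im_le (hA : A.Ok) {d : ℝ} (hd : 0 < d) {z : Fin N → ℂ} (hz : z ≠ 0) (y : Fin N → ℂ)
    (i : Fin N) {p L : ℝ} (hp : |pgD A.K (z i) (y i)| ≤ p) (hL : |NND A.K1 z y| ≤ L) :
    |chid d (A.xr z i) * A.xrD z y i * (A.P i (z i)).im| ≤
      30 * A.T * (A.K + 1) * (4 * p + 8 * d * L) := by
  have hN : 0 < N := Fin.pos i
  have hK := K_ge_one hA hN
  have hT := hA.T1
  have hNN := NN_pos A.K1 hz
  have hx := A.xr_nonneg z i
  obtain ⟨c0, c1, -, c2⟩ := chid_mul_le (A := A) hd z i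
  have hc := chid_nonneg (x := A.xr z i) hd
  have hp0 : 0 ≤ p := (abs_nonneg _).trans hp
  have hL0 : 0 ≤ L := (abs_nonneg _).trans hL
  have h1 : |A.xrD z y i| ≤ (p + A.xr z i * L) / NN A.K1 z := by
    unfold xrD
    rw [abs_div, abs_of_pos hNN]
    gcongr
    refine (abs_sub _ _).trans ?_
    rw [abs_mul, abs_of_nonneg hx]
    gcongr
  rw [abs_mul, abs_mul, abs_of_nonneg hc]
  calc chid d (A.xr z i) * |A.xrD z y i| * |(A.P i (z i)).im|
      ≤ chid d (A.xr z i) * ((p + A.xr z i * L) / NN A.K1 z) *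
        (30 * A.T * (A.K + 1) * (A.xr z i * NN A.K1 z)) := by
        gcongr
        exact im_le_xr hA hz i
    _ = 30 * A.T * (A.K + 1) * ((chid d (A.xr z i) * A.xr z i) * p +
          (chid d (A.xr z i) * A.xr z i ^ 2) * L) := by
        field_simp
    _ ≤ _ := by gcongr

/-- **region I, imaginary part.** -/
lemma regI_im (hA : A.Ok) {d : ℝ} (hd : 0 < d)
    (hd2 : N * (3600 * A.T * (A.K + 1) * (A.K1 + 1) * d) ≤ 1 / 2)
    {z : Fin N → ℂ} (hz : z ≠ 0) (hG : DifferentiableAt ℝ (A.G d) z) {j : Fin N}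
    (hfar : A.T * |(z j).re| < |(z j).im|) (hx : 2 * d ≤ A.xr z j) :
    |(fderiv ℝ (A.G d) z (vt (Pi.single j 1))).im + 1| ≤ 1 / 2 := by
  have hN : 0 < N := Fin.pos j
  have hK := K_ge_one hA hN
  have hK1 := K1_ge_one hA hN
  have hT := hA.T1
  have hfar' : A.T * (z j).re < |(z j).im| :=
    lt_of_le_of_lt (mul_le_mul_of_nonneg_left (le_abs_self _) (by linarith)) hfar
  set y : Fin N → ℂ := vt (Pi.single j 1) with hy
  have hyi : ∀ i, i ≠ j → y i = 0 := by
    intro i hi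
    rw [hy]
    simp [vt, hi]
  have hyj : y j = Complex.I := by
    rw [hy]
    simp [vt]
  have hL : |NND A.K1 z y| ≤ 15 * (A.K1 + 1) := by
    have h1 := NND_abs (K := A.K1) (by linarith) hz y
    have e1 : ∑ i, |(y i).re| = 0 := by
      refine sum_eq_zero fun i _ => ?_
      rcases eq_or_ne i j with h | h
      · rw [h, hyj]; simp
      · rw [hyi i h]; simp
    have e2 : ∑ i, |(y i).im| = 1 := by
      rw [sum_eq_single j]
      · rw [hyj]; simp
      · intro i _ h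
        rw [hyi i h]; simp
      · intro h; exact absurd (Finset.mem_univ j) h
    rw [e1, e2] at h1
    linarith
  rw [fderiv_im hA hd hz hG]
  have h3 : ∀ i, |(A.tmD d z y i).im + (if i = j then 1 else 0)| ≤
      3600 * A.T * (A.K + 1) * (A.K1 + 1) * d := by
    intro i
    rcases eq_or_ne i j with hij | hij
    · subst hij
      unfold tmD
      rw [chid_of_ge hd hx, AG.ch, chi_of_ge hd hx, fderiv_far hA i hfar', hyj]
      simp
      positivity
    · rw [if_neg hij, add_zero]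
      unfold tmD
      rw [hyi i hij, map_zero, mul_zero, add_zero, Complex.im_ofReal_mul]
      refine (tm_im_le hA hd hz y i (p := 0) ?_ hL).trans (le_of_eq ?_)
      · rw [hyi i hij]; simp [pgD]
      · ring
  have h4 : ∑ i, (A.tmD d z y i).im + 1 =
      ∑ i, ((A.tmD d z y i).im + (if i = j then 1 else 0)) := by
    rw [sum_add_distrib, sum_ite_eq' univ j, if_pos (Finset.mem_univ j)]
  rw [h4]
  refine (abs_sum_le_sum_abs _ _).trans ?_
  calc ∑ i, |(A.tmD d z y i).im + (if i = j then 1 else 0)|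
      ≤ ∑ _i : Fin N, 3600 * A.T * (A.K + 1) * (A.K1 + 1) * d := sum_le_sum fun i _ => h3 i
    _ = N * (3600 * A.T * (A.K + 1) * (A.K1 + 1) * d) := by simp
    _ ≤ 1 / 2 := hd2

end AG

end Crest.Agent.R267.AbsG_996
end
end

-- ▼ part R267/AbsK_996

/-!
# Row 267, T3a and T3aN: K2 in region I, and K1, for the abstract lobed function
-/

set_option autoImplicit false

noncomputable section

namespace Crest.Agent.R267.AbsK_996

open Set Filter Topology Finset
open Crest.Agent.R267.T3aDefs_957 (chi pg NN gq)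
open Crest.Agent.R267.T3aDefs_957.LD (vt vs)
open Crest.Agent.R267.Calc_957 (std st_nonneg st_le_one)
open Crest.Agent.R267.TLine_996 (SA SB SA_nonneg SB_nonneg SAB_pos NN_eq NN_pos NN_sq chid
  hasDerivAt_chi chid_of_le chid_of_ge chid_nonneg chid_le chi_of_le chi_of_ge chi_pos
  sq_pos_of_ne pg_sq pg_nonneg pg_zero gq_ge gq_le le_gq gq_of_le)
open Crest.Agent.R267.Calc2_957 (ps pt gA gB)
open Crest.Agent.R267.K1_996 (re_sq_le im_sq_le exists_im)
open Crest.Agent.R267.CLine_996 Crest.Agent.R267.AbsG_996 Crest.Agent.R267.AbsG_996.AG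

variable {N : ℕ} {A : AG N}

/-- the coupling does not increase when the active parts decrease along rays. -/
def BOk (A : AG N) (d : ℝ) : Prop := ∀ z : Fin N → ℂ, z ≠ 0 → ∀ y : Fin N → ℂ,
  (∀ i, z i = 0 ∨ A.T * (z i).re < |(z i).im| ∨
    (0 < (z i).re ∧ y i = -(z i / ((z i).re : ℂ)) ∧
      ∃ r ≤ 0, HasDerivAt (fun h => A.R d (lc z y h) i) r 0)) →
  ∃ b ≤ 0, HasDerivAt (fun h => A.B (lc z y h)) b 0

/-- trichotomy. -/
lemma cases_var (hA : A.Ok) (w : ℂ) :
    w = 0 ∨ A.T * w.re < |w.im| ∨ (0 < w.re ∧ |w.im| ≤ A.T * w.re) := by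
  have hT := hA.T1
  rcases lt_or_ge (A.T * w.re) |w.im| with h | h
  · exact Or.inr (Or.inl h)
  · rcases lt_trichotomy w.re 0 with h1 | h1 | h1
    · have := abs_nonneg w.im
      nlinarith
    · left
      rw [h1, mul_zero] at h
      exact Complex.ext h1 (abs_nonpos_iff.1 h)
    · exact Or.inr (Or.inr ⟨h1, h⟩)

/-! ### the vector of region I -/

/-- `-1 - i τ` on the variables near the loops, `-1` on the others, `-1 + i c` on the variable
`I` of the largest `|t|`. -/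
def Yv (A : AG N) (z : Fin N → ℂ) (I : Fin N) (c : ℝ) : Fin N → ℝ := fun i =>
  open Classical in
  if i = I then c else if 0 < (z i).re ∧ |(z i).im| ≤ A.T * (z i).re then
    -((z i).im / (z i).re) else 0

lemma vs_Yv (z : Fin N → ℂ) (I : Fin N) (c : ℝ) :
    vs 1 (Yv A z I c) = vs 1 (Yv A z I 0) + c • (vt (Pi.single I 1) : Fin N → ℂ) := by
  funext i
  by_cases h : i = I
  · subst h
    simp [vs, vt, Yv]
    ring
  · simp [vs, vt, Yv, h]

lemma vs_re (Y : Fin N → ℝ) (i : Fin N) : (vs 1 Y i).re = -1 := by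
  simp [vs]

lemma vs_im (Y : Fin N → ℝ) (i : Fin N) : (vs 1 Y i).im = Y i := by
  simp [vs]

lemma y_near {z : Fin N → ℂ} {I i : Fin N} {c : ℝ} (hi : i ≠ I) (h1 : 0 < (z i).re)
    (h2 : |(z i).im| ≤ A.T * (z i).re) : vs 1 (Yv A z I c) i = -(z i / ((z i).re : ℂ)) := by
  have h3 : (z i) = ((z i).re : ℂ) + ((z i).im : ℂ) * Complex.I := (Complex.re_add_im _).symm
  have h4 : ((z i).re : ℂ) ≠ 0 := by exact_mod_cast h1.ne'
  unfold vs Yv
  rw [if_neg hi, if_pos ⟨h1, h2⟩]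
  push_cast
  conv_rhs => rw [h3]
  simp only [Complex.add_re, Complex.ofReal_re, Complex.mul_re, Complex.I_re, mul_zero,
    Complex.ofReal_im, Complex.I_im, mul_one, sub_self, add_zero]
  field_simp
  ring

lemma y_far {z : Fin N → ℂ} {I i : Fin N} {c : ℝ} (hi : i ≠ I)
    (h2 : A.T * (z i).re < |(z i).im|) : vs 1 (Yv A z I c) i = -1 := by
  unfold vs Yv
  rw [if_neg hi, if_neg fun h => absurd h.2 (not_le.2 h2)]
  simp

lemma y_I {z : Fin N → ℂ} {I : Fin N} {c : ℝ} : vs 1 (Yv A z I c) I = -1 + Complex.I * (c : ℂ) := by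
  unfold vs Yv
  rw [if_pos rfl]
  simp

lemma Yv_abs (hA : A.Ok) (z : Fin N → ℂ) {I i : Fin N} (c : ℝ) (hi : i ≠ I) :
    |Yv A z I c i| ≤ A.T := by
  have hT := hA.T1
  unfold Yv
  rw [if_neg hi]
  split_ifs with h
  · rw [abs_neg, abs_div, abs_of_pos h.1, div_le_iff₀ h.1]
    exact h.2
  · rw [abs_zero]; linarith

lemma NND_Yv (hA : A.Ok) {z : Fin N → ℂ} (hz : z ≠ 0) (I : Fin N) (c : ℝ) :
    |NND A.K1 z (vs 1 (Yv A z I c))| ≤ N + 15 * (A.K1 + 1) * (N * A.T + |c|) := by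
  have hN : 0 < N := Fin.pos I
  have hK1 := K1_ge_one hA hN
  have hT := hA.T1
  have h1 := NND_abs (K := A.K1) (by linarith) hz (vs 1 (Yv A z I c))
  have e1 : ∑ i, |(vs 1 (Yv A z I c) i).re| = N := by
    simp only [vs_re, abs_neg, abs_one]
    simp
  have e2 : ∑ i, |(vs 1 (Yv A z I c) i).im| ≤ N * A.T + |c| := by
    simp only [vs_im]
    calc ∑ i, |Yv A z I c i| ≤ ∑ i : Fin N, (A.T + if i = I then |c| else 0) := by
          refine sum_le_sum fun i _ => ?_
          rcases eq_or_ne i I with h | h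
          · subst h
            rw [if_pos rfl]
            unfold Yv
            rw [if_pos rfl]
            linarith
          · rw [if_neg h, add_zero]
            exact Yv_abs hA z c h
      _ = N * A.T + |c| := by
          rw [sum_add_distrib, sum_ite_eq' univ I, if_pos (Finset.mem_univ I)]
          simp
  rw [e1] at h1
  refine h1.trans ?_
  gcongr

/-! ### gauges -/

lemma ps_abs (K : ℝ) (w : ℂ) : |ps K w| ≤ 1 := by
  rcases eq_or_ne (pg K w) 0 with h | h
  · unfold ps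
    rw [h, div_zero, abs_zero]
    exact zero_le_one
  · have hp : 0 < pg K w := lt_of_le_of_ne (pg_nonneg _ _) (Ne.symm h)
    unfold ps
    rw [abs_div, abs_of_pos hp, div_le_one hp, abs_mul,
      abs_of_nonneg (Calc2_957.gA_nonneg (sq_nonneg _) (sq_nonneg _))]
    calc gA K (w.re ^ 2) (w.im ^ 2) * |w.re| ≤ 1 * pg K w :=
          mul_le_mul (Calc2_957.gA_le_one (sq_nonneg _) (sq_nonneg _))
            (Calc2_957.abs_re_le_pg _ _) (abs_nonneg _) zero_le_one
      _ = pg K w := one_mul _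

lemma pgD_neg_one (K : ℝ) (w : ℂ) : pgD K w (-1) = -ps K w := by simp [pgD]

lemma pgD_ray {K : ℝ} (hK : 0 ≤ K) {w : ℂ} (h : 0 < w.re) (h1 : |w.im| ≤ K * w.re) :
    pgD K w (-(w / (w.re : ℂ))) = -1 := by
  have hw : w ≠ 0 := fun h2 => by rw [h2] at h; simp at h
  have h2 := Calc2_957.pg_euler K hw
  have h3 : pg K w = w.re := by
    rw [Calc2_957.pg_of_le hK (by rwa [abs_of_pos h]), abs_of_pos h]
  have e1 : (-(w / (w.re : ℂ))).re = -1 := by
    rw [Complex.neg_re, Complex.div_ofReal_re, div_self h.ne']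
  have e2 : (-(w / (w.re : ℂ))).im = -(w.im / w.re) := by
    rw [Complex.neg_im, Complex.div_ofReal_im]
  unfold pgD
  rw [e1, e2]
  have h4 : ps K w * -1 + pt K w * -(w.im / w.re) = -(ps K w * w.re + pt K w * w.im) / w.re := by
    field_simp
    ring
  rw [h4, h2, h3, neg_div, div_self h.ne']

/-! ### summands -/

section summand

variable {d L : ℝ} {z y : Fin N → ℂ} {i : Fin N}

/-- near the loops, radial direction. -/
lemma tm_near (hA : A.Ok) (hd : 0 < d) (hz : z ≠ 0) (h1 : 0 < (z i).re)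
    (h2 : |(z i).im| ≤ A.T * (z i).re) (hy : y i = -(z i / ((z i).re : ℂ)))
    (hL : |NND A.K1 z y| ≤ L) (hdL : 2 * d * L ≤ 1) :
    ∃ r : ℝ, r ≤ 0 ∧ -9 ≤ r ∧ HasDerivAt (fun h => A.R d (lc z y h) i) r 0 ∧
      A.tmD d z y i = ((r / (z i).re : ℝ) : ℂ) * A.P i (z i) := by
  have hN : 0 < N := Fin.pos i
  have hK1 := K1_ge_one hA hN
  have hKK := K1_le_K hA hN
  have hTK := T_le_K1 hA hN
  have hT := hA.T1
  have hNN := NN_pos A.K1 hz
  have hx := A.xr_nonneg z i
  have hL0 : 0 ≤ L := (abs_nonneg _).trans hL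
  have hK : |(z i).im| ≤ A.K * (z i).re := h2.trans (by gcongr; linarith)
  have hpg : pg A.K (z i) = (z i).re := by
    rw [Calc2_957.pg_of_le (by linarith) (by rwa [abs_of_pos h1]), abs_of_pos h1]
  have hpd : pgD A.K (z i) (y i) = -1 := by
    rw [hy]; exact pgD_ray (by linarith) h1 hK
  have hxs : (z i).re = A.xr z i * NN A.K1 z := by
    unfold AG.xr
    rw [hpg, div_mul_cancel₀ _ hNN.ne']
  set ν := NND A.K1 z y with hν
  have hxd : A.xrD z y i * (z i).re = A.xr z i * (-1 - A.xr z i * ν) := by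
    unfold AG.xrD
    rw [hpd, ← hν, hxs]
    field_simp
  set r : ℝ := chid d (A.xr z i) * (A.xrD z y i * (z i).re) - A.ch d z i with hr
  have hc := A.ch_nonneg d z i
  have hc1 := A.ch_le_one d z i
  obtain ⟨c0, c1, c2, c3⟩ := chid_mul_le (A := A) hd z i
  have hr2 : 0 ≤ (chid d (A.xr z i) * A.xr z i) * (1 + A.xr z i * ν) ∧
      (chid d (A.xr z i) * A.xr z i) * (1 + A.xr z i * ν) ≤ 8 := by
    rcases le_total (2 * d) (A.xr z i) with h | h
    · rw [c2 h]; norm_num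
    · have h3 : |A.xr z i * ν| ≤ 1 := by
        rw [abs_mul, abs_of_nonneg hx]
        calc A.xr z i * |ν| ≤ 2 * d * L := by gcongr
          _ ≤ 1 := hdL
      rw [abs_le] at h3
      constructor
      · exact mul_nonneg c0 (by linarith)
      · calc (chid d (A.xr z i) * A.xr z i) * (1 + A.xr z i * ν) ≤ 4 * 2 := by
              apply mul_le_mul c1 (by linarith) (by linarith) (by norm_num)
          _ = 8 := by norm_num
  have hr3 : r = -((chid d (A.xr z i) * A.xr z i) * (1 + A.xr z i * ν)) - A.ch d z i := by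
    rw [hr, hxd]; ring
  refine ⟨r, ?_, ?_, ?_, ?_⟩
  · rw [hr3]; linarith [hr2.1]
  · rw [hr3]; linarith [hr2.2]
  · have h3 := hasDerivAt_ch A hd hz y i
    have hyre : (y i).re = -1 := by
      rw [hy, Complex.neg_re, Complex.div_ofReal_re, div_self h1.ne']
    have h4 : HasDerivAt (fun h : ℝ => max 0 (lc z y h i).re) (-1) 0 := by
      have h5 : HasDerivAt (fun h : ℝ => (lc z y h i).re) (-1) 0 := by
        simp only [lc_re, hyre]
        simpa using ((hasDerivAt_id (0 : ℝ)).mul_const (-1 : ℝ)).const_add (z i).re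
      refine h5.congr_of_eventuallyEq ?_
      have h6 : ∀ᶠ h : ℝ in 𝓝 0, 0 < (lc z y h i).re := by
        refine h5.continuousAt.eventually (lt_mem_nhds ?_)
        simpa using h1
      filter_upwards [h6] with h hh
      exact max_eq_right hh.le
    have h5 := h3.mul h4
    refine h5.congr_deriv ?_
    simp only [lc_zero]
    rw [max_eq_right h1.le, hr]
    ring
  · unfold AG.tmD
    rw [hy, fderiv_hom hA i h1, hr]
    have : ((z i).re : ℂ) ≠ 0 := by exact_mod_cast h1.ne'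
    push_cast
    field_simp
    ring

/-- steep or negative variable, direction `-1`. -/
lemma tm_far (hA : A.Ok) (hd : 0 < d) (hz : z ≠ 0) (h : A.T * (z i).re < |(z i).im|)
    (hy : y i = -1) (hL : |NND A.K1 z y| ≤ L) :
    -(16 * d * L) ≤ (A.tmD d z y i).re := by
  have hNN := NN_pos A.K1 hz
  have hx := A.xr_nonneg z i
  have hL0 : 0 ≤ L := (abs_nonneg _).trans hL
  have hc := A.ch_nonneg d z i
  have hcd := chid_nonneg (x := A.xr z i) hd
  obtain ⟨c0, c1, c2, c3⟩ := chid_mul_le (A := A) hd z i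
  have g0 := hA.ga0
  have g1 := hA.ga1
  have hxs : |(z i).re| ≤ A.xr z i * NN A.K1 z := by
    unfold AG.xr
    rw [div_mul_cancel₀ _ hNN.ne']
    exact Calc2_957.abs_re_le_pg _ _
  set ν := NND A.K1 z y with hν
  have e : (A.tmD d z y i).re = (2 - A.ga) * (chid d (A.xr z i) *
      (ps A.K (z i) * (z i).re) / NN A.K1 z + chid d (A.xr z i) * A.xr z i * ((z i).re * ν) /
        NN A.K1 z + A.ch d z i) := by
    unfold AG.tmD AG.xrD
    rw [fderiv_far hA i h, hA.far i (z i) h, hy, pgD_neg_one, ← hν]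
    simp
    ring
  rw [e]
  have h1 : 0 ≤ chid d (A.xr z i) * (ps A.K (z i) * (z i).re) / NN A.K1 z :=
    div_nonneg (mul_nonneg hcd (Calc2_957.ps_mul_nonneg _ _)) hNN.le
  have h2 : -(8 * d * L) ≤ chid d (A.xr z i) * A.xr z i * ((z i).re * ν) / NN A.K1 z := by
    rw [le_div_iff₀ hNN]
    have h3 : |chid d (A.xr z i) * A.xr z i * ((z i).re * ν)| ≤ 8 * d * L * NN A.K1 z := by
      rw [abs_mul, abs_mul (z i).re, abs_of_nonneg c0]
      calc chid d (A.xr z i) * A.xr z i * (|(z i).re| * |ν|)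
          ≤ chid d (A.xr z i) * A.xr z i * ((A.xr z i * NN A.K1 z) * L) := by gcongr
        _ = (chid d (A.xr z i) * A.xr z i ^ 2) * L * NN A.K1 z := by ring
        _ ≤ _ := by gcongr
    have := (abs_le.1 h3).1
    linarith
  have h4 : 0 ≤ 8 * d * L := by positivity
  nlinarith

end summand

/-! ### K2 in region I -/

/-- bound of the imaginary part of the derivative along `vs 1 (Yv 0)`. -/
def L1 (A : AG N) : ℝ := N * (240 * A.T * (A.K + 1) + A.T * (1 + A.T))

/-- bound of the derivative of the total gauge. -/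
def LL (A : AG N) : ℝ := N + 15 * (A.K1 + 1) * (N * A.T + 2 * L1 A)

lemma im_zero_le (hA : A.Ok) {d : ℝ} (hd : 0 < d) {z : Fin N → ℂ} (hz : z ≠ 0)
    (hG : DifferentiableAt ℝ (A.G d) z) {I : Fin N} (hfar : A.T * (z I).re < |(z I).im|)
    (hd3 : 16 * d * LL A * (N + 1) ≤ 1 / 2) :
    |(fderiv ℝ (A.G d) z (vs 1 (Yv A z I 0))).im| ≤ L1 A := by
  have hN : 0 < N := Fin.pos I
  have hN1 : (1 : ℝ) ≤ N := by exact_mod_cast hN
  have hK := K_ge_one hA hN
  have hK1 := K1_ge_one hA hN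
  have hKK := K1_le_K hA hN
  have hTK := T_le_K1 hA hN
  have hT := hA.T1
  have hL := NND_Yv hA hz I 0
  rw [abs_zero, add_zero] at hL
  set L0 : ℝ := N + 15 * (A.K1 + 1) * (N * A.T) with hL0
  have hL1 : 0 ≤ L1 A := by unfold L1; positivity
  have hLL : L0 ≤ LL A := by
    unfold LL
    rw [hL0]
    gcongr
    linarith
  have hL00 : 0 ≤ L0 := by rw [hL0]; positivity
  have hLL0 : 0 ≤ LL A := hL00.trans hLL
  have hdL : 8 * d * L0 ≤ 4 := by
    have h1 : 16 * d * L0 * 1 ≤ 16 * d * LL A * (N + 1) :=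
      mul_le_mul (by gcongr) (by linarith) zero_le_one (by positivity)
    linarith
  rw [fderiv_im hA hd hz hG]
  refine (abs_sum_le_sum_abs _ _).trans ?_
  have key : ∀ i, |(A.tmD d z (vs 1 (Yv A z I 0)) i).im| ≤
      240 * A.T * (A.K + 1) + A.T * (1 + A.T) := by
    intro i
    have hpos : 0 ≤ 240 * A.T * (A.K + 1) + A.T * (1 + A.T) := by positivity
    rcases eq_or_ne (z i) 0 with h0 | h0
    · rw [tmD_zero A hd _ h0]
      simpa using hpos
    · -- the two parts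
      have hsplit : |(A.tmD d z (vs 1 (Yv A z I 0)) i).im| ≤
          |chid d (A.xr z i) * A.xrD z (vs 1 (Yv A z I 0)) i * (A.P i (z i)).im| +
          |(fderiv ℝ (A.P i) (z i) (vs 1 (Yv A z I 0) i)).im| := by
        unfold AG.tmD
        rw [Complex.add_im, Complex.im_ofReal_mul, Complex.im_ofReal_mul]
        refine (abs_add_le _ _).trans (add_le_add le_rfl ?_)
        rw [abs_mul, abs_of_nonneg (A.ch_nonneg d z i)]
        exact mul_le_of_le_one_left (abs_nonneg _) (A.ch_le_one d z i)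
      have h1 : ∀ p : |pgD A.K (z i) (vs 1 (Yv A z I 0) i)| ≤ 1,
          |chid d (A.xr z i) * A.xrD z (vs 1 (Yv A z I 0)) i * (A.P i (z i)).im| ≤
            240 * A.T * (A.K + 1) := by
        intro p
        refine (tm_im_le hA hd hz _ i p hL).trans ?_
        calc 30 * A.T * (A.K + 1) * (4 * 1 + 8 * d * L0)
            ≤ 30 * A.T * (A.K + 1) * (4 * 1 + 4) := by gcongr
          _ = _ := by ring
      have h2 : |pgD A.K (z i) (vs 1 (Yv A z I 0) i)| ≤ 1 ∧
          |(fderiv ℝ (A.P i) (z i) (vs 1 (Yv A z I 0) i)).im| ≤ A.T * (1 + A.T) := by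
        have hfarcase : A.T * (z i).re < |(z i).im| → vs 1 (Yv A z I 0) i = -1 →
            |pgD A.K (z i) (vs 1 (Yv A z I 0) i)| ≤ 1 ∧
            |(fderiv ℝ (A.P i) (z i) (vs 1 (Yv A z I 0) i)).im| ≤ A.T * (1 + A.T) := by
          intro ha hb
          rw [hb, pgD_neg_one, abs_neg]
          refine ⟨ps_abs _ _, ?_⟩
          rw [fderiv_far hA i ha]
          simp
          positivity
        rcases eq_or_ne i I with hi | hi
        · subst hi
          refine hfarcase hfar ?_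
          rw [y_I]
          simp
        · rcases cases_var hA (z i) with h3 | h3 | ⟨h3, h4⟩
          · exact absurd h3 h0
          · exact hfarcase h3 (y_far hi h3)
          · rw [y_near hi h3 h4]
            constructor
            · rw [pgD_ray (by linarith) h3 (h4.trans (by gcongr; linarith))]
              simp
            · rw [fderiv_hom hA i h3, Complex.neg_im, Complex.div_ofReal_im, abs_neg, abs_div,
                abs_of_pos h3, div_le_iff₀ h3]
              calc |(A.P i (z i)).im| ≤ A.T * (|(z i).re| + |(z i).im|) := hA.im_le _ _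
                _ ≤ A.T * ((z i).re + A.T * (z i).re) := by
                    rw [abs_of_pos h3]
                    gcongr
                _ = _ := by ring
      have := h1 h2.1
      have := h2.2
      linarith
  calc ∑ i, |(A.tmD d z (vs 1 (Yv A z I 0)) i).im|
      ≤ ∑ _i : Fin N, (240 * A.T * (A.K + 1) + A.T * (1 + A.T)) := sum_le_sum fun i _ => key i
    _ = L1 A := by
        unfold L1
        rw [sum_const, card_univ, Fintype.card_fin, nsmul_eq_mul]

/-- **K2 in region I.** -/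
theorem k2I (hA : A.Ok) {d : ℝ} (hd : 0 < d) (hd1 : 1600 * N * (A.K ^ 2 + 1) * d ^ 2 ≤ 1)
    (hd2 : N * (3600 * A.T * (A.K + 1) * (A.K1 + 1) * d) ≤ 1 / 2)
    (hd3 : 16 * d * LL A * (N + 1) ≤ 1 / 2) (hga : A.ga * (9 * N + 1) ≤ 1 / 2) (hB : BOk A d)
    {z : Fin N → ℂ} (hz : z ≠ 0) (hG : DifferentiableAt ℝ (A.G d) z)
    (h2 : A.K1 ^ 2 * SA z < SB z) :
    ∃ Y : Fin N → ℝ, (fderiv ℝ (A.G d) z (vs 1 Y)).im = 0 ∧
      0 < (fderiv ℝ (A.G d) z (vs 1 Y)).re := by
  have hN : 0 < N := by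
    by_contra h0
    have h0' : N = 0 := by omega
    subst h0'
    exact hz (Subsingleton.elim _ _)
  have hN1 : (1 : ℝ) ≤ N := by exact_mod_cast hN
  have hK := K_ge_one hA hN
  have hK1 := K1_ge_one hA hN
  have hT := hA.T1
  have g0 := hA.ga0
  obtain ⟨I, hI⟩ := exists_im z hN
  have hfar := far_of_region1 hA h2 hI
  have hfar' : A.T * (z I).re < |(z I).im| :=
    lt_of_le_of_lt (mul_le_mul_of_nonneg_left (le_abs_self _) (by linarith)) hfar
  have hx := xr_region1 hA hd hd1 hz h2 hI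
  have him := regI_im hA hd hd2 hz hG hfar hx
  have him0 := im_zero_le hA hd hz hG hfar' hd3
  set w : ℝ := (fderiv ℝ (A.G d) z (vt (Pi.single I 1))).im with hw
  set w0 : ℝ := (fderiv ℝ (A.G d) z (vs 1 (Yv A z I 0))).im with hw0
  have hwlt : w ≤ -(1 / 2) := by
    have := (abs_le.1 him).2
    linarith
  set c : ℝ := -(w0 / w) with hc
  have hcabs : |c| ≤ 2 * L1 A := by
    rw [hc, abs_neg, abs_div, abs_of_neg (by linarith : w < 0), div_le_iff₀ (by linarith)]
    have : 0 ≤ L1 A := (abs_nonneg _).trans him0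
    nlinarith
  have hL : |NND A.K1 z (vs 1 (Yv A z I c))| ≤ LL A := by
    refine (NND_Yv hA hz I c).trans ?_
    unfold LL
    gcongr
  have hLL0 : 0 ≤ LL A := (abs_nonneg _).trans hL
  have hdL : 2 * d * LL A ≤ 1 := by
    have h1 : 16 * d * LL A * 1 ≤ 16 * d * LL A * (N + 1) :=
      mul_le_mul_of_nonneg_left (by linarith) (by positivity)
    have h3 : 0 ≤ d * LL A := by positivity
    nlinarith
  obtain ⟨b, hb0, hb⟩ := hB z hz (vs 1 (Yv A z I c)) (by
    intro i
    rcases eq_or_ne i I with hi | hi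
    · subst hi
      exact Or.inr (Or.inl hfar')
    · rcases cases_var hA (z i) with h3 | h3 | ⟨h3, h4⟩
      · exact Or.inl h3
      · exact Or.inr (Or.inl h3)
      · obtain ⟨r, hr0, -, hr, -⟩ := tm_near hA hd hz h3 h4 (y_near hi h3 h4) hL hdL
        exact Or.inr (Or.inr ⟨h3, y_near hi h3 h4, r, hr0, hr⟩))
  refine ⟨Yv A z I c, ?_, ?_⟩
  · rw [vs_Yv, map_add, map_smul, Complex.add_im, Complex.real_smul, Complex.im_ofReal_mul,
      ← hw, ← hw0, hc]
    have : w ≠ 0 := by linarith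
    field_simp
    ring
  · rw [fderiv_G hA hd hz hG _ hb, Complex.sub_re, Complex.re_sum, Complex.ofReal_re]
    have key : ∀ i, (if i = I then (2 - A.ga) else 0) - (9 * A.ga + 16 * d * LL A) ≤
        (A.tmD d z (vs 1 (Yv A z I c)) i).re := by
      intro i
      have hpos : 0 ≤ 9 * A.ga + 16 * d * LL A := by positivity
      rcases eq_or_ne i I with hi | hi
      · subst hi
        rw [if_pos rfl]
        unfold AG.tmD
        rw [chid_of_ge hd hx, AG.ch, chi_of_ge hd hx, fderiv_far hA i hfar', y_I]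
        simp
        linarith
      · rw [if_neg hi, zero_sub]
        rcases cases_var hA (z i) with h3 | h3 | ⟨h3, h4⟩
        · rw [tmD_zero A hd _ h3]
          simp
          linarith
        · have := tm_far hA hd hz h3 (y_far hi h3) hL
          linarith
        · obtain ⟨r, hr0, hr9, -, hr⟩ := tm_near hA hd hz h3 h4 (y_near hi h3 h4) hL hdL
          rw [hr, Complex.re_ofReal_mul]
          have h5 := hA.re_le i (z i) h3
          have h6 : r / (z i).re ≤ 0 := div_nonpos_of_nonpos_of_nonneg hr0 h3.le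
          have h7 : r / (z i).re * (A.ga * (z i).re) ≤ r / (z i).re * (A.P i (z i)).re :=
            mul_le_mul_of_nonpos_left h5 h6
          have h8 : r / (z i).re * (A.ga * (z i).re) = r * A.ga := by field_simp
          have h9 : 0 ≤ 16 * d * LL A := by positivity
          nlinarith
    have h5 : ∑ i, ((if i = I then (2 - A.ga) else 0) - (9 * A.ga + 16 * d * LL A)) ≤
        ∑ i, (A.tmD d z (vs 1 (Yv A z I c)) i).re := sum_le_sum fun i _ => key i
    rw [sum_sub_distrib, sum_ite_eq' univ I, if_pos (Finset.mem_univ I)] at h5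
    simp only [sum_const, card_univ, Fintype.card_fin, nsmul_eq_mul] at h5
    have h6 : 16 * d * LL A * N ≤ 16 * d * LL A * (N + 1) :=
      mul_le_mul_of_nonneg_left (by linarith) (by positivity)
    nlinarith

/-! ### tools for couplings -/

section tools

variable {d : ℝ} {z y : Fin N → ℂ} {i : Fin N}

/-- an inactive variable stays inactive: its positive part vanishes or it is steep. -/
lemma off_near (hd : 0 < d) (hz : z ≠ 0) (h : z i = 0 ∨ A.T * (z i).re < |(z i).im|) :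
    ∀ᶠ h in 𝓝 (0 : ℝ), A.R d (lc z y h) i = 0 ∨
      (0 < (lc z y h i).re ∧ A.T < |(lc z y h i).im / (lc z y h i).re|) := by
  rcases h with h | h
  · filter_upwards [ch_zero_near A hd hz y h] with h hh
    left
    unfold AG.R
    rw [hh, zero_mul]
  · have hc : Continuous fun h : ℝ => |(lc z y h i).im| - A.T * (lc z y h i).re := by
      simp only [lc_re, lc_im]
      fun_prop
    have h1 : 0 < |(lc z y 0 i).im| - A.T * (lc z y 0 i).re := by
      rw [lc_zero]; linarith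
    filter_upwards [hc.continuousAt.eventually (lt_mem_nhds h1)] with h hh
    rcases le_or_gt (lc z y h i).re 0 with h2 | h2
    · left
      unfold AG.R
      rw [max_eq_left h2, mul_zero]
    · right
      refine ⟨h2, ?_⟩
      rw [abs_div, abs_of_pos h2, lt_div_iff₀ h2]
      linarith

/-- the angle is constant along the radial direction. -/
lemma tau_near (h1 : 0 < (z i).re) (hy : y i = -(z i / ((z i).re : ℂ))) :
    ∀ᶠ h in 𝓝 (0 : ℝ), (lc z y h i).im / (lc z y h i).re = (z i).im / (z i).re := by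
  have h2 : ∀ᶠ h : ℝ in 𝓝 0, h < (z i).re := gt_mem_nhds h1
  filter_upwards [h2] with h hh
  have e1 : (y i).re = -1 := by
    rw [hy, Complex.neg_re, Complex.div_ofReal_re, div_self h1.ne']
  have e2 : (y i).im = -((z i).im / (z i).re) := by
    rw [hy, Complex.neg_im, Complex.div_ofReal_im]
  have h3 : (z i).re + h * -1 ≠ 0 := by
    have := sub_pos.2 hh
    intro h4
    linarith
  rw [lc_re, lc_im, e1, e2, div_eq_div_iff h3 h1.ne']
  field_simp

lemma R_nonneg (A : AG N) (d : ℝ) (z : Fin N → ℂ) (i : Fin N) : 0 ≤ A.R d z i :=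
  mul_nonneg (A.ch_nonneg d z i) (le_max_left _ _)

end tools

/-! ### the constants -/

/-- bounds on `d` used in region I. -/
def dOk1 (A : AG N) (d : ℝ) : Prop := 1600 * N * (A.K ^ 2 + 1) * d ^ 2 ≤ 1 ∧
  N * (3600 * A.T * (A.K + 1) * (A.K1 + 1) * d) ≤ 1 / 2 ∧ 16 * d * LL A * (N + 1) ≤ 1 / 2

/-- the bounds hold for small `d`; only `K1`, `T` and `N` matter. -/
lemma exists_dOk1 (K1 T : ℝ) : ∃ d0 : ℝ, 0 < d0 ∧ ∀ d, 0 < d → d ≤ d0 → ∀ A : AG N, A.Ok →
    A.K1 = K1 → A.T = T → dOk1 A d := by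
  set K : ℝ := K1 * N with hK
  set a1 : ℝ := |1600 * N * (K ^ 2 + 1)| with ha1
  set a2 : ℝ := |N * (3600 * T * (K + 1) * (K1 + 1))| with ha2
  set a3 : ℝ := |16 * (N + 15 * (K1 + 1) * (N * T + 2 * (N * (240 * T * (K + 1) + T * (1 + T))))) *
    (N + 1)| with ha3
  refine ⟨1 / (2 * (1 + a1 + a2 + a3)), by positivity, fun d hd h A hA h1 h2 => ?_⟩
  rw [le_div_iff₀ (by positivity)] at h
  have n1 : 0 ≤ a1 := abs_nonneg _
  have n2 : 0 ≤ a2 := abs_nonneg _
  have n3 : 0 ≤ a3 := abs_nonneg _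
  have m1 : 0 ≤ d * a1 := by positivity
  have m2 : 0 ≤ d * a2 := by positivity
  have m3 : 0 ≤ d * a3 := by positivity
  have hd1 : d ≤ 1 := by nlinarith
  have hAK : A.K = K := by unfold AG.K; rw [h1]
  unfold dOk1 LL L1
  rw [hAK, h1, h2]
  refine ⟨?_, ?_, ?_⟩
  · have e1 : 1600 * N * (K ^ 2 + 1) ≤ a1 := le_abs_self _
    calc 1600 * N * (K ^ 2 + 1) * d ^ 2 ≤ a1 * d ^ 2 := by gcongr
      _ ≤ a1 * d := by
          gcongr
          nlinarith
      _ ≤ 1 := by nlinarith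
  · have e1 : N * (3600 * T * (K + 1) * (K1 + 1)) ≤ a2 := le_abs_self _
    calc N * (3600 * T * (K + 1) * (K1 + 1) * d) = N * (3600 * T * (K + 1) * (K1 + 1)) * d := by
          ring
      _ ≤ a2 * d := by gcongr
      _ ≤ 1 / 2 := by nlinarith
  · have e1 : 16 * (N + 15 * (K1 + 1) * (N * T + 2 * (N * (240 * T * (K + 1) + T * (1 + T))))) *
      (N + 1) ≤ a3 := le_abs_self _
    calc 16 * d * (N + 15 * (K1 + 1) * (N * T + 2 * (N * (240 * T * (K + 1) + T * (1 + T))))) *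
          (N + 1) = 16 * (N + 15 * (K1 + 1) * (N * T + 2 * (N * (240 * T * (K + 1) +
            T * (1 + T))))) * (N + 1) * d := by ring
      _ ≤ a3 * d := by gcongr
      _ ≤ 1 / 2 := by nlinarith

end Crest.Agent.R267.AbsK_996
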