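import Mathlib

/-!
# Row 267 (helper739): angular functions `q (arg z)` for `2π`-periodic `q`, polar functions
-/

set_option autoImplicit false

noncomputable section

open Set Filter Topology
open scoped ContDiff

namespace Crest.Agent.R267.Ang_739

/-- `2π`-periodic -/
abbrev Per {F : Type*} (q : ℝ → F) : Prop := Function.Periodic q (2 * Real.pi)

section Basic

variable {F : Type*}

theorem per_toIocMod {q : ℝ → F} (hq : Per q) (x : ℝ) :
    q (toIocMod (mul_pos two_pos Real.pi_pos) (-Real.pi) x) = q x := by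
  rw [toIocMod, hq.sub_zsmul_eq]

theorem ang_cis {q : ℝ → F} (hq : Per q) (x : ℝ) :
    q (Complex.arg (Complex.exp (x * Complex.I))) = q x := by
  rw [Complex.arg_exp_mul_I]
  exact per_toIocMod hq x

theorem ang_polar {q : ℝ → F} (hq : Per q) {r : ℝ} (hr : 0 < r) (x : ℝ) :
    q (Complex.arg ((r : ℂ) * Complex.exp (x * Complex.I))) = q x := by
  rw [Complex.arg_real_mul _ hr]
  exact ang_cis hq x

/-- `arg z = arg z₀ + arg (z / z₀)` under periodic functions -/
theorem ang_mul {q : ℝ → F} (hq : Per q) {z w : ℂ} (hz : z ≠ 0) (hw : w ≠ 0) :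
    q (Complex.arg (z * w)) = q (Complex.arg z + Complex.arg w) := by
  have h1 : z * w = ((‖z‖ * ‖w‖ : ℝ) : ℂ) *
      Complex.exp ((Complex.arg z + Complex.arg w : ℝ) * Complex.I) := by
    conv_lhs => rw [← Complex.norm_mul_exp_arg_mul_I z, ← Complex.norm_mul_exp_arg_mul_I w]
    push_cast
    rw [add_mul, Complex.exp_add]
    ring
  rw [h1]
  exact ang_polar hq (mul_pos (norm_pos_iff.2 hz) (norm_pos_iff.2 hw)) _

theorem ang_div {q : ℝ → F} (hq : Per q) {z z₀ : ℂ} (hz : z ≠ 0) (hz₀ : z₀ ≠ 0) :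
    q (Complex.arg z) = q (Complex.arg z₀ + Complex.arg (z / z₀)) := by
  rw [← ang_mul hq hz₀ (div_ne_zero hz hz₀), mul_div_cancel₀ z hz₀]


end Basic

/-! ### smoothness -/

section Smooth

variable {F : Type*} [NormedAddCommGroup F] [NormedSpace ℝ F]

theorem contDiffAt_argdiv {n : WithTop ℕ∞} {z₀ : ℂ} (hz₀ : z₀ ≠ 0) :
    ContDiffAt ℝ n (fun z : ℂ => Complex.arg (z / z₀)) z₀ := by
  have h1 : ContDiffAt ℂ n Complex.log (z₀ / z₀) := by
    rw [div_self hz₀]
    exact Complex.contDiffAt_log Complex.one_mem_slitPlane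
  have h2 : ContDiffAt ℂ n (fun z : ℂ => z / z₀) z₀ := by
    simp only [div_eq_mul_inv]
    exact contDiffAt_id.mul contDiffAt_const
  have h3 : ContDiffAt ℂ n (fun z : ℂ => Complex.log (z / z₀)) z₀ :=
    ContDiffAt.comp (f := fun z : ℂ => z / z₀) (g := Complex.log) z₀ h1 h2
  have h4 : ContDiffAt ℝ n (fun z : ℂ => Complex.imCLM (Complex.log (z / z₀))) z₀ :=
    ContDiffAt.comp (f := fun z : ℂ => Complex.log (z / z₀)) (g := Complex.imCLM) z₀
      Complex.imCLM.contDiff.contDiffAt (h3.restrict_scalars ℝ)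
  refine h4.congr_of_eventuallyEq (Filter.Eventually.of_forall fun z => ?_)
  exact (Complex.log_im _).symm

theorem hasFDerivAt_argdiv {z₀ : ℂ} (hz₀ : z₀ ≠ 0) :
    HasFDerivAt (fun z : ℂ => Complex.arg (z / z₀))
      (Complex.imCLM.comp ((z₀⁻¹ : ℂ) • (1 : ℂ →L[ℝ] ℂ))) z₀ := by
  have h1 : HasDerivAt (fun z : ℂ => Complex.log (z / z₀)) (z₀⁻¹) z₀ := by
    have h := (hasDerivAt_id z₀).div_const z₀
    have h' := h.clog (by simp [hz₀, Complex.one_mem_slitPlane])
    simpa [hz₀] using h'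
  have h3 : HasFDerivAt (fun z : ℂ => Complex.imCLM (Complex.log (z / z₀)))
      (Complex.imCLM.comp ((z₀⁻¹ : ℂ) • (1 : ℂ →L[ℝ] ℂ))) z₀ :=
    HasFDerivAt.comp z₀ (g := Complex.imCLM) Complex.imCLM.hasFDerivAt h1.complexToReal_fderiv
  refine h3.congr_of_eventuallyEq (Filter.Eventually.of_forall fun z => ?_)
  exact (Complex.log_im _).symm

/-- the angular covector `w ↦ Im (w / z₀)` -/
def dang (z₀ : ℂ) : ℂ →L[ℝ] ℝ := Complex.imCLM.comp ((z₀⁻¹ : ℂ) • (1 : ℂ →L[ℝ] ℂ))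

theorem dang_apply (z₀ w : ℂ) : dang z₀ w = (w / z₀).im := by
  simp [dang, div_eq_mul_inv, mul_comm]


theorem dang_I {z : ℂ} (hz : z ≠ 0) : dang z (Complex.I * z) = 1 := by simp [dang_apply, hz]

/-- smoothness of `q (t, arg z)` -/
theorem contDiffAt_ang2 {n : WithTop ℕ∞} {q : ℝ × ℝ → F} (hper : ∀ t, Per fun x => q (t, x))
    {t : ℝ} {z : ℂ} (hz : z ≠ 0) (hq : ContDiffAt ℝ n q (t, Complex.arg z)) :
    ContDiffAt ℝ n (fun p : ℝ × ℂ => q (p.1, Complex.arg p.2)) (t, z) := by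
  have h1 : ContDiffAt ℝ n
      (fun p : ℝ × ℂ => (p.1, Complex.arg z + Complex.arg (p.2 / z))) (t, z) := by
    refine contDiffAt_fst.prodMk (contDiffAt_const.add ?_)
    exact ContDiffAt.comp (f := fun p : ℝ × ℂ => p.2) (g := fun w : ℂ => Complex.arg (w / z))
      (t, z) (contDiffAt_argdiv hz) contDiffAt_snd
  have h2 : ContDiffAt ℝ n q ((fun p : ℝ × ℂ => (p.1, Complex.arg z + Complex.arg (p.2 / z)))
      (t, z)) := by
    simpa [hz] using hq
  have h3 := ContDiffAt.comp (t, z) h2 h1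
  refine h3.congr_of_eventuallyEq ?_
  have h4 : ∀ᶠ p : ℝ × ℂ in 𝓝 (t, z), p.2 ≠ 0 :=
    continuousAt_snd.eventually_ne hz
  filter_upwards [h4] with p hp
  exact ang_div (hper p.1) hp hz

/-- smoothness of `q (t, arg z)` on `T × {0}ᶜ` -/
theorem contDiffOn_ang2 {n : WithTop ℕ∞} {q : ℝ × ℝ → F} (hper : ∀ t, Per fun x => q (t, x))
    {T : Set ℝ} (hT : IsOpen T) (hq : ContDiffOn ℝ n q (T ×ˢ univ)) :
    ContDiffOn ℝ n (fun p : ℝ × ℂ => q (p.1, Complex.arg p.2)) (T ×ˢ {0}ᶜ) := by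
  rintro ⟨t, z⟩ ⟨ht, hz⟩
  refine (contDiffAt_ang2 hper hz ?_).contDiffWithinAt
  exact hq.contDiffAt ((hT.prod isOpen_univ).mem_nhds ⟨ht, mem_univ _⟩)

theorem contDiffAt_ang {n : WithTop ℕ∞} {q : ℝ → F} (hper : Per q)
    {z : ℂ} (hz : z ≠ 0) (hq : ContDiffAt ℝ n q (Complex.arg z)) :
    ContDiffAt ℝ n (fun z : ℂ => q (Complex.arg z)) z := by
  have h1 : ContDiffAt ℝ n (fun w : ℂ => Complex.arg z + Complex.arg (w / z)) z :=
    contDiffAt_const.add (contDiffAt_argdiv hz)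
  have h2 : ContDiffAt ℝ n q ((fun w : ℂ => Complex.arg z + Complex.arg (w / z)) z) := by
    simpa [hz] using hq
  refine (ContDiffAt.comp z h2 h1).congr_of_eventuallyEq ?_
  filter_upwards [continuousAt_id.eventually_ne hz] with p hp
  exact ang_div hper hp hz

theorem hasFDerivAt_ang {q : ℝ → F} {q' : F} (hper : Per q) {z : ℂ} (hz : z ≠ 0)
    (hq : HasDerivAt q q' (Complex.arg z)) :
    HasFDerivAt (fun z : ℂ => q (Complex.arg z)) ((dang z).smulRight q') z := by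
  have h1 : HasFDerivAt (fun w : ℂ => Complex.arg z + Complex.arg (w / z)) (dang z) z :=
    (hasFDerivAt_argdiv hz).const_add _
  have h2 : HasDerivAt q q' ((fun w : ℂ => Complex.arg z + Complex.arg (w / z)) z) := by
    simpa [hz] using hq
  have h3 := HasFDerivAt.comp z h2.hasFDerivAt h1
  have h4 : HasFDerivAt (fun z : ℂ => q (Complex.arg z))
      ((ContinuousLinearMap.toSpanSingleton ℝ q').comp (dang z)) z := by
    refine h3.congr_of_eventuallyEq ?_
    filter_upwards [continuousAt_id.eventually_ne hz] with p hp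
    exact ang_div hper hp hz
  have h5 : (dang z).smulRight q' = (ContinuousLinearMap.toSpanSingleton ℝ q').comp (dang z) := by
    ext w; simp
  rw [h5]
  exact h4

/-! ### polar functions `|z| ^ D • q (arg z)` -/

/-- `|z| ^ D • q (arg z)` -/
def pol (D : ℝ) (q : ℝ → F) (z : ℂ) : F := (‖z‖ ^ D) • q (Complex.arg z)

/-- same as `LemL_951.PH` -/
theorem pol_hom (D : ℝ) (q : ℝ → F) (r : ℝ) (hr : 0 < r) (z : ℂ) :
    pol D q ((r : ℂ) * z) = (r ^ D) • pol D q z := by
  unfold pol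
  rw [Complex.arg_real_mul _ hr, norm_mul, Complex.norm_real, Real.norm_of_nonneg hr.le,
    Real.mul_rpow hr.le (norm_nonneg _), mul_smul]

theorem pol_polar (D : ℝ) {q : ℝ → F} (hq : Per q) {r : ℝ} (hr : 0 < r) (x : ℝ) :
    pol D q ((r : ℂ) * Complex.exp (x * Complex.I)) = (r ^ D) • q x := by
  unfold pol
  rw [ang_polar hq hr, norm_mul, Complex.norm_exp_ofReal_mul_I, mul_one, Complex.norm_real,
    Real.norm_of_nonneg hr.le]

theorem pol_zero {D : ℝ} (hD : D ≠ 0) (q : ℝ → F) : pol D q 0 = 0 := by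
  simp [pol, Real.zero_rpow hD]

/-- the radial covector `w ↦ Re (w / z)` -/
def drad (z : ℂ) : ℂ →L[ℝ] ℝ := Complex.reCLM.comp ((z⁻¹ : ℂ) • (1 : ℂ →L[ℝ] ℂ))

theorem drad_apply (z w : ℂ) : drad z w = (w / z).re := by
  simp [drad, div_eq_mul_inv, mul_comm]


theorem drad_I {z : ℂ} (hz : z ≠ 0) : drad z (Complex.I * z) = 0 := by simp [drad_apply, hz]

theorem hasFDerivAt_lognorm {z : ℂ} (hz : z ≠ 0) :
    HasFDerivAt (fun w : ℂ => Real.log ‖w‖) (drad z) z := by
  have h1 : HasDerivAt (fun w : ℂ => Complex.log (w / z)) (z⁻¹) z := by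
    have h := (hasDerivAt_id z).div_const z
    have h' := h.clog (by simp [hz, Complex.one_mem_slitPlane])
    simpa [hz] using h'
  have h3 : HasFDerivAt (fun w : ℂ => Complex.reCLM (Complex.log (w / z))) (drad z) z :=
    HasFDerivAt.comp z (g := Complex.reCLM) Complex.reCLM.hasFDerivAt h1.complexToReal_fderiv
  have h4 := h3.const_add (Real.log ‖z‖)
  refine h4.congr_of_eventuallyEq ?_
  filter_upwards [continuousAt_id.eventually_ne hz] with w hw
  have hw : w ≠ 0 := hw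
  have h5 : Complex.reCLM (Complex.log (w / z)) = Real.log ‖w / z‖ := Complex.log_re _
  rw [h5, norm_div, Real.log_div (norm_ne_zero_iff.2 hw) (norm_ne_zero_iff.2 hz)]
  ring

theorem hasFDerivAt_normpow (D : ℝ) {z : ℂ} (hz : z ≠ 0) :
    HasFDerivAt (fun z : ℂ => ‖z‖ ^ D) ((D * ‖z‖ ^ D) • drad z) z := by
  have hn : 0 < ‖z‖ := norm_pos_iff.2 hz
  have h1 := ((hasFDerivAt_lognorm hz).const_mul D).exp
  have e1 : Real.exp (D * Real.log ‖z‖) = ‖z‖ ^ D := by
    rw [Real.rpow_def_of_pos hn, mul_comm]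
  have h2 : (D * ‖z‖ ^ D) • drad z = Real.exp (D * Real.log ‖z‖) • D • drad z := by
    rw [e1, smul_smul, mul_comm]
  rw [h2]
  refine h1.congr_of_eventuallyEq ?_
  filter_upwards [continuousAt_id.eventually_ne hz] with w hw
  have hw : w ≠ 0 := hw
  rw [Real.rpow_def_of_pos (norm_pos_iff.2 hw), mul_comm D]

theorem hasFDerivAt_pol (D : ℝ) {q : ℝ → F} {q' : F} (hper : Per q) {z : ℂ} (hz : z ≠ 0)
    (hq : HasDerivAt q q' (Complex.arg z)) :
    HasFDerivAt (pol D q) ((drad z).smulRight (D • pol D q z) +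
      (dang z).smulRight ((‖z‖ ^ D) • q')) z := by
  have h1 := (hasFDerivAt_normpow D hz).fun_smul (hasFDerivAt_ang hper hz hq)
  have h2 : (drad z).smulRight (D • pol D q z) + (dang z).smulRight ((‖z‖ ^ D) • q') =
      ‖z‖ ^ D • (dang z).smulRight q' +
        ((D * ‖z‖ ^ D) • drad z).smulRight (q (Complex.arg z)) := by
    refine ContinuousLinearMap.ext fun w => ?_
    show drad z w • (D • ((‖z‖ ^ D) • q (Complex.arg z))) + dang z w • ((‖z‖ ^ D) • q') =
      (‖z‖ ^ D) • (dang z w • q') + ((D * ‖z‖ ^ D) * drad z w) • q (Complex.arg z)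
    rw [smul_smul, smul_smul, smul_smul, smul_smul, add_comm, mul_comm (dang z w)]
    congr 2
    ring
  rw [h2]
  exact h1


theorem fderiv_pol_I (D : ℝ) {q : ℝ → F} {q' : F} (hper : Per q) {z : ℂ} (hz : z ≠ 0)
    (hq : HasDerivAt q q' (Complex.arg z)) :
    fderiv ℝ (pol D q) z (Complex.I * z) = (‖z‖ ^ D) • q' := by
  rw [(hasFDerivAt_pol D hper hz hq).fderiv]
  simp [drad_I hz, dang_I hz]

/-! ### pieces `|z| ^ D · q (arg z)` with values in `ℂ` -/

/-- `cis` -/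
def cis (x : ℝ) : ℂ := Complex.exp (x * Complex.I)

theorem norm_cis (x : ℝ) : ‖cis x‖ = 1 := Complex.norm_exp_ofReal_mul_I x

theorem contDiff_cis {n : WithTop ℕ∞} : ContDiff ℝ n cis := by
  unfold cis
  exact (Complex.ofRealCLM.contDiff.mul contDiff_const).cexp

theorem hasDerivAt_cis (x : ℝ) : HasDerivAt cis (Complex.I * cis x) x := by
  have h1 : HasDerivAt (fun x : ℝ => (x : ℂ) * Complex.I) Complex.I x := by
    simpa using Complex.ofRealCLM.hasDerivAt.mul_const Complex.I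
  have h2 := h1.cexp
  rw [mul_comm] at h2
  exact h2

theorem cis_per (x : ℝ) (k : ℤ) : cis (x + 2 * Real.pi * k) = cis x := by
  unfold cis
  rw [Complex.exp_eq_exp_iff_exists_int]
  exact ⟨k, by push_cast; ring⟩

theorem cis_per_nat (x : ℝ) (k : ℕ) : cis (x + 2 * Real.pi * k) = cis x := by
  have := cis_per x k
  simpa using this

/-- a real linear map given by `Re (w/z) • A + Im (w/z) • B` is onto if `A, B` are independent -/
theorem surj_of_im {z A B : ℂ} (h : (B * (starRingEnd ℂ) A).im ≠ 0) {L : ℂ →L[ℝ] ℂ}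
    (h1 : L z = A) (h2 : L (Complex.I * z) = B) : Function.Surjective L := by
  intro b
  have key : (B * (starRingEnd ℂ) A).im = A.re * B.im - A.im * B.re := by
    simp [Complex.mul_im]; ring
  set δ : ℝ := A.re * B.im - A.im * B.re with hδ
  rw [key] at h
  refine ⟨((b.re * B.im - b.im * B.re) / δ) • z +
    ((A.re * b.im - A.im * b.re) / δ) • (Complex.I * z), ?_⟩
  rw [map_add, map_smul, map_smul, h1, h2]
  apply Complex.ext
  · simp only [Complex.add_re, Complex.real_smul, Complex.re_ofReal_mul]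
    field_simp
    rw [hδ]; ring
  · simp only [Complex.add_im, Complex.real_smul, Complex.im_ofReal_mul]
    field_simp
    rw [hδ]; ring


/-- the piece `eps |z| ^ D e^{i φ (arg z)}` -/
def pc (D eps : ℝ) (φ : ℝ → ℝ) : ℂ → ℂ := pol D fun x => (eps : ℂ) * cis (φ x)

/-- `φ` has degree `d` -/
def Deg (d : ℕ) (φ : ℝ → ℝ) : Prop := ∀ x, φ (x + 2 * Real.pi) = φ x + 2 * Real.pi * d

theorem Deg.per {d : ℕ} {φ : ℝ → ℝ} (h : Deg d φ) (eps : ℝ) :
    Per fun x => (eps : ℂ) * cis (φ x) := fun x => by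
  show (eps : ℂ) * cis (φ (x + 2 * Real.pi)) = _
  rw [h x, cis_per_nat]

theorem hasDerivAt_epscis (eps : ℝ) {φ : ℝ → ℝ} {φ' x : ℝ} (h : HasDerivAt φ φ' x) :
    HasDerivAt (fun x => (eps : ℂ) * cis (φ x)) ((φ' : ℂ) * (Complex.I * ((eps : ℂ) * cis (φ x))))
      x := by
  have h1 : HasDerivAt (fun x => cis (φ x)) (φ' • (Complex.I * cis (φ x))) x :=
    HasDerivAt.scomp x (hasDerivAt_cis (φ x)) h
  have e : (φ' : ℂ) * (Complex.I * ((eps : ℂ) * cis (φ x))) =
      (eps : ℂ) * (φ' • (Complex.I * cis (φ x))) := by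
    rw [Complex.real_smul]; ring
  rw [e]
  exact h1.const_mul (eps : ℂ)

theorem pc_hom (D eps : ℝ) (φ : ℝ → ℝ) (r : ℝ) (hr : 0 < r) (z : ℂ) :
    pc D eps φ ((r : ℂ) * z) = (r ^ D) • pc D eps φ z := pol_hom D _ r hr z


/-- the form used by `LemL_951.good2_of_rot` -/
theorem fderiv_pc_I {D eps : ℝ} {φ : ℝ → ℝ} {φ' : ℝ} {d : ℕ} (hd : Deg d φ) {z : ℂ}
    (hz : z ≠ 0) (hφ : HasDerivAt φ φ' (Complex.arg z)) :
    fderiv ℝ (pc D eps φ) z (Complex.I * z) = (φ' : ℂ) * (Complex.I * pc D eps φ z) := by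
  unfold pc
  rw [fderiv_pol_I D (hd.per eps) hz (hasDerivAt_epscis eps hφ)]
  simp only [pol, Complex.real_smul]
  ring

theorem norm_pc {D eps : ℝ} (heps : 0 ≤ eps) (φ : ℝ → ℝ) (z : ℂ) :
    ‖pc D eps φ z‖ = eps * ‖z‖ ^ D := by
  unfold pc pol
  rw [norm_smul, norm_mul, norm_cis, mul_one, Complex.norm_real, Real.norm_of_nonneg heps,
    Real.norm_of_nonneg (Real.rpow_nonneg (norm_nonneg _) _), mul_comm]

theorem pc_ne {D eps : ℝ} (heps : 0 < eps) (φ : ℝ → ℝ) {z : ℂ} (hz : z ≠ 0) :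
    pc D eps φ z ≠ 0 := by
  have h := norm_pc (D := D) heps.le φ z
  have h2 : 0 < ‖z‖ ^ D := Real.rpow_pos_of_pos (norm_pos_iff.2 hz) _
  intro h0
  rw [h0, norm_zero] at h
  have := mul_pos heps h2
  linarith


end Smooth

/-! ### families -/

section Fam

variable {F : Type*} [NormedAddCommGroup F] [NormedSpace ℝ F]







end Fam

end Crest.Agent.R267.Ang_739
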