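import Crest.Agent.R267.LemL_951
import Crest.Agent.R267.LobeDefs_407
import Crest.Agent.R267.HmE_951
import Crest.Agent.R267.AngB_739

-- ▼ part R267/S4_407
section

/-!
# Row 267 (helper407): step S4 of #2295 (helper855), pointwise form

At a point there are variables `i : ι` as in `LemL_951.lemL`, one more variable `y` with the term
`C e^{i d ξ}` (`C > 0`, `d = a + 1`) and the coupling `S b` (`S ≥ 0`) with
`b = (1 - v) e^{i a ξ} + v β`, `β` real, between `y` and the variable `i0`.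
`s4`: if the real part of the sum is `≥ 0` then the derivative is onto.
-/

set_option autoImplicit false
set_option maxHeartbeats 1000000

noncomputable section

open Finset

namespace Crest.Agent.R267.S4_407

open Crest.Agent.R267.LemL_951

/-- `e^{i θ}` -/
def cis (θ : ℝ) : ℂ := ⟨Real.cos θ, Real.sin θ⟩

@[simp] theorem cis_re (θ : ℝ) : (cis θ).re = Real.cos θ := rfl
@[simp] theorem cis_im (θ : ℝ) : (cis θ).im = Real.sin θ := rfl


theorem exists_arg {u : ℂ} (hu : ‖u‖ = 1) (h0 : 0 ≤ u.re) :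
    ∃ f : ℝ, |f| ≤ Real.pi / 2 ∧ u = cis f := by
  refine ⟨u.arg, Complex.abs_arg_le_pi_div_two_iff.2 h0, ?_⟩
  have hne : u ≠ 0 := by
    intro h; rw [h, norm_zero] at hu; norm_num at hu
  refine Complex.ext ?_ ?_
  · rw [cis_re, Complex.cos_arg hne, hu, div_one]
  · rw [cis_im, Complex.sin_arg, hu, div_one]

theorem rf_cis (f θ : ℝ) : rf (cis f) (cis θ) = Real.cos (θ - f) := by
  rw [Real.cos_sub]; simp only [rf, cis_re, cis_im]; ring

theorem jf_cis (f θ : ℝ) : jf (cis f) (cis θ) = Real.sin (θ - f) := by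
  rw [Real.sin_sub]; simp only [jf, cis_re, cis_im]; ring

/-! ### zone 1 -/

/-- the key inequality in zone 1, in real trigonometric form -/
theorem zone1 {d a C S v ξ f : ℝ} (hd : d = a + 1) (ha : 1 ≤ a) (hC : 0 < C) (hS : 0 < S)
    (hv0 : 0 ≤ v) (hv1 : v ≤ 1) (hξ : |ξ| ≤ Real.pi / (2 * d)) (hf : |f| ≤ Real.pi / 2)
    (hR : d * C * Real.cos (d * ξ - f) =
      a * S * ((1 - v) * Real.cos (a * ξ - f) + v * Real.cos f))
    (hA : d * C * Real.sin (d * ξ - f) = a * S * ((1 - v) * Real.sin (a * ξ - f))) :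
    0 ≤ (1 - v) * Real.cos (a * ξ - f) + v * Real.cos f ∧
    0 ≤ Real.sin f * (C * Real.sin (d * ξ - f) -
      S * ((1 - v) * Real.sin (a * ξ - f) - v * Real.sin f)) ∧
    (Real.sin f * (C * Real.sin (d * ξ - f) -
      S * ((1 - v) * Real.sin (a * ξ - f) - v * Real.sin f)) = 0 →
      f = 0 ∧ ξ = 0 ∧ d * C = a * S) := by
  have hpi := Real.pi_pos
  have hdpos : 0 < d := by linarith
  have hapos : 0 < a := by linarith
  -- the expression of the key quantity
  have hE : C * Real.sin (d * ξ - f) - S * ((1 - v) * Real.sin (a * ξ - f) - v * Real.sin f) =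
      S * ((1 - v) / d * Real.sin (f - a * ξ) + v * Real.sin f) := by
    have h1 : C * Real.sin (d * ξ - f) = a / d * S * ((1 - v) * Real.sin (a * ξ - f)) := by
      have h0 : d * (C * Real.sin (d * ξ - f)) = d * (a / d * S * ((1 - v) * Real.sin (a * ξ - f))) := by
        rw [← mul_assoc, hA]
        field_simp
      exact mul_left_cancel₀ hdpos.ne' h0
    have h2 : Real.sin (f - a * ξ) = - Real.sin (a * ξ - f) := by
      rw [← Real.sin_neg]; congr 1; ring
    rw [h1, h2, hd]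
    field_simp
    ring
  have hkey : (1 - v) * Real.sin ξ = v * Real.cos f * Real.sin (f - d * ξ) := by
    have h1 : a * S * ((1 - v) * (Real.cos (a * ξ - f) * Real.sin (d * ξ - f) -
        Real.sin (a * ξ - f) * Real.cos (d * ξ - f)) + v * Real.cos f * Real.sin (d * ξ - f)) = 0 := by
      have e1 : d * C * Real.cos (d * ξ - f) * Real.sin (d * ξ - f) =
        a * S * ((1 - v) * Real.cos (a * ξ - f) + v * Real.cos f) * Real.sin (d * ξ - f) := by
        rw [hR]
      have e2 : d * C * Real.sin (d * ξ - f) * Real.cos (d * ξ - f) =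
        a * S * ((1 - v) * Real.sin (a * ξ - f)) * Real.cos (d * ξ - f) := by rw [hA]
      linear_combination e2 - e1
    have h2 : Real.cos (a * ξ - f) * Real.sin (d * ξ - f) -
        Real.sin (a * ξ - f) * Real.cos (d * ξ - f) = Real.sin ξ := by
      have : ξ = (d * ξ - f) - (a * ξ - f) := by rw [hd]; ring
      conv_rhs => rw [this, Real.sin_sub]
      ring
    rw [h2] at h1
    have h3 : Real.sin (f - d * ξ) = - Real.sin (d * ξ - f) := by
      rw [← Real.sin_neg]; congr 1; ring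
    have h4 : (1 - v) * Real.sin ξ + v * Real.cos f * Real.sin (d * ξ - f) = 0 := by
      rcases mul_eq_zero.1 h1 with h | h
      · exact absurd h (mul_pos hapos hS).ne'
      · exact h
    rw [h3]; linarith
  have hcf : 0 ≤ Real.cos f := Real.cos_nonneg_of_neg_pi_div_two_le_of_le (by linarith [(abs_le.1 hf).1]) (abs_le.1 hf).2
  have hdxi : d * |ξ| ≤ Real.pi / 2 := by
    have := mul_le_mul_of_nonneg_left hξ hdpos.le
    calc d * |ξ| ≤ d * (Real.pi / (2 * d)) := this
      _ = Real.pi / 2 := by field_simp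
  -- the case of positive angle, in a symmetric form
  have main : ∀ σ : ℝ, (σ = 1 ∨ σ = -1) → 0 < σ * ξ → d * (σ * ξ) ≤ σ * f := by
    intro σ hσ hpos
    have hσ2 : σ * σ = 1 := by rcases hσ with h | h <;> rw [h] <;> norm_num
    have hx : d * (σ * ξ) ≤ Real.pi / 2 := by
      refine le_trans ?_ hdxi
      refine mul_le_mul_of_nonneg_left ?_ hdpos.le
      rcases hσ with h | h <;> rw [h]
      · rw [one_mul]; exact le_abs_self _
      · rw [neg_one_mul]; exact neg_le_abs _
    have hx1 : σ * ξ ≤ Real.pi / 2 := by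
      have : σ * ξ ≤ d * (σ * ξ) := by nlinarith
      linarith
    have hsx : 0 < Real.sin (σ * ξ) := Real.sin_pos_of_pos_of_lt_pi hpos (by linarith)
    have hk : (1 - v) * Real.sin (σ * ξ) = v * Real.cos f * Real.sin (σ * f - d * (σ * ξ)) := by
      rcases hσ with h | h
      · rw [h]; simpa using hkey
      · rw [h]
        have e1 : Real.sin (-1 * ξ) = - Real.sin ξ := by rw [neg_one_mul, Real.sin_neg]
        have e2 : Real.sin (-1 * f - d * (-1 * ξ)) = - Real.sin (f - d * ξ) := by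
          rw [← Real.sin_neg]; congr 1; ring
        rw [e1, e2]; linarith
    have hcf0 : 0 < Real.cos f := by
      rcases hcf.lt_or_eq with h | h
      · exact h
      · exfalso
        rw [← h] at hk
        have hv : 1 - v = 0 := by
          have : (1 - v) * Real.sin (σ * ξ) = 0 := by rw [hk]; ring
          exact (mul_eq_zero.1 this).resolve_right hsx.ne'
        rw [hv, ← h] at hR
        rw [hv] at hA
        have h1 : Real.cos (d * ξ - f) = 0 := by
          have : d * C * Real.cos (d * ξ - f) = 0 := by rw [hR]; ring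
          exact (mul_eq_zero.1 this).resolve_left (mul_pos hdpos hC).ne'
        have h2 : Real.sin (d * ξ - f) = 0 := by
          have : d * C * Real.sin (d * ξ - f) = 0 := by rw [hA]; ring
          exact (mul_eq_zero.1 this).resolve_left (mul_pos hdpos hC).ne'
        have h3 := Real.sin_sq_add_cos_sq (d * ξ - f)
        rw [h1, h2] at h3
        norm_num at h3
    have hσf : |σ * f| ≤ Real.pi / 2 := by
      rw [abs_mul]
      rcases hσ with h | h <;> rw [h] <;> simpa using hf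
    by_contra hlt
    push Not at hlt
    -- `σ f - d σ ξ ∈ (-π, 0)`
    have h1 : Real.sin (σ * f - d * (σ * ξ)) < 0 := by
      refine Real.sin_neg_of_neg_of_neg_pi_lt (by linarith) ?_
      have := (abs_le.1 hσf).1
      rcases (lt_or_eq_of_le hx) with h | h
      · linarith
      · rcases (lt_or_eq_of_le this) with h' | h'
        · linarith
        · exfalso
          -- then cos f = 0
          have : Real.cos f = 0 := by
            have h5 : Real.cos (σ * f) = 0 := by
              rw [← h', show -(Real.pi / 2) = -(Real.pi / 2) from rfl, Real.cos_neg, Real.cos_pi_div_two]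
            rcases hσ with h6 | h6
            · rwa [h6, one_mul] at h5
            · rwa [h6, neg_one_mul, Real.cos_neg] at h5
          rw [this] at hcf0
          exact lt_irrefl _ hcf0
    have h2 : 0 ≤ (1 - v) * Real.sin (σ * ξ) := mul_nonneg (by linarith) hsx.le
    rw [hk] at h2
    rcases hv0.lt_or_eq with h3 | h3
    · have := mul_neg_of_pos_of_neg (mul_pos h3 hcf0) h1
      linarith
    · rw [← h3] at hk
      have : Real.sin (σ * ξ) = 0 := by linarith
      exact hsx.ne' this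
  rcases lt_trichotomy ξ 0 with hx | hx | hx
  · -- negative angle
    have h1 := main (-1) (Or.inr rfl) (by linarith)
    have h2 : d * ξ ≥ f := by linarith
    have hf1 := (abs_le.1 hf).1
    have h3 : a * ξ - f ≤ Real.pi / 2 := by nlinarith
    have h4 : 0 ≤ a * ξ - f := by nlinarith
    have hpos : 0 < a * ξ - f := by nlinarith
    have hcos : 0 ≤ Real.cos (a * ξ - f) := Real.cos_nonneg_of_neg_pi_div_two_le_of_le (by linarith) h3
    have hfneg : f < 0 := by nlinarith
    have hsf : Real.sin f < 0 := Real.sin_neg_of_neg_of_neg_pi_lt hfneg (by linarith)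
    have hs : Real.sin (f - a * ξ) < 0 :=
      Real.sin_neg_of_neg_of_neg_pi_lt (by linarith) (by linarith)
    have hstrict : 0 < Real.sin f * (S * ((1 - v) / d * Real.sin (f - a * ξ) + v * Real.sin f)) := by
      have e : Real.sin f * (S * ((1 - v) / d * Real.sin (f - a * ξ) + v * Real.sin f)) =
          S * ((1 - v) / d * (Real.sin f * Real.sin (f - a * ξ)) + v * (Real.sin f) ^ 2) := by ring
      rw [e]
      refine mul_pos hS ?_
      have h5 : 0 < Real.sin f * Real.sin (f - a * ξ) := mul_pos_of_neg_of_neg hsf hs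
      have h6 : 0 < (Real.sin f) ^ 2 := (sq_pos_iff).2 hsf.ne
      rcases hv0.lt_or_eq with h7 | h7
      · have : 0 ≤ (1 - v) / d := div_nonneg (by linarith) hdpos.le
        have h8 := mul_nonneg this h5.le
        have h9 := mul_pos h7 h6
        linarith
      · rw [← h7]
        have : 0 < (1 - (0:ℝ)) / d := by rw [sub_zero]; positivity
        have h8 := mul_pos this h5
        linarith
    rw [hE]
    refine ⟨add_nonneg (mul_nonneg (by linarith) hcos) (mul_nonneg hv0 hcf), hstrict.le, fun h => ?_⟩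
    rw [h] at hstrict
    exact absurd hstrict (lt_irrefl _)
  · -- zero angle
    subst hx
    rw [hE]
    have e0 : a * (0:ℝ) - f = -f := by ring
    have e1 : f - a * (0:ℝ) = f := by ring
    rw [e0, e1, Real.cos_neg]
    have e2 : Real.sin f * (S * ((1 - v) / d * Real.sin f + v * Real.sin f)) =
        S * ((1 - v) / d + v) * (Real.sin f) ^ 2 := by ring
    have hco : 0 < S * ((1 - v) / d + v) := by
      refine mul_pos hS ?_
      rcases hv0.lt_or_eq with h7 | h7
      · have : 0 ≤ (1 - v) / d := div_nonneg (by linarith) hdpos.le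
        linarith
      · rw [← h7]
        have : 0 < (1 - (0:ℝ)) / d := by rw [sub_zero]; positivity
        linarith
    rw [e2]
    refine ⟨by nlinarith, mul_nonneg hco.le (sq_nonneg _), fun h => ?_⟩
    have hs0 : Real.sin f = 0 := by
      rcases mul_eq_zero.1 h with h' | h'
      · exact absurd h' hco.ne'
      · exact pow_eq_zero_iff (two_ne_zero) |>.1 h'
    have hf0 : f = 0 := by
      have := abs_le.1 hf
      exact (Real.sin_eq_zero_iff_of_lt_of_lt (by linarith) (by linarith)).1 hs0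
    refine ⟨hf0, rfl, ?_⟩
    rw [hf0] at hR
    simp at hR
    linarith
  · have h1 := main 1 (Or.inl rfl) (by linarith)
    have h2 : d * ξ ≤ f := by linarith
    have hf1 := (abs_le.1 hf).2
    have h3 : f - a * ξ ≤ Real.pi / 2 := by nlinarith
    have hpos : 0 < f - a * ξ := by nlinarith
    have hcos : 0 ≤ Real.cos (a * ξ - f) := by
      rw [← Real.cos_neg]
      exact Real.cos_nonneg_of_neg_pi_div_two_le_of_le (by linarith) (by linarith)
    have hfpos : 0 < f := by nlinarith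
    have hsf : 0 < Real.sin f := Real.sin_pos_of_pos_of_lt_pi hfpos (by linarith)
    have hs : 0 < Real.sin (f - a * ξ) := Real.sin_pos_of_pos_of_lt_pi hpos (by linarith)
    have hstrict : 0 < Real.sin f * (S * ((1 - v) / d * Real.sin (f - a * ξ) + v * Real.sin f)) := by
      refine mul_pos hsf (mul_pos hS ?_)
      rcases hv0.lt_or_eq with h7 | h7
      · have : 0 ≤ (1 - v) / d := div_nonneg (by linarith) hdpos.le
        have h8 := mul_nonneg this hs.le
        have h9 := mul_pos h7 hsf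
        linarith
      · rw [← h7]
        have : 0 < (1 - (0:ℝ)) / d := by rw [sub_zero]; positivity
        have h8 := mul_pos this hs
        linarith
    rw [hE]
    refine ⟨add_nonneg (mul_nonneg (by linarith) hcos) (mul_nonneg hv0 hcf), hstrict.le, fun h => ?_⟩
    rw [h] at hstrict
    exact absurd hstrict (lt_irrefl _)

/-! ### zone 2 -/

theorem zone2 {a d v β ξ f : ℝ} (hd : 1 ≤ d) (h : 1 ≤ (2 * d - 1) * Real.cos (a * ξ))
    (hv0 : 0 ≤ v) (hv1 : v ≤ 1) (hβ : 0 ≤ β) (hcf : 0 ≤ Real.cos f) :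
    Real.cos f * ((1 - v) * Real.cos (a * ξ - f) + v * β * Real.cos f) ≤
      d * ((1 - v) * Real.cos (a * ξ) + v * β) := by
  have h1 : Real.cos f * Real.cos (a * ξ - f) ≤ (1 + Real.cos (a * ξ)) / 2 := by
    have k1 : Real.cos (a * ξ) = Real.cos (a * ξ - f) * Real.cos f -
        Real.sin (a * ξ - f) * Real.sin f := by
      rw [← Real.cos_add]; congr 1; ring
    have k2 : Real.cos (a * ξ - 2 * f) = Real.cos (a * ξ - f) * Real.cos f +
        Real.sin (a * ξ - f) * Real.sin f := by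
      rw [← Real.cos_sub]; congr 1; ring
    have := Real.cos_le_one (a * ξ - 2 * f)
    linarith
  have h2 : Real.cos f * Real.cos f ≤ 1 := by nlinarith [Real.cos_le_one f]
  have h3 : (1 + Real.cos (a * ξ)) / 2 ≤ d * Real.cos (a * ξ) := by linarith
  have e1 : (1 - v) * (Real.cos f * Real.cos (a * ξ - f)) ≤
      (1 - v) * (d * Real.cos (a * ξ)) :=
    mul_le_mul_of_nonneg_left (h1.trans h3) (by linarith)
  have hvβ : 0 ≤ v * β := mul_nonneg hv0 hβ
  have e2 : v * β * (Real.cos f * Real.cos f) ≤ v * β * d :=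
    mul_le_mul_of_nonneg_left (h2.trans hd) hvβ
  calc Real.cos f * ((1 - v) * Real.cos (a * ξ - f) + v * β * Real.cos f) =
      (1 - v) * (Real.cos f * Real.cos (a * ξ - f)) + v * β * (Real.cos f * Real.cos f) := by ring
    _ ≤ (1 - v) * (d * Real.cos (a * ξ)) + v * β * d := add_le_add e1 e2
    _ = _ := by ring

/-! ### the whole step -/

/-- the coupling coefficient -/
def bb (a v β ξ : ℝ) : ℂ := ((1 - v : ℝ) : ℂ) * cis (a * ξ) + ((v * β : ℝ) : ℂ)

/-- its derivative -/
def db (a v β' ξ : ℝ) : ℂ :=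
  ((1 - v : ℝ) : ℂ) * ((a : ℂ) * (Complex.I * cis (a * ξ))) + ((v * β' : ℝ) : ℂ)

theorem rf_bb (a v β ξ f : ℝ) :
    rf (cis f) (bb a v β ξ) = (1 - v) * Real.cos (a * ξ - f) + v * β * Real.cos f := by
  rw [bb, rf_add, rf_real_mul, rf_cis, rf_ofReal, cis_re]
  ring

theorem jf_bb (a v β ξ f : ℝ) :
    jf (cis f) (bb a v β ξ) = (1 - v) * Real.sin (a * ξ - f) - v * β * Real.sin f := by
  rw [bb, jf_add, jf_real_mul, jf_cis, jf_ofReal, cis_im]
  ring

theorem rf_db (a v β' ξ f : ℝ) :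
    rf (cis f) (db a v β' ξ) = -((1 - v) * a * Real.sin (a * ξ - f)) + v * β' * Real.cos f := by
  rw [db, rf_add, rf_real_mul, rf_real_mul, rf_I_mul, jf_cis, rf_ofReal, cis_re]
  ring

theorem bb_re (a v β ξ : ℝ) : (bb a v β ξ).re = (1 - v) * Real.cos (a * ξ) + v * β := by
  simp [bb]

/-- **STEP S4, pointwise.** -/
theorem s4 {ι ε V : Type*} [Fintype ι] [DecidableEq ι] [Fintype ε] [AddCommGroup V] [Module ℝ V]
    (L : V →ₗ[ℝ] ℂ) (ρ α : ι → V) (ρy αy : V) (i0 : ι)
    (D : ι → ℝ) (hD : ∀ i, 0 < D i) (n : ε → ι → ℝ)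
    (hn : ∀ e i, 0 ≤ n e i) (hsum : ∀ e, ∑ i, n e i / D i = 1) (Q : ι → ℂ) (B : ε → ℝ)
    (hB : ∀ e, 0 ≤ B e) {a d P C S v β β' ξ : ℝ} (hd : d = a + 1) (ha : 1 ≤ a)
    (hP : P / D i0 = 1 / d) (hC : 0 < C) (hS : 0 ≤ S) (hv0 : 0 ≤ v) (hv1 : v ≤ 1)
    (hrad : ∀ i, L (ρ i) = (D i : ℂ) * Q i - ((∑ e, n e i * B e : ℝ) : ℂ) -
      if i = i0 then ((P * S : ℝ) : ℂ) * bb a v β ξ else 0)
    (hρy : L ρy = ((d * C : ℝ) : ℂ) * cis (d * ξ) - ((a * S : ℝ) : ℂ) * bb a v β ξ)
    (hαy : L αy = ((d * C : ℝ) : ℂ) * (Complex.I * cis (d * ξ)) - ((S : ℝ) : ℂ) * db a v β' ξ)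
    (hgood : ∀ i, i ≠ i0 → Q i = 0 ∨ Good (L (α i)) (Q i))
    (h0 : S ≠ 0 → (Q i0).re < 0 ∨ ∃ ψ : ℝ, ψ ≠ 0 ∧ L (α i0) = (ψ : ℂ) * (Complex.I * Q i0))
    (hzone : (|ξ| ≤ Real.pi / (2 * d) ∧ β = 1 ∧ β' = 0) ∨
      (Real.cos (d * ξ) < 0 ∧ 1 ≤ (2 * d - 1) * Real.cos (a * ξ) ∧ 0 ≤ β ∧ β ≤ 1) ∨
      (β = 0 ∧ β' = 0 ∧ cis ξ ≠ 1))
    (hNC : ξ = 0 → d * C = a * S → P * S ≤ D i0 * (Q i0).re → False)
    (hre : 0 ≤ ∑ i, (Q i).re - ∑ e, B e + C * Real.cos (d * ξ) - S * (bb a v β ξ).re) :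
    Function.Surjective L := by
  by_contra hL
  obtain ⟨u, hu, hu0, hconv⟩ := exists_conormal L hL
  obtain ⟨f, hf, rfl⟩ := exists_arg hu hu0
  have hdpos : 0 < d := by linarith
  have hapos : 0 < a := by linarith
  have hcf : 0 ≤ Real.cos f := hu0
  -- the equations in `y`
  have hR : d * C * Real.cos (d * ξ - f) = a * S * rf (cis f) (bb a v β ξ) := by
    have h := hconv ρy
    rw [hρy, rf_sub, rf_real_mul, rf_real_mul, rf_cis] at h
    linarith
  have hA : d * C * Real.sin (d * ξ - f) = - (S * rf (cis f) (db a v β' ξ)) := by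
    have h := hconv αy
    rw [hαy, rf_sub, rf_real_mul, rf_real_mul, rf_I_mul, jf_cis] at h
    linarith
  -- `S` is positive
  have hSpos : 0 < S := by
    rcases hS.lt_or_eq with h | h
    · exact h
    · exfalso
      rw [← h] at hR hA
      have h1 : Real.cos (d * ξ - f) = 0 := by
        have : d * C * Real.cos (d * ξ - f) = 0 := by rw [hR]; ring
        exact (mul_eq_zero.1 this).resolve_left (mul_pos hdpos hC).ne'
      have h2 : Real.sin (d * ξ - f) = 0 := by
        have : d * C * Real.sin (d * ξ - f) = 0 := by rw [hA]; ring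
        exact (mul_eq_zero.1 this).resolve_left (mul_pos hdpos hC).ne'
      have h3 := Real.sin_sq_add_cos_sq (d * ξ - f)
      rw [h1, h2] at h3
      norm_num at h3
  have h0' := h0 hSpos.ne'
  -- radial equations
  have hS' : ∀ i, 0 ≤ ∑ e, n e i * B e := fun i =>
    sum_nonneg fun e _ => mul_nonneg (hn e i) (hB e)
  have hrf : ∀ i, D i * rf (cis f) (Q i) = Real.cos f * ∑ e, n e i * B e +
      if i = i0 then P * S * rf (cis f) (bb a v β ξ) else 0 := by
    intro i
    have h1 := hconv (ρ i)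
    rw [hrad, rf_sub, rf_sub, rf_real_mul, rf_ofReal, cis_re] at h1
    by_cases hi : i = i0
    · rw [if_pos hi, rf_real_mul] at h1
      rw [if_pos hi]; linarith
    · rw [if_neg hi] at h1
      rw [if_neg hi]
      have : rf (cis f) 0 = 0 := by simp [rf]
      rw [this] at h1; linarith
  have hrf0 : ∀ i, i ≠ i0 → 0 ≤ rf (cis f) (Q i) := by
    intro i hi
    by_contra h
    push Not at h
    have h1 := hrf i
    rw [if_neg hi] at h1
    have h2 := mul_nonneg hcf (hS' i)
    have h3 := mul_neg_of_pos_of_neg (hD i) h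
    linarith
  have hrfi0 : 1 / d * S * rf (cis f) (bb a v β ξ) ≤ rf (cis f) (Q i0) := by
    have h1 := hrf i0
    rw [if_pos rfl] at h1
    have h2 := mul_nonneg hcf (hS' i0)
    rw [← hP]
    have h3 : D i0 * (P / D i0 * S * rf (cis f) (bb a v β ξ)) ≤ D i0 * rf (cis f) (Q i0) := by
      have e : D i0 * (P / D i0 * S * rf (cis f) (bb a v β ξ)) =
          P * S * rf (cis f) (bb a v β ξ) := by
        have := (hD i0).ne'
        field_simp
      rw [e, h1]; linarith
    exact le_of_mul_le_mul_left h3 (hD i0)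
  have hrfF : ∑ i, rf (cis f) (Q i) = Real.cos f * ∑ e, B e +
      1 / d * S * rf (cis f) (bb a v β ξ) := by
    have h1 : ∀ i, rf (cis f) (Q i) = Real.cos f * ∑ e, n e i / D i * B e +
        if i = i0 then 1 / d * S * rf (cis f) (bb a v β ξ) else 0 := by
      intro i
      have h2 := hrf i
      have h3 : ∑ e, n e i / D i * B e = (D i)⁻¹ * ∑ e, n e i * B e := by
        rw [mul_sum]
        exact sum_congr rfl fun e _ => by ring
      have h4 : rf (cis f) (Q i) = (D i)⁻¹ * (D i * rf (cis f) (Q i)) := by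
        rw [← mul_assoc, inv_mul_cancel₀ (hD i).ne', one_mul]
      rw [h4, h2, h3]
      by_cases hi : i = i0
      · rw [if_pos hi, if_pos hi, ← hP, hi]; ring
      · rw [if_neg hi, if_neg hi]; ring
    calc ∑ i, rf (cis f) (Q i) = ∑ i, (Real.cos f * ∑ e, n e i / D i * B e +
        if i = i0 then 1 / d * S * rf (cis f) (bb a v β ξ) else 0) := sum_congr rfl fun i _ => h1 i
      _ = Real.cos f * ∑ e, (∑ i, n e i / D i) * B e + 1 / d * S * rf (cis f) (bb a v β ξ) := by
          rw [sum_add_distrib, ← mul_sum, sum_comm, sum_ite_eq' univ i0, if_pos (mem_univ _)]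
          congr 2
          exact sum_congr rfl fun e _ => by rw [sum_mul]
      _ = _ := by simp only [hsum, one_mul]
  have hterm : ∀ i, i ≠ i0 → 0 ≤ Real.sin f * jf (cis f) (Q i) := by
    intro i hi
    rcases hgood i hi with h | h
    · rw [h]; simp [jf]
    · exact h (cis f) hu hu0 (hconv _) (hrf0 i hi)
  have hsumre : ∑ i, (Q i).re = Real.cos f * ∑ i, rf (cis f) (Q i) -
      ∑ i, Real.sin f * jf (cis f) (Q i) := by
    rw [mul_sum, ← sum_sub_distrib]
    exact sum_congr rfl fun i _ => re_eq hu (Q i)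
  have hB0 : 0 ≤ ∑ e, B e := sum_nonneg fun e _ => hB e
  have hsq : Real.cos f ^ 2 + Real.sin f ^ 2 = 1 := by
    have := Real.sin_sq_add_cos_sq f; linarith
  -- the `y` term
  set E : ℝ := Real.sin f * (C * Real.sin (d * ξ - f) - S * jf (cis f) (bb a v β ξ)) with hEdef
  have hyre : C * Real.cos (d * ξ) - S * (bb a v β ξ).re =
      - (1 / d * S * (Real.cos f * rf (cis f) (bb a v β ξ))) - E := by
    have h1 := re_eq hu (cis (d * ξ))
    have h2 := re_eq hu (bb a v β ξ)
    rw [rf_cis, jf_cis] at h1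
    rw [cis_re, cis_re, cis_im] at h1
    rw [cis_re, cis_im] at h2
    rw [h1, h2, hEdef]
    have h3 : C * Real.cos (d * ξ - f) = a / d * S * rf (cis f) (bb a v β ξ) := by
      have h0 : d * (C * Real.cos (d * ξ - f)) = d * (a / d * S * rf (cis f) (bb a v β ξ)) := by
        rw [← mul_assoc, hR]
        field_simp
      exact mul_left_cancel₀ hdpos.ne' h0
    have h4 : C * (Real.cos f * Real.cos (d * ξ - f) - Real.sin f * Real.sin (d * ξ - f)) =
        Real.cos f * (a / d * S * rf (cis f) (bb a v β ξ)) -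
          Real.sin f * (C * Real.sin (d * ξ - f)) := by
      rw [← h3]; ring
    rw [h4]
    have h5 : a / d = 1 - 1 / d := by
      have : a = d - 1 := by linarith
      rw [this]; field_simp
    rw [h5]; ring
  have hkey : Real.sin f ^ 2 * ∑ e, B e + ∑ i, Real.sin f * jf (cis f) (Q i) + E ≤ 0 := by
    have h1 : ∑ i, (Q i).re - ∑ e, B e + C * Real.cos (d * ξ) - S * (bb a v β ξ).re =
        Real.cos f * (Real.cos f * ∑ e, B e + 1 / d * S * rf (cis f) (bb a v β ξ)) -
          ∑ i, Real.sin f * jf (cis f) (Q i) - ∑ e, B e -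
          (1 / d * S * (Real.cos f * rf (cis f) (bb a v β ξ))) - E := by
      rw [hsumre, hrfF]; linarith
    rw [h1] at hre
    have h2 : Real.sin f ^ 2 * ∑ e, B e = ∑ e, B e - Real.cos f * (Real.cos f * ∑ e, B e) := by
      have h3 : Real.sin f ^ 2 = 1 - Real.cos f ^ 2 := by linarith
      rw [h3]; ring
    rw [h2]; linarith
  have hb0 : 0 ≤ Real.sin f ^ 2 * ∑ e, B e := mul_nonneg (sq_nonneg _) hB0
  have hsplit : ∑ i, Real.sin f * jf (cis f) (Q i) =
      ∑ i ∈ univ.erase i0, Real.sin f * jf (cis f) (Q i) + Real.sin f * jf (cis f) (Q i0) :=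
    (sum_erase_add univ _ (mem_univ i0)).symm
  have hrest : 0 ≤ ∑ i ∈ univ.erase i0, Real.sin f * jf (cis f) (Q i) :=
    sum_nonneg fun i hi => hterm i (ne_of_mem_erase hi)
  -- the variable `i0`
  have hi0 : 0 ≤ rf (cis f) (Q i0) → 0 ≤ Real.sin f * jf (cis f) (Q i0) := by
    intro h
    rcases h0' with h1 | ⟨ψ, hψ, h1⟩
    · exact (case_b hu hu0 h h1).le
    · have h2 := hconv (α i0)
      rw [h1, rf_real_mul, rf_I_mul] at h2
      have : jf (cis f) (Q i0) = 0 := by
        rcases mul_eq_zero.1 h2 with h | h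
        · exact absurd h hψ
        · linarith
      rw [this, mul_zero]
  rcases hzone with ⟨hz, hβ, hβ'⟩ | ⟨hz1, hz2, hz3, hz4⟩ | ⟨hβ, hβ', hz⟩
  · -- zone 1
    subst hβ hβ'
    have hR' : d * C * Real.cos (d * ξ - f) =
        a * S * ((1 - v) * Real.cos (a * ξ - f) + v * Real.cos f) := by
      rw [hR, rf_bb, mul_one]
    have hA' : d * C * Real.sin (d * ξ - f) = a * S * ((1 - v) * Real.sin (a * ξ - f)) := by
      rw [hA, rf_db]; ring
    obtain ⟨k1, k2, k3⟩ := zone1 hd ha hC hSpos hv0 hv1 hz hf hR' hA'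
    have hE : E = Real.sin f * (C * Real.sin (d * ξ - f) -
      S * ((1 - v) * Real.sin (a * ξ - f) - v * Real.sin f)) := by
      rw [hEdef, jf_bb, mul_one]
    have hrb : 0 ≤ rf (cis f) (bb a v 1 ξ) := by rw [rf_bb, mul_one]; exact k1
    have hq0 : 0 ≤ rf (cis f) (Q i0) := by
      refine le_trans ?_ hrfi0
      have : 0 ≤ 1 / d := by positivity
      exact mul_nonneg (mul_nonneg this hS) hrb
    have ht0 := hi0 hq0
    rw [← hE] at k2 k3
    have hE0 : E = 0 := by linarith
    obtain ⟨rfl, rfl, hdC⟩ := k3 hE0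
    refine hNC rfl hdC ?_
    have h1 := hrf i0
    rw [if_pos rfl, rf_bb] at h1
    have h2 : rf (cis 0) (Q i0) = (Q i0).re := by simp [rf]
    rw [h2] at h1
    simp only [Real.cos_zero, mul_zero, sub_zero, mul_one, one_mul] at h1
    have h3 := hS' i0
    have h4 : P * S * (1 - v + v) = P * S := by ring
    rw [h4] at h1
    linarith
  · -- zone 2
    have hcosa : 0 < Real.cos (a * ξ) := by
      have : 0 < 2 * d - 1 := by linarith
      by_contra h
      push Not at h
      nlinarith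
    have hbre : 0 ≤ (bb a v β ξ).re := by
      rw [bb_re]
      exact add_nonneg (mul_nonneg (by linarith) hcosa.le) (mul_nonneg hv0 hz3)
    have hE : E = - (C * Real.cos (d * ξ)) + S * (bb a v β ξ).re -
        1 / d * S * (Real.cos f * rf (cis f) (bb a v β ξ)) := by linarith
    have hCneg : 0 < - (C * Real.cos (d * ξ)) := by
      have := mul_neg_of_pos_of_neg hC hz1
      linarith
    by_cases hrb : 0 ≤ rf (cis f) (bb a v β ξ)
    · have hq0 : 0 ≤ rf (cis f) (Q i0) := by
        refine le_trans ?_ hrfi0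
        have : 0 ≤ 1 / d := by positivity
        exact mul_nonneg (mul_nonneg this hS) hrb
      have ht0 := hi0 hq0
      -- the estimate
      have hest : 1 / d * (Real.cos f * rf (cis f) (bb a v β ξ)) ≤ (bb a v β ξ).re := by
        rw [rf_bb, bb_re, one_div, inv_mul_le_iff₀ hdpos]
        exact zone2 (by linarith) hz2 hv0 hv1 hz3 hcf
      have : 1 / d * S * (Real.cos f * rf (cis f) (bb a v β ξ)) ≤ S * (bb a v β ξ).re := by
        calc 1 / d * S * (Real.cos f * rf (cis f) (bb a v β ξ)) =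
            S * (1 / d * (Real.cos f * rf (cis f) (bb a v β ξ))) := by ring
          _ ≤ S * (bb a v β ξ).re := mul_le_mul_of_nonneg_left hest hS
      linarith
    · push Not at hrb
      have hSb : 0 ≤ S * (bb a v β ξ).re := mul_nonneg hS hbre
      have hneg : 1 / d * S * (Real.cos f * rf (cis f) (bb a v β ξ)) ≤ 0 := by
        have h1 : 0 ≤ 1 / d * S := by positivity
        exact mul_nonpos_of_nonneg_of_nonpos h1 (mul_nonpos_of_nonneg_of_nonpos hcf hrb.le)
      rcases h0' with h1 | ⟨ψ, hψ, h1⟩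
      · have h2 := re_eq hu (Q i0)
        rw [cis_re, cis_im] at h2
        have h3 : Real.cos f * (1 / d * S * rf (cis f) (bb a v β ξ)) ≤
            Real.cos f * rf (cis f) (Q i0) := mul_le_mul_of_nonneg_left hrfi0 hcf
        have h4 : Real.cos f * (1 / d * S * rf (cis f) (bb a v β ξ)) =
            1 / d * S * (Real.cos f * rf (cis f) (bb a v β ξ)) := by ring
        linarith
      · have h2 := hconv (α i0)
        rw [h1, rf_real_mul, rf_I_mul] at h2
        have h3 : jf (cis f) (Q i0) = 0 := by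
          rcases mul_eq_zero.1 h2 with h | h
          · exact absurd h hψ
          · linarith
        rw [h3, mul_zero] at hsplit
        linarith
  · -- zone 3
    subst hβ hβ'
    have hR' : d * C * Real.cos (d * ξ - f) = a * S * ((1 - v) * Real.cos (a * ξ - f)) := by
      rw [hR, rf_bb]; ring
    have hA' : d * C * Real.sin (d * ξ - f) = a * S * ((1 - v) * Real.sin (a * ξ - f)) := by
      rw [hA, rf_db]; ring
    have e1 : ξ = (d * ξ - f) - (a * ξ - f) := by rw [hd]; ring
    have hsin : (d * C) * (a * S * (1 - v)) * Real.sin ξ = 0 := by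
      conv_lhs => rw [e1, Real.sin_sub]
      linear_combination (a * S * (1 - v)) * Real.cos (a * ξ - f) * hA' -
        (a * S * (1 - v)) * Real.sin (a * ξ - f) * hR'
    have hsq2 : (d * C) ^ 2 = (a * S * (1 - v)) ^ 2 := by
      have h1 := Real.sin_sq_add_cos_sq (d * ξ - f)
      have h2 := Real.sin_sq_add_cos_sq (a * ξ - f)
      linear_combination (-(d * C) ^ 2) * h1 + ((a * S * (1 - v)) ^ 2) * h2 +
        (d * C * Real.cos (d * ξ - f) + a * S * ((1 - v) * Real.cos (a * ξ - f))) * hR' +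
        (d * C * Real.sin (d * ξ - f) + a * S * ((1 - v) * Real.sin (a * ξ - f))) * hA'
    have hdC : 0 < d * C := mul_pos hdpos hC
    have hk : 0 ≤ a * S * (1 - v) := mul_nonneg (mul_nonneg hapos.le hS) (by linarith)
    have heq : d * C = a * S * (1 - v) := by nlinarith
    have hcos : (d * C) * (a * S * (1 - v)) * Real.cos ξ = (d * C) * (d * C) := by
      conv_lhs => rw [e1, Real.cos_sub]
      have h2 := Real.sin_sq_add_cos_sq (a * ξ - f)
      linear_combination (a * S * (1 - v)) * Real.cos (a * ξ - f) * hR' +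
        (a * S * (1 - v)) * Real.sin (a * ξ - f) * hA' + (a * S * (1 - v)) ^ 2 * h2 - hsq2
    rw [← heq] at hsin hcos
    apply hz
    refine Complex.ext ?_ ?_
    · rw [cis_re, Complex.one_re]
      exact mul_left_cancel₀ (mul_pos hdC hdC).ne' (by rw [mul_one]; exact hcos)
    · rw [cis_im, Complex.one_im]
      exact (mul_eq_zero.1 hsin).resolve_left (mul_pos hdC hdC).ne'

end Crest.Agent.R267.S4_407
end
end

-- ▼ part R267/LobeKit_407

/-!
# Row 267 (helper407): tools for T3b (LobeDefs_407)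
-/

set_option autoImplicit false
set_option linter.unusedSectionVars false

noncomputable section

open Set Filter Topology Finset
open Crest.Agent.R267.Ang_739 Crest.Agent.R267.Hm_951
open Crest.Agent.R267.LemL_951 hiding dg
open Crest.Agent.R267.Sys_808 Crest.Agent.R267.LobeDefs_407

namespace Crest.Agent.R267.LobeKit_407

variable {n : ℕ}

/-! ### calculus of `GF` -/

section GFcalc

variable {Q : Fin (n + 1) → ℂ → ℂ} {g h : Fin n → ℂ → ℂ} {z : Fin (n + 1) → ℂ}

theorem hasFDerivAt_GF (hQ : ∀ i, DifferentiableAt ℝ (Q i) (z i))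
    (hg : ∀ e : Fin n, DifferentiableAt ℝ (g e) (z e.castSucc))
    (hh : ∀ e : Fin n, DifferentiableAt ℝ (h e) (z e.succ)) :
    HasFDerivAt (GF Q g h)
      (∑ i, (fderiv ℝ (Q i) (z i)).comp (ContinuousLinearMap.proj (R := ℝ) (φ := fun _ => ℂ) i) -
        ∑ e : Fin n, (g e (z e.castSucc) • (fderiv ℝ (h e) (z e.succ)).comp
            (ContinuousLinearMap.proj (R := ℝ) (φ := fun _ => ℂ) e.succ) +
          h e (z e.succ) • (fderiv ℝ (g e) (z e.castSucc)).comp
            (ContinuousLinearMap.proj (R := ℝ) (φ := fun _ => ℂ) e.castSucc))) z := by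
  have hpr : ∀ i : Fin (n + 1), HasFDerivAt (fun z : Fin (n + 1) → ℂ => z i)
      (ContinuousLinearMap.proj (R := ℝ) (φ := fun _ => ℂ) i) z := fun i => hasFDerivAt_apply i z
  exact (HasFDerivAt.fun_sum fun i _ => (hQ i).hasFDerivAt.comp z (hpr i)).sub
    (HasFDerivAt.fun_sum fun e _ => ((hg e).hasFDerivAt.comp z (hpr _)).mul
      ((hh e).hasFDerivAt.comp z (hpr _)))

theorem fderiv_GF_single (hQ : ∀ i, DifferentiableAt ℝ (Q i) (z i))
    (hg : ∀ e : Fin n, DifferentiableAt ℝ (g e) (z e.castSucc))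
    (hh : ∀ e : Fin n, DifferentiableAt ℝ (h e) (z e.succ)) (i : Fin (n + 1)) (v : ℂ) :
    fderiv ℝ (GF Q g h) z (Pi.single i v) = fderiv ℝ (Q i) (z i) v -
      ∑ e : Fin n, ((if e.castSucc = i then fderiv ℝ (g e) (z i) v * h e (z e.succ) else 0) +
        if e.succ = i then g e (z e.castSucc) * fderiv ℝ (h e) (z i) v else 0) := by
  rw [(hasFDerivAt_GF hQ hg hh).fderiv]
  have h1 : ∀ (j : Fin (n + 1)) (T : ℂ →L[ℝ] ℂ), T (Pi.single (M := fun _ => ℂ) i v j) =
      if j = i then T v else 0 := by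
    intro j T
    by_cases hj : j = i
    · subst hj; rw [if_pos rfl, Pi.single_eq_same]
    · rw [if_neg hj, Pi.single_eq_of_ne hj, map_zero]
  simp only [_root_.sub_apply, _root_.sum_apply, ContinuousLinearMap.comp_apply, _root_.add_apply,
    ContinuousLinearMap.proj_apply, _root_.smul_apply, smul_eq_mul, h1]
  congr 1
  · rw [Finset.sum_ite_eq' univ i]
    simp
  · refine Finset.sum_congr rfl fun e _ => ?_
    rw [add_comm]
    congr 1
    · split_ifs with h2
      · rw [h2]; ring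
      · ring
    · split_ifs with h2
      · rw [h2]
      · ring

theorem fderiv_sum_single {L : (Fin (n + 1) → ℂ) →L[ℝ] ℂ} (w : Fin (n + 1) → ℂ) :
    L w = ∑ i, L (Pi.single i (w i)) := by
  conv_lhs => rw [← Finset.univ_sum_single w]
  rw [map_sum]

end GFcalc

/-! ### planar pieces -/


theorem ph_zero {F : Type*} [AddCommGroup F] [Module ℝ F] (D : ℝ) : PH D (0 : ℂ → F) :=
  fun r _ z => by simp

theorem ph_id : PH 1 (id : ℂ → ℂ) := fun r _ z => by
  rw [Real.rpow_one, Complex.real_smul]; rfl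

theorem ph_pow (k : ℕ) : PH (k : ℝ) fun z : ℂ => z ^ k := fun r _ z => by
  show ((r : ℂ) * z) ^ k = _ • z ^ k
  rw [mul_pow, Real.rpow_natCast, Complex.real_smul]; push_cast; rfl


theorem ph_const_mul' {D : ℝ} {P : ℂ → ℝ} (h : PH D P) (c : ℝ) : PH D fun z => c * P z :=
  fun r hr z => by
    show c * P _ = _ • (c * P z)
    rw [h r hr z, smul_eq_mul, smul_eq_mul]; ring

theorem ph_ofReal {D : ℝ} {P : ℂ → ℝ} (h : PH D P) : PH D fun z => (P z : ℂ) := fun r hr z => by
  show ((P _ : ℝ) : ℂ) = _ • ((P z : ℝ) : ℂ)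
  rw [h r hr z, Complex.real_smul, smul_eq_mul]; push_cast; ring



/-- a homogeneous function of degree `> 1` has derivative `0` at `0`. -/
theorem ph_fderiv_zero {F : Type*} [NormedAddCommGroup F] [NormedSpace ℝ F] {D : ℝ} {P : ℂ → F}
    (h : PH D P) (hD : 1 < D) (hd : DifferentiableAt ℝ P 0) : fderiv ℝ P 0 = 0 := by
  ext v
  have h0 : P 0 = 0 := h.zero (by linarith)
  have h1 : HasDerivAt (fun r : ℝ => P ((r : ℂ) * v)) (fderiv ℝ P 0 v) 0 := by
    have h2 : HasDerivAt (fun r : ℝ => (r : ℂ) * v) v 0 := by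
      have h3 : HasDerivAt (fun r : ℝ => (r : ℂ)) 1 0 := Complex.ofRealCLM.hasDerivAt
      simpa using h3.mul_const v
    have h4 : HasFDerivAt P (fderiv ℝ P 0) (((0 : ℝ) : ℂ) * v) := by
      rw [Complex.ofReal_zero, zero_mul]; exact hd.hasFDerivAt
    exact h4.comp_hasDerivAt (0 : ℝ) h2
  have h2 : HasDerivAt (fun r : ℝ => (r ^ D) • P v) 0 0 := by
    have h5 := (Real.hasDerivAt_rpow_const (x := 0) (p := D) (Or.inr hD.le)).smul_const (P v)
    rwa [Real.zero_rpow (by linarith), mul_zero, zero_smul] at h5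
  have h3 : HasDerivWithinAt (fun r : ℝ => P ((r : ℂ) * v)) 0 (Ici 0) 0 := by
    refine h2.hasDerivWithinAt.congr (fun r hr => ?_) ?_
    · rcases (mem_Ici.1 hr).eq_or_lt with h6 | h6
      · rw [← h6, Complex.ofReal_zero, zero_mul, h0, Real.zero_rpow (by linarith), zero_smul]
      · exact h r h6 v
    · rw [Complex.ofReal_zero, zero_mul, h0, Real.zero_rpow (by linarith), zero_smul]
  have h4 := (uniqueDiffOn_Ici (0 : ℝ) 0 self_mem_Ici).eq_deriv _ h1.hasDerivWithinAt h3
  simpa using h4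

theorem arg_hom {r : ℝ} (hr : 0 < r) (z : ℂ) : Complex.arg ((r : ℂ) * z) = Complex.arg z :=
  Complex.arg_real_mul _ hr

/-- polar functions of degree `> 2` are `C²` everywhere -/
theorem contDiff_pol {F : Type*} [NormedAddCommGroup F] [NormedSpace ℝ F] {D : ℝ} (hD : 2 < D)
    {q : ℝ → F} (hper : Per q) (hq : ContDiff ℝ 2 q) : ContDiff ℝ 2 (pol D q) := by
  have h1 : ContDiffOn ℝ 2 (fun p : ℝ × ℂ => ‖p.2‖ ^ D • q (Complex.arg p.2))
      ((univ : Set ℝ) ×ˢ (univ : Set ℂ)) := by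
    refine contDiffOn_rpow_smul (T := univ) isOpen_univ (D := fun _ => D) contDiffOn_const
      (fun _ _ => hD) (q := fun p : ℝ × ℂ => q (Complex.arg p.2)) ?_ fun t _ r hr z => ?_
    · exact contDiffOn_ang2 (q := fun p : ℝ × ℝ => q p.2) (fun _ => hper) isOpen_univ
        (hq.comp contDiff_snd).contDiffOn
    · show q _ = q _
      rw [arg_hom hr]
  rw [univ_prod_univ, contDiffOn_univ] at h1
  exact h1.comp (f := fun z : ℂ => ((0 : ℝ), z)) (contDiff_const.prodMk contDiff_id)

theorem differentiable_pol {F : Type*} [NormedAddCommGroup F] [NormedSpace ℝ F] {D : ℝ}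
    (hD : 2 < D) {q : ℝ → F} (hper : Per q) (hq : ContDiff ℝ 2 q) :
    Differentiable ℝ (pol D q) := (contDiff_pol hD hper hq).differentiable (by norm_num)

/-- a level function composed with a phase is periodic -/
theorem lev_comp_per {d : ℕ} {l φ : ℝ → ℝ} (h : Lev d l) (hφ : Deg d φ) :
    Per fun x => l (φ x) := fun x => by
  show l (φ (x + 2 * Real.pi)) = l (φ x)
  rw [hφ x, h.per]

theorem lev_periodic {d : ℕ} {l : ℝ → ℝ} (h : Lev d l) : Function.Periodic l (2 * Real.pi * d) :=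
  h.per

theorem lev_per_int {d : ℕ} {l : ℝ → ℝ} (h : Lev d l) (x : ℝ) (q : ℤ) :
    l (x - q * (2 * Real.pi * d)) = l x := (lev_periodic h).sub_int_mul_eq q

/-- every level with `cos ≥ 0` belongs to a lobe -/
theorem exists_lobe {d : ℕ} (hd : 0 < d) {x : ℝ} (hx : 0 ≤ Real.cos x) :
    ∃ (q : ℤ) (k : ℕ), k < d ∧
      |x - q * (2 * Real.pi * d) - 2 * Real.pi * (k + 1)| ≤ Real.pi / 2 := by
  -- nearest multiple of `2π`
  have hpi := Real.pi_pos
  have h2pi : (0 : ℝ) < 2 * Real.pi := by positivity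
  obtain ⟨K, hK⟩ : ∃ K : ℤ, |x - K * (2 * Real.pi)| ≤ Real.pi / 2 := by
    have hm := toIocMod_mem_Ioc h2pi (-Real.pi) x
    have he : x - toIocDiv h2pi (-Real.pi) x • (2 * Real.pi) = toIocMod h2pi (-Real.pi) x := rfl
    refine ⟨toIocDiv h2pi (-Real.pi) x, ?_⟩
    rw [zsmul_eq_mul] at he
    rw [he]
    have hcos : Real.cos (toIocMod h2pi (-Real.pi) x) = Real.cos x := by
      rw [← he]
      exact Real.cos_periodic.sub_int_mul_eq _
    set y := toIocMod h2pi (-Real.pi) x with hy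
    have hy1 : -Real.pi < y := hm.1
    have hy2 : y ≤ Real.pi := by have := hm.2; linarith
    rw [abs_le]
    rw [← hcos] at hx
    constructor
    · by_contra hc
      push Not at hc
      have : Real.cos y < 0 := by
        rw [← Real.cos_neg]
        exact Real.cos_neg_of_pi_div_two_lt_of_lt (by linarith) (by linarith)
      linarith
    · by_contra hc
      push Not at hc
      have : Real.cos y < 0 := Real.cos_neg_of_pi_div_two_lt_of_lt (by linarith) (by linarith)
      linarith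
  refine ⟨(K - 1) / d, ((K - 1) % d).toNat, ?_, ?_⟩
  · have h1 : 0 ≤ (K - 1) % (d : ℤ) := Int.emod_nonneg _ (by positivity)
    have h2 : (K - 1) % (d : ℤ) < d := Int.emod_lt_of_pos _ (by exact_mod_cast hd)
    omega
  · have h1 : 0 ≤ (K - 1) % (d : ℤ) := Int.emod_nonneg _ (by positivity)
    have h3 : ((((K - 1) % (d : ℤ)).toNat : ℕ) : ℝ) = (((K - 1) % (d : ℤ) : ℤ) : ℝ) := by
      have : ((((K - 1) % (d : ℤ)).toNat : ℕ) : ℤ) = (K - 1) % (d : ℤ) := Int.toNat_of_nonneg h1
      exact_mod_cast this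
    have h4 : (d : ℤ) * ((K - 1) / d) + (K - 1) % d = K - 1 := Int.mul_ediv_add_emod _ _
    have h5 : (d : ℝ) * (((K - 1) / (d : ℤ) : ℤ) : ℝ) + (((K - 1) % (d : ℤ) : ℤ) : ℝ) = K - 1 := by
      exact_mod_cast h4
    have h6 : x - (((K - 1) / (d : ℤ) : ℤ) : ℝ) * (2 * Real.pi * d) -
        2 * Real.pi * (((((K - 1) % (d : ℤ)).toNat : ℕ) : ℝ) + 1) = x - K * (2 * Real.pi) := by
      rw [h3]
      linear_combination (-(2 * Real.pi)) * h5
    rw [h6]
    exact hK

/-- a level function with a pattern takes the values `0, 1` where `cos ≥ 0` -/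
theorem lev_val {d : ℕ} (hd : 0 < d) {l : ℝ → ℝ} (h : Lev d l) {p : ℕ → Prop} [DecidablePred p]
    (hp : ∀ k < d, ∀ x : ℝ, |x - 2 * Real.pi * (k + 1)| ≤ Real.pi / 2 → l x = if p k then 1 else 0)
    {x : ℝ} (hx : 0 ≤ Real.cos x) : l x = 0 ∨ l x = 1 := by
  obtain ⟨q, k, hk, h1⟩ := exists_lobe hd hx
  have h2 := hp k hk _ h1
  rw [lev_per_int h] at h2
  rw [h2]
  split_ifs
  · exact Or.inr rfl
  · exact Or.inl rfl

/-! ### the pieces of lobe data -/

theorem pha_pos {d : ℕ} {φ : ℝ → ℝ} (h : Pha d φ) : 0 < d := by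
  have h1 : StrictMono φ := strictMono_of_deriv_pos h.pos
  have h2 : φ 0 < φ (0 + 2 * Real.pi) := h1 (by have := Real.pi_pos; linarith)
  rw [h.deg 0] at h2
  rcases Nat.eq_zero_or_pos d with h3 | h3
  · rw [h3] at h2; simp at h2
  · exact h3

theorem pha_hasDerivAt {d : ℕ} {φ : ℝ → ℝ} (h : Pha d φ) (x : ℝ) : HasDerivAt φ (deriv φ x) x :=
  ((h.smooth.differentiable (by norm_num)) x).hasDerivAt

theorem pha_per {d : ℕ} {φ : ℝ → ℝ} (h : Pha d φ) (ep : ℝ) :
    Per fun x => (ep : ℂ) * cis (φ x) := h.deg.per ep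

theorem contDiff_epscis {φ : ℝ → ℝ} (h : ContDiff ℝ 2 φ) (ep : ℝ) :
    ContDiff ℝ 2 fun x => (ep : ℂ) * cis (φ x) :=
  contDiff_const.mul (contDiff_cis.comp h)

theorem contDiff_pc {D ep : ℝ} {d : ℕ} {φ : ℝ → ℝ} (hD : 2 < D) (h : Pha d φ) :
    ContDiff ℝ 2 (pc D ep φ) := contDiff_pol hD (pha_per h ep) (contDiff_epscis h.smooth ep)

theorem cis_re (x : ℝ) : (cis x).re = Real.cos x := Complex.exp_ofReal_mul_I_re x

theorem cis_im (x : ℝ) : (cis x).im = Real.sin x := Complex.exp_ofReal_mul_I_im x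

theorem cis_eq_S4 (x : ℝ) : cis x = S4_407.cis x :=
  Complex.ext (by rw [cis_re, S4_407.cis_re]) (by rw [cis_im, S4_407.cis_im])

section Pieces

variable {X : LD n} {a : Fin (n + 1) → ℕ} {j : ℕ} {i : Fin (n + 1)} {e : Fin n} {z : ℂ}

theorem Q_ph (X : LD n) (i : Fin (n + 1)) : PH (X.D i) (X.Q i) := pc_hom _ _ _

theorem h_ph (X : LD n) (e : Fin n) : PH (X.m e) (X.h e) := pol_hom _ _

theorem g_ph (X : LD n) (e : Fin n) : PH (X.p e) (X.g e) :=
  ph_const_mul' (P := pol (X.p e) fun x => X.lam e (X.ph e.castSucc x)) (pol_hom _ _) _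

theorem Q_contDiff (hX : X.Ok a j) (hi : (i : ℕ) ≤ j) : ContDiff ℝ 2 (X.Q i) :=
  contDiff_pc (hX.hD i hi) (hX.hph i hi)

theorem lt_succ (he : (e : ℕ) < j) : ((e.succ : Fin (n + 1)) : ℕ) ≤ j := by
  rw [Fin.val_succ]; omega

theorem le_cast (he : (e : ℕ) < j) : ((e.castSucc : Fin (n + 1)) : ℕ) ≤ j := by
  rw [Fin.val_castSucc]; omega

theorem h_contDiff (hX : X.Ok a j) (he : (e : ℕ) < j) : ContDiff ℝ 2 (X.h e) :=
  contDiff_pol (hX.hm e he) (lev_comp_per (hX.hbet e he) (hX.hph _ (lt_succ he)).deg)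
    ((hX.hbet e he).smooth.comp (hX.hph _ (lt_succ he)).smooth)

theorem g_contDiff (hX : X.Ok a j) (he : (e : ℕ) < j) : ContDiff ℝ 2 (X.g e) :=
  contDiff_const.mul (contDiff_pol (hX.hp e he)
    (lev_comp_per (hX.hlam e he) (hX.hph _ (le_cast he)).deg)
    ((hX.hlam e he).smooth.comp (hX.hph _ (le_cast he)).smooth))

theorem Q_diff (hX : X.Ok a j) (hi : (i : ℕ) ≤ j) : Differentiable ℝ (X.Q i) :=
  (Q_contDiff hX hi).differentiable (by norm_num)

theorem h_diff (hX : X.Ok a j) (he : (e : ℕ) < j) : Differentiable ℝ (X.h e) :=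
  (h_contDiff hX he).differentiable (by norm_num)

theorem g_diff (hX : X.Ok a j) (he : (e : ℕ) < j) : Differentiable ℝ (X.g e) :=
  (g_contDiff hX he).differentiable (by norm_num)

theorem Q_eq (X : LD n) (i : Fin (n + 1)) (z : ℂ) :
    X.Q i z = ((X.ep i * ‖z‖ ^ X.D i : ℝ) : ℂ) * cis (X.ph i (Complex.arg z)) := by
  unfold LD.Q pc pol
  rw [Complex.real_smul]; push_cast; ring

theorem Q_re (X : LD n) (i : Fin (n + 1)) (z : ℂ) :
    (X.Q i z).re = X.ep i * ‖z‖ ^ X.D i * Real.cos (X.ph i (Complex.arg z)) := by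
  rw [Q_eq, Complex.re_ofReal_mul, cis_re]


theorem Q_norm (hX : X.Ok a j) (hi : (i : ℕ) ≤ j) (z : ℂ) : ‖X.Q i z‖ = X.ep i * ‖z‖ ^ X.D i :=
  norm_pc (hX.hep i hi).le _ _

theorem Q_ne (hX : X.Ok a j) (hi : (i : ℕ) ≤ j) (hz : z ≠ 0) : X.Q i z ≠ 0 :=
  pc_ne (hX.hep i hi) _ hz

theorem epn_pos (hX : X.Ok a j) (hi : (i : ℕ) ≤ j) (hz : z ≠ 0) : 0 < X.ep i * ‖z‖ ^ X.D i :=
  mul_pos (hX.hep i hi) (Real.rpow_pos_of_pos (norm_pos_iff.2 hz) _)

theorem cos_of_re (hX : X.Ok a j) (hi : (i : ℕ) ≤ j) (hz : z ≠ 0) (h : 0 ≤ (X.Q i z).re) :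
    0 ≤ Real.cos (X.ph i (Complex.arg z)) := by
  rw [Q_re] at h
  exact (mul_nonneg_iff_of_pos_left (epn_pos hX hi hz)).1 h

theorem Q_cases (hX : X.Ok a j) (hi : (i : ℕ) ≤ j) (hz : z ≠ 0) :
    (X.Q i z).re < 0 ∨ 0 ≤ Real.cos (X.ph i (Complex.arg z)) := by
  rcases lt_or_ge (X.Q i z).re 0 with h | h
  · exact Or.inl h
  · exact Or.inr (cos_of_re hX hi hz h)

theorem fderiv_Q_I (hX : X.Ok a j) (hi : (i : ℕ) ≤ j) (hz : z ≠ 0) :
    fderiv ℝ (X.Q i) z (Complex.I * z) =
      ((deriv (X.ph i) (Complex.arg z) : ℝ) : ℂ) * (Complex.I * X.Q i z) :=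
  fderiv_pc_I (hX.hph i hi).deg hz (pha_hasDerivAt (hX.hph i hi) _)

theorem good_Q (hX : X.Ok a j) (hi : (i : ℕ) ≤ j) (hz : z ≠ 0) :
    Good2 (fderiv ℝ (X.Q i) z (Complex.I * z)) (X.Q i z) := by
  rw [fderiv_Q_I hX hi hz]
  exact good2_of_rot ((hX.hph i hi).pos _).ne'

theorem deriv_lev_comp {d : ℕ} {l φ : ℝ → ℝ} (hl : Lev d l) (hφ : Pha d φ) {x : ℝ}
    (hx : 0 ≤ Real.cos (φ x)) : HasDerivAt (fun x => l (φ x)) 0 x := by
  have h1 : HasDerivAt l (deriv l (φ x)) (φ x) :=
    ((hl.smooth.differentiable (by norm_num)) _).hasDerivAt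
  have h2 := h1.comp x (pha_hasDerivAt hφ x)
  rw [hl.flat _ hx, zero_mul] at h2
  exact h2

theorem fderiv_h_I (hX : X.Ok a j) (he : (e : ℕ) < j) (hz : z ≠ 0)
    (hc : 0 ≤ Real.cos (X.ph e.succ (Complex.arg z))) :
    fderiv ℝ (X.h e) z (Complex.I * z) = 0 := by
  have h1 := fderiv_pol_I (X.m e) (lev_comp_per (hX.hbet e he) (hX.hph _ (lt_succ he)).deg) hz
    (deriv_lev_comp (hX.hbet e he) (hX.hph _ (lt_succ he)) hc)
  rw [smul_zero] at h1
  exact h1

theorem fderiv_g_I (hX : X.Ok a j) (he : (e : ℕ) < j) (hz : z ≠ 0)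
    (hc : 0 ≤ Real.cos (X.ph e.castSucc (Complex.arg z))) :
    fderiv ℝ (X.g e) z (Complex.I * z) = 0 := by
  have h1 := fderiv_pol_I (X.p e) (lev_comp_per (hX.hlam e he) (hX.hph _ (le_cast he)).deg) hz
    (deriv_lev_comp (hX.hlam e he) (hX.hph _ (le_cast he)) hc)
  rw [smul_zero] at h1
  have h2 : X.g e = fun z => X.c e * pol (X.p e) (fun x => X.lam e (X.ph e.castSucc x)) z := rfl
  have h3 : DifferentiableAt ℝ (pol (X.p e) fun x => X.lam e (X.ph e.castSucc x)) z :=
    (contDiff_pol (hX.hp e he) (lev_comp_per (hX.hlam e he) (hX.hph _ (le_cast he)).deg)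
    ((hX.hlam e he).smooth.comp (hX.hph _ (le_cast he)).smooth)).differentiable (by norm_num) z
  rw [h2, fderiv_const_mul h3, _root_.smul_apply, h1, smul_zero]

theorem pol_nonneg {D : ℝ} {q : ℝ → ℝ} (h : ∀ x, 0 ≤ q x) (z : ℂ) : 0 ≤ pol D q z :=
  mul_nonneg (Real.rpow_nonneg (norm_nonneg _) _) (h _)

theorem h_nonneg (hX : X.Ok a j) (he : (e : ℕ) < j) (z : ℂ) : 0 ≤ X.h e z :=
  pol_nonneg (fun _ => (hX.hbet e he).nn _) z

theorem g_nonneg (hX : X.Ok a j) (he : (e : ℕ) < j) (z : ℂ) : 0 ≤ X.g e z :=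
  mul_nonneg (hX.hc e he).le (pol_nonneg (fun _ => (hX.hlam e he).nn _) z)

theorem h_val (hX : X.Ok a j) (he : (e : ℕ) < j)
    (hc : 0 ≤ Real.cos (X.ph e.succ (Complex.arg z))) : X.h e z = 0 ∨ X.h e z = ‖z‖ ^ X.m e := by
  rcases lev_val (pha_pos (hX.hph _ (lt_succ he))) (hX.hbet e he)
    (p := fun k => k + 1 = dg a e.succ) (hX.bet1 e he) hc with h | h
  · left
    show ‖z‖ ^ X.m e * X.bet e (X.ph e.succ z.arg) = 0
    rw [h, mul_zero]
  · right
    show ‖z‖ ^ X.m e * X.bet e (X.ph e.succ z.arg) = _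
    rw [h, mul_one]

theorem g_val (hX : X.Ok a j) (he : (e : ℕ) < j)
    (hc : 0 ≤ Real.cos (X.ph e.castSucc (Complex.arg z))) :
    X.g e z = 0 ∨ X.g e z = X.c e * ‖z‖ ^ X.p e := by
  rcases lev_val (pha_pos (hX.hph _ (le_cast he))) (hX.hlam e he)
    (p := fun k => dg a e.succ ≤ k) (hX.lam1 e he) hc with h | h
  · left
    show X.c e * (‖z‖ ^ X.p e * X.lam e (X.ph e.castSucc z.arg)) = 0
    rw [h, mul_zero, mul_zero]
  · right
    show X.c e * (‖z‖ ^ X.p e * X.lam e (X.ph e.castSucc z.arg)) = _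
    rw [h, mul_one]

end Pieces

/-! ### LEMMA L for `X.tr` -/

theorem nc_num {D D' p m c e1 e2 rx ry : ℝ} (hD : 0 < D) (hD' : 0 < D') (hp : 0 < p) (hm : 0 < m)
    (hsum : p / D + m / D' = 1) (hc : 0 < c) (h1 : 0 < e1) (h2 : 0 < e2) (hx : 0 < rx)
    (hy : 0 < ry)
    (hNC : e1 ^ (p / D) * e2 ^ (m / D') < (p / D) ^ (p / D) * (m / D') ^ (m / D') * c)
    (i1 : p * (c * rx ^ p * ry ^ m) ≤ D * (e1 * rx ^ D))
    (i2 : m * (c * rx ^ p * ry ^ m) ≤ D' * (e2 * ry ^ D')) : False := by
  set θ : ℝ := p / D with hθ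
  set η : ℝ := m / D' with hη
  have hθ0 : 0 < θ := div_pos hp hD
  have hη0 : 0 < η := div_pos hm hD'
  have hxp : 0 < rx ^ p := Real.rpow_pos_of_pos hx _
  have hym : 0 < ry ^ m := Real.rpow_pos_of_pos hy _
  have hxD : 0 < rx ^ D := Real.rpow_pos_of_pos hx _
  have hyD : 0 < ry ^ D' := Real.rpow_pos_of_pos hy _
  set B : ℝ := c * rx ^ p * ry ^ m with hB
  have hBpos : 0 < B := by positivity
  have e1' : θ * B ≤ e1 * rx ^ D := by
    rw [hθ, div_mul_eq_mul_div, div_le_iff₀ hD]
    linarith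
  have e2' : η * B ≤ e2 * ry ^ D' := by
    rw [hη, div_mul_eq_mul_div, div_le_iff₀ hD']
    linarith
  have e3 : (θ * B) ^ θ * (η * B) ^ η ≤ (e1 * rx ^ D) ^ θ * (e2 * ry ^ D') ^ η :=
    mul_le_mul (Real.rpow_le_rpow (by positivity) e1' hθ0.le)
      (Real.rpow_le_rpow (by positivity) e2' hη0.le) (by positivity) (by positivity)
  have e4 : (θ * B) ^ θ * (η * B) ^ η = θ ^ θ * η ^ η * B := by
    rw [Real.mul_rpow hθ0.le hBpos.le, Real.mul_rpow hη0.le hBpos.le]
    have : B ^ θ * B ^ η = B := by rw [← Real.rpow_add hBpos, hsum, Real.rpow_one]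
    calc θ ^ θ * B ^ θ * (η ^ η * B ^ η) = θ ^ θ * η ^ η * (B ^ θ * B ^ η) := by ring
      _ = _ := by rw [this]
  have e5 : (e1 * rx ^ D) ^ θ * (e2 * ry ^ D') ^ η = (e1 ^ θ * e2 ^ η) * (rx ^ p * ry ^ m) := by
    rw [Real.mul_rpow h1.le hxD.le, Real.mul_rpow h2.le hyD.le, ← Real.rpow_mul hx.le,
      ← Real.rpow_mul hy.le, hθ, hη, mul_div_cancel₀ p hD.ne', mul_div_cancel₀ m hD'.ne']
    ring
  rw [e4, e5] at e3
  have e6 : θ ^ θ * η ^ η * B = (θ ^ θ * η ^ η * c) * (rx ^ p * ry ^ m) := by rw [hB]; ring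
  rw [e6] at e3
  have := le_of_mul_le_mul_right e3 (mul_pos hxp hym)
  linarith

/-- the planar functions of `X.tr j R` -/
def trQ (X : LD n) (j : ℕ) (R : ℂ → ℂ) (i : Fin (n + 1)) : ℂ → ℂ :=
  if (i : ℕ) < j then X.Q i else if (i : ℕ) = j then R else 0

def trg (X : LD n) (j : ℕ) (e : Fin n) : ℂ → ℝ := if (e : ℕ) < j then X.g e else 0

def trh (X : LD n) (j : ℕ) (e : Fin n) : ℂ → ℝ := if (e : ℕ) < j then X.h e else 0

theorem tr_eq (X : LD n) (j : ℕ) (R : ℂ → ℂ) :
    X.tr j R = lobB (trQ X j R) (prodB Fin.castSucc Fin.succ (trg X j) (trh X j)) := by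
  funext z
  unfold LD.tr GF lobB prodB
  rw [Complex.ofReal_sum]
  congr 1
  refine Finset.sum_congr rfl fun e _ => ?_
  unfold trg trh
  by_cases h : (e : ℕ) < j
  · simp only [h, if_true, Complex.ofReal_mul]
  · simp [h]

theorem trP (a : Fin (n + 1) → ℕ) (j : Fin (n + 1)) : TrP a j := by
  intro X R hX hR hRd hcond hnc z hz hz0 hre
  rw [tr_eq] at hre ⊢
  set D : Fin (n + 1) → ℝ := fun i => if (i : ℕ) ≤ j then X.D i else 1 with hDdef
  have hDpos : ∀ i, 0 < D i := by
    intro i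
    show 0 < if (i : ℕ) ≤ j then X.D i else 1
    split_ifs with h
    · have := hX.hD i h; linarith
    · exact one_pos
  have hDle : ∀ i : Fin (n + 1), (i : ℕ) ≤ j → D i = X.D i := fun i h => if_pos h
  have hQlt : ∀ i : Fin (n + 1), (i : ℕ) < j → trQ X j R i = X.Q i := fun i h => if_pos h
  have hQeq : trQ X j R j = R := by unfold trQ; rw [if_neg (lt_irrefl _), if_pos rfl]
  have hQgt : ∀ i : Fin (n + 1), (j : ℕ) < i → trQ X j R i = 0 := fun i h => by
    unfold trQ; rw [if_neg (by omega), if_neg (by omega)]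
  have hglt : ∀ e : Fin n, (e : ℕ) < j → trg X j e = X.g e := fun e h => if_pos h
  have hhlt : ∀ e : Fin n, (e : ℕ) < j → trh X j e = X.h e := fun e h => if_pos h
  have hgge : ∀ e : Fin n, ¬ (e : ℕ) < j → trg X j e = 0 := fun e h => if_neg h
  have hhge : ∀ e : Fin n, ¬ (e : ℕ) < j → trh X j e = 0 := fun e h => if_neg h
  refine chain_reg (D := D) (p := fun e => if (e : ℕ) < j then X.p e else D e.castSucc / 2)
    (m := fun e => if (e : ℕ) < j then X.m e else D e.succ / 2) hDpos ?_ ?_ ?_ ?_ ?_ ?_ ?_ ?_ ?_ ?_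
    ?_ ?_ hz ?_ hre
  · intro e
    show 0 < if (e : ℕ) < j then X.p e else D e.castSucc / 2
    split_ifs with h
    · have := hX.hp e h; linarith
    · exact half_pos (hDpos _)
  · intro e
    show 0 < if (e : ℕ) < j then X.m e else D e.succ / 2
    split_ifs with h
    · have := hX.hm e h; linarith
    · exact half_pos (hDpos _)
  · intro e
    show (if (e : ℕ) < j then X.p e else D e.castSucc / 2) / D e.castSucc +
      (if (e : ℕ) < j then X.m e else D e.succ / 2) / D e.succ = 1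
    split_ifs with h
    · rw [hDle _ (le_cast h), hDle _ (lt_succ h)]
      exact hX.sum e h
    · have h1 := (hDpos e.castSucc).ne'
      have h2 := (hDpos e.succ).ne'
      field_simp
      norm_num
  · intro i
    rcases lt_trichotomy (i : ℕ) j with h | h | h
    · rw [hQlt i h, hDle i h.le]; exact Q_ph X i
    · have h' : i = j := Fin.ext h
      rw [h', hQeq, hDle j le_rfl]; exact hR
    · rw [hQgt i h]; exact ph_zero _
  · intro e
    by_cases h : (e : ℕ) < j
    · rw [hglt e h]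
      simp only [if_pos h]
      exact g_ph X e
    · rw [hgge e h]; exact ph_zero _
  · intro e
    by_cases h : (e : ℕ) < j
    · rw [hhlt e h]
      simp only [if_pos h]
      exact h_ph X e
    · rw [hhge e h]; exact ph_zero _
  · intro i
    rcases lt_trichotomy (i : ℕ) j with h | h | h
    · rw [hQlt i h]; exact Q_diff hX h.le _
    · have h' : i = j := Fin.ext h
      rw [h', hQeq]; exact hRd _
    · rw [hQgt i h]; exact differentiableAt_const _
  · intro e
    by_cases h : (e : ℕ) < j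
    · rw [hglt e h]; exact g_diff hX h _
    · rw [hgge e h]; exact differentiableAt_const _
  · intro e
    by_cases h : (e : ℕ) < j
    · rw [hhlt e h]; exact h_diff hX h _
    · rw [hhge e h]; exact differentiableAt_const _
  · intro e x
    by_cases h : (e : ℕ) < j
    · rw [hglt e h]; exact g_nonneg hX h _
    · rw [hgge e h]; exact le_rfl
  · intro e x
    by_cases h : (e : ℕ) < j
    · rw [hhlt e h]; exact h_nonneg hX h _
    · rw [hhge e h]; exact le_rfl
  · intro i hi
    rcases lt_trichotomy (i : ℕ) j with h | h | h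
    · right
      rw [hQlt i h]
      refine ⟨Q_ne hX h.le hi, ?_⟩
      rcases Q_cases hX h.le hi with h1 | h1
      · exact Or.inl h1
      · right
        refine ⟨Complex.I * z i, fun e he => ?_, fun e he => ?_, good_Q hX h.le hi⟩
        · by_cases h2 : (e : ℕ) < j
          · rw [hglt e h2]
            subst he
            exact fderiv_g_I hX h2 hi h1
          · rw [hgge e h2, fderiv_zero]; rfl
        · by_cases h2 : (e : ℕ) < j
          · rw [hhlt e h2]
            subst he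
            exact fderiv_h_I hX h2 hi h1
          · rw [hhge e h2, fderiv_zero]; rfl
    · have h' : i = j := Fin.ext h
      subst h'
      right
      rw [hQeq]
      obtain ⟨h1, h2⟩ := hcond _ hi
      refine ⟨h1, ?_⟩
      rcases h2 with h2 | ⟨v, h2, h3⟩
      · exact Or.inl h2
      · right
        refine ⟨v, fun e he => ?_, fun e he => ?_, h3⟩
        · have h4 : ¬ (e : ℕ) < i := by
            have := congrArg Fin.val he
            rw [Fin.val_castSucc] at this
            omega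
          rw [hgge e h4, fderiv_zero]; rfl
        · have h4 : (e : ℕ) < i := by
            have := congrArg Fin.val he
            rw [Fin.val_succ] at this
            omega
          rw [hhlt e h4]
          exact h2 e he
    · exact absurd (hz0 i h) hi
  · intro e hx hy hB h3 h4 h5 h6 h7 h8
    have he : (e : ℕ) < j := by
      by_contra h
      rw [hgge e h] at hB
      simp at hB
    have hce : ((e.castSucc : Fin (n + 1)) : ℕ) < j := by rw [Fin.val_castSucc]; exact he
    simp only [if_pos he] at h3 h4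
    rw [hglt e he, hhlt e he] at hB h3 h4
    rw [hQlt _ hce] at h3 h5 h6
    rw [hDle _ hce.le] at h3
    rw [hDle _ (lt_succ he)] at h4
    have hg0 := g_nonneg hX he (z e.castSucc)
    have hh0 := h_nonneg hX he (z e.succ)
    have hgpos : 0 < X.g e (z e.castSucc) := by
      rcases hg0.eq_or_lt with h | h
      · rw [← h, zero_mul] at hB; exact absurd hB (lt_irrefl _)
      · exact h
    have hhpos : 0 < X.h e (z e.succ) := by
      rcases hh0.eq_or_lt with h | h
      · rw [← h, mul_zero] at hB; exact absurd hB (lt_irrefl _)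
      · exact h
    have hgv : X.g e (z e.castSucc) = X.c e * ‖z e.castSucc‖ ^ X.p e :=
      (g_val hX he (cos_of_re hX hce.le hx h5.le)).resolve_left hgpos.ne'
    have hN1 : (X.Q e.castSucc (z e.castSucc)).re ≤ X.ep e.castSucc *
        ‖z e.castSucc‖ ^ X.D e.castSucc := by
      rw [← Q_norm hX hce.le]
      exact (le_abs_self _).trans (Complex.abs_re_le_norm _)
    have key : X.h e (z e.succ) = ‖z e.succ‖ ^ X.m e ∧
        (trQ X j R e.succ (z e.succ)).re ≤ X.ep e.succ * ‖z e.succ‖ ^ X.D e.succ := by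
      by_cases h9 : e.succ = j
      · subst h9
        rw [hQeq] at h7 h8 ⊢
        have h10 := hnc e rfl (z e.succ) hy hhpos h7 h8
        exact ⟨h10.1, ((le_abs_self _).trans (Complex.abs_re_le_norm _)).trans h10.2⟩
      · have h10 : ((e.succ : Fin (n + 1)) : ℕ) < j :=
          lt_of_le_of_ne (lt_succ he) fun h => h9 (Fin.ext h)
        rw [hQlt _ h10] at h7 ⊢
        refine ⟨(h_val hX he (cos_of_re hX h10.le hy h7.le)).resolve_left hhpos.ne', ?_⟩
        rw [← Q_norm hX h10.le]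
        exact (le_abs_self _).trans (Complex.abs_re_le_norm _)
    obtain ⟨hhv, hN2⟩ := key
    have hDx : 0 < X.D e.castSucc := by have := hX.hD _ hce.le; linarith
    have hDy : 0 < X.D e.succ := by have := hX.hD _ (lt_succ he); linarith
    refine nc_num hDx hDy (by have := hX.hp e he; linarith) (by have := hX.hm e he; linarith)
      (hX.sum e he) (hX.hc e he) (hX.hep _ hce.le) (hX.hep _ (lt_succ he))
      (norm_pos_iff.2 hx) (norm_pos_iff.2 hy) (hX.nc e he) ?_ ?_
    · rw [hgv, hhv] at h3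
      exact h3.trans (mul_le_mul_of_nonneg_left hN1 hDx.le)
    · rw [hgv, hhv] at h4
      rw [← h4]
      exact mul_le_mul_of_nonneg_left hN2 hDy.le

/-! ### weights -/

theorem wh_GF {w : Fin (n + 1) → ℝ} (hw : ∀ i, 0 < w i) {Q : Fin (n + 1) → ℂ → ℂ}
    {g h : Fin n → ℂ → ℂ} (hQ : ∀ i, PH (w i)⁻¹ (Q i))
    (hgh : ∀ e : Fin n, ∃ p m : ℝ, PH p (g e) ∧ PH m (h e) ∧
      p * w e.castSucc + m * w e.succ = 1) : WH w (GF Q g h) := by
  intro s x
  have h1 : ∀ i, Q i (Cone_808.act w s x i) = Real.exp s • Q i (x i) := by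
    intro i
    have h2 := hQ i (Real.exp (s * w i)) (Real.exp_pos _) (x i)
    show Q i ((Real.exp (s * w i) : ℂ) * x i) = _
    rw [h2, ← Real.exp_mul]
    congr 2
    rw [mul_assoc, mul_inv_cancel₀ (hw i).ne', mul_one]
  have h2 : ∀ e : Fin n, g e (Cone_808.act w s x e.castSucc) * h e (Cone_808.act w s x e.succ) =
      Real.exp s • (g e (x e.castSucc) * h e (x e.succ)) := by
    intro e
    obtain ⟨p, m, hg, hh, hs⟩ := hgh e
    have e1 := hg (Real.exp (s * w e.castSucc)) (Real.exp_pos _) (x e.castSucc)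
    have e2 := hh (Real.exp (s * w e.succ)) (Real.exp_pos _) (x e.succ)
    show g e ((Real.exp (s * w e.castSucc) : ℂ) * x e.castSucc) *
      h e ((Real.exp (s * w e.succ) : ℂ) * x e.succ) = _
    rw [e1, e2, ← Real.exp_mul, ← Real.exp_mul, smul_mul_smul_comm, ← Real.exp_add]
    congr 2
    linear_combination s * hs
  unfold GF
  simp only [h1, h2]
  rw [smul_sub, Finset.smul_sum, Finset.smul_sum]

/-- weights: `1 / D i` for `i ≤ j`, `w i + a (i+1) w (i+1) = 1` above. -/
theorem exists_wt {a : Fin (n + 1) → ℕ} (ha : ∀ i, 2 ≤ a i) (D : Fin (n + 1) → ℝ) (j : ℕ)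
    (hD : ∀ i : Fin (n + 1), (i : ℕ) ≤ j → 1 < D i) :
    ∃ w : Fin (n + 1) → ℝ, (∀ i, 0 < w i) ∧ (∀ i, w i < 1) ∧
      (∀ i : Fin (n + 1), (i : ℕ) ≤ j → w i = (D i)⁻¹) ∧
      ∀ e : Fin n, j ≤ (e : ℕ) → w e.castSucc + a e.succ * w e.succ = 1 := by
  classical
  let DN : ℕ → ℝ := fun k => if h : k < n + 1 then (D ⟨k, h⟩)⁻¹ else 1 / 2
  let aN : ℕ → ℝ := fun k => if h : k < n + 1 then (a ⟨k, h⟩ : ℝ) else 2
  let wN : ℕ → ℝ := fun k => Nat.rec (DN 0)
    (fun k w => if k + 1 ≤ j then DN (k + 1) else (1 - w) / aN (k + 1)) k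
  have hw0 : wN 0 = DN 0 := rfl
  have hws : ∀ k, wN (k + 1) = if k + 1 ≤ j then DN (k + 1) else (1 - wN k) / aN (k + 1) :=
    fun k => rfl
  have hDN : ∀ k, k ≤ j → 0 < DN k ∧ DN k < 1 := by
    intro k hk
    show 0 < (if h : k < n + 1 then (D ⟨k, h⟩)⁻¹ else 1 / 2) ∧
      (if h : k < n + 1 then (D ⟨k, h⟩)⁻¹ else 1 / 2) < 1
    split_ifs with h
    · have h1 := hD ⟨k, h⟩ hk
      exact ⟨inv_pos.2 (by linarith), inv_lt_one_of_one_lt₀ h1⟩
    · norm_num
  have haN : ∀ k, 2 ≤ aN k := by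
    intro k
    show (2 : ℝ) ≤ if h : k < n + 1 then (a ⟨k, h⟩ : ℝ) else 2
    split_ifs with h
    · exact_mod_cast ha _
    · exact le_rfl
  have hwN : ∀ k, 0 < wN k ∧ wN k < 1 := by
    intro k
    induction k with
    | zero => exact hDN 0 (Nat.zero_le _)
    | succ k ih =>
      rw [hws]
      split_ifs with h
      · exact hDN _ h
      · have h1 := haN (k + 1)
        refine ⟨div_pos (by linarith [ih.2]) (by linarith), ?_⟩
        rw [div_lt_one (by linarith)]
        linarith [ih.1]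
  refine ⟨fun i => wN i, fun i => (hwN i).1, fun i => (hwN i).2, fun i hi => ?_, fun e he => ?_⟩
  · have hi2 : (i : ℕ) < n + 1 := i.2
    have h1 : DN (i : ℕ) = (D i)⁻¹ := dif_pos hi2
    rw [← h1]
    rcases Nat.eq_zero_or_pos (i : ℕ) with h0 | h0
    · show wN (i : ℕ) = DN (i : ℕ)
      rw [h0]
      exact hw0
    · obtain ⟨k, hk⟩ : ∃ k, (i : ℕ) = k + 1 := ⟨(i : ℕ) - 1, by omega⟩
      show wN (i : ℕ) = DN (i : ℕ)
      rw [hk, hws, if_pos (by omega)]
  · have h1 : wN ((e.succ : Fin (n + 1)) : ℕ) = (1 - wN (e : ℕ)) / aN ((e : ℕ) + 1) := by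
      rw [Fin.val_succ, hws, if_neg (by omega)]
    have h2 : aN ((e : ℕ) + 1) = (a e.succ : ℝ) := dif_pos (by omega)
    show wN ((e.castSucc : Fin (n + 1)) : ℕ) + (a e.succ : ℝ) * wN ((e.succ : Fin (n + 1)) : ℕ) = 1
    rw [h1, h2, Fin.val_castSucc]
    have h3 : (a e.succ : ℝ) ≠ 0 := by
      have := ha e.succ
      positivity
    field_simp
    ring

theorem wh_mid {X : LD n} {a : Fin (n + 1) → ℕ} (ha : ∀ i, 2 ≤ a i) {e : Fin n} (hX : X.Ok a e)
    {Y η H : ℂ → ℂ} {DY pη mH : ℝ} (hDY : 1 < DY) (hY : PH DY Y) (hη : PH pη η) (hH : PH mH H)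
    (hsum : pη / X.D e.castSucc + mH / DY = 1) :
    ∃ w : Fin (n + 1) → ℝ, (∀ i, 0 < w i) ∧ WH w (X.mid a e Y η H) := by
  obtain ⟨w, hw, hw1, hwD, hwt⟩ := exists_wt ha
    (fun i => if (i : ℕ) ≤ e then X.D i else DY) ((e : ℕ) + 1) (fun i hi => by
      show 1 < if (i : ℕ) ≤ e then X.D i else DY
      split_ifs with h
      · have := hX.hD i h; linarith
      · exact hDY)
  have hwle : ∀ i : Fin (n + 1), (i : ℕ) ≤ e → w i = (X.D i)⁻¹ := fun i hi => by
    rw [hwD i (by omega)]
    show (if (i : ℕ) ≤ e then X.D i else DY)⁻¹ = _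
    rw [if_pos hi]
  have hws : w e.succ = DY⁻¹ := by
    rw [hwD e.succ (by rw [Fin.val_succ])]
    show (if ((e.succ : Fin (n + 1)) : ℕ) ≤ e then X.D e.succ else DY)⁻¹ = _
    rw [if_neg (by rw [Fin.val_succ]; omega)]
  refine ⟨w, hw, wh_GF hw (fun i => ?_) fun e' => ?_⟩
  · rcases lt_trichotomy (i : ℕ) ((e : ℕ) + 1) with h | h | h
    · rw [if_pos (by omega), hwle i (by omega), inv_inv]
      exact Q_ph X i
    · have hi : i = e.succ := Fin.ext (by rw [Fin.val_succ]; exact h)
      rw [if_neg (by omega), if_pos h, hi, hws, inv_inv]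
      exact hY
    · rw [if_neg (by omega), if_neg (by omega)]
      exact ph_zero _
  · rcases lt_trichotomy (e' : ℕ) (e : ℕ) with h | h | h
    · refine ⟨X.p e', X.m e', ?_, ?_, ?_⟩
      · rw [if_pos h]; exact ph_ofReal (g_ph X e')
      · rw [if_pos h]; exact ph_ofReal (h_ph X e')
      · rw [hwle _ (by rw [Fin.val_castSucc]; omega), hwle _ (by rw [Fin.val_succ]; omega)]
        have := hX.sum e' h
        rwa [div_eq_mul_inv, div_eq_mul_inv] at this
    · have he : e' = e := Fin.ext h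
      subst he
      refine ⟨pη, mH, ?_, ?_, ?_⟩
      · rw [if_neg (lt_irrefl _), if_pos rfl]; exact hη
      · rw [if_neg (lt_irrefl _), if_pos rfl]; exact hH
      · rw [hwle _ (by rw [Fin.val_castSucc]), hws]
        rwa [div_eq_mul_inv, div_eq_mul_inv] at hsum
    · refine ⟨1, a e'.succ, ?_, ?_, ?_⟩
      · rw [if_neg (by omega), if_neg (by omega)]; exact ph_id
      · rw [if_neg (by omega), if_neg (by omega)]; exact ph_pow _
      · rw [one_mul]
        exact hwt e' (by omega)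

theorem wh_st {X : LD n} {a : Fin (n + 1) → ℕ} (ha : ∀ i, 2 ≤ a i) {j : ℕ} (hX : X.Ok a j) :
    ∃ w : Fin (n + 1) → ℝ, (∀ i, 0 < w i) ∧ WH w (X.st a j) := by
  obtain ⟨w, hw, hw1, hwD, hwt⟩ := exists_wt ha X.D j fun i hi => by
    have := hX.hD i hi; linarith
  refine ⟨w, hw, wh_GF hw (fun i => ?_) fun e' => ?_⟩
  · by_cases h : (i : ℕ) ≤ j
    · rw [if_pos h, hwD i h, inv_inv]
      exact Q_ph X i
    · rw [if_neg h]
      exact ph_zero _
  · by_cases h : (e' : ℕ) < j
    · refine ⟨X.p e', X.m e', ?_, ?_, ?_⟩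
      · rw [if_pos h]; exact ph_ofReal (g_ph X e')
      · rw [if_pos h]; exact ph_ofReal (h_ph X e')
      · rw [hwD _ (le_cast h), hwD _ (lt_succ h)]
        have := hX.sum e' h
        rwa [div_eq_mul_inv, div_eq_mul_inv] at this
    · refine ⟨1, a e'.succ, ?_, ?_, ?_⟩
      · rw [if_neg h]; exact ph_id
      · rw [if_neg h]; exact ph_pow _
      · rw [one_mul]
        exact hwt e' (by omega)

end Crest.Agent.R267.LobeKit_407
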