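import Crest.Agent.R267.T3aDefs_957

/-!
# Row 267, T3aN: the signed lobed function `G` on `ℂ^N` (degree 1, with cut-offs)

Same as `T3aDefs_957`, with three generalisations (needed for S0406):
* the lobes have signs (`neg j l = true`: the loop `l` of the variable `j` runs clockwise);
* the windows are arbitrary intervals of lobes;
* the deletions are boxes: a set `S` of at least two variables with one interval of lobes each.

Cells of length `16`: ray `l` at `sgN l = 16 l + 8`, `v = τ - sgN l`. For `|v| ≤ 6` the planar function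
is `s (-(1-ga) + Af v + i e Bf v)`, `e = ±1` the sign (`s (ga + i e v)` for `|v| ≤ 1`, vertical line
`Re = -(2-ga)` for `|v| ≥ 3`); at the junctions `|v| ≥ 7` it is on the vertical line, running
downwards through height `0` with speed `1`. Windows vary only on the junctions.
-/

set_option autoImplicit false

noncomputable section

namespace Crest.Agent.R267.T3aNDefs_88

open Finset
open Crest.Agent.R267.T3aDefs_957 (st Af Bf pg NN chi)
open Crest.Agent.R267.T3aDefs_957.LD (Ev vt vs Cen)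

/-! ### one variable functions -/

/-- position of the ray `l`. -/
def sgN (l : ℕ) : ℝ := 16 * l + 8

/-- `1` for `|v| ≤ 6`, `0` for `|v| ≥ 7`. -/
def ww (v : ℝ) : ℝ := 1 - st (-v - 6) - st (v - 6)

/-- height of the cell with sign `e`: `e * Bf v` for `|v| ≤ 6`, `-(v+8)` for `v ≤ -7`,
`-(v-8)` for `v ≥ 7`. -/
def yc (e v : ℝ) : ℝ := e * Bf v * ww v - (v + 8) * st (-v - 6) - (v - 8) * st (v - 6)

/-- the loops with signs `e`: `0` for `τ ≤ 1` and for `τ ≥ 16 M + 1`. -/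
def FlN (e : ℕ → ℝ) (M : ℕ) (τ : ℝ) : ℂ :=
  (∑ l ∈ range M, ((1 + Af (τ - sgN l) : ℝ) : ℂ)) +
    Complex.I * (((∑ l ∈ range M, (8 + (τ - sgN l) + yc (e l) (τ - sgN l)) : ℝ) -
      16 * M * st (τ - 16 * M) : ℝ) : ℂ)

/-- value of the planar function on the line `s = 1`. -/
def pvN (ga : ℝ) (e : ℕ → ℝ) (M : ℕ) (τ : ℝ) : ℂ :=
  -((2 - ga : ℝ) : ℂ) - Complex.I * (τ : ℂ) + FlN e M τ

/-- **the planar function** with `M` signed lobes. -/
def plN (ga : ℝ) (e : ℕ → ℝ) (M : ℕ) (z : ℂ) : ℂ :=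
  -((2 - ga : ℝ) : ℂ) * z.re - Complex.I * z.im +
    if 0 < z.re then (z.re : ℂ) * FlN e M (z.im / z.re) else 0

/-- angular window: `1` on the lobes `m ≤ l < m'`, `0` on the other lobes; it varies only on
`[16m-1, 16m+1]` and `[16m'-1, 16m'+1]`. -/
def winN (m m' : ℕ) (τ : ℝ) : ℝ :=
  st ((τ - (16 * m - 1)) / 2) * (1 - st ((τ - (16 * m' - 1)) / 2))

/-- harmonic combination `1 / ∑ 1 / R j` (`0` if some `R j ≤ 0`). -/
def Hm {ι : Type} (S : Finset ι) (R : ι → ℝ) : ℝ :=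
  open Classical in if ∀ j ∈ S, 0 < R j then 1 / ∑ j ∈ S, 1 / R j else 0

/-- a deletion box: a set of variables with an interval `[lo, hi)` of lobes for each of them. -/
structure Box (N : ℕ) where
  S : Finset (Fin N)
  lo : Fin N → ℕ
  hi : Fin N → ℕ

/-- combinatorial data: `M j` signed lobes in the variable `j`, deletion boxes. -/
structure SD (N : ℕ) where
  M : Fin N → ℕ
  hM : ∀ j, 1 ≤ M j
  neg : Fin N → ℕ → Bool
  nb : ℕ
  bx : Fin nb → Box N
  h2 : ∀ e, 2 ≤ (bx e).S.card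
  hhi : ∀ e, ∀ j ∈ (bx e).S, (bx e).hi j ≤ M j

namespace SD

variable {N : ℕ} (D : SD N)

/-- sign of a lobe. -/
def sn (j : Fin N) (l : ℕ) : ℝ := if D.neg j l then -1 else 1

/-- total number of lobes. -/
def Mx : ℕ := ∑ j, D.M j

/-- slope up to which the total gauge is `|s|`. -/
def K1 : ℝ := (16 * D.Mx + 2) * N

/-- slope up to which the planar gauges are `|s|`. -/
def K : ℝ := D.K1 * N

/-- relative size of the variable `j`. -/
def xr (z : Fin N → ℂ) (j : Fin N) : ℝ := pg D.K (z j) / NN D.K1 z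

/-- cut-off of the variable `j`. -/
def ch (d : ℝ) (z : Fin N → ℂ) (j : Fin N) : ℝ := chi d (D.xr z j)

/-- cut-off positive part `χ s⁺`. -/
def R (d : ℝ) (z : Fin N → ℂ) (j : Fin N) : ℝ := D.ch d z j * max 0 (z j).re

/-- deletion of one box (`0` unless all variables of the box are in the windows). -/
def Be (d : ℝ) (e : Fin D.nb) (z : Fin N → ℂ) : ℝ :=
  Hm (D.bx e).S (D.R d z) *
    ∏ j ∈ (D.bx e).S, winN ((D.bx e).lo j) ((D.bx e).hi j) ((z j).im / (z j).re)

/-- **the signed lobed function** of T3aN. Parameters in the order of choice: `cB` large,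
`ga` small, `d` small. -/
def G (cB ga d : ℝ) (z : Fin N → ℂ) : ℂ :=
  ∑ j, (D.ch d z j : ℂ) * plN ga (D.sn j) (D.M j) (z j) - ((cB * ga * ∑ e, D.Be d e z : ℝ) : ℂ)

/-- letters (strands): tuples of lobes which are in no box. -/
def Let (k : Fin N → ℕ) : Prop :=
  (∀ j, k j < D.M j) ∧ ∀ e, ∃ j ∈ (D.bx e).S, ¬ ((D.bx e).lo j ≤ k j ∧ k j < (D.bx e).hi j)

/-! ### the facts -/

/-- smoothness. -/
def Smooth : Prop := Ev fun c g d => ContDiffOn ℝ 2 (D.G c g d) {0}ᶜ

/-- **K1**: `Im G = 0`, `Re G ≥ 0` implies `d_t Im G ≠ 0`. -/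
def K1Prop : Prop := Ev fun c g d => ∀ z : Fin N → ℂ, z ≠ 0 → (D.G c g d z).im = 0 →
  0 ≤ (D.G c g d z).re → ∃ Y : Fin N → ℝ, (fderiv ℝ (D.G c g d) z (vt Y)).im ≠ 0

/-- **K2**: at a zero there is a vector `(-a·1, Y)`, `a ≥ 0`, pushing into the page. -/
def K2Prop : Prop := Ev fun c g d => ∀ z : Fin N → ℂ, z ≠ 0 → D.G c g d z = 0 →
  ∃ (a : ℝ) (Y : Fin N → ℝ), 0 ≤ a ∧ (fderiv ℝ (D.G c g d) z (vs a Y)).im = 0 ∧
    0 < (fderiv ℝ (D.G c g d) z (vs a Y)).re

/-- **R4**: over the centre the page is radial around the rays of the letters. -/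
def R4Prop : Prop := Ev fun c g d => ∀ z : Fin N → ℂ, z ≠ 0 → Cen z → (D.G c g d z).im = 0 →
  0 ≤ (D.G c g d z).re → ∃ (k : Fin N → ℕ) (Y : Fin N → ℝ), D.Let k ∧
    (fderiv ℝ (D.G c g d) z (vt Y)).im = 0 ∧ (fderiv ℝ (D.G c g d) z (vt Y)).re ≤ 0 ∧
    (D.G c g d z = 0 → (fderiv ℝ (D.G c g d) z (vt Y)).re < 0) ∧
    (∀ j, ((z j).im - sgN (k j) * (z j).re) ^ 2 ≤ Y j * ((z j).im - sgN (k j) * (z j).re)) ∧
    ∀ j, |(z j).im - sgN (k j) * (z j).re| < 2 * (z j).re

/-- homogeneity. -/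
def HomProp : Prop := ∀ (c g d r : ℝ) (z : Fin N → ℂ), 0 < r →
  D.G c g d (fun j => (r : ℂ) * z j) = (r : ℂ) * D.G c g d z

/-- over `s = 0` the function is purely imaginary. -/
def S0Prop : Prop := Ev fun c g d => ∀ z : Fin N → ℂ, (∀ j, (z j).re = 0) →
  (D.G c g d z).re = 0



end SD

end Crest.Agent.R267.T3aNDefs_88
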