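import Crest.Agent.R267.WordPh2_9
import Crest.Agent.R267.NdR_484
import Crest.Agent.R267.HubEng_370
import Crest.Agent.R267.HarmBox_920

/-!
# S0406, hub step (helper222 #2918, chain = helper64 #3357, #3508): LITERAL functions of all stages
and one Prop per arrow (helper284, version 2)

Coordinates `z = (x, y, z, w) : Fin 4 → ℂ`; `b = true`: `f`, `b = false`: `g`.  `D : SD 4` (88; used
for 330's `DfL`, `DgL`): signed lobes and boxes.  Everything is literal: own words `pp` (9's `wph` with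
the arcs `aE`, `bE`), flat lifts `hh` (word sector `J` removed), windows `ww` (9's `wn`), constants
`cc` (`5/2` pairs, `4` triples).

* `XX b D : PD D` : the final polar data (`XX.fn` is the end of the hub step);
* `F1 b D M` : holomorphic core `+` own `-` harmonic boxes, symmetric degrees `DS`;
* `F2 b D M` : the same after `z ↦ z |z|²` (degrees `D3 = 3 DS`);
* `HX b D H A B : Hub ..` (370's engine): couplings with staircase phases (`H` = `Hs hd` or `Gs`) and
  coefficients `A t (arg x)`, `B t (arg x)`;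
* `Fs b D H s A B` : the same with the phases `(1 - s t)` linear `+ s t` staircase (739's `path`);
  `Fs .. (fun _ => 1) .. = (HX ..).fn`.

Props: `GamP` (C2), `PowP`, `BoxP` (C3), `StartP` (C4), `Path1P`, `Path2P` (C7); `Tgt` = target of C1.
-/

set_option autoImplicit false

noncomputable section

open Finset Set
open Crest.Agent.R267.T3aNDefs_88 Crest.Agent.R267.Hm_951 Crest.Agent.R267.Ang_739
open Crest.Agent.R267.GlNDefs_9 Crest.Agent.R267.NdR_484 Crest.Agent.R267.StairFn_739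
open Crest.Agent.R267.WordPh_9 Crest.Agent.R267.WordPh2_9

namespace Crest.Agent.R267.HubDefs_284

/-! ### numbers -/

/-- true degrees of the own terms of the amalgam: `15 / a_v`, and `15` for `w`. -/
def D0 (b : Bool) : Fin 4 → ℝ := bif b then ![5 / 2, 15 / 2, 15, 15] else ![5, 3, 15, 15]

/-- symmetric degrees (end of C2). -/
def DS (b : Bool) : Fin 4 → ℝ := bif b then ![5 / 2, 10, 10, 15] else ![5, 5, 5, 15]

/-- degrees after the power change: `f`: `15/2, 30, 30, 45`, `g`: `15, 15, 15, 45`. -/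
def D3 (b : Bool) (j : Fin 4) : ℝ := 3 * DS b j

/-- exponents (winding numbers) of the couplings: `0` = `x²yz` resp. `x³yz`, `1` = `(yz)⁵` resp.
`x(yz)²`. -/
def vc (b : Bool) (k : Fin 2) : Fin 4 → ℕ :=
  bif b then (if k = 0 then ![2, 1, 1, 0] else ![0, 5, 5, 0])
  else (if k = 0 then ![3, 1, 1, 0] else ![1, 2, 2, 0])

/-- number of hub lobes (including the plate lobe `0`; `w` has no word sector). -/
def nh (b : Bool) : Fin 4 → ℕ := bif b then ![3, 10, 10, 15] else ![5, 5, 5, 15]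

/-- the core in `(s, t) = (x, yz)`. -/
def core (b : Bool) (s t : ℂ) : ℂ := bif b then s ^ 2 * t + t ^ 5 else s ^ 3 * t + s * t ^ 2

/-! ### words, windows, constants -/

section

variable (b : Bool) (D : SD 4)

/-- own words: `M j + 1` equal arcs. -/
def pp (j : Fin 4) : ℝ → ℝ := wph (D.sn j) (D.M j) (aE (D.M j)) (bE (D.M j))

/-- left ends of the arcs, `J` removed. -/
def aJ (M h : ℕ) (i : ℕ) : ℝ := if i < h then aE M i else aE M 0 + 2 * Real.pi

/-- flat lifts: the word sector `J` (arcs `nh b j ≤ i ≤ M j`) is replaced by a constant. -/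
def hh (j : Fin 4) : ℝ → ℝ :=
  wph (fun _ => 1) (nh b j - 1) (aJ (D.M j) (nh b j)) (bE (D.M j))

/-- windows. -/
def ww (e : Fin D.nb) (j : Fin 4) : ℝ → ℝ :=
  wn (aE (D.M j)) (bE (D.M j)) ((D.bx e).lo j) ((D.bx e).hi j)

/-- constants of the boxes (product form). -/
def cc (e : Fin D.nb) : ℝ := if (D.bx e).S.card = 2 then 5 / 2 else 4

/-- indicator of the sector `J_x` (`g`), `1` (`f`). -/
def chi : ℝ → ℝ := bif b then fun _ => 1 else wn (aE (D.M 0)) (bE (D.M 0)) (nh b 0 - 1) (D.M 0)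

/-- **the final polar data.** -/
def XX : PD D where
  dg := D3 b
  ph := pp D
  a := fun j => wa (D.M j) (aE (D.M j)) (bE (D.M j))
  b := fun j => wb (aE (D.M j)) (bE (D.M j))
  c := cc D
  lam := ww D

/-! ### functions -/

/-- own terms. -/
def own (dg : Fin 4 → ℝ) (z : E4) : ℂ := ∑ j, pc (dg j) 1 (pp D j) (z j)

/-- deletions in product form (as in `PD.fn`). -/
def boxP (dg : Fin 4 → ℝ) (z : E4) : ℝ :=
  ∑ e, cc D e * ∏ j ∈ (D.bx e).S, pol (dg j / cd D e) (ww D e j) (z j)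

/-- deletions in harmonic form (constants `|S| c`: `5` for pairs, `12` for triples). -/
def boxH (dg : Fin 4 → ℝ) (z : E4) : ℝ :=
  ∑ e, cd D e * cc D e * HarmBox_920.HB (D.bx e).S dg (ww D e) z

/-- everything but the core, at the holomorphic stage. -/
def EX (dg : Fin 4 → ℝ) (z : E4) : ℂ := own D dg z - (boxH D dg z : ℂ)

/-- **stage 1**: holomorphic core, symmetric degrees. -/
def F1 (M : ℝ) (z : E4) : ℂ := (M : ℂ) * core b (z 0) (z 1 * z 2) + EX D (DS b) z

/-- phases of the couplings as functions of the flat lifts; `H` = a family of staircases. -/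
def Ph (H : ℕ → ℕ → ℝ → ℝ) (k : Fin 2) (u : Fin 4 → ℝ) : ℝ :=
  (bif b then (if k = 0 then fAl H else fBe H) else (if k = 0 then gAl H else gBe H))
    fun i : Fin 3 => u i.castSucc

/-- **the hub function with staircase phases** (370's engine). -/
def HX (H : ℕ → ℕ → ℝ → ℝ) (A B : ℝ → ℝ → ℝ) : HubEng_370.Hub (Fin 4) (Fin 2) (Fin D.nb) where
  D := D3 b
  p := pp D
  ph := hh b D
  Φ := Ph b H
  sh := fun k j => 3 * (vc b k j : ℝ)
  amp := fun k q => if k = 0 then A q.1 (q.2 0) else B q.1 (q.2 0)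
  th := fun e j => if j ∈ (D.bx e).S then D3 b j / cd D e else 0
  cb := cc D
  lam := fun e j => if j ∈ (D.bx e).S then ww D e j else fun _ => 1

/-- coefficients of the family with the phases `(1 - s)` linear `+ s` staircase. -/
def CC (H : ℕ → ℕ → ℝ → ℝ) (s : ℝ → ℝ) (A B : ℝ → ℝ → ℝ) :
    Fin 4 ⊕ (Fin 2 ⊕ Fin D.nb) → ℝ × (Fin 4 → ℝ) → ℂ
  | Sum.inl i => (HX b D H A B).Co i
  | Sum.inr (Sum.inl k) => fun q => ((HX b D H A B).amp k q : ℂ) *
      cis (StairPh_739.path (Ph b H k) (hh b D) (vc b k) (s q.1, q.2))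
  | Sum.inr (Sum.inr e) => (HX b D H A B).Cb e

/-- **the hub family.** -/
def Fs (H : ℕ → ℕ → ℝ → ℝ) (s : ℝ → ℝ) (A B : ℝ → ℝ → ℝ) : ℝ × E4 → ℂ :=
  PolF_943.PF (HX b D H A B).E (CC b D H s A B)

/-- **stage 2**: `F1` after the power change (linear phases, harmonic boxes). -/
def F2 (M : ℝ) (z : E4) : ℂ :=
  Fs b D Gs (fun _ => 0) (fun _ _ => M) (fun _ _ => M) (0, z) +
    ((boxP D (D3 b) z - boxH D (D3 b) z : ℝ) : ℂ)

/-! ### C1: the target of the arms -/

/-- the point with `v`-coordinate `u`, last coordinate `w`, other coordinates `0`. -/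
def pt (v : Fin 3) (q : ℂ × ℂ) : E4 := Function.update (Function.update 0 v.castSucc q.1) 3 q.2

/-- **`K_v`**: `|u|^{15/a} e^{i p_v} + |w|^{15} e^{i p_w} - 5 ∑_{S_e = {v,w}} H(|u|^{15/a}, |w|^{15}) lam lam`
(true degrees `D0`). -/
def kX (v : Fin 3) (q : ℂ × ℂ) : ℂ := EX D (D0 b) (pt v q)

/-- **the arm `A` is in target form**: `w^15 + A = K_v` for `|w|^a ≤ W1 |u|`, and beyond that the
segment from `w^15 + A` to `K_v` avoids `0`. -/
def Tgt (v : Fin 3) (A : ℂ × ℂ → ℂ) : Prop := ∃ W1 : ℝ, 0 < W1 ∧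
  (∀ u w : ℂ, ‖w‖ ^ aw b v ≤ W1 * ‖u‖ → w ^ 15 + A (u, w) = kX b D v (u, w)) ∧
  ∀ u w : ℂ, W1 * ‖u‖ < ‖w‖ ^ aw b v → ∀ t ∈ Icc (0 : ℝ) 1,
    (1 - t) • (w ^ 15 + A (u, w)) + t • kX b D v (u, w) ≠ 0

/-! ### C2, C3, C4, C7 -/

/-- **C2** (GAM, `M ≫ 1`): from the amalgam to `F1` (own terms global, all boxes on, core of `f`
changed, degrees `D0 → DS`). -/
def GamP : Prop := ∀ A : Fin 3 → ℂ × ℂ → ℂ, (∀ v, Arm b v (A v)) →
  (∀ v, Tgt b D v (A v)) → ∃ M0 : ℝ, ∀ M ≥ M0, ZEq (am b M A) (F1 b D M)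

/-- **C3a, power change** (all `M`). -/
def PowP : Prop := ∀ M : ℝ, ZEq (F1 b D M) (F2 b D M)

/-- **C3b, harmonic boxes → product boxes** (`M ≫ 1`, linear phases). -/
def BoxP : Prop := ∃ M0 : ℝ, ∀ M ≥ M0,
  HPath0 fun q : ℝ × E4 => Fs b D Gs (fun _ => 0) (fun _ _ => M) (fun _ _ => M) (0, q.2) +
    (((1 - q.1) * (boxP D (D3 b) q.2 - boxH D (D3 b) q.2) : ℝ) : ℂ)

/-- the smoothing width. -/
def dd : ℝ := 1 / 10000

theorem dd_pos : 0 < dd := by unfold dd; norm_num

/-- **C4 (START)**: phases linear → staircase. -/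
def StartP : Prop := ∃ M0 : ℝ, ∀ M ≥ M0,
  HPath0 (Fs b D (Hs dd_pos) (fun t => t) (fun _ _ => M) fun _ _ => M)

/-- **C7, first half**: `g`: `(M, M) → (M χ, M (1-χ))`, `f`: `(M, M) → (M, 0)`. -/
def Path1P : Prop := ∃ M0 : ℝ, ∀ M ≥ M0,
  HPath0 (HX b D (Hs dd_pos) (fun t x => M * (1 - t * (1 - chi b D x)))
    fun t x => M * (1 - t * chi b D x)).fn

/-- **C7, second half**: `→ (0, 0)`. -/
def Path2P : Prop := ∃ M0 : ℝ, ∀ M ≥ M0,
  HPath0 (HX b D (Hs dd_pos) (fun t x => (1 - t) * (M * chi b D x))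
    fun t x => (1 - t) * (M * (1 - chi b D x))).fn

end

end Crest.Agent.R267.HubDefs_284
end
private theorem rz_a2df9d484b : type_of% @_root_.Crest.Agent.R267.HubDefs_284.CC.eq_1 := @_root_.Crest.Agent.R267.HubDefs_284.CC.eq_1 -- L132
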