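import Crest.Agent.R267.WordPh2_9
import Crest.Agent.R267.NSDefs_966
import Mathlib
import Crest.Agent.R267.HubDefs_284

-- ▼ part R267/ArmExA_649
section

/-!
# Row 267, N2 EXIT, part A (helper649): one circle

Cells `[k, k+1)`, signs `sg k`, heights `N k`; `M + 1` cells per turn.
* `hx N` : the phase of `NSDefs_966` (lobes `[k, k+1/2]`);
* `pE = hx - N 0 - 1/2`, `pT` = 9's phase `wph` with the lobes `|x - k| ≤ tau`, `tau = 3 / 2π`,
  both in units of `2π`;
* `circ` : `pm s = (1-s) pE + s pT`: where `cos (2π pm) ≥ 0`: `|x - k| < tau`, `pm' ≠ 0`.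
-/

set_option autoImplicit false

noncomputable section

open Set Filter Topology Finset
open Crest.Agent.R267.T3aDefs_957 (st)
open Crest.Agent.R267.Calc_957
open Crest.Agent.R267.GlNDefs_9 (se cen tot Arcs WinA)
open Crest.Agent.R267.WordPh_9 Crest.Agent.R267.WordPh2_9
open Crest.Agent.R267.NSDefs_966 (Sp Gp bil)

namespace Crest.Agent.R267.ArmExA_649

/-- half width of the wide lobes -/
def tau : ℝ := 3 / (2 * Real.pi)

theorem tau_gt : (476 : ℝ) / 1000 < tau := by
  unfold tau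
  rw [lt_div_iff₀ (by positivity)]
  nlinarith [Real.pi_lt_d2]

theorem tau_lt : tau < 1 / 2 := by
  unfold tau
  rw [div_lt_iff₀ (by positivity)]
  nlinarith [Real.pi_gt_three]

theorem tau_pos : 0 < tau := by linarith [tau_gt]

theorem two_pi_tau : 2 * Real.pi * tau = 3 := by
  unfold tau
  have := Real.pi_pos
  field_simp

/-! ### local formulas -/

theorem Sp_loc {k : ℤ} {x : ℝ} (h1 : (k : ℝ) - 1 / 2 ≤ x) (h2 : x ≤ k + 1 / 2) :
    Sp x = k + st (2 * (x - k)) := by
  unfold Sp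
  rcases lt_or_ge x k with h | h
  · have hf : ⌊x⌋ = k - 1 := by
      rw [Int.floor_eq_iff]
      push_cast
      constructor <;> linarith
    rw [Int.fract, hf, st_of_ge (by push_cast; linarith), st_of_le (by linarith)]
    push_cast
    ring
  · have hf : ⌊x⌋ = k := by
      rw [Int.floor_eq_iff]
      constructor <;> linarith
    rw [Int.fract, hf]

theorem Gp_loc {k : ℤ} {x : ℝ} (h1 : (k : ℝ) ≤ x) (h2 : x ≤ k + 1) :
    Gp x = k + st (2 * (x - k) - 1) := by
  unfold Gp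
  rw [Sp_loc (k := k) (by linarith) (by linarith)]
  congr 2
  ring

theorem Gp_flat {k : ℤ} {x : ℝ} (h1 : (k : ℝ) ≤ x) (h2 : x ≤ k + 1 / 2) : Gp x = k := by
  rw [Gp_loc h1 (by linarith), st_of_le (by linarith), add_zero]

/-- interpolation in one variable -/
def il (N : ℤ → ℝ) (X : ℝ) : ℝ := (1 - Int.fract X) * N ⌊X⌋ + Int.fract X * N (⌊X⌋ + 1)

theorem il_add (N : ℤ → ℝ) (k : ℤ) {f : ℝ} (h0 : 0 ≤ f) (h1 : f ≤ 1) :
    il N (k + f) = (1 - f) * N k + f * N (k + 1) := by
  unfold il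
  rcases h1.lt_or_eq with h | h
  · have hf : ⌊(k : ℝ) + f⌋ = k := by
      rw [Int.floor_eq_iff]
      constructor <;> linarith
    rw [Int.fract, hf]
    ring
  · subst h
    have hf : ⌊(k : ℝ) + 1⌋ = k + 1 := by
      rw [Int.floor_eq_iff]
      push_cast
      constructor <;> linarith
    rw [Int.fract, hf]
    push_cast
    ring

theorem bil_eq (N : ℤ → ℤ → ℝ) (X Y : ℝ) :
    bil N X Y = il (fun k => il (fun l => N k l) Y) X := by
  unfold bil il
  ring

theorem bil_eq' (N : ℤ → ℤ → ℝ) (X Y : ℝ) :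
    bil N X Y = il (fun l => il (fun k => N k l) X) Y := by
  unfold bil il
  ring

theorem il_int (N : ℤ → ℝ) (k : ℤ) : il N k = N k := by
  have := il_add N k le_rfl zero_le_one
  simpa using this

theorem il_nonneg {N : ℤ → ℝ} (h : ∀ k, 0 ≤ N k) (X : ℝ) : 0 ≤ il N X := by
  unfold il
  have h1 := Int.fract_nonneg X
  have h2 := (Int.fract_lt_one X).le
  exact add_nonneg (mul_nonneg (by linarith) (h _)) (mul_nonneg h1 (h _))

/-- the phase of the cells -/
def hx (N : ℤ → ℤ) (x : ℝ) : ℝ := il (fun k => (N k : ℝ)) (Sp x)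

theorem hx_loc (N : ℤ → ℤ) {k : ℤ} {x : ℝ} (h1 : (k : ℝ) - 1 / 2 ≤ x) (h2 : x ≤ k + 1 / 2) :
    hx N x = N k + ((N (k + 1) : ℝ) - N k) * st (2 * (x - k)) := by
  unfold hx
  rw [Sp_loc h1 h2, il_add _ _ (st_nonneg _) (st_le_one _)]
  ring

/-! ### the data of a circle -/

/-- heights, signs and the word `e` -/
structure Circ (M : ℕ) (e : ℕ → ℝ) (N sg : ℤ → ℤ) : Prop where
  sg1 : ∀ k, sg k = 1 ∨ sg k = -1
  step : ∀ k, N (k + 1) = N k + sg k
  per : ∀ k, N (k + ((M : ℤ) + 1)) = N k + 15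
  se : ∀ i : ℕ, i ≤ M → ((sg i : ℤ) : ℝ) = se e i

variable {M : ℕ} {e : ℕ → ℝ} {N sg : ℤ → ℤ}

theorem Circ.per_int (h : Circ M e N sg) (j k : ℤ) : N (k + ((M : ℤ) + 1) * j) = N k + 15 * j := by
  induction j using Int.induction_on with
  | zero => simp
  | succ j ih =>
    have : k + ((M : ℤ) + 1) * ((j : ℤ) + 1) = (k + ((M : ℤ) + 1) * j) + ((M : ℤ) + 1) := by ring
    rw [this, h.per, ih]
    ring
  | pred j ih =>
    have h1 := h.per (k + ((M : ℤ) + 1) * (-(j : ℤ) - 1))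
    have : k + ((M : ℤ) + 1) * (-(j : ℤ) - 1) + ((M : ℤ) + 1) = k + ((M : ℤ) + 1) * -(j : ℤ) := by
      ring
    rw [this, ih] at h1
    linarith

theorem Circ.sum (h : Circ M e N sg) {i : ℕ} (hi : i ≤ M + 1) :
    ∑ k ∈ range i, GlNDefs_9.se e k = (N i : ℝ) - N 0 := by
  induction i with
  | zero => simp
  | succ i ih =>
    rw [Finset.sum_range_succ, ih (by omega)]
    have h1 := h.step (i : ℤ)
    have h2 := h.se i (by omega)
    rw [← h2]
    push_cast
    rw [h1]
    push_cast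
    ring

theorem Circ.cen (h : Circ M e N sg) {i : ℕ} (hi : i ≤ M) :
    GlNDefs_9.cen e i = 2 * Real.pi * ((N i : ℝ) - N 0) - Real.pi + Real.pi * (sg i : ℝ) := by
  rw [cen_eq, h.sum (by omega), h.se i hi]
  ring

theorem Circ.tot (h : Circ M e N sg) : GlNDefs_9.tot e M = 2 * Real.pi * 15 := by
  rw [tot_eq, h.sum le_rfl]
  have := h.per 0
  rw [zero_add] at this
  have e1 : ((M + 1 : ℕ) : ℤ) = (M : ℤ) + 1 := by push_cast; ring
  rw [e1, this]
  push_cast
  ring

/-- the wide phase near the cell `k`. -/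
theorem Circ.wph_loc (h : Circ M e N sg) {k : ℤ} {x : ℝ} (h1 : (k : ℝ) - 1 / 2 ≤ x)
    (h2 : x ≤ k + 1 / 2) :
    wph e M (aE M) (bE M) (2 * Real.pi * x / (M + 1)) =
      2 * Real.pi * ((N k : ℝ) - N 0) - Real.pi +
        2 * Real.pi * (sg k : ℝ) * st ((x - k + tau) / (2 * tau)) := by
  have hA := arcsE M
  have hM : (0 : ℝ) < M + 1 := by positivity
  have hpi := Real.pi_pos
  have hpi3 := Real.pi_gt_three
  have ht := tau_pos
  have ht2 := two_pi_tau
  -- reduction to one turn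
  obtain ⟨j, i, hi, hk⟩ : ∃ (j : ℤ) (i : ℕ), i ≤ M ∧ k = (i : ℤ) + ((M : ℤ) + 1) * j := by
    have hM1 : (0 : ℤ) < (M : ℤ) + 1 := by positivity
    refine ⟨k / ((M : ℤ) + 1), (k % ((M : ℤ) + 1)).toNat, ?_, ?_⟩
    · have := Int.emod_lt_of_pos k hM1
      have := Int.emod_nonneg k hM1.ne'
      omega
    · have h3 := Int.emod_nonneg k hM1.ne'
      rw [Int.toNat_of_nonneg h3]
      have := Int.emod_add_mul_ediv k ((M : ℤ) + 1)
      linarith
  have hNk : (N k : ℝ) = (N i : ℝ) + 15 * j := by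
    rw [hk, h.per_int]
    push_cast
    ring
  have hsgk : sg k = sg i := by
    have e1 := h.step k
    have e2 := h.step i
    have e3 : N (k + 1) = N ((i : ℤ) + 1) + 15 * j := by
      have := h.per_int j ((i : ℤ) + 1)
      rw [← this, hk]
      congr 1
      ring
    have e4 : N k = N i + 15 * j := by rw [hk, h.per_int]
    linarith
  set x' : ℝ := x - ((M : ℝ) + 1) * j with hx'
  have hkr : (k : ℝ) = i + ((M : ℝ) + 1) * j := by rw [hk]; push_cast; ring
  have g1 : (i : ℝ) - 1 / 2 ≤ x' := by rw [hx']; linarith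
  have g2 : x' ≤ i + 1 / 2 := by rw [hx']; linarith
  have hxk : x - k = x' - i := by rw [hx', hkr]; ring
  have hθ : 2 * Real.pi * x / (M + 1) = 2 * Real.pi * x' / (M + 1) + 2 * Real.pi * j := by
    rw [hx']
    field_simp
    ring
  rw [hθ, wph_add_int, h.tot, hNk, hsgk, hxk]
  have hcen := h.cen hi
  -- main claim on one turn
  have main : wph e M (aE M) (bE M) (2 * Real.pi * x' / (M + 1)) =
      2 * Real.pi * ((N i : ℝ) - N 0) - Real.pi +
        2 * Real.pi * (sg i : ℝ) * st ((x' - i + tau) / (2 * tau)) := by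
    rcases le_or_gt (i - tau) x' with h3 | h3
    · -- in the lobe or the following gap
      have a1 : aE M i ≤ 2 * Real.pi * x' / (M + 1) := by
        unfold aE
        refine div_le_div_of_nonneg_right ?_ hM.le
        nlinarith
      have a2 : 2 * Real.pi * x' / (M + 1) ≤ aE M (i + 1) := by
        unfold aE
        refine div_le_div_of_nonneg_right ?_ hM.le
        push_cast
        nlinarith
      rw [wph_val hA hi a1 a2, hcen, ← h.se i hi]
      have e1 : (2 * Real.pi * x' / (M + 1) - aE M i) / (bE M i - aE M i) =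
          (x' - i + tau) / (2 * tau) := by
        have e2 : bE M i - aE M i = 6 / (M + 1) := by unfold aE bE; ring
        have e3 : 2 * Real.pi * x' / (M + 1) - aE M i =
            (2 * Real.pi * (x' - i) + 3) / (M + 1) := by unfold aE; ring
        rw [e2, e3]
        rw [div_div_div_cancel_right₀ hM.ne']
        rw [div_eq_div_iff (by norm_num) (by positivity)]
        have : 3 = 2 * Real.pi * tau := ht2.symm
        linear_combination (2 * (x' - i)) * ht2
      rw [e1]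
      ring
    · -- in the gap before the lobe
      rw [st_of_le (div_nonpos_of_nonpos_of_nonneg (by linarith) (by linarith)), mul_zero,
        add_zero]
      rcases Nat.eq_zero_or_pos i with h0 | h0
      · subst h0
        have b1 : bE M M ≤ 2 * Real.pi * x' / (M + 1) + 2 * Real.pi := by
          unfold bE
          rw [div_add' _ _ _ hM.ne']
          refine div_le_div_of_nonneg_right ?_ hM.le
          simp only [CharP.cast_eq_zero] at g1
          nlinarith
        have b2 : 2 * Real.pi * x' / (M + 1) + 2 * Real.pi ≤ aE M (M + 1) := by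
          unfold aE
          rw [div_add' _ _ _ hM.ne']
          refine div_le_div_of_nonneg_right ?_ hM.le
          simp only [CharP.cast_eq_zero] at h3
          push_cast
          nlinarith
        have e1 := wph_flat hA le_rfl (e := e) b1 b2
        rw [wph_add] at e1
        have e2 : GlNDefs_9.tot e M = GlNDefs_9.cen e M + Real.pi * (GlNDefs_9.se e M + 1) := rfl
        simp only [CharP.cast_eq_zero, sub_self, mul_zero, zero_sub]
        linarith
      · obtain ⟨i', rfl⟩ : ∃ i', i = i' + 1 := ⟨i - 1, by omega⟩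
        have b1 : bE M i' ≤ 2 * Real.pi * x' / (M + 1) := by
          unfold bE
          refine div_le_div_of_nonneg_right ?_ hM.le
          push_cast at g1
          nlinarith
        have b2 : 2 * Real.pi * x' / (M + 1) ≤ aE M (i' + 1) := by
          unfold aE
          refine div_le_div_of_nonneg_right ?_ hM.le
          push_cast at h3 ⊢
          nlinarith
        rw [wph_flat hA (by omega) b1 b2]
        have e2 : GlNDefs_9.cen e (i' + 1) = GlNDefs_9.cen e i' +
          Real.pi * (GlNDefs_9.se e i' + GlNDefs_9.se e (i' + 1)) := rfl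
        have e3 := h.se (i' + 1) hi
        rw [hcen, ← e3] at e2
        linarith
  rw [main]
  ring

/-! ### the mixed phase -/

/-- phase of `NSDefs_966`, normalised, in units of `2π` -/
def pE (N : ℤ → ℤ) (x : ℝ) : ℝ := hx N x - N 0 - 1 / 2

/-- 9's phase in units of `2π` -/
def pT (e : ℕ → ℝ) (M : ℕ) (x : ℝ) : ℝ :=
  wph e M (aE M) (bE M) (2 * Real.pi * x / (M + 1)) / (2 * Real.pi)

/-- profile of the mixed lobe -/
def ff (s z : ℝ) : ℝ := (1 - s) * st (2 * z) + s * st ((z + tau) / (2 * tau))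

theorem Circ.pE_loc (h : Circ M e N sg) {k : ℤ} {x : ℝ} (h1 : (k : ℝ) - 1 / 2 ≤ x)
    (h2 : x ≤ k + 1 / 2) : pE N x = (N k : ℝ) - N 0 - 1 / 2 + sg k * st (2 * (x - k)) := by
  unfold pE
  rw [hx_loc N h1 h2, h.step]
  push_cast
  ring

theorem Circ.pT_loc (h : Circ M e N sg) {k : ℤ} {x : ℝ} (h1 : (k : ℝ) - 1 / 2 ≤ x)
    (h2 : x ≤ k + 1 / 2) :
    pT e M x = (N k : ℝ) - N 0 - 1 / 2 + sg k * st ((x - k + tau) / (2 * tau)) := by
  unfold pT
  rw [h.wph_loc h1 h2, div_eq_iff (by positivity)]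
  ring

/-- the mixed phase -/
def pm (e : ℕ → ℝ) (M : ℕ) (N : ℤ → ℤ) (s x : ℝ) : ℝ := (1 - s) * pE N x + s * pT e M x

theorem Circ.pm_loc (h : Circ M e N sg) (s : ℝ) {k : ℤ} {x : ℝ} (h1 : (k : ℝ) - 1 / 2 ≤ x)
    (h2 : x ≤ k + 1 / 2) :
    pm e M N s x = (N k : ℝ) - N 0 - 1 / 2 + sg k * ff s (x - k) := by
  unfold pm ff
  rw [h.pE_loc h1 h2, h.pT_loc h1 h2]
  ring

theorem ff_nonneg {s : ℝ} (h0 : 0 ≤ s) (h1 : s ≤ 1) (z : ℝ) : 0 ≤ ff s z := by
  unfold ff
  exact add_nonneg (mul_nonneg (by linarith) (st_nonneg _)) (mul_nonneg h0 (st_nonneg _))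

theorem ff_le_one {s : ℝ} (h0 : 0 ≤ s) (h1 : s ≤ 1) (z : ℝ) : ff s z ≤ 1 := by
  unfold ff
  nlinarith [st_le_one (2 * z), st_le_one ((z + tau) / (2 * tau)),
    mul_nonneg (by linarith : 0 ≤ 1 - s) (by linarith [st_le_one (2 * z)] : 0 ≤ 1 - st (2 * z)),
    mul_nonneg h0 (by linarith [st_le_one ((z + tau) / (2 * tau))] :
      0 ≤ 1 - st ((z + tau) / (2 * tau)))]

/-- where the profile is in the middle half, we are in the open wide lobe. -/
theorem abs_lt_tau {s z : ℝ} (h0 : 0 ≤ s) (h1 : s ≤ 1) (h : 1 / 4 ≤ ff s z)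
    (h' : ff s z ≤ 3 / 4) : |z| < tau := by
  have ht := tau_pos
  have ht2 := tau_gt
  rw [abs_lt]
  constructor
  · by_contra hc
    push Not at hc
    unfold ff at h
    rw [st_of_le (by linarith : 2 * z ≤ 0),
      st_of_le (div_nonpos_of_nonpos_of_nonneg (by linarith) (by linarith) :
        (z + tau) / (2 * tau) ≤ 0)] at h
    linarith
  · by_contra hc
    push Not at hc
    have e1 : st ((z + tau) / (2 * tau)) = 1 := by
      apply st_of_ge
      rw [le_div_iff₀ (by linarith)]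
      linarith
    have e2 : (752 : ℝ) / 1000 ≤ st (2 * z) := by
      have e3 : st (2 * (476 / 1000)) ≤ st (2 * z) := st_mono (by linarith)
      have e4 := st_near (u := 2 * (476 / 1000)) (by norm_num) (by norm_num)
      rw [abs_le] at e4
      linarith [e4.1]
    unfold ff at h'
    rw [e1] at h'
    nlinarith [mul_nonneg (by linarith : 0 ≤ 1 - s)
      (by linarith : 0 ≤ st (2 * z) - 752 / 1000)]

theorem hasDerivAt_ff (s z : ℝ) : HasDerivAt (ff s)
    ((1 - s) * (std (2 * z) * 2) + s * (std ((z + tau) / (2 * tau)) * (1 / (2 * tau)))) z := by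
  unfold ff
  have h1 : HasDerivAt (fun z : ℝ => 2 * z) 2 z := by
    simpa using (hasDerivAt_id z).const_mul (2 : ℝ)
  have h2 : HasDerivAt (fun z : ℝ => (z + tau) / (2 * tau)) (1 / (2 * tau)) z :=
    ((hasDerivAt_id z).add_const tau).div_const _
  exact (((hasDerivAt_st _).comp z h1).const_mul (1 - s)).add
    (((hasDerivAt_st _).comp z h2).const_mul s)

theorem ffd_pos {s z : ℝ} (h0 : 0 ≤ s) (h1 : s ≤ 1) (h : 1 / 4 ≤ ff s z)
    (h' : ff s z ≤ 3 / 4) : 0 < (1 - s) * (std (2 * z) * 2) +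
      s * (std ((z + tau) / (2 * tau)) * (1 / (2 * tau))) := by
  have ht := tau_pos
  have hz := abs_lt.1 (abs_lt_tau h0 h1 h h')
  rcases h0.eq_or_lt with hs | hs
  · subst hs
    have h2 : ff 0 z = st (2 * z) := by unfold ff; ring
    rw [h2] at h h'
    have a1 : 0 < 2 * z := by
      by_contra hc
      push Not at hc
      rw [st_of_le hc] at h
      norm_num at h
    have a2 : 2 * z < 1 := by
      by_contra hc
      push Not at hc
      rw [st_of_ge hc] at h'
      norm_num at h'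
    have := std_pos a1 a2
    simp
    linarith
  · have a1 : 0 < (z + tau) / (2 * tau) := div_pos (by linarith) (by linarith)
    have a2 : (z + tau) / (2 * tau) < 1 := by
      rw [div_lt_one (by linarith)]
      linarith
    have h3 := std_pos a1 a2
    have h4 : 0 < s * (std ((z + tau) / (2 * tau)) * (1 / (2 * tau))) := by positivity
    have h5 : 0 ≤ (1 - s) * (std (2 * z) * 2) :=
      mul_nonneg (by linarith) (mul_nonneg (std_nonneg _) (by norm_num))
    linarith

/-- `cos (2π (n - 1/2 ± f)) = - cos (2π f)` -/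
theorem cos_shift (n : ℤ) {σ : ℤ} (hσ : σ = 1 ∨ σ = -1) (f : ℝ) :
    Real.cos (2 * Real.pi * ((n : ℝ) - 1 / 2 + σ * f)) = -Real.cos (2 * Real.pi * f) := by
  have e1 : 2 * Real.pi * ((n : ℝ) - 1 / 2 + σ * f) =
      (2 * Real.pi * (σ * f) - Real.pi) + n * (2 * Real.pi) := by ring
  rw [e1, Real.cos_add_int_mul_two_pi, Real.cos_sub_pi]
  rcases hσ with h | h <;> subst h
  · simp
  · have : 2 * Real.pi * (((-1 : ℤ) : ℝ) * f) = -(2 * Real.pi * f) := by push_cast; ring
    rw [this, Real.cos_neg]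

theorem quarter {f : ℝ} (h0 : 0 ≤ f) (h1 : f ≤ 1) (h : 0 ≤ -Real.cos (2 * Real.pi * f)) :
    1 / 4 ≤ f ∧ f ≤ 3 / 4 := by
  have hpi := Real.pi_pos
  constructor
  · by_contra hc
    push Not at hc
    have : 0 < Real.cos (2 * Real.pi * f) :=
      Real.cos_pos_of_mem_Ioo ⟨by nlinarith, by nlinarith⟩
    linarith
  · by_contra hc
    push Not at hc
    have : 0 < Real.cos (2 * Real.pi * f) := by
      have e1 : Real.cos (2 * Real.pi * f) = Real.cos (2 * Real.pi * f - 2 * Real.pi) := by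
        rw [Real.cos_sub_two_pi]
      rw [e1]
      exact Real.cos_pos_of_mem_Ioo ⟨by nlinarith, by nlinarith⟩
    linarith

/-- nearest integer -/
theorem exists_near (x : ℝ) : ∃ k : ℤ, (k : ℝ) - 1 / 2 ≤ x ∧ x < k + 1 / 2 :=
  ⟨⌊x + 1 / 2⌋, by linarith [Int.floor_le (x + 1 / 2)], by
    linarith [Int.lt_floor_add_one (x + 1 / 2)]⟩

/-- **the mixed phase stops only where `cos < 0`.** -/
theorem Circ.main (h : Circ M e N sg) {s : ℝ} (h0 : 0 ≤ s) (h1 : s ≤ 1) {x : ℝ}
    (hc : 0 ≤ Real.cos (2 * Real.pi * pm e M N s x)) :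
    ∃ k : ℤ, |x - k| < tau ∧ deriv (pm e M N s) x ≠ 0 ∧
      (s = 0 → (k : ℝ) < x ∧ x < k + 1 / 2) := by
  obtain ⟨k, a1, a2⟩ := exists_near x
  have hloc := h.pm_loc s a1 a2.le
  have e1 : (N k : ℝ) - N 0 - 1 / 2 + sg k * ff s (x - k) =
      ((N k - N 0 : ℤ) : ℝ) - 1 / 2 + sg k * ff s (x - k) := by push_cast; ring
  rw [hloc, e1, cos_shift _ (h.sg1 k)] at hc
  obtain ⟨b1, b2⟩ := quarter (ff_nonneg h0 h1 _) (ff_le_one h0 h1 _) hc
  have hz := abs_lt_tau h0 h1 b1 b2
  refine ⟨k, hz, ?_, ?_⟩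
  · have hz' := abs_lt.1 hz
    have ht := tau_lt
    have hev : pm e M N s =ᶠ[𝓝 x] fun x => (N k : ℝ) - N 0 - 1 / 2 + sg k * ff s (x - k) := by
      filter_upwards [Ioo_mem_nhds (show (k : ℝ) - 1 / 2 < x by linarith) a2] with y hy
      exact h.pm_loc s hy.1.le hy.2.le
    have hd : HasDerivAt (fun x : ℝ => (N k : ℝ) - N 0 - 1 / 2 + sg k * ff s (x - k)) (sg k *
        ((1 - s) * (std (2 * (x - k)) * 2) +
          s * (std (((x - k) + tau) / (2 * tau)) * (1 / (2 * tau))))) x :=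
      ((HasDerivAt.comp_sub_const x (k : ℝ) (hasDerivAt_ff s (x - k))).const_mul
        (sg k : ℝ)).const_add _
    rw [hev.deriv_eq, hd.deriv]
    refine mul_ne_zero ?_ (ffd_pos h0 h1 b1 b2).ne'
    rcases h.sg1 k with hs | hs <;> rw [hs] <;> norm_num
  · intro hs
    subst hs
    have h2 : ff 0 (x - k) = st (2 * (x - k)) := by unfold ff; ring
    rw [h2] at b1 b2
    constructor
    · by_contra hcc
      push Not at hcc
      rw [st_of_le (by linarith)] at b1
      norm_num at b1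
    · exact a2

/-! ### windows -/

/-- a window near the cell `k` -/
theorem win_loc {lo hi : ℕ} (hlo : lo ≤ hi) (hhi : hi ≤ M) {k : ℤ} {x : ℝ} (hx : |x - k| ≤ tau) :
    ∃ (j : ℤ) (i : ℕ), i ≤ M ∧ k = (i : ℤ) + ((M : ℤ) + 1) * j ∧
      deriv (wn (aE M) (bE M) lo hi) (2 * Real.pi * x / (M + 1)) = 0 ∧
      wn (aE M) (bE M) lo hi (2 * Real.pi * x / (M + 1)) = if lo < i ∧ i ≤ hi then 1 else 0 := by
  have hA := arcsE M
  have hM : (0 : ℝ) < M + 1 := by positivity
  have hpi := Real.pi_pos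
  have ht2 := two_pi_tau
  obtain ⟨j, i, hi', hk⟩ : ∃ (j : ℤ) (i : ℕ), i ≤ M ∧ k = (i : ℤ) + ((M : ℤ) + 1) * j := by
    have hM1 : (0 : ℤ) < (M : ℤ) + 1 := by positivity
    refine ⟨k / ((M : ℤ) + 1), (k % ((M : ℤ) + 1)).toNat, ?_, ?_⟩
    · have := Int.emod_lt_of_pos k hM1
      have := Int.emod_nonneg k hM1.ne'
      omega
    · have h3 := Int.emod_nonneg k hM1.ne'
      rw [Int.toNat_of_nonneg h3]
      have := Int.emod_add_mul_ediv k ((M : ℤ) + 1)
      linarith
  have hkr : (k : ℝ) = i + ((M : ℝ) + 1) * j := by rw [hk]; push_cast; ring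
  rw [abs_le] at hx
  set x' : ℝ := x - ((M : ℝ) + 1) * j with hx'
  have g1 : i - tau ≤ x' := by rw [hx']; linarith
  have g2 : x' ≤ i + tau := by rw [hx']; linarith
  have hθ : 2 * Real.pi * x / (M + 1) = 2 * Real.pi * x' / (M + 1) + 2 * Real.pi * j := by
    rw [hx']
    field_simp
    ring
  have a1 : aE M i ≤ 2 * Real.pi * x' / (M + 1) := by
    unfold aE
    refine div_le_div_of_nonneg_right ?_ hM.le
    nlinarith
  have a2 : 2 * Real.pi * x' / (M + 1) ≤ bE M i := by
    unfold bE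
    refine div_le_div_of_nonneg_right ?_ hM.le
    nlinarith
  refine ⟨j, i, hi', hk, ?_, ?_⟩
  · rw [hθ, deriv_wn_add_int]
    exact deriv_wn_lobe hA hlo hhi hi' a1 a2
  · rw [hθ, wn_add_int]
    exact wn_lobe hA hlo hhi hi' a1 a2

end Crest.Agent.R267.ArmExA_649
end
end

-- ▼ part R267/ArmPt_649
section

/-!
# Row 267, N2 (helper649): pointwise regularity of `a e^{iq} + e^{ip} - B`

`κ = a(u) e^{iq} + e^{ip} - B`, `B` real, `0 ≤ B`, `0 ≤ u`-derivative of `B`, `a B_u ≤ a' B`; the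
derivatives are `∂_θ = i p' e^{ip} - B_θ`, `∂_u = a' e^{iq} - B_u`, `∂_ω = i a q' e^{iq} - B_ω`.
* `reg_pt`: `p' ≠ 0`, `B_θ = 0` where `cos p ≥ 0`; `q' ≠ 0`, `B_ω = 0` where `cos q ≥ 0`; at real
  zeros with `p = q = 0` the function `1 + a - B` has `u`-derivative `≠ 0` (or `B = 0`).
* `ins_pt`: `B = 0` and `Q = Q(θ, ω)`.
-/

set_option autoImplicit false

noncomputable section

open Complex

namespace Crest.Agent.R267.ArmPt_649

/-- two vectors with non zero cross product span `ℂ` over `ℝ`. -/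
theorem span_of_cross {v w : ℂ} (h : v.re * w.im - v.im * w.re ≠ 0) (c : ℂ) :
    ∃ x y : ℝ, (x : ℂ) * v + (y : ℂ) * w = c := by
  refine ⟨(c.re * w.im - c.im * w.re) / (v.re * w.im - v.im * w.re),
    (v.re * c.im - v.im * c.re) / (v.re * w.im - v.im * w.re), ?_⟩
  apply Complex.ext
  · simp only [add_re, re_ofReal_mul]
    rw [div_mul_eq_mul_div, div_mul_eq_mul_div, ← add_div, div_eq_iff h]
    ring
  · simp only [add_im, im_ofReal_mul]
    rw [div_mul_eq_mul_div, div_mul_eq_mul_div, ← add_div, div_eq_iff h]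
    ring

/-- `e^{ip}` -/
def ce (p : ℝ) : ℂ := Complex.exp (p * I)

theorem ce_re (p : ℝ) : (ce p).re = Real.cos p := by
  unfold ce; exact Complex.exp_ofReal_mul_I_re p

theorem ce_im (p : ℝ) : (ce p).im = Real.sin p := by
  unfold ce; exact Complex.exp_ofReal_mul_I_im p

theorem ce_add (p q : ℝ) : ce (p + q) = ce p * ce q := by
  unfold ce
  rw [← Complex.exp_add]
  push_cast
  ring_nf

set_option maxHeartbeats 1000000 in
/-- **pointwise regularity** -/
theorem reg_pt {a a' p p' q q' B Bu Bθ Bω : ℝ} (ha : 0 < a) (ha' : 0 < a')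
    (h0 : (a : ℂ) * ce q + ce p - (B : ℂ) = 0) (hB : 0 ≤ B) (hBu : 0 ≤ Bu)
    (hBu' : a * Bu ≤ a' * B) (hp : 0 ≤ Real.cos p → p' ≠ 0 ∧ Bθ = 0)
    (hq : 0 ≤ Real.cos q → q' ≠ 0 ∧ Bω = 0)
    (hs : Real.cos p = 1 → Real.cos q = 1 → a' ≠ Bu) (c : ℂ) :
    ∃ x y z : ℝ, (x : ℂ) * (I * p' * ce p - Bθ) + (y : ℂ) * (a' * ce q - Bu) +
      (z : ℂ) * (I * a * q' * ce q - Bω) = c := by
  have e1 : a * Real.cos q + Real.cos p = B := by
    have := congrArg Complex.re h0
    simp only [sub_re, add_re, re_ofReal_mul, ce_re, ofReal_re, zero_re] at this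
    linarith
  have e2 : a * Real.sin q + Real.sin p = 0 := by
    have := congrArg Complex.im h0
    simp only [sub_im, add_im, im_ofReal_mul, ce_im, ofReal_im, zero_im] at this
    linarith
  have r1 : (I * p' * ce p - Bθ : ℂ).re = -p' * Real.sin p - Bθ := by
    simp [ce_re, ce_im]
  have i1 : (I * p' * ce p - Bθ : ℂ).im = p' * Real.cos p := by
    simp [ce_re, ce_im]
  have r2 : (a' * ce q - Bu : ℂ).re = a' * Real.cos q - Bu := by
    simp [ce_re]
  have i2 : (a' * ce q - Bu : ℂ).im = a' * Real.sin q := by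
    simp [ce_im]
  have r3 : (I * a * q' * ce q - Bω : ℂ).re = -a * q' * Real.sin q - Bω := by
    simp [ce_re, ce_im]
  have i3 : (I * a * q' * ce q - Bω : ℂ).im = a * q' * Real.cos q := by
    simp [ce_re, ce_im]
  have sp := Real.sin_sq_add_cos_sq p
  have sq := Real.sin_sq_add_cos_sq q
  -- reduction to cross products
  have k12 : (I * p' * ce p - Bθ : ℂ).re * (a' * ce q - Bu : ℂ).im -
      (I * p' * ce p - Bθ : ℂ).im * (a' * ce q - Bu : ℂ).re ≠ 0 →
      ∃ x y z : ℝ, (x : ℂ) * (I * p' * ce p - Bθ) + (y : ℂ) * (a' * ce q - Bu) +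
      (z : ℂ) * (I * a * q' * ce q - Bω) = c := fun h => by
    obtain ⟨x, y, hxy⟩ := span_of_cross h c
    exact ⟨x, y, 0, by rw [hxy]; simp⟩
  have k32 : (I * a * q' * ce q - Bω : ℂ).re * (a' * ce q - Bu : ℂ).im -
      (I * a * q' * ce q - Bω : ℂ).im * (a' * ce q - Bu : ℂ).re ≠ 0 →
      ∃ x y z : ℝ, (x : ℂ) * (I * p' * ce p - Bθ) + (y : ℂ) * (a' * ce q - Bu) +
      (z : ℂ) * (I * a * q' * ce q - Bω) = c := fun h => by
    obtain ⟨x, y, hxy⟩ := span_of_cross h c
    exact ⟨0, y, x, by rw [← hxy]; push_cast; ring⟩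
  have k31 : (I * a * q' * ce q - Bω : ℂ).re * (I * p' * ce p - Bθ : ℂ).im -
      (I * a * q' * ce q - Bω : ℂ).im * (I * p' * ce p - Bθ : ℂ).re ≠ 0 →
      ∃ x y z : ℝ, (x : ℂ) * (I * p' * ce p - Bθ) + (y : ℂ) * (a' * ce q - Bu) +
      (z : ℂ) * (I * a * q' * ce q - Bω) = c := fun h => by
    obtain ⟨x, y, hxy⟩ := span_of_cross h c
    exact ⟨y, 0, x, by rw [← hxy]; push_cast; ring⟩
  rw [r1, i1, r2, i2] at k12
  rw [r3, i3, r2, i2] at k32
  rw [r3, i3, r1, i1] at k31
  rcases le_or_gt 0 (Real.cos p) with cp | cp <;> rcases le_or_gt 0 (Real.cos q) with cq | cq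
  · -- both in the lobes
    obtain ⟨hp', hBθ⟩ := hp cp
    obtain ⟨hq', hBω⟩ := hq cq
    rcases hB.eq_or_lt with hB0 | hB0
    · -- `B = 0`
      have hcp : Real.cos p = 0 := by linarith [mul_nonneg ha.le cq]
      have hcq : Real.cos q = 0 := by
        have : a * Real.cos q = 0 := by linarith
        rcases mul_eq_zero.1 this with h | h
        · exact absurd h ha.ne'
        · exact h
      have hBu0 : Bu = 0 := by
        have h1 : a * Bu ≤ 0 := by rw [← hB0, mul_zero] at hBu'; exact hBu'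
        have h2 : Bu ≤ 0 := by
          by_contra h3
          push Not at h3
          nlinarith [mul_pos ha h3]
        linarith
      apply k12
      rw [hBθ, hBu0, hcp, hcq]
      have hsp : Real.sin p ^ 2 = 1 := by rw [hcp] at sp; linarith
      have hsp0 : Real.sin p ≠ 0 := by
        intro h
        rw [h] at hsp
        norm_num at hsp
      have hsq0 : Real.sin q ≠ 0 := by
        intro h
        rw [h, hcq] at sq
        norm_num at sq
      have : (-p' * Real.sin p - 0) * (a' * Real.sin q) - p' * 0 * (a' * 0 - 0) =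
          -(p' * Real.sin p * a' * Real.sin q) := by ring
      rw [this]
      exact neg_ne_zero.2 (mul_ne_zero (mul_ne_zero (mul_ne_zero hp' hsp0) ha'.ne') hsq0)
    · by_cases hsq : Real.sin q = 0
      · have hsp : Real.sin p = 0 := by rw [hsq] at e2; linarith
        have hcp : Real.cos p = 1 := by
          rw [hsp] at sp
          nlinarith
        have hcq : Real.cos q = 1 := by
          rw [hsq] at sq
          nlinarith
        apply k32
        rw [hBω, hcq, hsq]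
        have : (-a * q' * 0 - 0) * (a' * 0) - a * q' * 1 * (a' * 1 - Bu) =
            -(a * q' * (a' - Bu)) := by ring
        rw [this]
        exact neg_ne_zero.2 (mul_ne_zero (mul_ne_zero ha.ne' hq') (sub_ne_zero.2 (hs hcp hcq)))
      · apply k31
        rw [hBθ, hBω]
        have : (-a * q' * Real.sin q - 0) * (p' * Real.cos p) -
            a * q' * Real.cos q * (-p' * Real.sin p - 0) =
            a * q' * p' * (Real.cos q * Real.sin p - Real.sin q * Real.cos p) := by ring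
        rw [this]
        have h1 : Real.cos q * Real.sin p - Real.sin q * Real.cos p = -(Real.sin q * B) := by
          rw [← e1]
          have : Real.sin p = -(a * Real.sin q) := by linarith
          rw [this]
          ring
        rw [h1]
        exact mul_ne_zero (mul_ne_zero (mul_ne_zero ha.ne' hq') hp')
          (neg_ne_zero.2 (mul_ne_zero hsq hB0.ne'))
  · -- `p` in, `q` out
    obtain ⟨hp', hBθ⟩ := hp cp
    have hBc : B < Real.cos p := by linarith [mul_neg_of_pos_of_neg ha cq]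
    have hcp : 0 < Real.cos p := lt_of_le_of_lt hB hBc
    apply k12
    rw [hBθ]
    have e3 : a * (Real.cos q * Real.cos p + Real.sin q * Real.sin p) = B * Real.cos p - 1 := by
      have h1 : a * Real.cos q = B - Real.cos p := by linarith
      have h2 : a * Real.sin q = -Real.sin p := by linarith
      calc a * (Real.cos q * Real.cos p + Real.sin q * Real.sin p) =
          (a * Real.cos q) * Real.cos p + (a * Real.sin q) * Real.sin p := by ring
        _ = B * Real.cos p - (Real.sin p ^ 2 + Real.cos p ^ 2) := by rw [h1, h2]; ring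
        _ = _ := by rw [sp]
    have h3 : a * (a' * (Real.cos q * Real.cos p + Real.sin q * Real.sin p) -
        Bu * Real.cos p) < 0 := by
      have h4 : a * (a' * (Real.cos q * Real.cos p + Real.sin q * Real.sin p) -
          Bu * Real.cos p) = a' * (B * Real.cos p - 1) - (a * Bu) * Real.cos p := by
        rw [← e3]; ring
      rw [h4]
      have h5 : B * Real.cos p < 1 := by
        have h6 : Real.cos p ≤ 1 := Real.cos_le_one p
        nlinarith
      have h7 : 0 ≤ (a * Bu) * Real.cos p := mul_nonneg (mul_nonneg ha.le hBu) hcp.le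
      have h8 : a' * (B * Real.cos p - 1) < 0 := mul_neg_of_pos_of_neg ha' (by linarith)
      linarith
    have h9 : (-p' * Real.sin p - 0) * (a' * Real.sin q) -
        p' * Real.cos p * (a' * Real.cos q - Bu) =
        -p' * (a' * (Real.cos q * Real.cos p + Real.sin q * Real.sin p) - Bu * Real.cos p) := by
      ring
    rw [h9]
    refine mul_ne_zero (neg_ne_zero.2 hp') fun h => ?_
    rw [h, mul_zero] at h3
    exact lt_irrefl _ h3
  · -- `p` out, `q` in
    obtain ⟨hq', hBω⟩ := hq cq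
    have hBc : B < a * Real.cos q := by linarith
    have hcq : 0 < Real.cos q := by
      rcases cq.eq_or_lt with h | h
      · rw [← h, mul_zero] at hBc
        linarith
      · exact h
    apply k32
    rw [hBω]
    have h3 : 0 < a * (a' - Bu * Real.cos q) := by
      have h4 : a * (a' - Bu * Real.cos q) = a * a' - (a * Bu) * Real.cos q := by ring
      rw [h4]
      have h5 : (a * Bu) * Real.cos q ≤ (a' * B) * Real.cos q :=
        mul_le_mul_of_nonneg_right hBu' hcq.le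
      have h6 : (a' * B) * Real.cos q < a' * (a * Real.cos q) * Real.cos q := by
        have := mul_lt_mul_of_pos_left hBc ha'
        exact mul_lt_mul_of_pos_right this hcq
      have h7 : a' * (a * Real.cos q) * Real.cos q ≤ a * a' := by
        have h8 : Real.cos q ^ 2 ≤ 1 := by linarith [sq_nonneg (Real.sin q)]
        have h9 : 0 ≤ a * a' := (mul_pos ha ha').le
        have h10 := mul_le_mul_of_nonneg_left h8 h9
        have h11 : a' * (a * Real.cos q) * Real.cos q = a * a' * Real.cos q ^ 2 := by ring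
        linarith
      linarith
    have h9 : (-a * q' * Real.sin q - 0) * (a' * Real.sin q) -
        a * q' * Real.cos q * (a' * Real.cos q - Bu) =
        -(a * q') * (a' * (Real.sin q ^ 2 + Real.cos q ^ 2) - Bu * Real.cos q) := by ring
    rw [h9, sq, mul_one]
    refine mul_ne_zero (neg_ne_zero.2 (mul_ne_zero ha.ne' hq')) fun h => ?_
    rw [h, mul_zero] at h3
    exact lt_irrefl _ h3
  · exfalso
    have := mul_neg_of_pos_of_neg ha cq
    linarith


end Crest.Agent.R267.ArmPt_649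
end
end

-- ▼ part R267/ArmExB_649
section

/-!
# Row 267, N2 EXIT, part B (helper649): regularity of real deletions, smoothness, periodicity

`uni n q p c r : PD Unit` : own phases `q`, `p`, one coupling of exponent `15/2` with coefficient `c`
and phase `r t`.
* `uni_reg` : pointwise conditions imply `Reg` (`r = -1/2`);
* `rot_reg` : rotation of all phases;
* smoothness and periodicity of `pE`, `pT`, `pm`, `kl`.
-/

set_option autoImplicit false

noncomputable section

open Set Filter Topology Finset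
open Crest.Agent.R267.T3aDefs_957 (st)
open Crest.Agent.R267.Calc_957
open Crest.Agent.R267.WordPh_9 Crest.Agent.R267.WordPh2_9
open Crest.Agent.R267.NSDefs_966 (Sp Gp bil PD)
open Crest.Agent.R267.ArmPt_649 Crest.Agent.R267.ArmExA_649

namespace Crest.Agent.R267.ArmExB_649

/-- `e = exp (2 π i ·)` -/
theorem e_eq (x : ℝ) : NSDefs_966.e x = ce (2 * Real.pi * x) := by
  unfold NSDefs_966.e ce
  push_cast
  rfl

theorem e_add (x y : ℝ) : NSDefs_966.e (x + y) = NSDefs_966.e x * NSDefs_966.e y := by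
  rw [e_eq, e_eq, e_eq, mul_add, ce_add]

theorem e_int (n : ℤ) : NSDefs_966.e n = 1 := by
  unfold NSDefs_966.e
  rw [show (2 * Real.pi * ((n : ℝ) : ℂ) * Complex.I : ℂ) = (n : ℂ) * (2 * Real.pi * Complex.I) by
    push_cast; ring]
  exact Complex.exp_int_mul_two_pi_mul_I n

theorem e_half : NSDefs_966.e (1 / 2) = -1 := by
  unfold NSDefs_966.e
  rw [show (2 * Real.pi * ((1 / 2 : ℝ) : ℂ) * Complex.I : ℂ) = Real.pi * Complex.I by
    push_cast; ring]
  exact Complex.exp_pi_mul_I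

theorem e_neg_half : NSDefs_966.e (-(1 / 2)) = -1 := by
  have h := e_add (-(1 / 2)) (1 / 2)
  rw [neg_add_cancel, e_half] at h
  have h0 : NSDefs_966.e 0 = 1 := by simpa using e_int 0
  rw [h0] at h
  linear_combination h

theorem e_ne (x : ℝ) : NSDefs_966.e x ≠ 0 := Complex.exp_ne_zero _

/-- a family with one coupling -/
def uni (n : ℕ) (q p : ℝ × ℝ → ℝ) (c : ℝ × ℝ × ℝ → ℝ) (r : ℝ → ℝ) : PD Unit where
  n := n
  q := q
  cv := fun _ => 1
  p := p
  E := fun _ => 15 / 2
  c := fun _ => c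
  ψ := fun _ z => r z.1

theorem uni_K (n : ℕ) (q p : ℝ × ℝ → ℝ) (c : ℝ × ℝ × ℝ → ℝ) (r : ℝ → ℝ) (t x l y : ℝ) :
    (uni n q p c r).K t (x, l, y) = ((Real.exp (15 * l) : ℝ) : ℂ) * NSDefs_966.e (q (t, y)) +
      NSDefs_966.e (p (t, x)) +
      ((c (t, x, y) * Real.exp (15 / 2 * l) : ℝ) : ℂ) * NSDefs_966.e (r t) := by
  unfold PD.K PD.mid uni
  simp

section Reg

variable {n : ℕ} {q p : ℝ × ℝ → ℝ} {c : ℝ × ℝ × ℝ → ℝ} {r : ℝ → ℝ}

theorem contDiff_e {E : Type*} [NormedAddCommGroup E] [NormedSpace ℝ E] {f : E → ℝ}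
    (hf : ContDiff ℝ 2 f) : ContDiff ℝ 2 fun x => NSDefs_966.e (f x) := by
  unfold NSDefs_966.e
  exact ((contDiff_const.mul (Complex.ofRealCLM.contDiff.comp hf)).mul contDiff_const).cexp

theorem contDiff_K (hq : ContDiff ℝ 2 q) (hp : ContDiff ℝ 2 p) (hc : ContDiff ℝ 2 c) (t : ℝ) :
    ContDiff ℝ 2 ((uni n q p c r).K t) := by
  have h1 : ContDiff ℝ 2 fun z : ℝ × ℝ × ℝ => ((Real.exp (15 * z.2.1) : ℝ) : ℂ) :=
    Complex.ofRealCLM.contDiff.comp (Real.contDiff_exp.comp
      (by fun_prop : ContDiff ℝ 2 fun z : ℝ × ℝ × ℝ => 15 * z.2.1))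
  have h2 : ContDiff ℝ 2 fun z : ℝ × ℝ × ℝ => NSDefs_966.e (q (t, z.2.2)) :=
    contDiff_e (hq.comp (by fun_prop : ContDiff ℝ 2 fun z : ℝ × ℝ × ℝ => (t, z.2.2)))
  have h3 : ContDiff ℝ 2 fun z : ℝ × ℝ × ℝ => NSDefs_966.e (p (t, z.1)) :=
    contDiff_e (hp.comp (by fun_prop : ContDiff ℝ 2 fun z : ℝ × ℝ × ℝ => (t, z.1)))
  have h4 : ContDiff ℝ 2 fun z : ℝ × ℝ × ℝ =>
      ((c (t, z.1, z.2.2) * Real.exp (15 / 2 * z.2.1) : ℝ) : ℂ) :=
    Complex.ofRealCLM.contDiff.comp ((hc.comp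
      (by fun_prop : ContDiff ℝ 2 fun z : ℝ × ℝ × ℝ => (t, z.1, z.2.2))).mul
        (Real.contDiff_exp.comp (by fun_prop : ContDiff ℝ 2 fun z : ℝ × ℝ × ℝ => 15 / 2 * z.2.1)))
  have h5 : (uni n q p c r).K t = fun z : ℝ × ℝ × ℝ =>
      ((Real.exp (15 * z.2.1) : ℝ) : ℂ) * NSDefs_966.e (q (t, z.2.2)) +
      NSDefs_966.e (p (t, z.1)) +
      ((c (t, z.1, z.2.2) * Real.exp (15 / 2 * z.2.1) : ℝ) : ℂ) * NSDefs_966.e (r t) := by
    funext z
    exact uni_K n q p c r t z.1 z.2.1 z.2.2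
  rw [h5]
  exact ((h1.mul h2).add h3).add (h4.mul contDiff_const)

theorem hasDerivAt_e {f : ℝ → ℝ} {f' x : ℝ} (hf : HasDerivAt f f' x) :
    HasDerivAt (fun x => NSDefs_966.e (f x)) (Complex.I * ((2 * Real.pi * f' : ℝ) : ℂ) *
      ce (2 * Real.pi * f x)) x := by
  have h1 : HasDerivAt (fun x => Complex.exp (2 * Real.pi * (f x : ℂ) * Complex.I))
      (Complex.exp (2 * Real.pi * (f x : ℂ) * Complex.I) * (2 * Real.pi * (f' : ℂ) * Complex.I))
      x := ((hf.ofReal_comp.const_mul (2 * Real.pi : ℂ)).mul_const Complex.I).cexp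
  refine h1.congr_deriv ?_
  have e1 : Complex.exp (2 * Real.pi * (f x : ℂ) * Complex.I) = ce (2 * Real.pi * f x) := by
    unfold ce
    push_cast
    rfl
  rw [e1]
  push_cast
  ring

/-- **pointwise conditions imply regularity** -/
theorem uni_reg (hq : ContDiff ℝ 2 q) (hp : ContDiff ℝ 2 p) (hc : ContDiff ℝ 2 c)
    (hr : ∀ t, NSDefs_966.e (r t) = -1)
    (H1 : ∀ t ∈ Icc (0 : ℝ) 1, ∀ x, 0 ≤ Real.cos (2 * Real.pi * p (t, x)) →
      deriv (fun x => p (t, x)) x ≠ 0 ∧ ∀ y, deriv (fun x => c (t, x, y)) x = 0)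
    (H2 : ∀ t ∈ Icc (0 : ℝ) 1, ∀ y, 0 ≤ Real.cos (2 * Real.pi * q (t, y)) →
      deriv (fun y => q (t, y)) y ≠ 0 ∧ ∀ x, deriv (fun y => c (t, x, y)) y = 0)
    (H3 : ∀ t ∈ Icc (0 : ℝ) 1, ∀ x y, 0 ≤ c (t, x, y))
    (H4 : ∀ t ∈ Icc (0 : ℝ) 1, ∀ x y, 0 ≤ Real.cos (2 * Real.pi * p (t, x)) →
      0 ≤ Real.cos (2 * Real.pi * q (t, y)) → c (t, x, y) ≠ 2) :
    (uni n q p c r).Reg := by
  rintro t ht ⟨x, l, y⟩ h0
  have hpi := Real.pi_pos
  rw [uni_K, hr] at h0
  -- derivatives of the data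
  have dp : HasDerivAt (fun x => p (t, x)) (deriv (fun x => p (t, x)) x) x :=
    ((hp.comp (by fun_prop : ContDiff ℝ 2 fun x : ℝ => (t, x))).differentiable
      (by norm_num) x).hasDerivAt
  have dq : HasDerivAt (fun y => q (t, y)) (deriv (fun y => q (t, y)) y) y :=
    ((hq.comp (by fun_prop : ContDiff ℝ 2 fun y : ℝ => (t, y))).differentiable
      (by norm_num) y).hasDerivAt
  have dcx : HasDerivAt (fun x => c (t, x, y)) (deriv (fun x => c (t, x, y)) x) x :=
    ((hc.comp (by fun_prop : ContDiff ℝ 2 fun x : ℝ => (t, x, y))).differentiable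
      (by norm_num) x).hasDerivAt
  have dcy : HasDerivAt (fun y => c (t, x, y)) (deriv (fun y => c (t, x, y)) y) y :=
    ((hc.comp (by fun_prop : ContDiff ℝ 2 fun y : ℝ => (t, x, y))).differentiable
      (by norm_num) y).hasDerivAt
  set p' := deriv (fun x => p (t, x)) x
  set q' := deriv (fun y => q (t, y)) y
  set cx := deriv (fun x => c (t, x, y)) x
  set cy := deriv (fun y => c (t, x, y)) y
  set a := Real.exp (15 * l) with ha
  set g := Real.exp (15 / 2 * l) with hg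
  have hap : 0 < a := Real.exp_pos _
  have hgp : 0 < g := Real.exp_pos _
  have hag : a = g ^ 2 := by
    rw [ha, hg, ← Real.exp_nat_mul]
    congr 1
    push_cast
    ring
  -- the total derivative
  have hd : HasFDerivAt ((uni n q p c r).K t) (fderiv ℝ ((uni n q p c r).K t) (x, l, y))
      (x, l, y) :=
    ((contDiff_K hq hp hc t).differentiable (by norm_num) _).hasFDerivAt
  set L := fderiv ℝ ((uni n q p c r).K t) (x, l, y)
  have L1 : L (1, 0, 0) = Complex.I * ((2 * Real.pi * p' : ℝ) : ℂ) * ce (2 * Real.pi * p (t, x)) -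
      ((cx * g : ℝ) : ℂ) := by
    have hcv : HasDerivAt (fun x' : ℝ => ((x', l, y) : ℝ × ℝ × ℝ)) (1, 0, 0) x :=
      (hasDerivAt_id x).prodMk (hasDerivAt_const _ _)
    have h1 := hd.comp_hasDerivAt x hcv
    have h2 : HasDerivAt (fun x' : ℝ => (uni n q p c r).K t (x', l, y))
        (Complex.I * ((2 * Real.pi * p' : ℝ) : ℂ) * ce (2 * Real.pi * p (t, x)) +
          ((cx * g : ℝ) : ℂ) * -1) x := by
      have h3 : HasDerivAt (fun x' : ℝ => ((a : ℝ) : ℂ) * NSDefs_966.e (q (t, y)) +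
          NSDefs_966.e (p (t, x')) + ((c (t, x', y) * g : ℝ) : ℂ) * -1)
          (Complex.I * ((2 * Real.pi * p' : ℝ) : ℂ) * ce (2 * Real.pi * p (t, x)) +
          ((cx * g : ℝ) : ℂ) * -1) x :=
        ((hasDerivAt_e dp).const_add _).add (((dcx.mul_const g).ofReal_comp).mul_const (-1))
      refine h3.congr_of_eventuallyEq (Filter.Eventually.of_forall fun x' => ?_)
      change (uni n q p c r).K t (x', l, y) = _
      rw [uni_K, hr]
    have h4 := h1.unique h2
    rw [h4]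
    ring
  have L2 : L (0, 1, 0) = ((15 * a : ℝ) : ℂ) * ce (2 * Real.pi * q (t, y)) -
      ((c (t, x, y) * (15 / 2 * g) : ℝ) : ℂ) := by
    have hcv : HasDerivAt (fun l' : ℝ => ((x, l', y) : ℝ × ℝ × ℝ)) (0, 1, 0) l :=
      (hasDerivAt_const _ _).prodMk ((hasDerivAt_id l).prodMk (hasDerivAt_const _ _))
    have h1 := hd.comp_hasDerivAt l hcv
    have da : HasDerivAt (fun l' : ℝ => Real.exp (15 * l')) (15 * a) l := by
      have := ((hasDerivAt_id l).const_mul (15 : ℝ)).exp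
      refine this.congr_deriv ?_
      simp [ha]
      ring
    have dg : HasDerivAt (fun l' : ℝ => Real.exp (15 / 2 * l')) (15 / 2 * g) l := by
      have := ((hasDerivAt_id l).const_mul (15 / 2 : ℝ)).exp
      refine this.congr_deriv ?_
      simp [hg]
      ring
    have h2 : HasDerivAt (fun l' : ℝ => (uni n q p c r).K t (x, l', y))
        (((15 * a : ℝ) : ℂ) * NSDefs_966.e (q (t, y)) +
          ((c (t, x, y) * (15 / 2 * g) : ℝ) : ℂ) * -1) l := by
      have h3 : HasDerivAt (fun l' : ℝ => ((Real.exp (15 * l') : ℝ) : ℂ) *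
          NSDefs_966.e (q (t, y)) + NSDefs_966.e (p (t, x)) +
          ((c (t, x, y) * Real.exp (15 / 2 * l') : ℝ) : ℂ) * -1)
          (((15 * a : ℝ) : ℂ) * NSDefs_966.e (q (t, y)) +
          ((c (t, x, y) * (15 / 2 * g) : ℝ) : ℂ) * -1) l :=
        ((da.ofReal_comp.mul_const _).add_const _).add
          (((dg.const_mul _).ofReal_comp).mul_const (-1))
      refine h3.congr_of_eventuallyEq (Filter.Eventually.of_forall fun l' => ?_)
      change (uni n q p c r).K t (x, l', y) = _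
      rw [uni_K, hr]
    have h4 := h1.unique h2
    rw [h4, e_eq]
    ring
  have L3 : L (0, 0, 1) = Complex.I * ((a : ℝ) : ℂ) * ((2 * Real.pi * q' : ℝ) : ℂ) *
      ce (2 * Real.pi * q (t, y)) - ((cy * g : ℝ) : ℂ) := by
    have hcv : HasDerivAt (fun y' : ℝ => ((x, l, y') : ℝ × ℝ × ℝ)) (0, 0, 1) y :=
      (hasDerivAt_const _ _).prodMk ((hasDerivAt_const _ _).prodMk (hasDerivAt_id y))
    have h1 := hd.comp_hasDerivAt y hcv
    have h2 : HasDerivAt (fun y' : ℝ => (uni n q p c r).K t (x, l, y'))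
        (((a : ℝ) : ℂ) * (Complex.I * ((2 * Real.pi * q' : ℝ) : ℂ) *
          ce (2 * Real.pi * q (t, y))) + ((cy * g : ℝ) : ℂ) * -1) y := by
      have h3 : HasDerivAt (fun y' : ℝ => ((a : ℝ) : ℂ) * NSDefs_966.e (q (t, y')) +
          NSDefs_966.e (p (t, x)) + ((c (t, x, y') * g : ℝ) : ℂ) * -1)
          (((a : ℝ) : ℂ) * (Complex.I * ((2 * Real.pi * q' : ℝ) : ℂ) *
          ce (2 * Real.pi * q (t, y))) + ((cy * g : ℝ) : ℂ) * -1) y :=
        (((hasDerivAt_e dq).const_mul _).add_const _).add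
          (((dcy.mul_const g).ofReal_comp).mul_const (-1))
      refine h3.congr_of_eventuallyEq (Filter.Eventually.of_forall fun y' => ?_)
      change (uni n q p c r).K t (x, l, y') = _
      rw [uni_K, hr]
    have h4 := h1.unique h2
    rw [h4]
    ring
  -- the pointwise lemma
  have key := fun w : ℂ => reg_pt (a := a) (a' := 15 * a) (p := 2 * Real.pi * p (t, x))
    (p' := 2 * Real.pi * p') (q := 2 * Real.pi * q (t, y)) (q' := 2 * Real.pi * q')
    (B := c (t, x, y) * g) (Bu := c (t, x, y) * (15 / 2 * g)) (Bθ := cx * g) (Bω := cy * g)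
    hap (by positivity) (by
      rw [e_eq, e_eq] at h0
      rw [← h0]
      push_cast
      ring) (mul_nonneg (H3 t ht x y) hgp.le)
    (mul_nonneg (H3 t ht x y) (by positivity)) (by
      have := mul_nonneg (mul_nonneg (H3 t ht x y) hgp.le) hap.le
      nlinarith)
    (fun h => ⟨mul_ne_zero (by positivity) (H1 t ht x h).1, by
      have : cx = 0 := (H1 t ht x h).2 y
      rw [this, zero_mul]⟩)
    (fun h => ⟨mul_ne_zero (by positivity) (H2 t ht y h).1, by
      have : cy = 0 := (H2 t ht y h).2 x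
      rw [this, zero_mul]⟩)
    (fun hcp hcq h => by
      -- real zero: `a + 1 = c g`, `15 a = c (15/2) g` give `g = 1`, `c = 2`
      have hs1 : Real.sin (2 * Real.pi * p (t, x)) = 0 := by
        have := Real.sin_sq_add_cos_sq (2 * Real.pi * p (t, x))
        rw [hcp] at this
        nlinarith
      have hre := congrArg Complex.re h0
      rw [e_eq, e_eq] at hre
      simp only [Complex.add_re, Complex.re_ofReal_mul, ce_re, Complex.zero_re,
        Complex.neg_re, Complex.one_re] at hre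
      rw [hcp, hcq] at hre
      have h5 : a = 1 := by nlinarith
      have h6 : g = 1 := by
        rw [hag] at h5
        nlinarith
      have h7 : c (t, x, y) = 2 := by
        rw [h6, h5] at hre
        linarith
      exact H4 t ht x y (by rw [hcp]; exact zero_le_one) (by rw [hcq]; exact zero_le_one) h7) w
  intro w
  obtain ⟨α, β, γ, hw⟩ := key w
  refine ⟨(α, β, γ), ?_⟩
  have e1 : ((α, β, γ) : ℝ × ℝ × ℝ) = α • ((1, 0, 0) : ℝ × ℝ × ℝ) +
      β • ((0, 1, 0) : ℝ × ℝ × ℝ) + γ • ((0, 0, 1) : ℝ × ℝ × ℝ) := by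
    simp
  rw [e1, map_add, map_add, map_smul, map_smul, map_smul, L1, L2, L3, ← hw]
  simp only [Complex.real_smul]

end Reg

/-! ### smoothness and periods -/

theorem Sp_loc' {k : ℤ} {x : ℝ} (h1 : (k : ℝ) - 1 / 2 ≤ x) (h2 : x ≤ k + 1) :
    Sp x = k + st (2 * (x - k)) := by
  rcases le_or_gt x (k + 1 / 2) with h | h
  · exact Sp_loc h1 h
  · rw [Sp_loc (k := k + 1) (by push_cast; linarith) (by push_cast; linarith),
      st_of_le (by push_cast; linarith), st_of_ge (by linarith)]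
    push_cast
    ring

theorem Sp_add_int (x : ℝ) (m : ℤ) : Sp (x + m) = Sp x + m := by
  unfold Sp
  rw [Int.floor_add_intCast, Int.fract_add_intCast]
  push_cast
  ring

theorem Gp_add_int (x : ℝ) (m : ℤ) : Gp (x + m) = Gp x + m := by
  unfold Gp
  rw [show x + (m : ℝ) - 1 / 2 = (x - 1 / 2) + m by ring, Sp_add_int]

theorem il_add_int (N : ℤ → ℝ) (X : ℝ) (m : ℤ) : il N (X + m) = il (fun k => N (k + m)) X := by
  unfold il
  rw [Int.floor_add_intCast, Int.fract_add_intCast]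
  congr 2
  congr 1
  ring

theorem il_add_const (N : ℤ → ℝ) (c X : ℝ) : il (fun k => N k + c) X = il N X + c := by
  unfold il
  ring

/-- a real is in the middle of some good interval -/
theorem exists_mid (x c : ℝ) : ∃ k : ℤ, (k : ℝ) + c ≤ x ∧ x < k + c + 1 :=
  ⟨⌊x - c⌋, by linarith [Int.floor_le (x - c)], by linarith [Int.lt_floor_add_one (x - c)]⟩

theorem contDiff_st2 (k : ℤ) (c : ℝ) : ContDiff ℝ 2 fun x : ℝ => st (2 * (x - k) + c) :=
  contDiff_st.comp (by fun_prop)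

theorem contDiff_hx (N : ℤ → ℤ) : ContDiff ℝ 2 (hx N) := by
  rw [contDiff_iff_contDiffAt]
  intro x
  obtain ⟨k, h1, h2⟩ := exists_mid x (-1 / 4)
  have hev : hx N =ᶠ[𝓝 x] fun x => (N k : ℝ) + ((N (k + 1) : ℝ) - N k) * st (2 * (x - k) + 0) := by
    filter_upwards [Ioo_mem_nhds (show (k : ℝ) - 1 / 2 < x by linarith)
      (show x < (k : ℝ) + 1 by linarith)] with y hy
    unfold hx
    rw [Sp_loc' hy.1.le hy.2.le, il_add _ _ (st_nonneg _) (st_le_one _), add_zero]
    ring
  exact ContDiffAt.congr_of_eventuallyEq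
    (contDiff_const.add (contDiff_const.mul (contDiff_st2 k 0))).contDiffAt hev

theorem contDiff_pE (N : ℤ → ℤ) : ContDiff ℝ 2 (pE N) :=
  ((contDiff_hx N).sub contDiff_const).sub contDiff_const

theorem contDiff_pT (e : ℕ → ℝ) (M : ℕ) : ContDiff ℝ 2 (pT e M) :=
  ((contDiff_wph (e := e) (arcsE M)).comp (by fun_prop :
    ContDiff ℝ 2 fun x : ℝ => 2 * Real.pi * x / (M + 1))).div_const _

theorem contDiff_pm (e : ℕ → ℝ) (M : ℕ) (N : ℤ → ℤ) :
    ContDiff ℝ 2 fun z : ℝ × ℝ => pm e M N z.1 z.2 := by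
  unfold pm
  exact ((contDiff_const.sub contDiff_fst).mul ((contDiff_pE N).comp contDiff_snd)).add
    (contDiff_fst.mul ((contDiff_pT e M).comp contDiff_snd))

section Per

variable {M : ℕ} {e : ℕ → ℝ} {N sg : ℤ → ℤ}

theorem pE_per (h : Circ M e N sg) (x : ℝ) : pE N (x + ((M : ℝ) + 1)) = pE N x + 15 := by
  unfold pE hx
  have e1 : x + ((M : ℝ) + 1) = x + (((M : ℤ) + 1 : ℤ) : ℝ) := by push_cast; ring
  rw [e1, Sp_add_int, il_add_int]
  have e2 : (fun k : ℤ => ((N (k + ((M : ℤ) + 1)) : ℤ) : ℝ)) = fun k => ((N k : ℤ) : ℝ) + 15 := by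
    funext k
    rw [h.per]
    push_cast
    ring
  rw [e2, il_add_const]
  ring

theorem pT_per (h : Circ M e N sg) (x : ℝ) : pT e M (x + ((M : ℝ) + 1)) = pT e M x + 15 := by
  unfold pT
  have hM : (0 : ℝ) < M + 1 := by positivity
  have e1 : 2 * Real.pi * (x + ((M : ℝ) + 1)) / (M + 1) =
      2 * Real.pi * x / (M + 1) + 2 * Real.pi := by
    field_simp
  rw [e1, wph_add, h.tot]
  have := Real.pi_pos
  field_simp

theorem pm_per (h : Circ M e N sg) (s x : ℝ) :
    pm e M N s (x + ((M : ℝ) + 1)) = pm e M N s x + 15 := by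
  unfold pm
  rw [pE_per h, pT_per h]
  ring

end Per

/-! ### the window of the killed cells -/

/-- `bil K (Gp x) (Gp y)` -/
def kw (K : ℤ → ℤ → ℝ) (x y : ℝ) : ℝ := bil K (Gp x) (Gp y)

theorem kw_swap (K : ℤ → ℤ → ℝ) (x y : ℝ) : kw K x y = kw (fun l k => K k l) y x := by
  unfold kw
  rw [bil_eq, bil_eq']

theorem kw_flat {K : ℤ → ℤ → ℝ} {k : ℤ} {x : ℝ} (h1 : (k : ℝ) ≤ x) (h2 : x ≤ k + 1 / 2) (y : ℝ) :
    kw K x y = il (fun l => K k l) (Gp y) := by
  unfold kw
  rw [bil_eq, Gp_flat h1 h2, il_int]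

theorem kw_val {K : ℤ → ℤ → ℝ} {k l : ℤ} {x y : ℝ} (h1 : (k : ℝ) ≤ x) (h2 : x ≤ k + 1 / 2)
    (h3 : (l : ℝ) ≤ y) (h4 : y ≤ l + 1 / 2) : kw K x y = K k l := by
  rw [kw_flat h1 h2, Gp_flat h3 h4, il_int]

theorem kw_dx {K : ℤ → ℤ → ℝ} {k : ℤ} {x : ℝ} (h1 : (k : ℝ) < x) (h2 : x < k + 1 / 2) (y : ℝ) :
    deriv (fun x => kw K x y) x = 0 := by
  have hev : (fun x => kw K x y) =ᶠ[𝓝 x] fun _ => il (fun l => K k l) (Gp y) := by
    filter_upwards [Ioo_mem_nhds h1 h2] with x' hx'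
    exact kw_flat hx'.1.le hx'.2.le y
  rw [hev.deriv_eq, deriv_const]

theorem kw_nonneg {K : ℤ → ℤ → ℝ} (h : ∀ k l, 0 ≤ K k l) (x y : ℝ) : 0 ≤ kw K x y := by
  unfold kw
  rw [bil_eq]
  exact il_nonneg (fun k => il_nonneg (fun l => h k l) _) _

theorem contDiff_kw (K : ℤ → ℤ → ℝ) : ContDiff ℝ 2 fun z : ℝ × ℝ => kw K z.1 z.2 := by
  rw [contDiff_iff_contDiffAt]
  rintro ⟨x, y⟩
  obtain ⟨k, h1, h2⟩ := exists_mid x (1 / 4)
  obtain ⟨l, h3, h4⟩ := exists_mid y (1 / 4)
  have hG : ∀ (k : ℤ) (x : ℝ), (k : ℝ) < x → x < k + 3 / 2 → Gp x = k + st (2 * (x - k) + -1) := by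
    intro k x h1 h2
    unfold Gp
    rw [Sp_loc' (k := k) (by linarith) (by linarith)]
    congr 2
    ring
  have hev : (fun z : ℝ × ℝ => kw K z.1 z.2) =ᶠ[𝓝 (x, y)] fun z =>
      (1 - st (2 * (z.1 - k) + -1)) * ((1 - st (2 * (z.2 - l) + -1)) * K k l +
        st (2 * (z.2 - l) + -1) * K k (l + 1)) +
      st (2 * (z.1 - k) + -1) * ((1 - st (2 * (z.2 - l) + -1)) * K (k + 1) l +
        st (2 * (z.2 - l) + -1) * K (k + 1) (l + 1)) := by
    have hm : Ioo (k : ℝ) (k + 3 / 2) ×ˢ Ioo (l : ℝ) (l + 3 / 2) ∈ 𝓝 (x, y) :=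
      prod_mem_nhds (Ioo_mem_nhds (by linarith) (by linarith))
        (Ioo_mem_nhds (by linarith) (by linarith))
    filter_upwards [hm] with z hz
    unfold kw
    rw [bil_eq, hG k z.1 hz.1.1 hz.1.2, hG l z.2 hz.2.1 hz.2.2,
      il_add _ _ (st_nonneg _) (st_le_one _), il_add _ _ (st_nonneg _) (st_le_one _),
      il_add _ _ (st_nonneg _) (st_le_one _)]
  have hs1 : ContDiff ℝ 2 fun z : ℝ × ℝ => st (2 * (z.1 - k) + -1) :=
    (contDiff_st2 k (-1)).comp contDiff_fst
  have hs2 : ContDiff ℝ 2 fun z : ℝ × ℝ => st (2 * (z.2 - l) + -1) :=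
    (contDiff_st2 l (-1)).comp contDiff_snd
  refine ContDiffAt.congr_of_eventuallyEq (ContDiff.contDiffAt ?_) hev
  exact ((contDiff_const.sub hs1).mul (((contDiff_const.sub hs2).mul contDiff_const).add
    (hs2.mul contDiff_const))).add (hs1.mul (((contDiff_const.sub hs2).mul contDiff_const).add
    (hs2.mul contDiff_const)))

theorem kw_per_x {K : ℤ → ℤ → ℝ} {n : ℤ} (h : ∀ k l, K (k + n) l = K k l) (x y : ℝ) :
    kw K (x + n) y = kw K x y := by
  unfold kw
  rw [bil_eq, bil_eq, Gp_add_int, il_add_int]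
  congr 1
  funext k
  congr 1
  funext l
  exact h k l

theorem kw_per_y {K : ℤ → ℤ → ℝ} {n : ℤ} (h : ∀ k l, K k (l + n) = K k l) (x y : ℝ) :
    kw K x (y + n) = kw K x y := by
  rw [kw_swap K x (y + n), kw_per_x (fun k l => h l k), ← kw_swap]

end Crest.Agent.R267.ArmExB_649
end
end

-- ▼ part R267/ArmExC_649

/-!
# Row 267, N2 EXIT, part C (helper649): from `NS.fin` to the literal words and windows

`exitA` : `AEq b v (PA b v (S.fin.h u0 W 0)) (PA b v (HE D v u0 W))` for small `u0`, large `W`.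
Steps: rotation of all phases; windows `kl → WW`; own words `pE → pT`.
-/

set_option autoImplicit false

noncomputable section

open Set Filter Topology Finset
open Crest.Agent.R267.T3aDefs_957 (st)
open Crest.Agent.R267.T3aNDefs_88 (SD)
open Crest.Agent.R267.Calc_957
open Crest.Agent.R267.GlNDefs_9 (se cen tot Arcs WinA)
open Crest.Agent.R267.WordPh_9 Crest.Agent.R267.WordPh2_9
open Crest.Agent.R267.NSDefs_966
open Crest.Agent.R267.NdY_484 Crest.Agent.R267.PolArm_484
open Crest.Agent.R267.ArmPt_649 Crest.Agent.R267.ArmExA_649 Crest.Agent.R267.ArmExB_649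
open Crest.Agent.R267.HubDefs_284 (pp ww)

namespace Crest.Agent.R267.ArmExC_649

/-! ### literal interface with `ArmExitB_502` -/

/-- the windows of the arm `v` -/
def WW (D : SD 4) (v : Fin 3) (θ ω : ℝ) : ℝ :=
  ∑ e ∈ univ.filter (fun e => (D.bx e).S = {v.castSucc, 3}), ww D e v.castSucc θ * ww D e 3 ω

/-- the arm with the literal words and windows, exponent `15/2`, both cut-offs -/
def HE (D : SD 4) (v : Fin 3) (u0 W : ℝ) (z : ℝ × ℝ × ℝ) : ℂ :=
  ((ca u0 z.2.1 * z.2.1 ^ 15 : ℝ) : ℂ) *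
      Ang_739.cis (cb W z.2.1 * pp D 3 z.2.2 + (1 - cb W z.2.1) * (15 * z.2.2)) +
    (cb W z.2.1 : ℂ) * (Ang_739.cis (pp D v.castSucc z.1) -
      ((ca u0 z.2.1 * (5 * z.2.1 ^ (15 / 2 : ℝ) * WW D v z.1 z.2.2) : ℝ) : ℂ))

/-- the data `D` -/
structure DOk (D : SD 4) : Prop where
  hlo : ∀ e, ∀ j ∈ (D.bx e).S, (D.bx e).lo j ≤ (D.bx e).hi j
  hM3 : D.M 3 = 14
  hs3 : ∀ l, D.neg 3 l = false

/-- the lobes `(i, l)` are in a pair box of `v` and `w` -/
def Kl (D : SD 4) (v : Fin 3) (i l : ℕ) : Prop := ∃ e, (D.bx e).S = {v.castSucc, 3} ∧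
  ((D.bx e).lo v.castSucc < i ∧ i ≤ (D.bx e).hi v.castSucc) ∧
  ((D.bx e).lo 3 < l ∧ l ≤ (D.bx e).hi 3)

/-- the nested system `S` belongs to the arm `v` of `D` -/
structure Match {m : ℕ} (S : NS m) (D : SD 4) (v : Fin 3) : Prop where
  n : S.n = D.M v.castSucc + 1
  sg : ∀ i : ℕ, i ≤ D.M v.castSucc → ((S.sg i : ℤ) : ℝ) = se (D.sn v.castSucc) i
  kill : ∀ i l : ℕ, i ≤ D.M v.castSucc → l ≤ 14 → (S.kill i l ↔ Kl D v i l)

variable {m : ℕ} {S : NS m} {D : SD 4} {v : Fin 3}

/-! ### circles -/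

/-- heights of the `v`-circle -/
def Nv (S : NS m) (k : ℤ) : ℤ := S.N (Fin.last (m + 1)) k 0

theorem circ_v (hS : S.Ok) (hM : Match S D v) :
    Circ (D.M v.castSucc) (D.sn v.castSucc) (Nv S) S.sg where
  sg1 := hS.sg1
  step := fun k => hS.N1s k 0
  per := fun k => by
    have h := hS.perk (Fin.last (m + 1)) k 0
    rw [hS.i1, hM.n] at h
    have e1 : (k + (((D.M v.castSucc + 1 : ℕ)) : ℤ)) = k + ((D.M v.castSucc : ℤ) + 1) := by
      push_cast; ring
    rw [e1] at h
    unfold Nv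
    rw [h]
    norm_num
  se := hM.sg

/-- heights of the `w`-circle -/
def Nw (k : ℤ) : ℤ := k

theorem circ_w (hD : DOk D) : Circ 14 (D.sn 3) Nw fun _ => 1 where
  sg1 := fun _ => Or.inl rfl
  step := fun k => rfl
  per := fun k => by unfold Nw; norm_num
  se := fun i _ => by
    unfold se SD.sn
    split
    · norm_num
    · rw [hD.hs3]; norm_num

theorem Nw_zero : Nw 0 = 0 := rfl

theorem hx_Nw (y : ℝ) : hx Nw y = Sp y := by
  unfold hx
  obtain ⟨k, f, h0, h1, h2⟩ : ∃ (k : ℤ) (f : ℝ), 0 ≤ f ∧ f ≤ 1 ∧ Sp y = k + f :=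
    ⟨⌊Sp y⌋, Int.fract (Sp y), Int.fract_nonneg _, (Int.fract_lt_one _).le,
      (Int.floor_add_fract _).symm⟩
  rw [h2, il_add _ _ h0 h1]
  unfold Nw
  push_cast
  ring

theorem Sp_zero : Sp 0 = ((0 : ℤ) : ℝ) := by
  have := Sp_loc (k := 0) (x := 0) (by norm_num) (by norm_num)
  rw [this]
  simp [st_of_le]

theorem hat_eq (x : ℝ) : S.hat (Fin.last (m + 1)) x 0 = hx (Nv S) x := by
  unfold NS.hat
  rw [bil_eq, Sp_zero]
  unfold hx Nv
  congr 1
  funext k
  rw [il_int]

/-! ### killed cells -/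

open Classical in
/-- indicator of the killed cells -/
def K1 (S : NS m) (k l : ℤ) : ℝ := if S.kill k l then 1 else 0

theorem kl_eq (x y : ℝ) : S.kl x y = kw (K1 S) x y := by
  unfold NS.kl kw
  congr 1

theorem K1_nonneg (k l : ℤ) : 0 ≤ K1 S k l := by
  unfold K1
  split_ifs
  · exact zero_le_one
  · exact le_rfl

theorem flat_n (hS : S.Ok) (s : Fin (m + 2)) (k l : ℤ) :
    S.flat s (k + S.n) l ↔ S.flat s k l := by
  unfold NS.flat
  have e1 : k + (S.n : ℤ) + 1 = (k + 1) + S.n := by ring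
  rw [e1, hS.perk, hS.perk, hS.perk, hS.perk]
  constructor <;> rintro ⟨h1, h2, h3⟩ <;> refine ⟨?_, ?_, ?_⟩ <;> linarith

theorem flat_15 (hS : S.Ok) (s : Fin (m + 2)) (k l : ℤ) :
    S.flat s k (l + 15) ↔ S.flat s k l := by
  unfold NS.flat
  have e1 : l + 15 + 1 = (l + 1) + 15 := by ring
  rw [e1, hS.perl, hS.perl, hS.perl, hS.perl]
  constructor <;> rintro ⟨h1, h2, h3⟩ <;> refine ⟨?_, ?_, ?_⟩ <;> linarith

theorem K1_n (hS : S.Ok) (k l : ℤ) : K1 S (k + S.n) l = K1 S k l := by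
  unfold K1
  have : S.kill (k + S.n) l ↔ S.kill k l := exists_congr fun s => flat_n hS s k l
  simp only [this]

theorem K1_15 (hS : S.Ok) (k l : ℤ) : K1 S k (l + 15) = K1 S k l := by
  unfold K1
  have : S.kill k (l + 15) ↔ S.kill k l := exists_congr fun s => flat_15 hS s k l
  simp only [this]

theorem K1_n_int (hS : S.Ok) (j k l : ℤ) : K1 S (k + S.n * j) l = K1 S k l := by
  induction j using Int.induction_on with
  | zero => simp
  | succ j ih =>
    rw [show k + (S.n : ℤ) * ((j : ℤ) + 1) = (k + S.n * j) + S.n by ring, K1_n hS, ih]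
  | pred j ih =>
    rw [← K1_n hS, show k + (S.n : ℤ) * (-(j : ℤ) - 1) + S.n = k + S.n * -(j : ℤ) by ring, ih]

theorem K1_15_int (hS : S.Ok) (j k l : ℤ) : K1 S k (l + 15 * j) = K1 S k l := by
  induction j using Int.induction_on with
  | zero => simp
  | succ j ih =>
    rw [show l + 15 * ((j : ℤ) + 1) = (l + 15 * j) + 15 by ring, K1_15 hS, ih]
  | pred j ih =>
    rw [← K1_15 hS, show l + 15 * (-(j : ℤ) - 1) + 15 = l + 15 * -(j : ℤ) by ring, ih]

/-! ### the windows in cell coordinates -/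

/-- `WW` in cell coordinates -/
def WC (D : SD 4) (v : Fin 3) (x y : ℝ) : ℝ :=
  WW D v (2 * Real.pi * x / (D.M v.castSucc + 1)) (2 * Real.pi * y / (14 + 1))

theorem mem_v {e : Fin D.nb} (he : (D.bx e).S = {v.castSucc, 3}) : v.castSucc ∈ (D.bx e).S := by
  rw [he]; exact mem_insert_self _ _

theorem mem_3 {e : Fin D.nb} (he : (D.bx e).S = {v.castSucc, 3}) : (3 : Fin 4) ∈ (D.bx e).S := by
  rw [he]; exact mem_insert_of_mem (mem_singleton_self _)

theorem winA_ww (hD : DOk D) {e : Fin D.nb} {j : Fin 4} (hj : j ∈ (D.bx e).S) :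
    WinA (D.M j) (aE (D.M j)) (bE (D.M j)) ((D.bx e).lo j) ((D.bx e).hi j) (ww D e j) :=
  winA (arcsE _) (hD.hlo e j hj) (D.hhi e j hj)

theorem WW_nonneg (hD : DOk D) (θ ω : ℝ) : 0 ≤ WW D v θ ω := by
  unfold WW
  refine Finset.sum_nonneg fun e he => ?_
  have he' := (Finset.mem_filter.1 he).2
  exact mul_nonneg ((winA_ww hD (mem_v he')).nn _) ((winA_ww hD (mem_3 he')).nn _)

theorem contDiff_WC (hD : DOk D) : ContDiff ℝ 2 fun z : ℝ × ℝ => WC D v z.1 z.2 := by
  unfold WC WW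
  refine ContDiff.sum fun e he => ?_
  have he' := (Finset.mem_filter.1 he).2
  exact ((winA_ww hD (mem_v he')).smooth.comp (by fun_prop : ContDiff ℝ 2 fun z : ℝ × ℝ =>
    2 * Real.pi * z.1 / (D.M v.castSucc + 1))).mul
    ((winA_ww hD (mem_3 he')).smooth.comp (by fun_prop : ContDiff ℝ 2 fun z : ℝ × ℝ =>
    2 * Real.pi * z.2 / (14 + 1)))

theorem WC_dx (hD : DOk D) {k : ℤ} {x : ℝ} (hx : |x - k| < tau) (y : ℝ) :
    deriv (fun x => WC D v x y) x = 0 := by
  unfold WC WW
  have key : HasDerivAt (fun x => ∑ e ∈ univ.filter (fun e => (D.bx e).S = {v.castSucc, 3}),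
      ww D e v.castSucc (2 * Real.pi * x / (D.M v.castSucc + 1)) *
        ww D e 3 (2 * Real.pi * y / (14 + 1)))
      (∑ e ∈ univ.filter (fun e => (D.bx e).S = {v.castSucc, 3}), 0) x := by
    refine HasDerivAt.fun_sum fun e he => ?_
    have he' := (Finset.mem_filter.1 he).2
    have hj := mem_v he'
    obtain ⟨j, i, -, -, h1, -⟩ := win_loc (hD.hlo e _ hj) (D.hhi e _ hj) hx.le
    have h2 : HasDerivAt (ww D e v.castSucc) 0 (2 * Real.pi * x / (D.M v.castSucc + 1)) := by
      have h3 := (((winA_ww hD hj).smooth.differentiable (by norm_num))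
        (2 * Real.pi * x / (D.M v.castSucc + 1))).hasDerivAt
      have h4 : deriv (ww D e v.castSucc) (2 * Real.pi * x / (D.M v.castSucc + 1)) = 0 := h1
      rwa [h4] at h3
    have h5 : HasDerivAt (fun x : ℝ => 2 * Real.pi * x / (D.M v.castSucc + 1))
        (2 * Real.pi * 1 / (D.M v.castSucc + 1)) x :=
      ((hasDerivAt_id x).const_mul _).div_const _
    have h6 := (h2.comp x h5).mul_const (ww D e 3 (2 * Real.pi * y / (14 + 1)))
    simpa using h6
  rw [key.deriv, Finset.sum_const_zero]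

theorem WC_dy (hD : DOk D) {k : ℤ} {y : ℝ} (hy : |y - k| < tau) (x : ℝ) :
    deriv (fun y => WC D v x y) y = 0 := by
  unfold WC WW
  have key : HasDerivAt (fun y => ∑ e ∈ univ.filter (fun e => (D.bx e).S = {v.castSucc, 3}),
      ww D e v.castSucc (2 * Real.pi * x / (D.M v.castSucc + 1)) *
        ww D e 3 (2 * Real.pi * y / (14 + 1)))
      (∑ e ∈ univ.filter (fun e => (D.bx e).S = {v.castSucc, 3}), 0) y := by
    refine HasDerivAt.fun_sum fun e he => ?_
    have he' := (Finset.mem_filter.1 he).2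
    have hj := mem_3 he'
    have hhi := D.hhi e _ hj
    rw [hD.hM3] at hhi
    obtain ⟨j, i, -, -, h1, -⟩ := win_loc (M := 14) (hD.hlo e _ hj) hhi hy.le
    have h2 : HasDerivAt (ww D e 3) 0 (2 * Real.pi * y / (14 + 1)) := by
      have h3 := (((winA_ww hD hj).smooth.differentiable (by norm_num))
        (2 * Real.pi * y / (14 + 1))).hasDerivAt
      have h4 : deriv (ww D e 3) (2 * Real.pi * y / (14 + 1)) = 0 := by
        unfold ww
        rw [hD.hM3]
        push_cast at h1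
        exact h1
      rwa [h4] at h3
    have h5 : HasDerivAt (fun y : ℝ => 2 * Real.pi * y / (14 + 1))
        (2 * Real.pi * 1 / (14 + 1)) y :=
      ((hasDerivAt_id y).const_mul _).div_const _
    have h6 := (h2.comp y h5).const_mul
      (ww D e v.castSucc (2 * Real.pi * x / (D.M v.castSucc + 1)))
    simpa using h6
  rw [key.deriv, Finset.sum_const_zero]

/-- value of the windows in the lobes: the number of active boxes. -/
theorem WC_val (hS : S.Ok) (hD : DOk D) (hM : Match S D v) {k l : ℤ} {x y : ℝ}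
    (hx : |x - k| < tau) (hy : |y - l| < tau) :
    (K1 S k l = 0 ∧ WC D v x y = 0) ∨ (K1 S k l = 1 ∧ 1 ≤ WC D v x y) := by
  have hM1 : (0 : ℤ) < (D.M v.castSucc : ℤ) + 1 := by positivity
  -- indices
  set i : ℕ := (k % ((D.M v.castSucc : ℤ) + 1)).toNat with hi
  set l' : ℕ := (l % 15).toNat with hl'
  have hkn := Int.emod_nonneg k hM1.ne'
  have hln := Int.emod_nonneg l (by norm_num : (15 : ℤ) ≠ 0)
  have hklt := Int.emod_lt_of_pos k hM1
  have hllt := Int.emod_lt_of_pos l (by norm_num : (0 : ℤ) < 15)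
  have hiz : (i : ℤ) = k % ((D.M v.castSucc : ℤ) + 1) := Int.toNat_of_nonneg hkn
  have hlz : (l' : ℤ) = l % 15 := Int.toNat_of_nonneg hln
  have hiM : i ≤ D.M v.castSucc := by omega
  have hl14 : l' ≤ 14 := by omega
  have hK : K1 S k l = K1 S i l' := by
    have e1 : k = (i : ℤ) + (S.n : ℤ) * (k / ((D.M v.castSucc : ℤ) + 1)) := by
      rw [hM.n, hiz]
      push_cast
      exact (Int.emod_add_mul_ediv k _).symm
    have e2 : l = (l' : ℤ) + 15 * (l / 15) := by
      rw [hlz]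
      exact (Int.emod_add_mul_ediv l 15).symm
    rw [e1, e2, K1_n_int hS, K1_15_int hS]
  -- values of the windows
  have hval : ∀ e, (D.bx e).S = {v.castSucc, 3} →
      ww D e v.castSucc (2 * Real.pi * x / (D.M v.castSucc + 1)) *
        ww D e 3 (2 * Real.pi * y / (14 + 1)) =
      if ((D.bx e).lo v.castSucc < i ∧ i ≤ (D.bx e).hi v.castSucc) ∧
        ((D.bx e).lo 3 < l' ∧ l' ≤ (D.bx e).hi 3) then 1 else 0 := by
    intro e he
    have hj := mem_v he
    have hj3 := mem_3 he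
    have hhi3 := D.hhi e _ hj3
    rw [hD.hM3] at hhi3
    obtain ⟨j1, i1, hi1, hk1, -, h1⟩ := win_loc (hD.hlo e _ hj) (D.hhi e _ hj) hx.le
    obtain ⟨j2, i2, hi2, hk2, -, h2⟩ := win_loc (M := 14) (hD.hlo e _ hj3) hhi3 hy.le
    have ei : i1 = i := by
      have : (i1 : ℤ) = k % ((D.M v.castSucc : ℤ) + 1) := by
        rw [hk1, Int.add_mul_emod_self_left]
        exact (Int.emod_eq_of_lt (by positivity) (by omega)).symm
      omega
    have el : i2 = l' := by
      have e14 : ((14 : ℕ) : ℤ) + 1 = 15 := by norm_num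
      rw [e14] at hk2
      omega
    have h2' : ww D e 3 (2 * Real.pi * y / (14 + 1)) =
        if (D.bx e).lo 3 < i2 ∧ i2 ≤ (D.bx e).hi 3 then 1 else 0 := by
      unfold ww
      rw [hD.hM3]
      push_cast at h2
      exact h2
    have h1' : ww D e v.castSucc (2 * Real.pi * x / (D.M v.castSucc + 1)) =
        if (D.bx e).lo v.castSucc < i1 ∧ i1 ≤ (D.bx e).hi v.castSucc then 1 else 0 := h1
    rw [h1', h2', ei, el]
    by_cases c1 : (D.bx e).lo v.castSucc < i ∧ i ≤ (D.bx e).hi v.castSucc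
    · by_cases c2 : (D.bx e).lo 3 < l' ∧ l' ≤ (D.bx e).hi 3
      · rw [if_pos c1, if_pos c2, if_pos ⟨c1, c2⟩, one_mul]
      · rw [if_neg c2, mul_zero]
        exact (if_neg (fun h => c2 h.2)).symm
    · rw [if_neg c1, zero_mul]
      exact (if_neg (fun h => c1 h.1)).symm
  have hkill := hM.kill i l' hiM hl14
  rw [hK]
  by_cases hk : S.kill i l'
  · right
    refine ⟨by unfold K1; rw [if_pos hk], ?_⟩
    obtain ⟨e, he, hc1, hc2⟩ := hkill.1 hk
    unfold WC WW
    have hmem : e ∈ univ.filter (fun e => (D.bx e).S = {v.castSucc, 3}) :=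
      Finset.mem_filter.2 ⟨mem_univ _, he⟩
    have h1 := Finset.single_le_sum (f := fun e =>
      ww D e v.castSucc (2 * Real.pi * x / (D.M v.castSucc + 1)) *
        ww D e 3 (2 * Real.pi * y / (14 + 1))) (fun e' he' => by
        have he'' := (Finset.mem_filter.1 he').2
        exact mul_nonneg ((winA_ww hD (mem_v he'')).nn _) ((winA_ww hD (mem_3 he'')).nn _)) hmem
    refine le_trans (le_of_eq ?_) h1
    change (1 : ℝ) = ww D e v.castSucc (2 * Real.pi * x / (D.M v.castSucc + 1)) *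
        ww D e 3 (2 * Real.pi * y / (14 + 1))
    rw [hval e he, if_pos ⟨hc1, hc2⟩]
  · left
    refine ⟨by unfold K1; rw [if_neg hk], ?_⟩
    unfold WC WW
    refine Finset.sum_eq_zero fun e he => ?_
    have he' := (Finset.mem_filter.1 he).2
    rw [hval e he', if_neg]
    rintro ⟨hc1, hc2⟩
    exact hk (hkill.2 ⟨e, he', hc1, hc2⟩)

/-! ### the three families -/

/-- rotation -/
def famR (S : NS m) : PD Unit :=
  uni S.n (fun z => Sp z.2 + 1 / 2 - z.1) (fun z => hx (Nv S) z.2 + 1 / 2 - z.1)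
    (fun z => 5 * kw (K1 S) z.2.1 z.2.2) fun t => 1 / 2 - t

/-- windows -/
def fam1 (S : NS m) (D : SD 4) (v : Fin 3) : PD Unit :=
  uni S.n (fun z => pE Nw z.2) (fun z => pE (Nv S) z.2)
    (fun z => 5 * ((1 - z.1) * kw (K1 S) z.2.1 z.2.2 + z.1 * WC D v z.2.1 z.2.2))
    fun _ => -(1 / 2)

/-- own words -/
def fam2 (S : NS m) (D : SD 4) (v : Fin 3) : PD Unit :=
  uni S.n (fun z => pm (D.sn 3) 14 Nw z.1 z.2)
    (fun z => pm (D.sn v.castSucc) (D.M v.castSucc) (Nv S) z.1 z.2)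
    (fun z => 5 * WC D v z.2.1 z.2.2) fun _ => -(1 / 2)

theorem reg1 (hS : S.Ok) (hD : DOk D) (hM : Match S D v) : (fam1 S D v).Reg := by
  have hv := circ_v hS hM
  have hw := circ_w hD
  have hpm : ∀ (e : ℕ → ℝ) (M : ℕ) (N : ℤ → ℤ), pm e M N 0 = pE N := by
    intro e M N
    funext x
    unfold pm
    ring
  have ck : ContDiff ℝ 2 fun z : ℝ × ℝ × ℝ => kw (K1 S) z.2.1 z.2.2 :=
    (contDiff_kw (K1 S)).comp contDiff_snd
  have cw : ContDiff ℝ 2 fun z : ℝ × ℝ × ℝ => WC D v z.2.1 z.2.2 :=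
    (contDiff_WC hD).comp contDiff_snd
  -- local information
  have hvx : ∀ x, 0 ≤ Real.cos (2 * Real.pi * pE (Nv S) x) → ∃ k : ℤ, |x - k| < tau ∧
      deriv (pE (Nv S)) x ≠ 0 ∧ (k : ℝ) < x ∧ x < k + 1 / 2 := by
    intro x hx
    rw [← hpm (D.sn v.castSucc) (D.M v.castSucc) (Nv S)] at hx ⊢
    obtain ⟨k, h1, h2, h3⟩ := hv.main le_rfl zero_le_one hx
    exact ⟨k, h1, h2, h3 rfl⟩
  have hwy : ∀ y, 0 ≤ Real.cos (2 * Real.pi * pE Nw y) → ∃ k : ℤ, |y - k| < tau ∧
      deriv (pE Nw) y ≠ 0 ∧ (k : ℝ) < y ∧ y < k + 1 / 2 := by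
    intro y hy
    rw [← hpm (D.sn 3) 14 Nw] at hy ⊢
    obtain ⟨k, h1, h2, h3⟩ := hw.main le_rfl zero_le_one hy
    exact ⟨k, h1, h2, h3 rfl⟩
  refine uni_reg ((contDiff_pE _).comp contDiff_snd) ((contDiff_pE _).comp contDiff_snd)
    (contDiff_const.mul (((contDiff_const.sub contDiff_fst).mul ck).add (contDiff_fst.mul cw)))
    (fun _ => e_neg_half) ?_ ?_ ?_ ?_
  · intro t ht x hx
    obtain ⟨k, h1, h2, h3, h4⟩ := hvx x hx
    refine ⟨h2, fun y => ?_⟩
    have d1 : HasDerivAt (fun x => kw (K1 S) x y) 0 x := by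
      have h5 := (((contDiff_kw (K1 S)).comp (by fun_prop : ContDiff ℝ 2 fun x : ℝ =>
        (x, y))).differentiable (by norm_num) x).hasDerivAt
      have h6 := kw_dx (K := K1 S) h3 h4 y
      change HasDerivAt (fun x => kw (K1 S) x y) (deriv (fun x => kw (K1 S) x y) x) x at h5
      rwa [h6] at h5
    have d2 : HasDerivAt (fun x => WC D v x y) 0 x := by
      have h5 := (((contDiff_WC (v := v) hD).comp (by fun_prop : ContDiff ℝ 2 fun x : ℝ =>
        (x, y))).differentiable (by norm_num) x).hasDerivAt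
      have h6 := WC_dx (v := v) hD h1 y
      change HasDerivAt (fun x => WC D v x y) (deriv (fun x => WC D v x y) x) x at h5
      rwa [h6] at h5
    have d3 := ((d1.const_mul (1 - t)).add (d2.const_mul t)).const_mul 5
    have d4 := d3.deriv
    simp only [mul_zero, add_zero] at d4
    exact d4
  · intro t ht y hy
    obtain ⟨k, h1, h2, h3, h4⟩ := hwy y hy
    refine ⟨h2, fun x => ?_⟩
    have d1 : HasDerivAt (fun y => kw (K1 S) x y) 0 y := by
      have h5 := (((contDiff_kw (K1 S)).comp (by fun_prop : ContDiff ℝ 2 fun y : ℝ =>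
        (x, y))).differentiable (by norm_num) y).hasDerivAt
      have h6 : deriv (fun y => kw (K1 S) x y) y = 0 := by
        have h7 : (fun y => kw (K1 S) x y) = fun y => kw (fun l k => K1 S k l) y x := by
          funext y
          exact kw_swap _ _ _
        rw [h7]
        exact kw_dx h3 h4 x
      change HasDerivAt (fun y => kw (K1 S) x y) (deriv (fun y => kw (K1 S) x y) y) y at h5
      rwa [h6] at h5
    have d2 : HasDerivAt (fun y => WC D v x y) 0 y := by
      have h5 := (((contDiff_WC (v := v) hD).comp (by fun_prop : ContDiff ℝ 2 fun y : ℝ =>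
        (x, y))).differentiable (by norm_num) y).hasDerivAt
      have h6 := WC_dy (v := v) hD h1 x
      change HasDerivAt (fun y => WC D v x y) (deriv (fun y => WC D v x y) y) y at h5
      rwa [h6] at h5
    have d3 := ((d1.const_mul (1 - t)).add (d2.const_mul t)).const_mul 5
    have d4 := d3.deriv
    simp only [mul_zero, add_zero] at d4
    exact d4
  · intro t ht x y
    have h1 := kw_nonneg (K1_nonneg (S := S)) x y
    have h2 := WW_nonneg (v := v) hD (2 * Real.pi * x / (D.M v.castSucc + 1))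
      (2 * Real.pi * y / (14 + 1))
    exact mul_nonneg (by norm_num) (add_nonneg (mul_nonneg (by linarith [ht.2]) h1)
      (mul_nonneg ht.1 h2))
  · intro t ht x y hx hy
    obtain ⟨k, h1, -, h3, h4⟩ := hvx x hx
    obtain ⟨l, g1, -, g3, g4⟩ := hwy y hy
    have e1 := kw_val (K := K1 S) h3.le h4.le g3.le g4.le
    change 5 * ((1 - t) * kw (K1 S) x y + t * WC D v x y) ≠ 2
    rw [e1]
    rcases WC_val hS hD hM h1 g1 with ⟨a1, a2⟩ | ⟨a1, a2⟩
    · rw [a1, a2]; norm_num
    · rw [a1]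
      have h5 : t * 1 ≤ t * WC D v x y := mul_le_mul_of_nonneg_left a2 ht.1
      intro h
      linarith

theorem reg2 (hS : S.Ok) (hD : DOk D) (hM : Match S D v) : (fam2 S D v).Reg := by
  have hv := circ_v hS hM
  have hw := circ_w hD
  have cw : ContDiff ℝ 2 fun z : ℝ × ℝ × ℝ => WC D v z.2.1 z.2.2 :=
    (contDiff_WC hD).comp contDiff_snd
  refine uni_reg (contDiff_pm _ _ _) (contDiff_pm _ _ _)
    (contDiff_const.mul cw) (fun _ => e_neg_half) ?_ ?_ ?_ ?_
  · intro t ht x hx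
    obtain ⟨k, h1, h2, -⟩ := hv.main ht.1 ht.2 hx
    refine ⟨h2, fun y => ?_⟩
    have h5 := (((contDiff_WC (v := v) hD).comp (by fun_prop : ContDiff ℝ 2 fun x : ℝ =>
      (x, y))).differentiable (by norm_num) x).hasDerivAt
    have h6 := WC_dx (v := v) hD h1 y
    change HasDerivAt (fun x => WC D v x y) (deriv (fun x => WC D v x y) x) x at h5
    rw [h6] at h5
    have d4 := (h5.const_mul 5).deriv
    simp only [mul_zero] at d4
    exact d4
  · intro t ht y hy
    obtain ⟨k, h1, h2, -⟩ := hw.main ht.1 ht.2 hy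
    refine ⟨h2, fun x => ?_⟩
    have h5 := (((contDiff_WC (v := v) hD).comp (by fun_prop : ContDiff ℝ 2 fun y : ℝ =>
      (x, y))).differentiable (by norm_num) y).hasDerivAt
    have h6 := WC_dy (v := v) hD h1 x
    change HasDerivAt (fun y => WC D v x y) (deriv (fun y => WC D v x y) y) y at h5
    rw [h6] at h5
    have d4 := (h5.const_mul 5).deriv
    simp only [mul_zero] at d4
    exact d4
  · intro t ht x y
    exact mul_nonneg (by norm_num) (WW_nonneg (v := v) hD _ _)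
  · intro t ht x y hx hy
    obtain ⟨k, h1, -, -⟩ := hv.main ht.1 ht.2 hx
    obtain ⟨l, g1, -, -⟩ := hw.main ht.1 ht.2 hy
    change 5 * WC D v x y ≠ 2
    rcases WC_val hS hD hM h1 g1 with ⟨a1, a2⟩ | ⟨a1, a2⟩
    · rw [a2]; norm_num
    · intro h
      linarith

theorem regR (hS : S.Ok) (hD : DOk D) (hM : Match S D v) : (famR S).Reg := by
  intro t ht z h0
  -- `K_t = e(-t) K_1(0)`
  have e1 : (famR S).K t = fun z => NSDefs_966.e (-t) * (fam1 S D v).K 0 z := by
    funext z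
    obtain ⟨x, l, y⟩ := z
    unfold famR fam1
    rw [uni_K, uni_K]
    have a1 : NSDefs_966.e (Sp y + 1 / 2 - t) = NSDefs_966.e (-t) * NSDefs_966.e (pE Nw y) := by
      have : Sp y + 1 / 2 - t = (-t + pE Nw y) + ((1 : ℤ) : ℝ) := by
        unfold pE
        rw [hx_Nw, Nw_zero]
        push_cast
        ring
      rw [this, e_add, e_int, mul_one, e_add]
    have a2 : NSDefs_966.e (hx (Nv S) x + 1 / 2 - t) =
        NSDefs_966.e (-t) * NSDefs_966.e (pE (Nv S) x) := by
      have : hx (Nv S) x + 1 / 2 - t = (-t + pE (Nv S) x) + ((Nv S 0 + 1 : ℤ) : ℝ) := by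
        unfold pE
        push_cast
        ring
      rw [this, e_add, e_int, mul_one, e_add]
    have a3 : NSDefs_966.e (1 / 2 - t) = NSDefs_966.e (-t) * NSDefs_966.e (-(1 / 2)) := by
      have : (1 / 2 - t : ℝ) = (-t + -(1 / 2)) + ((1 : ℤ) : ℝ) := by push_cast; ring
      rw [this, e_add, e_int, mul_one, e_add]
    rw [a1, a2, a3]
    simp only [sub_zero, one_mul, zero_mul, add_zero]
    ring
  rw [e1] at h0 ⊢
  have hne := e_ne (-t)
  have h1 : (fam1 S D v).K 0 z = 0 := (mul_eq_zero.1 h0).resolve_left hne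
  have hsur := reg1 hS hD hM 0 ⟨le_rfl, zero_le_one⟩ z h1
  have hdiff : DifferentiableAt ℝ ((fam1 S D v).K 0) z := by
    have ck : ContDiff ℝ 2 fun z : ℝ × ℝ × ℝ => kw (K1 S) z.2.1 z.2.2 :=
      (contDiff_kw (K1 S)).comp contDiff_snd
    have cw : ContDiff ℝ 2 fun z : ℝ × ℝ × ℝ => WC D v z.2.1 z.2.2 :=
      (contDiff_WC hD).comp contDiff_snd
    exact (contDiff_K ((contDiff_pE _).comp contDiff_snd) ((contDiff_pE _).comp contDiff_snd)
      (contDiff_const.mul (((contDiff_const.sub contDiff_fst).mul ck).add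
        (contDiff_fst.mul cw))) 0).differentiable (by norm_num) z
  have h2 : fderiv ℝ (fun z => NSDefs_966.e (-t) * (fam1 S D v).K 0 z) z =
      NSDefs_966.e (-t) • fderiv ℝ ((fam1 S D v).K 0) z :=
    (hdiff.hasFDerivAt.const_mul _).fderiv
  rw [h2]
  intro w
  obtain ⟨y, hy⟩ := hsur ((NSDefs_966.e (-t))⁻¹ * w)
  refine ⟨y, ?_⟩
  change NSDefs_966.e (-t) * (fderiv ℝ ((fam1 S D v).K 0) z) y = w
  rw [hy, ← mul_assoc, mul_inv_cancel₀ hne, one_mul]

/-! ### formal conditions -/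

section Ok

theorem Sp_15 (y : ℝ) : Sp (y + 15) = Sp y + 15 := by
  have := Sp_add_int y 15
  push_cast at this
  exact this

theorem contDiff_Sp : ContDiff ℝ 2 Sp := by
  have : Sp = hx Nw := funext fun y => (hx_Nw y).symm
  rw [this]
  exact contDiff_hx Nw

theorem kwc (S : NS m) : ContDiff ℝ 2 fun z : ℝ × ℝ × ℝ => kw (K1 S) z.2.1 z.2.2 :=
  (contDiff_kw (K1 S)).comp contDiff_snd

theorem wcc (hD : DOk D) : ContDiff ℝ 2 fun z : ℝ × ℝ × ℝ => WC D v z.2.1 z.2.2 :=
  (contDiff_WC hD).comp contDiff_snd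

theorem WC_x (hD : DOk D) (x y : ℝ) : WC D v (x + ((D.M v.castSucc : ℝ) + 1)) y = WC D v x y := by
  unfold WC WW
  have hM : (0 : ℝ) < (D.M v.castSucc : ℝ) + 1 := by positivity
  have e1 : 2 * Real.pi * (x + ((D.M v.castSucc : ℝ) + 1)) / (D.M v.castSucc + 1) =
      2 * Real.pi * x / (D.M v.castSucc + 1) + 2 * Real.pi := by
    field_simp
  rw [e1]
  refine Finset.sum_congr rfl fun e he => ?_
  have he' := (Finset.mem_filter.1 he).2
  rw [(winA_ww hD (mem_v he')).per]

theorem WC_y (hD : DOk D) (x y : ℝ) : WC D v x (y + 15) = WC D v x y := by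
  unfold WC WW
  have e1 : 2 * Real.pi * (y + 15) / (14 + 1) = 2 * Real.pi * y / (14 + 1) + 2 * Real.pi := by
    ring
  rw [e1]
  refine Finset.sum_congr rfl fun e he => ?_
  have he' := (Finset.mem_filter.1 he).2
  rw [(winA_ww hD (mem_3 he')).per]

theorem kwx (hS : S.Ok) (x y : ℝ) : kw (K1 S) (x + S.n) y = kw (K1 S) x y := by
  have := kw_per_x (K := K1 S) (n := (S.n : ℤ)) (fun k l => K1_n hS k l) x y
  push_cast at this
  exact this

theorem kwy (hS : S.Ok) (x y : ℝ) : kw (K1 S) x (y + 15) = kw (K1 S) x y := by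
  have := kw_per_y (K := K1 S) (n := 15) (fun k l => K1_15 hS k l) x y
  push_cast at this
  exact this

/-- formal conditions of a family with one coupling -/
theorem uni_ok {n : ℕ} {q p : ℝ × ℝ → ℝ} {c : ℝ × ℝ × ℝ → ℝ} {r : ℝ → ℝ} (hn : 0 < n)
    (hq : ContDiff ℝ 2 q) (hp : ContDiff ℝ 2 p) (hc : ContDiff ℝ 2 c) (hr : ContDiff ℝ 2 r)
    (pq : ∀ t y, q (t, y + 15) = q (t, y) + 15) (pp : ∀ t x, p (t, x + n) = p (t, x) + 15)
    (cx : ∀ t x y, c (t, x + n, y) = c (t, x, y)) (cy : ∀ t x y, c (t, x, y + 15) = c (t, x, y)) :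
    (uni n q p c r).Ok where
  hn := hn
  cq := hq
  ccv := contDiff_const
  cp := hp
  cc := fun _ => hc
  cψ := fun _ => hr.comp contDiff_fst
  pq := pq
  pp := pp
  hcv := fun _ _ => one_pos
  hE := fun _ => by
    change (1 : ℝ) ≤ 15 / 2 ∧ (15 / 2 : ℝ) ≤ 14
    constructor <;> norm_num
  pcx := fun _ t x y => cx t x y
  pcy := fun _ t x y => cy t x y
  pψx := fun _ => ⟨0, fun t x y => by simp [uni]⟩
  pψy := fun _ => ⟨0, fun t x y => by simp [uni]⟩

theorem okR (hS : S.Ok) (hM : Match S D v) : (famR S).Ok := by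
  have hv := circ_v hS hM
  have hn : (S.n : ℝ) = (D.M v.castSucc : ℝ) + 1 := by rw [hM.n]; push_cast; ring
  refine uni_ok hS.hn (((contDiff_Sp.comp contDiff_snd).add contDiff_const).sub contDiff_fst)
    ((((contDiff_hx _).comp contDiff_snd).add contDiff_const).sub contDiff_fst)
    (contDiff_const.mul (kwc S)) (contDiff_const.sub contDiff_id) ?_ ?_ ?_ ?_
  · intro t y
    change Sp (y + 15) + 1 / 2 - t = Sp y + 1 / 2 - t + 15
    rw [Sp_15]
    ring
  · intro t x
    change hx (Nv S) (x + S.n) + 1 / 2 - t = hx (Nv S) x + 1 / 2 - t + 15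
    have := pE_per hv x
    unfold pE at this
    rw [hn]
    linarith
  · intro t x y
    change 5 * kw (K1 S) (x + S.n) y = 5 * kw (K1 S) x y
    rw [kwx hS]
  · intro t x y
    change 5 * kw (K1 S) x (y + 15) = 5 * kw (K1 S) x y
    rw [kwy hS]

theorem ok1 (hS : S.Ok) (hD : DOk D) (hM : Match S D v) : (fam1 S D v).Ok := by
  have hv := circ_v hS hM
  have hw := circ_w hD
  have hn : (S.n : ℝ) = (D.M v.castSucc : ℝ) + 1 := by rw [hM.n]; push_cast; ring
  refine uni_ok hS.hn ((contDiff_pE _).comp contDiff_snd) ((contDiff_pE _).comp contDiff_snd)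
    (contDiff_const.mul (((contDiff_const.sub contDiff_fst).mul (kwc S)).add
      (contDiff_fst.mul (wcc hD)))) contDiff_const ?_ ?_ ?_ ?_
  · intro t y
    have := pE_per hw y
    push_cast at this
    norm_num at this
    exact this
  · intro t x
    change pE (Nv S) (x + S.n) = pE (Nv S) x + 15
    rw [hn]
    exact pE_per hv x
  · intro t x y
    change 5 * ((1 - t) * kw (K1 S) (x + S.n) y + t * WC D v (x + S.n) y) =
      5 * ((1 - t) * kw (K1 S) x y + t * WC D v x y)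
    rw [kwx hS, hn, WC_x hD]
  · intro t x y
    change 5 * ((1 - t) * kw (K1 S) x (y + 15) + t * WC D v x (y + 15)) =
      5 * ((1 - t) * kw (K1 S) x y + t * WC D v x y)
    rw [kwy hS, WC_y hD]

theorem ok2 (hS : S.Ok) (hD : DOk D) (hM : Match S D v) : (fam2 S D v).Ok := by
  have hv := circ_v hS hM
  have hw := circ_w hD
  have hn : (S.n : ℝ) = (D.M v.castSucc : ℝ) + 1 := by rw [hM.n]; push_cast; ring
  refine uni_ok hS.hn (contDiff_pm _ _ _) (contDiff_pm _ _ _)
    (contDiff_const.mul (wcc hD)) contDiff_const ?_ ?_ ?_ ?_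
  · intro t y
    have := pm_per hw t y
    push_cast at this
    norm_num at this
    exact this
  · intro t x
    change pm (D.sn v.castSucc) (D.M v.castSucc) (Nv S) t (x + S.n) =
      pm (D.sn v.castSucc) (D.M v.castSucc) (Nv S) t x + 15
    rw [hn]
    exact pm_per hv t x
  · intro t x y
    change 5 * WC D v (x + S.n) y = 5 * WC D v x y
    rw [hn, WC_x hD]
  · intro t x y
    change 5 * WC D v x (y + 15) = 5 * WC D v x y
    rw [WC_y hD]

end Ok

/-! ### splices -/

theorem h_uni (n : ℕ) (q p : ℝ × ℝ → ℝ) (c : ℝ × ℝ × ℝ → ℝ) (r : ℝ → ℝ) (u0 W t : ℝ)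
    (z : ℝ × ℝ × ℝ) : (uni n q p c r).h u0 W t z =
    ((ca u0 z.2.1 * z.2.1 ^ 15 : ℝ) : ℂ) *
      NSDefs_966.e (cb W z.2.1 * q (t, 15 * z.2.2 / (2 * Real.pi)) +
        (1 - cb W z.2.1) * (15 * z.2.2 / (2 * Real.pi))) +
    (cb W z.2.1 : ℂ) * (NSDefs_966.e (p (t, n * z.1 / (2 * Real.pi))) +
      (ca u0 z.2.1 : ℂ) * (((c (t, n * z.1 / (2 * Real.pi), 15 * z.2.2 / (2 * Real.pi)) *
        Real.exp (15 / 2 * Real.log z.2.1) : ℝ) : ℂ) * NSDefs_966.e (r t))) := by
  unfold PD.h PD.mid uni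
  simp

theorem splice0 (u0 W : ℝ) : S.fin.h u0 W 0 = (famR S).h u0 W 0 := by
  funext z
  unfold famR
  rw [h_uni]
  unfold PD.h PD.mid NS.fin
  simp only [hat_eq, kl_eq]
  simp

theorem splice1 (u0 W : ℝ) : (famR S).h u0 W 1 = (fam1 S D v).h u0 W 0 := by
  funext z
  unfold famR fam1
  rw [h_uni, h_uni]
  have a1 : ∀ y : ℝ, Sp y + 1 / 2 - 1 = pE Nw y := by
    intro y
    unfold pE
    rw [hx_Nw, Nw_zero]
    push_cast
    ring
  have a2 : ∀ x : ℝ, NSDefs_966.e (hx (Nv S) x + 1 / 2 - 1) = NSDefs_966.e (pE (Nv S) x) := by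
    intro x
    have : hx (Nv S) x + 1 / 2 - 1 = pE (Nv S) x + ((Nv S 0 : ℤ) : ℝ) := by
      unfold pE
      ring
    rw [this, e_add, e_int, mul_one]
  have a3 : (1 / 2 - 1 : ℝ) = -(1 / 2) := by norm_num
  simp only [a1, a2, a3, sub_zero, one_mul, zero_mul, add_zero]

theorem splice2 (u0 W : ℝ) : (fam1 S D v).h u0 W 1 = (fam2 S D v).h u0 W 0 := by
  funext z
  unfold fam1 fam2
  rw [h_uni, h_uni]
  have hpm : ∀ (e : ℕ → ℝ) (M : ℕ) (N : ℤ → ℤ) (x : ℝ), pm e M N 0 x = pE N x := by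
    intro e M N x
    unfold pm
    ring
  simp only [hpm, sub_self, zero_mul, zero_add, one_mul]

theorem splice3 (hM : Match S D v) (hD : DOk D) {u0 : ℝ} (hu0 : 0 < u0) (W : ℝ) :
    (fam2 S D v).h u0 W 1 = HE D v u0 W := by
  funext z
  obtain ⟨θ, u, ω⟩ := z
  unfold fam2
  rw [h_uni]
  unfold HE
  have hpi := Real.pi_pos
  have hn : (S.n : ℝ) = (D.M v.castSucc : ℝ) + 1 := by rw [hM.n]; push_cast; ring
  have hMp : (0 : ℝ) < (D.M v.castSucc : ℝ) + 1 := by positivity
  have hpm : ∀ (e : ℕ → ℝ) (M : ℕ) (N : ℤ → ℤ) (x : ℝ), pm e M N 1 x = pT e M x := by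
    intro e M N x
    unfold pm
    ring
  have hecis : ∀ x : ℝ, NSDefs_966.e (x / (2 * Real.pi)) = Ang_739.cis x := by
    intro x
    rw [e_eq]
    unfold ce Ang_739.cis
    congr 2
    have : 2 * Real.pi * (x / (2 * Real.pi)) = x := by field_simp
    rw [this]
  have a1 : pT (D.sn 3) 14 (15 * ω / (2 * Real.pi)) = pp D 3 ω / (2 * Real.pi) := by
    unfold pT pp
    rw [hD.hM3]
    congr 2
    push_cast
    field_simp
    ring
  have a2 : pT (D.sn v.castSucc) (D.M v.castSucc) (S.n * θ / (2 * Real.pi)) =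
      pp D v.castSucc θ / (2 * Real.pi) := by
    unfold pT pp
    rw [hn]
    congr 2
    field_simp
  have a3 : WC D v (S.n * θ / (2 * Real.pi)) (15 * ω / (2 * Real.pi)) = WW D v θ ω := by
    unfold WC
    rw [hn]
    congr 1
    · field_simp
    · field_simp
      ring
  simp only [hpm, a1, a2, a3, e_neg_half, hecis]
  have a4 : cb W u * (pp D 3 ω / (2 * Real.pi)) + (1 - cb W u) * (15 * ω / (2 * Real.pi)) =
      (cb W u * pp D 3 ω + (1 - cb W u) * (15 * ω)) / (2 * Real.pi) := by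
    ring
  rw [a4, hecis]
  rcases le_or_gt u (u0 / 2) with hu | hu
  · have hca : ca u0 u = 0 := by
      unfold ca
      refine st_of_le ?_
      rw [sub_nonpos, div_le_one hu0]
      linarith
    rw [hca]
    simp
  · have hup : 0 < u := by linarith
    have a5 : Real.exp (15 / 2 * Real.log u) = u ^ (15 / 2 : ℝ) := by
      rw [Real.rpow_def_of_pos hup, mul_comm]
    rw [a5]
    push_cast
    ring

/-- **EXIT, first half.** -/
theorem exitA (hL : LiftPD) (hS : S.Ok) (hD : DOk D) (hM : Match S D v) (b : Bool) :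
    ∃ u1 : ℝ, 0 < u1 ∧ ∃ W1 : ℝ, u1 ≤ W1 ∧ ∀ u0 W : ℝ, 0 < u0 → u0 ≤ u1 → W1 ≤ W →
      AEq b v (PA b v (S.fin.h u0 W 0)) (PA b v (HE D v u0 W)) := by
  obtain ⟨u1, h1, W1, h1', H1⟩ := hL Unit (famR S) (okR hS hM) (regR hS hD hM)
  obtain ⟨u2, h2, W2, h2', H2⟩ := hL Unit (fam1 S D v) (ok1 hS hD hM) (reg1 hS hD hM)
  obtain ⟨u3, h3, W3, h3', H3⟩ := hL Unit (fam2 S D v) (ok2 hS hD hM) (reg2 hS hD hM)
  refine ⟨min u1 (min u2 u3), lt_min h1 (lt_min h2 h3), max W1 (max W2 W3), ?_, ?_⟩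
  · exact (min_le_left _ _).trans (h1'.trans (le_max_left _ _))
  · intro u0 W hu0 hu hW
    have a1 := H1 u0 W hu0 (hu.trans (min_le_left _ _)) ((le_max_left _ _).trans hW) b v
    have a2 := H2 u0 W hu0 (hu.trans ((min_le_right _ _).trans (min_le_left _ _)))
      ((le_max_left _ _).trans ((le_max_right _ _).trans hW)) b v
    have a3 := H3 u0 W hu0 (hu.trans ((min_le_right _ _).trans (min_le_right _ _)))
      ((le_max_right _ _).trans ((le_max_right _ _).trans hW)) b v
    rw [← splice0, splice1 (D := D) (v := v)] at a1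
    rw [splice2] at a2
    rw [splice3 hM hD hu0] at a3
    exact ((Relation.ReflTransGen.single a1).tail a2).tail a3

end Crest.Agent.R267.ArmExC_649
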