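import Mathlib

/-!
# Graph systems, set level (row 267, DRAFT B): definitions

Base: closed unit ball of a finite dimensional normed space `B` (dimension `n`), fibre: an inner
product space `V` (dimension `n + 1`) with a unit vector `e` (the height direction),
`H = {v | ⟪e, v⟫ = 0}`. Ambient space `B × V` of dimension `2n + 1`.
-/

set_option autoImplicit false

namespace Crest.Agent.R267.GS_808

open Set Metric
open scoped RealInnerProductSpace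

variable {B V : Type*} [NormedAddCommGroup B] [NormedSpace ℝ B]
  [NormedAddCommGroup V] [InnerProductSpace ℝ V]

/-- A graph system with `m` strands: cores `x k`, unit normals `nu k`, tube radius `r`, box
radius `R`. Only the values over `‖u‖ ≤ 1` matter (extend by the radial retraction). -/
structure Sys (B : Type*) {V : Type*} [NormedAddCommGroup B] [NormedSpace ℝ B]
    [NormedAddCommGroup V] [InnerProductSpace ℝ V] (e : V) (m : ℕ) where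
  x : Fin m → B → V
  nu : Fin m → B → V
  r : ℝ
  R : ℝ
  hr : 0 < r
  cx : ∀ k, Continuous (x k)
  cnu : ∀ k, Continuous (nu k)
  norm_nu : ∀ k u, ‖nu k u‖ = 1
  sep : ∀ k l u, k ≠ l → 2 * r < ‖x k u - x l u‖
  bd : ∀ k u, ‖x k u‖ + r < R
  wall_x : ∀ k u, 1 ≤ ‖u‖ → ⟪e, x k u⟫ = 0
  wall_nu : ∀ k u, 1 ≤ ‖u‖ → nu k u = e

variable {e : V} {m : ℕ}

/-- The link of a graph system: boundary of the page
`{⟪e, v⟫ = 0, 1 ≤ ‖u‖ or R ≤ ‖v‖} ∪ ⋃ k, {‖u‖ ≤ 1, ‖v - x k u‖ ≤ r, ⟪nu k u, v - x k u⟫ = 0}`. -/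
def Sys.K (G : Sys B e m) : Set (B × V) :=
  {p | (⟪e, p.2⟫ = 0 ∧ ‖p.1‖ = 1 ∧ ‖p.2‖ ≤ G.R ∧ ∀ k, G.r ≤ ‖p.2 - G.x k p.1‖) ∨
    (⟪e, p.2⟫ = 0 ∧ ‖p.1‖ ≤ 1 ∧ ‖p.2‖ = G.R) ∨
    ∃ k, ‖p.1‖ ≤ 1 ∧ ‖p.2 - G.x k p.1‖ = G.r ∧ ⟪G.nu k p.1, p.2 - G.x k p.1⟫ = 0}

/-- Equivalence of subsets of a space: a homeomorphism with compact support carries one to the
other. -/
def Eqv {X : Type*} [TopologicalSpace X] (K K' : Set X) : Prop :=
  ∃ h : X ≃ₜ X, (∃ C : Set X, IsCompact C ∧ ∀ p ∉ C, h p = p) ∧ ∀ p, p ∈ K ↔ h p ∈ K'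

lemma Eqv.refl {X : Type*} [TopologicalSpace X] (K : Set X) : Eqv K K :=
  ⟨Homeomorph.refl X, ⟨∅, isCompact_empty, fun _ _ => rfl⟩, fun _ => Iff.rfl⟩

lemma Eqv.trans {X : Type*} [TopologicalSpace X] {K K' K'' : Set X} (h : Eqv K K')
    (h' : Eqv K' K'') : Eqv K K'' := by
  obtain ⟨f, ⟨C, hC, hf⟩, hK⟩ := h
  obtain ⟨g, ⟨D, hD, hg⟩, hK'⟩ := h'
  refine ⟨f.trans g, ⟨C ∪ D, hC.union hD, fun p hp => ?_⟩, fun p => (hK p).trans (hK' _)⟩
  rw [mem_union, not_or] at hp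
  show g (f p) = p
  rw [hf p hp.1, hg p hp.2]

lemma Eqv.symm {X : Type*} [TopologicalSpace X] {K K' : Set X} (h : Eqv K K') : Eqv K' K := by
  obtain ⟨f, ⟨C, hC, hf⟩, hK⟩ := h
  refine ⟨f.symm, ⟨C, hC, fun p hp => ?_⟩, fun p => ?_⟩
  · rw [Homeomorph.symm_apply_eq, hf p hp]
  · rw [hK (f.symm p), Homeomorph.apply_symm_apply]

/-- Isotopy of graph systems (data only over the closed ball, no bounds, no radii). -/
def Isot (G G' : Sys B e m) : Prop :=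
  ∃ X N : Fin m → ℝ × B → V,
    (∀ k, ContinuousOn (X k) (Icc 0 1 ×ˢ closedBall 0 1)) ∧
    (∀ k, ContinuousOn (N k) (Icc 0 1 ×ˢ closedBall 0 1)) ∧
    (∀ k, ∀ t ∈ Icc (0 : ℝ) 1, ∀ u, ‖u‖ ≤ 1 → ‖N k (t, u)‖ = 1) ∧
    (∀ k l, k ≠ l → ∀ t ∈ Icc (0 : ℝ) 1, ∀ u, ‖u‖ ≤ 1 → X k (t, u) ≠ X l (t, u)) ∧
    (∀ k, ∀ t ∈ Icc (0 : ℝ) 1, ∀ u, ‖u‖ = 1 → ⟪e, X k (t, u)⟫ = 0 ∧ N k (t, u) = e) ∧
    (∀ k u, ‖u‖ ≤ 1 → X k (0, u) = G.x k u ∧ N k (0, u) = G.nu k u) ∧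
    (∀ k u, ‖u‖ ≤ 1 → X k (1, u) = G'.x k u ∧ N k (1, u) = G'.nu k u)


/-! ### the matrix of a system -/

/-- Free homotopy of maps of pairs `(ball, sphere) → (V \ 0, H \ 0)`. -/
def FH (e : V) (f g : B → V) : Prop :=
  ∃ F : ℝ × B → V, ContinuousOn F (Icc 0 1 ×ˢ closedBall 0 1) ∧
    (∀ t ∈ Icc (0 : ℝ) 1, ∀ u, ‖u‖ ≤ 1 → F (t, u) ≠ 0) ∧
    (∀ t ∈ Icc (0 : ℝ) 1, ∀ u, ‖u‖ = 1 → ⟪e, F (t, u)⟫ = 0) ∧
    (∀ u, ‖u‖ ≤ 1 → F (0, u) = f u) ∧ (∀ u, ‖u‖ ≤ 1 → F (1, u) = g u)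

/-- Homotopy of maps of pairs `(ball, sphere) → (V \ 0, e)`. -/
def FN (e : V) (f g : B → V) : Prop :=
  ∃ F : ℝ × B → V, ContinuousOn F (Icc 0 1 ×ˢ closedBall 0 1) ∧
    (∀ t ∈ Icc (0 : ℝ) 1, ∀ u, ‖u‖ ≤ 1 → F (t, u) ≠ 0) ∧
    (∀ t ∈ Icc (0 : ℝ) 1, ∀ u, ‖u‖ = 1 → F (t, u) = e) ∧
    (∀ u, ‖u‖ ≤ 1 → F (0, u) = f u) ∧ (∀ u, ‖u‖ ≤ 1 → F (1, u) = g u)

/-! #### standard coordinates -/

/-- the cube model of the base. -/
abbrev Bc (n : ℕ) := Fin n → ℝ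

/-- the fibre: the last coordinate is the height. -/
abbrev Vc (n : ℕ) := EuclideanSpace ℝ (Fin (n + 1))

/-- the height direction. -/
noncomputable def ec (n : ℕ) : Vc n := EuclideanSpace.single (Fin.last n) 1

/-- the horizontal rest direction (`n ≥ 1`). -/
noncomputable def hc (n : ℕ) : Vc (n + 1) := EuclideanSpace.single 0 1

/-- the point with horizontal part `u` and height `z`. -/
noncomputable def pt {n : ℕ} (u : Bc n) (z : ℝ) : Vc n :=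
  WithLp.toLp 2 (Fin.snoc (α := fun _ => ℝ) u z)

/-- the class `α`: once over the top. -/
noncomputable def al {n : ℕ} (u : Bc n) : Vc n := pt u (1 - ‖u‖)

/-- the class `γ` for normals. -/
noncomputable def ga {n : ℕ} (u : Bc n) : Vc n :=
  pt (-(4 * (1 - ‖u‖)) • u) (2 * ‖u‖ - 1)

/-- `u` lies on the rest part: some coordinate other than the first has absolute value `≥ 1`, or
the first coordinate is `≥ 1`. (The face `u 0 = -1` is the wall.) -/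
def RestAt {n : ℕ} (u : Bc (n + 1)) : Prop := 1 ≤ u 0 ∨ ∃ i, i ≠ 0 ∧ 1 ≤ |u i|

/-- left half (`s = u 1 ≤ 0`) of the cube blown up to the whole cube. -/
def blowL {n : ℕ} (u : Bc (n + 2)) : Bc (n + 2) := Function.update u 1 (2 * u 1 + 1)

/-- right half of the cube blown up to the whole cube. -/
def blowR {n : ℕ} (u : Bc (n + 2)) : Bc (n + 2) := Function.update u 1 (2 * u 1 - 1)

/-- concatenation in the direction `s = u 1`. -/
noncomputable def cat {n : ℕ} {X : Type*} (f g : Bc (n + 2) → X) (u : Bc (n + 2)) : X :=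
  if u 1 ≤ 0 then f (blowL u) else g (blowR u)

/-- reversal of `s = u 1`. -/
def rev {n : ℕ} {X : Type*} (f : Bc (n + 2) → X) (u : Bc (n + 2)) : X :=
  f (Function.update u 1 (-(u 1)))

/-- maps in rest form with rest value `y`. -/
def IsRest {n : ℕ} {X : Type*} (y : X) (f : Bc (n + 1) → X) : Prop := ∀ u, RestAt u → f u = y

/-- admissible difference maps: continuous, nonzero, horizontal on the sphere. -/
structure Adm (n : ℕ) (f : Bc n → Vc n) : Prop where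
  cont : Continuous f
  ne : ∀ u, f u ≠ 0
  hor : ∀ u, 1 ≤ ‖u‖ → ⟪ec n, f u⟫ = 0

/-- `Typ f a b`: the map of pairs `f` has class `α^a β^b` (`β = -α`). Only constructors: used to
produce homotopies. -/
inductive Typ (n : ℕ) : (Bc (n + 2) → Vc (n + 2)) → ℤ → ℤ → Prop
  | zero : Typ n (fun _ => hc (n + 1)) 0 0
  | al : Typ n al 1 0
  | be : Typ n (fun u => -al u) 0 1
  | congr {f g : Bc (n + 2) → Vc (n + 2)} {a b : ℤ} (h : Typ n f a b) (H : FH (ec (n + 2)) f g) :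
      Typ n g a b
  | cat {f g : Bc (n + 2) → Vc (n + 2)} {a b a' b' : ℤ} (y : Vc (n + 2))
      (hf : Adm (n + 2) f) (hg : Adm (n + 2) g) (rf : IsRest y f) (rg : IsRest y g)
      (h : Typ n f a b) (h' : Typ n g a' b') : Typ n (cat f g) (a + a') (b + b')
  | rev {f : Bc (n + 2) → Vc (n + 2)} {a b : ℤ} (y : Vc (n + 2)) (hf : Adm (n + 2) f)
      (rf : IsRest y f) (h : Typ n f a b) : Typ n (rev f) (-a) (-b)

/-- the same for normals: class `γ^c`. -/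
inductive TypN (n : ℕ) : (Bc (n + 2) → Vc (n + 2)) → ℤ → Prop
  | zero : TypN n (fun _ => ec (n + 2)) 0
  | ga : TypN n ga 1
  | congr {f g : Bc (n + 2) → Vc (n + 2)} {c : ℤ} (h : TypN n f c) (H : FN (ec (n + 2)) f g) :
      TypN n g c
  | cat {f g : Bc (n + 2) → Vc (n + 2)} {c c' : ℤ}
      (cf : Continuous f) (cg : Continuous g) (nf : ∀ u, f u ≠ 0) (ng : ∀ u, g u ≠ 0)
      (rf : ∀ u, 1 ≤ ‖u‖ → f u = ec (n + 2)) (rg : ∀ u, 1 ≤ ‖u‖ → g u = ec (n + 2))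
      (h : TypN n f c) (h' : TypN n g c') : TypN n (cat f g) (c + c')
  | rev {f : Bc (n + 2) → Vc (n + 2)} {c : ℤ} (cf : Continuous f) (nf : ∀ u, f u ≠ 0)
      (rf : ∀ u, 1 ≤ ‖u‖ → f u = ec (n + 2)) (h : TypN n f c) : TypN n (rev f) (-c)

/-- **the matrix of a system** (cube base of dimension `n + 2`). -/
def HasMat {n m : ℕ} (G : Sys (Bc (n + 2)) (ec (n + 2)) m) (A : Matrix (Fin m) (Fin m) ℤ) : Prop :=
  (∀ k l, l < k → Typ n (fun u => G.x k u - G.x l u) (A k l) (A l k)) ∧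
    ∀ k, TypN n (G.nu k) (A k k)

end Crest.Agent.R267.GS_808
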