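import Mathlib
import Crest.Agent.R267.GS_808

-- ▼ part R267/T2alg1_684
section

/-!
# T2alg1 (task 161, row 267): the moves `R_ij` generate `GL_mu(Z)`, `mu ≥ 3`

`Rm i j` = identity matrix with column `i` replaced by `e_j - e_i`.  For an index type `n` with at
least three elements every `P ∈ GL n ℤ` is a product of the matrices `Rm i j`; hence `A` and
`Pᵀ * A * P` are joined by a chain of moves `B = (Rm i j)ᵀ * B' * Rm i j`.
-/

set_option autoImplicit false
set_option linter.unusedSimpArgs false
set_option linter.unusedSectionVars false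

namespace Crest.Agent.R267.T2alg1_684

open Matrix

variable {n : Type*} [Fintype n] [DecidableEq n]

/-- identity matrix with column `i` replaced by `e_j - e_i`. -/
def Rm (i j : n) : Matrix n n ℤ := (1 : Matrix n n ℤ).updateCol i (Pi.single j 1 - Pi.single i 1)

/-- one move. -/
def Move (A B : Matrix n n ℤ) : Prop := ∃ i j : n, i ≠ j ∧ B = (Rm i j)ᵀ * A * Rm i j

lemma Rm_apply (i j r c : n) : Rm i j r c =
    if c = i then (if r = j then 1 else 0) - (if r = i then 1 else 0) else if r = c then 1 else 0 := by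
  unfold Rm
  rw [Matrix.updateCol_apply]
  split_ifs <;> simp_all [Pi.single_apply, Matrix.one_apply]

lemma Rm_mulVec (i j : n) (v : n → ℤ) (k : n) : (Rm i j *ᵥ v) k =
    (if k = i then 0 else v k) + (if k = j then v i else 0) - (if k = i then v i else 0) := by
  have h : ∀ c, Rm i j k c * v c = (if c = i then ((if k = j then v i else 0) - (if k = i then v i else 0)) else 0)
      + (if k = c then (if k = i then 0 else v k) else 0) := by
    intro c
    rw [Rm_apply]
    by_cases h1 : c = i
    · subst h1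
      by_cases h2 : k = c
      · subst h2; split_ifs <;> ring
      · simp only [h2, if_false, if_true]; split_ifs <;> ring
    · by_cases h2 : k = c
      · subst h2; simp [h1]
      · simp [h1, h2]
  simp only [Matrix.mulVec, dotProduct]
  rw [Finset.sum_congr rfl (fun c _ => h c), Finset.sum_add_distrib, Finset.sum_ite_eq' Finset.univ i,
    Finset.sum_ite_eq Finset.univ k]
  simp only [Finset.mem_univ, if_true]
  ring

lemma trans_mulVec (i j : n) (c : ℤ) (v : n → ℤ) (k : n) :
    (Matrix.transvection i j c *ᵥ v) k = v k + (if k = i then c * v j else 0) := by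
  unfold Matrix.transvection
  rw [Matrix.add_mulVec, Matrix.one_mulVec, Pi.add_apply]
  congr 1
  by_cases h : k = i
  · subst h; simp [Matrix.single_mulVec]
  · simp [Matrix.single_mulVec, h, Ne.symm h, Function.update_apply]

lemma mat_ext {A B : Matrix n n ℤ} (h : ∀ v : n → ℤ, ∀ k, (A *ᵥ v) k = (B *ᵥ v) k) : A = B := by
  apply Matrix.toLin'.injective
  apply LinearMap.ext
  intro v
  funext k
  exact h v k

lemma Rm_sq {i j : n} (h : i ≠ j) : Rm i j * Rm i j = 1 := by
  apply mat_ext
  intro v k
  rw [← Matrix.mulVec_mulVec, Rm_mulVec, Matrix.one_mulVec]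
  simp only [Rm_mulVec]
  by_cases h1 : k = i
  · subst h1; simp [h]
  · by_cases h2 : k = j
    · subst h2; simp [h1, h]
    · simp [h1, h2]

/-- the transvection `e_i ↦ e_i - e_j` as a product of four moves. -/
lemma Rm_trans {i j k : n} (hij : i ≠ j) (hik : i ≠ k) (hjk : j ≠ k) :
    Rm j k * (Rm i k * (Rm i j * Rm j k)) = Matrix.transvection j i (-1) := by
  apply mat_ext
  intro v r
  rw [← Matrix.mulVec_mulVec, ← Matrix.mulVec_mulVec, ← Matrix.mulVec_mulVec, trans_mulVec]
  simp only [Rm_mulVec]
  by_cases h1 : r = i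
  · subst h1; simp [hij, hik, hij.symm, hik.symm]
  · by_cases h2 : r = j
    · subst h2; simp [h1, hij, hik, hjk, hij.symm, hik.symm, hjk.symm]; ring
    · by_cases h3 : r = k
      · subst h3; simp [h1, h2, hij, hik, hjk, hij.symm, hik.symm, hjk.symm]; ring
      · simp [h1, h2, h3]

/-! ### units -/

/-- transvection as a unit. -/
def TU (i j : n) (h : i ≠ j) (c : ℤ) : (Matrix n n ℤ)ˣ where
  val := Matrix.transvection i j c
  inv := Matrix.transvection i j (-c)
  val_inv := by rw [Matrix.transvection_mul_transvection_same _ _ h]; simp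
  inv_val := by rw [Matrix.transvection_mul_transvection_same _ _ h]; simp

/-- sign change as a unit. -/
def SU (i : n) : (Matrix n n ℤ)ˣ where
  val := Matrix.diagonal (Function.update (fun _ => 1) i (-1))
  inv := Matrix.diagonal (Function.update (fun _ => 1) i (-1))
  val_inv := by
    rw [Matrix.diagonal_mul_diagonal, ← Matrix.diagonal_one]
    congr 1; funext k
    by_cases h : k = i
    · subst h; simp
    · simp [Function.update_apply, h]
  inv_val := by
    rw [Matrix.diagonal_mul_diagonal, ← Matrix.diagonal_one]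
    congr 1; funext k
    by_cases h : k = i
    · subst h; simp
    · simp [Function.update_apply, h]

/-- `Rm` as a unit. -/
def RU (i j : n) (h : i ≠ j) : (Matrix n n ℤ)ˣ where
  val := Rm i j
  inv := Rm i j
  val_inv := Rm_sq h
  inv_val := Rm_sq h

lemma TU_mul (i j : n) (h : i ≠ j) (c d : ℤ) : TU i j h c * TU i j h d = TU i j h (c + d) := by
  ext1
  exact Matrix.transvection_mul_transvection_same _ _ h _ _

lemma TU_zero (i j : n) (h : i ≠ j) : TU i j h 0 = 1 := by
  ext1
  exact Matrix.transvection_zero _ _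

lemma TU_inv (i j : n) (h : i ≠ j) (c : ℤ) : (TU i j h c)⁻¹ = TU i j h (-c) := by
  rw [inv_eq_iff_mul_eq_one, TU_mul]; simp [TU_zero]

lemma TU_mem_of_one (H : Subgroup (Matrix n n ℤ)ˣ) (i j : n) (h : i ≠ j)
    (h1 : TU i j h (-1) ∈ H) (c : ℤ) : TU i j h c ∈ H := by
  have h2 : TU i j h 1 ∈ H := by
    have := H.inv_mem h1
    rwa [TU_inv, neg_neg] at this
  induction c using Int.induction_on with
  | zero => rw [TU_zero]; exact H.one_mem
  | succ k ih => rw [← TU_mul]; exact H.mul_mem ih h2
  | pred k ih => rw [sub_eq_add_neg, ← TU_mul]; exact H.mul_mem ih h1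

/-! ### left and right multiplication by transvections -/

lemma TU_mul_apply (i j : n) (h : i ≠ j) (c : ℤ) (P : (Matrix n n ℤ)ˣ) (r k : n) :
    (TU i j h c * P).val r k = P.val r k + (if r = i then c * P.val j k else 0) := by
  show (Matrix.transvection i j c * P.val) r k = _
  by_cases h1 : r = i
  · subst h1; simp
  · simp [h1]

lemma mul_TU_apply (i j : n) (h : i ≠ j) (c : ℤ) (P : (Matrix n n ℤ)ˣ) (r k : n) :
    (P * TU i j h c).val r k = P.val r k + (if k = j then c * P.val r i else 0) := by
  show (P.val * Matrix.transvection i j c) r k = _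
  by_cases h1 : k = j
  · subst h1; simp
  · simp [h1]

lemma SU_mul_apply (i : n) (P : (Matrix n n ℤ)ˣ) (r k : n) :
    (SU i * P).val r k = if r = i then - P.val r k else P.val r k := by
  show ((Matrix.diagonal (Function.update (fun _ => (1:ℤ)) i (-1))) * P.val) r k = _
  rw [Matrix.diagonal_mul]
  by_cases h1 : r = i
  · subst h1; simp
  · simp [Function.update_apply, h1]

/-- `P` is the identity outside `s`. -/
def Triv (s : Finset n) (P : Matrix n n ℤ) : Prop :=
  ∀ k, k ∉ s → (∀ i, P i k = if i = k then 1 else 0) ∧ (∀ i, P k i = if k = i then 1 else 0)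

variable (H : Subgroup (Matrix n n ℤ)ˣ)
  (hT : ∀ (i j : n) (h : i ≠ j) (c : ℤ), TU i j h c ∈ H) (hS : ∀ i, SU i ∈ H)

include hT in
/-- clearing row `a`. -/
lemma row_step (s : Finset n) (a : n) (ha : a ∉ s)
    (ih : ∀ P : (Matrix n n ℤ)ˣ, Triv s P.val → P ∈ H) :
    ∀ (N : ℕ) (P : (Matrix n n ℤ)ˣ), Triv (insert a s) P.val →
      (∀ i, P.val i a = if i = a then 1 else 0) →
      (Finset.univ.filter fun j => j ≠ a ∧ P.val a j ≠ 0).card = N → P ∈ H := by
  intro N
  induction N using Nat.strong_induction_on with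
  | _ N IH =>
    intro P hP hcol hN
    by_cases hz : ∀ j, j ≠ a → P.val a j = 0
    · apply ih
      intro k hk
      by_cases hka : k = a
      · subst hka
        refine ⟨hcol, fun i => ?_⟩
        by_cases h1 : k = i
        · subst h1; simpa using hcol k
        · rw [hz i (Ne.symm h1), if_neg h1]
      · exact hP k (by simp [hka, hk])
    · push Not at hz
      obtain ⟨j, hja, hj⟩ := hz
      have hjs : j ∈ insert a s := by
        by_contra hcon
        have := (hP j hcon).1 a
        rw [if_neg (Ne.symm hja)] at this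
        exact hj this
      have key : P * TU a j (Ne.symm hja) (-P.val a j) ∈ H := by
        refine IH _ ?_ _ ?_ ?_ rfl
        · rw [← hN]
          apply Finset.card_lt_card
          rw [Finset.ssubset_iff_of_subset]
          · refine ⟨j, by simp [hja, hj], ?_⟩
            simp only [Finset.mem_filter, Finset.mem_univ, true_and, not_and, not_not, mul_TU_apply,
              if_true]
            intro _
            have := hcol a
            rw [if_pos rfl] at this
            rw [this]; ring
          · intro k hk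
            simp only [Finset.mem_filter, Finset.mem_univ, true_and, mul_TU_apply] at hk ⊢
            refine ⟨hk.1, ?_⟩
            by_cases hkj : k = j
            · subst hkj; exact hj
            · have := hk.2
              rwa [if_neg hkj, add_zero] at this
        · intro k hk
          have hkj : k ≠ j := fun h => hk (h ▸ hjs)
          have hka : k ≠ a := fun h => hk (by simp [h])
          refine ⟨fun i => ?_, fun i => ?_⟩
          · rw [mul_TU_apply, if_neg hkj, add_zero]; exact (hP k hk).1 i
          · rw [mul_TU_apply, hcol k, if_neg hka, mul_zero, ite_self, add_zero]; exact (hP k hk).2 i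
        · intro i
          rw [mul_TU_apply, if_neg (Ne.symm hja), add_zero]; exact hcol i
      have h2 := H.mul_mem key (hT a j (Ne.symm hja) (P.val a j))
      rwa [mul_assoc, TU_mul, neg_add_cancel, TU_zero, mul_one] at h2

lemma Triv_TU {s : Finset n} {P : (Matrix n n ℤ)ˣ} (hP : Triv s P.val) (i j : n) (h : i ≠ j)
    (hi : i ∈ s) (hj : j ∈ s) (c : ℤ) : Triv s (TU i j h c * P).val := by
  intro k hk
  have hki : k ≠ i := fun h => hk (h ▸ hi)
  have hkj : k ≠ j := fun h => hk (h ▸ hj)
  refine ⟨fun r => ?_, fun r => ?_⟩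
  · rw [TU_mul_apply, (hP k hk).1 r, (hP k hk).1 j, if_neg (Ne.symm hkj), mul_zero, ite_self, add_zero]
  · rw [TU_mul_apply, if_neg hki, add_zero]; exact (hP k hk).2 r

lemma Triv_SU {s : Finset n} {P : (Matrix n n ℤ)ˣ} (hP : Triv s P.val) (i : n)
    (hi : i ∈ s) : Triv s (SU i * P).val := by
  intro k hk
  have hki : k ≠ i := fun h => hk (h ▸ hi)
  refine ⟨fun r => ?_, fun r => ?_⟩
  · rw [SU_mul_apply, (hP k hk).1 r]
    by_cases h1 : r = i
    · subst h1; simp [Ne.symm hki]
    · simp [h1]
  · rw [SU_mul_apply, if_neg hki]; exact (hP k hk).2 r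

include hT hS in
lemma col_step (s : Finset n) (a : n) (ha : a ∉ s)
    (ih : ∀ P : (Matrix n n ℤ)ˣ, Triv s P.val → P ∈ H) :
    ∀ (N : ℕ) (P : (Matrix n n ℤ)ˣ), Triv (insert a s) P.val →
      (∑ i, (P.val i a).natAbs) = N → P ∈ H := by
  have fin : ∀ P : (Matrix n n ℤ)ˣ, Triv (insert a s) P.val →
      (∀ i, P.val i a = if i = a then 1 else 0) → P ∈ H :=
    fun P h1 h2 => row_step H hT s a ha ih _ P h1 h2 rfl
  have cancel : ∀ (i j : n) (h : i ≠ j) (c : ℤ) (P : (Matrix n n ℤ)ˣ), TU i j h c * P ∈ H → P ∈ H := by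
    intro i j h c P hP
    exact (H.mul_mem_cancel_left (hT i j h c)).1 hP
  have cancelS : ∀ (i : n) (P : (Matrix n n ℤ)ˣ), SU i * P ∈ H → P ∈ H := by
    intro i P hP
    exact (H.mul_mem_cancel_left (hS i)).1 hP
  have hself : a ∈ insert a s := Finset.mem_insert_self a s
  have mems : ∀ (P : (Matrix n n ℤ)ˣ), Triv (insert a s) P.val → ∀ i, P.val i a ≠ 0 → i ∈ insert a s := by
    intro P hP i hi
    by_contra hcon
    have := (hP i hcon).2 a
    have hia : i ≠ a := fun h => hcon (by simp [h])
    rw [if_neg hia] at this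
    exact hi this
  intro N
  induction N using Nat.strong_induction_on with
  | _ N IH =>
    intro P hP hN
    by_cases hz : ∃ i j, i ≠ j ∧ P.val i a ≠ 0 ∧ P.val j a ≠ 0
    · -- wlog |P j a| ≤ |P i a|
      have hz' : ∃ i j, i ≠ j ∧ P.val i a ≠ 0 ∧ P.val j a ≠ 0 ∧
          (P.val j a).natAbs ≤ (P.val i a).natAbs := by
        obtain ⟨i, j, hij, hi, hj⟩ := hz
        rcases le_total (P.val j a).natAbs (P.val i a).natAbs with h | h
        · exact ⟨i, j, hij, hi, hj, h⟩
        · exact ⟨j, i, hij.symm, hj, hi, h⟩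
      obtain ⟨i, j, hij, hi, hj, hle⟩ := hz'
      have hc : ∃ c : ℤ, (P.val i a + c * P.val j a).natAbs < (P.val i a).natAbs := by
        rcases lt_or_gt_of_ne hi with h1 | h1 <;> rcases lt_or_gt_of_ne hj with h2 | h2
        · exact ⟨-1, by omega⟩
        · exact ⟨1, by omega⟩
        · exact ⟨1, by omega⟩
        · exact ⟨-1, by omega⟩
      obtain ⟨c, hc⟩ := hc
      apply cancel i j hij c
      refine IH _ ?_ _ (Triv_TU hP i j hij (mems P hP i hi) (mems P hP j hj) c) rfl
      rw [← hN]
      apply Finset.sum_lt_sum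
      · intro r _
        rw [TU_mul_apply]
        by_cases h1 : r = i
        · subst h1; rw [if_pos rfl]; exact hc.le
        · rw [if_neg h1, add_zero]
      · refine ⟨i, Finset.mem_univ _, ?_⟩
        rw [TU_mul_apply, if_pos rfl]; exact hc
    · push Not at hz
      -- exactly one nonzero entry
      have hinv : ∑ i, (P⁻¹ : (Matrix n n ℤ)ˣ).val a i * P.val i a = 1 := by
        have h1 : (P⁻¹ : (Matrix n n ℤ)ˣ).val * P.val = 1 := P.inv_val
        have h2 := congrFun (congrFun h1 a) a
        rw [Matrix.mul_apply, Matrix.one_apply_eq] at h2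
        exact h2
      have hex : ∃ i0, P.val i0 a ≠ 0 := by
        by_contra hcon
        push Not at hcon
        rw [Finset.sum_eq_zero (fun i _ => by rw [hcon i, mul_zero])] at hinv
        exact zero_ne_one hinv
      obtain ⟨i0, hi0⟩ := hex
      have hoth : ∀ i, i ≠ i0 → P.val i a = 0 := by
        intro i hi
        by_contra hcon
        exact (hz i i0 hi hcon) |> fun h => hi0 h
      have hu : IsUnit (P.val i0 a) := by
        rw [Finset.sum_eq_single i0 (fun i _ hi => by rw [hoth i hi, mul_zero])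
          (fun h => absurd (Finset.mem_univ _) h)] at hinv
        exact IsUnit.of_mul_eq_one_right _ hinv
      have hpm := Int.isUnit_iff.1 hu
      by_cases hia : i0 = a
      · subst hia
        rcases hpm with h1 | h1
        · refine fin P hP fun i => ?_
          by_cases hi : i = i0
          · subst hi; simpa using h1
          · rw [if_neg hi]; exact hoth i hi
        · apply cancelS i0
          refine fin _ (Triv_SU hP i0 hself) fun i => ?_
          rw [SU_mul_apply]
          by_cases hi : i = i0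
          · subst hi; simp [h1]
          · rw [if_neg hi, if_neg hi]; exact hoth i hi
      · have hmem : i0 ∈ insert a s := mems P hP i0 hi0
        apply cancel a i0 (Ne.symm hia) (P.val i0 a)
        have hT1 := Triv_TU hP a i0 (Ne.symm hia) hself hmem (P.val i0 a)
        apply cancel i0 a hia (-P.val i0 a)
        refine fin _ (Triv_TU hT1 i0 a hia hmem hself _) fun i => ?_
        have e1 : ∀ r, (TU a i0 (Ne.symm hia) (P.val i0 a) * P).val r a =
            P.val r a + if r = a then P.val i0 a * P.val i0 a else 0 := fun r => TU_mul_apply _ _ _ _ _ _ _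
        have e2 : P.val i0 a * P.val i0 a = 1 := by
          rcases hpm with h1 | h1 <;> rw [h1] <;> norm_num
        rw [TU_mul_apply, e1, e1, e2, hoth a (Ne.symm hia)]
        by_cases hi : i = a
        · subst hi; simp [Ne.symm hia, hoth i (Ne.symm hia)]
        · by_cases hi' : i = i0
          · subst hi'; simp [hi]
          · simp [hi, hi', hoth i hi']

include hT hS in
/-- elementary matrices and sign changes generate `GL n ℤ`. -/
theorem gen_aux (s : Finset n) : ∀ P : (Matrix n n ℤ)ˣ, Triv s P.val → P ∈ H := by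
  induction s using Finset.induction_on with
  | empty =>
    intro P hP
    have : P = 1 := by
      ext i k
      rw [(hP k (Finset.notMem_empty k)).1 i]
      simp [Matrix.one_apply]
    rw [this]; exact H.one_mem
  | insert a s ha ih => exact fun P hP => col_step H hT hS s a ha ih _ P hP rfl

include hT hS in
theorem gen : H = ⊤ := by
  rw [Subgroup.eq_top_iff']
  exact fun P => gen_aux H hT hS Finset.univ P fun k hk => absurd (Finset.mem_univ k) hk

/-- **the moves `R_ij` generate `GL n ℤ`** if `n` has at least three elements. -/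
theorem gen_R (hn : 3 ≤ Fintype.card n) (H : Subgroup (Matrix n n ℤ)ˣ)
    (hR : ∀ (i j : n) (h : i ≠ j), RU i j h ∈ H) : H = ⊤ := by
  have third : ∀ i j : n, ∃ k, i ≠ k ∧ j ≠ k := by
    intro i j
    by_contra hcon
    push Not at hcon
    have : (Finset.univ : Finset n) ⊆ {i, j} := by
      intro k _
      by_cases h : i = k
      · simp [h]
      · simp [hcon k h]
    have h2 := Finset.card_le_card this
    have h3 : ({i, j} : Finset n).card ≤ 2 := Finset.card_le_two
    rw [Finset.card_univ] at h2
    omega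
  have hTm : ∀ (i j : n) (h : i ≠ j), TU i j h (-1) ∈ H := by
    intro j i hji
    obtain ⟨k, hik, hjk⟩ := third i j
    have e : RU j k hjk * (RU i k hik * (RU i j hji.symm * RU j k hjk)) = TU j i hji (-1) := by
      ext1
      exact Rm_trans hji.symm hik hjk
    rw [← e]
    exact H.mul_mem (hR _ _ _) (H.mul_mem (hR _ _ _) (H.mul_mem (hR _ _ _) (hR _ _ _)))
  have hT : ∀ (i j : n) (h : i ≠ j) (c : ℤ), TU i j h c ∈ H :=
    fun i j h c => TU_mem_of_one H i j h (hTm i j h) c
  refine gen H hT fun i => ?_
  obtain ⟨j, hij, -⟩ := third i i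
  have e : TU j i (Ne.symm hij) 1 * RU i j hij = SU i := by
    ext1
    apply mat_ext
    intro v k
    show ((Matrix.transvection j i 1 * Rm i j) *ᵥ v) k = (Matrix.diagonal _ *ᵥ v) k
    rw [← Matrix.mulVec_mulVec, trans_mulVec, Matrix.mulVec_diagonal]
    simp only [Rm_mulVec]
    by_cases h1 : k = i
    · subst h1; simp [hij]
    · by_cases h2 : k = j
      · subst h2; simp [h1, hij, Function.update_apply]
      · simp [h1, h2, Function.update_apply]
  rw [← e]
  exact H.mul_mem (hT _ _ _ _) (hR _ _ _)

/-- the matrices `P` such that `A ~ Pᵀ * A * P` for all `A`. -/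
def HMove : Subgroup (Matrix n n ℤ)ˣ where
  carrier := {P | ∀ A : Matrix n n ℤ, Relation.EqvGen Move A (P.valᵀ * A * P.val)}
  one_mem' := fun A => by simpa using Relation.EqvGen.refl A
  mul_mem' := by
    intro P Q hP hQ A
    have h := (hP A).trans _ _ _ (hQ (P.valᵀ * A * P.val))
    have e : Q.valᵀ * (P.valᵀ * A * P.val) * Q.val = (P * Q).valᵀ * A * (P * Q).val := by
      rw [Units.val_mul, Matrix.transpose_mul]; simp only [Matrix.mul_assoc]
    rwa [e] at h
  inv_mem' := by
    intro P hP A
    have h := hP ((P⁻¹).valᵀ * A * (P⁻¹).val)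
    have e : P.valᵀ * ((P⁻¹).valᵀ * A * (P⁻¹).val) * P.val = A := by
      have h1 : (P⁻¹ : (Matrix n n ℤ)ˣ).val * P.val = 1 := P.inv_val
      have h2 : P.valᵀ * (P⁻¹ : (Matrix n n ℤ)ˣ).valᵀ = 1 := by
        rw [← Matrix.transpose_mul, h1, Matrix.transpose_one]
      calc P.valᵀ * ((P⁻¹).valᵀ * A * (P⁻¹).val) * P.val
          = (P.valᵀ * (P⁻¹).valᵀ) * A * ((P⁻¹).val * P.val) := by simp only [Matrix.mul_assoc]
        _ = A := by rw [h1, h2, Matrix.one_mul, Matrix.mul_one]
    rw [e] at h
    exact h.symm _ _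

/-- **T2alg1.** -/
theorem moves_unit (hn : 3 ≤ Fintype.card n) (P : (Matrix n n ℤ)ˣ) (A : Matrix n n ℤ) :
    Relation.EqvGen Move A (P.valᵀ * A * P.val) := by
  have h : (HMove : Subgroup (Matrix n n ℤ)ˣ) = ⊤ := by
    refine gen_R hn HMove fun i j h A => ?_
    exact Relation.EqvGen.rel _ _ ⟨i, j, h, rfl⟩
  have h2 : P ∈ (HMove : Subgroup (Matrix n n ℤ)ˣ) := by rw [h]; exact Subgroup.mem_top P
  exact h2 A


/-- chains of moves are symmetric step by step: `Move` is a symmetric relation. -/
lemma Move.symm {A B : Matrix n n ℤ} (h : Move A B) : Move B A := by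
  obtain ⟨i, j, hij, rfl⟩ := h
  refine ⟨i, j, hij, ?_⟩
  have h1 := Rm_sq hij
  have h2 : (Rm i j)ᵀ * (Rm i j)ᵀ = 1 := by rw [← Matrix.transpose_mul, h1, Matrix.transpose_one]
  calc A = ((Rm i j)ᵀ * (Rm i j)ᵀ) * A * (Rm i j * Rm i j) := by rw [h1, h2]; simp
    _ = (Rm i j)ᵀ * ((Rm i j)ᵀ * A * Rm i j) * Rm i j := by simp only [Matrix.mul_assoc]

/-- the same with the reflexive transitive closure. -/
theorem moves_rtg (hn : 3 ≤ Fintype.card n) (P : (Matrix n n ℤ)ˣ) (A : Matrix n n ℤ) :
    Relation.ReflTransGen Move A (P.valᵀ * A * P.val) := by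
  have h := moves_unit hn P A
  generalize P.valᵀ * A * P.val = B at h ⊢
  induction h with
  | rel _ _ h => exact Relation.ReflTransGen.single h
  | refl _ => exact Relation.ReflTransGen.refl
  | symm _ _ _ ih =>
    have key : ∀ X Y : Matrix n n ℤ, Relation.ReflTransGen Move X Y →
        Relation.ReflTransGen Move Y X := by
      intro X Y hXY
      induction hXY with
      | refl => exact Relation.ReflTransGen.refl
      | tail _ h2 ih2 => exact Relation.ReflTransGen.head h2.symm ih2
    exact key _ _ ih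
  | trans _ _ _ _ _ ih1 ih2 => exact ih1.trans ih2


/-- a bijection of the index types always exists. -/
theorem card_eq_of_cong {κ : Type*} [Fintype κ] [DecidableEq κ]
    (P : Matrix n κ ℤ) (Q : Matrix κ n ℤ) (h1 : P * Q = 1) (h2 : Q * P = 1) :
    Fintype.card n = Fintype.card κ := by
  have h : Nonempty ((n → ℤ) ≃ₗ[ℤ] (κ → ℤ)) :=
    ⟨LinearEquiv.ofLinearMap (Matrix.toLin' Q) (Matrix.toLin' P)
      (by rw [← Matrix.toLin'_mul, h2, Matrix.toLin'_one])
      (by rw [← Matrix.toLin'_mul, h1, Matrix.toLin'_one])⟩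
  obtain ⟨l⟩ := h
  have := LinearEquiv.finrank_eq l
  simpa using this

end Crest.Agent.R267.T2alg1_684
end

-- ▼ part R267/DraftB_808

/-!
# Graph systems: the Props of DRAFT B and their assembly (row 267)

`classG_of`: for `3 ≤ m` strands and base dimension `n + 2`, `1 ≤ n`, systems with congruent
matrices have equivalent links.
-/

set_option autoImplicit false

namespace Crest.Agent.R267.DraftB_808

open Set Metric
open scoped RealInnerProductSpace
open Crest.Agent.R267.GS_808
open Crest.Agent.R267

/-- systems over the cube of dimension `n + 2`. -/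
abbrev S (n m : ℕ) := Sys (Bc (n + 2)) (ec (n + 2)) m

/-- **NORM**: every system is isotopic to one in rest form with prescribed distinct horizontal
rest points. -/
def NormProp (n : ℕ) : Prop :=
  ∀ (m : ℕ) (G : S n m) (p : Fin m → Vc (n + 2)), Function.Injective p →
    (∀ k, ⟪ec (n + 2), p k⟫ = 0) →
    ∃ G' : S n m, Isot G G' ∧ (∀ k, IsRest (p k) (G'.x k)) ∧ (∀ k, IsRest (ec (n + 2)) (G'.nu k))

/-- based homotopy of admissible maps in rest form. -/
def BH (n : ℕ) (y : Vc (n + 2)) (f g : Bc (n + 2) → Vc (n + 2)) : Prop :=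
  ∃ F : ℝ × Bc (n + 2) → Vc (n + 2), Continuous F ∧ (∀ p, F p ≠ 0) ∧
    (∀ t u, 1 ≤ ‖u‖ → ⟪ec (n + 2), F (t, u)⟫ = 0) ∧ (∀ t u, RestAt u → F (t, u) = y) ∧
    (∀ u, F (0, u) = f u) ∧ (∀ u, F (1, u) = g u)

/-- **FB**: freely homotopic maps in rest form are homotopic rel rest (`n ≥ 1`: the horizontal
sphere is simply connected). -/
def FBProp (n : ℕ) : Prop :=
  ∀ (y : Vc (n + 2)) (f g : Bc (n + 2) → Vc (n + 2)), Adm (n + 2) f → Adm (n + 2) g →
    IsRest y f → IsRest y g → FH (ec (n + 2)) f g → BH n y f g

/-- **TYP**: the integers `a, b` determine the free homotopy class. -/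
def TypProp (n : ℕ) : Prop :=
  ∀ (f g : Bc (n + 2) → Vc (n + 2)) (a b : ℤ), Typ n f a b → Typ n g a b → FH (ec (n + 2)) f g

/-- **TYPN**: the same for normals. -/
def TypNProp (n : ℕ) : Prop :=
  ∀ (f g : Bc (n + 2) → Vc (n + 2)) (c : ℤ), TypN n f c → TypN n g c → FN (ec (n + 2)) f g

/-- **CLASS1** (conf_ext twice): systems in rest form with the same rest points and pairwise based
homotopic differences and homotopic normals are isotopic. -/
def Class1Prop (n : ℕ) : Prop :=
  ∀ (m : ℕ) (G G' : S n m) (p : Fin m → Vc (n + 2)),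
    (∀ k, IsRest (p k) (G.x k)) → (∀ k, IsRest (p k) (G'.x k)) →
    (∀ k l, l < k → BH n (p k - p l) (fun u => G.x k u - G.x l u) (fun u => G'.x k u - G'.x l u)) →
    (∀ k, FN (ec (n + 2)) (G.nu k) (G'.nu k)) → Isot G G'

/-- **CLASS**: same matrix implies isotopic. -/
def ClassProp (n : ℕ) : Prop :=
  ∀ (m : ℕ) (G G' : S n m) (A : Matrix (Fin m) (Fin m) ℤ), HasMat G A → HasMat G' A → Isot G G'

/-- **T2**: the move `e_i ↦ e_j - e_i`. -/
def T2Prop (n : ℕ) : Prop :=
  ∀ (m : ℕ) (G : S n m) (A : Matrix (Fin m) (Fin m) ℤ) (i j : Fin m), HasMat G A → i ≠ j →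
    ∃ G' : S n m, HasMat G' ((T2alg1_684.Rm i j).transpose * A * T2alg1_684.Rm i j) ∧
      Eqv G.K G'.K

/-- FINAL OUTPUT of draft B. -/
def ClassGProp (n : ℕ) : Prop :=
  ∀ (m : ℕ) (G G' : S n m) (A A' : Matrix (Fin m) (Fin m) ℤ) (P : (Matrix (Fin m) (Fin m) ℤ)ˣ),
    3 ≤ m → HasMat G A → HasMat G' A' → A' = P.val.transpose * A * P.val → Eqv G.K G'.K

/-! ### assembly -/


end Crest.Agent.R267.DraftB_808
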