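import Mathlib
import Crest.Agent.R267.P4Herm_780
import Crest.Agent.R267.P48_118
import Crest.Agent.R267.P4Defs_780
import Crest.Agent.R267.P411_61

-- ▼ part R267/P49_169
section

/-!
# S0407, node P4.9 (helper169): patching

`glob`: a unimodular `Λ`-lattice in `K × K × V` (form `hyp H`) which is, at all primes dividing
`N`, the image of `Λ × Λ × M₁` under a rational isometry, and equal to it away from `N`, is
isometric to `L(I) = I × Iᵛ × M₁` for a full `Λ`-lattice `I` of `K`.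
No completions: the word in Eichler transvections given by P4.8 is replaced, letter by letter, by
`E(ρ w, ρ² r)` with an integer `ρ`.
-/

set_option autoImplicit false

namespace Crest.Agent.R267.P49_169

open Crest.Agent.R267.P4Herm_780 Crest.Agent.R267.P4Herm_780.HForm Crest.Agent.R267.P48_118

section grp

variable {X Y : Type*} [AddCommGroup X] [AddCommGroup Y]

/-- `U` and `U'` agree at all primes dividing `N`. -/
def Near (N : ℕ) (U U' : AddSubgroup X) : Prop :=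
  ∃ t : ℕ, t.Coprime N ∧ (∀ x ∈ U, t • x ∈ U') ∧ (∀ x ∈ U', t • x ∈ U)

/-- `U` and `U'` agree at all primes not dividing `N`. -/
def Away (N : ℕ) (U U' : AddSubgroup X) : Prop :=
  ∃ k : ℕ, (∀ x ∈ U, N ^ k • x ∈ U') ∧ (∀ x ∈ U', N ^ k • x ∈ U)

/-- commensurable subgroups (of finite exponent in each other). -/
def Com (U U' : AddSubgroup X) : Prop :=
  ∃ c : ℕ, 0 < c ∧ (∀ x ∈ U, c • x ∈ U') ∧ (∀ x ∈ U', c • x ∈ U)

theorem Near.refl (N : ℕ) (U : AddSubgroup X) : Near N U U :=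
  ⟨1, Nat.coprime_one_left N, fun x hx => by simpa using hx, fun x hx => by simpa using hx⟩

theorem Near.symm {N : ℕ} {U U' : AddSubgroup X} (h : Near N U U') : Near N U' U := by
  obtain ⟨t, ht, h1, h2⟩ := h
  exact ⟨t, ht, h2, h1⟩

theorem Near.trans {N : ℕ} {U U' U'' : AddSubgroup X} (h : Near N U U') (h' : Near N U' U'') :
    Near N U U'' := by
  obtain ⟨t, ht, h1, h2⟩ := h
  obtain ⟨s, hs, h3, h4⟩ := h'
  refine ⟨s * t, hs.mul_left ht, fun x hx => ?_, fun x hx => ?_⟩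
  · rw [mul_smul]; exact h3 _ (h1 _ hx)
  · rw [mul_comm, mul_smul]; exact h2 _ (h4 _ hx)

theorem Near.map {N : ℕ} {U U' : AddSubgroup X} (h : Near N U U') (f : X →+ Y) :
    Near N (U.map f) (U'.map f) := by
  obtain ⟨t, ht, h1, h2⟩ := h
  refine ⟨t, ht, ?_, ?_⟩
  · rintro _ ⟨x, hx, rfl⟩
    exact ⟨t • x, h1 _ hx, map_nsmul f t x⟩
  · rintro _ ⟨x, hx, rfl⟩
    exact ⟨t • x, h2 _ hx, map_nsmul f t x⟩

theorem Away.refl (N : ℕ) (U : AddSubgroup X) : Away N U U :=
  ⟨0, fun x hx => by simpa using hx, fun x hx => by simpa using hx⟩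

theorem Away.symm {N : ℕ} {U U' : AddSubgroup X} (h : Away N U U') : Away N U' U := by
  obtain ⟨t, h1, h2⟩ := h
  exact ⟨t, h2, h1⟩

theorem Away.trans {N : ℕ} {U U' U'' : AddSubgroup X} (h : Away N U U') (h' : Away N U' U'') :
    Away N U U'' := by
  obtain ⟨t, h1, h2⟩ := h
  obtain ⟨s, h3, h4⟩ := h'
  refine ⟨s + t, fun x hx => ?_, fun x hx => ?_⟩
  · rw [pow_add, mul_smul]; exact h3 _ (h1 _ hx)
  · rw [add_comm, pow_add, mul_smul]; exact h2 _ (h4 _ hx)

theorem Away.map {N : ℕ} {U U' : AddSubgroup X} (h : Away N U U') (f : X →+ Y) :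
    Away N (U.map f) (U'.map f) := by
  obtain ⟨t, h1, h2⟩ := h
  refine ⟨t, ?_, ?_⟩
  · rintro _ ⟨x, hx, rfl⟩
    exact ⟨_, h1 _ hx, map_nsmul f _ x⟩
  · rintro _ ⟨x, hx, rfl⟩
    exact ⟨_, h2 _ hx, map_nsmul f _ x⟩

theorem Com.symm {U U' : AddSubgroup X} (h : Com U U') : Com U' U := by
  obtain ⟨t, ht, h1, h2⟩ := h
  exact ⟨t, ht, h2, h1⟩

theorem Com.refl (U : AddSubgroup X) : Com U U :=
  ⟨1, one_pos, fun x hx => by simpa using hx, fun x hx => by simpa using hx⟩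

theorem Com.trans {U U' U'' : AddSubgroup X} (h : Com U U') (h' : Com U' U'') :
    Com U U'' := by
  obtain ⟨t, ht, h1, h2⟩ := h
  obtain ⟨s, hs, h3, h4⟩ := h'
  refine ⟨s * t, Nat.mul_pos hs ht, fun x hx => ?_, fun x hx => ?_⟩
  · rw [mul_smul]; exact h3 _ (h1 _ hx)
  · rw [mul_comm, mul_smul]; exact h2 _ (h4 _ hx)

theorem Com.map {U U' : AddSubgroup X} (h : Com U U') (f : X →+ Y) :
    Com (U.map f) (U'.map f) := by
  obtain ⟨t, ht, h1, h2⟩ := h
  refine ⟨t, ht, ?_, ?_⟩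
  · rintro _ ⟨x, hx, rfl⟩
    exact ⟨_, h1 _ hx, map_nsmul f _ x⟩
  · rintro _ ⟨x, hx, rfl⟩
    exact ⟨_, h2 _ hx, map_nsmul f _ x⟩

theorem mem_of_coprime {U : AddSubgroup X} {a b : ℕ} (h : a.Coprime b) {x : X}
    (ha : a • x ∈ U) (hb : b • x ∈ U) : x ∈ U := by
  obtain ⟨u, v, huv⟩ := Nat.isCoprime_iff_coprime.2 h
  have : x = u • (a • x) + v • (b • x) := by
    rw [← natCast_zsmul, ← natCast_zsmul, smul_smul, smul_smul, ← add_smul, huv, one_smul]
  rw [this]
  exact U.add_mem (U.zsmul_mem ha _) (U.zsmul_mem hb _)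

theorem Near.mem {N : ℕ} {U U' : AddSubgroup X} (h : Near N U U') (h' : Away N U U') {x : X}
    (hx : x ∈ U) : x ∈ U' := by
  obtain ⟨t, ht, h1, _⟩ := h
  obtain ⟨k, h3, _⟩ := h'
  exact mem_of_coprime (ht.pow_right k) (h1 x hx) (h3 x hx)

theorem Near.com {N : ℕ} (hN : 0 < N) {U U' : AddSubgroup X} (h : Away N U U') : Com U U' := by
  obtain ⟨k, h1, h2⟩ := h
  exact ⟨N ^ k, pow_pos hN k, h1, h2⟩

end grp

section arith

theorem exists_factor (N : ℕ) : ∀ n : ℕ, 0 < n → ∃ m1 m2 k : ℕ, n = m1 * m2 ∧ m1 ∣ N ^ k ∧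
    m2.Coprime N := by
  intro n
  induction n using Nat.strong_induction_on with
  | _ n ih =>
    intro hn
    by_cases h : n.Coprime N
    · exact ⟨1, n, 0, by simp, by simp, h⟩
    · set g := n.gcd N with hg
      have hg1 : g ≠ 1 := h
      have hg0 : 0 < g := Nat.gcd_pos_of_pos_left N hn
      obtain ⟨n', hn'⟩ : g ∣ n := Nat.gcd_dvd_left n N
      have hn'0 : 0 < n' := by
        rcases Nat.eq_zero_or_pos n' with h0 | h0
        · rw [h0, mul_zero] at hn'; omega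
        · exact h0
      have hlt : n' < n := by
        rw [hn']
        have : 2 ≤ g := by omega
        nlinarith
      obtain ⟨m1, m2, k, h1, h2, h3⟩ := ih n' hlt hn'0
      refine ⟨g * m1, m2, k + 1, ?_, ?_, h3⟩
      · rw [hn', h1, mul_assoc]
      · rw [pow_succ, mul_comm]
        exact Nat.mul_dvd_mul h2 (Nat.gcd_dvd_right n N)

theorem arith (N n c : ℕ) (hn : 0 < n) (hc : 0 < c) :
    ∃ (ρ : ℤ) (k t : ℕ), t.Coprime N ∧ (n : ℤ) ∣ ρ * (N : ℤ) ^ k ∧
      ((n * c : ℕ) : ℤ) ∣ t * (ρ - 1) := by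
  obtain ⟨m1, m2, k, h1, h2, h3⟩ := exists_factor N (n * c) (Nat.mul_pos hn hc)
  have hcop : m1.Coprime m2 := by
    have : (N ^ k).Coprime m2 := (Nat.Coprime.pow_left k h3.symm)
    exact Nat.Coprime.coprime_dvd_left h2 this
  obtain ⟨u, v, huv⟩ := Nat.isCoprime_iff_coprime.2 hcop
  refine ⟨v * m2, k, m2, h3, ?_, ?_⟩
  · have e1 : ((n * c : ℕ) : ℤ) ∣ v * m2 * (N : ℤ) ^ k := by
      rw [h1]
      obtain ⟨j, hj⟩ := h2
      have hj' : (N : ℤ) ^ k = m1 * j := by exact_mod_cast hj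
      rw [hj']; push_cast
      exact ⟨v * j, by ring⟩
    exact dvd_trans ⟨(c : ℤ), by push_cast; ring⟩ e1
  · rw [h1]
    refine ⟨-u, ?_⟩
    push_cast
    linear_combination (m2 : ℤ) * huv

end arith

section herm

variable {K V : Type*} [CommRing K] [StarRing K] [AddCommGroup V] [Module K V] (H : HForm K V)

/-- the standing hypotheses on `Λ ⊆ K` and `M₁ ⊆ V`. -/
structure Lat (Λ : Subring K) (M₁ : AddSubgroup V) : Prop where
  star_mem : ∀ a ∈ Λ, star a ∈ Λ
  full : ∀ a : K, ∃ n : ℕ, 0 < n ∧ n • a ∈ Λ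
  smul_mem : ∀ a ∈ Λ, ∀ x ∈ M₁, a • x ∈ M₁
  full₁ : ∀ x : V, ∃ n : ℕ, 0 < n ∧ n • x ∈ M₁
  h_mem : ∀ x ∈ M₁, ∀ y ∈ M₁, H.h x y ∈ Λ

/-- `Λ × Λ × M₁`. -/
def M0 (Λ : Subring K) (M₁ : AddSubgroup V) : AddSubgroup (K × K × V) where
  carrier := {v | v.1 ∈ Λ ∧ v.2.1 ∈ Λ ∧ v.2.2 ∈ M₁}
  add_mem' := fun ha hb => ⟨Λ.add_mem ha.1 hb.1, Λ.add_mem ha.2.1 hb.2.1, M₁.add_mem ha.2.2 hb.2.2⟩
  zero_mem' := ⟨Λ.zero_mem, Λ.zero_mem, M₁.zero_mem⟩
  neg_mem' := fun ha => ⟨Λ.neg_mem ha.1, Λ.neg_mem ha.2.1, M₁.neg_mem ha.2.2⟩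

omit [StarRing K] [Module K V] in
theorem mem_M0 {Λ : Subring K} {M₁ : AddSubgroup V} {v : K × K × V} :
    v ∈ M0 Λ M₁ ↔ v.1 ∈ Λ ∧ v.2.1 ∈ Λ ∧ v.2.2 ∈ M₁ := Iff.rfl

theorem neg_param {w : V} {r : K} (hr : r + star r = - H.h w w) :
    star r + star (star r) = - H.h (-w) (-w) := by
  rw [h_neg_left, h_neg_right, neg_neg, star_star, add_comm]; exact hr

/-- `E` as a linear equivalence. -/
def Ee (w : V) (r : K) (hr : r + star r = - H.h w w) : (K × K × V) ≃ₗ[K] (K × K × V) :=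
  LinearEquiv.ofLinearMap (H.E w r) (H.E (-w) (star r))
    (by simpa using E_inv H (neg_param H hr)) (E_inv H hr)

/-- `F'` as a linear equivalence. -/
def Fe (w : V) (r : K) (hr : r + star r = - H.h w w) : (K × K × V) ≃ₗ[K] (K × K × V) :=
  LinearEquiv.ofLinearMap (H.F' w r) (H.F' (-w) (star r))
    (by simpa using F_inv H (neg_param H hr)) (F_inv H hr)

variable (V) in
/-- `D` as a linear equivalence. -/
def De (l : Kˣ) : (K × K × V) ≃ₗ[K] (K × K × V) :=
  LinearEquiv.ofLinearMap (HForm.D V l) (HForm.D V l⁻¹)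
    (by simpa using D_inv (M := V) l⁻¹) (D_inv l)

/-- `(a, b, x) ↦ (b, a, x)`. -/
def sw : (K × K × V) ≃ₗ[K] (K × K × V) where
  toFun v := (v.2.1, v.1, v.2.2)
  invFun v := (v.2.1, v.1, v.2.2)
  map_add' _ _ := rfl
  map_smul' _ _ := rfl
  left_inv _ := rfl
  right_inv _ := rfl

/-- isometries. -/
def IsI (g : (K × K × V) ≃ₗ[K] (K × K × V)) : Prop :=
  ∀ x y, H.hyp.h (g x) (g y) = H.hyp.h x y

variable {H}

theorem IsI.trans {g g' : (K × K × V) ≃ₗ[K] (K × K × V)} (h : IsI H g) (h' : IsI H g') :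
    IsI H (g.trans g') := fun x y => by
  rw [LinearEquiv.trans_apply, LinearEquiv.trans_apply, h', h]

theorem IsI.symm {g : (K × K × V) ≃ₗ[K] (K × K × V)} (h : IsI H g) : IsI H g.symm := fun x y => by
  rw [← h]; simp

variable (H)

theorem isI_Ee {w : V} {r : K} (hr : r + star r = - H.h w w) : IsI H (Ee H w r hr) :=
  fun x y => H.E_isom hr x y

theorem isI_Fe {w : V} {r : K} (hr : r + star r = - H.h w w) : IsI H (Fe H w r hr) :=
  fun x y => H.F'_isom hr x y

theorem isI_De (l : Kˣ) : IsI H (De V l) :=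
  fun x y => H.D_isom l x y


/-- image of a subgroup. -/
abbrev im (g : (K × K × V) ≃ₗ[K] (K × K × V)) (U : AddSubgroup (K × K × V)) :
    AddSubgroup (K × K × V) := U.map ((g : (K × K × V) →ₗ[K] (K × K × V)).toAddMonoidHom)

omit [StarRing K] in
theorem mem_im {g : (K × K × V) ≃ₗ[K] (K × K × V)} {U : AddSubgroup (K × K × V)}
    {x : K × K × V} : x ∈ im g U ↔ g.symm x ∈ U := by
  constructor
  · rintro ⟨y, hy, rfl⟩
    have : g.symm ((g : (K × K × V) →ₗ[K] (K × K × V)).toAddMonoidHom y) = y := g.symm_apply_apply y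
    rw [this]; exact hy
  · intro h
    exact ⟨g.symm x, h, g.apply_symm_apply x⟩

omit [StarRing K] in
theorem im_trans (g g' : (K × K × V) ≃ₗ[K] (K × K × V)) (U : AddSubgroup (K × K × V)) :
    im (g.trans g') U = im g' (im g U) := by
  ext x
  rw [mem_im, mem_im, mem_im]; rfl

/-- small transvections preserve a lattice at `N`. -/
theorem small {Λ : Subring K} {M₁ : AddSubgroup V} (hL : Lat H Λ M₁) {U : AddSubgroup (K × K × V)}
    {c t : ℕ} (h1 : ∀ x ∈ U, c • x ∈ M0 Λ M₁) (h2 : ∀ x ∈ M0 Λ M₁, c • x ∈ U)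
    {w : V} {r : K} (hw : ∃ m ∈ M₁, t • w = (c ^ 2) • m) (hr : ∃ l ∈ Λ, t • r = (c ^ 2) • l)
    {x : K × K × V} (hx : x ∈ U) : t • (H.E w r x) ∈ U := by
  obtain ⟨m, hm, hwm⟩ := hw
  obtain ⟨l, hl, hrl⟩ := hr
  have hcx := h1 x hx
  obtain ⟨a, b, y⟩ := x
  rw [mem_M0] at hcx
  simp only [Prod.smul_mk] at hcx
  obtain ⟨_, hb, hy⟩ := hcx
  have key : t • (H.E w r (a, b, y)) = t • (a, b, y) +
      c • ((l * (c • b) - H.h m (c • y), 0, (c • b) • m) : K × K × V) := by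
    have e1 : t • H.h w y = c • H.h m (c • y) := by
      have : t • H.h w y = H.h (t • w) y := by
        rw [← Nat.cast_smul_eq_nsmul K t w, H.smul_left, star_natCast, nsmul_eq_mul]
      rw [this, hwm, ← Nat.cast_smul_eq_nsmul K (c ^ 2) m, H.smul_left, star_natCast,
        ← Nat.cast_smul_eq_nsmul K c y, H.smul_right, nsmul_eq_mul]
      push_cast; ring
    have e2 : t • (r * b) = c • (l * (c • b)) := by
      rw [← smul_mul_assoc, hrl]
      simp only [nsmul_eq_mul]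
      push_cast; ring
    have e3 : t • (b • w) = c • ((c • b) • m) := by
      rw [smul_comm t b w, hwm]
      rw [← Nat.cast_smul_eq_nsmul K (c ^ 2) m, ← Nat.cast_smul_eq_nsmul K c ((c • b) • m),
        nsmul_eq_mul, smul_smul, smul_smul]
      congr 1
      push_cast; ring
    ext
    · simp only [HForm.E, LinearMap.coe_mk, AddHom.coe_mk, Prod.smul_mk, Prod.mk_add_mk]
      rw [smul_sub, smul_add, e1, e2, smul_sub]; abel
    · simp [HForm.E]
    · simp only [HForm.E, LinearMap.coe_mk, AddHom.coe_mk, Prod.smul_mk, Prod.mk_add_mk]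
      rw [smul_add, e3]
  rw [key]
  refine U.add_mem (U.nsmul_mem hx t) (h2 _ ?_)
  rw [mem_M0]
  exact ⟨Λ.sub_mem (Λ.mul_mem hl hb) (hL.h_mem _ hm _ hy), Λ.zero_mem, hL.smul_mem _ hb _ hm⟩

theorem E_mul {w w2 : V} {r r2 : K} (x : K × K × V) :
    H.E w r (H.E w2 r2 x) = H.E (w + w2) (r + r2 - H.h w w2) x := by
  ext
  · simp only [HForm.E, LinearMap.coe_mk, AddHom.coe_mk, H.add_left, H.add_right, H.smul_right]
    ring
  · simp [HForm.E]
  · simp only [HForm.E, LinearMap.coe_mk, AddHom.coe_mk, smul_add]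
    abel

/-- approximation of one transvection. -/
theorem approxE {Λ : Subring K} {M₁ : AddSubgroup V} (hL : Lat H Λ M₁) (N : ℕ)
    {U : AddSubgroup (K × K × V)} (hU : Com U (M0 Λ M₁)) {w : V} {r : K}
    (hr : r + star r = - H.h w w) :
    ∃ (w' : V) (r' : K) (hr' : r' + star r' = - H.h w' w'),
      (∃ k : ℕ, N ^ k • w' ∈ M₁ ∧ N ^ k • r' ∈ Λ) ∧
      Near N (im (Ee H w' r' hr') U) (im (Ee H w r hr) U) := by
  obtain ⟨c, hc, h1, h2⟩ := hU
  obtain ⟨n1, hn1, hw1⟩ := hL.full₁ w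
  obtain ⟨n2, hn2, hr2⟩ := hL.full r
  obtain ⟨ρ, k, t, ht, ⟨j, hj⟩, ⟨i, hi⟩⟩ := arith N (n1 * n2) (c ^ 2) (Nat.mul_pos hn1 hn2)
    (pow_pos hc 2)
  have hnw : (n1 * n2) • w ∈ M₁ := by
    rw [mul_comm, mul_smul]; exact M₁.nsmul_mem hw1 _
  have hnr : (n1 * n2) • r ∈ Λ := by
    rw [mul_smul]; exact Λ.toAddSubgroup.nsmul_mem hr2 _
  set n := n1 * n2 with hn
  clear_value n
  have hnrs : n • star r ∈ Λ := by
    have := hL.star_mem _ hnr
    rwa [star_nsmul] at this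
  have hr' : ((ρ : K) ^ 2 * r) + star ((ρ : K) ^ 2 * r) = - H.h ((ρ : K) • w) ((ρ : K) • w) := by
    rw [H.smul_left, H.smul_right, star_mul', star_pow, star_intCast]
    linear_combination (ρ : K) ^ 2 * hr
  have hrr2 : ((ρ - 1 : K) * (ρ * r - star r)) + star ((ρ - 1 : K) * (ρ * r - star r)) =
      - H.h ((ρ - 1 : K) • w) ((ρ - 1 : K) • w) := by
    rw [H.smul_left, H.smul_right, star_mul', star_sub, star_sub, star_mul', star_intCast,
      star_one, star_star]
    linear_combination (ρ - 1 : K) ^ 2 * hr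
  have hcomp : ∀ x, H.E ((ρ : K) • w) ((ρ : K) ^ 2 * r) x =
      H.E w r (H.E ((ρ - 1 : K) • w) ((ρ - 1 : K) * (ρ * r - star r)) x) := by
    intro x
    rw [E_mul]
    have e1 : w + (ρ - 1 : K) • w = (ρ : K) • w := by rw [sub_smul, one_smul]; abel
    have e2 : r + (ρ - 1 : K) * (ρ * r - star r) - H.h w ((ρ - 1 : K) • w) = (ρ : K) ^ 2 * r := by
      rw [H.smul_right]
      linear_combination (-(ρ - 1 : K)) * hr
    rw [e1, e2]
  -- smallness
  have hjK : ((ρ : K)) * (N : K) ^ k = n * j := by exact_mod_cast congrArg (Int.cast : ℤ → K) hj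
  have hiK : (t : K) * ((ρ : K) - 1) = n * c ^ 2 * i := by
    exact_mod_cast congrArg (Int.cast : ℤ → K) hi
  have hwm : ∃ m ∈ M₁, t • ((ρ - 1 : K) • w) = (c ^ 2) • m := by
    refine ⟨i • (n • w), M₁.zsmul_mem hnw i, ?_⟩
    rw [← Nat.cast_smul_eq_nsmul K t, ← Nat.cast_smul_eq_nsmul K (c ^ 2),
      ← Nat.cast_smul_eq_nsmul K n, ← Int.cast_smul_eq_zsmul K i, smul_smul, smul_smul, smul_smul,
      hiK]
    congr 1
    push_cast; ring
  have hrm : ∃ l ∈ Λ, t • ((ρ - 1 : K) * (ρ * r - star r)) = (c ^ 2) • l := by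
    refine ⟨i * (ρ * (n • r) - n • star r), ?_, ?_⟩
    · exact Λ.mul_mem (intCast_mem Λ i) (Λ.sub_mem (Λ.mul_mem (intCast_mem Λ ρ) hnr) hnrs)
    · simp only [nsmul_eq_mul]
      push_cast
      linear_combination (ρ * r - star r) * hiK
  have hwm' : ∃ m ∈ M₁, t • (-((ρ - 1 : K) • w)) = (c ^ 2) • m := by
    obtain ⟨m, hm, h⟩ := hwm
    exact ⟨-m, M₁.neg_mem hm, by rw [smul_neg, h, smul_neg]⟩
  have hrm' : ∃ l ∈ Λ, t • star ((ρ - 1 : K) * (ρ * r - star r)) = (c ^ 2) • l := by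
    obtain ⟨l, hl, h⟩ := hrm
    refine ⟨star l, hL.star_mem l hl, ?_⟩
    rw [← star_nsmul, h, star_nsmul]
  refine ⟨(ρ : K) • w, (ρ : K) ^ 2 * r, hr', ⟨k, ?_, ?_⟩, t, ht, ?_, ?_⟩
  · have : N ^ k • ((ρ : K) • w) = j • (n • w) := by
      rw [← Nat.cast_smul_eq_nsmul K (N ^ k), ← Nat.cast_smul_eq_nsmul K n,
        ← Int.cast_smul_eq_zsmul K j, smul_smul, smul_smul]
      congr 1
      push_cast
      linear_combination hjK
    rw [this]; exact M₁.zsmul_mem hnw j
  · have : N ^ k • ((ρ : K) ^ 2 * r) = j * ρ * (n • r) := by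
      simp only [nsmul_eq_mul]; push_cast
      linear_combination (ρ : K) * r * hjK
    rw [this]
    exact Λ.mul_mem (Λ.mul_mem (intCast_mem Λ j) (intCast_mem Λ ρ)) hnr
  · rintro _ ⟨x, hx, rfl⟩
    refine ⟨t • (H.E ((ρ - 1 : K) • w) ((ρ - 1 : K) * (ρ * r - star r)) x),
      small H hL h1 h2 hwm hrm hx, ?_⟩
    change H.E w r _ = t • H.E ((ρ : K) • w) ((ρ : K) ^ 2 * r) x
    rw [map_nsmul, hcomp]
  · rintro _ ⟨x, hx, rfl⟩
    refine ⟨t • (H.E (-((ρ - 1 : K) • w)) (star ((ρ - 1 : K) * (ρ * r - star r))) x),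
      small H hL h1 h2 hwm' hrm' hx, ?_⟩
    change H.E ((ρ : K) • w) ((ρ : K) ^ 2 * r) _ = t • H.E w r x
    rw [map_nsmul, hcomp]
    have := LinearMap.congr_fun (E_inv H (neg_param H hrr2)) x
    simp only [neg_neg, star_star, LinearMap.comp_apply, LinearMap.id_apply] at this
    rw [this]

theorem sw_F {w : V} {r : K} (x : K × K × V) : H.F' w r x = sw (H.E w r (sw x)) := by
  ext <;> simp [HForm.F', HForm.E, sw]

omit [StarRing K] in
theorem im_sw_M0 (Λ : Subring K) (M₁ : AddSubgroup V) : im sw (M0 Λ M₁) = M0 Λ M₁ := by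
  ext x
  rw [mem_im, mem_M0, mem_M0]
  exact ⟨fun h => ⟨h.2.1, h.1, h.2.2⟩, fun h => ⟨h.2.1, h.1, h.2.2⟩⟩

theorem im_Fe {w : V} {r : K} (hr : r + star r = - H.h w w) (U : AddSubgroup (K × K × V)) :
    im (Fe H w r hr) U = im sw (im (Ee H w r hr) (im sw U)) := by
  rw [← im_trans, ← im_trans]
  have : Fe H w r hr = (sw.trans (Ee H w r hr)).trans sw := LinearEquiv.ext fun x => sw_F H x
  rw [this]; rfl

theorem approxF {Λ : Subring K} {M₁ : AddSubgroup V} (hL : Lat H Λ M₁) (N : ℕ)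
    {U : AddSubgroup (K × K × V)} (hU : Com U (M0 Λ M₁)) {w : V} {r : K}
    (hr : r + star r = - H.h w w) :
    ∃ (w' : V) (r' : K) (hr' : r' + star r' = - H.h w' w'),
      (∃ k : ℕ, N ^ k • w' ∈ M₁ ∧ N ^ k • r' ∈ Λ) ∧
      Near N (im (Fe H w' r' hr') U) (im (Fe H w r hr) U) := by
  have hU' : Com (im sw U) (M0 Λ M₁) := by
    have : Com (im sw U) (im sw (M0 Λ M₁)) := hU.map _
    rwa [im_sw_M0] at this
  obtain ⟨w', r', hr', hk, hn⟩ := approxE H hL N hU' hr
  refine ⟨w', r', hr', hk, ?_⟩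
  rw [im_Fe, im_Fe]
  exact hn.map _

/-- `g` preserves `M0` away from `N`. -/
def Pres (Λ : Subring K) (M₁ : AddSubgroup V) (N : ℕ) (g : (K × K × V) ≃ₗ[K] (K × K × V)) : Prop :=
  Away N (im g (M0 Λ M₁)) (M0 Λ M₁)

omit [StarRing K] in
theorem Pres.trans {Λ : Subring K} {M₁ : AddSubgroup V} {N : ℕ}
    {g g' : (K × K × V) ≃ₗ[K] (K × K × V)} (h : Pres Λ M₁ N g) (h' : Pres Λ M₁ N g') :
    Pres Λ M₁ N (g.trans g') := by
  unfold Pres
  rw [im_trans]
  exact (h.map _).trans h'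

omit [StarRing K] in
theorem im_symm_im (g : (K × K × V) ≃ₗ[K] (K × K × V)) (U : AddSubgroup (K × K × V)) :
    im g.symm (im g U) = U := by
  ext x
  rw [mem_im, mem_im]; simp

omit [StarRing K] in
theorem Pres.symm {Λ : Subring K} {M₁ : AddSubgroup V} {N : ℕ}
    {g : (K × K × V) ≃ₗ[K] (K × K × V)} (h : Pres Λ M₁ N g) : Pres Λ M₁ N g.symm := by
  have := h.map ((g.symm : (K × K × V) ≃ₗ[K] (K × K × V)) : (K × K × V) →ₗ[K] (K × K × V)).toAddMonoidHom
  have h2 : Away N (im g.symm (im g (M0 Λ M₁))) (im g.symm (M0 Λ M₁)) := this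
  rw [im_symm_im] at h2
  exact h2.symm

theorem E_mem {Λ : Subring K} {M₁ : AddSubgroup V} (hL : Lat H Λ M₁) {N k : ℕ} {w : V} {r : K}
    (hw : N ^ k • w ∈ M₁) (hr : N ^ k • r ∈ Λ) {x : K × K × V} (hx : x ∈ M0 Λ M₁) :
    N ^ k • H.E w r x ∈ M0 Λ M₁ := by
  obtain ⟨a, b, y⟩ := x
  obtain ⟨ha, hb, hy⟩ := mem_M0.1 hx
  simp only at ha hb hy
  rw [mem_M0]
  simp only [HForm.E, LinearMap.coe_mk, AddHom.coe_mk, Prod.smul_mk]
  refine ⟨?_, Λ.toAddSubgroup.nsmul_mem hb _, ?_⟩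
  · have e1 : N ^ k • (a + r * b - H.h w y) = N ^ k • a + (N ^ k • r) * b - H.h (N ^ k • w) y := by
      rw [← Nat.cast_smul_eq_nsmul K (N ^ k) w, H.smul_left, star_natCast]
      simp only [nsmul_eq_mul]; ring
    rw [e1]
    exact Λ.sub_mem (Λ.add_mem (Λ.toAddSubgroup.nsmul_mem ha _) (Λ.mul_mem hr hb))
      (hL.h_mem _ hw _ hy)
  · rw [smul_add, smul_comm]
    exact M₁.add_mem (M₁.nsmul_mem hy _) (hL.smul_mem _ hb _ hw)

theorem pres_E {Λ : Subring K} {M₁ : AddSubgroup V} (hL : Lat H Λ M₁) {N k : ℕ} {w : V} {r : K}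
    (hr : r + star r = - H.h w w)
    (hwk : N ^ k • w ∈ M₁) (hrk : N ^ k • r ∈ Λ) : Pres Λ M₁ N (Ee H w r hr) := by
  refine ⟨k, ?_, ?_⟩
  · rintro _ ⟨x, hx, rfl⟩
    exact E_mem H hL hwk hrk hx
  · intro x hx
    rw [mem_im, map_nsmul]
    refine E_mem H hL (w := -w) (r := star r) ?_ ?_ hx
    · rw [smul_neg]; exact M₁.neg_mem hwk
    · rw [← star_nsmul]; exact hL.star_mem _ hrk

theorem pres_F {Λ : Subring K} {M₁ : AddSubgroup V} (hL : Lat H Λ M₁) {N k : ℕ} {w : V} {r : K}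
    (hr : r + star r = - H.h w w)
    (hwk : N ^ k • w ∈ M₁) (hrk : N ^ k • r ∈ Λ) : Pres Λ M₁ N (Fe H w r hr) := by
  unfold Pres
  rw [im_Fe, im_sw_M0]
  have := (pres_E H hL hr hwk hrk).map ((sw : (K × K × V) ≃ₗ[K] (K × K × V)) : (K × K × V) →ₗ[K] (K × K × V)).toAddMonoidHom
  have h2 : Away N (im sw (im (Ee H w r hr) (M0 Λ M₁))) (im sw (M0 Λ M₁)) := this
  rwa [im_sw_M0] at h2

/-- words in transvections. -/
inductive Wd : ((K × K × V) ≃ₗ[K] (K × K × V)) → Prop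
  | id : Wd (LinearEquiv.refl K _)
  | E (w : V) (r : K) (hr : r + star r = - H.h w w) (g) : Wd g → Wd (g.trans (Ee H w r hr))
  | F (w : V) (r : K) (hr : r + star r = - H.h w w) (g) : Wd g → Wd (g.trans (Fe H w r hr))

/-- every subgroup commensurable with `M0` has commensurable images. -/
theorem com_E {Λ : Subring K} {M₁ : AddSubgroup V} (hL : Lat H Λ M₁) {w : V} {r : K}
    (hr : r + star r = - H.h w w) : Com (im (Ee H w r hr) (M0 Λ M₁)) (M0 Λ M₁) := by
  obtain ⟨n1, hn1, hw1⟩ := hL.full₁ w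
  obtain ⟨n2, hn2, hr2⟩ := hL.full r
  have hw : (n1 * n2) ^ 1 • w ∈ M₁ := by
    rw [pow_one, mul_comm, mul_smul]; exact M₁.nsmul_mem hw1 _
  have hr' : (n1 * n2) ^ 1 • r ∈ Λ := by
    rw [pow_one, mul_smul]; exact Λ.toAddSubgroup.nsmul_mem hr2 _
  exact Near.com (Nat.mul_pos hn1 hn2) (pres_E H hL hr hw hr')

theorem com_F {Λ : Subring K} {M₁ : AddSubgroup V} (hL : Lat H Λ M₁) {w : V} {r : K}
    (hr : r + star r = - H.h w w) : Com (im (Fe H w r hr) (M0 Λ M₁)) (M0 Λ M₁) := by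
  rw [im_Fe, im_sw_M0]
  have := (com_E H hL hr).map ((sw : (K × K × V) ≃ₗ[K] (K × K × V)) : (K × K × V) →ₗ[K] (K × K × V)).toAddMonoidHom
  have h2 : Com (im sw (im (Ee H w r hr) (M0 Λ M₁))) (im sw (M0 Λ M₁)) := this
  rwa [im_sw_M0] at h2

/-- approximation of a word. -/
theorem approxW {Λ : Subring K} {M₁ : AddSubgroup V} (hL : Lat H Λ M₁) (N : ℕ)
    {g : (K × K × V) ≃ₗ[K] (K × K × V)} (hg : Wd H g) {U : AddSubgroup (K × K × V)}
    (hU : Com U (M0 Λ M₁)) :
    Com (im g U) (M0 Λ M₁) ∧ ∃ γ : (K × K × V) ≃ₗ[K] (K × K × V), IsI H γ ∧ Pres Λ M₁ N γ ∧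
      Near N (im γ U) (im g U) := by
  induction hg with
  | id =>
    refine ⟨?_, LinearEquiv.refl K _, fun _ _ => rfl, ?_, Near.refl _ _⟩
    · have : im (LinearEquiv.refl K (K × K × V)) U = U := by ext x; rw [mem_im]; rfl
      rw [this]; exact hU
    · unfold Pres
      have : im (LinearEquiv.refl K (K × K × V)) (M0 Λ M₁) = M0 Λ M₁ := by ext x; rw [mem_im]; rfl
      rw [this]; exact Away.refl _ _
  | E w r hr g _ ih =>
    obtain ⟨hc, γ, h1, h2, h3⟩ := ih
    obtain ⟨w', r', hr', ⟨k, hwk, hrk⟩, hn⟩ := approxE H hL N hc hr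
    refine ⟨?_, γ.trans (Ee H w' r' hr'), h1.trans (isI_Ee H hr'),
      h2.trans (pres_E H hL hr' hwk hrk), ?_⟩
    · rw [im_trans]
      exact (hc.map _).trans (com_E H hL hr)
    · rw [im_trans, im_trans]
      exact (h3.map _).trans hn
  | F w r hr g _ ih =>
    obtain ⟨hc, γ, h1, h2, h3⟩ := ih
    obtain ⟨w', r', hr', ⟨k, hwk, hrk⟩, hn⟩ := approxF H hL N hc hr
    refine ⟨?_, γ.trans (Fe H w' r' hr'), h1.trans (isI_Fe H hr'),
      h2.trans (pres_F H hL hr' hwk hrk), ?_⟩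
    · rw [im_trans]
      exact (hc.map _).trans (com_F H hL hr)
    · rw [im_trans, im_trans]
      exact (h3.map _).trans hn

/-- move the torus to the right. -/
theorem push {g : (K × K × V) →ₗ[K] (K × K × V)} (hg : Gen H g) :
    ∀ a : Kˣ, ∃ ε : (K × K × V) ≃ₗ[K] (K × K × V), Wd H ε ∧ ∃ l : Kˣ,
      ∀ x, HForm.D V a (g x) = ε (HForm.D V l x) := by
  induction hg with
  | id => exact fun a => ⟨_, Wd.id, a, fun x => rfl⟩
  | E w r hr g _ ih =>
    intro a
    obtain ⟨ε, h1, l, h2⟩ := ih a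
    have hr' : ((a : K) * star (a : K) * r) + star ((a : K) * star (a : K) * r) =
        - H.h (star (a : K) • w) (star (a : K) • w) := by
      rw [H.smul_left, H.smul_right, star_mul', star_mul', star_star]
      linear_combination ((a : K) * star (a : K)) * hr
    refine ⟨ε.trans (Ee H (star (a : K) • w) ((a : K) * star (a : K) * r) hr'),
      Wd.E _ _ _ _ h1, l, fun x => ?_⟩
    rw [LinearEquiv.trans_apply, ← h2]
    have e1 : star (a : K) * star ((a⁻¹ : Kˣ) : K) = 1 := by rw [← star_mul']; simp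
    change HForm.D V a (H.E w r (g x)) = H.E _ _ (HForm.D V a (g x))
    generalize g x = v
    obtain ⟨p, q, y⟩ := v
    ext
    · simp only [HForm.D, HForm.E, LinearMap.coe_mk, AddHom.coe_mk, H.smul_left, star_star]
      linear_combination (- (a : K) * r * q) * e1
    · simp [HForm.D, HForm.E]
    · simp only [HForm.D, HForm.E, LinearMap.coe_mk, AddHom.coe_mk, smul_smul]
      congr 2
      linear_combination (- q) * e1
  | F' w r hr g _ ih =>
    intro a
    obtain ⟨ε, h1, l, h2⟩ := ih a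
    have hr' : (((a⁻¹ : Kˣ) : K) * star ((a⁻¹ : Kˣ) : K) * r) +
        star (((a⁻¹ : Kˣ) : K) * star ((a⁻¹ : Kˣ) : K) * r) =
        - H.h (((a⁻¹ : Kˣ) : K) • w) (((a⁻¹ : Kˣ) : K) • w) := by
      rw [H.smul_left, H.smul_right, star_mul', star_mul', star_star]
      linear_combination (((a⁻¹ : Kˣ) : K) * star ((a⁻¹ : Kˣ) : K)) * hr
    refine ⟨ε.trans (Fe H (((a⁻¹ : Kˣ) : K) • w) (((a⁻¹ : Kˣ) : K) * star ((a⁻¹ : Kˣ) : K) * r) hr'),
      Wd.F _ _ _ _ h1, l, fun x => ?_⟩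
    rw [LinearEquiv.trans_apply, ← h2]
    have e1 : ((a⁻¹ : Kˣ) : K) * (a : K) = 1 := by simp
    change HForm.D V a (H.F' w r (g x)) = H.F' _ _ (HForm.D V a (g x))
    generalize g x = v
    obtain ⟨p, q, y⟩ := v
    ext
    · simp [HForm.D, HForm.F']
    · simp only [HForm.D, HForm.F', LinearMap.coe_mk, AddHom.coe_mk, H.smul_left]
      linear_combination (- star ((a⁻¹ : Kˣ) : K) * r * p) * e1
    · simp only [HForm.D, HForm.F', LinearMap.coe_mk, AddHom.coe_mk, smul_smul]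
      congr 2
      linear_combination (- p) * e1
  | D b g _ ih =>
    intro a
    obtain ⟨ε, h1, l, h2⟩ := ih (a * b)
    refine ⟨ε, h1, l, fun x => ?_⟩
    rw [← h2]
    change HForm.D V a (HForm.D V b (g x)) = HForm.D V (a * b) (g x)
    generalize g x = v
    obtain ⟨p, q, y⟩ := v
    ext
    · simp [HForm.D, mul_assoc]
    · simp only [HForm.D, LinearMap.coe_mk, AddHom.coe_mk, mul_inv_rev, Units.val_mul, star_mul']
      ring
    · simp [HForm.D]

/-- the lattice `I × Iᵛ × M₁`. -/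
def LI (Λ : Subring K) (M₁ : AddSubgroup V) (I : AddSubgroup K) : AddSubgroup (K × K × V) where
  carrier := {v | v.1 ∈ I ∧ (∀ a ∈ I, star v.2.1 * a ∈ Λ) ∧ v.2.2 ∈ M₁}
  add_mem' := fun {v w} ha hb => ⟨I.add_mem ha.1 hb.1, fun a h => by
    simp only [Prod.snd_add, Prod.fst_add, star_add, add_mul]
    exact Λ.add_mem (ha.2.1 a h) (hb.2.1 a h), M₁.add_mem ha.2.2 hb.2.2⟩
  zero_mem' := ⟨I.zero_mem, fun a _ => by simp, M₁.zero_mem⟩
  neg_mem' := fun {v} ha => ⟨I.neg_mem ha.1, fun a h => by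
    simp only [Prod.snd_neg, Prod.fst_neg, star_neg, neg_mul]
    exact Λ.neg_mem (ha.2.1 a h), M₁.neg_mem ha.2.2⟩

omit [Module K V] in
theorem mem_LI {Λ : Subring K} {M₁ : AddSubgroup V} {I : AddSubgroup K} {v : K × K × V} :
    v ∈ LI Λ M₁ I ↔ v.1 ∈ I ∧ (∀ a ∈ I, star v.2.1 * a ∈ Λ) ∧ v.2.2 ∈ M₁ := Iff.rfl

theorem LI_smul (Λ : Subring K) (M₁ : AddSubgroup V) (I I' : AddSubgroup K) (a : Kˣ)
    (h : ∀ x, x ∈ I ↔ (a : K) * x ∈ I') : im (De V a) (LI Λ M₁ I) = LI Λ M₁ I' := by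
  ext ⟨p, q, y⟩
  rw [mem_im, mem_LI, mem_LI]
  change ((a⁻¹ : Kˣ) : K) * p ∈ I ∧ (∀ b ∈ I, star (star (((a⁻¹)⁻¹ : Kˣ) : K) * q) * b ∈ Λ) ∧
    y ∈ M₁ ↔ p ∈ I' ∧ (∀ b ∈ I', star q * b ∈ Λ) ∧ y ∈ M₁
  rw [h, inv_inv, ← mul_assoc, Units.mul_inv, one_mul]
  refine and_congr_right fun _ => and_congr_left fun _ => ?_
  constructor
  · intro h1 b hb
    have h2 := h1 (((a⁻¹ : Kˣ) : K) * b) ((h _).2 (by rw [← mul_assoc, Units.mul_inv, one_mul]; exact hb))
    have h3 : star (star (a : K) * q) * (((a⁻¹ : Kˣ) : K) * b) = star q * b := by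
      rw [star_mul', star_star]
      have : (a : K) * ((a⁻¹ : Kˣ) : K) = 1 := by simp
      linear_combination (star q * b) * this
    rwa [h3] at h2
  · intro h1 b hb
    have h2 := h1 _ ((h _).1 hb)
    have h3 : star (star (a : K) * q) * b = star q * (a * b) := by
      rw [star_mul', star_star]; ring
    rwa [h3]

theorem com_D {Λ : Subring K} {M₁ : AddSubgroup V} (hL : Lat H Λ M₁) (l : Kˣ) :
    Com (im (De V l) (M0 Λ M₁)) (M0 Λ M₁) := by
  obtain ⟨n1, hn1, h1⟩ := hL.full l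
  obtain ⟨n2, hn2, h2⟩ := hL.full ((l⁻¹ : Kˣ) : K)
  have h1' : n1 • star (l : K) ∈ Λ := by rw [← star_nsmul]; exact hL.star_mem _ h1
  have h2' : n2 • star ((l⁻¹ : Kˣ) : K) ∈ Λ := by rw [← star_nsmul]; exact hL.star_mem _ h2
  have key : ∀ {m : ℕ} {a b : K}, m • a ∈ Λ → b ∈ Λ → ∀ k, (k * m) • (a * b) ∈ Λ := by
    intro m a b ha hb k
    rw [mul_smul, ← smul_mul_assoc]
    exact Λ.toAddSubgroup.nsmul_mem (Λ.mul_mem ha hb) _
  refine ⟨n1 * n2, Nat.mul_pos hn1 hn2, ?_, ?_⟩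
  · rintro _ ⟨⟨p, q, y⟩, ⟨hp, hq, hy⟩, rfl⟩
    refine ⟨?_, ?_, M₁.nsmul_mem hy _⟩
    · change (n1 * n2) • ((l : K) * p) ∈ Λ
      rw [mul_comm n1 n2]; exact key h1 hp _
    · change (n1 * n2) • (star ((l⁻¹ : Kˣ) : K) * q) ∈ Λ
      exact key h2' hq _
  · rintro ⟨p, q, y⟩ ⟨hp, hq, hy⟩
    rw [mem_im]
    refine ⟨?_, ?_, M₁.nsmul_mem hy _⟩
    · change ((l⁻¹ : Kˣ) : K) * ((n1 * n2) • p) ∈ Λ
      rw [mul_smul_comm]; exact key h2 hp _
    · change star (((l⁻¹)⁻¹ : Kˣ) : K) * ((n1 * n2) • q) ∈ Λ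
      rw [mul_smul_comm, inv_inv, mul_comm n1 n2]; exact key h1' hq _

end herm

section main

variable {K V : Type} [CommRing K] [StarRing K] [Algebra ℚ K] [IsArtinianRing K] [IsReduced K]
  [AddCommGroup V] [Module K V] [Module.Finite K V] (H : HForm K V)

omit [Algebra ℚ K] [IsArtinianRing K] [IsReduced K] [Module K V] [Module.Finite K V]
  [StarRing K] in
theorem proj_mem {N : ℕ} {U M'' M : AddSubgroup (K × K × V)} (hn : Near N U M'')
    (ha : Away N M'' M) (π : (K × K × V) →+ (K × K × V)) (hU : ∀ x ∈ U, π x ∈ U)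
    (hM : ∀ x ∈ M, π x ∈ M) : ∀ x ∈ M'', π x ∈ M'' := by
  intro x hx
  obtain ⟨t, ht, h1, h2⟩ := hn
  obtain ⟨k, h3, h4⟩ := ha
  refine mem_of_coprime (a := t * t) (b := N ^ k * N ^ k) ?_ ?_ ?_
  · exact ((ht.mul_left ht).pow_right k).mul_right ((ht.mul_left ht).pow_right k)
  · rw [mul_smul, ← map_nsmul]
    exact h1 _ (hU _ (h2 _ hx))
  · rw [mul_smul, ← map_nsmul]
    exact h4 _ (hM _ (h3 _ hx))

/-- hypotheses on a second lattice. -/
structure Loc (Λ : Subring K) (M₁ : AddSubgroup V) (M' : AddSubgroup (K × K × V)) : Prop where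
  smul_mem : ∀ a ∈ Λ, ∀ x ∈ M', a • x ∈ M'
  h_mem : ∀ x ∈ M', ∀ y ∈ M', H.hyp.h x y ∈ Λ
  mem_of : ∀ x, (∀ y ∈ M', H.hyp.h x y ∈ Λ) → x ∈ M'
  com : Com M' (M0 Λ M₁)
  loc : ∀ N : ℕ, 0 < N → ∃ g : (K × K × V) ≃ₗ[K] (K × K × V), IsI H g ∧
    Near N (im g (M0 Λ M₁)) M'

/-- P4.9. -/
theorem glob (hK : Good K) (hH : H.Unimodular) {Λ : Subring K} {M₁ : AddSubgroup V}
    (hL : Lat H Λ M₁) {M' : AddSubgroup (K × K × V)} (hM' : Loc H Λ M₁ M') :
    ∃ γ : (K × K × V) ≃ₗ[K] (K × K × V), IsI H γ ∧ ∃ I : AddSubgroup K,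
      (∀ a ∈ Λ, ∀ x ∈ I, a * x ∈ I) ∧ Com I Λ.toAddSubgroup ∧ im γ M' = LI Λ M₁ I := by
  obtain ⟨N, hN, hA1, hA2⟩ := hM'.com
  have hA : Away N M' (M0 Λ M₁) := ⟨1, by simpa using hA1, by simpa using hA2⟩
  obtain ⟨g, hg, hgN⟩ := hM'.loc N hN
  have hgen := p48 K hK V H hH g hg
  obtain ⟨ε, hε, l, hl⟩ := push H hgen 1
  have hD1 : ∀ x : K × K × V, HForm.D V (1 : Kˣ) x = x := by
    intro x; ext <;> simp [HForm.D]
  have hgl : g = (De V l).trans ε := LinearEquiv.ext fun x => by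
    have := hl x
    rw [hD1] at this
    exact this
  have hcU := com_D H hL l
  set U := im (De V l) (M0 Λ M₁) with hU
  obtain ⟨_, γ, hγ, hγP, hγN⟩ := approxW H hL N hε hcU
  have e1 : im ε U = im g (M0 Λ M₁) := by rw [hgl, im_trans]
  rw [e1] at hγN
  have hnear : Near N (im γ U) M' := hγN.trans hgN
  have hnear2 : Near N U (im γ.symm M') := by
    have : Near N (im γ.symm (im γ U)) (im γ.symm M') := hnear.map _
    rwa [im_symm_im] at this
  have haway2 : Away N (im γ.symm M') (M0 Λ M₁) := by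
    have h1 : Away N (im γ.symm M') (im γ.symm (M0 Λ M₁)) := hA.map _
    exact h1.trans hγP.symm
  set M'' := im γ.symm M' with hM''
  have hMem : ∀ x, x ∈ M'' ↔ γ x ∈ M' := fun x => by
    rw [hM'', mem_im]; simp
  have hcom := Near.com hN haway2
  obtain ⟨t, ht, hn1, hn2⟩ := id hnear2
  obtain ⟨k, ha1, ha2⟩ := id haway2
  -- the three projections
  let π1 : (K × K × V) →+ (K × K × V) :=
    { toFun := fun v => (v.1, 0, 0), map_zero' := rfl, map_add' := fun v w => by simp }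
  let π2 : (K × K × V) →+ (K × K × V) :=
    { toFun := fun v => (0, v.2.1, 0), map_zero' := rfl, map_add' := fun v w => by simp }
  let π3 : (K × K × V) →+ (K × K × V) :=
    { toFun := fun v => (0, 0, v.2.2), map_zero' := rfl, map_add' := fun v w => by simp }
  have hM0π1 : ∀ x ∈ M0 Λ M₁, π1 x ∈ M0 Λ M₁ := fun x hx => ⟨hx.1, Λ.zero_mem, M₁.zero_mem⟩
  have hM0π2 : ∀ x ∈ M0 Λ M₁, π2 x ∈ M0 Λ M₁ := fun x hx => ⟨Λ.zero_mem, hx.2.1, M₁.zero_mem⟩
  have hM0π3 : ∀ x ∈ M0 Λ M₁, π3 x ∈ M0 Λ M₁ := fun x hx => ⟨Λ.zero_mem, Λ.zero_mem, hx.2.2⟩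
  have hUπ : ∀ π : (K × K × V) →+ (K × K × V), (∀ x ∈ M0 Λ M₁, π x ∈ M0 Λ M₁) →
      (∀ x, (De V l).symm (π x) = π ((De V l).symm x)) → ∀ x ∈ U, π x ∈ U := by
    intro π h1 h2 x hx
    rw [hU, mem_im] at hx ⊢
    rw [h2]; exact h1 _ hx
  have hUπ1 := hUπ π1 hM0π1 (fun x => by
    change HForm.D V l⁻¹ (π1 x) = π1 (HForm.D V l⁻¹ x)
    simp [HForm.D, π1])
  have hUπ2 := hUπ π2 hM0π2 (fun x => by
    change HForm.D V l⁻¹ (π2 x) = π2 (HForm.D V l⁻¹ x)
    simp [HForm.D, π2])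
  have hUπ3 := hUπ π3 hM0π3 (fun x => by
    change HForm.D V l⁻¹ (π3 x) = π3 (HForm.D V l⁻¹ x)
    simp [HForm.D, π3])
  have p1 := proj_mem hnear2 haway2 π1 hUπ1 hM0π1
  have p2 := proj_mem hnear2 haway2 π2 hUπ2 hM0π2
  have p3 := proj_mem hnear2 haway2 π3 hUπ3 hM0π3
  let I : AddSubgroup K :=
    { carrier := {a | ((a, 0, 0) : K × K × V) ∈ M''}
      add_mem' := fun {a b} ha hb => by
        have := M''.add_mem ha hb
        simpa using this
      zero_mem' := M''.zero_mem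
      neg_mem' := fun {a} ha => by
        have := M''.neg_mem ha
        simpa using this }
  have hI : ∀ a, a ∈ I ↔ ((a, 0, 0) : K × K × V) ∈ M'' := fun _ => Iff.rfl
  refine ⟨γ.symm, hγ.symm, I, ?_, ?_, ?_⟩
  · intro a ha x hx
    rw [hI] at hx ⊢
    have h1 : ((a * x, 0, 0) : K × K × V) = a • ((x, 0, 0) : K × K × V) := by simp
    rw [hMem] at hx ⊢
    rw [h1, map_smul]
    exact hM'.smul_mem a ha _ hx
  · obtain ⟨c, hc, hc1, hc2⟩ := hcom
    refine ⟨c, hc, ?_, ?_⟩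
    · intro a ha
      exact (hc1 _ ha).1
    · intro a ha
      have := hc2 (a, 0, 0) ⟨ha, Λ.zero_mem, M₁.zero_mem⟩
      rw [hI]
      simpa using this
  · ext ⟨a, b, y⟩
    rw [mem_LI]
    constructor
    · intro hx
      refine ⟨p1 _ hx, ?_, ?_⟩
      · intro a' ha'
        have h1 := (hMem _).1 (p2 _ hx)
        have h2 := (hMem _).1 ((hI a').1 ha')
        have h3 := hM'.h_mem _ h1 _ h2
        rw [hγ] at h3
        simpa [HForm.hyp, π2, h_zero_right] using h3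
      · have h1 := p3 _ hx
        refine mem_of_coprime (ht.pow_right k) ?_ ?_
        · have := hn2 _ h1
          rw [hU, mem_im] at this
          exact this.2.2
        · exact (ha1 _ h1).2.2
    · rintro ⟨h1, h2, h3⟩
      simp only at h1 h2 h3
      have q1 : ((a, 0, 0) : K × K × V) ∈ M'' := h1
      have q2 : ((0, b, 0) : K × K × V) ∈ M'' := by
        rw [hMem]
        apply hM'.mem_of
        intro z hz
        have hz' : γ.symm z ∈ M'' := by rw [hMem]; simpa using hz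
        have h4 := h2 _ (p1 _ hz')
        have h5 : H.hyp.h (γ (0, b, 0)) z = H.hyp.h (0, b, 0) (γ.symm z) := by
          rw [← hγ (0, b, 0) (γ.symm z)]; simp
        rw [h5]
        simpa [HForm.hyp, h_zero_left, π1] using h4
      have q3 : ((0, 0, y) : K × K × V) ∈ M'' := by
        refine mem_of_coprime (ht.pow_right k) ?_ ?_
        · apply hn1
          rw [hU, mem_im]
          change HForm.D V l⁻¹ (0, 0, y) ∈ M0 Λ M₁
          refine ⟨?_, ?_, h3⟩
          · simp [HForm.D]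
          · simp [HForm.D]
        · exact ha2 _ ⟨Λ.zero_mem, Λ.zero_mem, h3⟩
      have : ((a, b, y) : K × K × V) = (a, 0, 0) + (0, b, 0) + (0, 0, y) := by simp
      rw [this]
      exact M''.add_mem (M''.add_mem q1 q2) q3

/-- P4.10 in the form needed: among `h + 1` full `Λ`-lattices of `K` two are proportional. -/
def P410 (Λ : Subring K) (h : ℕ) : Prop :=
  ∀ I : Fin (h + 1) → AddSubgroup K, (∀ i, ∀ a ∈ Λ, ∀ x ∈ I i, a * x ∈ I i) →
    (∀ i, Com (I i) Λ.toAddSubgroup) →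
    ∃ i j, i ≠ j ∧ ∃ a : Kˣ, ∀ x, x ∈ I i ↔ (a : K) * x ∈ I j

/-- pigeonhole: two of `h + 1` lattices in the genus are isometric. -/
theorem pigeon (hK : Good K) (hH : H.Unimodular) {Λ : Subring K} {M₁ : AddSubgroup V}
    (hL : Lat H Λ M₁) {h : ℕ} (hP : P410 Λ h) (M' : Fin (h + 1) → AddSubgroup (K × K × V))
    (hM' : ∀ i, Loc H Λ M₁ (M' i)) :
    ∃ i j, i ≠ j ∧ ∃ γ : (K × K × V) ≃ₗ[K] (K × K × V), IsI H γ ∧ im γ (M' i) = M' j := by
  choose γ hγ I hI1 hI2 hI3 using fun i => glob H hK hH hL (hM' i)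
  obtain ⟨i, j, hij, a, ha⟩ := hP I hI1 hI2
  refine ⟨i, j, hij, ((γ i).trans (De V a)).trans (γ j).symm,
    ((hγ i).trans (isI_De H a)).trans (hγ j).symm, ?_⟩
  rw [im_trans, im_trans, hI3, LI_smul Λ M₁ (I i) (I j) a ha, ← hI3, im_symm_im]

end main

end Crest.Agent.R267.P49_169
end

-- ▼ part R267/P49b_169
section

/-!
# S0407, node P4.9, second part (helper169): hermitian lattices with a hyperbolic pair

`HL K Λ`: unimodular hermitian `Λ`-lattices; `pigeonHL`: among `h + 1` lattices which are, for every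
`N`, rationally isometric to `X₀` by a map which is an isometry of lattices at all primes dividing
`N`, two are isometric; `X₀` contains a hyperbolic pair and `h` is the constant of P4.10.
-/

set_option autoImplicit false

namespace Crest.Agent.R267.P49b_169

open Crest.Agent.R267.P4Herm_780 Crest.Agent.R267.P4Herm_780.HForm Crest.Agent.R267.P48_118
  Crest.Agent.R267.P49_169

/-- bundled unimodular hermitian lattices. -/
structure HL (K : Type) [CommRing K] [StarRing K] (Λ : Subring K) where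
  V : Type
  [grp : AddCommGroup V]
  [mod : Module K V]
  [fin : Module.Finite K V]
  H : HForm K V
  uni : H.Unimodular
  M : AddSubgroup V
  smul_mem : ∀ a ∈ Λ, ∀ x ∈ M, a • x ∈ M
  h_mem : ∀ x ∈ M, ∀ y ∈ M, H.h x y ∈ Λ
  mem_of : ∀ x, (∀ y ∈ M, H.h x y ∈ Λ) → x ∈ M
  full : ∀ x, ∃ n : ℕ, 0 < n ∧ n • x ∈ M
  fg : M.FG

attribute [instance] HL.grp HL.mod HL.fin

theorem exists_mul_mem {V : Type*} [AddCommGroup V] {U U' : AddSubgroup V} (hU : U.FG)
    (h : ∀ x ∈ U, ∃ n : ℕ, 0 < n ∧ n • x ∈ U') : ∃ c : ℕ, 0 < c ∧ ∀ x ∈ U, c • x ∈ U' := by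
  classical
  obtain ⟨S, hS⟩ := hU
  have hSU : ∀ x ∈ S, x ∈ U := fun x hx => by rw [← hS]; exact AddSubgroup.subset_closure hx
  have h' : ∀ x, ∃ n : ℕ, 0 < n ∧ (x ∈ U → n • x ∈ U') := by
    intro x
    by_cases hx : x ∈ U
    · obtain ⟨n, hn, h1⟩ := h x hx
      exact ⟨n, hn, fun _ => h1⟩
    · exact ⟨1, one_pos, fun h2 => absurd h2 hx⟩
  choose n hn hn' using h'
  refine ⟨∏ x ∈ S, n x, Finset.prod_pos fun x _ => hn x, ?_⟩
  intro x hx
  rw [← hS] at hx
  induction hx using AddSubgroup.closure_induction with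
  | mem x hx =>
    rw [← Finset.prod_erase_mul S n hx, mul_smul]
    exact U'.nsmul_mem (hn' x (hSU x hx)) _
  | zero => rw [smul_zero]; exact U'.zero_mem
  | add x y _ _ hx hy => rw [smul_add]; exact U'.add_mem hx hy
  | neg x _ hx => rw [smul_neg]; exact U'.neg_mem hx

theorem fg_map {V W : Type*} [AddCommGroup V] [AddCommGroup W] {U : AddSubgroup V} (hU : U.FG)
    (f : V →+ W) : (U.map f).FG := by
  classical
  obtain ⟨S, hS⟩ := hU
  exact ⟨S.image f, by rw [Finset.coe_image, ← AddMonoidHom.map_closure, hS]⟩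

section im

variable {K V W : Type} [CommRing K] [AddCommGroup V] [Module K V] [AddCommGroup W] [Module K W]

/-- image of a subgroup under a linear equivalence. -/
abbrev img (g : V ≃ₗ[K] W) (U : AddSubgroup V) : AddSubgroup W :=
  U.map ((g : V →ₗ[K] W).toAddMonoidHom)

theorem mem_img {g : V ≃ₗ[K] W} {U : AddSubgroup V} {x : W} : x ∈ img g U ↔ g.symm x ∈ U := by
  constructor
  · rintro ⟨y, hy, rfl⟩
    have : g.symm ((g : V →ₗ[K] W).toAddMonoidHom y) = y := g.symm_apply_apply y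
    rw [this]; exact hy
  · intro h
    exact ⟨g.symm x, h, g.apply_symm_apply x⟩

theorem img_trans {X : Type} [AddCommGroup X] [Module K X] (g : V ≃ₗ[K] W) (g' : W ≃ₗ[K] X)
    (U : AddSubgroup V) : img (g.trans g') U = img g' (img g U) := by
  ext x
  rw [mem_img, mem_img, mem_img]; rfl

theorem img_symm_img (g : V ≃ₗ[K] W) (U : AddSubgroup V) : img g.symm (img g U) = U := by
  ext x
  rw [mem_img, mem_img]; simp


end im

section split

variable {K V : Type} [CommRing K] [StarRing K] [AddCommGroup V] [Module K V] (H : HForm K V)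
  (e f : V)

/-- orthogonal complement of `e`, `f`. -/
def V1 : Submodule K V where
  carrier := {x | H.h e x = 0 ∧ H.h f x = 0}
  add_mem' := fun ha hb => ⟨by rw [H.add_right, ha.1, hb.1, add_zero],
    by rw [H.add_right, ha.2, hb.2, add_zero]⟩
  zero_mem' := ⟨h_zero_right H _, h_zero_right H _⟩
  smul_mem' := fun c x hx => ⟨by rw [H.smul_right, hx.1, mul_zero],
    by rw [H.smul_right, hx.2, mul_zero]⟩

theorem mem_V1 {x : V} : x ∈ V1 H e f ↔ H.h e x = 0 ∧ H.h f x = 0 := Iff.rfl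

/-- restriction of the form. -/
def res : HForm K (V1 H e f) where
  h x y := H.h x y
  add_right _ _ _ := H.add_right _ _ _
  smul_right _ _ _ := H.smul_right _ _ _
  symm _ _ := H.symm _ _

variable {H e f} (hee : H.h e e = 0) (hff : H.h f f = 0) (hef : H.h e f = 1)

include hef in
theorem hfe : H.h f e = 1 := by rw [← H.symm, hef, star_one]

include hee hff hef in
theorem proj_mem' (v : V) : v - H.h f v • e - H.h e v • f ∈ V1 H e f := by
  rw [mem_V1]
  constructor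
  · rw [h_sub_right, h_sub_right, H.smul_right, H.smul_right, hee, hef]; ring
  · rw [h_sub_right, h_sub_right, H.smul_right, H.smul_right, hff, hfe hef]; ring

/-- the splitting. -/
def Th : (K × K × V1 H e f) ≃ₗ[K] V where
  toFun v := v.1 • e + v.2.1 • f + v.2.2
  invFun v := (H.h f v, H.h e v, ⟨v - H.h f v • e - H.h e v • f, proj_mem' hee hff hef v⟩)
  map_add' v w := by
    simp only [Prod.fst_add, Prod.snd_add, add_smul, Submodule.coe_add]; abel
  map_smul' a v := by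
    simp [smul_add, smul_smul]
  left_inv v := by
    obtain ⟨a, b, x, hx⟩ := v
    rw [mem_V1] at hx
    have h1 : H.h f (a • e + b • f + x) = a := by
      rw [H.add_right, H.add_right, H.smul_right, H.smul_right, hff, hfe hef, hx.2]; ring
    have h2 : H.h e (a • e + b • f + x) = b := by
      rw [H.add_right, H.add_right, H.smul_right, H.smul_right, hee, hef, hx.1]; ring
    ext
    · exact h1
    · exact h2
    · simp only [h1, h2]; abel
  right_inv v := by
    simp only; abel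

theorem Th_apply (v : K × K × V1 H e f) : Th hee hff hef v = v.1 • e + v.2.1 • f + v.2.2 := rfl

theorem Th_isom (v w : K × K × V1 H e f) :
    H.h (Th hee hff hef v) (Th hee hff hef w) = (res H e f).hyp.h v w := by
  obtain ⟨a, b, x, hx⟩ := v
  obtain ⟨a', b', y, hy⟩ := w
  rw [mem_V1] at hx hy
  have h1 : H.h x e = 0 := by rw [← H.symm, hx.1, star_zero]
  have h2 : H.h x f = 0 := by rw [← H.symm, hx.2, star_zero]
  simp only [Th_apply, HForm.hyp, res, H.add_right, H.add_left, H.smul_right, H.smul_left,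
    hee, hff, hef, hfe hef, hy.1, hy.2, h1, h2]
  ring

include hee hff hef in
theorem res_unimodular (hU : H.Unimodular) : (res H e f).Unimodular := by
  constructor
  · intro x x' hxx
    have h1 : ∀ y ∈ V1 H e f, H.h x y = H.h x' y := fun y hy =>
      congrArg (fun φ => φ ⟨y, hy⟩) hxx
    apply Subtype.ext
    apply hU.1
    ext v
    change H.h x v = H.h x' v
    have hx := x.2
    have hx' := x'.2
    rw [mem_V1] at hx hx'
    have e1 : H.h (x : V) e = 0 := by rw [← H.symm, hx.1, star_zero]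
    have e2 : H.h (x : V) f = 0 := by rw [← H.symm, hx.2, star_zero]
    have e3 : H.h (x' : V) e = 0 := by rw [← H.symm, hx'.1, star_zero]
    have e4 : H.h (x' : V) f = 0 := by rw [← H.symm, hx'.2, star_zero]
    have h2 := h1 _ (proj_mem' hee hff hef v)
    rw [h_sub_right, h_sub_right, h_sub_right, h_sub_right, H.smul_right, H.smul_right,
      H.smul_right, H.smul_right, e1, e2, e3, e4] at h2
    linear_combination h2
  · intro φ
    let π : V →ₗ[K] V1 H e f :=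
      (LinearMap.snd K K (V1 H e f)).comp ((LinearMap.snd K K (K × V1 H e f)).comp
        ((Th hee hff hef).symm : V →ₗ[K] K × K × V1 H e f))
    obtain ⟨w, hw⟩ := hU.2 (φ.comp π)
    have hw' : ∀ v, H.h w v = φ (π v) := fun v => congrArg (fun ψ => ψ v) hw
    have hπ : ∀ x : V1 H e f, π x = x := by
      intro x
      have hx := x.2
      rw [mem_V1] at hx
      apply Subtype.ext
      change (x : V) - H.h f x • e - H.h e x • f = x
      rw [hx.1, hx.2]; simp
    have hwe : H.h w e = 0 := by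
      rw [hw']
      have : π e = 0 := by
        apply Subtype.ext
        change e - H.h f e • e - H.h e e • f = 0
        rw [hee, hfe hef]; simp
      rw [this, map_zero]
    have hwf : H.h w f = 0 := by
      rw [hw']
      have : π f = 0 := by
        apply Subtype.ext
        change f - H.h f f • e - H.h e f • f = 0
        rw [hff, hef]; simp
      rw [this, map_zero]
    refine ⟨⟨w, ?_⟩, ?_⟩
    · rw [mem_V1]
      exact ⟨by rw [← H.symm, hwe, star_zero], by rw [← H.symm, hwf, star_zero]⟩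
    · ext x
      change H.h w x = φ x
      rw [hw', hπ]

end split

section main

variable {K : Type} [CommRing K] [StarRing K] {Λ : Subring K}

/-- rational isometries which are isometries of lattices at all `p ∣ N`. -/
def RIso (N : ℕ) (X Y : HL K Λ) : Prop :=
  ∃ g : X.V ≃ₗ[K] Y.V, (∀ x y, Y.H.h (g x) (g y) = X.H.h x y) ∧ Near N (img g X.M) Y.M

/-- isometries. -/
def Iso (X Y : HL K Λ) : Prop :=
  ∃ g : X.V ≃ₗ[K] Y.V, (∀ x y, Y.H.h (g x) (g y) = X.H.h x y) ∧ img g X.M = Y.M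

theorem pigeonHL [Algebra ℚ K] [IsArtinianRing K] [IsReduced K] (hK : Good K)
    (hstar : ∀ a ∈ Λ, star a ∈ Λ) (hfull : ∀ a : K, ∃ n : ℕ, 0 < n ∧ n • a ∈ Λ)
    {c : K} (hc : c ∈ Λ) (hc1 : c + star c = 1) {h : ℕ} (hP : P410 Λ h)
    (X0 : HL K Λ) {e f0 : X0.V} (he : e ∈ X0.M) (hf0 : f0 ∈ X0.M) (hee : X0.H.h e e = 0)
    (hef0 : X0.H.h e f0 = 1) (X : Fin (h + 1) → HL K Λ)
    (hX : ∀ i, ∀ N, 0 < N → RIso N X0 (X i)) : ∃ i j, i ≠ j ∧ Iso (X i) (X j) := by
  -- normalise the hyperbolic pair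
  have hfe0 : X0.H.h f0 e = 1 := hfe hef0
  obtain ⟨f, hf, hff, hef⟩ : ∃ f ∈ X0.M, X0.H.h f f = 0 ∧ X0.H.h e f = 1 := by
    refine ⟨f0 - (c * X0.H.h f0 f0) • e, ?_, ?_, ?_⟩
    · exact X0.M.sub_mem hf0 (X0.smul_mem _ (Λ.mul_mem hc (X0.h_mem _ hf0 _ hf0)) _ he)
    · have hs : star (X0.H.h f0 f0) = X0.H.h f0 f0 := X0.H.symm _ _
      have e1 : ∀ x y z : X0.V, X0.H.h (x - y) z = X0.H.h x z - X0.H.h y z := by
        intro x y z
        rw [sub_eq_add_neg, X0.H.add_left, h_neg_left, sub_eq_add_neg]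
      rw [h_sub_right, e1, e1, X0.H.smul_right, X0.H.smul_right, X0.H.smul_left, X0.H.smul_left,
        hee, hfe0, hef0, star_mul', hs]
      linear_combination (- X0.H.h f0 f0) * hc1
    · rw [h_sub_right, X0.H.smul_right, hee, hef0]; ring
  set M1 : AddSubgroup (V1 X0.H e f) := X0.M.comap (V1 X0.H e f).subtype.toAddMonoidHom with hM1
  have hmemM1 : ∀ x : V1 X0.H e f, x ∈ M1 ↔ (x : X0.V) ∈ X0.M := fun _ => Iff.rfl
  have hL : Lat (res X0.H e f) Λ M1 :=
    { star_mem := hstar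
      full := hfull
      smul_mem := fun a ha x hx => X0.smul_mem a ha _ hx
      full₁ := fun x => by
        obtain ⟨n, hn, hx⟩ := X0.full x
        exact ⟨n, hn, hx⟩
      h_mem := fun x hx y hy => X0.h_mem _ hx _ hy }
  set T := Th hee hff hef with hT
  have hTM : img T (M0 Λ M1) = X0.M := by
    ext v
    rw [mem_img]
    constructor
    · rintro ⟨h1, h2, h3⟩
      have h4 : T (T.symm v) = v := T.apply_symm_apply v
      rw [← h4, hT, Th_apply]
      exact X0.M.add_mem (X0.M.add_mem (X0.smul_mem _ h1 _ he) (X0.smul_mem _ h2 _ hf)) h3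
    · intro hv
      have h1 : X0.H.h f v ∈ Λ := X0.h_mem _ hf _ hv
      have h2 : X0.H.h e v ∈ Λ := X0.h_mem _ he _ hv
      exact ⟨h1, h2, X0.M.sub_mem (X0.M.sub_mem hv (X0.smul_mem _ h1 _ he)) (X0.smul_mem _ h2 _ hf)⟩
  -- transport
  have hG : ∀ i, ∃ P : (X i).V ≃ₗ[K] (K × K × V1 X0.H e f),
      ∀ x y, (res X0.H e f).hyp.h (P x) (P y) = (X i).H.h x y := by
    intro i
    obtain ⟨g, hg, -⟩ := hX i 2 (by norm_num)
    refine ⟨g.symm.trans T.symm, fun x y => ?_⟩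
    rw [← Th_isom hee hff hef]
    simp only [LinearEquiv.trans_apply]
    rw [← hT, T.apply_symm_apply, T.apply_symm_apply, ← hg]
    simp
  choose P hPi using hG
  have hloc : ∀ i, ∀ N : ℕ, 0 < N → ∃ g : (K × K × V1 X0.H e f) ≃ₗ[K] (K × K × V1 X0.H e f),
      IsI (res X0.H e f) g ∧ Near N (im g (M0 Λ M1)) (img (P i) (X i).M) := by
    intro i N hN
    obtain ⟨g, hg, hgN⟩ := hX i N hN
    refine ⟨(T.trans g).trans (P i), fun x y => ?_, ?_⟩
    · simp only [LinearEquiv.trans_apply]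
      rw [hPi, hg, hT, Th_isom]
    · have h1 : im ((T.trans g).trans (P i)) (M0 Λ M1) = img (P i) (img g X0.M) := by
        change img ((T.trans g).trans (P i)) (M0 Λ M1) = _
        rw [img_trans, img_trans, hTM]
      rw [h1]
      exact hgN.map _
  have hLoc : ∀ i, Loc (res X0.H e f) Λ M1 (img (P i) (X i).M) := by
    intro i
    refine ⟨?_, ?_, ?_, ?_, hloc i⟩
    · intro a ha x hx
      rw [mem_img] at hx ⊢
      rw [map_smul]
      exact (X i).smul_mem a ha _ hx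
    · intro x hx y hy
      rw [mem_img] at hx hy
      have := (X i).h_mem _ hx _ hy
      rw [← hPi] at this
      simpa using this
    · intro x hx
      rw [mem_img]
      apply (X i).mem_of
      intro y hy
      have h1 := hx (P i y) (by rw [mem_img]; simpa using hy)
      rw [← hPi]
      simpa using h1
    · have hM0 : M0 Λ M1 = img T.symm X0.M := by rw [← hTM, img_symm_img]
      have hfg0 : (M0 Λ M1).FG := by rw [hM0]; exact fg_map X0.fg _
      have hfg1 : (img (P i) (X i).M).FG := fg_map (X i).fg _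
      have hfull0 : ∀ x, ∃ n : ℕ, 0 < n ∧ n • x ∈ M0 Λ M1 := by
        intro x
        obtain ⟨n, hn, h1⟩ := X0.full (T x)
        refine ⟨n, hn, ?_⟩
        rw [hM0, mem_img]
        simpa using h1
      have hfull1 : ∀ x, ∃ n : ℕ, 0 < n ∧ n • x ∈ img (P i) (X i).M := by
        intro x
        obtain ⟨n, hn, h1⟩ := (X i).full ((P i).symm x)
        refine ⟨n, hn, ?_⟩
        rw [mem_img]
        simpa using h1
      obtain ⟨c1, hc1, h1⟩ := exists_mul_mem hfg1 (fun x _ => hfull0 x)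
      obtain ⟨c2, hc2, h2⟩ := exists_mul_mem hfg0 (fun x _ => hfull1 x)
      refine ⟨c1 * c2, Nat.mul_pos hc1 hc2, fun x hx => ?_, fun x hx => ?_⟩
      · rw [mul_comm, mul_smul]; exact AddSubgroup.nsmul_mem _ (h1 x hx) _
      · rw [mul_smul]; exact AddSubgroup.nsmul_mem _ (h2 x hx) _
  obtain ⟨i, j, hij, γ, hγ, hγM⟩ := pigeon (res X0.H e f) hK (res_unimodular hee hff hef X0.uni)
    hL hP (fun i => img (P i) (X i).M) hLoc
  refine ⟨i, j, hij, ((P i).trans γ).trans (P j).symm, fun x y => ?_, ?_⟩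
  · simp only [LinearEquiv.trans_apply]
    rw [← hPi j]
    simp only [LinearEquiv.apply_symm_apply]
    rw [hγ, hPi]
  · have h1 : img γ (img (P i) (X i).M) = img (P j) (X j).M := hγM
    rw [img_trans, img_trans, h1, img_symm_img]

end main

end Crest.Agent.R267.P49b_169
end

-- ▼ part R267/WA_169
section

/-!
# S0407, P4.9: weak approximation (helper169)

`WA`: two unimodular integral matrices `A`, `B` (with `A ± Aᵀ` invertible over `ℚ`) which are
congruent over `ℚ` and over `ℤ_p` for all `p ∣ N` are congruent over `ℚ` by a matrix of denominator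
prime to `N`.
-/

set_option autoImplicit false

namespace Crest.Agent.R267.WA_169

open Matrix Polynomial Filter Topology Crest.Agent.R267.P4Defs_780

section cayley

variable {F n : Type*} [Field F] [Fintype n] [DecidableEq n]

/-- Cayley transform. -/
noncomputable def cay (Y : Matrix n n F) : Matrix n n F := (1 + Y) * (1 - Y)⁻¹

theorem cay_isom {A Y : Matrix n n F} (hY : Yᵀ * A + A * Y = 0) (hu : IsUnit (1 - Y).det) :
    (cay Y)ᵀ * A * cay Y = A := by
  have h1 : (1 + Y)ᵀ * A = A * (1 - Y) := by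
    rw [transpose_add, transpose_one, add_mul, mul_sub, Matrix.one_mul, Matrix.mul_one,
      eq_neg_of_add_eq_zero_left hY, sub_eq_add_neg]
  have h2 : (1 - Y)ᵀ * A = A * (1 + Y) := by
    rw [transpose_sub, transpose_one, sub_mul, mul_add, Matrix.one_mul, Matrix.mul_one,
      eq_neg_of_add_eq_zero_left hY, sub_neg_eq_add]
  have h3 : (1 - Y) * (1 + Y) = (1 + Y) * (1 - Y) := by noncomm_ring
  have h4 : (1 - Y) * (1 - Y)⁻¹ = 1 := Matrix.mul_nonsing_inv _ hu
  have h5 : ((1 - Y)⁻¹)ᵀ * (1 - Y)ᵀ = 1 := by rw [← transpose_mul, h4, transpose_one]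
  calc (cay Y)ᵀ * A * cay Y
      = ((1 - Y)⁻¹)ᵀ * ((1 + Y)ᵀ * A) * (1 + Y) * (1 - Y)⁻¹ := by
        rw [cay, transpose_mul]; simp only [Matrix.mul_assoc]
    _ = ((1 - Y)⁻¹)ᵀ * A * ((1 - Y) * (1 + Y)) * (1 - Y)⁻¹ := by
        rw [h1]; simp only [Matrix.mul_assoc]
    _ = ((1 - Y)⁻¹)ᵀ * (A * (1 + Y)) * ((1 - Y) * (1 - Y)⁻¹) := by
        rw [h3]; simp only [Matrix.mul_assoc]
    _ = (((1 - Y)⁻¹)ᵀ * (1 - Y)ᵀ) * A := by
        rw [h4, ← h2, Matrix.mul_one]; simp only [Matrix.mul_assoc]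
    _ = A := by rw [h5, Matrix.one_mul]

theorem cay_inv [CharZero F] {A g : Matrix n n F} (hg : gᵀ * A * g = A)
    (hu : IsUnit (g + 1).det) :
    ∃ Y : Matrix n n F, Yᵀ * A + A * Y = 0 ∧ IsUnit (1 - Y).det ∧ cay Y = g := by
  have h1 : (g + 1) * (g + 1)⁻¹ = 1 := Matrix.mul_nonsing_inv _ hu
  have h2 : (g + 1)⁻¹ * (g + 1) = 1 := Matrix.nonsing_inv_mul _ hu
  have hY1 : 1 - (g - 1) * (g + 1)⁻¹ = (2 : F) • (g + 1)⁻¹ := by
    calc 1 - (g - 1) * (g + 1)⁻¹ = (g + 1) * (g + 1)⁻¹ - (g - 1) * (g + 1)⁻¹ := by rw [h1]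
      _ = ((g + 1) - (g - 1)) * (g + 1)⁻¹ := (sub_mul _ _ _).symm
      _ = (2 : F) • (g + 1)⁻¹ := by
        rw [show (g + 1) - (g - 1) = (2 : F) • (1 : Matrix n n F) by rw [two_smul]; abel]
        rw [smul_mul_assoc, Matrix.one_mul]
  have hY2 : 1 + (g - 1) * (g + 1)⁻¹ = (2 : F) • (g * (g + 1)⁻¹) := by
    calc 1 + (g - 1) * (g + 1)⁻¹ = (g + 1) * (g + 1)⁻¹ + (g - 1) * (g + 1)⁻¹ := by rw [h1]
      _ = ((g + 1) + (g - 1)) * (g + 1)⁻¹ := (add_mul _ _ _).symm
      _ = (2 : F) • (g * (g + 1)⁻¹) := by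
        rw [show (g + 1) + (g - 1) = (2 : F) • g by rw [two_smul]; abel, smul_mul_assoc]
  have hinv : (1 - (g - 1) * (g + 1)⁻¹)⁻¹ = (1 / 2 : F) • (g + 1) := by
    apply Matrix.inv_eq_right_inv
    rw [hY1, smul_mul_smul_comm, h2]
    norm_num
  refine ⟨(g - 1) * (g + 1)⁻¹, ?_, ?_, ?_⟩
  · have h3 : (g + 1)ᵀ * ((((g - 1) * (g + 1)⁻¹)ᵀ * A + A * ((g - 1) * (g + 1)⁻¹))) * (g + 1)
        = 0 := by
      have h4 : (g + 1)ᵀ * ((g + 1)⁻¹)ᵀ = 1 := by rw [← transpose_mul, h2, transpose_one]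
      calc (g + 1)ᵀ * ((((g - 1) * (g + 1)⁻¹)ᵀ * A + A * ((g - 1) * (g + 1)⁻¹))) * (g + 1)
          = ((g + 1)ᵀ * ((g + 1)⁻¹)ᵀ) * ((g - 1)ᵀ * A * (g + 1)) +
            ((g + 1)ᵀ * A * (g - 1)) * ((g + 1)⁻¹ * (g + 1)) := by
            rw [transpose_mul]; noncomm_ring
        _ = (g - 1)ᵀ * A * (g + 1) + (g + 1)ᵀ * A * (g - 1) := by
            rw [h4, h2, Matrix.one_mul, Matrix.mul_one]
        _ = (gᵀ * A * g + gᵀ * A * g) - (A + A) := by
            rw [transpose_sub, transpose_add, transpose_one]; noncomm_ring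
        _ = 0 := by rw [hg]; abel
    have h4 : ((g + 1)⁻¹)ᵀ * (g + 1)ᵀ = 1 := by rw [← transpose_mul, h1, transpose_one]
    set Z := (((g - 1) * (g + 1)⁻¹)ᵀ * A + A * ((g - 1) * (g + 1)⁻¹))
    calc Z = (((g + 1)⁻¹)ᵀ * (g + 1)ᵀ) * Z * ((g + 1) * (g + 1)⁻¹) := by
          rw [h4, h1, Matrix.one_mul, Matrix.mul_one]
      _ = ((g + 1)⁻¹)ᵀ * ((g + 1)ᵀ * Z * (g + 1)) * (g + 1)⁻¹ := by
          simp only [Matrix.mul_assoc]
      _ = 0 := by rw [h3]; simp
  · rw [hY1, det_smul]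
    exact ((isUnit_iff_ne_zero.2 two_ne_zero).pow _).mul (Matrix.isUnit_nonsing_inv_det _ hu)
  · rw [cay, hinv, hY2, smul_mul_smul_comm, Matrix.mul_assoc, h2]
    norm_num

theorem cay_neg {Y : Matrix n n F} (hu : IsUnit (1 - Y).det) (hu' : IsUnit (1 + Y).det) :
    cay Y * cay (-Y) = 1 ∧ cay (-Y) * cay Y = 1 := by
  have h1 : (1 - Y) * (1 - Y)⁻¹ = 1 := Matrix.mul_nonsing_inv _ hu
  have h2 : (1 + Y) * (1 + Y)⁻¹ = 1 := Matrix.mul_nonsing_inv _ hu'
  have h2' : (1 + Y)⁻¹ * (1 + Y) = 1 := Matrix.nonsing_inv_mul _ hu'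
  have h3 : cay Y * cay (-Y) = 1 := by
    rw [cay, cay, sub_neg_eq_add, ← sub_eq_add_neg]
    calc (1 + Y) * (1 - Y)⁻¹ * ((1 - Y) * (1 + Y)⁻¹)
        = (1 + Y) * ((1 - Y)⁻¹ * (1 - Y)) * (1 + Y)⁻¹ := by simp only [Matrix.mul_assoc]
      _ = 1 := by rw [Matrix.nonsing_inv_mul _ hu, Matrix.mul_one, h2]
  exact ⟨h3, mul_eq_one_comm.1 h3⟩

/-- `a + l b` is invertible for all but finitely many rational `l`. -/
theorem finite_bad [CharZero F] {a b c : Matrix n n F} (hab : a * b = b * a) (hbc : b * c = c * b)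
    (h2 : a + b * c = 2) : {l : ℚ | ¬ IsUnit (a + (l : F) • b).det}.Finite := by
  -- the polynomial
  set f : F[X] := det ((X : F[X]) • b.map C + a.map C) with hf
  have hev : ∀ l : F, f.eval l = (a + l • b).det := by
    intro l
    rw [hf, ← coe_evalRingHom, RingHom.map_det]
    congr 1
    ext i j
    simp only [RingHom.mapMatrix_apply, map_apply, Matrix.add_apply, Matrix.smul_apply,
      smul_eq_mul, coe_evalRingHom, eval_add, eval_mul, eval_X, eval_C]
    ring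
  have hf0 : f ≠ 0 := by
    intro h0
    obtain ⟨v, hv0, hv⟩ := (Matrix.exists_mulVec_eq_zero_iff (M := ((X : F[X]) • b.map C +
      a.map C))).2 (by rw [← hf, h0])
    -- coefficients
    let w : ℕ → n → F := fun k i => (v i).coeff k
    have hco : ∀ (b : Matrix n n F) (i : n) (k : ℕ), ((b.map C).mulVec v i).coeff k =
        b.mulVec (w k) i := by
      intro b i k
      simp only [Matrix.mulVec, dotProduct, map_apply, finsetSum_coeff, coeff_C_mul]
      rfl
    have hv' : ∀ i, X * ((b.map C).mulVec v i) + (a.map C).mulVec v i = 0 := by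
      intro i
      have := congrFun hv i
      rw [Matrix.add_mulVec, Matrix.smul_mulVec] at this
      simpa using this
    have hw0 : a.mulVec (w 0) = 0 := by
      funext i
      have := congrArg (fun p => Polynomial.coeff p 0) (hv' i)
      simp only [coeff_add, Polynomial.mul_coeff_zero, coeff_X_zero, zero_mul, zero_add, hco,
        coeff_zero] at this
      exact this
    have hws : ∀ k, b.mulVec (w k) + a.mulVec (w (k + 1)) = 0 := by
      intro k
      funext i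
      have := congrArg (fun p => Polynomial.coeff p (k + 1)) (hv' i)
      simp only [coeff_add, coeff_X_mul, hco, coeff_zero] at this
      exact this
    have hpow : ∀ k, (a ^ (k + 1)).mulVec (w k) = 0 := by
      intro k
      induction k with
      | zero => rw [zero_add, pow_one]; exact hw0
      | succ k ih =>
        have h3 : a.mulVec (w (k + 1)) = - b.mulVec (w k) :=
          eq_neg_of_add_eq_zero_right (hws k)
        have hcomm : a ^ (k + 1) * b = b * a ^ (k + 1) :=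
          ((show Commute a b from hab).pow_left (k + 1)).eq
        rw [pow_succ, ← Matrix.mulVec_mulVec, h3, Matrix.mulVec_neg, Matrix.mulVec_mulVec,
          hcomm, ← Matrix.mulVec_mulVec, ih, Matrix.mulVec_zero, neg_zero]
    -- the top coefficient
    obtain ⟨N, hN⟩ : ∃ N, ∀ k, N ≤ k → w k = 0 := by
      refine ⟨(Finset.univ.sup fun i => (v i).natDegree) + 1, fun k hk => ?_⟩
      funext i
      apply coeff_eq_zero_of_natDegree_lt
      have : (v i).natDegree ≤ Finset.univ.sup fun i => (v i).natDegree :=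
        Finset.le_sup (f := fun i => (v i).natDegree) (Finset.mem_univ i)
      omega
    have hall : ∀ j k, N ≤ k + j → w k = 0 := by
      intro j
      induction j with
      | zero => intro k hk; exact hN k hk
      | succ j ih =>
        intro k hk
        have h4 : w (k + 1) = 0 := ih (k + 1) (by omega)
        have h5 : b.mulVec (w k) = 0 := by
          have := hws k
          rwa [h4, Matrix.mulVec_zero, add_zero] at this
        -- `2 w_k = a w_k`
        have h6 : a.mulVec (w k) = (2 : F) • w k := by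
          have h7 : (a + b * c).mulVec (w k) = (2 : F) • w k := by
            rw [h2]
            have : (2 : Matrix n n F) = (2 : F) • 1 := by
              rw [two_smul, one_add_one_eq_two]
            rw [this, Matrix.smul_mulVec, Matrix.one_mulVec]
          rw [hbc, Matrix.add_mulVec, ← Matrix.mulVec_mulVec, h5, Matrix.mulVec_zero,
            add_zero] at h7
          exact h7
        have h8 : ∀ m : ℕ, (a ^ m).mulVec (w k) = (2 : F) ^ m • w k := by
          intro m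
          induction m with
          | zero => simp
          | succ m ihm =>
            rw [pow_succ, ← Matrix.mulVec_mulVec, h6, Matrix.mulVec_smul, ihm, smul_smul, pow_succ,
              mul_comm]
        have h9 := hpow k
        rw [h8, smul_eq_zero] at h9
        exact h9.resolve_left (pow_ne_zero _ two_ne_zero)
    apply hv0
    funext i
    ext k
    have : w k = 0 := hall N k (by omega)
    exact congrFun this i
  have hfin : {x : F | f.IsRoot x}.Finite := Polynomial.finite_setOfPred_isRoot hf0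
  refine (hfin.preimage (f := fun l : ℚ => (l : F)) (Rat.cast_injective.injOn)).subset ?_
  intro l hl
  simp only [Set.mem_ofPred_eq, isUnit_iff_ne_zero, not_not] at hl
  simp only [Set.mem_preimage, Set.mem_ofPred_eq, IsRoot.def, hev]
  exact hl

end cayley

section padic

local instance (p : Nat.Primes) : Fact p.1.Prime := ⟨p.2⟩

theorem exists_rho (S : Finset Nat.Primes) (p : Nat.Primes) : ∃ ρ : ℕ → ℤ,
    Tendsto (fun k => ((ρ k : ℤ) : ℚ_[p])) atTop (𝓝 1) ∧
    ∀ q ∈ S, q ≠ p → Tendsto (fun k => ((ρ k : ℤ) : ℚ_[q])) atTop (𝓝 0) := by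
  classical
  set M : ℕ := ∏ q ∈ S.erase p, (q : ℕ) with hM
  have hcop : M.Coprime p := by
    rw [hM]
    refine Nat.Coprime.prod_left fun q hq => ?_
    rw [Nat.coprime_primes q.2 p.2]
    intro h
    exact (Finset.mem_erase.1 hq).1 (Subtype.ext h)
  have hp2 : 2 ≤ (p : ℕ) := p.2.two_le
  refine ⟨fun k => ((M ^ (Nat.totient ((p : ℕ) ^ (k + 1))) : ℕ) : ℤ), ?_, ?_⟩
  · rw [tendsto_iff_norm_sub_tendsto_zero]
    have hlim : Tendsto (fun k : ℕ => ((p : ℝ)⁻¹) ^ (k + 1)) atTop (𝓝 0) := by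
      have h1 : (p : ℝ)⁻¹ < 1 := by
        apply inv_lt_one_of_one_lt₀
        exact_mod_cast p.2.one_lt
      exact (tendsto_pow_atTop_nhds_zero_of_lt_one (by positivity) h1).comp (tendsto_add_atTop_nat 1)
    refine squeeze_zero (fun _ => norm_nonneg _) (fun k => ?_) hlim
    have h2 : M ^ (Nat.totient ((p : ℕ) ^ (k + 1))) ≡ 1 [MOD (p : ℕ) ^ (k + 1)] :=
      Nat.ModEq.pow_totient (hcop.pow_right (k + 1))
    have h3 : (((p : ℕ) ^ (k + 1) : ℕ) : ℤ) ∣
        ((M ^ (Nat.totient ((p : ℕ) ^ (k + 1))) : ℕ) : ℤ) - 1 := by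
      have := (Nat.modEq_iff_dvd.1 h2.symm)
      simpa using this
    have h4 := (Padic.norm_int_le_pow_iff_dvd (p := (p : ℕ))
      (((M ^ (Nat.totient ((p : ℕ) ^ (k + 1))) : ℕ) : ℤ) - 1) (k + 1)).2 (by exact_mod_cast h3)
    rw [_root_.zpow_neg, _root_.zpow_natCast, ← inv_pow] at h4
    rw [Int.cast_sub, Int.cast_one] at h4
    exact h4
  · intro q hq hqp
    have hqM : (q : ℕ) ∣ M := Finset.dvd_prod_of_mem _ (Finset.mem_erase.2 ⟨hqp, hq⟩)
    have h1 : ‖((M : ℤ) : ℚ_[q])‖ < 1 := by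
      rw [Padic.norm_intCast_lt_one_iff]; exact_mod_cast hqM
    have h2 : Tendsto (fun k : ℕ => Nat.totient ((p : ℕ) ^ (k + 1))) atTop atTop := by
      refine tendsto_atTop_mono (fun k => ?_) tendsto_id
      rw [Nat.totient_prime_pow_succ p.2]
      have h3 : k < (p : ℕ) ^ k := Nat.lt_pow_self p.2.one_lt
      have h4 : 1 ≤ (p : ℕ) - 1 := by omega
      calc id k ≤ (p : ℕ) ^ k * 1 := by simp only [id_eq]; omega
        _ ≤ _ := Nat.mul_le_mul_left _ h4
    have h3 := (tendsto_pow_atTop_nhds_zero_of_norm_lt_one h1).comp h2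
    refine h3.congr fun k => ?_
    simp

/-- a `ℚ`-linear map `ℚ_p → ℚ` moving a given matrix as little as we like. -/
theorem exists_phi {ι : Type} [Fintype ι] (p : ℕ) [Fact p.Prime] (Y : Matrix ι ι ℚ_[p])
    {U : Set (Matrix ι ι ℚ_[p])} (hU : U ∈ 𝓝 Y) :
    ∃ φ : ℚ_[p] →ₗ[ℚ] ℚ, Y.map (fun y => ((φ y : ℚ) : ℚ_[p])) ∈ U := by
  classical
  set V0 : Submodule ℚ ℚ_[p] := Submodule.span ℚ (Set.range fun x : ι × ι => Y x.1 x.2) with hV0
  have : Module.Finite ℚ V0 := Module.Finite.span_of_finite ℚ (Set.finite_range _)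
  let b := Module.finBasis ℚ V0
  have hmem : ∀ i j, Y i j ∈ V0 := fun i j => Submodule.subset_span ⟨(i, j), rfl⟩
  let Φ : (Fin (Module.finrank ℚ V0) → ℚ_[p]) → Matrix ι ι ℚ_[p] :=
    fun x i j => ∑ k, ((b.repr ⟨Y i j, hmem i j⟩ k : ℚ) : ℚ_[p]) * x k
  have hΦ : Continuous Φ := by
    refine continuous_pi fun i => continuous_pi fun j => ?_
    exact continuous_finsetSum _ fun k _ =>
      (continuous_const (y := ((b.repr ⟨Y i j, hmem i j⟩ k : ℚ) : ℚ_[p]))).mul
        (continuous_apply (A := fun _ => ℚ_[p]) k)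
  have hb : Φ (fun k => (b k : ℚ_[p])) = Y := by
    ext i j
    have h1 := b.sum_repr ⟨Y i j, hmem i j⟩
    have h2 := congrArg (Subtype.val) h1
    simp only [Submodule.coe_sum, Submodule.coe_smul] at h2
    change ∑ k, ((b.repr ⟨Y i j, hmem i j⟩ k : ℚ) : ℚ_[p]) * (b k : ℚ_[p]) = Y i j
    refine Eq.trans ?_ h2
    refine Finset.sum_congr rfl fun k _ => ?_
    rw [Rat.smul_def]
  have hU' : Φ ⁻¹' U ∈ 𝓝 (fun k => (b k : ℚ_[p])) := by
    apply hΦ.continuousAt
    rw [hb]; exact hU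
  have hdense : DenseRange (Pi.map (fun (_ : Fin (Module.finrank ℚ V0)) (r : ℚ) => (r : ℚ_[p]))) :=
    DenseRange.piMap fun _ => Padic.denseRange_ratCast p
  obtain ⟨_, hx, r, rfl⟩ := mem_closure_iff_nhds.1 (hdense (fun k => (b k : ℚ_[p]))) _ hU'
  obtain ⟨φ, hφ⟩ := LinearMap.exists_extend (b.constr ℚ r)
  refine ⟨φ, ?_⟩
  have hval : ∀ i j, φ (Y i j) = ∑ k, b.repr ⟨Y i j, hmem i j⟩ k * r k := by
    intro i j
    have h1 : φ (Y i j) = (b.constr ℚ r) ⟨Y i j, hmem i j⟩ := by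
      rw [← hφ]; rfl
    rw [h1, Module.Basis.constr_apply_fintype]
    rfl
  have : Y.map (fun y => ((φ y : ℚ) : ℚ_[p])) =
      Φ (Pi.map (fun (_ : Fin (Module.finrank ℚ V0)) (r : ℚ) => (r : ℚ_[p])) r) := by
    ext i j
    simp only [map_apply, hval]
    push_cast
    rfl
  rw [this]; exact hx

theorem not_dvd_den {p : ℕ} [hp : Fact p.Prime] {x : ℚ} (h : ‖(x : ℚ_[p])‖ ≤ 1) : ¬ p ∣ x.den := by
  intro hd
  have h1 : ‖((x.den : ℤ) : ℚ_[p])‖ < 1 := by
    rw [Padic.norm_intCast_lt_one_iff]; exact_mod_cast hd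
  have h2 : (x : ℚ_[p]) * ((x.den : ℤ) : ℚ_[p]) = ((x.num : ℤ) : ℚ_[p]) := by
    have := Rat.mul_den_eq_num x
    exact_mod_cast congrArg (fun y : ℚ => (y : ℚ_[p])) this
  have h3 : ‖((x.num : ℤ) : ℚ_[p])‖ < 1 := by
    rw [← h2, norm_mul]
    calc ‖(x : ℚ_[p])‖ * ‖((x.den : ℤ) : ℚ_[p])‖ ≤ 1 * ‖((x.den : ℤ) : ℚ_[p])‖ :=
          mul_le_mul_of_nonneg_right h (norm_nonneg _)
      _ < 1 := by rw [one_mul]; exact h1
  rw [Padic.norm_intCast_lt_one_iff] at h3
  have h4 : p ∣ x.num.natAbs := Int.natCast_dvd.1 h3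
  have h5 := Nat.dvd_gcd h4 hd
  rw [x.reduced] at h5
  exact hp.out.one_lt.ne' (Nat.dvd_one.1 h5)

/-- `Cayley` is continuous where defined. -/
theorem continuousAt_cay {ι : Type} [Fintype ι] [DecidableEq ι] {p : ℕ} [Fact p.Prime]
    {Y : Matrix ι ι ℚ_[p]} (hu : IsUnit (1 - Y).det) : ContinuousAt (cay (F := ℚ_[p])) Y := by
  have h1 : ContinuousAt (fun Z : Matrix ι ι ℚ_[p] => (1 - Z)⁻¹) Y := by
    have h2 : (fun Z : Matrix ι ι ℚ_[p] => (1 - Z)⁻¹) =
        fun Z => ((1 - Z).det)⁻¹ • (1 - Z).adjugate := by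
      funext Z
      rw [Matrix.inv_def, Ring.inverse_eq_inv']
    rw [h2]
    have h3 : Continuous (fun Z : Matrix ι ι ℚ_[p] => (1 - Z)) := continuous_const.sub continuous_id
    exact (h3.matrix_det.continuousAt.inv₀ hu.ne_zero).smul h3.matrix_adjugate.continuousAt
  have h4 : Continuous (fun Z : Matrix ι ι ℚ_[p] => (1 + Z)) := continuous_const.add continuous_id
  exact h4.continuousAt.mul h1


theorem exists_den {ι κ : Type} [Fintype ι] [Fintype κ] (P : Matrix ι κ ℚ) :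
    ∃ t : ℕ, (∀ p : ℕ, p.Prime → (∀ i j, ¬ p ∣ (P i j).den) → ¬ p ∣ t) ∧
      ∃ X : Matrix ι κ ℤ, (t : ℚ) • P = X.map (Int.cast : ℤ → ℚ) := by
  obtain ⟨t, h1, h2⟩ : ∃ t : ℕ, (∀ x : ι × κ, (P x.1 x.2).den ∣ t) ∧
      (∀ p : ℕ, p.Prime → (∀ i j, ¬ p ∣ (P i j).den) → ¬ p ∣ t) := by
    refine ⟨∏ x : ι × κ, (P x.1 x.2).den, fun x => ?_, fun p hp h => ?_⟩
    · exact Finset.dvd_prod_of_mem (fun x : ι × κ => (P x.1 x.2).den) (Finset.mem_univ x)
    · rw [Prime.dvd_finsetProd_iff hp.prime]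
      rintro ⟨x, _, hx⟩
      exact h _ _ hx
  refine ⟨t, h2, ?_⟩
  have htX : ∀ i j, ∃ m : ℤ, (t : ℚ) * P i j = m := by
    intro i j
    obtain ⟨r, hr⟩ := h1 (i, j)
    refine ⟨r * (P i j).num, ?_⟩
    have h1 := Rat.mul_den_eq_num (P i j)
    simp only at hr
    rw [hr]; push_cast
    linear_combination (r : ℚ) * h1
  choose X1 hX1 using htX
  exact ⟨Matrix.of X1, by ext i j; simp [hX1]⟩

/-- the conclusion of weak approximation. -/
def NearQ {ι κ : Type} [Fintype ι] [Fintype κ] [DecidableEq ι] [DecidableEq κ]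
    (N : ℕ) (A : Matrix ι ι ℤ) (B : Matrix κ κ ℤ) : Prop :=
  ∃ (P : Matrix ι κ ℚ) (P' : Matrix κ ι ℚ), P * P' = 1 ∧ P' * P = 1 ∧
    Pᵀ * A.map (Int.cast : ℤ → ℚ) * P = B.map (Int.cast : ℤ → ℚ) ∧
    ∃ t : ℕ, t.Coprime N ∧ (∃ X : Matrix ι κ ℤ, (t : ℚ) • P = X.map (Int.cast : ℤ → ℚ)) ∧
      ∃ X' : Matrix κ ι ℤ, (t : ℚ) • P' = X'.map (Int.cast : ℤ → ℚ)

set_option maxHeartbeats 800000 in
theorem WA {ι κ : Type} [Fintype ι] [Fintype κ] [DecidableEq ι] [DecidableEq κ]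
    (A : Matrix ι ι ℤ) (B : Matrix κ κ ℤ) (hB : IsUnit B.det)
    (hp : IsUnit (A.map (Int.cast : ℤ → ℚ) + (A.map (Int.cast : ℤ → ℚ))ᵀ).det)
    (hm : IsUnit (A.map (Int.cast : ℤ → ℚ) - (A.map (Int.cast : ℤ → ℚ))ᵀ).det)
    (hQ : CongOver ℚ A B)
    (hloc : ∀ (p : ℕ) [Fact p.Prime], CongOver ℤ_[p] A B) (N : ℕ) (hN : 0 < N) :
    NearQ N A B := by
  classical
  obtain ⟨P0, P0', hPP, hPP', hP⟩ := hQ
  set AQ := A.map (Int.cast : ℤ → ℚ) with hAQ
  set BQ := B.map (Int.cast : ℤ → ℚ) with hBQ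
  -- the primes
  obtain ⟨S, hmemS⟩ : ∃ S : Finset Nat.Primes, ∀ q : Nat.Primes, q ∈ S ↔ (q : ℕ) ∣ 2 * N := by
    have hfin : {q : Nat.Primes | (q : ℕ) ∣ 2 * N}.Finite := by
      refine (((2 * N).divisors.finite_toSet).preimage (f := fun q : Nat.Primes => (q : ℕ))
        (Nat.Primes.coe_nat_injective.injOn)).subset ?_
      intro q hq
      simp only [Set.mem_preimage, Finset.mem_coe, Nat.mem_divisors]
      exact ⟨hq, by omega⟩
    exact ⟨hfin.toFinset, fun q => by rw [Set.Finite.mem_toFinset]; rfl⟩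
  -- the skew element
  set X : Matrix ι ι ℚ := (AQ + AQᵀ)⁻¹ * (AQ - AQᵀ) with hX
  have hSi : (AQ + AQᵀ)⁻¹ * (AQ + AQᵀ) = 1 := Matrix.nonsing_inv_mul _ hp
  have hSi' : (AQ + AQᵀ) * (AQ + AQᵀ)⁻¹ = 1 := Matrix.mul_nonsing_inv _ hp
  have hXdet : IsUnit X.det := by
    rw [hX, det_mul]
    exact (Matrix.isUnit_nonsing_inv_det _ hp).mul hm
  have hXT : Xᵀ * AQ + AQ * X = 0 := by
    have hST : (AQ + AQᵀ)ᵀ = AQ + AQᵀ := by rw [transpose_add, transpose_transpose, add_comm]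
    have hKT : (AQ - AQᵀ)ᵀ = -(AQ - AQᵀ) := by rw [transpose_sub, transpose_transpose, neg_sub]
    have h1 : Xᵀ = -((AQ - AQᵀ) * (AQ + AQᵀ)⁻¹) := by
      rw [hX, transpose_mul, hKT, transpose_nonsing_inv, hST, Matrix.neg_mul]
    have h2 : AQ - AQᵀ = (2 : ℚ) • AQ - (AQ + AQᵀ) := by rw [two_smul]; abel
    have h3 : (AQ - AQᵀ) * (AQ + AQᵀ)⁻¹ * AQ = AQ * ((AQ + AQᵀ)⁻¹ * (AQ - AQᵀ)) := by
      rw [h2, sub_mul, mul_sub, sub_mul, mul_sub, hSi', hSi, Matrix.one_mul, Matrix.mul_one]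
      congr 1
      simp only [Matrix.smul_mul, Matrix.mul_smul, Matrix.mul_assoc]
    rw [h1, Matrix.neg_mul, h3, hX, neg_add_cancel]
  -- local data
  have hdata : ∀ q : Nat.Primes, ∃ g : Matrix ι ι ℚ_[q],
      gᵀ * AQ.map (Rat.cast : ℚ → ℚ_[q]) * g = AQ.map (Rat.cast : ℚ → ℚ_[q]) ∧
      ∀ i j, ‖(g * P0.map (Rat.cast : ℚ → ℚ_[q])) i j‖ ≤ 1 := by
    intro q
    obtain ⟨R, R', hRR, hRR', hR⟩ := hloc q
    set c : ℚ →+* ℚ_[q] := Rat.castHom _ with hc
    set d : ℤ_[q] →+* ℚ_[q] := PadicInt.Coe.ringHom with hd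
    have hcast : ∀ Z : Matrix ι ι ℤ, (Z.map (Int.cast : ℤ → ℚ)).map c =
        (Z.map (Int.cast : ℤ → ℤ_[q])).map d := by
      intro Z; ext i j; simp [hc, hd]
    have hcast' : ∀ Z : Matrix κ κ ℤ, (Z.map (Int.cast : ℤ → ℚ)).map c =
        (Z.map (Int.cast : ℤ → ℤ_[q])).map d := by
      intro Z; ext i j; simp [hc, hd]
    have hR2 : (R.map d)ᵀ * AQ.map c * R.map d = BQ.map c := by
      rw [hAQ, hcast, hBQ, hcast', ← hR, Matrix.map_mul, Matrix.map_mul, transpose_map]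
    have hP2 : (P0.map c)ᵀ * AQ.map c * P0.map c = BQ.map c := by
      rw [← hP, Matrix.map_mul, Matrix.map_mul, transpose_map]
    have hPPc : P0.map c * P0'.map c = 1 := by
      rw [← Matrix.map_mul, hPP]; simp
    have hPPc' : P0'.map c * P0.map c = 1 := by
      rw [← Matrix.map_mul, hPP']; simp
    refine ⟨R.map d * P0'.map c, ?_, ?_⟩
    · have h1 : (P0'.map c)ᵀ * (P0.map c)ᵀ = 1 := by
        rw [← transpose_mul, hPPc, transpose_one]
      calc (R.map d * P0'.map c)ᵀ * AQ.map c * (R.map d * P0'.map c)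
          = (P0'.map c)ᵀ * ((R.map d)ᵀ * AQ.map c * R.map d) * P0'.map c := by
            rw [transpose_mul]; simp only [Matrix.mul_assoc]
        _ = ((P0'.map c)ᵀ * (P0.map c)ᵀ) * AQ.map c * (P0.map c * P0'.map c) := by
            rw [hR2, ← hP2]; simp only [Matrix.mul_assoc]
        _ = AQ.map c := by rw [h1, hPPc, Matrix.one_mul, Matrix.mul_one]
    · intro i j
      have h1 : R.map d * P0'.map c * P0.map c = R.map d := by
        rw [Matrix.mul_assoc, hPPc', Matrix.mul_one]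
      change ‖(R.map d * P0'.map c * P0.map c) i j‖ ≤ 1
      rw [h1]
      exact (R i j).2
  choose g hg hgint using hdata
  -- commutation
  have hcomm : ∀ q : Nat.Primes, X.map (Rat.cast : ℚ → ℚ_[q]) * g q =
      g q * X.map (Rat.cast : ℚ → ℚ_[q]) := by
    intro q
    set c : ℚ →+* ℚ_[q] := Rat.castHom _ with hc
    have hg' := hg q
    change (g q)ᵀ * AQ.map c * g q = AQ.map c at hg'
    have hgT : (g q)ᵀ * (AQᵀ).map c * g q = (AQᵀ).map c := by
      have := congrArg transpose hg'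
      rw [transpose_mul, transpose_mul, transpose_transpose, ← Matrix.mul_assoc] at this
      rw [← transpose_map]; exact this
    have hgS : (g q)ᵀ * (AQ + AQᵀ).map c * g q = (AQ + AQᵀ).map c := by
      rw [Matrix.map_add c (fun _ _ => map_add c _ _), mul_add, add_mul, hg', hgT]
    have hgK : (g q)ᵀ * (AQ - AQᵀ).map c * g q = (AQ - AQᵀ).map c := by
      rw [Matrix.map_sub c (fun _ _ => map_sub c _ _), mul_sub, sub_mul, hg', hgT]
    have hSc : ((AQ + AQᵀ)⁻¹).map c * (AQ + AQᵀ).map c = 1 := by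
      rw [← Matrix.map_mul, hSi]; simp
    have hSc' : (AQ + AQᵀ).map c * ((AQ + AQᵀ)⁻¹).map c = 1 := by
      rw [← Matrix.map_mul, hSi']; simp
    set s := (AQ + AQᵀ).map c
    set s' := ((AQ + AQᵀ)⁻¹).map c
    set k := (AQ - AQᵀ).map c
    have hXc : X.map c = s' * k := by rw [hX, Matrix.map_mul]
    change X.map c * g q = g q * X.map c
    rw [hXc]
    -- `(s' gᵀ s) g = 1`
    have e1 : (s' * (g q)ᵀ * s) * g q = 1 := by
      rw [Matrix.mul_assoc, Matrix.mul_assoc, ← Matrix.mul_assoc (g q)ᵀ, hgS, hSc]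
    have e2 : g q * (s' * (g q)ᵀ * s) = 1 := mul_eq_one_comm.1 e1
    have e3 : g q * s' * (g q)ᵀ = s' := by
      calc g q * s' * (g q)ᵀ = g q * (s' * (g q)ᵀ * s) * s' := by
            simp only [Matrix.mul_assoc, hSc', Matrix.mul_one]
        _ = s' := by rw [e2, Matrix.one_mul]
    calc s' * k * g q = (g q * s' * (g q)ᵀ) * k * g q := by rw [e3]
      _ = g q * s' * ((g q)ᵀ * k * g q) := by simp only [Matrix.mul_assoc]
      _ = g q * (s' * k) := by rw [hgK, Matrix.mul_assoc]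
  -- choice of the parameter
  have hXi : X * X⁻¹ = 1 := Matrix.mul_nonsing_inv _ hXdet
  have hXi' : X⁻¹ * X = 1 := Matrix.nonsing_inv_mul _ hXdet
  have hbad1 : {l : ℚ | ¬ IsUnit ((1 : Matrix ι ι ℚ) + (l : ℚ) • X).det}.Finite := by
    refine (finite_bad (a := 1) (b := X) (c := X⁻¹) (by simp) (by rw [hXi, hXi']) (by
      rw [hXi, one_add_one_eq_two])).subset ?_
    intro l hl
    simpa using hl
  have hbad2 : {l : ℚ | ¬ IsUnit ((1 : Matrix ι ι ℚ) - (l : ℚ) • X).det}.Finite := by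
    refine (finite_bad (a := 1) (b := -X) (c := -X⁻¹) (by simp) (by
      rw [neg_mul_neg, neg_mul_neg, hXi, hXi']) (by
      rw [neg_mul_neg, hXi, one_add_one_eq_two])).subset ?_
    intro l hl
    simpa [sub_eq_add_neg] using hl
  have hbad3 : ∀ q : Nat.Primes, {l : ℚ | ¬ IsUnit ((1 + g q) +
      (l : ℚ_[q]) • ((g q - 1) * X.map (Rat.cast : ℚ → ℚ_[q]))).det}.Finite := by
    intro q
    set c : ℚ →+* ℚ_[q] := Rat.castHom _ with hc
    have hc1 : X.map c * (X⁻¹).map c = 1 := by rw [← Matrix.map_mul, hXi]; simp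
    have hc2 : (X⁻¹).map c * X.map c = 1 := by rw [← Matrix.map_mul, hXi']; simp
    have hc3 : X.map c * g q = g q * X.map c := hcomm q
    have hc4 : (X⁻¹).map c * g q = g q * (X⁻¹).map c := by
      calc (X⁻¹).map c * g q = (X⁻¹).map c * g q * (X.map c * (X⁻¹).map c) := by
            rw [hc1, Matrix.mul_one]
        _ = (X⁻¹).map c * (g q * X.map c) * (X⁻¹).map c := by simp only [Matrix.mul_assoc]
        _ = ((X⁻¹).map c * X.map c) * g q * (X⁻¹).map c := by
            rw [← hc3]; simp only [Matrix.mul_assoc]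
        _ = g q * (X⁻¹).map c := by rw [hc2, Matrix.one_mul]
    refine finite_bad (a := 1 + g q) (b := (g q - 1) * X.map c) (c := -(X⁻¹).map c) ?_ ?_ ?_
    · have : (1 + g q) * (g q - 1) = (g q - 1) * (1 + g q) := by noncomm_ring
      calc (1 + g q) * ((g q - 1) * X.map c) = (g q - 1) * ((1 + g q) * X.map c) := by
            rw [← Matrix.mul_assoc, this, Matrix.mul_assoc]
        _ = (g q - 1) * (X.map c + X.map c * g q) := by rw [add_mul, Matrix.one_mul, ← hc3]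
        _ = (g q - 1) * X.map c * (1 + g q) := by
            rw [Matrix.mul_assoc, mul_add (X.map c), Matrix.mul_one]
    · have e1 : (g q - 1) * X.map c * (X⁻¹).map c = g q - 1 := by
        rw [Matrix.mul_assoc, hc1, Matrix.mul_one]
      have e2 : (X⁻¹).map c * ((g q - 1) * X.map c) = g q - 1 := by
        rw [← Matrix.mul_assoc, mul_sub, hc4, Matrix.mul_one, sub_mul, Matrix.mul_assoc, hc2,
          Matrix.mul_one]
      rw [mul_neg, neg_mul, e1, e2]
    · rw [mul_neg, Matrix.mul_assoc, hc1, Matrix.mul_one]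
      have : (1 + g q) + -(g q - 1) = 1 + 1 := by abel
      rw [this, one_add_one_eq_two]
  obtain ⟨l, hl⟩ := ((hbad1.union hbad2).union (S.finite_toSet.biUnion
    (fun q _ => hbad3 q))).infinite_compl.nonempty
  simp only [Set.mem_compl_iff, Set.mem_union, Set.mem_iUnion, Set.mem_ofPred_eq, not_or,
    not_not, not_exists] at hl
  obtain ⟨⟨hl1, hl2⟩, hl3⟩ := hl
  set X0 : Matrix ι ι ℚ := l • X with hX0
  have hX0L : X0ᵀ * AQ + AQ * X0 = 0 := by
    rw [hX0, transpose_smul, smul_mul_assoc, mul_smul_comm, ← smul_add, hXT, smul_zero]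
  obtain ⟨hcc, hcc'⟩ := cay_neg hl2 hl1
  have hX0iso := cay_isom hX0L hl2
  have hX0iso' : (cay (-X0))ᵀ * AQ * cay (-X0) = AQ := by
    apply cay_isom
    · rw [transpose_neg, neg_mul, mul_neg, ← neg_add, hX0L, neg_zero]
    · rw [sub_neg_eq_add]; exact hl1
  -- local Cayley parameters
  have hY : ∀ q : Nat.Primes, q ∈ S → ∃ Y : Matrix ι ι ℚ_[q],
      Yᵀ * AQ.map (Rat.cast : ℚ → ℚ_[q]) + AQ.map (Rat.cast : ℚ → ℚ_[q]) * Y = 0 ∧
      IsUnit (1 - Y).det ∧ cay Y = g q * (cay X0).map (Rat.cast : ℚ → ℚ_[q]) := by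
    intro q hq
    set c : ℚ →+* ℚ_[q] := Rat.castHom _ with hc
    have hg' : (g q)ᵀ * AQ.map c * g q = AQ.map c := hg q
    have hci : ((cay X0).map c)ᵀ * AQ.map c * (cay X0).map c = AQ.map c := by
      conv_rhs => rw [← hX0iso]
      rw [Matrix.map_mul, Matrix.map_mul, transpose_map]
    apply cay_inv
    · change (g q * (cay X0).map c)ᵀ * AQ.map c * (g q * (cay X0).map c) = AQ.map c
      calc (g q * (cay X0).map c)ᵀ * AQ.map c * (g q * (cay X0).map c)
          = ((cay X0).map c)ᵀ * ((g q)ᵀ * AQ.map c * g q) * (cay X0).map c := by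
            rw [transpose_mul]; simp only [Matrix.mul_assoc]
        _ = AQ.map c := by rw [hg', hci]
    · change IsUnit (g q * (cay X0).map c + 1).det
      have hu : IsUnit ((1 - X0).map c).det := by
        rw [← RingHom.mapMatrix_apply, ← RingHom.map_det]; exact hl2.map c
      have h1 : (cay X0).map c * (1 - X0).map c = (1 + X0).map c := by
        rw [← Matrix.map_mul, cay, Matrix.mul_assoc, Matrix.nonsing_inv_mul _ hl2, Matrix.mul_one]
      have h2 : (g q * (cay X0).map c + 1) * (1 - X0).map c =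
          (1 + g q) + (l : ℚ_[q]) • ((g q - 1) * X.map c) := by
        have h3 : (1 + X0).map c = 1 + (l : ℚ_[q]) • X.map c := by
          rw [Matrix.map_add c (fun _ _ => map_add c _ _), Matrix.map_one c (map_zero c) (map_one c)]
          congr 1
        have h4 : (1 - X0).map c = 1 - (l : ℚ_[q]) • X.map c := by
          rw [Matrix.map_sub c (fun _ _ => map_sub c _ _), Matrix.map_one c (map_zero c) (map_one c)]
          congr 1
        rw [add_mul, Matrix.mul_assoc, h1, h3, h4, mul_add, Matrix.mul_one, Matrix.one_mul,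
          mul_smul_comm, sub_mul, Matrix.one_mul, smul_sub]
        abel
      have h3 := hl3 q hq
      have h4 : IsUnit ((g q * (cay X0).map c + 1) * (1 - X0).map c).det := by rw [h2]; exact h3
      rw [det_mul] at h4
      exact isUnit_of_mul_isUnit_left h4
  choose! Y hYL hYu hYc using hY
  -- neighbourhoods
  let U : ∀ q : Nat.Primes, Set (Matrix ι ι ℚ_[q]) := fun q => {Z | IsUnit (1 - Z).det ∧
    ∀ i j, ‖(cay Z * (cay (-X0)).map (Rat.cast : ℚ → ℚ_[q]) *
      P0.map (Rat.cast : ℚ → ℚ_[q])) i j‖ ≤ 1}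
  have hU : ∀ q ∈ S, U q ∈ 𝓝 (Y q) := by
    intro q hq
    set c : ℚ →+* ℚ_[q] := Rat.castHom _ with hc
    have h1 : ∀ᶠ Z in 𝓝 (Y q), IsUnit (1 - Z).det := by
      have h3 : Continuous (fun Z : Matrix ι ι ℚ_[q] => (1 - Z).det) :=
        (continuous_const.sub continuous_id).matrix_det
      have h4 := h3.continuousAt.eventually_ne (hYu q hq).ne_zero
      exact h4.mono fun Z hZ => isUnit_iff_ne_zero.2 hZ
    have h2 : ContinuousAt (fun Z : Matrix ι ι ℚ_[q] => cay Z * (cay (-X0)).map c * P0.map c)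
        (Y q) := by
      have h5 : Continuous (fun W : Matrix ι ι ℚ_[q] => W * (cay (-X0)).map c * P0.map c) :=
        (continuous_id.matrix_mul continuous_const).matrix_mul continuous_const
      exact h5.continuousAt.comp (continuousAt_cay (hYu q hq))
    have h3 : cay (Y q) * (cay (-X0)).map c * P0.map c = g q * P0.map c := by
      have h4 : cay (Y q) = g q * (cay X0).map c := hYc q hq
      have h5 : (cay X0).map c * (cay (-X0)).map c = 1 := by
        rw [← Matrix.map_mul, hcc, Matrix.map_one c (map_zero c) (map_one c)]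
      rw [h4, Matrix.mul_assoc (g q), h5, Matrix.mul_one]
    have h6 : ∀ i j, ∀ᶠ Z in 𝓝 (Y q), ‖(cay Z * (cay (-X0)).map c * P0.map c) i j‖ ≤ 1 := by
      intro i j
      have h7 : ContinuousAt (fun Z : Matrix ι ι ℚ_[q] =>
          (cay Z * (cay (-X0)).map c * P0.map c) i j) (Y q) := by
        have := (continuous_apply_apply (ρ := fun _ _ => ℚ_[q]) i j).continuousAt.comp h2
        exact this
      have h8 := h7.eventually (Metric.ball_mem_nhds _ one_pos)
      refine h8.mono fun Z hZ => ?_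
      rw [dist_eq_norm] at hZ
      have h9 : (cay Z * (cay (-X0)).map c * P0.map c) i j =
          ((cay Z * (cay (-X0)).map c * P0.map c) i j -
            (cay (Y q) * (cay (-X0)).map c * P0.map c) i j) +
          (cay (Y q) * (cay (-X0)).map c * P0.map c) i j := by ring
      rw [h9]
      refine (Padic.nonarchimedean _ _).trans (max_le hZ.le ?_)
      rw [h3]; exact hgint q i j
    have h10 : ∀ᶠ Z in 𝓝 (Y q), ∀ i j, ‖(cay Z * (cay (-X0)).map c * P0.map c) i j‖ ≤ 1 := by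
      rw [eventually_all]; intro i
      rw [eventually_all]; intro j
      exact h6 i j
    exact h1.and h10
  have hphi : ∀ q : Nat.Primes, q ∈ S → ∃ φ : ℚ_[q] →ₗ[ℚ] ℚ,
      (Y q).map (fun y => ((φ y : ℚ) : ℚ_[q])) ∈ {Z | ∀ᶠ W in 𝓝 Z, W ∈ U q} := fun q hq =>
    exists_phi (q : ℕ) (Y q) (Filter.Eventually.eventually_nhds (hU q hq))
  choose! φ hφ using hphi
  let R : Nat.Primes → Matrix ι ι ℚ := fun q => (Y q).map (φ q)
  have hRL : ∀ q ∈ S, (R q)ᵀ * AQ + AQ * R q = 0 := by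
    intro q hq
    ext i j
    have h1 := congrFun (congrFun (hYL q hq) i) j
    rw [Matrix.add_apply, Matrix.mul_apply, Matrix.mul_apply] at h1
    have h2 := congrArg (φ q) h1
    rw [Matrix.add_apply, Matrix.mul_apply, Matrix.mul_apply]
    rw [Matrix.zero_apply, map_zero, map_add, map_sum, map_sum] at h2
    rw [Matrix.zero_apply, ← h2]
    congr 1
    · refine Finset.sum_congr rfl fun k _ => ?_
      simp only [transpose_apply, map_apply, R]
      rw [mul_comm, mul_comm (Y q k i), ← Rat.smul_def, map_smul, smul_eq_mul]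
    · refine Finset.sum_congr rfl fun k _ => ?_
      simp only [map_apply, R]
      rw [← Rat.smul_def, map_smul, smul_eq_mul]
  choose ρ hρ1 hρ0 using exists_rho S
  let s : ℕ → Matrix ι ι ℚ := fun k => ∑ p ∈ S, ((ρ p k : ℤ) : ℚ) • R p
  have hsL : ∀ k, (s k)ᵀ * AQ + AQ * s k = 0 := by
    intro k
    have : (s k)ᵀ * AQ + AQ * s k = ∑ p ∈ S, ((ρ p k : ℤ) : ℚ) • ((R p)ᵀ * AQ + AQ * R p) := by
      simp only [s, transpose_sum, Matrix.sum_mul, Matrix.mul_sum, ← Finset.sum_add_distrib,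
        transpose_smul, smul_mul_assoc, mul_smul_comm, smul_add]
    rw [this]
    exact Finset.sum_eq_zero fun p hp => by rw [hRL p hp, smul_zero]
  have hlim : ∀ q ∈ S, Tendsto (fun k => (s k).map (Rat.cast : ℚ → ℚ_[q])) atTop
      (𝓝 ((Y q).map (fun y => ((φ q y : ℚ) : ℚ_[q])))) := by
    intro q hq
    refine tendsto_pi_nhds.2 fun i => tendsto_pi_nhds.2 fun j => ?_
    have h1 : ∀ k, (s k).map (Rat.cast : ℚ → ℚ_[q]) i j =
        ∑ p ∈ S, ((ρ p k : ℤ) : ℚ_[q]) * ((R p i j : ℚ) : ℚ_[q]) := by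
      intro k
      simp only [s, map_apply, Matrix.sum_apply, Matrix.smul_apply, smul_eq_mul]
      push_cast
      rfl
    have h2 : (Y q).map (fun y => ((φ q y : ℚ) : ℚ_[q])) i j =
        ∑ p ∈ S, (if p = q then 1 else 0) * ((R p i j : ℚ) : ℚ_[q]) := by
      simp only [ite_mul, one_mul, zero_mul, Finset.sum_ite_eq', hq, if_true]
      rfl
    rw [h2]
    refine (tendsto_finsetSum S fun p hp => ?_).congr fun k => (h1 k).symm
    refine Tendsto.mul ?_ tendsto_const_nhds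
    by_cases hpq : p = q
    · subst hpq
      simpa using hρ1 p
    · rw [if_neg hpq]
      exact hρ0 p q hq (Ne.symm hpq)
  have hev : ∀ᶠ k in atTop, ∀ q ∈ S, (s k).map (Rat.cast : ℚ → ℚ_[q]) ∈ U q := by
    rw [Filter.eventually_all_finset]
    intro q hq
    exact (hlim q hq).eventually (hφ q hq)
  obtain ⟨k, hk⟩ := hev.exists
  have hsLk := hsL k
  set Z := s k with hZ
  clear_value Z
  have h2S : (⟨2, Nat.prime_two⟩ : Nat.Primes) ∈ S := (hmemS _).2 (dvd_mul_right 2 N)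
  have hZu : IsUnit (1 - Z).det := by
    have h1 := (hk _ h2S).1
    set q : Nat.Primes := ⟨2, Nat.prime_two⟩
    set c : ℚ →+* ℚ_[q] := Rat.castHom _ with hc
    have h3 : (1 - Z.map c) = (1 - Z).map c := by
      rw [Matrix.map_sub c (fun _ _ => map_sub c _ _), Matrix.map_one c (map_zero c) (map_one c)]
    change IsUnit (1 - Z.map c).det at h1
    rw [h3, ← RingHom.mapMatrix_apply, ← RingHom.map_det] at h1
    rw [isUnit_iff_ne_zero] at h1 ⊢
    intro h0
    rw [h0, map_zero] at h1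
    exact h1 rfl
  have hZiso := cay_isom hsLk hZu
  set P := cay Z * cay (-X0) * P0 with hPdef
  have hPiso : Pᵀ * AQ * P = BQ := by
    calc Pᵀ * AQ * P = P0ᵀ * ((cay (-X0))ᵀ * ((cay Z)ᵀ * AQ * cay Z) * cay (-X0)) * P0 := by
          rw [hPdef, transpose_mul, transpose_mul]; simp only [Matrix.mul_assoc]
      _ = BQ := by rw [hZiso, hX0iso', hP]
  have hint : ∀ q ∈ S, ∀ i j, ‖((P i j : ℚ) : ℚ_[q])‖ ≤ 1 := by
    intro q hq i j
    set c : ℚ →+* ℚ_[q] := Rat.castHom _ with hc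
    have h1 := (hk q hq).2 i j
    have h3 : (cay Z).map c = cay (Z.map c) := by
      rw [cay, cay, Matrix.map_mul]
      congr 1
      · rw [Matrix.map_add c (fun _ _ => map_add c _ _), Matrix.map_one c (map_zero c) (map_one c)]
      · symm
        apply Matrix.inv_eq_right_inv
        have h4 : (1 - Z.map c) = (1 - Z).map c := by
          rw [Matrix.map_sub c (fun _ _ => map_sub c _ _), Matrix.map_one c (map_zero c) (map_one c)]
        rw [h4, ← Matrix.map_mul, Matrix.mul_nonsing_inv _ hZu,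
          Matrix.map_one c (map_zero c) (map_one c)]
    have h4 : P.map c = cay (Z.map c) * (cay (-X0)).map c * P0.map c := by
      rw [hPdef, Matrix.map_mul, Matrix.map_mul, h3]
    have h5 : ((P i j : ℚ) : ℚ_[q]) = (P.map c) i j := rfl
    rw [h5, h4]
    exact h1
  -- the inverse
  have hBQdet : IsUnit BQ.det := by
    have : BQ = (Int.castRingHom ℚ).mapMatrix B := rfl
    rw [this, ← RingHom.map_det]; exact hB.map _
  have hinv : (BQ⁻¹ * Pᵀ * AQ) * P = 1 := by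
    calc (BQ⁻¹ * Pᵀ * AQ) * P = BQ⁻¹ * (Pᵀ * AQ * P) := by simp only [Matrix.mul_assoc]
      _ = 1 := by rw [hPiso, Matrix.nonsing_inv_mul _ hBQdet]
  have hcard : Fintype.card ι = Fintype.card κ := Matrix.square_of_invertible P0 P0' hPP hPP'
  have hinv' : P * (BQ⁻¹ * Pᵀ * AQ) = 1 :=
    (Matrix.mul_eq_one_comm_of_equiv (Fintype.equivOfCardEq hcard.symm)).mp hinv
  -- the denominator
  obtain ⟨t, ht, X1, hX1'⟩ := exists_den P
  refine ⟨P, BQ⁻¹ * Pᵀ * AQ, hinv', hinv, hPiso, t, ?_, ⟨X1, hX1'⟩, B⁻¹ * X1ᵀ * A, ?_⟩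
  · apply Nat.coprime_of_dvd
    intro p hp h1 h2
    set q : Nat.Primes := ⟨p, hp⟩ with hq
    exact ht p hp (fun i j => not_dvd_den (p := p) (hp := ⟨hp⟩)
      (hint q ((hmemS q).2 (dvd_mul_of_dvd_right h2 2)) i j)) h1
  · have h1 : BQ⁻¹ = (B⁻¹).map (Int.cast : ℤ → ℚ) := by
      apply Matrix.inv_eq_right_inv
      have h2 : (B * B⁻¹).map (Int.castRingHom ℚ) = 1 := by
        rw [Matrix.mul_nonsing_inv _ hB, Matrix.map_one _ (map_zero _) (map_one _)]
      rw [Matrix.map_mul] at h2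
      exact h2
    have h2 : (B⁻¹ * (X1)ᵀ * A).map (Int.castRingHom ℚ) =
        (B⁻¹).map (Int.castRingHom ℚ) * ((X1).map (Int.castRingHom ℚ))ᵀ * AQ := by
      rw [Matrix.map_mul, Matrix.map_mul, transpose_map]; rfl
    change _ = (B⁻¹ * (X1)ᵀ * A).map (Int.castRingHom ℚ)
    rw [h2]
    have h3 : (X1).map (Int.castRingHom ℚ) = (t : ℚ) • P := hX1'.symm
    have h4 : (B⁻¹).map (Int.castRingHom ℚ) = BQ⁻¹ := h1.symm
    rw [h3, h4, transpose_smul, Matrix.mul_smul, Matrix.smul_mul]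

end padic

end Crest.Agent.R267.WA_169
end

-- ▼ part R267/P411b_61

/-!
# S0407, package P4: the monodromy of `F` satisfies `Φ_Q (T ^ (3 u)) = 0` (helper61)
-/

set_option autoImplicit false

namespace Crest.Agent.R267.P411b_61

open Matrix Polynomial Crest.Agent.R267.P4Defs_780 Crest.Agent.R267.P41_339
open Crest.Agent.R267.P411_61

section Alg

variable {R : Type*} [Ring R]

lemma pow_eq_one_of_geom {p : ℕ} {Z : R} (h : ∑ t ∈ Finset.range p, Z ^ t = 0) :
    Z ^ p = 1 := by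
  have h1 := geom_sum_mul Z p
  rw [h, zero_mul] at h1
  exact (sub_eq_zero.1 h1.symm)

/-- the geometric sum is insensitive to prime-to-`p` powers. -/
lemma geom_pow {p a : ℕ} (hp : p.Prime) (ha : ¬ p ∣ a) {Z : R}
    (h : ∑ t ∈ Finset.range p, Z ^ t = 0) : ∑ t ∈ Finset.range p, (Z ^ a) ^ t = 0 := by
  have : Fact p.Prime := ⟨hp⟩
  have : NeZero p := ⟨hp.ne_zero⟩
  have hZ := pow_eq_one_of_geom h
  have hmod : ∀ n : ℕ, Z ^ n = Z ^ (n % p) := by
    intro n
    conv_lhs => rw [← Nat.div_add_mod n p, pow_add, pow_mul, hZ, one_pow, one_mul]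
  have h1 : ∀ f : ℕ → R, ∑ t ∈ Finset.range p, f t = ∑ t : ZMod p, f t.val := by
    intro f
    obtain ⟨p', rfl⟩ : ∃ p', p = p' + 1 := ⟨p - 1, by have := hp.two_le; omega⟩
    exact Finset.sum_range (fun t => f t)
  have ha' : (a : ZMod p) ≠ 0 := by
    rwa [Ne, ZMod.natCast_eq_zero_iff]
  rw [h1 (fun t => (Z ^ a) ^ t)]
  have h2 : ∀ t : ZMod p, (Z ^ a) ^ t.val = Z ^ ((a : ZMod p) * t).val := by
    intro t
    rw [← pow_mul, hmod, ZMod.val_mul, ZMod.val_natCast, Nat.mod_mul_mod]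
  rw [Finset.sum_congr rfl (fun t _ => h2 t)]
  have h3 : Function.Bijective (fun t : ZMod p => (a : ZMod p) * t) :=
    mulLeft_bijective₀ _ ha'
  rw [h3.sum_comp (fun t : ZMod p => Z ^ t.val), ← h1 (fun t => Z ^ t), h]

variable [Algebra ℚ R]

lemma aeval_expand' (p : ℕ) (W : R) (P : ℚ[X]) : aeval W (expand ℚ p P) = aeval (W ^ p) P := by
  rw [expand_aeval]

/-- product of commuting roots of `Φ_a` and `Φ_p`. -/
theorem cyc_mul {p a : ℕ} (hp : p.Prime) (ha0 : 0 < a) (ha : ¬ p ∣ a) {Y Z : R}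
    (hYZ : Commute Y Z) (hY : aeval Y (cyclotomic a ℚ) = 0)
    (hZ : ∑ t ∈ Finset.range p, Z ^ t = 0) :
    aeval (Z * Y) (cyclotomic (a * p) ℚ) = 0 := by
  have hZp := pow_eq_one_of_geom hZ
  have hYa : Y ^ a = 1 := by
    obtain ⟨g, hg⟩ := cyclotomic.dvd_X_pow_sub_one a ℚ
    have h1 := congrArg (aeval Y) hg
    rw [map_mul, hY, zero_mul] at h1
    simpa [sub_eq_zero] using h1
  -- the Bezout identity
  have hB : (X ^ a - 1 : ℚ[X]) * ∑ t ∈ Finset.range p, (X ^ a) ^ t = X ^ (a * p) - 1 := by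
    rw [mul_geom_sum, pow_mul]
  have hsep : (X ^ (a * p) - 1 : ℚ[X]).Separable := by
    have hne : ((a * p : ℕ) : ℚ) ≠ 0 := by
      have : 0 < a * p := Nat.mul_pos ha0 hp.pos
      exact_mod_cast this.ne'
    have := separable_X_pow_sub_C (1 : ℚ) hne one_ne_zero
    simpa using this
  have hco : IsCoprime (cyclotomic a ℚ) (∑ t ∈ Finset.range p, (X ^ a) ^ t) := by
    rw [← hB] at hsep
    exact (hsep.isCoprime).of_isCoprime_of_dvd_left (cyclotomic.dvd_X_pow_sub_one a ℚ)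
  obtain ⟨r, t, hrt⟩ := hco
  have hexp := cyclotomic_expand_eq_cyclotomic_mul hp ha ℚ
  have key : cyclotomic (a * p) ℚ = r * expand ℚ p (cyclotomic a ℚ) +
      t * cyclotomic (a * p) ℚ * ∑ t ∈ Finset.range p, (X ^ a) ^ t := by
    rw [hexp]
    linear_combination (- cyclotomic (a * p) ℚ) * hrt
  have hW1 : (Z * Y) ^ p = Y ^ p := by
    rw [(hYZ.symm).mul_pow, hZp, one_mul]
  have e1 : aeval (Z * Y) (expand ℚ p (cyclotomic a ℚ)) = 0 := by
    rw [aeval_expand', hW1, ← aeval_expand', hexp, map_mul, hY, mul_zero]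
  have e2 : aeval (Z * Y) (∑ t ∈ Finset.range p, ((X : ℚ[X]) ^ a) ^ t) = 0 := by
    rw [map_sum]
    rw [← geom_pow hp ha hZ]
    refine Finset.sum_congr rfl fun t _ => ?_
    rw [map_pow, map_pow, aeval_X, (hYZ.symm).mul_pow, hYa, mul_one]
  rw [key, map_add, map_mul, map_mul, e1, e2, mul_zero, mul_zero, add_zero]

end Alg

/-! ### systems -/

/-- unsigned monodromy over `ℚ`. -/
noncomputable def U1 (c : List ℕ) : Matrix (Fin (mu c)) (Fin (mu c)) ℚ :=
  ((Int.castRingHom ℚ).mapMatrix (compMat c)) ^ mu c.tail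

/-- unsigned monodromy of a system over `ℚ`. -/
noncomputable def Us : (S : List (List ℕ)) → Matrix (Idx S) (Idx S) ℚ
  | [] => 1
  | c :: S => Matrix.kroneckerMap (· * ·) (U1 c) (Us S)

/-- `X ↦ 1 ⊗ X`. -/
noncomputable def kR (c : List ℕ) (S : List (List ℕ)) :
    Matrix (Idx S) (Idx S) ℚ →+* Matrix (Idx (c :: S)) (Idx (c :: S)) ℚ where
  toFun M := Matrix.kroneckerMap (· * ·) (1 : Matrix (Fin (mu c)) (Fin (mu c)) ℚ) M
  map_one' := Matrix.one_kronecker_one (α := ℚ)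
  map_mul' M N := by
    have := Matrix.mul_kronecker_mul (1 : Matrix (Fin (mu c)) (Fin (mu c)) ℚ)
      (1 : Matrix (Fin (mu c)) (Fin (mu c)) ℚ) M N
    rw [Matrix.mul_one] at this
    exact this
  map_zero' := Matrix.kronecker_zero _
  map_add' M N := Matrix.kronecker_add _ M N

/-- `X ↦ X ⊗ 1`. -/
noncomputable def kL (c : List ℕ) (S : List (List ℕ)) :
    Matrix (Fin (mu c)) (Fin (mu c)) ℚ →+* Matrix (Idx (c :: S)) (Idx (c :: S)) ℚ where
  toFun M := Matrix.kroneckerMap (· * ·) M (1 : Matrix (Idx S) (Idx S) ℚ)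
  map_one' := Matrix.one_kronecker_one (α := ℚ)
  map_mul' M N := by
    have := Matrix.mul_kronecker_mul M N (1 : Matrix (Idx S) (Idx S) ℚ)
      (1 : Matrix (Idx S) (Idx S) ℚ)
    rw [Matrix.mul_one] at this
    exact this
  map_zero' := Matrix.zero_kronecker _
  map_add' M N := Matrix.add_kronecker M N _

lemma kLR (c : List ℕ) (S : List (List ℕ)) (A : Matrix (Fin (mu c)) (Fin (mu c)) ℚ)
    (B : Matrix (Idx S) (Idx S) ℚ) :
    kL c S A * kR c S B = Matrix.kroneckerMap (· * ·) A B := by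
  have := Matrix.mul_kronecker_mul A (1 : Matrix (Fin (mu c)) (Fin (mu c)) ℚ)
    (1 : Matrix (Idx S) (Idx S) ℚ) B
  rw [Matrix.mul_one, Matrix.one_mul] at this
  exact this.symm

lemma kRL (c : List ℕ) (S : List (List ℕ)) (A : Matrix (Fin (mu c)) (Fin (mu c)) ℚ)
    (B : Matrix (Idx S) (Idx S) ℚ) :
    kR c S B * kL c S A = Matrix.kroneckerMap (· * ·) A B := by
  have := Matrix.mul_kronecker_mul (1 : Matrix (Fin (mu c)) (Fin (mu c)) ℚ) A B
    (1 : Matrix (Idx S) (Idx S) ℚ)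
  rw [Matrix.mul_one, Matrix.one_mul] at this
  exact this.symm

lemma Us_cons (c : List ℕ) (S : List (List ℕ)) : Us (c :: S) = kL c S (U1 c) * kR c S (Us S) :=
  (kLR c S _ _).symm

lemma kcomm (c : List ℕ) (S : List (List ℕ)) (A : Matrix (Fin (mu c)) (Fin (mu c)) ℚ)
    (B : Matrix (Idx S) (Idx S) ℚ) : Commute (kL c S A) (kR c S B) := by
  show kL c S A * kR c S B = kR c S B * kL c S A
  rw [kLR, kRL]

lemma Us_cons_pow (c : List ℕ) (S : List (List ℕ)) (m : ℕ) :
    Us (c :: S) ^ m = kL c S (U1 c ^ m) * kR c S (Us S ^ m) := by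
  rw [Us_cons, (kcomm c S _ _).mul_pow, map_pow, map_pow]

lemma aeval_kR (c : List ℕ) (S : List (List ℕ)) (M : Matrix (Idx S) (Idx S) ℚ) (P : ℚ[X]) :
    aeval (kR c S M) P = kR c S (aeval M P) := by
  let f : Matrix (Idx S) (Idx S) ℚ →ₐ[ℚ] Matrix (Idx (c :: S)) (Idx (c :: S)) ℚ :=
    (kR c S).toRatAlgHom
  exact aeval_algHom_apply f M P

lemma U1_pow {m : ℕ} {c : List ℕ} (h : OK m c) : U1 c ^ m = 1 := by
  obtain ⟨t, ht⟩ := h.dvd
  unfold U1
  rw [← pow_mul, ht, pow_mul, ← map_pow, comp_pow_prod (Good.of_two h.two), map_one, one_pow]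

lemma U1_single (p : ℕ) : U1 [p] = (Int.castRingHom ℚ).mapMatrix (compMat [p]) := by
  unfold U1
  have : mu ([p] : List ℕ).tail = 1 := rfl
  rw [this, pow_one]

lemma U1_geom {p : ℕ} (hp : 2 ≤ p) : ∑ t ∈ Finset.range p, U1 [p] ^ t = 0 := by
  rw [U1_single]
  have := congrArg ((Int.castRingHom ℚ).mapMatrix) (comp_geom hp)
  rw [map_sum, map_zero] at this
  simpa only [map_pow] using this

theorem cyc_OK {m a : ℕ} : ∀ (S S' : List (List ℕ)), (∀ c ∈ S, OK m c) →
    aeval (Us S' ^ m) (cyclotomic a ℚ) = 0 → aeval (Us (S ++ S') ^ m) (cyclotomic a ℚ) = 0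
  | [], S', _, h => h
  | c :: S, S', hS, h => by
      have ih := cyc_OK S S' (fun c hc => hS c (by simp [hc])) h
      rw [List.cons_append, Us_cons_pow, U1_pow (hS c (by simp)), map_one, one_mul, aeval_kR, ih,
        map_zero]

theorem cyc_primes {m : ℕ} : ∀ (q : List ℕ), (∀ p ∈ q, p.Prime) → q.Nodup →
    (∀ p ∈ q, ¬ p ∣ m) →
    aeval (Us (q.map fun x => [x]) ^ m) (cyclotomic q.prod ℚ) = 0
  | [], _, _, _ => by
      show aeval ((1 : Matrix (Idx []) (Idx []) ℚ) ^ m) (cyclotomic 1 ℚ) = 0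
      rw [one_pow, cyclotomic_one]
      simp
  | p :: q, h1, h2, h3 => by
      have hp := h1 p (by simp)
      rw [List.nodup_cons] at h2
      have ih := cyc_primes (m := m) q (fun p hp => h1 p (by simp [hp])) h2.2
        (fun p hp => h3 p (by simp [hp]))
      have ha0 : 0 < q.prod := Nat.pos_of_ne_zero (by
        intro h0
        rw [List.prod_eq_zero_iff] at h0
        exact (h1 0 (by simp [h0])).ne_zero rfl)
      have ha : ¬ p ∣ q.prod := by
        intro hd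
        rw [hp.prime.dvd_prod_iff] at hd
        obtain ⟨r, hr, hpr⟩ := hd
        have hr' := h1 r (by simp [hr])
        rw [Nat.prime_dvd_prime_iff_eq hp hr'] at hpr
        exact h2.1 (hpr ▸ hr)
      rw [List.map_cons, Us_cons_pow, List.prod_cons, mul_comm p]
      apply cyc_mul hp ha0 ha
      · exact ((kcomm [p] _ _ _).symm)
      · rw [aeval_kR, ih, map_zero]
      · have h4 := geom_pow hp (h3 p (by simp)) (U1_geom hp.two_le)
        have h5 := congrArg (kL [p] (q.map fun x => [x])) h4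
        rw [map_sum, map_zero] at h5
        simpa only [map_pow] using h5

/-- signs: `Tsys = (-1)^nvar Us` over `ℚ`. -/
lemma Tsys_Us : ∀ S : List (List ℕ),
    (Int.castRingHom ℚ).mapMatrix (Tsys S) = ((-1 : ℚ) ^ nvar S) • Us S
  | [] => by
      show (Int.castRingHom ℚ).mapMatrix (1 : Matrix (Idx []) (Idx []) ℤ) = ((-1 : ℚ) ^ 0) •
        (1 : Matrix (Idx []) (Idx []) ℚ)
      rw [map_one, pow_zero, one_smul]
  | c :: S => by
      have ih := Tsys_Us S
      have hn : nvar (c :: S) = c.length + nvar S := by simp [nvar]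
      have h1 : (Int.castRingHom ℚ).mapMatrix (T1 c) = ((-1 : ℚ) ^ c.length) • U1 c := by
        unfold T1 U1
        rw [← map_pow]
        ext i j
        rw [RingHom.mapMatrix_apply, Matrix.map_apply, Matrix.smul_apply, Matrix.smul_apply,
          smul_eq_mul, smul_eq_mul, RingHom.mapMatrix_apply, Matrix.map_apply]
        simp
      rw [hn]
      ext p p'
      have e1 := congrFun (congrFun ih p.2) p'.2
      have e2 := congrFun (congrFun h1 p.1) p'.1
      simp only [RingHom.mapMatrix_apply, Matrix.map_apply, Matrix.smul_apply,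
        smul_eq_mul, eq_intCast] at e1 e2 ⊢
      have e3 : Tsys (c :: S) p p' = T1 c p.1 p'.1 * Tsys S p.2 p'.2 := rfl
      have e4 : Us (c :: S) p p' = U1 c p.1 p'.1 * Us S p.2 p'.2 := rfl
      rw [e3, e4]
      push_cast
      rw [e1, e2]
      ring

section Family

variable {L : List (ℕ × ℕ × ℤ)} {u : ℕ} {q : List ℕ}

/-- `Φ_Q (T ^ (3 u)) = 0`, `Q = ∏ q`. -/
theorem F_cyc (hC : Cert L u) (hA : Aux u q) (s j : ℕ) :
    aeval (Tsys (F L u q s j) ^ (3 * u)) (cyclotomic q.prod ℤ) = 0 := by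
  have hu := hC.big
  set φ := (Int.castRingHom ℚ).mapMatrix (m := Idx (F L u q s j)) with hφ
  have hinj : Function.Injective φ := by
    rw [hφ]
    intro M N h
    ext i k
    have := congrFun (congrFun h i) k
    simpa using this
  apply hinj
  rw [map_zero]
  have h1 : φ (aeval (Tsys (F L u q s j) ^ (3 * u)) (cyclotomic q.prod ℤ)) =
      aeval (φ (Tsys (F L u q s j) ^ (3 * u))) (cyclotomic q.prod ℚ) := by
    rw [← map_cyclotomic q.prod (Int.castRingHom ℚ), aeval_def, aeval_def, hom_eval₂, eval₂_map]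
    congr 1
    exact RingHom.ext_int _ _
  obtain ⟨t, ht⟩ := nvar_F (L := L) hA s j
  have h8 : (-1 : ℚ) ^ (8 * t) = 1 := by rw [pow_mul]; norm_num
  rw [h1, map_pow, hφ, Tsys_Us, ht, h8, one_smul]
  have h2 : F L u q s j = (rep 8 [[3]] ++ rep 8 [[u]] ++ rep (8 * (s - j)) (ZP L) ++
      rep (8 * j) (ZM L)) ++ q.map (fun x => [x]) := rfl
  rw [h2]
  apply cyc_OK
  · intro c hc
    simp only [List.mem_append] at hc
    rcases hc with ((h | h) | h) | h
    · have := mem_rep h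
      rw [List.mem_singleton] at this
      subst this
      exact ok_single (by norm_num) ⟨u, rfl⟩
    · have := mem_rep h
      rw [List.mem_singleton] at this
      subst this
      exact ok_single (by omega) ⟨3, by ring⟩
    · exact ok_ZP hC c (mem_rep h)
    · exact ok_ZM hC c (mem_rep h)
  · apply cyc_primes q hA.prime hA.nodup
    intro p hp hd
    have h3 := hA.prime p hp
    have h4 := (Nat.coprime_list_prod_right_iff.1 (coprime_mq hC hA)) p hp
    have h5 : p ∣ 1 := by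
      rw [← h4]
      exact Nat.dvd_gcd hd dvd_rfl
    exact h3.one_lt.ne' (Nat.dvd_one.1 h5)

end Family

end Crest.Agent.R267.P411b_61
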