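import Mathlib
import Crest.Agent.R267.P4Herm_780

/-!
# S0407, package P4: the ring `Lam m Q R = R[X] / Φ_Q(X^m)` (helper780)

`gx` = class of `X`, `gx ^ (m * Q) = 1`, involution `star gx = gx⁻¹`; the ring is `Good` if `Q` is
odd and not a prime power; `lam` is a perfect symmetric functional.
-/

set_option autoImplicit false

namespace Crest.Agent.R267.P4Lam_780

open Polynomial Crest.Agent.R267.P4Herm_780

/-! ### cyclotomic polynomials -/

theorem cyclotomic_dvd_expand (Q : ℕ) (R : Type*) [CommRing R] (k : ℕ) :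
    k.Coprime Q → 0 < k → cyclotomic Q R ∣ expand R k (cyclotomic Q R) := by
  induction k using Nat.recOnMul with
  | zero => intro _ h; exact absurd h (lt_irrefl _)
  | one => intro _ _; simp
  | prime p hp =>
    intro hc _
    rw [cyclotomic_expand_eq_cyclotomic_mul hp ((Nat.Prime.coprime_iff_not_dvd hp).1 hc)]
    exact dvd_mul_left _ _
  | mul a b ha hb =>
    intro hc h0
    have ha0 : 0 < a := Nat.pos_of_ne_zero (by rintro rfl; simp at h0)
    have hb0 : 0 < b := Nat.pos_of_ne_zero (by rintro rfl; simp at h0)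
    have h1 := ha (Nat.Coprime.coprime_dvd_left (dvd_mul_right a b) hc) ha0
    have h2 := hb (Nat.Coprime.coprime_dvd_left (dvd_mul_left b a) hc) hb0
    have h3 := (expand R a).toRingHom.map_dvd h2
    rw [expand_mul]
    exact h1.trans h3

theorem aeval_pow_cyclotomic {R A : Type*} [CommRing R] [Ring A] [Algebra R A] {Q : ℕ} {t : A}
    (ht : aeval t (cyclotomic Q R) = 0) {k : ℕ} (hk : k.Coprime Q) (hk0 : 0 < k) :
    aeval (t ^ k) (cyclotomic Q R) = 0 := by
  obtain ⟨g, hg⟩ := cyclotomic_dvd_expand Q R k hk hk0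
  rw [← expand_aeval, hg, map_mul, ht, zero_mul]

theorem pow_eq_one_of_cyclotomic {R A : Type*} [CommRing R] [Ring A] [Algebra R A] {Q : ℕ} {t : A}
    (ht : aeval t (cyclotomic Q R) = 0) : t ^ Q = 1 := by
  obtain ⟨g, hg⟩ := cyclotomic.dvd_X_pow_sub_one Q R
  have := congrArg (aeval t) hg
  rw [map_mul, ht, zero_mul] at this
  simpa [sub_eq_zero] using this

/-- for `Q` not a prime power, `1 - ζ` is a unit. -/
theorem isUnit_one_sub {R A : Type*} [CommRing R] [CommRing A] [Algebra R A] {Q : ℕ} {t : A}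
    (ht : aeval t (cyclotomic Q R) = 0) (hQ : ∀ {p : ℕ}, p.Prime → ∀ k : ℕ, p ^ k ≠ Q) :
    IsUnit (1 - t) := by
  have h1 : aeval (1 : A) (cyclotomic Q R) = 1 := by
    have := eval_one_cyclotomic_not_prime_pow (R := R) (n := Q) hQ
    rw [← map_one (algebraMap R A), aeval_algebraMap_apply, coe_aeval_eq_eval, this]
  have h2 : (1 - t) ∣ aeval (1 : A) (cyclotomic Q R) - aeval t (cyclotomic Q R) := by
    simp only [aeval_def, eval₂_eq_eval_map]
    exact sub_dvd_eval_sub _ _ _
  rw [h1, ht, sub_zero] at h2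
  exact isUnit_of_dvd_one h2

/-- a commutative ring with involution containing a unitary root of `Φ_Q`, `Q` odd and not a prime
power, is good. -/
theorem good_of_cyclotomic {R A : Type*} [CommRing R] [CommRing A] [Algebra R A] [StarRing A]
    {Q : ℕ} (t : A) (hs : t * star t = 1) (ht : aeval t (cyclotomic Q R) = 0)
    (hQ : ∀ {p : ℕ}, p.Prime → ∀ k : ℕ, p ^ k ≠ Q) (ho : Odd Q) : Good A := by
  obtain ⟨v, hv⟩ := isUnit_one_sub ht hQ
  have ht2 : aeval (t ^ 2) (cyclotomic Q R) = 0 :=
    aeval_pow_cyclotomic ht (Nat.coprime_two_left.2 ho) (by norm_num)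
  have hu2 := isUnit_one_sub ht2 hQ
  constructor
  · refine ⟨(v⁻¹ : Aˣ), ?_⟩
    have h1 : ((v⁻¹ : Aˣ) : A) * (1 - t) = 1 := by rw [← hv]; simp
    have h2 : star ((v⁻¹ : Aˣ) : A) * (1 - star t) = 1 := by
      have := congrArg star h1
      simpa [star_mul'] using this
    have h3 : (1 - t) * (((v⁻¹ : Aˣ) : A) + star ((v⁻¹ : Aˣ) : A)) = 1 - t := by
      have h4 : 1 - t = - t * (1 - star t) := by linear_combination -hs
      calc (1 - t) * (((v⁻¹ : Aˣ) : A) + star ((v⁻¹ : Aˣ) : A))
          = ((v⁻¹ : Aˣ) : A) * (1 - t) + star ((v⁻¹ : Aˣ) : A) * (1 - t) := by ring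
        _ = 1 + star ((v⁻¹ : Aˣ) : A) * (- t * (1 - star t)) := by rw [h1, ← h4]
        _ = 1 + (- t) * (star ((v⁻¹ : Aˣ) : A) * (1 - star t)) := by ring
        _ = 1 - t := by rw [h2]; ring
    have hu : IsUnit (1 - t) := ⟨v, hv⟩
    apply hu.mul_left_cancel
    rw [h3, mul_one]
  · refine ⟨t - star t, ?_, by simp⟩
    have h5 : (t - star t) * (- t) = 1 - t ^ 2 := by linear_combination hs
    exact isUnit_of_mul_isUnit_left (h5 ▸ hu2)

/-! ### the ring -/

/-- `Ψ = Φ_Q(X^m)`. -/
noncomputable def Psi (m Q : ℕ) (R : Type) [CommRing R] : R[X] := expand R m (cyclotomic Q R)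

/-- `Lam m Q R = R[X] / Φ_Q(X^m)`. -/
def Lam (m Q : ℕ) (R : Type) [CommRing R] : Type := AdjoinRoot (Psi m Q R)

section

variable (m Q : ℕ) (R : Type) [CommRing R]

noncomputable instance : CommRing (Lam m Q R) := inferInstanceAs (CommRing (AdjoinRoot _))
noncomputable instance : Algebra R (Lam m Q R) := inferInstanceAs (Algebra R (AdjoinRoot _))

theorem Psi_monic [NeZero m] : (Psi m Q R).Monic :=
  (cyclotomic.monic Q R).expand (NeZero.pos m)

theorem Psi_natDegree [Nontrivial R] : (Psi m Q R).natDegree = Q.totient * m := by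
  rw [Psi, natDegree_expand, natDegree_cyclotomic]

theorem Psi_dvd : Psi m Q R ∣ X ^ (m * Q) - 1 := by
  have h := (expand R m).toRingHom.map_dvd (cyclotomic.dvd_X_pow_sub_one Q R)
  simpa [Psi, pow_mul] using h

theorem Psi_map {S : Type} [CommRing S] (f : R →+* S) : (Psi m Q R).map f = Psi m Q S := by
  rw [Psi, Psi, map_expand, map_cyclotomic]

/-- the class of `X`. -/
noncomputable def gx : Lam m Q R := AdjoinRoot.root _

variable {m Q R}

theorem ind {P : Lam m Q R → Prop} (h : ∀ f : R[X], P (aeval (gx m Q R) f)) (z : Lam m Q R) :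
    P z := by
  induction z using AdjoinRoot.induction_on with
  | ih f =>
    have : AdjoinRoot.mk (Psi m Q R) f = aeval (gx m Q R) f := (AdjoinRoot.aeval_eq f).symm
    rw [this]; exact h f

theorem aeval_gx : aeval (gx m Q R) (Psi m Q R) = 0 := by
  have : aeval (gx m Q R) (Psi m Q R) = AdjoinRoot.mk (Psi m Q R) (Psi m Q R) :=
    AdjoinRoot.aeval_eq _
  rw [this]; exact AdjoinRoot.mk_self

theorem gx_pow : gx m Q R ^ (m * Q) = 1 := by
  obtain ⟨g, hg⟩ := Psi_dvd m Q R
  have := congrArg (aeval (gx m Q R)) hg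
  rw [map_mul, aeval_gx, zero_mul] at this
  simpa [sub_eq_zero] using this

theorem aeval_gx_pow : aeval (gx m Q R ^ m) (cyclotomic Q R) = 0 := by
  rw [← expand_aeval]; exact aeval_gx

variable [NeZero m] [NeZero Q]

theorem mQ_pos (m Q : ℕ) [NeZero m] [NeZero Q] : 0 < m * Q :=
  Nat.mul_pos (NeZero.pos m) (NeZero.pos Q)

theorem conj_aux : (Psi m Q R).eval₂ (Algebra.ofId R (Lam m Q R))
    (gx m Q R ^ (m * Q - 1)) = 0 := by
  change aeval (gx m Q R ^ (m * Q - 1)) (Psi m Q R) = 0
  rw [Psi, expand_aeval, ← pow_mul, mul_comm, pow_mul]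
  rcases Nat.eq_zero_or_pos (m * Q - 1) with h | h
  · have h1 : m * Q = 1 := by have := mQ_pos m Q; omega
    have h2 : gx m Q R = 1 := by have := gx_pow (m := m) (Q := Q) (R := R); rwa [h1, pow_one] at this
    have h3 := aeval_gx_pow (m := m) (Q := Q) (R := R)
    rw [h2, one_pow] at h3 ⊢
    rw [one_pow]; exact h3
  · apply aeval_pow_cyclotomic aeval_gx_pow _ h
    have h1 : m * Q - 1 + 1 = m * Q := by omega
    have h2 : (m * Q - 1).Coprime (m * Q) := by
      conv_rhs => rw [← h1]
      simp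
    exact Nat.Coprime.coprime_dvd_right (dvd_mul_left Q m) h2

/-- the involution as an algebra homomorphism. -/
noncomputable def conj : Lam m Q R →ₐ[R] Lam m Q R :=
  AdjoinRoot.liftAlgHom _ (Algebra.ofId R _) (gx m Q R ^ (m * Q - 1)) (by exact conj_aux)

theorem conj_gx : conj (gx m Q R) = gx m Q R ^ (m * Q - 1) := AdjoinRoot.lift_root conj_aux

theorem gx_mul_conj : gx m Q R * conj (gx m Q R) = 1 := by
  have h := mQ_pos m Q
  rw [conj_gx, ← pow_succ', show m * Q - 1 + 1 = m * Q by omega]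
  exact gx_pow

theorem conj_conj (z : Lam m Q R) : conj (conj z) = z := by
  have h1 : conj (conj (gx m Q R)) = gx m Q R := by
    have h2 := congrArg conj (gx_mul_conj (m := m) (Q := Q) (R := R))
    rw [map_mul, map_one] at h2
    calc conj (conj (gx m Q R)) = (gx m Q R * conj (gx m Q R)) * conj (conj (gx m Q R)) := by
          rw [gx_mul_conj, one_mul]
      _ = gx m Q R := by rw [mul_assoc, h2, mul_one]
  induction z using ind with
  | h f =>
    rw [← aeval_algHom_apply, ← aeval_algHom_apply, h1]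

noncomputable instance : StarRing (Lam m Q R) where
  star := conj
  star_involutive := conj_conj
  star_mul a b := by rw [map_mul, mul_comm]
  star_add := map_add _

theorem star_def (z : Lam m Q R) : star z = conj z := rfl

@[simp] theorem star_algebraMap (r : R) : star (algebraMap R (Lam m Q R) r) = algebraMap R _ r := by
  rw [star_def, AlgHom.commutes]


theorem gx_mul_star : gx m Q R * star (gx m Q R) = 1 := gx_mul_conj

theorem gx_pow_mul_star (k : ℕ) : gx m Q R ^ k * star (gx m Q R ^ k) = 1 := by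
  rw [star_pow, ← mul_pow, gx_mul_star, one_pow]

theorem good (hQ : ∀ {p : ℕ}, p.Prime → ∀ k : ℕ, p ^ k ≠ Q) (ho : Odd Q) : Good (Lam m Q R) :=
  good_of_cyclotomic (R := R) (gx m Q R ^ m) (gx_pow_mul_star m) aeval_gx_pow hQ ho

end

end Crest.Agent.R267.P4Lam_780
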