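import Mathlib
import Crest.Agent.R267.P4Lam_780
import Crest.Agent.R267.P4Defs_780

-- ▼ part R267/P4Fun_780
section

/-!
# S0407, package P4: a perfect symmetric functional on `Lam m Q R` (helper780)
-/

set_option autoImplicit false

namespace Crest.Agent.R267.P4Fun_780

open Polynomial Crest.Agent.R267.P4Herm_780 Crest.Agent.R267.P4Lam_780

/-- perfect functionals. -/
def Perf {R A : Type} [CommRing R] [CommRing A] [Algebra R A] (lam : A →ₗ[R] R) : Prop :=
  ∀ φ : A →ₗ[R] R, ∃! z : A, ∀ w : A, lam (z * w) = φ w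

theorem Perf.ext {R A : Type} [CommRing R] [CommRing A] [Algebra R A] {lam : A →ₗ[R] R}
    (h : Perf lam) {a b : A} (hab : ∀ w, lam (a * w) = lam (b * w)) : a = b := by
  obtain ⟨z, -, hz⟩ := h (lam.comp (LinearMap.mulLeft R b))
  rw [hz a (fun w => by simpa using hab w), hz b (fun w => by simp)]

/-- multiplication by a unit preserves perfectness. -/
theorem Perf.mul {R A : Type} [CommRing R] [CommRing A] [Algebra R A] {lam : A →ₗ[R] R}
    (h : Perf lam) (v : Aˣ) : Perf (lam.comp (LinearMap.mulLeft R (v : A))) := by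
  intro φ
  obtain ⟨z, hz, hz'⟩ := h φ
  refine ⟨((v⁻¹ : Aˣ) : A) * z, fun w => ?_, fun y hy => ?_⟩
  · rw [← hz w]
    simp only [LinearMap.comp_apply, LinearMap.mulLeft_apply]
    rw [← mul_assoc, ← mul_assoc]; simp
  · have : (v : A) * y = z := hz' _ (fun w => by
      rw [← hy w]
      simp only [LinearMap.comp_apply, LinearMap.mulLeft_apply, mul_assoc])
    rw [← this, ← mul_assoc]; simp

section

variable {m Q : ℕ} {R : Type} [CommRing R] [NeZero m]

theorem modByMonic_eq_self_of_degree_lt' {f g : R[X]} (h : f.natDegree < g.natDegree) :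
    f %ₘ g = f := by
  by_cases hg : g.Monic
  · nontriviality R
    exact (modByMonic_eq_self_iff hg).2 (degree_lt_degree h)
  · exact modByMonic_eq_of_not_monic _ hg

/-- the coefficient of `X ^ (D - 1)`, `D` = degree of `Psi`. -/
noncomputable def tau (m Q : ℕ) (R : Type) [CommRing R] [NeZero m] : Lam m Q R →ₗ[R] R :=
  (lcoeff R ((Psi m Q R).natDegree - 1)).comp (AdjoinRoot.modByMonicHom (Psi_monic m Q R))

theorem tau_aeval {f : R[X]} (hf : f.natDegree < (Psi m Q R).natDegree) :
    tau m Q R (aeval (gx m Q R) f) = f.coeff ((Psi m Q R).natDegree - 1) := by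
  have h1 : aeval (gx m Q R) f = AdjoinRoot.mk (Psi m Q R) f := AdjoinRoot.aeval_eq f
  rw [h1]
  change (AdjoinRoot.modByMonicHom (Psi_monic m Q R) (AdjoinRoot.mk (Psi m Q R) f)).coeff _ = _
  rw [AdjoinRoot.modByMonicHom_mk, modByMonic_eq_self_of_degree_lt' hf]

variable [Nontrivial R]

theorem tau_pow {k : ℕ} (hk : k < (Psi m Q R).natDegree) :
    tau m Q R (gx m Q R ^ k) = if k = (Psi m Q R).natDegree - 1 then 1 else 0 := by
  have h1 : gx m Q R ^ k = aeval (gx m Q R) (X ^ k : R[X]) := by simp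
  rw [h1, tau_aeval (by rwa [natDegree_X_pow]), coeff_X_pow]
  simp [eq_comm]

/-- the power basis. -/
noncomputable def bas (m Q : ℕ) (R : Type) [CommRing R] [NeZero m] :
    Module.Basis (Fin (Psi m Q R).natDegree) R (Lam m Q R) :=
  (AdjoinRoot.powerBasis' (Psi_monic m Q R)).basis

omit [Nontrivial R] in
theorem bas_apply (i : Fin (Psi m Q R).natDegree) : bas m Q R i = gx m Q R ^ (i : ℕ) :=
  (AdjoinRoot.powerBasis' (Psi_monic m Q R)).basis_eq_pow i

instance : Module.Free R (Lam m Q R) := (Psi_monic m Q R).free_adjoinRoot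
instance : Module.Finite R (Lam m Q R) := (Psi_monic m Q R).finite_adjoinRoot

theorem tau_perf (hD : 0 < (Psi m Q R).natDegree) : Perf (tau m Q R) := by
  set D := (Psi m Q R).natDegree with hDdef
  let N : Matrix (Fin D) (Fin D) R :=
    Matrix.of fun i j => tau m Q R (bas m Q R i * bas m Q R j)
  have hN : IsUnit N.det := by
    have h1 : (N.submatrix id (Fin.revPerm : Equiv.Perm (Fin D))).det = 1 := by
      rw [Matrix.det_of_isLowerTriangular]
      · apply Finset.prod_eq_one
        intro i _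
        simp only [N, Matrix.submatrix_apply, id, Matrix.of_apply, bas_apply, Fin.revPerm_apply,
          Fin.val_rev]
        rw [← pow_add, tau_pow (by omega), if_pos (by omega)]
      · intro i j hij
        have hij' : (i : ℕ) < j := hij
        simp only [N, Matrix.submatrix_apply, id, Matrix.of_apply, bas_apply, Fin.revPerm_apply,
          Fin.val_rev]
        rw [← pow_add, tau_pow (by omega), if_neg (by omega)]
    rw [Matrix.det_permute'] at h1
    exact IsUnit.of_mul_eq_one_right _ h1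
  intro φ
  have key : ∀ z : Lam m Q R, (∀ w, tau m Q R (z * w) = φ w) ↔
      Matrix.vecMul (fun i => (bas m Q R).repr z i) N = fun j => φ (bas m Q R j) := by
    intro z
    have hz : ∀ j, Matrix.vecMul (fun i => (bas m Q R).repr z i) N j =
        tau m Q R (z * bas m Q R j) := by
      intro j
      conv_rhs => rw [← (bas m Q R).sum_repr z, Finset.sum_mul, map_sum]
      simp only [Matrix.vecMul, dotProduct, N, Matrix.of_apply, smul_mul_assoc, map_smul,
        smul_eq_mul]
    constructor
    · intro h; ext j; rw [hz, h]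
    · intro h w
      have h2 : (tau m Q R).comp (LinearMap.mulLeft R z) = φ := by
        apply (bas m Q R).ext
        intro j
        rw [LinearMap.comp_apply, LinearMap.mulLeft_apply, ← hz, h]
      exact congrArg (fun f => f w) h2
  let c : Fin D → R := Matrix.vecMul (fun j => φ (bas m Q R j)) N⁻¹
  refine ⟨∑ i, c i • bas m Q R i, ?_, ?_⟩
  · refine (key _).2 ?_
    have h3 : (fun i => (bas m Q R).repr (∑ i, c i • bas m Q R i) i) = c := by
      ext i
      rw [(bas m Q R).repr_sum_self]
    rw [h3]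
    simp only [c]
    rw [Matrix.vecMul_vecMul, Matrix.nonsing_inv_mul _ hN, Matrix.vecMul_one]
  · intro y hy
    have h4 := (key y).1 hy
    have h5 : (fun i => (bas m Q R).repr y i) = c := by
      simp only [c]
      rw [← h4, Matrix.vecMul_vecMul, Matrix.mul_nonsing_inv _ hN, Matrix.vecMul_one]
    conv_lhs => rw [← (bas m Q R).sum_repr y]
    exact Finset.sum_congr rfl fun i _ => by rw [← h5]

end

section

variable {m Q : ℕ} {R : Type} [CommRing R] [Nontrivial R] [NeZero m] [NeZero Q]

theorem Psi_coeff_zero (hQ : 1 < Q) : (Psi m Q R).coeff 0 = 1 := by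
  rw [coeff_zero_eq_eval_zero, Psi, expand_eval, zero_pow (NeZero.ne m),
    ← coeff_zero_eq_eval_zero, cyclotomic_coeff_zero R hQ]

theorem tau_star_gx (hQ : 1 < Q) (hD : 0 < (Psi m Q R).natDegree) :
    tau m Q R (star (gx m Q R)) = -1 := by
  have h1 : star (gx m Q R) = - aeval (gx m Q R) (divX (Psi m Q R)) := by
    have h2 := congrArg (aeval (gx m Q R)) (divX_mul_X_add (Psi m Q R))
    rw [map_add, map_mul, aeval_X, aeval_C, Psi_coeff_zero hQ, map_one, aeval_gx] at h2
    have h3 := gx_mul_star (m := m) (Q := Q) (R := R)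
    linear_combination (star (gx m Q R)) * h2 - (aeval (gx m Q R) (divX (Psi m Q R))) * h3
  rw [h1, map_neg, tau_aeval, coeff_divX]
  · have h4 := (Psi_monic m Q R).coeff_natDegree
    rw [show (Psi m Q R).natDegree - 1 + 1 = (Psi m Q R).natDegree by omega, h4]
  · rw [natDegree_divX_eq_natDegree_tsub_one]; omega

theorem tau_star' (hQ : 1 < Q) (hD : 2 ≤ (Psi m Q R).natDegree) (w : Lam m Q R) :
    tau m Q R w = tau m Q R (-(gx m Q R ^ ((Psi m Q R).natDegree - 2)) * star w) := by
  have h : tau m Q R = (tau m Q R).comp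
      ((LinearMap.mulLeft R (-(gx m Q R ^ ((Psi m Q R).natDegree - 2)))).comp
        (conj (m := m) (Q := Q) (R := R)).toLinearMap) := by
    apply (bas m Q R).ext
    intro k
    have hk := k.2
    simp only [LinearMap.comp_apply, LinearMap.mulLeft_apply, AlgHom.toLinearMap_apply]
    rw [bas_apply, ← star_def, star_pow, neg_mul, map_neg]
    by_cases h0 : (k : ℕ) = (Psi m Q R).natDegree - 1
    · have h1 : gx m Q R ^ ((Psi m Q R).natDegree - 2) * star (gx m Q R) ^ (k : ℕ) =
          star (gx m Q R) := by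
        rw [h0, show (Psi m Q R).natDegree - 1 = (Psi m Q R).natDegree - 2 + 1 by omega,
          pow_succ, ← mul_assoc, ← mul_pow, gx_mul_star, one_pow, one_mul]
      rw [h1, tau_star_gx hQ (by omega), tau_pow hk, if_pos h0, neg_neg]
    · have h1 : gx m Q R ^ ((Psi m Q R).natDegree - 2) * star (gx m Q R) ^ (k : ℕ) =
          gx m Q R ^ ((Psi m Q R).natDegree - 2 - k) := by
        have h2 : (Psi m Q R).natDegree - 2 = ((Psi m Q R).natDegree - 2 - k) + k := by omega
        conv_lhs => rw [h2, pow_add, mul_assoc, ← mul_pow, gx_mul_star, one_pow, mul_one]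
      rw [h1, tau_pow hk, if_neg h0, tau_pow (by omega), if_neg (by omega), neg_zero]
  exact congrArg (fun f => f w) h

/-- `ζ - ζ⁻¹`, `ζ = gx ^ m`. -/
noncomputable def skew (m Q : ℕ) (R : Type) [CommRing R] [NeZero m] [NeZero Q] : Lam m Q R :=
  gx m Q R ^ m - star (gx m Q R ^ m)

omit [Nontrivial R] in
theorem star_skew : star (skew m Q R) = - skew m Q R := by
  simp [skew]

omit [Nontrivial R] in
theorem isUnit_skew (hQ : ∀ {p : ℕ}, p.Prime → ∀ k : ℕ, p ^ k ≠ Q) (ho : Odd Q) :
    IsUnit (skew m Q R) := by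
  have ht2 : aeval ((gx m Q R ^ m) ^ 2) (cyclotomic Q R) = 0 :=
    aeval_pow_cyclotomic aeval_gx_pow (Nat.coprime_two_left.2 ho) (by norm_num)
  have hu2 := isUnit_one_sub ht2 hQ
  have h5 : skew m Q R * (- (gx m Q R ^ m)) = 1 - (gx m Q R ^ m) ^ 2 := by
    have := gx_pow_mul_star (m := m) (Q := Q) (R := R) m
    unfold skew
    linear_combination this
  exact isUnit_of_mul_isUnit_left (h5 ▸ hu2)

/-- a symmetric perfect functional. -/
noncomputable def lam (m Q : ℕ) (R : Type) [CommRing R] [NeZero m] [NeZero Q] :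
    Lam m Q R →ₗ[R] R :=
  (tau m Q R).comp (LinearMap.mulLeft R (gx m Q R ^ ((Psi m Q R).natDegree / 2 - 1) * skew m Q R))

theorem natDegree_even (hQ : 2 < Q) : Even (Psi m Q R).natDegree := by
  rw [Psi_natDegree]; exact (Nat.totient_even hQ).mul_right m

theorem two_le_natDegree (hQ : 2 < Q) : 2 ≤ (Psi m Q R).natDegree := by
  have h1 := natDegree_even (m := m) (R := R) hQ
  have h2 : 0 < (Psi m Q R).natDegree := by
    rw [Psi_natDegree]
    exact Nat.mul_pos (Nat.totient_pos.2 (by omega)) (NeZero.pos m)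
  obtain ⟨k, hk⟩ := h1
  omega

theorem lam_star (hQ : 2 < Q) (z : Lam m Q R) : lam m Q R (star z) = lam m Q R z := by
  have hD := two_le_natDegree (m := m) (R := R) hQ
  obtain ⟨k, hk⟩ := natDegree_even (m := m) (R := R) hQ
  simp only [lam, LinearMap.comp_apply, LinearMap.mulLeft_apply]
  conv_rhs => rw [tau_star' (by omega) hD]
  congr 1
  rw [star_mul', star_mul', star_skew]
  have h2 : (Psi m Q R).natDegree / 2 - 1 = k - 1 := by omega
  have h3 : (Psi m Q R).natDegree - 2 = (k - 1) + (k - 1) := by omega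
  rw [h2, h3, pow_add]
  have h4 := gx_pow_mul_star (m := m) (Q := Q) (R := R) (k - 1)
  linear_combination (-(gx m Q R ^ (k - 1)) * skew m Q R * star z) * h4

theorem lam_perf (hQ2 : 2 < Q) (hQ : ∀ {p : ℕ}, p.Prime → ∀ k : ℕ, p ^ k ≠ Q) (ho : Odd Q) :
    Perf (lam m Q R) := by
  have hD := two_le_natDegree (m := m) (R := R) hQ2
  have hg : IsUnit (gx m Q R) := IsUnit.of_mul_eq_one _ gx_mul_star
  obtain ⟨v, hv⟩ := (hg.pow ((Psi m Q R).natDegree / 2 - 1)).mul (isUnit_skew (m := m) (R := R) hQ ho)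
  have h := (tau_perf (m := m) (Q := Q) (R := R) (by omega)).mul v
  rw [hv] at h
  exact h

end

end Crest.Agent.R267.P4Fun_780
end

-- ▼ part R267/P4Brg_780

/-!
# S0407, package P4: bridge between Seifert forms and hermitian forms over `Lam m Q R` (helper780)

* `toH`: a symmetric `R`-bilinear form `b` with `b (z • x) y = b x (star z • y)` is
  `lam (h x y)` for a unique hermitian form `h`; `b` perfect implies `h` unimodular.
* `LT m Q L T`: `L` perfect, `L x (T y) = L y x`, `Psi(T) = 0`.  `LT.mod`: the `Lam`-module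
  structure, `LT.hform`: the hermitian form; `LT.unimod`, `LT.of_isom`, `LT.to_isom`.
* `MatLT`: the same for matrices; `MatLT.cong_of_isom`.
-/

set_option autoImplicit false
set_option linter.unusedSectionVars false

namespace Crest.Agent.R267.P4Brg_780

open Polynomial Matrix Crest.Agent.R267.P4Herm_780 Crest.Agent.R267.P4Lam_780
  Crest.Agent.R267.P4Fun_780 Crest.Agent.R267.P4Defs_780

/-! ### abstract bridge -/

section Abs

variable {R A : Type} [CommRing R] [CommRing A] [Algebra R A] {lam : A →ₗ[R] R}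
  {M : Type} [AddCommGroup M] [Module R M] [Module A M] [IsScalarTower R A M]

/-- the functional `w ↦ b x (w • y)`. -/
def fn (A : Type) [CommRing A] [Algebra R A] [Module A M] [IsScalarTower R A M]
    (b : M →ₗ[R] M →ₗ[R] R) (x y : M) : A →ₗ[R] R where
  toFun w := b x (w • y)
  map_add' := by intro w w'; rw [add_smul, map_add]
  map_smul' := by intro r w; rw [smul_assoc, map_smul]; rfl

/-- the hermitian form of `b`. -/
noncomputable def hh (hp : Perf lam) (b : M →ₗ[R] M →ₗ[R] R) (x y : M) : A :=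
  (hp (fn A b x y)).choose

theorem hh_spec (hp : Perf lam) (b : M →ₗ[R] M →ₗ[R] R) (x y : M) (w : A) :
    lam (hh hp b x y * w) = b x (w • y) := (hp (fn A b x y)).choose_spec.1 w

theorem hh_eq (hp : Perf lam) (b : M →ₗ[R] M →ₗ[R] R) {x y : M} {z : A}
    (hz : ∀ w, lam (z * w) = b x (w • y)) : hh hp b x y = z :=
  hp.ext fun w => by rw [hh_spec, hz]

theorem lam_hh (hp : Perf lam) (b : M →ₗ[R] M →ₗ[R] R) (x y : M) :
    lam (hh hp b x y) = b x y := by
  have := hh_spec hp b x y 1
  rwa [mul_one, one_smul] at this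

variable [StarRing A]

/-- the hermitian form of a symmetric equivariant bilinear form. -/
noncomputable def toH (hp : Perf lam) (hs : ∀ z, lam (star z) = lam z)
    (b : M →ₗ[R] M →ₗ[R] R) (hsym : ∀ x y, b x y = b y x)
    (hb : ∀ (z : A) x y, b (z • x) y = b x (star z • y)) : HForm A M where
  h := hh hp b
  add_right x y z := hh_eq hp b fun w => by
    rw [add_mul, map_add, hh_spec, hh_spec, smul_add, map_add]
  smul_right a x y := hh_eq hp b fun w => by
    rw [mul_comm a, mul_assoc, hh_spec, smul_smul, mul_comm a w]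
  symm x y := by
    symm
    apply hh_eq hp b
    intro w
    have h1 : star (hh hp b x y) * w = star (hh hp b x y * star w) := by
      rw [star_mul', star_star]
    rw [h1, hs, hh_spec, ← hb, hsym]


theorem toH_unimodular (hp : Perf lam) (hs : ∀ z, lam (star z) = lam z)
    (b : M →ₗ[R] M →ₗ[R] R) (hsym : ∀ x y, b x y = b y x)
    (hb : ∀ (z : A) x y, b (z • x) y = b x (star z • y)) (hbij : Function.Bijective b) :
    (toH hp hs b hsym hb).Unimodular := by
  constructor
  · intro x x' hxx
    apply hbij.1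
    ext y
    have h1 : hh hp b x y = hh hp b x' y := congrArg (fun f => f y) hxx
    rw [← lam_hh hp b x y, ← lam_hh hp b x' y, h1]
  · intro f
    let φ : M →ₗ[R] R :=
      { toFun := fun y => lam (f y)
        map_add' := by intro y y'; rw [map_add, map_add]
        map_smul' := by
          intro r y
          rw [← algebraMap_smul A r y, map_smul, smul_eq_mul, ← Algebra.smul_def, map_smul]
          rfl }
    obtain ⟨x, hx⟩ := hbij.2 φ
    refine ⟨x, ?_⟩
    ext y
    apply hh_eq hp b
    intro w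
    have h1 : b x (w • y) = φ (w • y) := by rw [hx]
    rw [h1]
    change lam (f y * w) = lam (f (w • y))
    rw [map_smul, smul_eq_mul, mul_comm]

end Abs

/-! ### the `Lam`-module of a Seifert form -/

section Mod

variable {m Q : ℕ} {R : Type} [CommRing R] {M : Type} [AddCommGroup M] [Module R M]

/-- the ring homomorphism `Lam m Q R → End M`, `gx ↦ T`. -/
noncomputable def lamHom (T : Module.End R M) (hT : aeval T (Psi m Q R) = 0) :
    Lam m Q R →+* Module.End R M :=
  Ideal.Quotient.lift (Ideal.span {Psi m Q R}) (aeval T : R[X] →ₐ[R] Module.End R M).toRingHom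
    (by
      intro a ha
      obtain ⟨c, rfl⟩ := Ideal.mem_span_singleton'.1 ha
      change aeval T (c * Psi m Q R) = 0
      rw [map_mul, hT, mul_zero])

theorem lamHom_aeval (T : Module.End R M) (hT : aeval T (Psi m Q R) = 0) (f : R[X]) :
    lamHom T hT (aeval (gx m Q R) f) = aeval T f := by
  have h1 : aeval (gx m Q R) f = AdjoinRoot.mk (Psi m Q R) f := AdjoinRoot.aeval_eq f
  rw [h1]
  exact Ideal.Quotient.lift_mk _ _ _

/-- the module structure, `gx • x = T x`. -/
@[reducible] noncomputable def lamModule (T : Module.End R M) (hT : aeval T (Psi m Q R) = 0) :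
    Module (Lam m Q R) M := Module.compHom M (lamHom T hT)

theorem smul_aeval' (T : Module.End R M) (hT : aeval T (Psi m Q R) = 0) (f : R[X]) (x : M) :
    letI := lamModule T hT
    aeval (gx m Q R) f • x = aeval T f x := by
  change lamHom T hT (aeval (gx m Q R) f) x = _
  rw [lamHom_aeval]


theorem isScalarTower' (T : Module.End R M) (hT : aeval T (Psi m Q R) = 0) :
    letI := lamModule T hT
    IsScalarTower R (Lam m Q R) M := by
  let _ := lamModule T hT
  constructor
  intro r z x
  induction z using ind with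
  | h f =>
    rw [← map_smul]
    change lamHom T hT _ x = r • lamHom T hT _ x
    rw [lamHom_aeval, lamHom_aeval, map_smul]; rfl

end Mod

/-- perfect `L` with monodromy `T` annihilated by `Psi`. -/
structure LT (m Q : ℕ) {R M : Type} [CommRing R] [AddCommGroup M] [Module R M]
    (L : M →ₗ[R] M →ₗ[R] R) (T : Module.End R M) : Prop where
  bij : Function.Bijective L
  mono : ∀ x y, L x (T y) = L y x
  psi : aeval T (Psi m Q R) = 0

namespace LT

variable {m Q : ℕ} {R M M' : Type} [CommRing R] [AddCommGroup M] [Module R M]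
  [AddCommGroup M'] [Module R M']
  {L : M →ₗ[R] M →ₗ[R] R} {T : Module.End R M} {L' : M' →ₗ[R] M' →ₗ[R] R} {T' : Module.End R M'}

theorem inv (h : LT m Q L T) (x y : M) : L (T x) (T y) = L x y := by
  rw [h.mono, h.mono]

theorem inv_pow (h : LT m Q L T) (k : ℕ) (x y : M) : L ((T ^ k) x) ((T ^ k) y) = L x y := by
  induction k with
  | zero => rfl
  | succ k ih => rw [pow_succ', Module.End.mul_apply, Module.End.mul_apply, h.inv, ih]

theorem pow_n (h : LT m Q L T) : T ^ (m * Q) = 1 := by
  obtain ⟨g, hg⟩ := Psi_dvd m Q R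
  have := congrArg (aeval T) hg
  rw [map_mul, h.psi, zero_mul] at this
  simpa [sub_eq_zero] using this

theorem pow_pred [NeZero m] [NeZero Q] (h : LT m Q L T) (x : M) :
    T ((T ^ (m * Q - 1)) x) = x := by
  have h0 := mQ_pos m Q
  rw [← Module.End.mul_apply, ← pow_succ', show m * Q - 1 + 1 = m * Q by omega, h.pow_n]; rfl

theorem right_inj [NeZero m] [NeZero Q] (h : LT m Q L T) {a b : M} (hab : ∀ w, L w a = L w b) :
    a = b := by
  have h1 : (T ^ (m * Q - 1)) a = (T ^ (m * Q - 1)) b := by
    apply h.bij.1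
    ext w
    have h2 := h.mono w ((T ^ (m * Q - 1)) a)
    have h3 := h.mono w ((T ^ (m * Q - 1)) b)
    rw [h.pow_pred] at h2 h3
    rw [← h2, ← h3, hab]
  rw [← h.pow_pred a, h1, h.pow_pred]

/-- isometries commute with the monodromy. -/
theorem comm [NeZero m] [NeZero Q] (h : LT m Q L T) (h' : LT m Q L' T') (g : M ≃ₗ[R] M')
    (hg : ∀ x y, L' (g x) (g y) = L x y) (x : M) : g (T x) = T' (g x) := by
  apply h'.right_inj
  intro w
  obtain ⟨v, rfl⟩ := g.surjective w
  rw [hg, h.mono, h'.mono, hg]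

/-! the symmetric form `b x y = L x (T^k y)`, `k = (n + 1) / 2`, `n = m Q` odd. -/

/-- `b x y = L x (T^k y)`. -/
noncomputable def bb (m Q : ℕ) (L : M →ₗ[R] M →ₗ[R] R) (T : Module.End R M) :
    M →ₗ[R] M →ₗ[R] R := L.compl₂ (T ^ ((m * Q + 1) / 2))

theorem bb_apply (x y : M) : bb m Q L T x y = L x ((T ^ ((m * Q + 1) / 2)) y) := rfl

theorem L_apply (h : LT m Q L T) (ho : Odd (m * Q)) (x y : M) :
    L x y = bb m Q L T x ((T ^ ((m * Q - 1) / 2)) y) := by
  obtain ⟨k, hk⟩ := ho
  rw [bb_apply, ← Module.End.mul_apply, ← pow_add,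
    show (m * Q + 1) / 2 + (m * Q - 1) / 2 = m * Q by omega, h.pow_n]; rfl

theorem bb_symm (h : LT m Q L T) (ho : Odd (m * Q)) (x y : M) :
    bb m Q L T x y = bb m Q L T y x := by
  obtain ⟨k, hk⟩ := ho
  have e1 : (m * Q + 1) / 2 = k + 1 := by omega
  have h1 := h.mono ((T ^ (k + 1)) x) y
  have h2 := h.inv_pow (k + 1) x ((T ^ (k + 1)) y)
  have h3 : (T ^ (k + 1)) ((T ^ (k + 1)) y) = T y := by
    rw [← Module.End.mul_apply, ← pow_add, show k + 1 + (k + 1) = m * Q + 1 by omega, pow_succ,
      h.pow_n]; rfl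
  rw [h3] at h2
  rw [bb_apply, bb_apply, e1, ← h1, h2]

theorem bb_T [NeZero m] [NeZero Q] (h : LT m Q L T) (x y : M) :
    bb m Q L T (T x) y = bb m Q L T x ((T ^ (m * Q - 1)) y) := by
  have h0 := mQ_pos m Q
  have h1 := h.inv x ((T ^ (m * Q - 1)) ((T ^ ((m * Q + 1) / 2)) y))
  rw [h.pow_pred] at h1
  rw [bb_apply, bb_apply, h1, ← Module.End.mul_apply, ← Module.End.mul_apply, ← pow_add,
    ← pow_add, add_comm]

theorem bb_T_pow [NeZero m] [NeZero Q] (h : LT m Q L T) (k : ℕ) (x y : M) :
    bb m Q L T ((T ^ k) x) y = bb m Q L T x (((T ^ (m * Q - 1)) ^ k) y) := by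
  induction k generalizing x y with
  | zero => rfl
  | succ k ih =>
    rw [pow_succ, Module.End.mul_apply, ih, h.bb_T, pow_succ', Module.End.mul_apply]

theorem bb_smul [NeZero m] [NeZero Q] (h : LT m Q L T) (z : Lam m Q R) (x y : M) :
    letI := lamModule T h.psi
    bb m Q L T (z • x) y = bb m Q L T x (star z • y) := by
  let _ := lamModule T h.psi
  induction z using ind with
  | h f =>
    have e1 : star (aeval (gx m Q R) f) = aeval (gx m Q R) (f.comp (X ^ (m * Q - 1))) := by
      rw [aeval_comp, star_def, ← aeval_algHom_apply, conj_gx, map_pow, aeval_X]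
    rw [e1]
    clear e1
    change bb m Q L T (lamHom T h.psi _ x) y = bb m Q L T x (lamHom T h.psi _ y)
    rw [lamHom_aeval, lamHom_aeval, aeval_comp, map_pow, aeval_X]
    induction f using Polynomial.induction_on' with
    | add p q hp hq =>
      simp only [map_add, LinearMap.add_apply] at hp hq ⊢
      rw [hp, hq]
    | monomial k r =>
      rw [aeval_monomial, aeval_monomial]
      simp only [Module.End.mul_apply, Module.algebraMap_end_apply, map_smul, LinearMap.smul_apply]
      rw [h.bb_T_pow]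

theorem pow_surj [NeZero m] [NeZero Q] (h : LT m Q L T) (k : ℕ) (y : M) :
    (T ^ k) ((T ^ (k * (m * Q - 1))) y) = y := by
  have h0 := mQ_pos m Q
  have e : k + k * (m * Q - 1) = (m * Q) * k := by
    obtain ⟨n, hn⟩ : ∃ n, m * Q = n + 1 := ⟨m * Q - 1, by omega⟩
    rw [hn, Nat.add_sub_cancel]; ring
  rw [← Module.End.mul_apply, ← pow_add, e, pow_mul, h.pow_n, one_pow]; rfl

theorem pow_surj' [NeZero m] [NeZero Q] (h : LT m Q L T) (k : ℕ) (y : M) :
    (T ^ (k * (m * Q - 1))) ((T ^ k) y) = y := by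
  rw [← Module.End.mul_apply, ← pow_add, add_comm, pow_add, Module.End.mul_apply, h.pow_surj]

theorem bb_bij [NeZero m] [NeZero Q] (h : LT m Q L T) : Function.Bijective (bb m Q L T) := by
  constructor
  · intro x x' hxx
    apply h.bij.1
    ext y
    have h1 := congrArg (fun f => f ((T ^ ((m * Q + 1) / 2 * (m * Q - 1))) y)) hxx
    simp only [bb_apply, h.pow_surj] at h1
    exact h1
  · intro φ
    obtain ⟨x, hx⟩ := h.bij.2 (φ.comp (T ^ ((m * Q + 1) / 2 * (m * Q - 1))))
    refine ⟨x, ?_⟩
    ext y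
    rw [bb_apply, hx, LinearMap.comp_apply, h.pow_surj']

end LT

/-- `Q` is odd and not a prime power. -/
structure GoodQ (Q : ℕ) : Prop where
  two : 2 < Q
  npp : ∀ {p : ℕ}, p.Prime → ∀ k : ℕ, p ^ k ≠ Q
  odd : Odd Q

namespace LT

variable {m Q : ℕ} {R M M' : Type} [CommRing R] [AddCommGroup M] [Module R M]
  [AddCommGroup M'] [Module R M'] [Nontrivial R] [NeZero m] [NeZero Q]
  {L : M →ₗ[R] M →ₗ[R] R} {T : Module.End R M} {L' : M' →ₗ[R] M' →ₗ[R] R} {T' : Module.End R M'}

/-- the hermitian form of a Seifert form. -/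
noncomputable def hform (h : LT m Q L T) (hQ : GoodQ Q) (hm : Odd m) :
    @HForm (Lam m Q R) M _ _ _ (lamModule T h.psi) :=
  letI := lamModule T h.psi
  haveI := isScalarTower' T h.psi
  toH (lam_perf hQ.two hQ.npp hQ.odd) (lam_star hQ.two) (bb m Q L T) (h.bb_symm (hm.mul hQ.odd))
    h.bb_smul

theorem hform_unimodular (h : LT m Q L T) (hQ : GoodQ Q) (hm : Odd m) :
    letI := lamModule T h.psi
    (h.hform hQ hm).Unimodular := by
  let _ := lamModule T h.psi
  have := isScalarTower' T h.psi
  exact toH_unimodular _ _ _ _ _ h.bb_bij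

theorem lam_hform (h : LT m Q L T) (hQ : GoodQ Q) (hm : Odd m) (x y : M) :
    letI := lamModule T h.psi
    lam m Q R ((h.hform hQ hm).h x y) = bb m Q L T x y := by
  let _ := lamModule T h.psi
  have := isScalarTower' T h.psi
  exact lam_hh (lam_perf hQ.two hQ.npp hQ.odd) (bb m Q L T) x y

theorem gx_pow_smul (h : LT m Q L T) (k : ℕ) (x : M) :
    letI := lamModule T h.psi
    gx m Q R ^ k • x = (T ^ k) x := by
  have h1 : lamHom T h.psi (aeval (gx m Q R) (X ^ k : R[X])) x = aeval T (X ^ k : R[X]) x := by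
    rw [lamHom_aeval]
  have e1 : aeval (gx m Q R) (X ^ k : R[X]) = gx m Q R ^ k := by simp
  have e2 : aeval T (X ^ k : R[X]) = T ^ k := by simp
  rw [e1, e2] at h1
  exact h1

/-- an isometry of the hermitian forms is an isometry of the Seifert forms. -/
theorem of_isom (h : LT m Q L T) (h' : LT m Q L' T') (hQ : GoodQ Q) (hm : Odd m)
    (e : @HForm.Isom (Lam m Q R) M M' _ _ _ (lamModule T h.psi) _ (lamModule T' h'.psi)
      (h.hform hQ hm) (h'.hform hQ hm)) :
    ∃ g : M ≃ₗ[R] M', ∀ x y, L' (g x) (g y) = L x y := by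
  let _ := lamModule T h.psi
  let _ := lamModule T' h'.psi
  have := isScalarTower' T h.psi
  have := isScalarTower' T' h'.psi
  obtain ⟨g, hg⟩ := e
  refine ⟨g.restrictScalars R, fun x y => ?_⟩
  have ho := hm.mul hQ.odd
  have h1 : ∀ x y, bb m Q L' T' (g x) (g y) = bb m Q L T x y := by
    intro x y
    rw [← h.lam_hform hQ hm, ← h'.lam_hform hQ hm, hg]
  change L' (g x) (g y) = L x y
  rw [h.L_apply ho, h'.L_apply ho, ← h1]
  congr 1
  rw [← h.gx_pow_smul, map_smul, ← h'.gx_pow_smul]

/-- an isometry of the Seifert forms is an isometry of the hermitian forms. -/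
theorem to_isom (h : LT m Q L T) (h' : LT m Q L' T') (hQ : GoodQ Q) (hm : Odd m)
    (g : M ≃ₗ[R] M') (hg : ∀ x y, L' (g x) (g y) = L x y) :
    letI := lamModule T h.psi
    letI := lamModule T' h'.psi
    ∃ g' : M ≃ₗ[Lam m Q R] M', (∀ x, g' x = g x) ∧
      ∀ x y, (h'.hform hQ hm).h (g' x) (g' y) = (h.hform hQ hm).h x y := by
  let _ := lamModule T h.psi
  let _ := lamModule T' h'.psi
  have := isScalarTower' T h.psi
  have := isScalarTower' T' h'.psi
  have hT : ∀ x, g (T x) = T' (g x) := h.comm h' g hg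
  have hTk : ∀ (k : ℕ) x, g ((T ^ k) x) = (T' ^ k) (g x) := by
    intro k
    induction k with
    | zero => intro x; rfl
    | succ k ih => intro x; rw [pow_succ', pow_succ', Module.End.mul_apply, Module.End.mul_apply, hT, ih]
  have hz : ∀ (z : Lam m Q R) x, g (z • x) = z • g x := by
    intro z x
    induction z using ind with
    | h f =>
      change g (lamHom T h.psi _ x) = lamHom T' h'.psi _ (g x)
      rw [lamHom_aeval, lamHom_aeval]
      induction f using Polynomial.induction_on' with
      | add p q hp hq => simp only [map_add, LinearMap.add_apply]; rw [hp, hq]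
      | monomial k r =>
        rw [aeval_monomial, aeval_monomial]
        simp only [Module.End.mul_apply, Module.algebraMap_end_apply, map_smul]
        rw [hTk]
  refine ⟨{ g with map_smul' := hz }, fun x => rfl, fun x y => ?_⟩
  change hh (lam_perf hQ.two hQ.npp hQ.odd) (bb m Q L' T') (g x) (g y) =
    hh (lam_perf hQ.two hQ.npp hQ.odd) (bb m Q L T) x y
  apply hh_eq
  intro w
  rw [hh_spec, ← hz, bb_apply, bb_apply, ← hTk, hg]

end LT

/-! ### matrices -/

/-- unimodular matrix with monodromy `T` annihilated by `Psi`. -/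
structure MatLT (m Q : ℕ) {R ι : Type} [CommRing R] [Fintype ι] [DecidableEq ι]
    (A T : Matrix ι ι R) : Prop where
  det : IsUnit A.det
  mono : A * T = Aᵀ
  psi : aeval T (Psi m Q R) = 0

namespace MatLT

variable {m Q : ℕ} {R ι κ : Type} [CommRing R] [Fintype ι] [DecidableEq ι] [Fintype κ]
  [DecidableEq κ]

theorem map {S : Type} [CommRing S] {A T : Matrix ι ι R} (h : MatLT m Q A T) (f : R →+* S) :
    MatLT m Q (A.map f) (T.map f) := by
  refine ⟨?_, ?_, ?_⟩
  · have := h.det.map f
    rwa [RingHom.map_det] at this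
  · rw [← Matrix.map_mul, h.mono, Matrix.transpose_map]
  · have h1 := congrArg f.mapMatrix h.psi
    rw [map_zero] at h1
    have h2 : f.mapMatrix (aeval T (Psi m Q R)) = aeval (f.mapMatrix T) (Psi m Q S) := by
      rw [← Psi_map m Q R f, aeval_def, aeval_def, hom_eval₂, eval₂_map]
      congr 1
      ext r i j
      simp [Matrix.algebraMap_matrix_apply, apply_ite f]
    rw [h2] at h1
    exact h1

/-- the Seifert form of a matrix. -/
noncomputable def form (A : Matrix ι ι R) : (ι → R) →ₗ[R] (ι → R) →ₗ[R] R :=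
  Matrix.toLinearMap₂' R A

theorem form_apply (A : Matrix ι ι R) (x y : ι → R) : form A x y = x ⬝ᵥ (A *ᵥ y) :=
  Matrix.toLinearMap₂'_apply' _ _ _

theorem toLT {A T : Matrix ι ι R} (h : MatLT m Q A T) : LT m Q (form A) (Matrix.toLin' T) := by
  refine ⟨?_, ?_, ?_⟩
  · constructor
    · intro x x' hxx
      have h1 : ∀ y, x ⬝ᵥ (A *ᵥ y) = x' ⬝ᵥ (A *ᵥ y) := fun y => by
        rw [← form_apply, ← form_apply, hxx]
      have h2 : ∀ z, x ⬝ᵥ z = x' ⬝ᵥ z := by
        intro z
        have := h1 (A⁻¹ *ᵥ z)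
        rwa [Matrix.mulVec_mulVec, Matrix.mul_nonsing_inv _ h.det, Matrix.one_mulVec] at this
      exact dotProduct_eq _ _ h2
    · intro φ
      refine ⟨(fun i => φ (Pi.single i 1)) ᵥ* A⁻¹, ?_⟩
      apply LinearMap.pi_ext'
      intro i
      ext
      simp only [LinearMap.comp_apply, LinearMap.single_apply]
      rw [form_apply, ← Matrix.dotProduct_mulVec, Matrix.mulVec_mulVec,
        Matrix.nonsing_inv_mul _ h.det, Matrix.one_mulVec]
      simp
  · intro x y
    rw [form_apply, form_apply, Matrix.toLin'_apply, Matrix.mulVec_mulVec, h.mono,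
      Matrix.mulVec_transpose, dotProduct_comm, Matrix.dotProduct_mulVec]
  · have h1 : aeval (Matrix.toLin' T) (Psi m Q R) = Matrix.toLinAlgEquiv' (aeval T (Psi m Q R)) := by
      rw [← aeval_algHom_apply (Matrix.toLinAlgEquiv' (R := R) (n := ι))]
      rfl
    rw [h1, h.psi, map_zero]

theorem cong_of_isometry {A : Matrix ι ι R} {B : Matrix κ κ R} (g : (ι → R) ≃ₗ[R] (κ → R))
    (hg : ∀ x y, form B (g x) (g y) = form A x y) : Cong R B A := by
  refine ⟨LinearMap.toMatrix' (g : (ι → R) →ₗ[R] (κ → R)),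
    LinearMap.toMatrix' (g.symm : (κ → R) →ₗ[R] (ι → R)), ?_, ?_, ?_⟩
  · rw [← LinearMap.toMatrix'_comp]; simp
  · rw [← LinearMap.toMatrix'_comp]; simp
  · have hP : ∀ x, LinearMap.toMatrix' (g : (ι → R) →ₗ[R] (κ → R)) *ᵥ x = g x := by
      intro x; rw [← Matrix.toLin'_apply, Matrix.toLin'_toMatrix']; rfl
    have h1 : ∀ x y : ι → R, x ⬝ᵥ
        (((LinearMap.toMatrix' (g : (ι → R) →ₗ[R] (κ → R)))ᵀ * B *
          LinearMap.toMatrix' (g : (ι → R) →ₗ[R] (κ → R))) *ᵥ y) = x ⬝ᵥ (A *ᵥ y) := by
      intro x y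
      have h2 := hg x y
      rw [form_apply, form_apply] at h2
      rw [← h2, ← Matrix.mulVec_mulVec, ← Matrix.mulVec_mulVec, hP, Matrix.mulVec_transpose,
        dotProduct_comm, ← Matrix.dotProduct_mulVec, hP, dotProduct_comm]
    ext i j
    have h3 := h1 (Pi.single i 1) (Pi.single j 1)
    simpa using h3


/-- FINAL STEP of `LOCSQ`: isometric hermitian forms give congruent matrices. -/
theorem cong_of_isom [Nontrivial R] [NeZero m] [NeZero Q] {A T : Matrix ι ι R}
    {B S : Matrix κ κ R} (hA : MatLT m Q A T) (hB : MatLT m Q B S) (hQ : GoodQ Q) (hm : Odd m)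
    (e : @HForm.Isom (Lam m Q R) (ι → R) (κ → R) _ _ _ (lamModule (Matrix.toLin' T) hA.toLT.psi) _
      (lamModule (Matrix.toLin' S) hB.toLT.psi)
      (hA.toLT.hform hQ hm) (hB.toLT.hform hQ hm)) : Cong R B A := by
  obtain ⟨g, hg⟩ := hA.toLT.of_isom hB.toLT hQ hm e
  exact cong_of_isometry g hg

end MatLT

end Crest.Agent.R267.P4Brg_780
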