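import Mathlib
import Crest.Agent.R267.P4Herm_780
import Crest.Agent.R267.P48_118
import Crest.Agent.R267.P4Brg_780

-- ▼ part R267/P47Fin_118
section

/-!
# S0407, node P4.7a (helper118): hermitian forms over a finite reduced ring with involution
(element of trace one, skew unit) are classified by the underlying module.
-/

set_option autoImplicit false

namespace Crest.Agent.R267.P47Fin_118

open Crest.Agent.R267.P4Herm_780 Crest.Agent.R267.P4Herm_780.HForm Crest.Agent.R267.P48_118

/-- norms are surjective for a nontrivial involution of a finite field. -/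
theorem norm_surj {K : Type*} [Field K] [Finite K] (σ : K →+* K) (hσ : ∀ x, σ (σ x) = x)
    (hne : ∃ r, σ r ≠ r) (a : K) (ha : σ a = a) (ha0 : a ≠ 0) : ∃ l : K, l * σ l = a := by
  classical
  let s : Kˣ →* Kˣ := Units.map (σ : K →* K)
  have hs : ∀ u : Kˣ, ((s u : Kˣ) : K) = σ (u : K) := fun u => rfl
  let N : Kˣ →* Kˣ := MonoidHom.id Kˣ * s
  let D : Kˣ →* Kˣ := MonoidHom.id Kˣ / s
  have hN : ∀ u, N u = u * s u := fun u => rfl
  have hD : ∀ u, D u = u / s u := fun u => rfl
  have hker : N.ker = D.range := by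
    ext u
    rw [MonoidHom.mem_ker, MonoidHom.mem_range, hN]
    constructor
    · intro h
      have hk : (u : K) * σ (u : K) = 1 := by
        have := congrArg (fun v : Kˣ => (v : K)) h
        simpa [hs] using this
      -- Hilbert 90
      obtain ⟨t, ht⟩ : ∃ t : K, t + u * σ t ≠ 0 := by
        by_contra hcon
        push Not at hcon
        have h1 := hcon 1
        rw [map_one, mul_one] at h1
        obtain ⟨r, hr⟩ := hne
        have h2 := hcon r
        have h3 : (u : K) = -1 := by linear_combination h1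
        rw [h3] at h2
        apply hr
        linear_combination - h2
      refine ⟨Units.mk0 _ ht, ?_⟩
      rw [hD, div_eq_iff_eq_mul]
      ext
      simp only [Units.val_mk0, Units.val_mul, hs, map_add, map_mul, hσ]
      linear_combination (- t) * hk
    · rintro ⟨v, rfl⟩
      rw [hD]
      ext
      simp only [Units.val_mul, hs, Units.val_div_eq_div_val, map_div₀, hσ, Units.val_one]
      have h1 : (v : K) ≠ 0 := v.ne_zero
      have h2 : σ (v : K) ≠ 0 := by
        intro h
        apply h1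
        rw [← hσ (v : K), h, map_zero]
      field_simp
  have hle : N.range ≤ D.ker := by
    rintro _ ⟨v, rfl⟩
    rw [MonoidHom.mem_ker, hD, hN, div_eq_one]
    ext
    simp only [Units.val_mul, hs, map_mul, hσ]
    ring
  have hcard : Nat.card N.range = Nat.card D.ker := by
    have h1 := Subgroup.card_mul_index N.ker
    have h2 := Subgroup.card_mul_index D.ker
    rw [Subgroup.index_ker] at h1 h2
    rw [hker] at h1
    have h3 : 0 < Nat.card D.range := Nat.card_pos
    have : Nat.card D.range * Nat.card N.range = Nat.card D.range * Nat.card D.ker := by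
      rw [h1, mul_comm, h2]
    exact Nat.eq_of_mul_eq_mul_left h3 this
  have heq : N.range = D.ker := Subgroup.eq_of_le_of_card_ge hle hcard.ge
  have hmem : Units.mk0 a ha0 ∈ D.ker := by
    rw [MonoidHom.mem_ker, hD, div_eq_one]
    ext
    simp [hs, ha]
  rw [← heq] at hmem
  obtain ⟨l, hl⟩ := hmem
  refine ⟨l, ?_⟩
  have := congrArg (fun v : Kˣ => (v : K)) hl
  simpa [hN, hs] using this


section ring

variable {R : Type*} [CommRing R] [IsArtinianRing R] [IsReduced R]

/-- an element with prescribed residues. -/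
theorem exists_residues (v : ∀ I : MaximalSpectrum R, R ⧸ I.asIdeal) :
    ∃ b : R, ∀ I : MaximalSpectrum R, Ideal.Quotient.mk I.asIdeal b = v I := by
  obtain ⟨b, hb⟩ := (IsArtinianRing.equivPi R).surjective v
  exact ⟨b, fun I => by rw [← hb, IsArtinianRing.equivPi_apply]⟩

/-- an element congruent to prescribed elements. -/
theorem exists_residues' (v : MaximalSpectrum R → R) :
    ∃ b : R, ∀ I : MaximalSpectrum R, b - v I ∈ I.asIdeal := by
  obtain ⟨b, hb⟩ := exists_residues (R := R) (fun I => Ideal.Quotient.mk I.asIdeal (v I))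
  exact ⟨b, fun I => Ideal.Quotient.eq.1 (hb I)⟩

theorem exists_prim (I : MaximalSpectrum R) :
    ∃ p : R, p - 1 ∈ I.asIdeal ∧ ∀ J : MaximalSpectrum R, J ≠ I → p ∈ J.asIdeal := by
  classical
  obtain ⟨p, hp⟩ := exists_residues' (R := R) (fun J => if J = I then 1 else 0)
  refine ⟨p, by simpa using hp I, fun J hJ => ?_⟩
  simpa [hJ] using hp J

omit [IsArtinianRing R] [IsReduced R] in
theorem notMem_of_sub_one {I : MaximalSpectrum R} {p : R} (h : p - 1 ∈ I.asIdeal) :
    p ∉ I.asIdeal := by
  intro hp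
  apply I.isMaximal.ne_top
  rw [Ideal.eq_top_iff_one]
  have := I.asIdeal.sub_mem hp h
  simpa using this

/-- the quasi-inverse of an element outside of the ideals not containing `e`. -/
theorem exists_inv_on {e b : R} (he : e * e = e)
    (h : ∀ I : MaximalSpectrum R, e ∉ I.asIdeal → b ∉ I.asIdeal) :
    ∃ c : R, c * b = e ∧ e * c = c := by
  obtain ⟨q, hq⟩ := exists_quasiInv b
  refine ⟨e * q, ?_, by rw [← mul_assoc, he]⟩
  apply eq_of_mod
  intro I
  by_cases hI : e ∈ I.asIdeal
  · have : e * q * b - e = (q * b - 1) * e := by ring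
    rw [this]; exact I.asIdeal.mul_mem_left _ hI
  · have hbI := h I hI
    have h1 : b * (b * q - 1) ∈ I.asIdeal := by
      have : b * (b * q - 1) = 0 := by linear_combination hq
      rw [this]; exact I.asIdeal.zero_mem
    have h2 : b * q - 1 ∈ I.asIdeal :=
      (I.isMaximal.isPrime.mem_or_mem h1).resolve_left hbI
    have : e * q * b - e = e * (b * q - 1) := by ring
    rw [this]; exact I.asIdeal.mul_mem_left _ h2

end ring

section star

variable {R : Type*} [CommRing R] [StarRing R]

/-- the conjugate of a maximal ideal. -/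
def conj (I : MaximalSpectrum R) : MaximalSpectrum R :=
  ⟨Ideal.comap (starRingEnd R) I.asIdeal, by
    have := I.isMaximal
    refine Ideal.comap_isMaximal_of_surjective (starRingEnd R) ?_
    intro x
    exact ⟨star x, by rw [starRingEnd_apply, star_star]⟩⟩

theorem mem_conj {I : MaximalSpectrum R} {x : R} : x ∈ (conj I).asIdeal ↔ star x ∈ I.asIdeal :=
  Iff.rfl

theorem conj_conj (I : MaximalSpectrum R) : conj (conj I) = I := by
  ext x
  rw [mem_conj, mem_conj, star_star]

theorem exists_skew_notMem (hG : Good R) (I : MaximalSpectrum R) :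
    ∃ r : R, r - star r ∉ I.asIdeal := by
  obtain ⟨d, hdu, hd⟩ := hG.skew
  obtain ⟨c, hc⟩ := hG.tr
  by_cases h2 : (2 : R) ∈ I.asIdeal
  · refine ⟨c, fun h => ?_⟩
    apply I.isMaximal.ne_top
    rw [Ideal.eq_top_iff_one]
    have : (1 : R) = (c - star c) + 2 * star c := by linear_combination - hc
    rw [this]
    exact I.asIdeal.add_mem h (I.asIdeal.mul_mem_right _ h2)
  · refine ⟨d, fun h => ?_⟩
    rw [hd] at h
    have h3 : 2 * d ∈ I.asIdeal := by
      have : 2 * d = d - -d := by ring
      rw [this]; exact h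
    rcases I.isMaximal.isPrime.mem_or_mem h3 with h4 | h4
    · exact h2 h4
    · exact I.isMaximal.ne_top (I.asIdeal.eq_top_of_isUnit_mem h4 hdu)

variable [IsArtinianRing R] [IsReduced R]

/-- the idempotent of the orbit of `I`. -/
theorem exists_orbit_idem (I : MaximalSpectrum R) :
    ∃ e : R, e * e = e ∧ star e = e ∧ e ∉ I.asIdeal ∧ e ∉ (conj I).asIdeal ∧
      ∀ J : MaximalSpectrum R, e ∉ J.asIdeal → J = I ∨ J = conj I := by
  classical
  obtain ⟨e, he⟩ := exists_residues' (R := R) (fun J => if J = I ∨ J = conj I then 1 else 0)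
  have h1 : ∀ J : MaximalSpectrum R, (J = I ∨ J = conj I) → e - 1 ∈ J.asIdeal := by
    intro J hJ
    have := he J
    rwa [if_pos hJ] at this
  have h0 : ∀ J : MaximalSpectrum R, ¬ (J = I ∨ J = conj I) → e ∈ J.asIdeal := by
    intro J hJ
    have := he J
    rwa [if_neg hJ, sub_zero] at this
  refine ⟨e, ?_, ?_, notMem_of_sub_one (h1 I (Or.inl rfl)),
    notMem_of_sub_one (h1 (conj I) (Or.inr rfl)), ?_⟩
  · apply eq_of_mod
    intro J
    have : e * e - e = e * (e - 1) := by ring
    rw [this]
    by_cases hJ : J = I ∨ J = conj I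
    · exact J.asIdeal.mul_mem_left _ (h1 J hJ)
    · exact J.asIdeal.mul_mem_right _ (h0 J hJ)
  · apply eq_of_mod
    intro J
    by_cases hJ : J = I ∨ J = conj I
    · have hJ' : conj J = I ∨ conj J = conj I := by
        rcases hJ with hJ | hJ
        · right; rw [hJ]
        · left; rw [hJ, conj_conj]
      have e1 := h1 _ hJ'
      rw [mem_conj, star_sub, star_one] at e1
      have e2 := h1 _ hJ
      have : star e - e = (star e - 1) - (e - 1) := by ring
      rw [this]; exact J.asIdeal.sub_mem e1 e2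
    · have hJ' : ¬ (conj J = I ∨ conj J = conj I) := by
        rintro (h | h)
        · apply hJ; right; rw [← h, conj_conj]
        · apply hJ; left; rw [← conj_conj J, h, conj_conj]
      have e1 := h0 _ hJ'
      rw [mem_conj] at e1
      exact J.asIdeal.sub_mem e1 (h0 _ hJ)
  · intro J hJ
    by_contra hcon
    exact hJ (h0 J hcon)

/-- norms are surjective. -/
theorem exists_norm [Finite R] (hG : Good R) (I : MaximalSpectrum R) {e α : R} (he : e * e = e)
    (hes : star e = e) (heI : ∀ J : MaximalSpectrum R, e ∉ J.asIdeal → J = I ∨ J = conj I)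
    (hα : star α = α) (hαI : α ∉ I.asIdeal) :
    ∃ l : R, star l * l * α = e := by
  classical
  suffices h : ∃ l : R, (star l * l * α - 1 ∈ I.asIdeal) ∧
      (star l * l * α - 1 ∈ (conj I).asIdeal) by
    obtain ⟨l, h1, h2⟩ := h
    refine ⟨e * l, ?_⟩
    apply eq_of_mod
    intro J
    have e1 : star (e * l) * (e * l) * α - e = e * (star l * l * α - 1) := by
      rw [star_mul', hes]; linear_combination (star l * l * α) * he
    rw [e1]
    by_cases hJ : e ∈ J.asIdeal
    · exact J.asIdeal.mul_mem_right _ hJ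
    · rcases heI J hJ with rfl | rfl
      · exact J.asIdeal.mul_mem_left _ h1
      · exact Ideal.mul_mem_left _ _ h2
  let : ∀ I : MaximalSpectrum R, Field (R ⧸ I.asIdeal) := fun I => Ideal.Quotient.field I.asIdeal
  have hα0 : Ideal.Quotient.mk I.asIdeal α ≠ 0 := fun h => hαI ((mk_eq_zero' I α).1 h)
  -- reduce to the first congruence
  suffices h : ∃ l : R, (star l * l * α - 1 ∈ I.asIdeal) by
    obtain ⟨l, h1⟩ := h
    refine ⟨l, h1, ?_⟩
    rw [mem_conj]
    have : star (star l * l * α - 1) = star l * l * α - 1 := by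
      rw [star_sub, star_one, star_mul', star_mul', star_star, hα]; ring
    rw [this]; exact h1
  by_cases hII : conj I = I
  · let σ : (R ⧸ I.asIdeal) →+* (R ⧸ I.asIdeal) :=
      Ideal.quotientMap I.asIdeal (starRingEnd R) (by
        intro x hx
        have : x ∈ (conj I).asIdeal := by rw [hII]; exact hx
        exact this)
    have hσ : ∀ x : R, σ (Ideal.Quotient.mk I.asIdeal x) = Ideal.Quotient.mk I.asIdeal (star x) :=
      fun x => rfl
    have : Finite (R ⧸ I.asIdeal) := Finite.of_surjective _ Ideal.Quotient.mk_surjective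
    have hσσ : ∀ x, σ (σ x) = x := by
      intro x
      obtain ⟨x, rfl⟩ := Ideal.Quotient.mk_surjective x
      rw [hσ, hσ, star_star]
    obtain ⟨r, hr⟩ := exists_skew_notMem hG I
    have hne : ∃ r, σ r ≠ r := by
      refine ⟨Ideal.Quotient.mk I.asIdeal r, fun h => hr ?_⟩
      rw [hσ] at h
      exact Ideal.Quotient.eq.1 h.symm
    obtain ⟨l, hl⟩ := norm_surj σ hσσ hne (Ideal.Quotient.mk I.asIdeal α)⁻¹
      (by rw [map_inv₀, hσ, hα]) (inv_ne_zero hα0)
    obtain ⟨l, rfl⟩ := Ideal.Quotient.mk_surjective l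
    refine ⟨l, ?_⟩
    rw [hσ] at hl
    rw [← Ideal.Quotient.eq, map_mul, map_mul, map_one, mul_comm (Ideal.Quotient.mk I.asIdeal (star l)),
      hl]
    exact inv_mul_cancel₀ hα0
  · obtain ⟨l, hl⟩ := exists_residues (R := R)
      (fun J => if J = I then (Ideal.Quotient.mk J.asIdeal α)⁻¹ else 1)
    refine ⟨l, ?_⟩
    have h1 : Ideal.Quotient.mk I.asIdeal l = (Ideal.Quotient.mk I.asIdeal α)⁻¹ := by
      rw [hl I, if_pos rfl]
    have h2 : Ideal.Quotient.mk I.asIdeal (star l) = 1 := by
      have h3 : l - 1 ∈ (conj I).asIdeal := by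
        rw [← Ideal.Quotient.eq, map_one, hl, if_neg hII]
      rw [mem_conj, star_sub, star_one] at h3
      rw [← map_one (Ideal.Quotient.mk I.asIdeal)]
      exact Ideal.Quotient.eq.2 h3
    rw [← Ideal.Quotient.eq, map_mul, map_mul, map_one, h1, h2, one_mul]
    exact inv_mul_cancel₀ hα0

end star

section fin

variable {R M : Type*} [CommRing R] [StarRing R] [Finite R] [IsReduced R]
  [AddCommGroup M] [Module R M]

omit [Finite R] [IsReduced R] in
/-- if some value of `h` on `W × W` is outside of `I`, then some norm is. -/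
theorem exists_aniso (hG : Good R) (H : HForm R M) (W : Submodule R M) (I : MaximalSpectrum R)
    (h : ∃ z ∈ W, ∃ w ∈ W, H.h z w ∉ I.asIdeal) : ∃ x ∈ W, H.h x x ∉ I.asIdeal := by
  by_contra hcon
  push Not at hcon
  obtain ⟨z, hz, w, hw, hzw⟩ := h
  obtain ⟨r, hr⟩ := exists_skew_notMem hG I
  have k1 : H.h z w + H.h w z ∈ I.asIdeal := by
    have h1 := hcon (z + w) (W.add_mem hz hw)
    rw [H.add_right, H.add_left, H.add_left] at h1
    have h2 := I.asIdeal.sub_mem (I.asIdeal.sub_mem h1 (hcon z hz)) (hcon w hw)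
    have h3 : H.h z z + H.h w z + (H.h z w + H.h w w) - H.h z z - H.h w w = H.h z w + H.h w z := by
      ring
    rwa [h3] at h2
  have k2 : r * H.h z w + star r * H.h w z ∈ I.asIdeal := by
    have h1 := hcon (z + r • w) (W.add_mem hz (W.smul_mem r hw))
    rw [H.add_right, H.add_left, H.add_left] at h1
    have h2 := I.asIdeal.sub_mem (I.asIdeal.sub_mem h1 (hcon z hz))
      (hcon (r • w) (W.smul_mem r hw))
    have h3 : H.h z z + H.h (r • w) z + (H.h z (r • w) + H.h (r • w) (r • w)) - H.h z z
        - H.h (r • w) (r • w) = r * H.h z w + star r * H.h w z := by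
      rw [H.smul_right, H.smul_left]; ring
    rwa [h3] at h2
  have k3 : (r - star r) * H.h z w ∈ I.asIdeal := by
    have h4 := I.asIdeal.sub_mem k2 (I.asIdeal.mul_mem_left (star r) k1)
    have h5 : r * H.h z w + star r * H.h w z - star r * (H.h z w + H.h w z)
        = (r - star r) * H.h z w := by ring
    rwa [h5] at h4
  rcases I.isMaximal.isPrime.mem_or_mem k3 with h6 | h6
  · exact hr h6
  · exact hzw h6

/-- a vector of norm `e` (idempotent of an orbit) in `W`. -/
theorem exists_unit_vector (hG : Good R) (H : HForm R M) (W : Submodule R M)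
    (I : MaximalSpectrum R) {e : R} (he : e * e = e) (hes : star e = e)
    (heI' : e ∉ I.asIdeal)
    (heI : ∀ J : MaximalSpectrum R, e ∉ J.asIdeal → J = I ∨ J = conj I)
    (h : ∃ z ∈ W, ∃ w ∈ W, H.h z w ∉ I.asIdeal) :
    ∃ x ∈ W, H.h x x = e ∧ e • x = x := by
  obtain ⟨x, hx, hxx⟩ := exists_aniso hG H W I h
  have hα : star (e * H.h x x) = e * H.h x x := by
    rw [star_mul', hes, H.symm]
  have hαI : e * H.h x x ∉ I.asIdeal := by
    intro hh
    rcases I.isMaximal.isPrime.mem_or_mem hh with h6 | h6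
    · exact heI' h6
    · exact hxx h6
  obtain ⟨l, hl⟩ := exists_norm hG I he hes heI hα hαI
  refine ⟨(e * l) • x, W.smul_mem _ hx, ?_, by rw [smul_smul, ← mul_assoc, he]⟩
  rw [H.smul_right, H.smul_left, star_mul', hes]
  linear_combination e * hl + he - 0 * hl

/-- nondegenerate and `W` is an orthogonal summand: vectors of `W` which are nonzero at `J` are
detected by `W`. -/
theorem detect (H : HForm R M) (hnd : ∀ x, (∀ z, H.h z x = 0) → x = 0)
    (K : Submodule R M) (hK : ∀ x, ∃ y ∈ K, ∀ z ∈ K, H.h z (x - y) = 0)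
    (x : M) (hx : ∀ z ∈ K, H.h z x = 0) (J : MaximalSpectrum R)
    (hJ : ∀ p : R, p • x = 0 → p ∈ J.asIdeal) :
    ∃ w : M, (∀ z ∈ K, H.h z w = 0) ∧ H.h w x ∉ J.asIdeal := by
  obtain ⟨p, hp1, hp⟩ := exists_prim J
  have hpJ : p ∉ J.asIdeal := notMem_of_sub_one hp1
  have hne : p • x ≠ 0 := fun h => hpJ (hJ p h)
  have : ∃ z, H.h z (p • x) ≠ 0 := by
    by_contra hcon
    push Not at hcon
    exact hne (hnd _ hcon)
  obtain ⟨z, hz⟩ := this
  obtain ⟨y, hy, hyz⟩ := hK z
  refine ⟨z - y, hyz, ?_⟩
  intro hmem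
  apply hz
  have e1 : H.h z x = H.h (z - y) x := by
    rw [sub_eq_add_neg, H.add_left, h_neg_left, hx y hy]; ring
  rw [H.smul_right]
  apply eq_of_mod
  intro I
  rw [sub_zero]
  by_cases hI : I = J
  · subst hI
    rw [e1]
    exact I.asIdeal.mul_mem_left _ hmem
  · exact I.asIdeal.mul_mem_right _ (hp I hI)

/-- a functional which is nonzero on two vectors everywhere on the support of `e`. -/
theorem exists_functional (H : HForm R M) (hnd : ∀ x, (∀ z, H.h z x = 0) → x = 0)
    (K : Submodule R M) (hK : ∀ x, ∃ y ∈ K, ∀ z ∈ K, H.h z (x - y) = 0)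
    {e : R} (x x' : M) (hx : ∀ z ∈ K, H.h z x = 0) (hx' : ∀ z ∈ K, H.h z x' = 0)
    (hxe : H.h x x = e)
    (hJ' : ∀ J : MaximalSpectrum R, e ∉ J.asIdeal → ∀ p : R, p • x' = 0 → p ∈ J.asIdeal) :
    ∃ ζ : M →ₗ[R] R, (∀ z ∈ K, ζ z = 0) ∧
      ∀ J : MaximalSpectrum R, e ∉ J.asIdeal → ζ x ∉ J.asIdeal ∧ ζ x' ∉ J.asIdeal := by
  classical
  have hz : ∀ J : MaximalSpectrum R, ∃ z : M, (∀ k ∈ K, H.h k z = 0) ∧
      (e ∉ J.asIdeal → H.h z x ∉ J.asIdeal ∧ H.h z x' ∉ J.asIdeal) := by
    intro J
    by_cases hJ : e ∈ J.asIdeal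
    · exact ⟨0, fun k _ => h_zero_right H k, fun h => absurd hJ h⟩
    · obtain ⟨z2, hz2, hz2'⟩ := detect H hnd K hK x' hx' J (hJ' J hJ)
      by_cases h1 : H.h x x' ∈ J.asIdeal
      · by_cases h2 : H.h z2 x ∈ J.asIdeal
        · refine ⟨x + z2, fun k hk => by rw [H.add_right, hx k hk, hz2 k hk, add_zero],
            fun _ => ⟨fun h => hJ ?_, fun h => hz2' ?_⟩⟩
          · rw [H.add_left, hxe] at h
            exact (J.asIdeal.add_mem_iff_left h2).1 h
          · rw [H.add_left] at h
            exact (J.asIdeal.add_mem_iff_right h1).1 h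
        · exact ⟨z2, hz2, fun _ => ⟨h2, hz2'⟩⟩
      · exact ⟨x, hx, fun _ => ⟨by rw [hxe]; exact hJ, h1⟩⟩
  choose z hzK hzJ using hz
  choose p hp1 hp0 using fun J : MaximalSpectrum R => exists_prim J
  have : Fintype (MaximalSpectrum R) := Fintype.ofFinite _
  refine ⟨∑ J, p J • H.dual (z J), ?_, ?_⟩
  · intro k hk
    rw [LinearMap.sum_apply]
    apply Finset.sum_eq_zero
    intro J _
    rw [LinearMap.smul_apply]
    change p J • H.h (z J) k = 0
    rw [← H.symm, hzK J k hk, star_zero, smul_zero]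
  · have key : ∀ J : MaximalSpectrum R, ∀ v : M, H.h (z J) v ∉ J.asIdeal →
        (∑ J, p J • H.dual (z J)) v ∉ J.asIdeal := by
      intro J v hv hmem
      rw [LinearMap.sum_apply, ← Finset.add_sum_erase _ _ (Finset.mem_univ J)] at hmem
      have h1 : ∑ J' ∈ Finset.univ.erase J, (p J' • H.dual (z J')) v ∈ J.asIdeal := by
        apply J.asIdeal.sum_mem
        intro J' hJ'
        rw [LinearMap.smul_apply, smul_eq_mul]
        exact J.asIdeal.mul_mem_right _ (hp0 J' J (Finset.ne_of_mem_erase hJ').symm)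
      have h2 := (J.asIdeal.add_mem_iff_left h1).1 hmem
      rw [LinearMap.smul_apply, smul_eq_mul] at h2
      rcases J.isMaximal.isPrime.mem_or_mem h2 with h3 | h3
      · exact notMem_of_sub_one (hp1 J) h3
      · exact hv h3
    intro J hJ
    exact ⟨key J x (hzJ J hJ).1, key J x' (hzJ J hJ).2⟩

/-- the pull back of a form. -/
def pull (H : HForm R M) (g : M →ₗ[R] M) : HForm R M where
  h x y := H.h (g x) (g y)
  add_right x y z := by rw [map_add, H.add_right]
  smul_right a x y := by rw [map_smul, H.smul_right]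
  symm x y := H.symm _ _

omit [Finite R] [IsReduced R] in
theorem pull_nd {H : HForm R M} (hnd : ∀ x, (∀ z, H.h z x = 0) → x = 0) {g : M →ₗ[R] M}
    (hg : Function.Bijective g) : ∀ x, (∀ z, (pull H g).h z x = 0) → x = 0 := by
  intro x hx
  apply hg.1
  rw [map_zero]
  apply hnd
  intro z
  obtain ⟨z, rfl⟩ := hg.2 z
  exact hx z

theorem fin_step [Finite M] (hG : Good R) (H : HForm R M)
    (hnd : ∀ x, (∀ z, H.h z x = 0) → x = 0)
    (K : Submodule R M) (hK : ∀ x, ∃ y ∈ K, ∀ z ∈ K, H.h z (x - y) = 0) (hKtop : K ≠ ⊤)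
    (IH : ∀ K' : Submodule R M, K < K' → (∀ x, ∃ y ∈ K', ∀ z ∈ K', H.h z (x - y) = 0) →
      ∀ H' : HForm R M, (∀ x, (∀ z, H'.h z x = 0) → x = 0) →
        (∀ k ∈ K', ∀ v, H'.h k v = H.h k v) →
        ∃ g : M →ₗ[R] M, ∀ x y, H'.h (g x) (g y) = H.h x y)
    (H' : HForm R M) (hnd' : ∀ x, (∀ z, H'.h z x = 0) → x = 0)
    (hHH : ∀ k ∈ K, ∀ v, H'.h k v = H.h k v) :
    ∃ g : M →ₗ[R] M, ∀ x y, H'.h (g x) (g y) = H.h x y := by
  classical
  -- the orthogonal complement
  let W : Submodule R M :=
    { carrier := {x | ∀ z ∈ K, H.h z x = 0}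
      add_mem' := fun {a b} ha hb z hz => by rw [H.add_right, ha z hz, hb z hz, add_zero]
      zero_mem' := fun z _ => h_zero_right H z
      smul_mem' := fun c x hx z hz => by rw [H.smul_right, hx z hz, mul_zero] }
  have hW : ∀ x, x ∈ W ↔ ∀ z ∈ K, H.h z x = 0 := fun x => Iff.rfl
  have hsplit : ∀ x, ∃ y ∈ K, x - y ∈ W := hK
  -- a maximal ideal at which `W` does not vanish
  obtain ⟨I, hI⟩ : ∃ I : MaximalSpectrum R, ∃ z ∈ W, ∃ w ∈ W, H.h z w ∉ I.asIdeal := by
    by_contra hcon
    push Not at hcon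
    apply hKtop
    rw [Submodule.eq_top_iff']
    intro x
    obtain ⟨y, hy, hyW⟩ := hsplit x
    have : x - y = 0 := by
      apply hnd
      intro z
      obtain ⟨y', hy', hW'⟩ := hsplit z
      have e1 : H.h z (x - y) = H.h (z - y') (x - y) := by
        have e2 : z = (z - y') + y' := by abel
        nth_rewrite 1 [e2]
        rw [H.add_left, hyW y' hy', add_zero]
      rw [e1]
      apply eq_of_mod
      intro I
      rw [sub_zero]
      exact hcon I _ hW' _ hyW
    rw [sub_eq_zero.1 this]; exact hy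
  obtain ⟨e, he, hes, heI, heI', heJ⟩ := exists_orbit_idem I
  obtain ⟨x, hxW, hxx, hex⟩ := exists_unit_vector hG H W I he hes heI heJ hI
  have hxp : ∀ J : MaximalSpectrum R, e ∉ J.asIdeal → ∀ p : R, p • x = 0 → p ∈ J.asIdeal := by
    intro J hJ p hp
    have h1 : p * e = 0 := by rw [← hxx, ← H.smul_right, hp, h_zero_right]
    have h2 : p * e ∈ J.asIdeal := by rw [h1]; exact J.asIdeal.zero_mem
    exact (J.isMaximal.isPrime.mem_or_mem h2).resolve_right hJ
  have hK' : ∀ x, ∃ y ∈ K, ∀ z ∈ K, H'.h z (x - y) = 0 := by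
    intro x
    obtain ⟨y, hy, hyz⟩ := hK x
    exact ⟨y, hy, fun z hz => by rw [hHH z hz, hyz z hz]⟩
  obtain ⟨x', hx'W, hxx', hex'⟩ : ∃ x ∈ W, H'.h x x = e ∧ e • x = x := by
    apply exists_unit_vector hG H' W I he hes heI heJ
    obtain ⟨w, hw, hwx⟩ := detect H' hnd' K hK' x (fun z hz => by rw [hHH z hz, hxW z hz]) I
      (hxp I heI)
    exact ⟨w, fun z hz => by rw [← hHH z hz, hw z hz], x, hxW, hwx⟩
  have hxp' : ∀ J : MaximalSpectrum R, e ∉ J.asIdeal → ∀ p : R, p • x' = 0 → p ∈ J.asIdeal := by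
    intro J hJ p hp
    have h1 : p * e = 0 := by rw [← hxx', ← H'.smul_right, hp, h_zero_right]
    have h2 : p * e ∈ J.asIdeal := by rw [h1]; exact J.asIdeal.zero_mem
    exact (J.isMaximal.isPrime.mem_or_mem h2).resolve_right hJ
  obtain ⟨ζ, hζK, hζ⟩ := exists_functional H hnd K hK x x' hxW hx'W hxx hxp'
  obtain ⟨β, hβ, hβe⟩ := exists_inv_on he (fun J hJ => (hζ J hJ).1)
  obtain ⟨β', hβ', hβe'⟩ := exists_inv_on he (fun J hJ => (hζ J hJ).2)
  -- the automorphism moving `x` to `x'`
  let φ : M →ₗ[R] M := LinearMap.id + (β • ζ).smulRight (x' - x)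
  have hφ : ∀ v, φ v = v + (β * ζ v) • (x' - x) := fun v => rfl
  have hφinj : Function.Injective φ := by
    rw [injective_iff_map_eq_zero]
    intro w hw
    rw [hφ] at hw
    have h1 : ζ w + β * ζ w * (ζ x' - ζ x) = 0 := by
      have := congrArg ζ hw
      simpa using this
    have h2 : β * ζ w = 0 := by
      linear_combination β' * h1 - (β * ζ w) * hβ' + (β' * ζ w) * hβ + (ζ w) * hβe' -
        (ζ w) * hβe
    rw [h2, zero_smul, add_zero] at hw
    exact hw
  have hφbij : Function.Bijective φ :=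
    ⟨hφinj, Finite.injective_iff_surjective.1 hφinj⟩
  have hφx : φ x = x' := by
    rw [hφ, hβ, smul_sub, hex, hex']; abel
  have hφK : ∀ k ∈ K, φ k = k := fun k hk => by
    rw [hφ, hζK k hk, mul_zero, zero_smul, add_zero]
  set H2 := pull H' φ with hH2
  have hnd2 := pull_nd hnd' hφbij
  have hH2K : ∀ k ∈ K, ∀ v, H2.h k v = H.h k v := by
    intro k hk v
    change H'.h (φ k) (φ v) = _
    rw [hφK k hk, hHH k hk, hφ, H.add_right, H.smul_right, h_sub_right, hx'W k hk, hxW k hk]
    ring
  have hH2x : H2.h x x = e := by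
    change H'.h (φ x) (φ x) = _
    rw [hφx, hxx']
  -- the shear
  let η : M →ₗ[R] R := H2.dual x - H.dual x
  have hη : ∀ v, η v = H2.h x v - H.h x v := fun v => rfl
  have hηx : η x = 0 := by rw [hη, hH2x, hxx, sub_self]
  have hηK : ∀ k ∈ K, η k = 0 := by
    intro k hk
    rw [hη, ← H2.symm, ← H.symm, hH2K k hk, sub_self]
  let ψ : M →ₗ[R] M := LinearMap.id - η.smulRight x
  have hψ : ∀ v, ψ v = v - η v • x := fun v => rfl
  have hψinj : Function.Injective ψ := by
    rw [injective_iff_map_eq_zero]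
    intro w hw
    rw [hψ, sub_eq_zero] at hw
    have h1 : η w = 0 := by
      have := congrArg η hw
      rw [map_smul, hηx, smul_zero] at this
      exact this
    rw [hw, h1, zero_smul]
  have hψbij : Function.Bijective ψ :=
    ⟨hψinj, Finite.injective_iff_surjective.1 hψinj⟩
  have hψx : ψ x = x := by rw [hψ, hηx, zero_smul, sub_zero]
  have hψK : ∀ k ∈ K, ψ k = k := fun k hk => by rw [hψ, hηK k hk, zero_smul, sub_zero]
  set H3 := pull H2 ψ with hH3
  have hnd3 := pull_nd hnd2 hψbij
  have hH3K : ∀ k ∈ K, ∀ v, H3.h k v = H.h k v := by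
    intro k hk v
    change H2.h (ψ k) (ψ v) = _
    rw [hψK k hk, hH2K k hk, hψ, h_sub_right, H.smul_right, hxW k hk]
    ring
  have hH3x : ∀ v, H3.h x v = H.h x v := by
    intro v
    change H2.h (ψ x) (ψ v) = _
    rw [hψx, hψ, h_sub_right, H2.smul_right, hH2x, hη]
    have e1 : e * H2.h x v = H2.h x v := by
      have : H2.h (e • x) v = H2.h x v := by rw [hex]
      rwa [H2.smul_left, hes] at this
    have e2 : e * H.h x v = H.h x v := by
      have : H.h (e • x) v = H.h x v := by rw [hex]
      rwa [H.smul_left, hes] at this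
    linear_combination - e1 + e2
  obtain ⟨g, hg⟩ := IH (K ⊔ Submodule.span R {x}) (by
      rw [left_lt_sup]
      intro hle
      apply notMem_of_sub_one (p := (1 : R)) (I := I) (by simp)
      have h1 := hxW x (hle (Submodule.mem_span_singleton_self x))
      rw [hxx] at h1
      exact absurd (by rw [h1]; exact I.asIdeal.zero_mem) heI) (by
      intro v
      obtain ⟨y, hy, hyz⟩ := hK v
      refine ⟨y + (H.h x (v - y)) • x, Submodule.add_mem_sup hy
        (Submodule.smul_mem _ _ (Submodule.mem_span_singleton_self x)), ?_⟩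
      intro z hz
      obtain ⟨k, hk, l, hl, rfl⟩ := Submodule.mem_sup.1 hz
      obtain ⟨c, rfl⟩ := Submodule.mem_span_singleton.1 hl
      have e1 : e * H.h x (v - y) = H.h x (v - y) := by
        have : H.h (e • x) (v - y) = H.h x (v - y) := by rw [hex]
        rwa [H.smul_left, hes] at this
      have e2 : v - (y + (H.h x (v - y)) • x) = (v - y) - (H.h x (v - y)) • x := by
        abel
      rw [e2]
      have hyk := hyz k hk
      generalize v - y = u at e1 hyk ⊢
      rw [H.add_left, H.smul_left, h_sub_right, h_sub_right, H.smul_right, H.smul_right,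
        hyk, hxW k hk, hxx]
      linear_combination (- star c) * e1) H3 hnd3 (by
      intro z hz v
      obtain ⟨k, hk, l, hl, rfl⟩ := Submodule.mem_sup.1 hz
      obtain ⟨c, rfl⟩ := Submodule.mem_span_singleton.1 hl
      rw [H3.add_left, H3.smul_left, H.add_left, H.smul_left, hH3K k hk, hH3x])
  exact ⟨(φ.comp ψ).comp g, fun u v => hg u v⟩

/-- P4.7a: two nondegenerate forms on one finite module are isometric. -/
theorem fin_main [Finite M] (hG : Good R) (H H' : HForm R M)
    (hnd : ∀ x, (∀ z, H.h z x = 0) → x = 0) (hnd' : ∀ x, (∀ z, H'.h z x = 0) → x = 0) :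
    ∃ g : M →ₗ[R] M, ∀ x y, H'.h (g x) (g y) = H.h x y := by
  have hwf : WellFoundedGT (Submodule R M) := inferInstance
  have key : ∀ K : Submodule R M, (∀ x, ∃ y ∈ K, ∀ z ∈ K, H.h z (x - y) = 0) →
      ∀ H' : HForm R M, (∀ x, (∀ z, H'.h z x = 0) → x = 0) →
        (∀ k ∈ K, ∀ v, H'.h k v = H.h k v) →
        ∃ g : M →ₗ[R] M, ∀ x y, H'.h (g x) (g y) = H.h x y := by
    intro K
    induction K using hwf.induction with
    | ind K IH =>
      intro hK H' hnd' hHH
      by_cases htop : K = ⊤
      · exact ⟨LinearMap.id, fun x y => hHH x (htop ▸ Submodule.mem_top) y⟩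
      · exact fin_step hG H hnd K hK htop (fun K' hK' => IH K' hK') H' hnd' hHH
  refine key ⊥ (fun x => ⟨0, Submodule.zero_mem _, ?_⟩) H' hnd' ?_
  · intro z hz
    rw [(Submodule.mem_bot R).1 hz, h_zero_left]
  · intro k hk v
    rw [(Submodule.mem_bot R).1 hk, h_zero_left, h_zero_left]

end fin

end Crest.Agent.R267.P47Fin_118
end

-- ▼ part R267/P47_118
section

/-!
# S0407, node P4.7 (helper118): unimodular hermitian forms on a finite projective module over a
`J`-adically complete ring with finite reduced `R ⧸ J` are isometric.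
-/

set_option autoImplicit false

namespace Crest.Agent.R267.P47_118

open Crest.Agent.R267.P4Herm_780 Crest.Agent.R267.P4Herm_780.HForm Crest.Agent.R267.P48_118
  Crest.Agent.R267.P47Fin_118

section general

variable {R P : Type*} [CommRing R] [StarRing R] [AddCommGroup P] [Module R P]

theorem h_sub_left (H : HForm R P) (x y z : P) : H.h (x - y) z = H.h x z - H.h y z := by
  rw [sub_eq_add_neg, H.add_left, h_neg_left, sub_eq_add_neg]

/-- the isometries between unimodular forms on a finite module are bijective. -/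
theorem bij_of_isom [Module.Finite R P] {H H' : HForm R P} (hU : H.Unimodular)
    (g : P →ₗ[R] P) (hg : ∀ x y, H'.h (g x) (g y) = H.h x y) : Function.Bijective g := by
  have hex : ∀ y : P, ∃ a : P, H.dual a = (H'.dual y).comp g := fun y => hU.2 _
  choose a ha using hex
  have ha' : ∀ y x, H.h (a y) x = H'.h y (g x) := fun y x => by
    have := congrArg (fun f : P →ₗ[R] R => f x) (ha y)
    exact this
  let G : P →ₗ[R] P :=
    { toFun := a
      map_add' := fun y z => by
        apply hU.1
        ext x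
        change H.h (a (y + z)) x = H.h (a y + a z) x
        rw [H.add_left, ha', ha', ha', H'.add_left]
      map_smul' := fun c y => by
        apply hU.1
        ext x
        change H.h (a (c • y)) x = H.h (c • a y) x
        rw [H.smul_left, ha', ha', H'.smul_left] }
  have hG : ∀ x, G (g x) = x := by
    intro x
    apply hU.1
    ext z
    change H.h (a (g x)) z = H.h x z
    rw [ha', hg]
  have hGs : Function.Surjective G := fun x => ⟨g x, hG x⟩
  have hGb := OrzechProperty.bijective_of_surjective_endomorphism G hGs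
  refine ⟨fun x y h => by rw [← hG x, ← hG y, h], fun y => ⟨G y, ?_⟩⟩
  apply hGb.1
  rw [hG]

variable {J : Ideal R}

omit [StarRing R] in
/-- functionals with values in `𝔟` on `𝔞 P`. -/
theorem fun_mem (𝔞 𝔟 : Ideal R) (f : P →ₗ[R] R) (hf : ∀ x, f x ∈ 𝔟) {a : P}
    (ha : a ∈ (𝔞 • ⊤ : Submodule R P)) : f a ∈ 𝔞 * 𝔟 := by
  induction ha using Submodule.smul_induction_on' with
  | smul r hr n _ => rw [map_smul, smul_eq_mul]; exact Ideal.mul_mem_mul hr (hf n)
  | add x _ y _ hx hy => rw [map_add]; exact Ideal.add_mem _ hx hy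

omit [StarRing R] in
theorem fun_mem' (𝔞 : Ideal R) (f : P →ₗ[R] R) {a : P}
    (ha : a ∈ (𝔞 • ⊤ : Submodule R P)) : f a ∈ 𝔞 := by
  have := fun_mem 𝔞 ⊤ f (fun _ => Submodule.mem_top) ha
  rwa [Ideal.mul_top] at this

theorem star_mem_pow (hJ : ∀ x ∈ J, star x ∈ J) (n : ℕ) : ∀ x ∈ J ^ n, star x ∈ J ^ n := by
  induction n with
  | zero => intro x _; simp
  | succ n ih =>
    intro x hx
    rw [pow_succ] at hx ⊢
    induction hx using Submodule.mul_induction_on' with
    | mem_mul_mem a ha b hb =>
      rw [star_mul']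
      exact Ideal.mul_mem_mul (ih a ha) (hJ b hb)
    | add x _ y _ hx hy => rw [star_add]; exact Ideal.add_mem _ hx hy

/-- `h(a, x) ∈ 𝔞` for `a ∈ 𝔞 P`. -/
theorem h_mem_left (H : HForm R P) (𝔞 : Ideal R) (hs : ∀ x ∈ 𝔞, star x ∈ 𝔞) {a : P}
    (ha : a ∈ (𝔞 • ⊤ : Submodule R P)) (x : P) : H.h a x ∈ 𝔞 := by
  rw [← H.symm]
  exact hs _ (fun_mem' 𝔞 (H.dual x) ha)

/-- the dual basis argument. -/
theorem dualInv_mem [Module.Finite R P] [Module.Projective R P] {H : HForm R P}
    (hU : H.Unimodular) (𝔞 : Ideal R) (hs : ∀ x ∈ 𝔞, star x ∈ 𝔞) {a : P}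
    (ha : ∀ x, H.h a x ∈ 𝔞) : a ∈ (𝔞 • ⊤ : Submodule R P) := by
  obtain ⟨n, s, hsurj⟩ := Module.Finite.exists_fin' R P
  obtain ⟨i, hi⟩ := Module.projective_lifting_property s LinearMap.id hsurj
  have hi' : ∀ x, s (i x) = x := fun x => by
    have := congrArg (fun f : P →ₗ[R] P => f x) hi
    exact this
  have hex : ∀ j : Fin n, ∃ b : P, H.dual b = (LinearMap.proj j).comp i := fun j => hU.2 _
  choose b hb using hex
  have hb' : ∀ j x, H.h (b j) x = i x j := fun j x => by
    have := congrArg (fun f : P →ₗ[R] R => f x) (hb j)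
    exact this
  have hsum : a = ∑ j, star (H.h a (s (Pi.single j 1))) • b j := by
    apply hU.1
    ext x
    change H.h a x = H.h (∑ j, star (H.h a (s (Pi.single j 1))) • b j) x
    have e1 : H.h (∑ j, star (H.h a (s (Pi.single j 1))) • b j) x
        = ∑ j, H.h (star (H.h a (s (Pi.single j 1))) • b j) x := by
      rw [← H.symm]
      have : H.h x (∑ j, star (H.h a (s (Pi.single j 1))) • b j)
          = ∑ j, H.h x (star (H.h a (s (Pi.single j 1))) • b j) :=
        map_sum (H.dual x) _ _
      rw [this, star_sum]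
      exact Finset.sum_congr rfl (fun j _ => H.symm _ _)
    rw [e1]
    have e2 : x = ∑ j, (i x j) • s (Pi.single j 1) := by
      conv_lhs => rw [← hi' x]
      have : i x = ∑ j, (i x j) • (Pi.single j (1 : R) : Fin n → R) := by
        ext l
        simp [Finset.sum_apply, Pi.single_apply]
      conv_lhs => rw [this]
      rw [map_sum]
      exact Finset.sum_congr rfl (fun j _ => by rw [map_smul])
    have e3 : H.h a x = ∑ j, (i x j) * H.h a (s (Pi.single j 1)) := by
      conv_lhs => rw [e2]
      have : H.h a (∑ j, (i x j) • s (Pi.single j 1)) = ∑ j, H.h a ((i x j) • s (Pi.single j 1)) :=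
        map_sum (H.dual a) _ _
      rw [this]
      exact Finset.sum_congr rfl (fun j _ => H.smul_right _ _ _)
    rw [e3]
    refine Finset.sum_congr rfl (fun j _ => ?_)
    rw [H.smul_left, star_star, hb', mul_comm]
  rw [hsum]
  exact Submodule.sum_mem _ (fun j _ => Submodule.smul_mem_smul (hs _ (ha _)) Submodule.mem_top)

/-- one step of the lifting. -/
theorem lift_step [Module.Finite R P] [Module.Projective R P] (hJ : ∀ x ∈ J, star x ∈ J)
    {H H' : HForm R P} (hU : H.Unimodular) {c : R} (hc : c + star c = 1) (n : ℕ)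
    (G : P →ₗ[R] P) (hG : ∀ x y, H.h x y - H'.h (G x) (G y) ∈ J ^ (n + 1)) :
    ∃ G' : P →ₗ[R] P, (∀ x, G' x - G x ∈ (J ^ (n + 1) • ⊤ : Submodule R P)) ∧
      ∀ x y, H.h x y - H'.h (G' x) (G' y) ∈ J ^ (n + 2) := by
  let Δ : P → P →ₗ[R] R := fun y => H.dual y - (H'.dual (G y)).comp G
  have hΔ : ∀ y x, Δ y x = H.h y x - H'.h (G y) (G x) := fun y x => rfl
  have hΔs : ∀ y x, star (Δ y x) = Δ x y := fun y x => by
    rw [hΔ, hΔ, star_sub, H.symm, H'.symm]
  have hex : ∀ y : P, ∃ a : P, H.dual a = star c • Δ y := fun y => hU.2 _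
  choose V hV using hex
  have hV' : ∀ y x, H.h (V y) x = star c * Δ y x := fun y x => by
    have := congrArg (fun f : P →ₗ[R] R => f x) (hV y)
    exact this
  have hV'' : ∀ y x, H.h x (V y) = c * Δ x y := fun y x => by
    rw [← H.symm, hV', star_mul', star_star, hΔs]
  have hΔaddl : ∀ y z x, Δ (y + z) x = Δ y x + Δ z x := fun y z x => by
    rw [hΔ, hΔ, hΔ, map_add, H.add_left, H'.add_left]; ring
  have hΔsmull : ∀ (a : R) y x, Δ (a • y) x = star a * Δ y x := fun a y x => by
    rw [hΔ, hΔ, map_smul, H.smul_left, H'.smul_left]; ring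
  have hΔmem : ∀ y x, Δ y x ∈ J ^ (n + 1) := fun y x => hG y x
  have hVmem : ∀ y, V y ∈ (J ^ (n + 1) • ⊤ : Submodule R P) := by
    intro y
    apply dualInv_mem hU _ (star_mem_pow hJ _)
    intro x
    rw [hV']
    exact Ideal.mul_mem_left _ _ (hΔmem y x)
  let Vl : P →ₗ[R] P :=
    { toFun := V
      map_add' := fun y z => by
        apply hU.1
        ext x
        change H.h (V (y + z)) x = H.h (V y + V z) x
        rw [H.add_left, hV', hV', hV', hΔaddl]; ring
      map_smul' := fun a y => by
        apply hU.1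
        ext x
        change H.h (V (a • y)) x = H.h (a • V y) x
        rw [H.smul_left, hV', hV', hΔsmull]; ring }
  have hVl : ∀ x, Vl x = V x := fun x => rfl
  refine ⟨G.comp (LinearMap.id + Vl), ?_, ?_⟩
  · intro x
    have e1 : (G.comp (LinearMap.id + Vl)) x - G x = G (V x) := by
      rw [LinearMap.comp_apply, LinearMap.add_apply, map_add, LinearMap.id_apply, hVl]; abel
    rw [e1]
    have := hVmem x
    have h2 : G (V x) ∈ Submodule.map G (J ^ (n + 1) • ⊤ : Submodule R P) :=
      Submodule.mem_map_of_mem this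
    rw [Submodule.map_smul''] at h2
    exact Submodule.smul_mono le_rfl le_top h2
  · intro x y
    have e1 : H.h x y - H'.h ((G.comp (LinearMap.id + Vl)) x) ((G.comp (LinearMap.id + Vl)) y)
        = - H.h (V x) (V y) + Δ (V x) y + Δ x (V y) + Δ (V x) (V y) := by
      have e2 : ∀ z, (G.comp (LinearMap.id + Vl)) z = G z + G (V z) := fun z => by
        rw [LinearMap.comp_apply, LinearMap.add_apply, map_add, LinearMap.id_apply, hVl]
      rw [e2, e2, H'.add_left, H'.add_right, H'.add_right, hΔ, hΔ, hΔ]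
      have e3 : H.h (V x) y + H.h x (V y) = Δ x y := by
        rw [hV', hV'']; linear_combination (Δ x y) * hc
      rw [hΔ] at e3
      linear_combination - e3
    rw [e1]
    have hle : J ^ (n + 1) * J ^ (n + 1) ≤ J ^ (n + 2) := by
      rw [← pow_add]
      exact Ideal.pow_le_pow_right (by omega)
    have m1 : ∀ z, H.h (V x) (V z) ∈ J ^ (n + 2) := by
      intro z
      have h1 := fun_mem (J ^ (n + 1)) (J ^ (n + 1)) (H.dual (V x)) (fun w => by
        change H.h (V x) w ∈ _
        rw [hV']
        exact Ideal.mul_mem_left _ _ (hΔmem x w)) (hVmem z)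
      exact hle h1
    have m2 : ∀ w z, Δ w (V z) ∈ J ^ (n + 2) := fun w z =>
      hle (fun_mem (J ^ (n + 1)) (J ^ (n + 1)) (Δ w) (hΔmem w) (hVmem z))
    have m3 : Δ (V x) y ∈ J ^ (n + 2) := by
      rw [← hΔs]
      exact star_mem_pow hJ _ _ (m2 y x)
    exact Ideal.add_mem _ (Ideal.add_mem _ (Ideal.add_mem _ (neg_mem (m1 y)) m3) (m2 x y))
      (m2 (V x) y)

/-- the lifting. -/
theorem lift_all [Module.Finite R P] [Module.Projective R P] (hJ : ∀ x ∈ J, star x ∈ J)
    (hc : IsAdicComplete J R)
    {H H' : HForm R P} (hU : H.Unimodular) (hG : Good R)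
    (G : P →ₗ[R] P) (hG1 : ∀ x y, H.h x y - H'.h (G x) (G y) ∈ J) :
    ∃ G' : P →ₗ[R] P, ∀ x y, H'.h (G' x) (G' y) = H.h x y := by
  obtain ⟨c, hcc⟩ := hG.tr
  -- the sequence
  let T := fun n : ℕ => {G : P →ₗ[R] P // ∀ x y, H.h x y - H'.h (G x) (G y) ∈ J ^ (n + 1)}
  have hstep : ∀ n : ℕ, ∀ G : T n, ∃ G' : T (n + 1),
      ∀ x, G'.1 x - G.1 x ∈ (J ^ (n + 1) • ⊤ : Submodule R P) := by
    rintro n ⟨G, hG⟩
    obtain ⟨G', h1, h2⟩ := lift_step hJ hU hcc n G hG
    exact ⟨⟨G', h2⟩, h1⟩
  choose nxt hnxt using hstep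
  let g : ∀ n : ℕ, T n := fun n => Nat.rec ⟨G, by simpa using hG1⟩ (fun n G => nxt n G) n
  have hg1 : ∀ n, g (n + 1) = nxt n (g n) := fun n => rfl
  have hdiff : ∀ n x, (g (n + 1)).1 x - (g n).1 x ∈ (J ^ (n + 1) • ⊤ : Submodule R P) := by
    intro n x
    rw [hg1]
    exact hnxt n (g n) x
  have hdiff' : ∀ m n x, m ≤ n → (g n).1 x - (g m).1 x ∈ (J ^ m • ⊤ : Submodule R P) := by
    intro m n x hmn
    induction n, hmn using Nat.le_induction with
    | base => rw [sub_self]; exact Submodule.zero_mem _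
    | succ n hmn ih =>
      have e1 : (g (n + 1)).1 x - (g m).1 x = ((g (n + 1)).1 x - (g n).1 x)
          + ((g n).1 x - (g m).1 x) := by abel
      rw [e1]
      exact Submodule.add_mem _
        (Submodule.smul_mono_left (Ideal.pow_le_pow_right (by omega)) (hdiff n x)) ih
  -- the limit
  obtain ⟨k, s, hsurj⟩ := Module.Finite.exists_fin' R P
  obtain ⟨i, hi⟩ := Module.projective_lifting_property s LinearMap.id hsurj
  have hi' : ∀ x, s (i x) = x := fun x => by
    have := congrArg (fun f : P →ₗ[R] P => f x) hi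
    exact this
  have hlim : ∀ j l : Fin k, ∃ L : R, ∀ n : ℕ,
      (i ((g n).1 (s (Pi.single j 1)))) l - L ∈ J ^ n := by
    intro j l
    obtain ⟨L, hL⟩ := hc.toIsPrecomplete.prec' (fun n => (i ((g n).1 (s (Pi.single j 1)))) l) (by
      intro m n hmn
      rw [SModEq.sub_mem]
      have h1 := fun_mem' (J ^ m) ((LinearMap.proj l).comp i)
        (hdiff' m n (s (Pi.single j 1)) hmn)
      have h2 : (i ((g m).1 (s (Pi.single j 1)))) l - (i ((g n).1 (s (Pi.single j 1)))) l ∈ J ^ m := by
        rw [← neg_mem_iff, neg_sub]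
        simpa using h1
      simpa using h2)
    refine ⟨L, fun n => ?_⟩
    have := hL n
    rw [SModEq.sub_mem] at this
    simpa using this
  choose L hL using hlim
  let M : Matrix (Fin k) (Fin k) R := Matrix.of (fun l j => L j l)
  let G' : P →ₗ[R] P := s.comp ((Matrix.mulVecLin M).comp i)
  have hG' : ∀ n x, (g n).1 x - G' x ∈ (J ^ n • ⊤ : Submodule R P) := by
    intro n x
    have hsingle : ∀ v : Fin k → R, v = ∑ j, (v j) • (Pi.single j (1 : R) : Fin k → R) := by
      intro v
      ext l
      simp [Finset.sum_apply, Pi.single_apply]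
    have e1 : (g n).1 x = ∑ j, (i x j) • s (i ((g n).1 (s (Pi.single j 1)))) := by
      conv_lhs => rw [← hi' x, hsingle (i x)]
      rw [map_sum, map_sum]
      refine Finset.sum_congr rfl (fun j _ => ?_)
      rw [map_smul, map_smul, hi']
    have e2 : G' x = ∑ j, (i x j) • s (fun l => L j l) := by
      change s (M.mulVec (i x)) = _
      have : M.mulVec (i x) = ∑ j, (i x j) • (fun l => L j l) := by
        ext l
        simp [Matrix.mulVec, dotProduct, M, mul_comm]
      rw [this, map_sum]
      exact Finset.sum_congr rfl (fun j _ => map_smul _ _ _)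
    rw [e1, e2, ← Finset.sum_sub_distrib]
    apply Submodule.sum_mem
    intro j _
    rw [← smul_sub, ← map_sub]
    apply Submodule.smul_mem
    rw [hsingle (i ((g n).1 (s (Pi.single j 1))) - fun l => L j l), map_sum]
    apply Submodule.sum_mem
    intro l _
    rw [map_smul]
    exact Submodule.smul_mem_smul (hL j l n) Submodule.mem_top
  refine ⟨G', fun x y => ?_⟩
  have hz : H.h x y - H'.h (G' x) (G' y) = 0 := by
    apply hc.toIsHausdorff.haus'
    intro n
    rw [SModEq.sub_mem, sub_zero]
    have h1 : H.h x y - H'.h (G' x) (G' y) ∈ J ^ n := by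
      have e1 : H.h x y - H'.h (G' x) (G' y) = (H.h x y - H'.h ((g n).1 x) ((g n).1 y))
          + (H'.h ((g n).1 x - G' x) ((g n).1 y) + H'.h (G' x) ((g n).1 y - G' y)) := by
        rw [h_sub_left, h_sub_right]; ring
      rw [e1]
      refine Ideal.add_mem _ (Ideal.pow_le_pow_right (Nat.le_succ n) ((g n).2 x y))
        (Ideal.add_mem _ (h_mem_left H' _ (star_mem_pow hJ n) (hG' n x) _) ?_)
      exact fun_mem' (J ^ n) (H'.dual (G' x)) (hG' n y)
    simpa using h1
  exact (sub_eq_zero.1 hz).symm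

end general

section quot

variable {R P : Type*} [CommRing R] [StarRing R] [AddCommGroup P] [Module R P] (J : Ideal R)

/-- the involution of `R ⧸ J`. -/
@[reducible] def quotStar (hJ : ∀ x ∈ J, star x ∈ J) : StarRing (R ⧸ J) where
  star := Ideal.quotientMap J (starRingEnd R) (fun x hx => hJ x hx)
  star_involutive := fun x => by
    obtain ⟨x, rfl⟩ := Ideal.Quotient.mk_surjective x
    change Ideal.Quotient.mk J (star (star x)) = _
    rw [star_star]
  star_mul := fun x y => by
    rw [mul_comm x y]; exact map_mul _ _ _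
  star_add := fun x y => map_add _ _ _

theorem quotStar_mk (hJ : ∀ x ∈ J, star x ∈ J) (x : R) :
    (quotStar J hJ).star (Ideal.Quotient.mk J x) = Ideal.Quotient.mk J (star x) := rfl

theorem quot_wd (hJ : ∀ x ∈ J, star x ∈ J) (H : HForm R P) {x x' y y' : P}
    (hx : x - x' ∈ (J • ⊤ : Submodule R P)) (hy : y - y' ∈ (J • ⊤ : Submodule R P)) :
    Ideal.Quotient.mk J (H.h x y) = Ideal.Quotient.mk J (H.h x' y') := by
  rw [Ideal.Quotient.eq]
  have e1 : H.h x y - H.h x' y' = H.h (x - x') y + H.h x' (y - y') := by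
    rw [h_sub_left, h_sub_right]; ring
  rw [e1]
  exact Ideal.add_mem _ (h_mem_left H J hJ hx y) (fun_mem' J (H.dual x') hy)

/-- a set-theoretic section of `P → P / J P`. -/
noncomputable def sec (q : P ⧸ (J • ⊤ : Submodule R P)) : P :=
  Function.surjInv (Submodule.Quotient.mk_surjective _) q

omit [StarRing R] in
theorem sec_spec (q : P ⧸ (J • ⊤ : Submodule R P)) : Submodule.Quotient.mk (sec J q) = q :=
  Function.surjInv_eq _ q

omit [StarRing R] in
theorem sec_mk (x : P) : sec J (Submodule.Quotient.mk x) - x ∈ (J • ⊤ : Submodule R P) := by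
  rw [← Submodule.Quotient.eq, sec_spec]

/-- the reduction of a form. -/
noncomputable def quotForm (hJ : ∀ x ∈ J, star x ∈ J) (H : HForm R P) :
    @HForm (R ⧸ J) (P ⧸ (J • ⊤ : Submodule R P)) _ (quotStar J hJ) _ _ :=
  letI := quotStar J hJ
  { h := fun x y => Ideal.Quotient.mk J (H.h (sec J x) (sec J y))
    add_right := fun x y z => by
      rw [← map_add, ← H.add_right]
      apply quot_wd J hJ H
      · rw [sub_self]; exact Submodule.zero_mem _
      · rw [← Submodule.Quotient.eq, Submodule.Quotient.mk_add, sec_spec, sec_spec, sec_spec]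
    smul_right := fun a x y => by
      obtain ⟨a, rfl⟩ := Ideal.Quotient.mk_surjective a
      rw [← map_mul, ← H.smul_right]
      apply quot_wd J hJ H
      · rw [sub_self]; exact Submodule.zero_mem _
      · rw [← Submodule.Quotient.eq, sec_spec, ← Module.Quotient.mk_smul_mk, sec_spec]
    symm := fun x y => (quotStar_mk J hJ _).trans (congrArg _ (H.symm _ _)) }

theorem quotForm_mk (hJ : ∀ x ∈ J, star x ∈ J) (H : HForm R P) (x y : P) :
    letI := quotStar J hJ
    (quotForm J hJ H).h (Submodule.Quotient.mk x) (Submodule.Quotient.mk y)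
      = Ideal.Quotient.mk J (H.h x y) :=
  quot_wd J hJ H (sec_mk J x) (sec_mk J y)

end quot

/-- P4.7. -/
theorem p47 : P47 := by
  intro R _ _ J hG hJ hc hfin hred P _ _ _ _ H H' hU hU'
  letI := quotStar J hJ
  have hG0 : Good (R ⧸ J) := by
    obtain ⟨c, hcc⟩ := hG.tr
    obtain ⟨d, hdu, hd⟩ := hG.skew
    refine ⟨⟨Ideal.Quotient.mk J c, ?_⟩, ⟨Ideal.Quotient.mk J d, hdu.map _, ?_⟩⟩
    · rw [quotStar_mk, ← map_add, hcc, map_one]
    · rw [quotStar_mk, hd, map_neg]
  have hfinM : Module.Finite (R ⧸ J) (P ⧸ (J • ⊤ : Submodule R P)) := inferInstance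
  have hfinM' : Finite (P ⧸ (J • ⊤ : Submodule R P)) := Module.finite_of_finite (R ⧸ J)
  have hnd : ∀ H : HForm R P, H.Unimodular →
      ∀ x, (∀ z, (quotForm J hJ H).h z x = 0) → x = 0 := by
    intro H hU x hx
    obtain ⟨x, rfl⟩ := Submodule.Quotient.mk_surjective _ x
    rw [Submodule.Quotient.mk_eq_zero]
    apply dualInv_mem hU J hJ
    intro z
    have h1 := hx (Submodule.Quotient.mk z)
    rw [quotForm_mk, Ideal.Quotient.eq_zero_iff_mem] at h1
    rw [← H.symm]
    exact hJ _ h1
  obtain ⟨g0, hg0⟩ := fin_main hG0 (quotForm J hJ H) (quotForm J hJ H') (hnd H hU) (hnd H' hU')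
  let g0R : (P ⧸ (J • ⊤ : Submodule R P)) →ₗ[R] (P ⧸ (J • ⊤ : Submodule R P)) :=
    { toFun := g0
      map_add' := g0.map_add
      map_smul' := fun r x => by
        obtain ⟨x, rfl⟩ := Submodule.Quotient.mk_surjective _ x
        obtain ⟨y, hy⟩ := Submodule.Quotient.mk_surjective _ (g0 (Submodule.Quotient.mk x))
        rw [RingHom.id_apply, ← Submodule.Quotient.mk_smul, ← Module.Quotient.mk_smul_mk, map_smul,
          ← hy, Module.Quotient.mk_smul_mk, Submodule.Quotient.mk_smul] }
  obtain ⟨G, hGl⟩ := Module.projective_lifting_property (Submodule.mkQ (J • ⊤ : Submodule R P))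
    (g0R.comp (Submodule.mkQ _)) (Submodule.mkQ_surjective _)
  have hGl' : ∀ x, (Submodule.Quotient.mk (G x) : P ⧸ (J • ⊤ : Submodule R P))
      = g0 (Submodule.Quotient.mk x) := fun x => by
    have := congrArg (fun f : P →ₗ[R] (P ⧸ (J • ⊤ : Submodule R P)) => f x) hGl
    exact this
  obtain ⟨G', hG'⟩ := lift_all hJ hc hU hG G (by
    intro x y
    rw [← Ideal.Quotient.eq, ← quotForm_mk J hJ H, ← quotForm_mk J hJ H', hGl', hGl', hg0])
  exact ⟨LinearEquiv.ofBijective G' (bij_of_isom hU G' hG'), hG'⟩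

end Crest.Agent.R267.P47_118
end

-- ▼ part R267/P46c_484
section

/-!
# S0407, package P4.6c, abstract half (helper484)

`R` a star ring satisfying the hypotheses of `P47`, `A = R ⧸ Ann(N)` another one; two unimodular
hermitian forms on an `R`-module of the form `P × Q` (`P` projective over `R`, `Q` projective over
`A`) are isometric.
-/

set_option autoImplicit false

namespace Crest.Agent.R267.P46c_484

open Crest.Agent.R267.P4Herm_780

/-- the hypotheses of `P47` on a ring with a given ideal. -/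
structure Loc {R : Type} [CommRing R] [StarRing R] (J : Ideal R) : Prop where
  good : Good R
  star_mem : ∀ x ∈ J, star x ∈ J
  complete : IsAdicComplete J R
  fin : Finite (R ⧸ J)
  red : IsReduced (R ⧸ J)

theorem Loc.isom {R : Type} [CommRing R] [StarRing R] {J : Ideal R} (hJ : Loc J)
    {P : Type} [AddCommGroup P] [Module R P] [Module.Finite R P] [Module.Projective R P]
    {H H' : HForm R P} (hU : H.Unimodular) (hU' : H'.Unimodular) : HForm.Isom H H' :=
  P47_118.p47 R J hJ.good hJ.star_mem hJ.complete hJ.fin hJ.red P H H' hU hU'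

section

variable {R : Type} [CommRing R] [StarRing R]

omit [StarRing R] in
/-- dual basis of a finite projective module. -/
theorem dual_basis (P : Type) [AddCommGroup P] [Module R P] [Module.Finite R P]
    [Module.Projective R P] :
    ∃ (n : ℕ) (b : Fin n → P) (f : Fin n → (P →ₗ[R] R)), ∀ x, x = ∑ i, f i x • b i := by
  obtain ⟨n, g, hg⟩ := Module.Finite.exists_fin' R P
  obtain ⟨s, hs⟩ := Module.projective_lifting_property g LinearMap.id hg
  refine ⟨n, fun i => g (Pi.single i 1), fun i => (LinearMap.proj i).comp s, fun x => ?_⟩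
  have h1 : g (s x) = x := by
    have := LinearMap.congr_fun hs x
    simpa using this
  conv_lhs => rw [← h1, ← LinearMap.sum_single_apply (fun _ : Fin n => R) (s x)]
  rw [map_sum]
  refine Finset.sum_congr rfl fun i _ => ?_
  rw [LinearMap.comp_apply, LinearMap.proj_apply, ← map_smul]
  congr 1
  rw [← Pi.single_smul, smul_eq_mul, mul_one]

variable {P : Type} [AddCommGroup P] [Module R P]

/-- the range of `HForm.dual` as a submodule of the dual. -/
def rangeDual (H : HForm R P) : Submodule R (P →ₗ[R] R) where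
  carrier := Set.range H.dual
  add_mem' := by
    rintro _ _ ⟨x, rfl⟩ ⟨y, rfl⟩
    exact ⟨x + y, by ext z; exact H.add_left x y z⟩
  zero_mem' := ⟨0, by
    ext z
    have := H.smul_left 0 0 z
    simpa [HForm.dual] using this⟩
  smul_mem' := by
    rintro a _ ⟨x, rfl⟩
    refine ⟨star a • x, ?_⟩
    ext z
    have := H.smul_left (star a) x z
    simpa [HForm.dual] using this

/-- Nakayama: a form which is surjective modulo `J ≤ jacobson ⊥` is unimodular. -/
theorem unimodular_of_mod [Module.Finite R P] [Module.Projective R P] (H : HForm R P)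
    (J : Ideal R) (hJ : J ≤ Ideal.jacobson ⊥)
    (h : ∀ f : P →ₗ[R] R, ∃ x, ∀ y, f y - H.h x y ∈ J) : H.Unimodular := by
  obtain ⟨n, b, c, hbc⟩ := dual_basis (R := R) P
  have hexp : ∀ f : P →ₗ[R] R, f = ∑ i, f (b i) • c i := by
    intro f
    ext x
    conv_lhs => rw [hbc x, map_sum]
    simp only [map_smul, smul_eq_mul, LinearMap.sum_apply, LinearMap.smul_apply]
    exact Finset.sum_congr rfl fun i _ => mul_comm _ _
  have hFG : (⊤ : Submodule R (P →ₗ[R] R)).FG := by
    classical
    refine ⟨Finset.univ.image c, ?_⟩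
    rw [eq_top_iff]
    intro f _
    rw [hexp f]
    exact Submodule.sum_mem _ fun i _ => Submodule.smul_mem _ _
      (Submodule.subset_span (by simp))
  have htop : (⊤ : Submodule R (P →ₗ[R] R)) ≤ rangeDual H := by
    refine Submodule.le_of_le_smul_of_le_jacobson_bot hFG hJ ?_
    intro f _
    obtain ⟨x, hx⟩ := h f
    have h1 : f = H.dual x + (f - H.dual x) := by abel
    rw [h1]
    refine Submodule.add_mem_sup ⟨x, rfl⟩ ?_
    rw [hexp (f - H.dual x)]
    exact Submodule.sum_mem _ fun i _ => Submodule.smul_mem_smul (hx _) trivial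
  refine ⟨?_, fun f => htop trivial⟩
  intro x y hxy
  have hz : ∀ f : P →ₗ[R] R, f (x - y) = 0 := by
    intro f
    obtain ⟨z, hz⟩ := htop (show f ∈ (⊤ : Submodule R (P →ₗ[R] R)) from trivial)
    have h2 : H.h (x - y) z = 0 := by
      rw [P47_118.h_sub_left]
      have := LinearMap.congr_fun hxy z
      change H.h x z = H.h y z at this
      rw [this, sub_self]
    rw [← hz]
    change H.h z (x - y) = 0
    rw [← H.symm, h2, star_zero]
  have : x - y = 0 := by
    rw [hbc (x - y)]
    exact Finset.sum_eq_zero fun i _ => by rw [hz, zero_smul]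
  exact sub_eq_zero.1 this

end

/-- data of the quotient `A` of `R` by the annihilator of the norm element `N`. -/
structure NormQuot {R A : Type} [CommRing R] [StarRing R] [CommRing A] [StarRing A]
    (π : R →+* A) (N : R) : Prop where
  surj : Function.Surjective π
  star_map : ∀ z, π (star z) = star (π z)
  star_N : star N = N
  ann : ∀ z, N * z = 0 ↔ π z = 0
  ker : ∀ z, (∀ c, π c = 0 → c * z = 0) → ∃ w, z = N * w

section

variable {R A : Type} [CommRing R] [StarRing R] [CommRing A] [StarRing A] {π : R →+* A} {N : R}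

theorem NormQuot.eq_iff (hq : NormQuot π N) {z w : R} : N * z = N * w ↔ π z = π w := by
  rw [← sub_eq_zero, ← mul_sub, hq.ann, map_sub, sub_eq_zero]

/-- orthogonal decomposition. -/
theorem decomp (hq : NormQuot π N) {J : Ideal R} (hJ : J ≤ Ideal.jacobson ⊥) (hNJ : N ∈ J)
    {P Q M : Type} [AddCommGroup P] [Module R P] [Module.Finite R P] [Module.Projective R P]
    [AddCommGroup Q] [Module A Q] [AddCommGroup M] [Module R M]
    (e : M ≃+ P × Q) (he : ∀ (r : R) (x : M), e (r • x) = (r • (e x).1, π r • (e x).2))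
    (H : HForm R M) (hU : H.Unimodular) :
    ∃ (HP : HForm R P) (HQ : HForm A Q) (g : (P × Q) ≃+ M),
      HP.Unimodular ∧ HQ.Unimodular ∧ (∀ (r : R) p q, g (r • p, π r • q) = r • g (p, q)) ∧
      ∀ p q p' q', ∃ w : R, π w = HQ.h q q' ∧
        H.h (g (p, q)) (g (p', q')) = HP.h p p' + N * w := by
  classical
  -- the inclusions
  set i : P → M := fun p => e.symm (p, 0) with hi
  set j : Q → M := fun q => e.symm (0, q) with hj
  have i_add : ∀ p p', i (p + p') = i p + i p' := fun p p' => by
    simp only [hi]; rw [← map_add]; simp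
  have i_smul : ∀ (r : R) p, i (r • p) = r • i p := fun r p => by
    apply e.injective
    rw [he]; simp [hi]
  have j_add : ∀ p p', j (p + p') = j p + j p' := fun p p' => by
    simp only [hj]; rw [← map_add]; simp
  have j_smul : ∀ (r : R) q, j (π r • q) = r • j q := fun r q => by
    apply e.injective
    rw [he]; simp [hj]
  have hdec : ∀ x : M, x = i (e x).1 + j (e x).2 := fun x => by
    simp only [hi, hj]; rw [← map_add]; simp
  -- elements of `j Q` pair into `N R`
  have jN : ∀ (q : Q) (y : M), ∃ w, H.h (j q) y = N * w := by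
    intro q y
    apply hq.ker
    intro c hc
    have h1 : star c • j q = 0 := by
      rw [← j_smul, hq.star_map, hc, star_zero, zero_smul]
      simp [hj]
    have h2 := H.smul_left (star c) (j q) y
    rw [h1, star_star] at h2
    have h3 : H.h 0 y = 0 := by
      have := H.smul_left 0 0 y
      simpa using this
    rw [← h2, h3]
  -- the form on `P`
  let HP : HForm R P :=
    { h := fun p p' => H.h (i p) (i p')
      add_right := fun x y z => by rw [i_add, H.add_right]
      smul_right := fun a x y => by rw [i_smul, H.smul_right]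
      symm := fun x y => H.symm _ _ }
  have hHP : HP.Unimodular := by
    refine unimodular_of_mod HP J hJ fun f => ?_
    let Φ : M →ₗ[R] R :=
      { toFun := fun x => f (e x).1
        map_add' := fun x y => by simp
        map_smul' := fun r x => by rw [he]; simp }
    obtain ⟨x0, hx0⟩ := hU.2 Φ
    refine ⟨(e x0).1, fun y => ?_⟩
    have h1 : H.h x0 (i y) = f y := by
      have := LinearMap.congr_fun hx0 (i y)
      change H.h x0 (i y) = f (e (i y)).1 at this
      rw [this]; simp [hi]
    obtain ⟨w, hw⟩ := jN (e x0).2 (i y)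
    have h2 : H.h x0 (i y) = H.h (i (e x0).1) (i y) + N * w := by
      conv_lhs => rw [hdec x0, H.add_left, hw]
    change f y - H.h (i (e x0).1) (i y) ∈ J
    rw [← h1, h2, add_sub_cancel_left]
    exact J.mul_mem_right _ hNJ
  -- the projection of `j q`
  let F : Q → (P →ₗ[R] R) := fun q =>
    { toFun := fun p => H.h (j q) (i p)
      map_add' := fun x y => by rw [i_add, H.add_right]
      map_smul' := fun r x => by rw [i_smul, H.smul_right]; rfl }
  choose σ hσ using fun q => hHP.2 (F q)
  have hσ' : ∀ q p, H.h (i (σ q)) (i p) = H.h (j q) (i p) := fun q p =>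
    LinearMap.congr_fun (hσ q) p
  have σ_unique : ∀ q x, (∀ p, H.h (i x) (i p) = H.h (j q) (i p)) → σ q = x := by
    intro q x hx
    apply hHP.1
    rw [hσ]
    ext p
    exact (hx p).symm
  have σ_add : ∀ q q', σ (q + q') = σ q + σ q' := fun q q' => by
    apply σ_unique
    intro p
    rw [i_add, j_add, H.add_left, H.add_left, hσ', hσ']
  have σ_smul : ∀ (r : R) q, σ (π r • q) = r • σ q := fun r q => by
    apply σ_unique
    intro p
    rw [i_smul, j_smul, H.smul_left, H.smul_left, hσ']
  -- the section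
  set s : Q → M := fun q => j q - i (σ q) with hs
  have i_neg : ∀ p, i (-p) = - i p := fun p => by
    have h0 : i 0 = 0 := by simp [hi]
    have := i_add p (-p)
    rw [add_neg_cancel, h0] at this
    exact (neg_eq_of_add_eq_zero_right this.symm).symm
  have s_add : ∀ q q', s (q + q') = s q + s q' := fun q q' => by
    simp only [hs]; rw [j_add, σ_add, i_add]; abel
  have s_smul : ∀ (r : R) q, s (π r • q) = r • s q := fun r q => by
    simp only [hs]; rw [j_smul, σ_smul, i_smul, smul_sub]
  have s_orth : ∀ q p, H.h (s q) (i p) = 0 := fun q p => by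
    simp only [hs]; rw [P47_118.h_sub_left, hσ', sub_self]
  have s_orth' : ∀ q p, H.h (i p) (s q) = 0 := fun q p => by
    rw [← H.symm, s_orth, star_zero]
  have es : ∀ q, e (s q) = (-σ q, q) := fun q => by
    simp only [hs]; rw [map_sub]; simp [hi, hj]
  -- the new decomposition
  let g : (P × Q) ≃+ M :=
    { toFun := fun v => i v.1 + s v.2
      invFun := fun x => ((e x).1 + σ (e x).2, (e x).2)
      left_inv := by
        rintro ⟨p, q⟩
        simp only [map_add, es]
        simp [hi]
      right_inv := by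
        intro x
        simp only [hs]
        conv_rhs => rw [hdec x]
        rw [i_add]; abel
      map_add' := by
        rintro ⟨p, q⟩ ⟨p', q'⟩
        simp only [Prod.mk_add_mk]
        rw [i_add, s_add]; abel }
  have hg : ∀ p q, g (p, q) = i p + s q := fun _ _ => rfl
  have sN : ∀ (q : Q) (q' : Q), ∃ w, H.h (s q) (s q') = N * w := by
    intro q q'
    obtain ⟨w, hw⟩ := jN q (s q')
    refine ⟨w, ?_⟩
    have : H.h (s q) (s q') = H.h (j q) (s q') - H.h (i (σ q)) (s q') := by
      simp only [hs]; rw [P47_118.h_sub_left]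
    rw [this, s_orth', sub_zero, hw]
  choose W hW using sN
  let HQ : HForm A Q :=
    { h := fun q q' => π (W q q')
      add_right := fun x y z => by
        rw [← map_add, ← hq.eq_iff, mul_add, ← hW, ← hW, ← hW, s_add, H.add_right]
      smul_right := fun a x y => by
        obtain ⟨r, rfl⟩ := hq.surj a
        rw [← map_mul, ← hq.eq_iff, ← hW, s_smul, H.smul_right, hW]; ring
      symm := fun x y => by
        rw [← hq.star_map, ← hq.eq_iff, ← hW y x, ← H.symm, hW x y, star_mul', hq.star_N] }
  have hHQ : HQ.Unimodular := by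
    constructor
    · intro x y hxy
      have h1 : ∀ z, H.h (s x) (s z) = H.h (s y) (s z) := by
        intro z
        have := LinearMap.congr_fun hxy z
        change π (W x z) = π (W y z) at this
        rw [hW, hW, hq.eq_iff, this]
      have h2 : s x = s y := by
        apply hU.1
        ext z
        change H.h (s x) z = H.h (s y) z
        obtain ⟨⟨p, q⟩, rfl⟩ := g.surjective z
        rw [hg, H.add_right, H.add_right, s_orth, s_orth, h1]
      have h3 := es x
      rw [h2, es y] at h3
      exact (Prod.ext_iff.1 h3).2.symm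
    · intro φ
      set l : A → R := Function.surjInv hq.surj with hl
      have hlπ : ∀ a, π (l a) = a := Function.surjInv_eq hq.surj
      let Φ : M →ₗ[R] R :=
        { toFun := fun x => N * l (φ (e x).2)
          map_add' := fun x y => by
            rw [← mul_add, hq.eq_iff, map_add, map_add, hlπ, hlπ, hlπ, Prod.snd_add, map_add]
          map_smul' := fun r x => by
            rw [he, RingHom.id_apply, smul_eq_mul, mul_left_comm, hq.eq_iff, map_mul, hlπ, hlπ]
            simp }
      obtain ⟨x0, hx0⟩ := hU.2 Φ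
      have hx0' : ∀ y, H.h x0 y = N * l (φ (e y).2) := LinearMap.congr_fun hx0
      obtain ⟨⟨p0, q0⟩, rfl⟩ := g.surjective x0
      have hp0 : p0 = 0 := by
        apply hHP.1
        ext p
        change H.h (i p0) (i p) = H.h (i 0) (i p)
        have h1 := hx0' (i p)
        rw [hg, H.add_left, s_orth, add_zero] at h1
        have h2 : N * l (φ (e (i p)).2) = 0 := by
          rw [hq.ann, hlπ]; simp [hi]
        have h3 : H.h (i 0) (i p) = 0 := by
          have h5 := H.smul_left 0 (i 0) (i p)
          rw [← i_smul, smul_zero, star_zero, zero_mul] at h5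
          exact h5
        rw [h1, h2, h3]
      refine ⟨q0, ?_⟩
      ext q
      change π (W q0 q) = φ q
      have h1 := hx0' (s q)
      rw [hg, H.add_left, s_orth', zero_add, hW, hq.eq_iff, hlπ, es] at h1
      exact h1
  refine ⟨HP, HQ, g, hHP, hHQ, ?_, ?_⟩
  · intro r p q
    rw [hg, hg, i_smul, s_smul, smul_add]
  · intro p q p' q'
    refine ⟨W q q', rfl, ?_⟩
    rw [hg, hg, H.add_left, H.add_right, H.add_right, s_orth, s_orth', hW, add_zero, zero_add]

/-- two unimodular hermitian forms on a module of the form `P × Q` are isometric. -/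
theorem isom_of_split (hq : NormQuot π N) {J : Ideal R} {JA : Ideal A} (hR : Loc J) (hA : Loc JA)
    (hNJ : N ∈ J) {P Q M M' : Type}
    [AddCommGroup P] [Module R P] [Module.Finite R P] [Module.Projective R P]
    [AddCommGroup Q] [Module A Q] [Module.Finite A Q] [Module.Projective A Q]
    [AddCommGroup M] [Module R M] [AddCommGroup M'] [Module R M']
    (e : M ≃+ P × Q) (he : ∀ (r : R) (x : M), e (r • x) = (r • (e x).1, π r • (e x).2))
    (e' : M' ≃+ P × Q) (he' : ∀ (r : R) (x : M'), e' (r • x) = (r • (e' x).1, π r • (e' x).2))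
    (H : HForm R M) (H' : HForm R M') (hU : H.Unimodular) (hU' : H'.Unimodular) :
    HForm.Isom H H' := by
  have hJ : J ≤ Ideal.jacobson ⊥ := by
    have := hR.complete
    exact IsAdicComplete.le_jacobson_bot J
  obtain ⟨HP, HQ, g, hP, hQ, hg, hgh⟩ := decomp hq hJ hNJ e he H hU
  obtain ⟨HP', HQ', g', hP', hQ', hg', hgh'⟩ := decomp hq hJ hNJ e' he' H' hU'
  obtain ⟨a, ha⟩ := hR.isom hP hP'
  obtain ⟨b, hb⟩ := hA.isom hQ hQ'
  let G : M ≃+ M' := (g.symm.trans (AddEquiv.prodCongr a.toAddEquiv b.toAddEquiv)).trans g'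
  have hG : ∀ p q, G (g (p, q)) = g' (a p, b q) := by
    intro p q
    simp only [G, AddEquiv.trans_apply, AddEquiv.symm_apply_apply]; rfl
  have hGs : ∀ (r : R) (x : M), G (r • x) = r • G x := by
    intro r x
    obtain ⟨⟨p, q⟩, rfl⟩ := g.surjective x
    rw [← hg, hG, hG, map_smul, map_smul, hg']
  refine ⟨{ G with map_smul' := hGs }, ?_⟩
  intro x y
  change H'.h (G x) (G y) = H.h x y
  obtain ⟨⟨p, q⟩, rfl⟩ := g.surjective x
  obtain ⟨⟨p', q'⟩, rfl⟩ := g.surjective y
  rw [hG, hG]
  obtain ⟨w, hw, h1⟩ := hgh p q p' q'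
  obtain ⟨w', hw', h2⟩ := hgh' (a p) (b q) (a p') (b q')
  rw [h1, h2, ha]
  congr 1
  rw [hq.eq_iff, hw, hw', hb]

end

end Crest.Agent.R267.P46c_484
end

-- ▼ part R267/P46e_484

/-!
# S0407, package P4.6c: matrix side of `LOCSQ` (helper484)

* `goodQ`, `odd_m`: arithmetic of `Q = q₁ ⋯ q₈`, `m = 3 u`;
* `exists_isog_mat`: rationally congruent Seifert matrices have an integral isogeny
  intertwining the monodromies;
* `isog_lin`: the same over `ℤ_p` as an injective `Lam`-linear map of finite index;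
* `cong_of_equiv`: projective case; `cong_of_split`: split case.
-/

set_option autoImplicit false

namespace Crest.Agent.R267.P46e_484

open Polynomial Matrix Crest.Agent.R267.P4Herm_780 Crest.Agent.R267.P4Lam_780
  Crest.Agent.R267.P4Brg_780 Crest.Agent.R267.P4Defs_780 Crest.Agent.R267.P46c_484

/-! ### arithmetic -/

theorem odd_m {L : List (ℕ × ℕ × ℤ)} {u : ℕ} (hC : Cert L u) : Odd (3 * u) := by
  have h1 : Odd u := hC.prime.odd_of_ne_two (by have := hC.big; omega)
  exact (by decide : Odd 3).mul h1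

theorem goodQ {u : ℕ} {q : List ℕ} (hA : Aux u q) : GoodQ q.prod := by
  obtain ⟨x, y, q', rfl⟩ : ∃ x y q', q = x :: y :: q' := by
    have := hA.length
    match q, this with
    | x :: y :: q', _ => exact ⟨x, y, q', rfl⟩
  have hx := hA.prime x (by simp)
  have hy := hA.prime y (by simp)
  have hxy : x ≠ y := by
    have := hA.nodup
    simp only [List.nodup_cons, List.mem_cons, not_or] at this
    exact this.1.1
  have hpos : 0 < (x :: y :: q').prod := by
    apply List.prod_pos
    intro a ha
    exact (hA.prime a ha).pos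
  have hxd : x ∣ (x :: y :: q').prod := List.dvd_prod (by simp)
  have hyd : y ∣ (x :: y :: q').prod := List.dvd_prod (by simp)
  refine ⟨?_, ?_, ?_⟩
  · have h1 := Nat.le_of_dvd hpos hxd
    have h2 := (hA.big x (by simp)).1
    omega
  · intro p hp k hk
    have h1 : x ∣ p ^ k := hk ▸ hxd
    have h2 : y ∣ p ^ k := hk ▸ hyd
    have h3 := (Nat.prime_dvd_prime_iff_eq hx hp).1 (hx.dvd_of_dvd_pow h1)
    have h4 := (Nat.prime_dvd_prime_iff_eq hy hp).1 (hy.dvd_of_dvd_pow h2)
    exact hxy (h3.trans h4.symm)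
  · have h1 : ∀ l : List ℕ, (∀ a ∈ l, a.Prime ∧ 3 < a) → Odd l.prod := by
      intro l
      induction l with
      | nil => intro _; simp
      | cons a l ih =>
        intro h
        rw [List.prod_cons]
        exact ((h a (by simp)).1.odd_of_ne_two (by have := (h a (by simp)).2; omega)).mul
          (ih fun b hb => h b (by simp [hb]))
    exact h1 _ fun a ha => ⟨hA.prime a ha, (hA.big a ha).1⟩

/-! ### isogenies -/

section Isog

variable {m Q : ℕ} {ι κ : Type} [Fintype ι] [DecidableEq ι] [Fintype κ] [DecidableEq κ]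

omit [DecidableEq ι] [DecidableEq κ] in
theorem exists_int_mul (P : Matrix ι κ ℚ) :
    ∃ (d : ℤ) (D : Matrix ι κ ℤ), d ≠ 0 ∧ D.map (Int.castRingHom ℚ) = (d : ℚ) • P := by
  obtain ⟨b, hb⟩ := IsLocalization.exist_integer_multiples_of_finite (nonZeroDivisors ℤ)
    (fun x : ι × κ => P x.1 x.2)
  choose D hD using fun x => hb x
  refine ⟨b, Matrix.of fun i j => D (i, j), nonZeroDivisors.coe_ne_zero b, ?_⟩
  ext i j
  have := hD (i, j)
  rw [Matrix.map_apply, Matrix.smul_apply, smul_eq_mul, Matrix.of_apply]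
  rw [show Int.castRingHom ℚ (D (i, j)) = algebraMap ℤ ℚ (D (i, j)) from rfl, this]
  simp [zsmul_eq_mul]

omit [Fintype ι] [DecidableEq ι] [Fintype κ] [DecidableEq κ] in
theorem map_inj {A B : Matrix ι κ ℤ}
    (h : A.map (Int.castRingHom ℚ) = B.map (Int.castRingHom ℚ)) : A = B :=
  Matrix.map_injective Int.cast_injective h

omit [Fintype ι] [Fintype κ] [DecidableEq κ] in
theorem cast_smul {R : Type} [CommRing R] (k : ℤ) :
    (k • (1 : Matrix ι ι ℤ)).map (Int.castRingHom R) = (k : R) • (1 : Matrix ι ι R) := by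
  ext i j
  simp only [Matrix.map_apply, Matrix.smul_apply, smul_eq_mul, Matrix.one_apply]
  split_ifs <;> simp

theorem exists_isog_mat {A T : Matrix ι ι ℤ} {B S : Matrix κ κ ℤ} (hA : MatLT m Q A T)
    (hB : MatLT m Q B S) (h : CongOver ℚ A B) :
    ∃ (D : Matrix ι κ ℤ) (E : Matrix κ ι ℤ) (k : ℤ), k ≠ 0 ∧
      D * E = k • (1 : Matrix ι ι ℤ) ∧ E * D = k • (1 : Matrix κ κ ℤ) ∧ T * D = D * S := by
  obtain ⟨P, P', hPP, hPP', hc⟩ := h
  change Pᵀ * A.map (Int.castRingHom ℚ) * P = B.map (Int.castRingHom ℚ) at hc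
  obtain ⟨d, D, hd, hD⟩ := exists_int_mul P
  obtain ⟨e, E, he, hE⟩ := exists_int_mul P'
  refine ⟨D, E, d * e, mul_ne_zero hd he, ?_, ?_, ?_⟩
  · apply map_inj
    rw [Matrix.map_mul, cast_smul, hD, hE, Matrix.smul_mul, Matrix.mul_smul, hPP, smul_smul]
    push_cast; ring_nf
  · apply map_inj
    rw [Matrix.map_mul, cast_smul, hD, hE, Matrix.smul_mul, Matrix.mul_smul, hPP', smul_smul]
    push_cast; ring_nf
  · apply map_inj
    rw [Matrix.map_mul, Matrix.map_mul, hD, Matrix.smul_mul, Matrix.mul_smul]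
    congr 1
    -- over `ℚ`
    have h1 := (hA.map (Int.castRingHom ℚ)).mono
    have h2 := (hB.map (Int.castRingHom ℚ)).mono
    have hdet := (hA.map (Int.castRingHom ℚ)).det
    set A' := A.map (Int.castRingHom ℚ)
    set B' := B.map (Int.castRingHom ℚ)
    set T' := T.map (Int.castRingHom ℚ)
    set S' := S.map (Int.castRingHom ℚ)
    have h3 : Pᵀ * (A' * (T' * P)) = Pᵀ * (A' * (P * S')) := by
      calc Pᵀ * (A' * (T' * P)) = Pᵀ * (A' * T') * P := by simp only [Matrix.mul_assoc]
        _ = (Pᵀ * A' * P)ᵀ := by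
            rw [h1, Matrix.transpose_mul, Matrix.transpose_mul, Matrix.transpose_transpose,
              Matrix.mul_assoc]
        _ = B' * S' := by rw [hc, h2]
        _ = Pᵀ * (A' * (P * S')) := by rw [← hc]; simp only [Matrix.mul_assoc]
    have h4 : P'ᵀ * Pᵀ = 1 := by rw [← Matrix.transpose_mul, hPP, Matrix.transpose_one]
    have h5 := congrArg (fun X => A'⁻¹ * (P'ᵀ * X)) h3
    simp only [← Matrix.mul_assoc] at h5
    rw [Matrix.mul_assoc A'⁻¹ P'ᵀ Pᵀ, h4, Matrix.mul_one, Matrix.nonsing_inv_mul _ hdet,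
      Matrix.one_mul, Matrix.one_mul] at h5
    exact h5

/-- an `R`-linear map which intertwines the monodromies is `Lam`-linear. -/
theorem smul_comm_of {R : Type} [CommRing R] {M N : Type} [AddCommGroup M] [Module R M]
    [AddCommGroup N] [Module R N] {T : Module.End R M} {S : Module.End R N}
    (hT : aeval T (Psi m Q R) = 0) (hS : aeval S (Psi m Q R) = 0) (f : M →ₗ[R] N)
    (hf : ∀ x, f (T x) = S (f x)) (z : Lam m Q R) (x : M) :
    letI := lamModule T hT
    letI := lamModule S hS
    f (z • x) = z • f x := by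
  let _ := lamModule T hT
  let _ := lamModule S hS
  have hk : ∀ (k : ℕ) x, f ((T ^ k) x) = (S ^ k) (f x) := by
    intro k
    induction k with
    | zero => intro x; rfl
    | succ k ih =>
      intro x
      rw [pow_succ', pow_succ', Module.End.mul_apply, Module.End.mul_apply, hf, ih]
  induction z using ind with
  | h g =>
    change f (lamHom T hT _ x) = lamHom S hS _ (f x)
    rw [lamHom_aeval, lamHom_aeval]
    induction g using Polynomial.induction_on' with
    | add p q hp hq => simp only [map_add, LinearMap.add_apply]; rw [hp, hq]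
    | monomial k r =>
      rw [aeval_monomial, aeval_monomial]
      simp only [Module.End.mul_apply, Module.algebraMap_end_apply, map_smul]
      rw [hk]

theorem finite_quot {p : ℕ} [Fact p.Prime] {k : ℤ_[p]} (hk : k ≠ 0) :
    Finite (ℤ_[p] ⧸ Ideal.span {k}) := by
  have h1 : Ideal.span {k} = Ideal.span {(p : ℤ_[p]) ^ k.valuation} := by
    conv_lhs => rw [PadicInt.unitCoeff_spec hk]
    exact Ideal.span_singleton_mul_left_unit (Units.isUnit _) _
  rw [h1, ← PadicInt.ker_toZModPow]
  exact Finite.of_injective _ (RingHom.kerLift_injective (PadicInt.toZModPow k.valuation))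

/-- the isogeny over `ℤ_p`. -/
theorem isog_lin (p : ℕ) [Fact p.Prime] {A T : Matrix ι ι ℤ} {B S : Matrix κ κ ℤ}
    (hA : MatLT m Q A T) (hB : MatLT m Q B S) (h : CongOver ℚ A B) :
    ∃ f : (κ → ℤ_[p]) →ₗ[ℤ_[p]] (ι → ℤ_[p]), Function.Injective f ∧
      (LinearMap.range f).toAddSubgroup.index ≠ 0 ∧
      ∀ x, f (Matrix.toLin' (S.map (Int.castRingHom ℤ_[p])) x) =
        Matrix.toLin' (T.map (Int.castRingHom ℤ_[p])) (f x) := by
  obtain ⟨D, E, k, hk, hDE, hED, hTD⟩ := exists_isog_mat hA hB h
  set D' := D.map (Int.castRingHom ℤ_[p]) with hD'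
  set E' := E.map (Int.castRingHom ℤ_[p]) with hE'
  have hk' : (k : ℤ_[p]) ≠ 0 := Int.cast_ne_zero.2 hk
  have hDE' : D' * E' = (k : ℤ_[p]) • (1 : Matrix ι ι ℤ_[p]) := by
    rw [hD', hE', ← Matrix.map_mul, hDE, cast_smul]
  have hED' : E' * D' = (k : ℤ_[p]) • (1 : Matrix κ κ ℤ_[p]) := by
    rw [hD', hE', ← Matrix.map_mul, hED, cast_smul]
  refine ⟨Matrix.toLin' D', ?_, ?_, ?_⟩
  · intro x y hxy
    have h1 : Matrix.toLin' E' (Matrix.toLin' D' x) = Matrix.toLin' E' (Matrix.toLin' D' y) := by
      rw [hxy]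
    rw [← Matrix.toLin'_mul_apply, ← Matrix.toLin'_mul_apply, hED', map_smul, Matrix.toLin'_one,
      LinearMap.smul_apply, LinearMap.smul_apply, LinearMap.id_apply, LinearMap.id_apply] at h1
    ext i
    have h2 := congrFun h1 i
    simp only [Pi.smul_apply, smul_eq_mul] at h2
    rw [mul_left_cancel₀ hk' h2]
  · let φ : (ι → ℤ_[p]) →+ (ι → ℤ_[p] ⧸ Ideal.span {(k : ℤ_[p])}) :=
      { toFun := fun x i => Ideal.Quotient.mk _ (x i)
        map_zero' := by ext i; simp
        map_add' := by intro x y; ext i; simp }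
    have hle : φ.ker ≤ (LinearMap.range (Matrix.toLin' D')).toAddSubgroup := by
      intro x hx
      have h1 : ∀ i, ∃ y, x i = k * y := by
        intro i
        have h2 : Ideal.Quotient.mk (Ideal.span {(k : ℤ_[p])}) (x i) = 0 :=
          congrFun (AddMonoidHom.mem_ker.1 hx) i
        rw [Ideal.Quotient.eq_zero_iff_mem, Ideal.mem_span_singleton'] at h2
        obtain ⟨y, hy⟩ := h2
        exact ⟨y, by rw [← hy, mul_comm]⟩
      choose y hy using h1
      refine ⟨Matrix.toLin' E' y, ?_⟩
      rw [← Matrix.toLin'_mul_apply, hDE', map_smul, Matrix.toLin'_one, LinearMap.smul_apply,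
        LinearMap.id_apply]
      ext i
      rw [Pi.smul_apply, smul_eq_mul, hy]
    have hfin : φ.ker.index ≠ 0 := by
      have := finite_quot hk'
      rw [AddSubgroup.index_ker]
      exact Nat.card_ne_zero.2 ⟨inferInstance, inferInstance⟩
    exact fun h0 => hfin (Nat.eq_zero_of_zero_dvd (h0 ▸ AddSubgroup.index_dvd_of_le hle))
  · intro x
    rw [← Matrix.toLin'_mul_apply, ← Matrix.toLin'_mul_apply, hD', ← Matrix.map_mul,
      ← Matrix.map_mul, hTD]

end Isog

/-! ### transport of hermitian forms -/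

/-- pull-back of a hermitian form along a linear equivalence. -/
def pull {R M N : Type} [CommRing R] [StarRing R] [AddCommGroup M] [Module R M]
    [AddCommGroup N] [Module R N] (H : HForm R N) (e : M ≃ₗ[R] N) : HForm R M where
  h x y := H.h (e x) (e y)
  add_right x y z := by rw [map_add, H.add_right]
  smul_right a x y := by rw [map_smul, H.smul_right]
  symm x y := H.symm _ _

theorem pull_unimodular {R M N : Type} [CommRing R] [StarRing R] [AddCommGroup M] [Module R M]
    [AddCommGroup N] [Module R N] {H : HForm R N} (hU : H.Unimodular) (e : M ≃ₗ[R] N) :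
    (pull H e).Unimodular := by
  constructor
  · intro x y hxy
    apply e.injective
    apply hU.1
    ext z
    have := LinearMap.congr_fun hxy (e.symm z)
    change H.h (e x) (e (e.symm z)) = H.h (e y) (e (e.symm z)) at this
    rwa [e.apply_symm_apply] at this
  · intro f
    obtain ⟨x, hx⟩ := hU.2 (f.comp (e.symm : N →ₗ[R] M))
    refine ⟨e.symm x, ?_⟩
    ext z
    have := LinearMap.congr_fun hx (e z)
    change H.h x (e z) = f (e.symm (e z)) at this
    change H.h (e (e.symm x)) (e z) = f z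
    rw [e.apply_symm_apply, this, e.symm_apply_apply]

theorem isom_pull {R M N : Type} [CommRing R] [StarRing R] [AddCommGroup M] [Module R M]
    [AddCommGroup N] [Module R N] (H : HForm R N) (e : M ≃ₗ[R] N) : HForm.Isom (pull H e) H :=
  ⟨e, fun _ _ => rfl⟩

theorem isom_trans {R M N K : Type} [CommRing R] [StarRing R] [AddCommGroup M] [Module R M]
    [AddCommGroup N] [Module R N] [AddCommGroup K] [Module R K] {H : HForm R M} {H' : HForm R N}
    {H'' : HForm R K} (h : HForm.Isom H H') (h' : HForm.Isom H' H'') : HForm.Isom H H'' := by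
  obtain ⟨g, hg⟩ := h
  obtain ⟨g', hg'⟩ := h'
  exact ⟨g.trans g', fun x y => by rw [← hg, ← hg']; rfl⟩

/-- projective case: isomorphic projective modules carry isometric unimodular forms. -/
theorem isom_of_equiv {R : Type} [CommRing R] [StarRing R] {J : Ideal R} (hJ : Loc J)
    {M N : Type} [AddCommGroup M] [Module R M] [Module.Finite R M] [Module.Projective R M]
    [AddCommGroup N] [Module R N] (e : M ≃ₗ[R] N) {H : HForm R M} {H' : HForm R N}
    (hU : H.Unimodular) (hU' : H'.Unimodular) : HForm.Isom H H' :=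
  isom_trans (hJ.isom hU (pull_unimodular hU' e)) (isom_pull H' e)

/-! ### congruence of matrices -/

section Cong

variable {m Q : ℕ} [NeZero m] [NeZero Q] {R ι κ : Type} [CommRing R] [Nontrivial R] [Fintype ι]
  [DecidableEq ι] [Fintype κ] [DecidableEq κ]

/-- projective case. -/
theorem cong_of_proj {A T : Matrix ι ι R} {B S : Matrix κ κ R} (hA : MatLT m Q A T)
    (hB : MatLT m Q B S) (hQ : GoodQ Q) (hm : Odd m) {J : Ideal (Lam m Q R)} (hJ : Loc J)
    (hfin : @Module.Finite (Lam m Q R) (ι → R) _ _ (lamModule (Matrix.toLin' T) hA.toLT.psi))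
    (hproj : @Module.Projective (Lam m Q R) _ (ι → R) _
      (lamModule (Matrix.toLin' T) hA.toLT.psi))
    (e : Nonempty (@LinearEquiv (Lam m Q R) (Lam m Q R) _ _ (RingHom.id _) (RingHom.id _) _ _
      (ι → R) (κ → R) _ _ (lamModule (Matrix.toLin' T) hA.toLT.psi)
      (lamModule (Matrix.toLin' S) hB.toLT.psi))) : Cong R B A := by
  let _ := lamModule (Matrix.toLin' T) hA.toLT.psi
  let _ := lamModule (Matrix.toLin' S) hB.toLT.psi
  obtain ⟨e⟩ := e
  exact hA.cong_of_isom hB hQ hm
    (isom_of_equiv hJ e (hA.toLT.hform_unimodular hQ hm) (hB.toLT.hform_unimodular hQ hm))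

/-- split case. -/
theorem cong_of_split {A T : Matrix ι ι R} {B S : Matrix κ κ R} (hA : MatLT m Q A T)
    (hB : MatLT m Q B S) (hQ : GoodQ Q) (hm : Odd m) {J : Ideal (Lam m Q R)} (hJ : Loc J)
    {Λ : Type} [CommRing Λ] [StarRing Λ] {π : Lam m Q R →+* Λ} {N : Lam m Q R}
    (hq : NormQuot π N) {JA : Ideal Λ} (hJA : Loc JA) (hN : N ∈ J)
    {P Q₀ : Type} [AddCommGroup P] [Module (Lam m Q R) P] [Module.Finite (Lam m Q R) P]
    [Module.Projective (Lam m Q R) P] [AddCommGroup Q₀] [Module Λ Q₀] [Module.Finite Λ Q₀]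
    [Module.Projective Λ Q₀] (e : (ι → R) ≃+ P × Q₀)
    (he : letI := lamModule (Matrix.toLin' T) hA.toLT.psi
      ∀ (r : Lam m Q R) (x : ι → R), e (r • x) = (r • (e x).1, π r • (e x).2))
    (e' : (κ → R) ≃+ P × Q₀)
    (he' : letI := lamModule (Matrix.toLin' S) hB.toLT.psi
      ∀ (r : Lam m Q R) (x : κ → R), e' (r • x) = (r • (e' x).1, π r • (e' x).2)) :
    Cong R B A := by
  let _ := lamModule (Matrix.toLin' T) hA.toLT.psi
  let _ := lamModule (Matrix.toLin' S) hB.toLT.psi
  exact hA.cong_of_isom hB hQ hm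
    (isom_of_split hq hJ hJA hN e he e' he' _ _ (hA.toLT.hform_unimodular hQ hm)
      (hB.toLT.hform_unimodular hQ hm))

end Cong

/-! ### more arithmetic -/

theorem not_sq_dvd_m {L : List (ℕ × ℕ × ℤ)} {u : ℕ} (hC : Cert L u) {p : ℕ} (hp : p.Prime) :
    ¬ p ^ 2 ∣ 3 * u := by
  intro h
  have hu := hC.prime
  have hb := hC.big
  have h1 : p ∣ 3 * u := dvd_trans (Dvd.intro_left _ (by rw [pow_two])) h
  rcases hp.dvd_mul.1 h1 with h2 | h2
  · have h3 := (Nat.prime_dvd_prime_iff_eq hp Nat.prime_three).1 h2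
    subst h3
    have h4 : 3 ∣ u := by
      rw [pow_two] at h
      exact Nat.dvd_of_mul_dvd_mul_left (by norm_num) h
    have := (Nat.prime_dvd_prime_iff_eq Nat.prime_three hu).1 h4
    omega
  · have h3 := (Nat.prime_dvd_prime_iff_eq hp hu).1 h2
    subst h3
    have h4 : p ∣ 3 := by
      rw [pow_two] at h
      exact Nat.dvd_of_mul_dvd_mul_right hp.pos h
    have := (Nat.prime_dvd_prime_iff_eq hp Nat.prime_three).1 h4
    omega

theorem not_sq_dvd_prod : ∀ {q : List ℕ}, q.Nodup → (∀ x ∈ q, x.Prime) → ∀ {p : ℕ}, p.Prime →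
    ¬ p ^ 2 ∣ q.prod
  | [], _, _, p, hp, h => by
      rw [List.prod_nil] at h
      have := Nat.le_of_dvd one_pos h
      nlinarith [hp.two_le]
  | x :: q, hn, hq, p, hp, h => by
      rw [List.prod_cons] at h
      have hx := hq x (by simp)
      rw [List.nodup_cons] at hn
      have h1 : p ∣ x * q.prod := dvd_trans (Dvd.intro_left _ (by rw [pow_two])) h
      by_cases hpx : p = x
      · subst hpx
        rw [pow_two] at h
        have h2 : p ∣ q.prod := Nat.dvd_of_mul_dvd_mul_left hp.pos h
        obtain ⟨y, hy, hpy⟩ := (Prime.dvd_prod_iff hp.prime).1 h2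
        have := (Nat.prime_dvd_prime_iff_eq hp (hq y (by simp [hy]))).1 hpy
        subst this
        exact hn.1 hy
      · have h2 : Nat.Coprime (p ^ 2) x :=
          Nat.Coprime.pow_left 2 ((Nat.coprime_primes hp hx).2 hpx)
        exact not_sq_dvd_prod hn.2 (fun y hy => hq y (by simp [hy])) hp
          (h2.dvd_of_dvd_mul_left h)

theorem not_sq_dvd_Q {u : ℕ} {q : List ℕ} (hA : Aux u q) {p : ℕ} (hp : p.Prime) :
    ¬ p ^ 2 ∣ q.prod := not_sq_dvd_prod hA.nodup hA.prime hp

theorem not_dvd_Q {L : List (ℕ × ℕ × ℤ)} {u : ℕ} {q : List ℕ} (hC : Cert L u) (hA : Aux u q)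
    {p : ℕ} (hp : p.Prime) (h : p ∣ 3 * u) : ¬ p ∣ q.prod := by
  intro h'
  obtain ⟨y, hy, hpy⟩ := (Prime.dvd_prod_iff hp.prime).1 h'
  have h1 := (Nat.prime_dvd_prime_iff_eq hp (hA.prime y hy)).1 hpy
  subst h1
  have h2 := hA.big p hy
  rcases hp.dvd_mul.1 h with h3 | h3
  · have := (Nat.prime_dvd_prime_iff_eq hp Nat.prime_three).1 h3
    omega
  · exact h2.2 ((Nat.prime_dvd_prime_iff_eq hp hC.prime).1 h3)

end Crest.Agent.R267.P46e_484
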