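import Crest.Agent.R267.P46a0_543
import Crest.Agent.R267.P4Lam_780
import Mathlib
import Crest.Agent.R267.P46e_484
import Crest.Agent.R267.P414_111
import Crest.Agent.R267.P4LocsQ_780
import Crest.Agent.R267.P46g_484
import Crest.Agent.R267.P45e_235
import Crest.Agent.R267.P411_61

-- ▼ part R267/P46b_543
section

/-!
# Structure of lattices over `A[C_p]` with `Ĥ⁻¹ = 0` (helper543, row 267, node P4.6b)

`A` with `Base A p` (complete, unramified: `A ⧸ p` finite reduced), `M` a finite `p`-torsion-free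
`A`-module, `g` an `A`-linear endomorphism with `g ^ p = 1` and `ker (1 + g + … + g^{p-1}) ⊆
(g - 1) M`.  Then `M = P[C_p] ⊕ Q` with `P`, `Q` finite projective over `A` and `g = 1` on `Q`
(`struct`); two such modules which are isogenous are isomorphic (`iso`).
-/

set_option autoImplicit false

namespace Crest.Agent.R267.P46b_543

open Function Crest.Agent.R267.P46a0_543

universe u v w

/-- projective cover of a finite module killed by `π`. -/
theorem exists_cover_aux {A : Type u} [CommRing A] {π : A} (hA : Base A π) (n : ℕ) :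
    ∀ (V : Type v) [AddCommGroup V] [Module A V] [Finite V], (∀ v : V, π • v = 0) →
      Nat.card V ≤ n →
      ∃ (P : Type u) (_ : AddCommGroup P) (_ : Module A P), Module.Finite A P ∧
        Module.Projective A P ∧ (∀ x : P, π • x = 0 → x = 0) ∧
        (∀ x : P, (∀ k : ℕ, ∃ y, x = π ^ k • y) → x = 0) ∧
        ∃ θ : P →ₗ[A] V, Surjective θ ∧ ∀ x, θ x = 0 → ∃ y, x = π • y := by
  induction n with
  | zero =>
    intro V _ _ _ _ hn
    have := Nat.card_pos (α := V)
    omega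
  | succ n ih =>
    intro V _ _ _ hV hn
    rcases subsingleton_or_nontrivial V with hs | hs
    · refine ⟨PUnit, inferInstance, inferInstance, inferInstance, inferInstance,
        fun _ _ => rfl, fun _ _ => rfl, 0, fun v => ⟨0, Subsingleton.elim _ _⟩, fun x _ => ⟨x, rfl⟩⟩
    obtain ⟨v₀, hv₀⟩ := exists_ne (0 : V)
    obtain ⟨e, v, he, hv, hev, hann, -⟩ := hA.exists_prim hV hv₀
    -- quotient by `A v`
    have hfq : Finite (V ⧸ Submodule.span A {v}) :=
      Finite.of_surjective _ (Submodule.mkQ_surjective _)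
    have hlt : Nat.card (V ⧸ Submodule.span A {v}) < Nat.card V := by
      have h1 := (Submodule.span A {v}).card_eq_card_quotient_mul_card
      have h2 : 1 < Nat.card (Submodule.span A {v}) := by
        rw [Finite.one_lt_card_iff_nontrivial]
        exact ⟨⟨⟨v, Submodule.mem_span_singleton_self v⟩, 0, fun h => hv (congrArg Subtype.val h)⟩⟩
      have h3 : 0 < Nat.card (V ⧸ Submodule.span A {v}) := Nat.card_pos
      rw [h1]
      nlinarith
    obtain ⟨P, _, _, hfin, hproj, htf, hsep, θ, hθ, hker⟩ := ih (V ⧸ Submodule.span A {v}) (by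
      intro q
      obtain ⟨x, rfl⟩ := Submodule.Quotient.mk_surjective _ q
      rw [← Submodule.Quotient.mk_smul, hV]
      rfl) (by omega)
    obtain ⟨l, hl⟩ := Module.projective_lifting_property (Submodule.span A {v}).mkQ θ
      (Submodule.mkQ_surjective _)
    have hl' : ∀ x, Submodule.Quotient.mk (l x) = θ x := fun x => by
      rw [← hl]; rfl
    have hpe := projective_quot he
    let i : (A ⧸ Ideal.span {1 - e}) →ₗ[A] V :=
      Submodule.liftQ _ (LinearMap.toSpanSingleton A V v) (by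
        rw [Ideal.span_singleton_le_iff_mem]
        simp only [LinearMap.mem_ker, LinearMap.toSpanSingleton_apply]
        rw [sub_smul, one_smul, hev, sub_self])
    have hi : ∀ a : A, i (Submodule.Quotient.mk a) = a • v := fun a => rfl
    refine ⟨P × (A ⧸ Ideal.span {1 - e}), inferInstance, inferInstance, inferInstance,
      inferInstance, ?_, ?_, LinearMap.coprod l i, ?_, ?_⟩
    · rintro ⟨x, q⟩ h
      obtain ⟨a, rfl⟩ := Submodule.Quotient.mk_surjective _ q
      rw [Prod.smul_mk, Prod.mk_eq_zero] at h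
      rw [Prod.mk_eq_zero]
      refine ⟨htf _ h.1, ?_⟩
      have h1 := h.2
      rw [← Submodule.Quotient.mk_smul, Submodule.Quotient.mk_eq_zero, smul_eq_mul,
        Ideal.mem_span_singleton] at h1
      obtain ⟨c, hc⟩ := h1
      have h2 : π * (e * a) = 0 := by linear_combination e * hc - c * he
      rw [Submodule.Quotient.mk_eq_zero, Ideal.mem_span_singleton]
      exact ⟨a, by linear_combination hA.nz _ h2⟩
    · rintro ⟨x, q⟩ h
      obtain ⟨a, rfl⟩ := Submodule.Quotient.mk_surjective _ q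
      rw [Prod.mk_eq_zero]
      refine ⟨hsep _ fun k => ?_, ?_⟩
      · obtain ⟨y, hy⟩ := h k
        exact ⟨y.1, congrArg Prod.fst hy⟩
      · have h2 : e * a = 0 := by
          apply hA.sep
          intro k
          obtain ⟨⟨y, r⟩, hy⟩ := h k
          obtain ⟨b, rfl⟩ := Submodule.Quotient.mk_surjective _ r
          have h3 := congrArg Prod.snd hy
          simp only [Prod.smul_snd] at h3
          rw [← Submodule.Quotient.mk_smul, Submodule.Quotient.eq, smul_eq_mul,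
            Ideal.mem_span_singleton] at h3
          obtain ⟨c, hc⟩ := h3
          exact ⟨e * b, by linear_combination e * hc - c * he⟩
        rw [Submodule.Quotient.mk_eq_zero, Ideal.mem_span_singleton]
        exact ⟨a, by linear_combination h2⟩
    · intro y
      obtain ⟨x, hx⟩ := hθ (Submodule.Quotient.mk y)
      rw [← hl', Submodule.Quotient.eq, Submodule.mem_span_singleton] at hx
      obtain ⟨a, ha⟩ := hx
      refine ⟨(x, Submodule.Quotient.mk (-a)), ?_⟩
      rw [LinearMap.coprod_apply, hi, neg_smul, ha]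
      abel
    · rintro ⟨x, q⟩ h
      obtain ⟨a, rfl⟩ := Submodule.Quotient.mk_surjective _ q
      rw [LinearMap.coprod_apply, hi] at h
      obtain ⟨x', rfl⟩ := hker x (by
        rw [← hl', Submodule.Quotient.mk_eq_zero, Submodule.mem_span_singleton]
        exact ⟨-a, by rw [neg_smul]; exact neg_eq_of_add_eq_zero_left h⟩)
      simp only [map_smul, hV, zero_add] at h
      obtain ⟨c, hc⟩ := hann a h
      refine ⟨(x', Submodule.Quotient.mk c), ?_⟩
      rw [Prod.smul_mk, ← Submodule.Quotient.mk_smul]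
      congr 1
      rw [Submodule.Quotient.eq, smul_eq_mul, ← hc, Ideal.mem_span_singleton]
      exact ⟨a, by ring⟩

theorem exists_cover {A : Type u} [CommRing A] {π : A} (hA : Base A π)
    (V : Type v) [AddCommGroup V] [Module A V] [Finite V] (hV : ∀ v : V, π • v = 0) :
    ∃ (P : Type u) (_ : AddCommGroup P) (_ : Module A P), Module.Finite A P ∧
      Module.Projective A P ∧ (∀ x : P, π • x = 0 → x = 0) ∧
      (∀ x : P, (∀ k : ℕ, ∃ y, x = π ^ k • y) → x = 0) ∧
      ∃ θ : P →ₗ[A] V, Surjective θ ∧ ∀ x, θ x = 0 → ∃ y, x = π • y :=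
  exists_cover_aux hA _ V hV le_rfl

/-- sums over `ZMod p`. -/
theorem sum_zmod {B : Type w} [AddCommMonoid B] (p : ℕ) [NeZero p] (f : ℕ → B) :
    ∑ i : ZMod p, f i.val = ∑ i ∈ Finset.range p, f i := by
  cases p with
  | zero => exact absurd rfl (NeZero.ne 0)
  | succ n => exact Fin.sum_univ_eq_sum_range f (n + 1)

/-- in a ring, `g ^ p = 1` implies `(g - 1) ^ p ∈ p R`. -/
theorem sub_one_pow {R : Type w} [Ring R] {p : ℕ} (hp : p.Prime) {g : R} (hg : g ^ p = 1) :
    ∃ s : R, (g - 1) ^ p = (p : R) * s := by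
  have h := (Commute.neg_one_right g).add_pow_prime_eq hp
  rw [hg] at h
  generalize (∑ k ∈ Finset.Ioo 0 p, g ^ (k - 1) * (-1) ^ (p - k - 1) *
    ((p.choose k / p : ℕ) : R)) = S at h
  rcases hp.eq_two_or_odd' with h2 | h2
  · subst h2
    refine ⟨1 + g * -1 * S, ?_⟩
    rw [sub_eq_add_neg, h, mul_add, mul_one, mul_assoc, mul_assoc, mul_assoc]
    norm_num
  · rw [h2.neg_one_pow] at h
    refine ⟨g * -1 * S, ?_⟩
    rw [sub_eq_add_neg, h, mul_assoc, mul_assoc, mul_assoc]
    simp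

section struct

set_option linter.unusedSectionVars false

variable {A : Type u} [CommRing A] {p : ℕ} [Fact p.Prime]

/-- the cyclic shift on `P[C_p] = (ZMod p → P)`. -/
def shift (A : Type u) [CommRing A] (p : ℕ) (P : Type w) [AddCommGroup P] [Module A P] :
    (ZMod p → P) →ₗ[A] (ZMod p → P) where
  toFun x i := x (i - 1)
  map_add' _ _ := rfl
  map_smul' _ _ := rfl

@[simp] theorem shift_apply (P : Type w) [AddCommGroup P] [Module A P] (x : ZMod p → P)
    (i : ZMod p) : shift A p P x i = x (i - 1) := rfl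

theorem shift_pow_apply (P : Type w) [AddCommGroup P] [Module A P] (x : ZMod p → P) (n : ℕ)
    (i : ZMod p) : (shift A p P ^ n) x i = x (i - n) := by
  induction n generalizing x with
  | zero => simp
  | succ n ih =>
    rw [pow_succ, Module.End.mul_apply, ih, shift_apply]
    congr 1
    push_cast
    ring

theorem shift_pow_p (P : Type w) [AddCommGroup P] [Module A P] : shift A p P ^ p = 1 := by
  refine LinearMap.ext fun x => ?_
  funext i
  rw [shift_pow_apply]
  simp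

variable {M : Type v} [AddCommGroup M] [Module A M] (g : M →ₗ[A] M)
  {P : Type w} [AddCommGroup P] [Module A P] (j : P →ₗ[A] M)

/-- the norm `1 + g + … + g^{p-1}`. -/
noncomputable def Nm (p : ℕ) (g : M →ₗ[A] M) : M →ₗ[A] M := ∑ i ∈ Finset.range p, g ^ i

theorem Nm_fixed {x : M} (hx : g x = x) : Nm p g x = (p : A) • x := by
  have h1 : ∀ i : ℕ, (g ^ i) x = x := by
    intro i
    induction i with
    | zero => simp
    | succ i ih => rw [pow_succ, Module.End.mul_apply, hx, ih]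
  simp only [Nm, LinearMap.sum_apply, h1, Finset.sum_const, Finset.card_range]
  rw [Nat.cast_smul_eq_nsmul]

theorem sub_Nm (hg : g ^ p = 1) (x : M) : g (Nm p g x) = Nm p g x := by
  have h1 := mul_geom_sum g p
  rw [hg, sub_self, sub_mul, one_mul, sub_eq_zero] at h1
  have h2 := congrArg (fun f => f x) h1
  simpa [Nm, Module.End.mul_apply] using h2


/-- the comparison map `P[C_p] → M`. -/
noncomputable def Phi : (ZMod p → P) →ₗ[A] M :=
  ∑ i : ZMod p, (g ^ i.val).comp (j.comp (LinearMap.proj i))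

theorem Phi_apply (x : ZMod p → P) : Phi g j x = ∑ i : ZMod p, (g ^ i.val) (j (x i)) := by
  simp [Phi]

theorem pow_val_add_one (hg : g ^ p = 1) (i : ZMod p) : g ^ (i + 1).val = g ^ (i.val + 1) := by
  have h : (i + 1).val = (i.val + 1) % p := by
    rw [ZMod.val_add, ZMod.val_one_eq_one_mod, Nat.add_mod_mod]
  rw [h]
  conv_rhs => rw [← Nat.div_add_mod (i.val + 1) p]
  rw [pow_add, pow_mul, hg, one_pow, one_mul]

theorem Phi_shift (hg : g ^ p = 1) (x : ZMod p → P) :
    Phi g j (shift A p P x) = g (Phi g j x) := by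
  rw [Phi_apply, Phi_apply, map_sum, ← Equiv.sum_comp (Equiv.addRight (1 : ZMod p))]
  refine Finset.sum_congr rfl fun i _ => ?_
  rw [Equiv.coe_addRight, shift_apply, add_sub_cancel_right, pow_val_add_one g hg, pow_succ',
    Module.End.mul_apply]

theorem Phi_const (y : P) : Phi g j (fun _ : ZMod p => y) = Nm p g (j y) := by
  rw [Phi_apply, Nm, LinearMap.sum_apply]
  exact sum_zmod p (fun i => (g ^ i) (j y))

theorem Phi_single (y : P) : Phi g j (Pi.single (0 : ZMod p) y) = j y := by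
  classical
  rw [Phi_apply, Finset.sum_eq_single (0 : ZMod p)]
  · simp
  · intro i _ hi
    simp [Pi.single_eq_of_ne hi]
  · simp

variable {g j}

/-- the hypotheses on `(M, g)`. -/
structure Lat (A : Type u) [CommRing A] (p : ℕ) (M : Type v) [AddCommGroup M] [Module A M]
    (g : M →ₗ[A] M) : Prop where
  finite : Module.Finite A M
  tf : ∀ x : M, (p : A) • x = 0 → x = 0
  pow : g ^ p = 1
  hm1 : ∀ x : M, ∑ i ∈ Finset.range p, (g ^ i) x = 0 → ∃ y, x = g y - y

theorem Lat.hm1' (h : Lat A p M g) {x : M} (hx : Nm p g x = 0) : ∃ y, x = g y - y :=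
  h.hm1 x (by simpa [Nm] using hx)

/-- the covering data: `j : P → M` such that `P → M ⧸ (M^g + (g-1) M)` is surjective with kernel
`p P`. -/
structure Cov (A : Type u) [CommRing A] (p : ℕ) (M : Type v) [AddCommGroup M] [Module A M]
    (g : M →ₗ[A] M) (P : Type w) [AddCommGroup P] [Module A P] (j : P →ₗ[A] M) : Prop where
  sep : ∀ x : P, (∀ k : ℕ, ∃ y, x = (p : A) ^ k • y) → x = 0
  surj : ∀ m : M, ∃ (y : P) (z w : M), g z = z ∧ m = j y + z + (g w - w)
  ker : ∀ (y : P) (z w : M), g z = z → j y = z + (g w - w) → ∃ y', y = (p : A) • y'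

/-- claim (C). -/
theorem Cov.claimC (h : Lat A p M g) (c : Cov A p M g P j) {y : P} {z : M}
    (hyz : Nm p g (j y) = (p : A) • z) : ∃ y', y = (p : A) • y' := by
  have h1 : g z = z := by
    have h2 : (p : A) • (g z - z) = 0 := by
      rw [smul_sub, ← map_smul, ← hyz, sub_Nm g h.pow, sub_self]
    exact sub_eq_zero.mp (h.tf _ h2)
  have h3 : Nm p g (j y - z) = 0 := by
    rw [map_sub, Nm_fixed g h1, hyz, sub_self]
  obtain ⟨w, hw⟩ := h.hm1' h3
  exact c.ker y z w h1 (by rw [← hw]; abel)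

/-- claim (n = 1). -/
theorem Cov.claim_one (h : Lat A p M g) (c : Cov A p M g P j) {x : ZMod p → P}
    (hx : ∃ z, Phi g j x = (p : A) • z) (ht : ∃ y, shift A p P x - x = (p : A) • y) :
    ∃ y, x = (p : A) • y := by
  obtain ⟨z, hz⟩ := hx
  obtain ⟨y, hy⟩ := ht
  have h1 : ∀ n : ℕ, ∃ u, x (n : ZMod p) = x 0 + (p : A) • u := by
    intro n
    induction n with
    | zero => exact ⟨0, by simp⟩
    | succ n ih =>
      obtain ⟨u, hu⟩ := ih
      have h2 := congrFun hy ((n + 1 : ℕ) : ZMod p)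
      rw [Pi.sub_apply, shift_apply, Pi.smul_apply] at h2
      have h3 : (((n + 1 : ℕ) : ZMod p) - 1) = (n : ZMod p) := by push_cast; ring
      rw [h3, hu] at h2
      exact ⟨u - y ((n + 1 : ℕ) : ZMod p), by rw [smul_sub, ← h2]; abel⟩
  have h1' : ∀ i : ZMod p, ∃ u, x i = x 0 + (p : A) • u := by
    intro i
    obtain ⟨u, hu⟩ := h1 i.val
    rw [ZMod.natCast_zmod_val] at hu
    exact ⟨u, hu⟩
  choose u hu using h1'
  have h4 : x = (fun _ => x 0) + (p : A) • u := by
    funext i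
    exact hu i
  have h5 : Nm p g (j (x 0)) = (p : A) • (z - Phi g j u) := by
    rw [← Phi_const, smul_sub, ← hz]
    conv_rhs => rw [h4]
    rw [map_add, map_smul]
    abel
  obtain ⟨y', hy'⟩ := c.claimC h h5
  exact ⟨fun i => y' + u i, by
    funext i
    rw [Pi.smul_apply, smul_add, ← hy']
    exact hu i⟩

theorem Cov.claim_n (h : Lat A p M g) (c : Cov A p M g P j) (n : ℕ) :
    ∀ x : ZMod p → P, (∃ z, Phi g j x = (p : A) • z) →
      (∃ y, ((shift A p P - 1) ^ n) x = (p : A) • y) → ∃ y, x = (p : A) • y := by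
  induction n with
  | zero =>
    intro x _ ⟨y, hy⟩
    exact ⟨y, by simpa using hy⟩
  | succ n ih =>
    intro x hx ⟨y, hy⟩
    refine c.claim_one h hx ?_
    have h1 := ih ((shift A p P - 1) x) (by
      obtain ⟨z, hz⟩ := hx
      refine ⟨g z - z, ?_⟩
      rw [LinearMap.sub_apply, Module.End.one_apply, map_sub, Phi_shift g j h.pow, hz, map_smul,
        smul_sub]) ⟨y, by rw [← hy, pow_succ, Module.End.mul_apply]⟩
    simpa using h1

/-- `P[C_p] ⧸ p → M ⧸ p` is injective. -/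
theorem Cov.pure (h : Lat A p M g) (c : Cov A p M g P j) {x : ZMod p → P}
    (hx : ∃ z, Phi g j x = (p : A) • z) : ∃ y, x = (p : A) • y := by
  refine c.claim_n h p x hx ?_
  obtain ⟨s, hs⟩ := sub_one_pow (Fact.out : p.Prime) (shift_pow_p (A := A) (p := p) P)
  refine ⟨s x, ?_⟩
  rw [hs, Module.End.mul_apply]
  simp [Nat.cast_smul_eq_nsmul]

theorem Cov.inj (h : Lat A p M g) (c : Cov A p M g P j) : Injective (Phi (p := p) g j) := by
  rw [injective_iff_map_eq_zero]
  intro x hx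
  have h1 : ∀ k : ℕ, ∃ y, x = (p : A) ^ k • y ∧ Phi g j y = 0 := by
    intro k
    induction k with
    | zero => exact ⟨x, by simp, hx⟩
    | succ k ih =>
      obtain ⟨y, hy, hy0⟩ := ih
      obtain ⟨y', rfl⟩ := c.pure h ⟨0, by rw [hy0, smul_zero]⟩
      refine ⟨y', by rw [hy, smul_smul, pow_succ], ?_⟩
      rw [map_smul] at hy0
      exact h.tf _ hy0
  funext i
  apply c.sep
  intro k
  obtain ⟨y, hy, -⟩ := h1 k
  exact ⟨y i, by rw [hy]; rfl⟩

/-- every `(g - 1) m` is in `(g - 1) Φ(P[C_p]) + (g - 1)^{n+1} M`. -/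
theorem Cov.approx (h : Lat A p M g) (c : Cov A p M g P j) (n : ℕ) :
    ∀ m : M, ∃ (f : ZMod p → P) (m' : M),
      (g - 1) m = (g - 1) (Phi g j f) + ((g - 1) ^ (n + 1)) m' := by
  induction n with
  | zero =>
    intro m
    exact ⟨0, m, by simp⟩
  | succ n ih =>
    intro m
    obtain ⟨y, z, w, hz, hm⟩ := c.surj m
    obtain ⟨f, m', hf⟩ := ih w
    refine ⟨Pi.single 0 y + (shift A p P f - f), m', ?_⟩
    have h1 : (g - 1) z = 0 := by
      rw [LinearMap.sub_apply, Module.End.one_apply, hz, sub_self]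
    have h2 : Phi g j (shift A p P f - f) = (g - 1) (Phi g j f) := by
      rw [map_sub, Phi_shift g j h.pow, LinearMap.sub_apply, Module.End.one_apply]
    have h3 : m = j y + z + (g - 1) w := by
      rw [LinearMap.sub_apply, Module.End.one_apply]
      exact hm
    rw [h3, hf, map_add, map_add, h1, add_zero, map_add, map_add, map_add, Phi_single, h2,
      add_assoc, pow_succ' (g - 1) (n + 1), Module.End.mul_apply]

/-- `(g - 1) M = (g - 1) Φ(P[C_p])`. -/
theorem Cov.surj_K (hA : Base A (p : A)) (h : Lat A p M g) (c : Cov A p M g P j) (m : M) :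
    ∃ f : ZMod p → P, (g - 1) m = (g - 1) (Phi g j f) := by
  have := h.finite
  let K := LinearMap.range (g - 1)
  let t : M →ₗ[A] K := (g - 1).rangeRestrict
  have ht : Surjective t := (g - 1).surjective_rangeRestrict
  have hK : Module.Finite A K := Module.Finite.of_surjective t ht
  have h1 : LinearMap.range (t.comp (Phi (p := p) g j)) = ⊤ := by
    apply hA.nak
    intro x
    obtain ⟨m, rfl⟩ := ht x
    obtain ⟨f, m', hf⟩ := c.approx h p m
    obtain ⟨s, hs⟩ := sub_one_pow (Fact.out : p.Prime) h.pow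
    refine ⟨t (s m'), f, ?_⟩
    apply Subtype.ext
    have h2 : ((g - 1) ^ (p + 1)) m' = (p : A) • ((g - 1) (s m')) := by
      rw [pow_succ', Module.End.mul_apply, hs, Module.End.mul_apply, ← map_smul]
      congr 1
      simp [Nat.cast_smul_eq_nsmul]
    change (g - 1) (Phi g j f) = (g - 1) m - (p : A) • ((g - 1) (s m'))
    rw [hf, h2]
    abel
  obtain ⟨f, hf⟩ : t m ∈ LinearMap.range (t.comp (Phi (p := p) g j)) := h1 ▸ Submodule.mem_top
  exact ⟨f, (congrArg Subtype.val hf).symm⟩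

/-- the fixed part is finite. -/
theorem Lat.finite_ker (hA : Base A (p : A)) (h : Lat A p M g) :
    Module.Finite A (LinearMap.ker (g - 1)) := by
  have := h.finite
  have hK : Module.Finite A (LinearMap.range (g - 1)) :=
    Module.Finite.of_surjective _ (g - 1).surjective_rangeRestrict
  have hp : Module.Projective A (LinearMap.range (g - 1)) := by
    refine hA.projective _ ?_
    rintro ⟨x, hx⟩ h0
    apply Subtype.ext
    exact h.tf _ (congrArg Subtype.val h0)
  obtain ⟨E⟩ := exists_linearEquiv_prod (g - 1).rangeRestrict (g - 1).surjective_rangeRestrict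
  rw [LinearMap.ker_rangeRestrict] at E
  refine Module.Finite.of_surjective
    ((LinearMap.fst A (LinearMap.ker (g - 1)) (LinearMap.range (g - 1))).comp E.toLinearMap) ?_
  intro x
  obtain ⟨m, hm⟩ := E.surjective (x, 0)
  exact ⟨m, by simp [hm]⟩

/-- **STRUCT**. -/
theorem struct (hA : Base A (p : A)) (h : Lat A p M g) :
    ∃ (P : Type u) (_ : AddCommGroup P) (_ : Module A P) (Q : Type v) (_ : AddCommGroup Q)
      (_ : Module A Q), Module.Finite A P ∧ Module.Projective A P ∧ Module.Finite A Q ∧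
      Module.Projective A Q ∧ (∀ x : P, (p : A) • x = 0 → x = 0) ∧
      (∀ x : Q, (p : A) • x = 0 → x = 0) ∧
      ∃ E : ((ZMod p → P) × Q) ≃ₗ[A] M, ∀ x q, E (shift A p P x, q) = g (E (x, q)) := by
  have := h.finite
  -- the quotient `V`
  let W : Submodule A M := LinearMap.ker (g - 1) ⊔ LinearMap.range (g - 1)
  have hW : ∀ m : M, (p : A) • m ∈ W := by
    intro m
    have h1 : (p : A) • m = Nm p g m - (Nm p g m - (p : A) • m) := by abel
    rw [h1]
    refine Submodule.sub_mem _ (Submodule.mem_sup_left ?_) (Submodule.mem_sup_right ?_)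
    · rw [LinearMap.mem_ker, LinearMap.sub_apply, Module.End.one_apply, sub_Nm g h.pow, sub_self]
    · have h2 : Nm p g - (p : M →ₗ[A] M) = (g - 1) * (∑ i ∈ Finset.range p,
          ∑ k ∈ Finset.range i, g ^ k) := by
        rw [Finset.mul_sum, Nm]
        have h3 : ∀ i ∈ Finset.range p, (g - 1) * ∑ k ∈ Finset.range i, g ^ k = g ^ i - 1 :=
          fun i _ => mul_geom_sum g i
        rw [Finset.sum_congr rfl h3, Finset.sum_sub_distrib]
        simp
      refine ⟨(∑ i ∈ Finset.range p, ∑ k ∈ Finset.range i, g ^ k) m, ?_⟩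
      rw [← Module.End.mul_apply, ← h2, LinearMap.sub_apply]
      simp [Nat.cast_smul_eq_nsmul]
  have hfin : Finite (M ⧸ W) := by
    have h1 := hA.finite_quot M
    have h2 : LinearMap.range (LinearMap.lsmul A M (p : A)) ≤ W := by
      rintro _ ⟨m, rfl⟩
      exact hW m
    exact Finite.of_surjective _ (Submodule.factor_surjective h2)
  obtain ⟨P, _, _, hPf, hPp, hPt, hPs, θ, hθ, hker⟩ := exists_cover hA (M ⧸ W) (by
    intro v
    obtain ⟨m, rfl⟩ := Submodule.Quotient.mk_surjective _ v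
    rw [← Submodule.Quotient.mk_smul, Submodule.Quotient.mk_eq_zero]
    exact hW m)
  obtain ⟨j, hj⟩ := Module.projective_lifting_property W.mkQ θ (Submodule.mkQ_surjective _)
  have hj' : ∀ x, Submodule.Quotient.mk (j x) = θ x := fun x => by
    rw [← hj]; rfl
  have hfix : ∀ z : M, g z = z ↔ z ∈ LinearMap.ker (g - 1) := by
    intro z
    rw [LinearMap.mem_ker, LinearMap.sub_apply, Module.End.one_apply, sub_eq_zero]
  have c : Cov A p M g P j := by
    refine ⟨hPs, ?_, ?_⟩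
    · intro m
      obtain ⟨y, hy⟩ := hθ (Submodule.Quotient.mk m)
      rw [← hj', eq_comm, Submodule.Quotient.eq] at hy
      obtain ⟨z, hz, w, ⟨w', rfl⟩, hzw⟩ := Submodule.mem_sup.mp hy
      refine ⟨y, z, w', (hfix z).mpr hz, ?_⟩
      rw [LinearMap.sub_apply, Module.End.one_apply] at hzw
      rw [add_assoc, hzw]
      abel
    · intro y z w hz hyz
      apply hker
      rw [← hj', Submodule.Quotient.mk_eq_zero, hyz]
      exact Submodule.add_mem_sup ((hfix z).mp hz) ⟨w, by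
        rw [LinearMap.sub_apply, Module.End.one_apply]⟩
  -- the fixed part
  have hMg := h.finite_ker hA
  let η : P →ₗ[A] LinearMap.ker (g - 1) :=
    LinearMap.codRestrict _ ((Nm p g).comp j) (fun y => by
      rw [← hfix]
      exact sub_Nm g h.pow _)
  have hη : ∀ y, ((η y : LinearMap.ker (g - 1)) : M) = Nm p g (j y) := fun y => rfl
  have hQt : ∀ q : (LinearMap.ker (g - 1)) ⧸ LinearMap.range η, (p : A) • q = 0 → q = 0 := by
    intro q hq
    obtain ⟨z, rfl⟩ := Submodule.Quotient.mk_surjective _ q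
    rw [← Submodule.Quotient.mk_smul, Submodule.Quotient.mk_eq_zero] at hq
    obtain ⟨y, hy⟩ := hq
    have h1 : Nm p g (j y) = (p : A) • (z : M) := by
      rw [← hη, hy]; rfl
    obtain ⟨y', rfl⟩ := c.claimC h h1
    rw [Submodule.Quotient.mk_eq_zero]
    refine ⟨y', ?_⟩
    apply Subtype.ext
    rw [hη]
    rw [map_smul, map_smul] at h1
    have h2 : (p : A) • (Nm p g (j y') - (z : M)) = 0 := by rw [smul_sub, h1, sub_self]
    exact sub_eq_zero.mp (h.tf _ h2)
  have hQp := hA.projective _ hQt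
  obtain ⟨σ, hσ⟩ := Module.projective_lifting_property (LinearMap.range η).mkQ LinearMap.id
    (Submodule.mkQ_surjective _)
  have hσ' : ∀ q, Submodule.Quotient.mk (σ q) = q := fun q => by
    have := congrArg (fun f => f q) hσ
    simpa using this
  have hσfix : ∀ q, g (σ q : M) = σ q := fun q => (hfix _).mpr (σ q).2
  -- the map
  let E₀ : ((ZMod p → P) × ((LinearMap.ker (g - 1)) ⧸ LinearMap.range η)) →ₗ[A] M :=
    LinearMap.coprod (Phi g j) ((LinearMap.ker (g - 1)).subtype.comp σ)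
  have hE₀ : ∀ x q, E₀ (x, q) = Phi g j x + (σ q : M) := fun x q => rfl
  have hinj : Injective E₀ := by
    rw [injective_iff_map_eq_zero]
    rintro ⟨x, q⟩ h0
    rw [hE₀] at h0
    -- `x` is constant
    have h1 : shift A p P x - x = 0 := by
      apply c.inj h
      rw [map_sub, Phi_shift g j h.pow, map_zero]
      have h2 : Phi g j x = - (σ q : M) := eq_neg_of_add_eq_zero_left h0
      rw [h2, map_neg, hσfix, sub_self]
    have h3 : ∀ n : ℕ, x (n : ZMod p) = x 0 := by
      intro n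
      induction n with
      | zero => simp
      | succ n ih =>
        have h4 := congrFun h1 ((n + 1 : ℕ) : ZMod p)
        rw [Pi.sub_apply, shift_apply, Pi.zero_apply, sub_eq_zero] at h4
        rw [← h4, ← ih]
        congr 1
        push_cast
        ring
    have h5 : x = fun _ => x 0 := by
      funext i
      have := h3 i.val
      rwa [ZMod.natCast_zmod_val] at this
    rw [h5, Phi_const, ← hη] at h0
    have h6 : η (x 0) + σ q = 0 := Subtype.ext h0
    have h7 : q = 0 := by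
      rw [← hσ' q, Submodule.Quotient.mk_eq_zero]
      exact ⟨-(x 0), by rw [map_neg]; exact (eq_neg_of_add_eq_zero_right h6).symm⟩
    subst h7
    have h8 : x = 0 := by
      apply c.inj h
      rw [map_zero, h5, Phi_const, ← hη]
      rw [map_zero, add_zero] at h6
      rw [h6]
      rfl
    rw [h8]
    rfl
  have hsurj : Surjective E₀ := by
    intro m
    obtain ⟨f, hf⟩ := c.surj_K hA h m
    have h1 : m - Phi g j f ∈ LinearMap.ker (g - 1) := by
      rw [LinearMap.mem_ker, map_sub, hf, sub_self]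
    let z : LinearMap.ker (g - 1) := ⟨m - Phi g j f, h1⟩
    have h2 : z - σ (Submodule.Quotient.mk z) ∈ LinearMap.range η := by
      rw [← Submodule.Quotient.mk_eq_zero, Submodule.Quotient.mk_sub, hσ', sub_self]
    obtain ⟨y, hy⟩ := h2
    refine ⟨(f + fun _ => y, Submodule.Quotient.mk z), ?_⟩
    rw [hE₀, map_add, Phi_const, ← hη, hy]
    simp only [z, Submodule.coe_sub]
    abel
  refine ⟨P, inferInstance, inferInstance, _, inferInstance, inferInstance, hPf, hPp,
    inferInstance, hQp, hPt, hQt, LinearEquiv.ofBijective E₀ ⟨hinj, hsurj⟩, ?_⟩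
  intro x q
  change E₀ _ = g (E₀ _)
  rw [hE₀, hE₀, map_add, hσfix, Phi_shift g j h.pow]

end struct

section iso

set_option linter.unusedSectionVars false

variable {A : Type u} [CommRing A] {p : ℕ} [Fact p.Prime]

theorem ind_fin (a : A) (X : Type v) [AddCommGroup X] [Module A X] (n : ℕ) :
    ind a (Fin n → X) = ind a X ^ n := by
  induction n with
  | zero =>
    rw [pow_zero]
    by_contra hcon
    obtain ⟨x, hx⟩ := exists_of_ind_ne_one hcon
    exact hx 0 (Subsingleton.elim _ _)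
  | succ n ih =>
    rw [ind_congr a (Fin.consLinearEquiv A (fun _ => X)).symm, ind_prod, ih, pow_succ']

theorem ind_zmod (a : A) (X : Type v) [AddCommGroup X] [Module A X] :
    ind a (ZMod p → X) = ind a X ^ p := by
  rw [← ind_fin a X p]
  exact ind_congr a (LinearEquiv.funCongrLeft A X (ZMod.finEquiv p).toEquiv)

/-- the fixed part of `P[C_p] ⊕ Q`. -/
theorem ker_equiv {M : Type v} [AddCommGroup M] [Module A M] {g : M →ₗ[A] M}
    {P : Type u} [AddCommGroup P] [Module A P] {Q : Type w} [AddCommGroup Q] [Module A Q]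
    (E : ((ZMod p → P) × Q) ≃ₗ[A] M) (hE : ∀ x q, E (shift A p P x, q) = g (E (x, q))) :
    Nonempty ((LinearMap.ker (g - 1)) ≃ₗ[A] (P × Q)) := by
  let κ₀ : (P × Q) →ₗ[A] M := E.toLinearMap.comp
    (LinearMap.prodMap (LinearMap.pi fun _ => LinearMap.id) LinearMap.id)
  have hκ₀ : ∀ y q, κ₀ (y, q) = E ((fun _ => y), q) := fun y q => rfl
  let κ : (P × Q) →ₗ[A] LinearMap.ker (g - 1) := LinearMap.codRestrict _ κ₀ (by
    rintro ⟨y, q⟩
    rw [LinearMap.mem_ker, LinearMap.sub_apply, Module.End.one_apply, hκ₀, ← hE, sub_eq_zero]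
    rfl)
  have hκ : ∀ y q, ((κ (y, q) : LinearMap.ker (g - 1)) : M) = E ((fun _ => y), q) :=
    fun y q => rfl
  refine ⟨(LinearEquiv.ofBijective κ ⟨?_, ?_⟩).symm⟩
  · rintro ⟨y, q⟩ ⟨y', q'⟩ h
    have h1 : E ((fun _ => y), q) = E ((fun _ => y'), q') := by
      rw [← hκ, ← hκ, h]
    have h2 := E.injective h1
    rw [Prod.mk.injEq] at h2
    rw [Prod.mk.injEq]
    exact ⟨congrFun h2.1 0, h2.2⟩
  · rintro ⟨m, hm⟩
    obtain ⟨⟨x, q⟩, rfl⟩ := E.surjective m
    rw [LinearMap.mem_ker, LinearMap.sub_apply, Module.End.one_apply, ← hE, sub_eq_zero] at hm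
    have h2 := E.injective hm
    rw [Prod.mk.injEq] at h2
    have h3 : ∀ n : ℕ, x (n : ZMod p) = x 0 := by
      intro n
      induction n with
      | zero => simp
      | succ n ih =>
        have h4 := congrFun h2.1 ((n + 1 : ℕ) : ZMod p)
        rw [shift_apply] at h4
        rw [← h4, ← ih]
        congr 1
        push_cast
        ring
    refine ⟨(x 0, q), ?_⟩
    apply Subtype.ext
    rw [hκ]
    congr 2
    funext i
    have := h3 i.val
    rw [ZMod.natCast_zmod_val] at this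
    exact this.symm

/-- **ISO**: isogenous lattices are isomorphic. -/
theorem iso (hA : Base A (p : A)) {M₁ : Type v} [AddCommGroup M₁] [Module A M₁]
    {g₁ : M₁ →ₗ[A] M₁} {M₂ : Type w} [AddCommGroup M₂] [Module A M₂] {g₂ : M₂ →ₗ[A] M₂}
    (h₁ : Lat A p M₁ g₁) (h₂ : Lat A p M₂ g₂) (f : M₁ →ₗ[A] M₂) (hf : Injective f)
    (hfg : ∀ x, f (g₁ x) = g₂ (f x)) (hfin : (LinearMap.range f).toAddSubgroup.index ≠ 0) :
    ∃ e : M₁ ≃ₗ[A] M₂, ∀ x, e (g₁ x) = g₂ (e x) := by
  have := h₁.finite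
  have := h₂.finite
  obtain ⟨P₁, _, _, Q₁, _, _, hP₁, -, hQ₁, -, htP₁, htQ₁, E₁, hE₁⟩ := struct hA h₁
  obtain ⟨P₂, _, _, Q₂, _, _, hP₂, -, hQ₂, -, htP₂, htQ₂, E₂, hE₂⟩ := struct hA h₂
  obtain ⟨K₁⟩ := ker_equiv E₁ hE₁
  obtain ⟨K₂⟩ := ker_equiv E₂ hE₂
  -- the isogeny between the fixed parts
  let f' : LinearMap.ker (g₁ - 1) →ₗ[A] LinearMap.ker (g₂ - 1) :=
    LinearMap.codRestrict _ (f.comp (LinearMap.ker (g₁ - 1)).subtype) (by
      rintro ⟨x, hx⟩
      rw [LinearMap.mem_ker, LinearMap.sub_apply, Module.End.one_apply, sub_eq_zero] at hx ⊢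
      change g₂ (f x) = f x
      rw [← hfg, hx])
  have hf' : ∀ x, ((f' x : LinearMap.ker (g₂ - 1)) : M₂) = f x := fun x => rfl
  have hf'inj : Injective f' := by
    intro x y hxy
    apply Subtype.ext
    apply hf
    rw [← hf', ← hf', hxy]
  have hf'fin : (LinearMap.range f').toAddSubgroup.index ≠ 0 := by
    have h1 : (LinearMap.range f').toAddSubgroup =
        (LinearMap.range f).toAddSubgroup.comap
          ((LinearMap.ker (g₂ - 1)).subtype : LinearMap.ker (g₂ - 1) →+ M₂) := by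
      ext ⟨x, hx⟩
      simp only [AddSubgroup.mem_comap, Submodule.mem_toAddSubgroup, LinearMap.mem_range]
      constructor
      · rintro ⟨y, hy⟩
        exact ⟨y, by rw [← hf', hy]; rfl⟩
      · rintro ⟨y, hy⟩
        have hy' : f y = x := hy
        refine ⟨⟨y, ?_⟩, ?_⟩
        · rw [LinearMap.mem_ker, LinearMap.sub_apply, Module.End.one_apply, sub_eq_zero] at hx ⊢
          apply hf
          rw [hfg, hy', hx]
        · apply Subtype.ext
          rw [hf']
          exact hy'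
    rw [h1, ← AddSubgroup.relIndex_top_right, ← AddSubgroup.comap_top
      ((LinearMap.ker (g₂ - 1)).subtype : LinearMap.ker (g₂ - 1) →+ M₂)]
    refine AddSubgroup.relIndex_comap_ne_zero _ ?_
    rwa [AddSubgroup.relIndex_top_right]
  have key : ∀ e : A, e * e = e →
      ind ((p : A) * e + (1 - e)) P₁ = ind ((p : A) * e + (1 - e)) P₂ ∧
        ind ((p : A) * e + (1 - e)) Q₁ = ind ((p : A) * e + (1 - e)) Q₂ := by
    intro e he
    set a := (p : A) * e + (1 - e) with ha
    have h1 : ind a M₁ = ind a M₂ := ind_eq_of_isog a f hf (te_smul he h₂.tf) hfin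
    have h2 : ind a (LinearMap.ker (g₁ - 1)) = ind a (LinearMap.ker (g₂ - 1)) := by
      refine ind_eq_of_isog a f' hf'inj ?_ hf'fin
      intro y hy
      apply Subtype.ext
      exact te_smul he h₂.tf _ (congrArg Subtype.val hy)
    rw [← ind_congr a E₁, ← ind_congr a E₂, ind_prod, ind_prod, ind_zmod, ind_zmod] at h1
    rw [ind_congr a K₁, ind_congr a K₂, ind_prod, ind_prod] at h2
    have n1 : ind a P₁ ≠ 0 := hA.ind_ne_zero (te_mul he) P₁
    have n2 : ind a Q₁ ≠ 0 := hA.ind_ne_zero (te_mul he) Q₁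
    have n3 : ind a P₂ ≠ 0 := hA.ind_ne_zero (te_mul he) P₂
    have n4 : ind a Q₂ ≠ 0 := hA.ind_ne_zero (te_mul he) Q₂
    have hp2 := (Fact.out : p.Prime).two_le
    obtain ⟨r, hr⟩ : ∃ r, p = r + 2 := ⟨p - 2, by omega⟩
    have h3 : ind a P₁ ^ (r + 1) = ind a P₂ ^ (r + 1) := by
      have h4 : (ind a P₁ ^ (r + 1)) * (ind a P₁ * ind a Q₁) =
          (ind a P₂ ^ (r + 1)) * (ind a P₁ * ind a Q₁) := by
        conv_rhs => rw [h2]
        rw [hr] at h1
        calc (ind a P₁ ^ (r + 1)) * (ind a P₁ * ind a Q₁) = ind a P₁ ^ (r + 2) * ind a Q₁ := by ring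
          _ = ind a P₂ ^ (r + 2) * ind a Q₂ := h1
          _ = _ := by ring
      exact Nat.eq_of_mul_eq_mul_right (Nat.pos_of_ne_zero (mul_ne_zero n1 n2)) h4
    have h5 : ind a P₁ = ind a P₂ := Nat.pow_left_injective (Nat.succ_ne_zero r) h3
    refine ⟨h5, ?_⟩
    rw [h5] at h2
    exact Nat.eq_of_mul_eq_mul_left (Nat.pos_of_ne_zero n3) h2
  obtain ⟨eP⟩ := hA.iso_of_ind P₁ P₂ htP₁ htP₂ fun e he => (key e he).1
  obtain ⟨eQ⟩ := hA.iso_of_ind Q₁ Q₂ htQ₁ htQ₂ fun e he => (key e he).2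
  let eF : ((ZMod p → P₁) × Q₁) ≃ₗ[A] ((ZMod p → P₂) × Q₂) :=
    LinearEquiv.prodCongr (LinearEquiv.piCongrRight fun _ => eP) eQ
  have heF : ∀ x q, eF (shift A p P₁ x, q) = (shift A p P₂ (eF (x, q)).1, (eF (x, q)).2) :=
    fun x q => rfl
  refine ⟨(E₁.symm.trans eF).trans E₂, ?_⟩
  intro m
  obtain ⟨⟨x, q⟩, rfl⟩ := E₁.surjective m
  rw [← hE₁]
  simp only [LinearEquiv.trans_apply, LinearEquiv.symm_apply_apply]
  rw [heF, hE₂]

end iso

end Crest.Agent.R267.P46b_543
end

-- ▼ part R267/P46c_543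
section

/-!
# The local rings of S0407 (helper543, row 267, LOCSQ, part 1)

`Lam m Q ℤ_[p]`:
* `base_unram` : `p ∤ m Q` ⇒ `Base (Lam m Q ℤ_[p]) p`;
* `base_ram` : `Q = p Q'`, `p ∤ m Q'` ⇒ `Base (Lam m Q ℤ_[p]) (1 - x^{m Q'})`.
-/

set_option autoImplicit false

namespace Crest.Agent.R267.P46c_543

open Function Polynomial Crest.Agent.R267.P46a0_543 Crest.Agent.R267.P46b_543
open Crest.Agent.R267.P4Lam_780

universe u v w

section complete

/-- finite modules over a complete noetherian ring are complete. -/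
theorem isAdicComplete_of_finite {R : Type u} [CommRing R] [IsNoetherianRing R] (I : Ideal R)
    [IsAdicComplete I R] (M : Type v) [AddCommGroup M] [Module R M] [Module.Finite R M] :
    IsAdicComplete I M := by
  have hH : IsHausdorff I M := IsHausdorff.of_le_jacobson I M (IsAdicComplete.le_jacobson_bot I)
  have hP : IsPrecomplete I M := by
    rw [← AdicCompletion.of_surjective_iff]
    intro y
    obtain ⟨t, rfl⟩ := AdicCompletion.ofTensorProduct_surjective_of_finite I M y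
    induction t using TensorProduct.induction_on with
    | zero => exact ⟨0, by simp⟩
    | tmul r x =>
      obtain ⟨a, rfl⟩ := AdicCompletion.of_surjective I R r
      refine ⟨a • x, ?_⟩
      rw [AdicCompletion.ofTensorProduct_tmul, map_smul]
      ext n
      rfl
    | add x y hx hy =>
      obtain ⟨a, ha⟩ := hx
      obtain ⟨b, hb⟩ := hy
      exact ⟨a + b, by rw [map_add, map_add, ha, hb]⟩
  exact { hH, hP with }

/-- comparison of adic topologies. -/
theorem isAdicComplete_of_le {B : Type u} [CommRing B] {I J : Ideal B} (hIJ : I ≤ J) {k : ℕ}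
    (hJI : J ^ k ≤ I) [hI : IsAdicComplete I B] : IsAdicComplete J B := by
  have h1 : ∀ n, J ^ (k * n) ≤ I ^ n := fun n => by
    rw [pow_mul]
    exact Ideal.pow_right_mono hJI n
  have h2 : ∀ n, I ^ n ≤ J ^ n := fun n => Ideal.pow_right_mono hIJ n
  have hk : ∀ n, n ≤ k * n ∨ k = 0 := by
    intro n
    rcases Nat.eq_zero_or_pos k with h | h
    · exact Or.inr h
    · exact Or.inl (Nat.le_mul_of_pos_left n h)
  refine { haus' := ?_, prec' := ?_ }
  · intro x hx
    refine hI.haus' x fun n => ?_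
    have h3 := hx (k * n)
    rw [SModEq.zero, smul_eq_mul, Ideal.mul_top] at h3 ⊢
    exact h1 n h3
  · intro f hf
    rcases Nat.eq_zero_or_pos k with h0 | h0
    · -- `I = ⊤`
      refine ⟨0, fun n => ?_⟩
      have h4 : I = ⊤ := by
        rw [h0, pow_zero, Ideal.one_eq_top] at hJI
        exact top_le_iff.mp hJI
      have h5 : J = ⊤ := top_le_iff.mp (h4 ▸ hIJ)
      rw [h5, smul_eq_mul, Ideal.mul_top, SModEq.sub_mem]
      simp [← Ideal.one_eq_top]
    obtain ⟨L, hL⟩ := hI.prec' (fun n => f (k * n)) (by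
      intro m n hmn
      have h3 := hf (Nat.mul_le_mul_left k hmn)
      rw [SModEq.sub_mem, smul_eq_mul, Ideal.mul_top] at h3 ⊢
      exact h1 m h3)
    refine ⟨L, fun n => ?_⟩
    have h3 := hf (Nat.le_mul_of_pos_left n h0)
    have h4 := hL n
    rw [SModEq.sub_mem, smul_eq_mul, Ideal.mul_top] at h3 h4 ⊢
    have h5 := Ideal.add_mem _ h3 (h2 n h4)
    rwa [sub_add_sub_cancel] at h5

variable {p : ℕ} [Fact p.Prime]

theorem isAdicComplete_padic (B : Type) [CommRing B] [Algebra ℤ_[p] B] [Module.Finite ℤ_[p] B] :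
    IsAdicComplete (Ideal.span {(p : B)}) B := by
  have h0 : IsAdicComplete (Ideal.span {(p : ℤ_[p])}) ℤ_[p] := by
    rw [← PadicInt.maximalIdeal_eq_span_p]
    infer_instance
  have h1 := isAdicComplete_of_finite (Ideal.span {(p : ℤ_[p])}) B
  rw [← IsAdicComplete.map_algebraMap_iff (S := B), Ideal.map_span, Set.image_singleton,
    map_natCast] at h1
  exact h1

/-- `B ⧸ p` is finite. -/
theorem finite_quot_p (B : Type) [CommRing B] [Algebra ℤ_[p] B] [Module.Finite ℤ_[p] B]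
    (J : Ideal B) (hJ : (p : B) ∈ J) : Finite (B ⧸ J) := by
  obtain ⟨n, f, hf⟩ := Module.Finite.exists_fin' ℤ_[p] B
  let g : (Fin n → Fin p) → B ⧸ J := fun a => Ideal.Quotient.mk J (f (fun i => ((a i : ℕ) : ℤ_[p])))
  refine Finite.of_surjective g ?_
  intro x
  obtain ⟨x, rfl⟩ := Ideal.Quotient.mk_surjective x
  obtain ⟨a, rfl⟩ := hf x
  have h1 : ∀ i, ∃ c : Fin p, ∃ b : ℤ_[p], ((c : ℕ) : ℤ_[p]) - a i = (p : ℤ_[p]) * b := by
    intro i
    obtain ⟨c, hc, hmem⟩ := PadicInt.exists_mem_range (x := a i)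
    refine ⟨⟨c, hc⟩, ?_⟩
    rw [PadicInt.maximalIdeal_eq_span_p, Ideal.mem_span_singleton] at hmem
    obtain ⟨b, hb⟩ := hmem
    exact ⟨-b, by simp only [mul_neg, ← hb]; ring⟩
  choose c b hcb using h1
  refine ⟨c, ?_⟩
  simp only [g]
  rw [Ideal.Quotient.eq, ← map_sub]
  have h2 : ((fun i => ((c i : ℕ) : ℤ_[p])) - a) = (p : ℤ_[p]) • b := by
    funext i
    simp [hcb i]
  rw [h2, map_smul, Algebra.smul_def, map_natCast]
  exact Ideal.mul_mem_right _ _ hJ

end complete

section red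

variable {p : ℕ} [Fact p.Prime]

/-- Frobenius trick: a ring of characteristic `p` generated over `ℤ_p` by a root of unity of order
prime to `p` is reduced. -/
theorem isReduced_of_gen (k : Type) [CommRing k] [Algebra ℤ_[p] k] (hp0 : (p : k) = 0) (x : k)
    {n : ℕ} (hn : ¬ p ∣ n) (hx : x ^ n = 1) (hgen : ∀ z : k, ∃ f : ℤ_[p][X], z = aeval x f) :
    IsReduced k := by
  have hp : p.Prime := Fact.out
  rcases subsingleton_or_nontrivial k with hs | hs
  · infer_instance
  have hchar : CharP k p := by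
    rw [← CharP.charP_iff_prime_eq_zero hp] at hp0
    exact hp0
  have hexp : ExpChar k p := ExpChar.prime hp
  -- an exponent with `p ^ r ≡ 1 mod n`
  have hcop : Nat.Coprime p n := (Nat.Prime.coprime_iff_not_dvd hp).2 hn
  set r := n.totient with hr
  have hn0 : n ≠ 0 := by rintro rfl; exact hn (dvd_zero _)
  have hr0 : 0 < r := Nat.totient_pos.2 (Nat.pos_of_ne_zero hn0)
  have hmod : p ^ r ≡ 1 [MOD n] := Nat.ModEq.pow_totient hcop
  have hxr : x ^ (p ^ r) = x := by
    have h1 : 1 ≤ p ^ r := Nat.one_le_pow _ _ hp.pos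
    obtain ⟨c, hc⟩ := (Nat.modEq_iff_dvd' h1).mp hmod.symm
    have h2 : p ^ r = n * c + 1 := by omega
    rw [h2, pow_succ, pow_mul, hx, one_pow, one_mul]
  have hcoef : ∀ a : ℤ_[p], (algebraMap ℤ_[p] k a) ^ (p ^ r) = algebraMap ℤ_[p] k a := by
    intro a
    obtain ⟨c, hc, hmem⟩ := PadicInt.exists_mem_range (x := a)
    rw [PadicInt.maximalIdeal_eq_span_p, Ideal.mem_span_singleton] at hmem
    obtain ⟨b, hb⟩ := hmem
    have h1 : algebraMap ℤ_[p] k a = (c : k) := by
      have h2 := congrArg (algebraMap ℤ_[p] k) hb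
      rw [map_sub, map_mul, map_natCast, map_natCast, hp0, zero_mul, sub_eq_zero] at h2
      exact h2
    rw [h1]
    have h3 : ∀ s : ℕ, (c : k) ^ (p ^ s) = (c : k) := by
      intro s
      have := map_natCast (iterateFrobenius k p s) c
      rwa [iterateFrobenius_def] at this
    exact h3 r
  have hall : ∀ z : k, z ^ (p ^ r) = z := by
    intro z
    obtain ⟨f, rfl⟩ := hgen z
    induction f using Polynomial.induction_on' with
    | add f g hf hg =>
      rw [map_add, add_pow_expChar_pow, hf, hg]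
    | monomial m a =>
      rw [aeval_monomial, mul_pow, hcoef, ← pow_mul, mul_comm m, pow_mul, hxr]
  refine ⟨fun z hz => ?_⟩
  obtain ⟨m, hm⟩ := hz
  -- iterate
  have hit : ∀ s : ℕ, z ^ ((p ^ r) ^ s) = z := by
    intro s
    induction s with
    | zero => simp
    | succ s ih => rw [pow_succ, pow_mul, ih, hall]
  have h5 : m ≤ (p ^ r) ^ m := by
    have : 1 < p ^ r := Nat.one_lt_pow hr0.ne' hp.one_lt
    exact (Nat.lt_pow_self this).le
  rw [← hit m]
  exact pow_eq_zero_of_le h5 hm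

end red

section lam

theorem cyclotomic_mul_dvd_expand (R : Type*) [CommRing R] (k : ℕ) :
    ∀ a : ℕ, 0 < k → cyclotomic (a * k) R ∣ expand R k (cyclotomic a R) := by
  induction k using Nat.recOnMul with
  | zero => intro _ h; exact absurd h (lt_irrefl _)
  | one => intro a _; simp
  | prime p hp =>
    intro a _
    by_cases h : p ∣ a
    · rw [cyclotomic_expand_eq_cyclotomic hp h]
    · rw [cyclotomic_expand_eq_cyclotomic_mul hp h]
      exact dvd_mul_right _ _
  | mul b c hb hc =>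
    intro a h0
    have hb0 : 0 < b := Nat.pos_of_ne_zero (by rintro rfl; simp at h0)
    have hc0 : 0 < c := Nat.pos_of_ne_zero (by rintro rfl; simp at h0)
    have h1 := hb a hb0
    have h2 := hc (a * b) hc0
    have h3 := (expand R c).toRingHom.map_dvd h1
    rw [← mul_assoc]
    rw [mul_comm b c, expand_mul]
    exact h2.trans h3

theorem aeval_pow_cyclotomic' {R A : Type*} [CommRing R] [Ring A] [Algebra R A] {a k : ℕ} {t : A}
    (ht : aeval t (cyclotomic (a * k) R) = 0) (hk0 : 0 < k) :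
    aeval (t ^ k) (cyclotomic a R) = 0 := by
  obtain ⟨g, hg⟩ := cyclotomic_mul_dvd_expand R k a hk0
  rw [← expand_aeval, hg, map_mul, ht, zero_mul]

variable {p : ℕ} [Fact p.Prime]

theorem finite_lam (m Q : ℕ) [NeZero m] (R : Type) [CommRing R] :
    Module.Finite R (Lam m Q R) :=
  (Psi_monic m Q R).finite_adjoinRoot

theorem free_lam (m Q : ℕ) [NeZero m] (R : Type) [CommRing R] :
    Module.Free R (Lam m Q R) :=
  (Psi_monic m Q R).free_adjoinRoot

theorem p_smul_eq_zero (B : Type) [AddCommGroup B] [Module ℤ_[p] B] [Module.Free ℤ_[p] B]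
    {c : ℤ_[p]} (hc : c ≠ 0) {z : B} (hz : c • z = 0) : z = 0 := by
  rcases smul_eq_zero.mp hz with h | h
  · exact absurd h hc
  · exact h

theorem p_ne_zero : (p : ℤ_[p]) ≠ 0 := by
  have : p ≠ 0 := (Fact.out : p.Prime).ne_zero
  exact_mod_cast this

theorem lam_nz (m Q : ℕ) [NeZero m] (z : Lam m Q ℤ_[p]) (hz : (p : Lam m Q ℤ_[p]) * z = 0) :
    z = 0 := by
  have := free_lam m Q ℤ_[p]
  apply p_smul_eq_zero (p := p) (Lam m Q ℤ_[p]) (c := (p : ℤ_[p])) p_ne_zero
  rw [Algebra.smul_def, map_natCast]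
  exact hz

theorem base_unram (m Q : ℕ) [NeZero m] [NeZero Q] (h : ¬ p ∣ m * Q) :
    Base (Lam m Q ℤ_[p]) ((p : ℕ) : Lam m Q ℤ_[p]) := by
  have := finite_lam m Q ℤ_[p]
  have := isAdicComplete_padic (p := p) (Lam m Q ℤ_[p])
  refine Base.of_complete _ _ (lam_nz m Q) (finite_quot_p _ _ (Ideal.mem_span_singleton_self _)) ?_
  refine isReduced_of_gen (p := p) (Lam m Q ℤ_[p] ⧸ Ideal.span {((p : ℕ) : Lam m Q ℤ_[p])}) ?_
    (Ideal.Quotient.mk _ (gx m Q ℤ_[p])) h ?_ ?_
  · rw [← map_natCast (Ideal.Quotient.mk _), Ideal.Quotient.eq_zero_iff_mem]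
    exact Ideal.mem_span_singleton_self _
  · rw [← map_pow, gx_pow, map_one]
  · intro z
    obtain ⟨z, rfl⟩ := Ideal.Quotient.mk_surjective z
    induction z using P4Lam_780.ind with
    | h f =>
      refine ⟨f, ?_⟩
      have := aeval_algHom_apply (Ideal.Quotient.mkₐ ℤ_[p]
        (Ideal.span {((p : ℕ) : Lam m Q ℤ_[p])})) (gx m Q ℤ_[p]) f
      exact this.symm

/-- the element `1 - ζ_p`. -/
noncomputable def piz (m Q' : ℕ) (p : ℕ) [Fact p.Prime] : Lam m (p * Q') ℤ_[p] :=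
  1 - gx m (p * Q') ℤ_[p] ^ (m * Q')

theorem geom_zero (m Q' : ℕ) [NeZero m] [NeZero Q'] :
    ∑ i ∈ Finset.range p, (gx m (p * Q') ℤ_[p] ^ (m * Q')) ^ i = 0 := by
  have h1 : aeval (gx m (p * Q') ℤ_[p] ^ m) (cyclotomic (p * Q') ℤ_[p]) = 0 := aeval_gx_pow
  have h2 := aeval_pow_cyclotomic' h1 (NeZero.pos Q')
  rw [cyclotomic_prime, map_sum] at h2
  simpa [← pow_mul] using h2

theorem piz_dvd_p (m Q' : ℕ) [NeZero m] [NeZero Q'] :
    ∃ w, (p : Lam m (p * Q') ℤ_[p]) = piz m Q' p * w := by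
  set ζ := gx m (p * Q') ℤ_[p] ^ (m * Q') with hζ
  refine ⟨∑ i ∈ Finset.range p, ∑ k ∈ Finset.range i, ζ ^ k, ?_⟩
  rw [piz, ← hζ, Finset.mul_sum]
  have h3 : ∀ i ∈ Finset.range p, (1 - ζ) * ∑ k ∈ Finset.range i, ζ ^ k = 1 - ζ ^ i := by
    intro i _
    have := mul_geom_sum ζ i
    linear_combination -this
  rw [Finset.sum_congr rfl h3, Finset.sum_sub_distrib, geom_zero]
  simp

theorem piz_pow (m Q' : ℕ) [NeZero m] [NeZero Q'] :
    ∃ s, (piz m Q' p) ^ p = (p : Lam m (p * Q') ℤ_[p]) * s := by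
  set ζ := gx m (p * Q') ℤ_[p] ^ (m * Q') with hζ
  have h1 : ζ ^ p = 1 := by
    have h2 : NeZero (p * Q') := ⟨mul_ne_zero (Fact.out : p.Prime).ne_zero (NeZero.ne Q')⟩
    rw [hζ, ← pow_mul, show m * Q' * p = m * (p * Q') by ring]
    exact gx_pow
  obtain ⟨s, hs⟩ := sub_one_pow (Fact.out : p.Prime) h1
  refine ⟨(-1) ^ p * s, ?_⟩
  rw [piz, ← hζ, ← neg_sub, neg_pow, hs]
  ring

theorem base_ram (m Q' : ℕ) [NeZero m] [NeZero Q'] (h : ¬ p ∣ m * Q') :
    Base (Lam m (p * Q') ℤ_[p]) (piz m Q' p) := by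
  have := finite_lam m (p * Q') ℤ_[p]
  have hc := isAdicComplete_padic (p := p) (Lam m (p * Q') ℤ_[p])
  obtain ⟨w, hw⟩ := piz_dvd_p (p := p) m Q'
  obtain ⟨s, hs⟩ := piz_pow (p := p) m Q'
  have hle : Ideal.span {((p : ℕ) : Lam m (p * Q') ℤ_[p])} ≤ Ideal.span {piz m Q' p} := by
    rw [Ideal.span_singleton_le_span_singleton]
    exact ⟨w, hw⟩
  have hpow : Ideal.span {piz m Q' p} ^ p ≤ Ideal.span {((p : ℕ) : Lam m (p * Q') ℤ_[p])} := by
    rw [Ideal.span_singleton_pow, Ideal.span_singleton_le_span_singleton]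
    exact ⟨s, hs⟩
  have hc' := isAdicComplete_of_le hle hpow
  refine Base.of_complete _ _ ?_ (finite_quot_p _ _ (hle (Ideal.mem_span_singleton_self _))) ?_
  · intro z hz
    apply lam_nz m (p * Q')
    rw [hw, mul_right_comm, hz, zero_mul]
  · refine isReduced_of_gen (p := p) (Lam m (p * Q') ℤ_[p] ⧸ Ideal.span {piz m Q' p}) ?_
      (Ideal.Quotient.mk _ (gx m (p * Q') ℤ_[p])) h ?_ ?_
    · rw [← map_natCast (Ideal.Quotient.mk _), Ideal.Quotient.eq_zero_iff_mem]
      exact hle (Ideal.mem_span_singleton_self _)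
    · rw [← map_pow, ← sub_eq_zero, ← (Ideal.Quotient.mk _).map_one, ← map_sub,
        Ideal.Quotient.eq_zero_iff_mem, Ideal.mem_span_singleton]
      exact ⟨-1, by rw [piz]; ring⟩
    · intro z
      obtain ⟨z, rfl⟩ := Ideal.Quotient.mk_surjective z
      induction z using P4Lam_780.ind with
      | h f =>
        refine ⟨f, ?_⟩
        have := aeval_algHom_apply (Ideal.Quotient.mkₐ ℤ_[p]
          (Ideal.span {piz m Q' p})) (gx m (p * Q') ℤ_[p]) f
        exact this.symm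

end lam

end Crest.Agent.R267.P46c_543
end

-- ▼ part R267/P46d_543
section

/-!
# The local modules of S0407 (helper543, row 267, LOCSQ, part 2)

`R = Lam (p m') Q ℤ_[p]`, `A = Lam m' Q ℤ_[p]`, `p ∤ m' Q`:
* `piH : R →ₐ A` (`x ↦ x`), section `sig : A →ₐ R`, `gg = x^{m' Q}` of order `p`,
* `Nn = 1 + gg + … + gg^{p-1}`: `Nn z = 0 ↔ piH z = 0`, `star Nn = Nn`,
  `(∀ w, piH w = 0 → w z = 0) → z ∈ Nn R`.
-/

set_option autoImplicit false

namespace Crest.Agent.R267.P46d_543

open Function Polynomial Crest.Agent.R267.P46a0_543 Crest.Agent.R267.P46b_543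
open Crest.Agent.R267.P4Lam_780 Crest.Agent.R267.P46c_543

section gen

variable {m Q : ℕ} {S : Type} [CommRing S]



end gen

section rings

set_option linter.unusedSectionVars false

variable {p : ℕ} [Fact p.Prime] {m' Q k l : ℕ} [NeZero m'] [NeZero Q]

theorem exists_kl (h : ¬ p ∣ m' * Q) : ∃ k l : ℕ, p * k = 1 + m' * Q * l := by
  have hp : p.Prime := Fact.out
  have hcop : Nat.Coprime p (m' * Q) := (Nat.Prime.coprime_iff_not_dvd hp).2 h
  have hn0 : 0 < m' * Q := Nat.mul_pos (NeZero.pos m') (NeZero.pos Q)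
  have hr0 : 0 < (m' * Q).totient := Nat.totient_pos.2 hn0
  have hmod : p ^ (m' * Q).totient ≡ 1 [MOD (m' * Q)] := Nat.ModEq.pow_totient hcop
  have h1 : 1 ≤ p ^ (m' * Q).totient := Nat.one_le_pow _ _ hp.pos
  obtain ⟨c, hc⟩ := (Nat.modEq_iff_dvd' h1).mp hmod.symm
  refine ⟨p ^ ((m' * Q).totient - 1), c, ?_⟩
  rw [← pow_succ', show (m' * Q).totient - 1 + 1 = (m' * Q).totient by omega]
  omega

variable (p m' Q) in
theorem piH_aux (hpQ : p.Coprime Q) :
    (Psi (p * m') Q ℤ_[p]).eval₂ (Algebra.ofId ℤ_[p] (Lam m' Q ℤ_[p])) (gx m' Q ℤ_[p]) = 0 := by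
  change aeval (gx m' Q ℤ_[p]) (Psi (p * m') Q ℤ_[p]) = 0
  rw [Psi, expand_aeval, mul_comm, pow_mul]
  exact aeval_pow_cyclotomic aeval_gx_pow hpQ (Fact.out : p.Prime).pos

variable (p m' Q) in
/-- the projection `R → A`. -/
noncomputable def piH (hpQ : p.Coprime Q) : Lam (p * m') Q ℤ_[p] →ₐ[ℤ_[p]] Lam m' Q ℤ_[p] :=
  AdjoinRoot.liftAlgHom _ (Algebra.ofId ℤ_[p] _) (gx m' Q ℤ_[p]) (piH_aux p m' Q hpQ)

theorem piH_gx (hpQ : p.Coprime Q) : piH p m' Q hpQ (gx (p * m') Q ℤ_[p]) = gx m' Q ℤ_[p] :=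
  AdjoinRoot.lift_root (piH_aux p m' Q hpQ)

theorem k_coprime (hkl : p * k = 1 + m' * Q * l) : k.Coprime Q := by
  rw [Nat.coprime_iff_gcd_eq_one, ← Nat.dvd_one]
  have h1 : Nat.gcd k Q ∣ p * k := (Nat.gcd_dvd_left k Q).mul_left p
  have h2 : Nat.gcd k Q ∣ m' * Q * l := ((Nat.gcd_dvd_right k Q).mul_left m').mul_right l
  rw [hkl] at h1
  exact (Nat.dvd_add_left h2).mp h1

theorem k_pos (hkl : p * k = 1 + m' * Q * l) : 0 < k := by
  rcases Nat.eq_zero_or_pos k with h | h
  · rw [h] at hkl; omega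
  · exact h

variable (p m' Q k) in
/-- the element `x ^ (p k)`. -/
noncomputable def hh : Lam (p * m') Q ℤ_[p] := gx (p * m') Q ℤ_[p] ^ (p * k)

theorem sig_aux (hkl : p * k = 1 + m' * Q * l) :
    (Psi m' Q ℤ_[p]).eval₂ (Algebra.ofId ℤ_[p] (Lam (p * m') Q ℤ_[p])) (hh p m' Q k) = 0 := by
  change aeval (hh p m' Q k) (Psi m' Q ℤ_[p]) = 0
  rw [Psi, expand_aeval, hh, ← pow_mul, show p * k * m' = (p * m') * k by ring, pow_mul]
  exact aeval_pow_cyclotomic aeval_gx_pow (k_coprime hkl) (k_pos hkl)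

/-- the section `A → R`. -/
noncomputable def sig (hkl : p * k = 1 + m' * Q * l) :
    Lam m' Q ℤ_[p] →ₐ[ℤ_[p]] Lam (p * m') Q ℤ_[p] :=
  AdjoinRoot.liftAlgHom _ (Algebra.ofId ℤ_[p] _) (hh p m' Q k) (sig_aux hkl)

theorem sig_gx (hkl : p * k = 1 + m' * Q * l) :
    sig hkl (gx m' Q ℤ_[p]) = hh p m' Q k :=
  AdjoinRoot.lift_root (sig_aux hkl)

variable (p m' Q) in
/-- the element of order `p`. -/
noncomputable def gg : Lam (p * m') Q ℤ_[p] := gx (p * m') Q ℤ_[p] ^ (m' * Q)

theorem gg_pow : gg p m' Q ^ p = 1 := by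
  rw [gg, ← pow_mul, show m' * Q * p = (p * m') * Q by ring]
  exact gx_pow

theorem gx_eq (hkl : p * k = 1 + m' * Q * l) :
    gx (p * m') Q ℤ_[p] = sig hkl (gx m' Q ℤ_[p]) * gg p m' Q ^ (l * (p - 1)) := by
  have hp : p.Prime := Fact.out
  rw [sig_gx, hh, gg, ← pow_mul, ← pow_add]
  have h1 : p * k + m' * Q * (l * (p - 1)) = 1 + (p * m') * Q * l := by
    obtain ⟨r, hr⟩ : ∃ r, p = r + 1 := ⟨p - 1, by have := hp.pos; omega⟩
    rw [hkl, hr]
    simp only [Nat.add_sub_cancel]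
    ring
  rw [h1, pow_add, pow_one, pow_mul (gx (p * m') Q ℤ_[p]) (p * m' * Q), gx_pow, one_pow, mul_one]

theorem piH_gg (hpQ : p.Coprime Q) : piH p m' Q hpQ (gg p m' Q) = 1 := by
  rw [gg, map_pow, piH_gx, gx_pow]

theorem piH_sig (hpQ : p.Coprime Q) (hkl : p * k = 1 + m' * Q * l) (a : Lam m' Q ℤ_[p]) :
    piH p m' Q hpQ (sig hkl a) = a := by
  induction a using P4Lam_780.ind with
  | h f =>
    rw [← aeval_algHom_apply, ← aeval_algHom_apply, sig_gx, hh, map_pow, piH_gx, hkl, pow_add,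
      pow_one, pow_mul, gx_pow, one_pow, mul_one]

variable (p m' Q) in
/-- the norm element. -/
noncomputable def Nn : Lam (p * m') Q ℤ_[p] := ∑ i ∈ Finset.range p, gg p m' Q ^ i

theorem gg_mul_Nn : gg p m' Q * Nn p m' Q = Nn p m' Q := by
  have h := mul_geom_sum (gg p m' Q) p
  rw [gg_pow, sub_self, sub_mul, one_mul, sub_eq_zero] at h
  exact h


theorem star_gg : star (gg p m' Q) * gg p m' Q = 1 := by
  have h := gx_pow_mul_star (m := p * m') (Q := Q) (R := ℤ_[p]) (m' * Q)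
  rw [gg]
  linear_combination h


theorem star_Nn : star (Nn p m' Q) = Nn p m' Q := by
  have hp : p.Prime := Fact.out
  rw [Nn, star_sum]
  -- reflect the sum
  have h1 : ∀ i ∈ Finset.range p, star (gg p m' Q ^ i) = gg p m' Q ^ (p - i) := by
    intro i hi
    have hi' : i < p := Finset.mem_range.mp hi
    have h2 : gg p m' Q ^ (p - i) * gg p m' Q ^ i = 1 := by
      rw [← pow_add, Nat.sub_add_cancel hi'.le, gg_pow]
    have h3 : star (gg p m' Q ^ i) * gg p m' Q ^ i = 1 := by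
      rw [star_pow, ← mul_pow, star_gg, one_pow]
    calc star (gg p m' Q ^ i) = star (gg p m' Q ^ i) * (gg p m' Q ^ (p - i) * gg p m' Q ^ i) := by
          rw [h2, mul_one]
      _ = gg p m' Q ^ (p - i) * (star (gg p m' Q ^ i) * gg p m' Q ^ i) := by ring
      _ = _ := by rw [h3, mul_one]
  rw [Finset.sum_congr rfl h1]
  obtain ⟨r, hr⟩ : ∃ r, p = r + 1 := ⟨p - 1, by have := hp.pos; omega⟩
  have h4 := gg_pow (p := p) (m' := m') (Q := Q)
  rw [← Finset.sum_range_reflect]
  have h5 : ∀ i ∈ Finset.range p, gg p m' Q ^ (p - (p - 1 - i)) = gg p m' Q ^ (i + 1) := by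
    intro i hi
    have hi' : i < p := Finset.mem_range.mp hi
    congr 1
    omega
  rw [Finset.sum_congr rfl h5]
  have h6 : ∑ i ∈ Finset.range p, gg p m' Q ^ (i + 1) =
      gg p m' Q * ∑ i ∈ Finset.range p, gg p m' Q ^ i := by
    rw [Finset.mul_sum]
    exact Finset.sum_congr rfl fun i _ => pow_succ' _ _
  rw [h6]
  exact gg_mul_Nn

theorem star_piH (hpQ : p.Coprime Q) (z : Lam (p * m') Q ℤ_[p]) :
    piH p m' Q hpQ (star z) = star (piH p m' Q hpQ z) := by
  have h0 : piH p m' Q hpQ (conj (gx (p * m') Q ℤ_[p])) = conj (gx m' Q ℤ_[p]) := by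
    have h1 : gx m' Q ℤ_[p] * conj (gx m' Q ℤ_[p]) = 1 := gx_mul_conj
    have h2 : gx m' Q ℤ_[p] * piH p m' Q hpQ (conj (gx (p * m') Q ℤ_[p])) = 1 := by
      rw [← piH_gx hpQ, ← map_mul, gx_mul_conj, map_one]
    linear_combination (conj (gx m' Q ℤ_[p])) * h2 -
      (piH p m' Q hpQ (conj (gx (p * m') Q ℤ_[p]))) * h1
  rw [star_def, star_def]
  induction z using P4Lam_780.ind with
  | h f =>
    rw [← aeval_algHom_apply, ← aeval_algHom_apply, ← aeval_algHom_apply, ← aeval_algHom_apply,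
      h0, piH_gx]

/-- the `A`-linear comparison `A[C_p] → R`. -/
noncomputable def Th (hkl : p * k = 1 + m' * Q * l) :
    (ZMod p → Lam m' Q ℤ_[p]) →ₗ[ℤ_[p]] Lam (p * m') Q ℤ_[p] where
  toFun a := ∑ i : ZMod p, sig hkl (a i) * gg p m' Q ^ i.val
  map_add' a b := by
    simp only [Pi.add_apply, map_add, add_mul, Finset.sum_add_distrib]
  map_smul' c a := by
    simp only [Pi.smul_apply, map_smul, smul_mul_assoc, Finset.smul_sum, RingHom.id_apply]

theorem Th_apply (hkl : p * k = 1 + m' * Q * l) (a : ZMod p → Lam m' Q ℤ_[p]) :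
    Th hkl a = ∑ i : ZMod p, sig hkl (a i) * gg p m' Q ^ i.val := rfl

theorem gg_val_add_one (i : ZMod p) : gg p m' Q ^ (i + 1).val = gg p m' Q ^ (i.val + 1) := by
  have h : (i + 1).val = (i.val + 1) % p := by
    rw [ZMod.val_add, ZMod.val_one_eq_one_mod, Nat.add_mod_mod]
  rw [h]
  conv_rhs => rw [← Nat.div_add_mod (i.val + 1) p]
  rw [pow_add, pow_mul, gg_pow, one_pow, one_mul]

theorem gg_mul_Th (hkl : p * k = 1 + m' * Q * l) (a : ZMod p → Lam m' Q ℤ_[p]) :
    gg p m' Q * Th hkl a = Th hkl (fun i => a (i - 1)) := by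
  rw [Th_apply, Th_apply, Finset.mul_sum, ← Equiv.sum_comp (Equiv.addRight (1 : ZMod p))
    (fun i => sig hkl (a (i - 1)) * gg p m' Q ^ i.val)]
  refine Finset.sum_congr rfl fun i _ => ?_
  rw [Equiv.coe_addRight, add_sub_cancel_right, gg_val_add_one, pow_succ]
  ring

theorem sig_mul_Th (hkl : p * k = 1 + m' * Q * l) (b : Lam m' Q ℤ_[p])
    (a : ZMod p → Lam m' Q ℤ_[p]) :
    sig hkl b * Th hkl a = Th hkl (fun i => b * a i) := by
  rw [Th_apply, Th_apply, Finset.mul_sum]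
  refine Finset.sum_congr rfl fun i _ => ?_
  rw [map_mul]
  ring

theorem Th_surjective (hkl : p * k = 1 + m' * Q * l) : Surjective (Th hkl) := by
  intro z
  induction z using P4Lam_780.ind with
  | h f =>
    induction f using Polynomial.induction_on' with
    | add f g hf hg =>
      obtain ⟨a, ha⟩ := hf
      obtain ⟨b, hb⟩ := hg
      exact ⟨a + b, by rw [map_add, map_add, ha, hb]⟩
    | monomial n c =>
      have h1 : ∀ n : ℕ, ∃ a, Th hkl a = gx (p * m') Q ℤ_[p] ^ n := by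
        intro n
        induction n with
        | zero =>
          refine ⟨Pi.single 0 1, ?_⟩
          rw [Th_apply, Finset.sum_eq_single (0 : ZMod p)]
          · simp
          · intro i _ hi
            simp [Pi.single_eq_of_ne hi]
          · simp
        | succ n ih =>
          obtain ⟨a, ha⟩ := ih
          have h2 : ∀ s : ℕ, ∃ b, Th hkl b = gg p m' Q ^ s * gx (p * m') Q ℤ_[p] ^ n := by
            intro s
            induction s with
            | zero => exact ⟨a, by rw [ha, pow_zero, one_mul]⟩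
            | succ s ihs =>
              obtain ⟨b, hb⟩ := ihs
              exact ⟨_, by rw [← gg_mul_Th, hb, pow_succ]; ring⟩
          obtain ⟨b, hb⟩ := h2 (l * (p - 1))
          refine ⟨fun i => gx m' Q ℤ_[p] * b i, ?_⟩
          rw [← sig_mul_Th, hb, ← mul_assoc, ← gx_eq hkl, pow_succ']
      obtain ⟨a, ha⟩ := h1 n
      refine ⟨c • a, ?_⟩
      rw [map_smul, ha, aeval_monomial, Algebra.smul_def]

theorem Th_injective (hkl : p * k = 1 + m' * Q * l) : Injective (Th hkl) := by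
  have f1 := free_lam m' Q ℤ_[p]
  have f2 := free_lam (p * m') Q ℤ_[p]
  have f3 := finite_lam m' Q ℤ_[p]
  have f4 := finite_lam (p * m') Q ℤ_[p]
  have h1 : Module.finrank ℤ_[p] (Lam m' Q ℤ_[p]) = Q.totient * m' := by
    rw [← Psi_natDegree m' Q ℤ_[p]]
    exact (AdjoinRoot.powerBasis' (Psi_monic m' Q ℤ_[p])).finrank
  have h2 : Module.finrank ℤ_[p] (Lam (p * m') Q ℤ_[p]) = Q.totient * (p * m') := by
    rw [← Psi_natDegree (p * m') Q ℤ_[p]]
    exact (AdjoinRoot.powerBasis' (Psi_monic (p * m') Q ℤ_[p])).finrank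
  have h3 : Module.finrank ℤ_[p] (ZMod p → Lam m' Q ℤ_[p]) =
      Module.finrank ℤ_[p] (Lam (p * m') Q ℤ_[p]) := by
    rw [Module.finrank_pi_fintype, h2, h1]
    simp [ZMod.card]
    ring
  let e : (ZMod p → Lam m' Q ℤ_[p]) ≃ₗ[ℤ_[p]] Lam (p * m') Q ℤ_[p] :=
    LinearEquiv.ofFinrankEq _ _ h3
  have h4 : Surjective (e.symm.toLinearMap ∘ₗ Th hkl) :=
    e.symm.surjective.comp (Th_surjective hkl)
  have h5 := OrzechProperty.injective_of_surjective_endomorphism _ h4
  intro x y hxy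
  exact h5 (by simp [hxy])

theorem piH_Th (hpQ : p.Coprime Q) (hkl : p * k = 1 + m' * Q * l)
    (a : ZMod p → Lam m' Q ℤ_[p]) : piH p m' Q hpQ (Th hkl a) = ∑ i, a i := by
  rw [Th_apply, map_sum]
  refine Finset.sum_congr rfl fun i _ => ?_
  rw [map_mul, map_pow, piH_gg, one_pow, mul_one, piH_sig]

theorem Nn_mul_Th (hkl : p * k = 1 + m' * Q * l) (a : ZMod p → Lam m' Q ℤ_[p]) :
    Nn p m' Q * Th hkl a = sig hkl (∑ i, a i) * Nn p m' Q := by
  have h1 : ∀ s : ℕ, Nn p m' Q * gg p m' Q ^ s = Nn p m' Q := by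
    intro s
    induction s with
    | zero => simp
    | succ s ih =>
      rw [pow_succ, ← mul_assoc, ih]
      linear_combination gg_mul_Nn (p := p) (m' := m') (Q := Q)
  rw [Th_apply, Finset.mul_sum, map_sum, Finset.sum_mul]
  refine Finset.sum_congr rfl fun i _ => ?_
  rw [mul_left_comm, h1]

theorem Nn_eq_Th (hkl : p * k = 1 + m' * Q * l) (b : Lam m' Q ℤ_[p]) :
    sig hkl b * Nn p m' Q = Th hkl (fun _ => b) := by
  rw [Th_apply, Nn, Finset.mul_sum]
  exact (sum_zmod p (fun i => sig hkl b * gg p m' Q ^ i)).symm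

/-- `N z = 0 ↔ π z = 0`. -/
theorem Nn_mul_eq_zero (hpQ : p.Coprime Q) (hkl : p * k = 1 + m' * Q * l)
    (z : Lam (p * m') Q ℤ_[p]) : Nn p m' Q * z = 0 ↔ piH p m' Q hpQ z = 0 := by
  obtain ⟨a, rfl⟩ := Th_surjective hkl z
  rw [Nn_mul_Th, piH_Th, Nn_eq_Th]
  constructor
  · intro h
    have h1 := Th_injective hkl (h.trans (map_zero (Th hkl)).symm)
    exact congrFun h1 0
  · intro h
    rw [h]
    exact map_zero (Th hkl)

/-- elements killed by `ker π` are multiples of `N`. -/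
theorem mem_Nn (hpQ : p.Coprime Q) (hkl : p * k = 1 + m' * Q * l)
    (z : Lam (p * m') Q ℤ_[p]) (hz : ∀ w, piH p m' Q hpQ w = 0 → w * z = 0) :
    ∃ w, z = Nn p m' Q * w := by
  obtain ⟨a, rfl⟩ := Th_surjective hkl z
  have h1 := hz (gg p m' Q - 1) (by rw [map_sub, piH_gg, map_one, sub_self])
  rw [sub_mul, one_mul, gg_mul_Th, ← map_sub] at h1
  have h2 := Th_injective hkl (h1.trans (map_zero (Th hkl)).symm)
  have h3 : ∀ n : ℕ, a (n : ZMod p) = a 0 := by
    intro n
    induction n with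
    | zero => simp
    | succ n ih =>
      have h4 := congrFun h2 ((n + 1 : ℕ) : ZMod p)
      rw [Pi.sub_apply, Pi.zero_apply, sub_eq_zero] at h4
      rw [← h4, ← ih]
      congr 1
      push_cast
      ring
  have h5 : a = fun _ => a 0 := by
    funext i
    have := h3 i.val
    rwa [ZMod.natCast_zmod_val] at this
  refine ⟨sig hkl (a 0), ?_⟩
  have h6 := Nn_eq_Th hkl (a 0)
  rw [← h5] at h6
  rw [← h6]
  ring

end rings

end Crest.Agent.R267.P46d_543
end

-- ▼ part R267/P46e_543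
section

/-!
# The local modules of S0407 (helper543, row 267, LOCSQ, part 3)

`split_lam`: two isogenous finite torsion-free `Lam (p m') Q ℤ_[p]`-modules satisfying `HM1` have
a common decomposition `P × Q₀`, `P` projective over `Lam (p m') Q ℤ_[p]`, `Q₀` projective over
`Lam m' Q ℤ_[p]`.  `iso_unram`, `iso_ram`: the cases `p ∤ m Q` and `p ∣ Q`.
-/

set_option autoImplicit false

namespace Crest.Agent.R267.P46e_543

open Function Polynomial Crest.Agent.R267.P46a0_543 Crest.Agent.R267.P46b_543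
open Crest.Agent.R267.P4Lam_780 Crest.Agent.R267.P46c_543 Crest.Agent.R267.P46d_543

section abs

set_option linter.unusedSectionVars false

variable {A R : Type} [CommRing A] [CommRing R] [Algebra A R] {p : ℕ} [Fact p.Prime] {g : R}

/-- multiplication by `g`. -/
def mulg (A : Type) {R : Type} [CommRing A] [CommRing R] [Algebra A R] (g : R) (M : Type)
    [AddCommGroup M] [Module R M] [Module A M] [IsScalarTower A R M] : M →ₗ[A] M :=
  (LinearMap.lsmul R M g).restrictScalars A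

theorem mulg_apply (M : Type) [AddCommGroup M] [Module R M] [Module A M] [IsScalarTower A R M]
    (x : M) : mulg A g M x = g • x := rfl

theorem mulg_pow_apply (M : Type) [AddCommGroup M] [Module R M] [Module A M]
    [IsScalarTower A R M] (n : ℕ) (x : M) : (mulg A g M ^ n) x = g ^ n • x := by
  induction n generalizing x with
  | zero => simp
  | succ n ih => rw [pow_succ, Module.End.mul_apply, ih, mulg_apply, smul_smul, pow_succ]

theorem lat_mulg (hg : g ^ p = 1) (M : Type) [AddCommGroup M] [Module R M] [Module A M]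
    [IsScalarTower A R M] [Module.Finite A M] (t : ∀ x : M, (p : A) • x = 0 → x = 0)
    (H : ∀ x : M, (∑ i ∈ Finset.range p, g ^ i) • x = 0 → ∃ y, x = g • y - y) :
    Lat A p M (mulg A g M) where
  finite := inferInstance
  tf := t
  pow := by
    refine LinearMap.ext fun x => ?_
    rw [mulg_pow_apply, hg, one_smul, Module.End.one_apply]
  hm1 x hx := by
    apply H
    rw [Finset.sum_smul, ← hx]
    exact Finset.sum_congr rfl fun i _ => (mulg_pow_apply M i x).symm

/-- `A`-linear maps commuting with `g` are `R`-linear. -/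
theorem lin_of (hgen : ∀ r : R, ∃ a : ZMod p → A, r = ∑ i, algebraMap A R (a i) * g ^ i.val)
    {M N : Type} [AddCommGroup M] [Module R M] [Module A M] [IsScalarTower A R M]
    [AddCommGroup N] [Module R N] [Module A N] [IsScalarTower A R N]
    (f : M →ₗ[A] N) (hf : ∀ x, f (g • x) = g • f x) (r : R) (x : M) : f (r • x) = r • f x := by
  obtain ⟨a, rfl⟩ := hgen r
  rw [Finset.sum_smul, Finset.sum_smul, map_sum]
  refine Finset.sum_congr rfl fun i _ => ?_
  have h1 : ∀ n : ℕ, f (g ^ n • x) = g ^ n • f x := by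
    intro n
    induction n with
    | zero => simp
    | succ n ih => rw [pow_succ', mul_smul, hf, ih, mul_smul]
  rw [mul_smul, mul_smul, algebraMap_smul, algebraMap_smul, map_smul, h1]

theorem proj_of_struct (hg : g ^ p = 1)
    (hgen : ∀ r : R, ∃ a : ZMod p → A, r = ∑ i, algebraMap A R (a i) * g ^ i.val)
    {P₀ : Type} [AddCommGroup P₀] [Module A P₀] [Module.Projective A P₀]
    {P : Type} [AddCommGroup P] [Module R P] [Module A P] [IsScalarTower A R P]
    (E : (ZMod p → P₀) ≃ₗ[A] P) (hE : ∀ x, E (shift A p P₀ x) = g • E x) :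
    Module.Projective R P := by
  apply Module.Projective.of_lifting_property''
  intro f hf
  -- lift `P₀`
  let ι₀ : P₀ →ₗ[A] P := E.toLinearMap.comp (LinearMap.single A (fun _ : ZMod p => P₀) 0)
  have hι₀ : ∀ y, ι₀ y = E (Pi.single 0 y) := fun y => rfl
  obtain ⟨τ₀, hτ₀⟩ := Module.projective_lifting_property (f.restrictScalars A) ι₀ hf
  have hτ₀' : ∀ y, f (τ₀ y) = E (Pi.single 0 y) := fun y => by
    have := congrArg (fun h => h y) hτ₀
    simpa [hι₀] using this
  let τ : P →ₗ[A] (P →₀ R) :=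
    ∑ i : ZMod p, ((mulg A (g ^ i.val) (P →₀ R)).comp (τ₀.comp (LinearMap.proj i))).comp
      E.symm.toLinearMap
  have hτ : ∀ x, τ x = ∑ i : ZMod p, g ^ i.val • τ₀ (E.symm x i) := by
    intro x
    simp only [τ, LinearMap.sum_apply]
    rfl
  have hEs : ∀ x, E.symm (g • x) = shift A p P₀ (E.symm x) := by
    intro x
    apply E.injective
    rw [hE, E.apply_symm_apply, E.apply_symm_apply]
  have hval : ∀ i : ZMod p, g ^ (i + 1).val = g ^ (i.val + 1) := by
    intro i
    have h : (i + 1).val = (i.val + 1) % p := by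
      rw [ZMod.val_add, ZMod.val_one_eq_one_mod, Nat.add_mod_mod]
    rw [h]
    conv_rhs => rw [← Nat.div_add_mod (i.val + 1) p]
    rw [pow_add, pow_mul, hg, one_pow, one_mul]
  have hτg : ∀ x, τ (g • x) = g • τ x := by
    intro x
    rw [hτ, hτ, hEs, Finset.smul_sum, ← Equiv.sum_comp (Equiv.addRight (1 : ZMod p))]
    refine Finset.sum_congr rfl fun i _ => ?_
    rw [Equiv.coe_addRight, shift_apply, add_sub_cancel_right, hval, pow_succ', mul_smul]
  have hlin := lin_of hgen τ hτg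
  let τR : P →ₗ[R] (P →₀ R) :=
    { toFun := τ
      map_add' := map_add τ
      map_smul' := fun r x => hlin r x }
  refine ⟨τR, ?_⟩
  refine LinearMap.ext fun x => ?_
  change f (τ x) = x
  rw [hτ, map_sum]
  obtain ⟨z, rfl⟩ := E.surjective x
  have hsh : ∀ (n : ℕ) (y : ZMod p → P₀), g ^ n • E y = E ((shift A p P₀ ^ n) y) := by
    intro n
    induction n with
    | zero => intro y; simp
    | succ n ih =>
      intro y
      rw [pow_succ, mul_smul, ← hE, ih, pow_succ (shift A p P₀), Module.End.mul_apply]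
  have h1 : ∀ i : ZMod p, f (g ^ i.val • τ₀ (E.symm (E z) i)) = E (Pi.single i (z i)) := by
    intro i
    rw [map_smul, hτ₀', E.symm_apply_apply, hsh]
    congr 1
    funext j
    rw [shift_pow_apply, ZMod.natCast_zmod_val]
    by_cases hij : j = i
    · subst hij; simp
    · rw [Pi.single_eq_of_ne (sub_ne_zero.mpr hij), Pi.single_eq_of_ne hij]
  rw [Finset.sum_congr rfl fun i _ => h1 i, ← map_sum]
  congr 1
  exact Finset.univ_sum_single z

theorem split_abs (hA : Base A (p : A)) (hg : g ^ p = 1)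
    (hgen : ∀ r : R, ∃ a : ZMod p → A, r = ∑ i, algebraMap A R (a i) * g ^ i.val)
    (π : R →+* A) (hπ : ∀ a, π (algebraMap A R a) = a) (hπg : π g = 1)
    (M₁ M₂ : Type) [AddCommGroup M₁] [Module R M₁] [Module A M₁] [IsScalarTower A R M₁]
    [Module.Finite A M₁] [AddCommGroup M₂] [Module R M₂] [Module A M₂] [IsScalarTower A R M₂]
    [Module.Finite A M₂]
    (t₁ : ∀ x : M₁, (p : A) • x = 0 → x = 0)
    (H₁ : ∀ x : M₁, (∑ i ∈ Finset.range p, g ^ i) • x = 0 → ∃ y, x = g • y - y)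
    (t₂ : ∀ x : M₂, (p : A) • x = 0 → x = 0)
    (H₂ : ∀ x : M₂, (∑ i ∈ Finset.range p, g ^ i) • x = 0 → ∃ y, x = g • y - y)
    (f : M₁ →ₗ[R] M₂) (hf : Injective f)
    (hfin : (LinearMap.range f).toAddSubgroup.index ≠ 0) :
    ∃ (P : Type) (_ : AddCommGroup P) (_ : Module R P) (Q₀ : Type) (_ : AddCommGroup Q₀)
      (_ : Module A Q₀), Module.Finite R P ∧ Module.Projective R P ∧ Module.Finite A Q₀ ∧
      Module.Projective A Q₀ ∧
      (∃ e : M₁ ≃+ P × Q₀, ∀ (r : R) (x : M₁), e (r • x) = (r • (e x).1, π r • (e x).2)) ∧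
      (∃ e : M₂ ≃+ P × Q₀, ∀ (r : R) (x : M₂), e (r • x) = (r • (e x).1, π r • (e x).2)) := by
  have L₁ := lat_mulg hg M₁ t₁ H₁
  have L₂ := lat_mulg hg M₂ t₂ H₂
  obtain ⟨P₀, _, _, Q₀, _, _, hPf, hPp, hQf, hQp, -, -, E, hE⟩ := struct hA L₁
  obtain ⟨e, he⟩ := iso hA L₁ L₂ (f.restrictScalars A) hf (fun x => f.map_smul g x) hfin
  have he' : ∀ x, e (g • x) = g • e x := he
  have hlin := lin_of hgen e.toLinearMap he'
  have hE' : ∀ x q, E (shift A p P₀ x, q) = g • E (x, q) := hE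
  -- the projection
  let pr₀ : M₁ →ₗ[A] M₁ :=
    (E.toLinearMap.comp (LinearMap.inl A _ _)).comp ((LinearMap.fst A _ _).comp E.symm.toLinearMap)
  have hpr₀ : ∀ x q, pr₀ (E (x, q)) = E (x, 0) := by
    intro x q
    simp [pr₀]
  have hpr₀g : ∀ m, pr₀ (g • m) = g • pr₀ m := by
    intro m
    obtain ⟨⟨x, q⟩, rfl⟩ := E.surjective m
    rw [← hE', hpr₀, hpr₀, hE']
  have hprlin := lin_of hgen pr₀ hpr₀g
  let pr : M₁ →ₗ[R] M₁ :=
    { toFun := pr₀, map_add' := map_add pr₀, map_smul' := fun r x => hprlin r x }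
  have hpr : ∀ x q, pr (E (x, q)) = E (x, 0) := hpr₀
  have hfM : Module.Finite R M₁ := Module.Finite.of_restrictScalars_finite A R M₁
  have hPfin : Module.Finite R (LinearMap.range pr) := inferInstance
  -- `P ≅ P₀[C_p]`
  let EP₀ : (ZMod p → P₀) →ₗ[A] (LinearMap.range pr) :=
    LinearMap.codRestrict ((LinearMap.range pr).restrictScalars A)
      (E.toLinearMap.comp (LinearMap.inl A _ _)) (fun x => ⟨E (x, 0), hpr x 0⟩)
  have hEP₀ : ∀ x, ((EP₀ x : LinearMap.range pr) : M₁) = E (x, 0) := fun x => rfl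
  have hbij : Bijective EP₀ := by
    constructor
    · intro x y hxy
      have h1 : E (x, 0) = E (y, 0) := by rw [← hEP₀, ← hEP₀, hxy]
      exact congrArg Prod.fst (E.injective h1)
    · rintro ⟨y, z, rfl⟩
      obtain ⟨⟨x, q⟩, rfl⟩ := E.surjective z
      refine ⟨x, ?_⟩
      apply Subtype.ext
      rw [hEP₀]
      exact (hpr x q).symm
  have hPproj : Module.Projective R (LinearMap.range pr) := by
    refine proj_of_struct hg hgen (LinearEquiv.ofBijective EP₀ hbij) ?_
    intro x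
    apply Subtype.ext
    change E (shift A p P₀ x, 0) = g • E (x, 0)
    exact hE' x 0
  -- the second projection
  let s : M₁ →ₗ[A] Q₀ := (LinearMap.snd A _ _).comp E.symm.toLinearMap
  have hs : ∀ x q, s (E (x, q)) = q := by
    intro x q
    simp [s]
  have hsg : ∀ n : ℕ, ∀ m, s (g ^ n • m) = s m := by
    intro n
    induction n with
    | zero => intro m; simp
    | succ n ih =>
      intro m
      rw [pow_succ, mul_smul, ih]
      obtain ⟨⟨x, q⟩, rfl⟩ := E.surjective m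
      rw [← hE', hs, hs]
  have hsπ : ∀ (r : R) (m : M₁), s (r • m) = π r • s m := by
    intro r m
    obtain ⟨a, rfl⟩ := hgen r
    rw [Finset.sum_smul, map_sum, map_sum, Finset.sum_smul]
    refine Finset.sum_congr rfl fun i _ => ?_
    rw [mul_smul, algebraMap_smul, map_smul, hsg, map_mul, hπ, map_pow, hπg, one_pow, mul_one]
  -- the bijection
  let e₁ : M₁ ≃+ (LinearMap.range pr) × Q₀ :=
    { toFun := fun m => (⟨pr m, m, rfl⟩, s m)
      invFun := fun z => (z.1 : M₁) + E (0, z.2)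
      left_inv := by
        intro m
        obtain ⟨⟨x, q⟩, rfl⟩ := E.surjective m
        simp only [hpr, hs]
        rw [← map_add]
        simp
      right_inv := by
        rintro ⟨⟨y, hy⟩, q⟩
        obtain ⟨z, hz⟩ := id hy
        obtain ⟨⟨x, q'⟩, rfl⟩ := E.surjective z
        rw [hpr] at hz
        subst hz
        have h1 : E (x, 0) + E (0, q) = E (x, q) := by
          rw [← map_add]
          simp
        rw [Prod.mk.injEq]
        refine ⟨Subtype.ext ?_, ?_⟩
        · change pr (E (x, 0) + E (0, q)) = E (x, 0)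
          rw [h1, hpr]
        · change s (E (x, 0) + E (0, q)) = q
          rw [h1, hs]
      map_add' := by
        intro x y
        rw [Prod.mk_add_mk, Prod.mk.injEq]
        exact ⟨Subtype.ext (map_add pr x y), map_add s x y⟩ }
  have he₁ : ∀ (r : R) (x : M₁), e₁ (r • x) = (r • (e₁ x).1, π r • (e₁ x).2) := by
    intro r x
    change ((⟨pr (r • x), r • x, rfl⟩ : LinearMap.range pr), s (r • x)) = _
    rw [Prod.mk.injEq]
    exact ⟨Subtype.ext (pr.map_smul r x), hsπ r x⟩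
  refine ⟨LinearMap.range pr, inferInstance, inferInstance, Q₀, inferInstance, inferInstance,
    hPfin, hPproj, hQf, hQp, ⟨e₁, he₁⟩, ⟨e.symm.toAddEquiv.trans e₁, ?_⟩⟩
  intro r x
  obtain ⟨y, rfl⟩ := e.surjective x
  have h2 : e (r • y) = r • e y := hlin r y
  change e₁ (e.symm (r • e y)) = (r • (e₁ (e.symm (e y))).1, π r • (e₁ (e.symm (e y))).2)
  rw [← h2, e.symm_apply_apply, e.symm_apply_apply]
  exact he₁ r y

end abs

section lam

variable {p : ℕ} [Fact p.Prime] {m' Q : ℕ} [NeZero m'] [NeZero Q]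

variable (p m' Q) in
/-- the projection `R → A` as a ring homomorphism. -/
noncomputable def piR (hpQ : p.Coprime Q) : Lam (p * m') Q ℤ_[p] →+* Lam m' Q ℤ_[p] :=
  (piH p m' Q hpQ).toRingHom


/-- **(a3)**: `p ∣ m`, `p ∤ m' Q`. -/
theorem split_lam (h : ¬ p ∣ m' * Q) (hpQ : p.Coprime Q)
    (M₁ M₂ : Type) [AddCommGroup M₁] [Module (Lam (p * m') Q ℤ_[p]) M₁]
    [Module.Finite (Lam (p * m') Q ℤ_[p]) M₁] [AddCommGroup M₂]
    [Module (Lam (p * m') Q ℤ_[p]) M₂] [Module.Finite (Lam (p * m') Q ℤ_[p]) M₂]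
    (t₁ : ∀ x : M₁, (p : Lam (p * m') Q ℤ_[p]) • x = 0 → x = 0)
    (H₁ : ∀ x : M₁, Nn p m' Q • x = 0 → ∃ y, x = gg p m' Q • y - y)
    (t₂ : ∀ x : M₂, (p : Lam (p * m') Q ℤ_[p]) • x = 0 → x = 0)
    (H₂ : ∀ x : M₂, Nn p m' Q • x = 0 → ∃ y, x = gg p m' Q • y - y)
    (f : M₁ →ₗ[Lam (p * m') Q ℤ_[p]] M₂) (hf : Injective f)
    (hfin : (LinearMap.range f).toAddSubgroup.index ≠ 0) :
    ∃ (P : Type) (_ : AddCommGroup P) (_ : Module (Lam (p * m') Q ℤ_[p]) P)
      (Q₀ : Type) (_ : AddCommGroup Q₀) (_ : Module (Lam m' Q ℤ_[p]) Q₀),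
      Module.Finite (Lam (p * m') Q ℤ_[p]) P ∧ Module.Projective (Lam (p * m') Q ℤ_[p]) P ∧
      Module.Finite (Lam m' Q ℤ_[p]) Q₀ ∧ Module.Projective (Lam m' Q ℤ_[p]) Q₀ ∧
      (∃ e : M₁ ≃+ P × Q₀, ∀ (r : Lam (p * m') Q ℤ_[p]) (x : M₁),
        e (r • x) = (r • (e x).1, piR p m' Q hpQ r • (e x).2)) ∧
      (∃ e : M₂ ≃+ P × Q₀, ∀ (r : Lam (p * m') Q ℤ_[p]) (x : M₂),
        e (r • x) = (r • (e x).1, piR p m' Q hpQ r • (e x).2)) := by
  obtain ⟨k, l, hkl⟩ := exists_kl (p := p) h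
  let _ : Algebra (Lam m' Q ℤ_[p]) (Lam (p * m') Q ℤ_[p]) := (sig hkl).toRingHom.toAlgebra
  let _ : Module (Lam m' Q ℤ_[p]) M₁ := Module.compHom M₁ (sig hkl).toRingHom
  let _ : Module (Lam m' Q ℤ_[p]) M₂ := Module.compHom M₂ (sig hkl).toRingHom
  have hal : ∀ a : Lam m' Q ℤ_[p],
      algebraMap (Lam m' Q ℤ_[p]) (Lam (p * m') Q ℤ_[p]) a = sig hkl a := fun a => rfl
  have s₁ : IsScalarTower (Lam m' Q ℤ_[p]) (Lam (p * m') Q ℤ_[p]) M₁ :=
    ⟨fun a r x => by
      rw [Algebra.smul_def, mul_smul, hal]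
      rfl⟩
  have s₂ : IsScalarTower (Lam m' Q ℤ_[p]) (Lam (p * m') Q ℤ_[p]) M₂ :=
    ⟨fun a r x => by
      rw [Algebra.smul_def, mul_smul, hal]
      rfl⟩
  have s₃ : IsScalarTower ℤ_[p] (Lam m' Q ℤ_[p]) (Lam (p * m') Q ℤ_[p]) :=
    IsScalarTower.of_algebraMap_eq fun c => by
      rw [hal, AlgHom.commutes]
  have f₀ := finite_lam (p * m') Q ℤ_[p]
  have f₁ : Module.Finite (Lam m' Q ℤ_[p]) (Lam (p * m') Q ℤ_[p]) :=
    Module.Finite.of_restrictScalars_finite ℤ_[p] (Lam m' Q ℤ_[p]) (Lam (p * m') Q ℤ_[p])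
  have f₂ : Module.Finite (Lam m' Q ℤ_[p]) M₁ :=
    Module.Finite.trans (Lam (p * m') Q ℤ_[p]) M₁
  have f₃ : Module.Finite (Lam m' Q ℤ_[p]) M₂ :=
    Module.Finite.trans (Lam (p * m') Q ℤ_[p]) M₂
  have hA := base_unram (p := p) m' Q h
  have hp₁ : ∀ x : M₁, (p : Lam m' Q ℤ_[p]) • x = (p : Lam (p * m') Q ℤ_[p]) • x := by
    intro x
    rw [← algebraMap_smul (Lam (p * m') Q ℤ_[p]) (p : Lam m' Q ℤ_[p]) x, map_natCast]
  have hp₂ : ∀ x : M₂, (p : Lam m' Q ℤ_[p]) • x = (p : Lam (p * m') Q ℤ_[p]) • x := by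
    intro x
    rw [← algebraMap_smul (Lam (p * m') Q ℤ_[p]) (p : Lam m' Q ℤ_[p]) x, map_natCast]
  exact split_abs hA gg_pow
    (fun r => by
      obtain ⟨a, ha⟩ := Th_surjective hkl r
      exact ⟨a, by rw [← ha]; rfl⟩)
    (piR p m' Q hpQ)
    (fun a => piH_sig hpQ hkl a) (piH_gg hpQ) M₁ M₂
    (fun x hx => t₁ x (by rw [← hp₁]; exact hx)) H₁
    (fun x hx => t₂ x (by rw [← hp₂]; exact hx)) H₂ f hf hfin

end lam

section unram

variable {p : ℕ} [Fact p.Prime] {m Q : ℕ} [NeZero m] [NeZero Q]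

/-- **(a1)**: `p ∤ m Q`. -/
theorem iso_unram (h : ¬ p ∣ m * Q) (M₁ M₂ : Type) [AddCommGroup M₁]
    [Module (Lam m Q ℤ_[p]) M₁] [Module.Finite (Lam m Q ℤ_[p]) M₁] [AddCommGroup M₂]
    [Module (Lam m Q ℤ_[p]) M₂] [Module.Finite (Lam m Q ℤ_[p]) M₂]
    (t₁ : ∀ x : M₁, (p : Lam m Q ℤ_[p]) • x = 0 → x = 0)
    (t₂ : ∀ x : M₂, (p : Lam m Q ℤ_[p]) • x = 0 → x = 0)
    (f : M₁ →ₗ[Lam m Q ℤ_[p]] M₂) (hf : Injective f)
    (hfin : (LinearMap.range f).toAddSubgroup.index ≠ 0) :
    Module.Projective (Lam m Q ℤ_[p]) M₁ ∧ Module.Projective (Lam m Q ℤ_[p]) M₂ ∧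
      Nonempty (M₁ ≃ₗ[Lam m Q ℤ_[p]] M₂) :=
  ⟨(base_unram m Q h).projective M₁ t₁, (base_unram m Q h).projective M₂ t₂,
    (base_unram m Q h).iso_of_isog t₂ f hf hfin⟩

/-- **(a2)**: `p ∣ Q`. -/
theorem iso_ram {Q' : ℕ} [NeZero Q'] (h : ¬ p ∣ m * Q') (M₁ M₂ : Type) [AddCommGroup M₁]
    [Module (Lam m (p * Q') ℤ_[p]) M₁] [Module.Finite (Lam m (p * Q') ℤ_[p]) M₁] [AddCommGroup M₂]
    [Module (Lam m (p * Q') ℤ_[p]) M₂] [Module.Finite (Lam m (p * Q') ℤ_[p]) M₂]
    (t₁ : ∀ x : M₁, (p : Lam m (p * Q') ℤ_[p]) • x = 0 → x = 0)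
    (t₂ : ∀ x : M₂, (p : Lam m (p * Q') ℤ_[p]) • x = 0 → x = 0)
    (f : M₁ →ₗ[Lam m (p * Q') ℤ_[p]] M₂) (hf : Injective f)
    (hfin : (LinearMap.range f).toAddSubgroup.index ≠ 0) :
    Module.Projective (Lam m (p * Q') ℤ_[p]) M₁ ∧ Module.Projective (Lam m (p * Q') ℤ_[p]) M₂ ∧
      Nonempty (M₁ ≃ₗ[Lam m (p * Q') ℤ_[p]] M₂) := by
  obtain ⟨w, hw⟩ := piz_dvd_p (p := p) m Q'
  have u₁ : ∀ x : M₁, piz m Q' p • x = 0 → x = 0 := fun x hx =>
    t₁ x (by rw [hw, mul_comm (piz m Q' p) w, mul_smul, hx, smul_zero])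
  have u₂ : ∀ x : M₂, piz m Q' p • x = 0 → x = 0 := fun x hx =>
    t₂ x (by rw [hw, mul_comm (piz m Q' p) w, mul_smul, hx, smul_zero])
  exact ⟨(base_ram m Q' h).projective M₁ u₁, (base_ram m Q' h).projective M₂ u₂,
    (base_ram m Q' h).iso_of_isog u₂ f hf hfin⟩

end unram

end Crest.Agent.R267.P46e_543
end

-- ▼ part R267/P46f_484
section

/-!
# S0407, package P4.6c: `LOCSQ` from `HM1` (helper484)
-/

set_option autoImplicit false
set_option linter.unusedSectionVars false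

namespace Crest.Agent.R267.P46f_484

open Polynomial Matrix Function Crest.Agent.R267.P4Herm_780 Crest.Agent.R267.P4Lam_780
  Crest.Agent.R267.P4Brg_780 Crest.Agent.R267.P4Defs_780 Crest.Agent.R267.P46c_484
  Crest.Agent.R267.P46c_543 Crest.Agent.R267.P46d_543 Crest.Agent.R267.P46e_543
  Crest.Agent.R267.P46e_484

/-! ### `Lam m Q ℤ_[p]` satisfies the hypotheses of `P47` -/

section loc

variable {p : ℕ} [Fact p.Prime]

theorem loc_lam (m Q : ℕ) [NeZero m] [NeZero Q] (hQ : GoodQ Q) :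
    Loc (Ideal.span {(p : Lam m Q ℤ_[p])}).radical := by
  set I : Ideal (Lam m Q ℤ_[p]) := Ideal.span {(p : Lam m Q ℤ_[p])} with hI
  have hfin : Module.Finite ℤ_[p] (Lam m Q ℤ_[p]) := finite_lam m Q ℤ_[p]
  have hnoeth : IsNoetherianRing (Lam m Q ℤ_[p]) := IsNoetherianRing.of_finite ℤ_[p] _
  have hIJ : I ≤ I.radical := Ideal.le_radical
  refine ⟨good hQ.npp hQ.odd, ?_, ?_, ?_, ?_⟩
  · intro x hx
    obtain ⟨n, hn⟩ := hx
    refine ⟨n, ?_⟩
    rw [Ideal.mem_span_singleton'] at hn ⊢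
    obtain ⟨a, ha⟩ := hn
    refine ⟨star a, ?_⟩
    rw [← star_pow, ← ha, star_mul', star_natCast]
  · obtain ⟨k, hk⟩ := Ideal.exists_radical_pow_le_of_fg I (IsNoetherian.noetherian _)
    have := isAdicComplete_padic (p := p) (Lam m Q ℤ_[p])
    exact isAdicComplete_of_le hIJ hk
  · exact finite_quot_p _ _ (hIJ (Ideal.mem_span_singleton_self _))
  · exact (Ideal.isRadical_iff_quotient_reduced _).1 (Ideal.radical_isRadical I)

theorem normQuot_lam {m' Q : ℕ} [NeZero m'] [NeZero Q] (h : ¬ p ∣ m' * Q) (hpQ : p.Coprime Q) :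
    NormQuot (piR p m' Q hpQ) (Nn p m' Q) := by
  obtain ⟨k, l, hkl⟩ := exists_kl h
  refine ⟨?_, ?_, star_Nn, ?_, ?_⟩
  · intro a
    exact ⟨sig hkl a, piH_sig hpQ hkl a⟩
  · intro z
    exact star_piH hpQ z
  · intro z
    exact Nn_mul_eq_zero hpQ hkl z
  · intro z hz
    exact mem_Nn hpQ hkl z hz

theorem Nn_mem (m' Q : ℕ) [NeZero m'] [NeZero Q] :
    Nn p m' Q ∈ (Ideal.span {(p : Lam (p * m') Q ℤ_[p])}).radical := by
  refine ⟨2, ?_⟩
  rw [Ideal.mem_span_singleton']
  refine ⟨Nn p m' Q, ?_⟩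
  have h1 : ∀ i : ℕ, gg p m' Q ^ i * Nn p m' Q = Nn p m' Q := by
    intro i
    induction i with
    | zero => rw [pow_zero, one_mul]
    | succ i ih => rw [pow_succ, mul_assoc, gg_mul_Nn, ih]
  have h2 : Nn p m' Q * Nn p m' Q = (p : Lam (p * m') Q ℤ_[p]) * Nn p m' Q := by
    conv_lhs => rw [show Nn p m' Q * Nn p m' Q =
      (∑ i ∈ Finset.range p, gg p m' Q ^ i) * Nn p m' Q from rfl]
    rw [Finset.sum_mul, Finset.sum_congr rfl fun i _ => h1 i, Finset.sum_const,
      Finset.card_range, nsmul_eq_mul]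
  rw [pow_two, h2]
  exact mul_comm _ _

end loc

/-! ### glue -/

section glue

variable {p : ℕ} [Fact p.Prime] {m Q : ℕ} [NeZero m] [NeZero Q] {ι κ : Type} [Fintype ι]
  [DecidableEq ι] [Fintype κ] [DecidableEq κ]

/-- the `ℤ_p`-matrices of an integral pair. -/
theorem matLT_p {A T : Matrix ι ι ℤ} (hA : MatLT m Q A T) :
    MatLT m Q (A.map (Int.castRingHom ℤ_[p])) (T.map (Int.castRingHom ℤ_[p])) := hA.map _

theorem finite_mod {T : Module.End ℤ_[p] (ι → ℤ_[p])} (hT : aeval T (Psi m Q ℤ_[p]) = 0) :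
    @Module.Finite (Lam m Q ℤ_[p]) (ι → ℤ_[p]) _ _ (lamModule T hT) := by
  let _ := lamModule T hT
  have := isScalarTower' T hT
  exact Module.Finite.of_restrictScalars_finite ℤ_[p] (Lam m Q ℤ_[p]) (ι → ℤ_[p])

theorem tf_mod {T : Module.End ℤ_[p] (ι → ℤ_[p])} (hT : aeval T (Psi m Q ℤ_[p]) = 0) :
    letI := lamModule T hT
    ∀ x : ι → ℤ_[p], (p : Lam m Q ℤ_[p]) • x = 0 → x = 0 := by
  let _ := lamModule T hT
  have := isScalarTower' T hT
  intro x hx
  have h1 : (p : Lam m Q ℤ_[p]) • x = (p : ℤ_[p]) • x := by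
    rw [← algebraMap_smul (Lam m Q ℤ_[p]) (p : ℤ_[p]) x, map_natCast]
  rw [h1] at hx
  ext i
  have h2 := congrFun hx i
  rw [Pi.smul_apply, Pi.zero_apply, smul_eq_mul] at h2
  rcases mul_eq_zero.1 h2 with h3 | h3
  · exact absurd h3 p_ne_zero
  · rw [h3]; rfl

/-- the isogeny as a `Lam`-linear map. -/
theorem isog_lam {A T : Matrix ι ι ℤ} {B S : Matrix κ κ ℤ} (hA : MatLT m Q A T)
    (hB : MatLT m Q B S) (h : CongOver ℚ A B) :
    letI := lamModule (Matrix.toLin' (S.map (Int.castRingHom ℤ_[p]))) (matLT_p hB).toLT.psi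
    letI := lamModule (Matrix.toLin' (T.map (Int.castRingHom ℤ_[p]))) (matLT_p hA).toLT.psi
    ∃ f : (κ → ℤ_[p]) →ₗ[Lam m Q ℤ_[p]] (ι → ℤ_[p]), Injective f ∧
      (LinearMap.range f).toAddSubgroup.index ≠ 0 := by
  let _ := lamModule (Matrix.toLin' (S.map (Int.castRingHom ℤ_[p]))) (matLT_p hB).toLT.psi
  let _ := lamModule (Matrix.toLin' (T.map (Int.castRingHom ℤ_[p]))) (matLT_p hA).toLT.psi
  obtain ⟨f, hf, hi, hc⟩ := isog_lin p hA hB h
  refine ⟨{ f with map_smul' := smul_comm_of _ _ f hc }, hf, ?_⟩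
  intro h0
  apply hi
  rw [← h0]
  congr 1

/-- case `p ∤ m Q`. -/
theorem cong_unram {A T : Matrix ι ι ℤ} {B S : Matrix κ κ ℤ} (hA : MatLT m Q A T)
    (hB : MatLT m Q B S) (hQ : GoodQ Q) (hm : Odd m) (hp : ¬ p ∣ m * Q) (h : CongOver ℚ A B) :
    CongOver ℤ_[p] A B := by
  let i1 := lamModule (Matrix.toLin' (S.map (Int.castRingHom ℤ_[p]))) (matLT_p hB).toLT.psi
  let i2 := lamModule (Matrix.toLin' (T.map (Int.castRingHom ℤ_[p]))) (matLT_p hA).toLT.psi
  obtain ⟨f, hf, hi⟩ := isog_lam (p := p) hA hB h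
  have f1 : @Module.Finite (Lam m Q ℤ_[p]) (κ → ℤ_[p]) _ _ i1 := finite_mod _
  have f2 : @Module.Finite (Lam m Q ℤ_[p]) (ι → ℤ_[p]) _ _ i2 := finite_mod _
  obtain ⟨h1, -, h3⟩ := iso_unram hp (κ → ℤ_[p]) (ι → ℤ_[p]) (tf_mod _) (tf_mod _) f hf hi
  exact cong_of_proj (matLT_p hB) (matLT_p hA) hQ hm (loc_lam m Q hQ) f1 h1 h3

/-- case `p ∣ Q`. -/
theorem cong_ram {Q' : ℕ} [NeZero Q'] {A T : Matrix ι ι ℤ} {B S : Matrix κ κ ℤ}
    (hA : MatLT m (p * Q') A T) (hB : MatLT m (p * Q') B S) (hQ : GoodQ (p * Q')) (hm : Odd m)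
    (hp : ¬ p ∣ m * Q') (h : CongOver ℚ A B) :
    CongOver ℤ_[p] A B := by
  have : NeZero (p * Q') := ⟨Nat.mul_ne_zero (Fact.out : p.Prime).ne_zero (NeZero.ne Q')⟩
  let i1 := lamModule (Matrix.toLin' (S.map (Int.castRingHom ℤ_[p]))) (matLT_p hB).toLT.psi
  let i2 := lamModule (Matrix.toLin' (T.map (Int.castRingHom ℤ_[p]))) (matLT_p hA).toLT.psi
  obtain ⟨f, hf, hi⟩ := isog_lam (p := p) hA hB h
  have f1 : @Module.Finite (Lam m (p * Q') ℤ_[p]) (κ → ℤ_[p]) _ _ i1 := finite_mod _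
  have f2 : @Module.Finite (Lam m (p * Q') ℤ_[p]) (ι → ℤ_[p]) _ _ i2 := finite_mod _
  obtain ⟨h1, -, h3⟩ := iso_ram hp (κ → ℤ_[p]) (ι → ℤ_[p]) (tf_mod _) (tf_mod _) f hf hi
  exact cong_of_proj (matLT_p hB) (matLT_p hA) hQ hm (loc_lam m _ hQ) f1 h1 h3

/-- `HM1` for a matrix over `ℤ_p`: `ker (1 + g + … + g^(p-1)) = (g - 1) M`. -/
def HM1 (p : ℕ) [Fact p.Prime] (k : ℕ) (T : Matrix ι ι ℤ) : Prop :=
  ∀ x : ι → ℤ_[p], ∑ i ∈ Finset.range p, ((T.map (Int.castRingHom ℤ_[p]) ^ k) ^ i) *ᵥ x = 0 →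
    ∃ y, x = (T.map (Int.castRingHom ℤ_[p]) ^ k) *ᵥ y - y

theorem hm1_mod {m' : ℕ} [NeZero m'] {T : Matrix ι ι ℤ}
    (hT : aeval (Matrix.toLin' (T.map (Int.castRingHom ℤ_[p]))) (Psi (p * m') Q ℤ_[p]) = 0)
    (h : HM1 p (m' * Q) T) :
    letI := lamModule (Matrix.toLin' (T.map (Int.castRingHom ℤ_[p]))) hT
    ∀ x : ι → ℤ_[p], Nn p m' Q • x = 0 → ∃ y, x = gg p m' Q • y - y := by
  let _ := lamModule (Matrix.toLin' (T.map (Int.castRingHom ℤ_[p]))) hT
  have hg : ∀ (k : ℕ) (x : ι → ℤ_[p]), gx (p * m') Q ℤ_[p] ^ k • x =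
      (T.map (Int.castRingHom ℤ_[p]) ^ k) *ᵥ x := by
    intro k x
    have h1 := smul_aeval' _ hT (X ^ k) x
    rw [map_pow, map_pow, aeval_X, aeval_X, ← Matrix.toLin'_pow, Matrix.toLin'_apply] at h1
    exact h1
  intro x hx
  have h2 : ∑ i ∈ Finset.range p, ((T.map (Int.castRingHom ℤ_[p]) ^ (m' * Q)) ^ i) *ᵥ x = 0 := by
    rw [Nn, Finset.sum_smul] at hx
    rw [← hx]
    refine Finset.sum_congr rfl fun i _ => ?_
    rw [gg, ← pow_mul, ← pow_mul, hg]
  obtain ⟨y, hy⟩ := h x h2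
  refine ⟨y, ?_⟩
  rw [gg, hg]
  exact hy

/-- case `p ∣ m`. -/
theorem cong_split {m' : ℕ} [NeZero m'] {A T : Matrix ι ι ℤ} {B S : Matrix κ κ ℤ}
    (hA : MatLT (p * m') Q A T) (hB : MatLT (p * m') Q B S) (hQ : GoodQ Q) (hm : Odd (p * m'))
    (hp : ¬ p ∣ m' * Q) (h : CongOver ℚ A B) (hHA : HM1 p (m' * Q) T) (hHB : HM1 p (m' * Q) S) :
    CongOver ℤ_[p] A B := by
  have : NeZero (p * m') := ⟨Nat.mul_ne_zero (Fact.out : p.Prime).ne_zero (NeZero.ne m')⟩
  have hpQ : p.Coprime Q := (Nat.Prime.coprime_iff_not_dvd Fact.out).2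
    fun hd => hp (dvd_mul_of_dvd_right hd _)
  let i1 := lamModule (Matrix.toLin' (S.map (Int.castRingHom ℤ_[p]))) (matLT_p hB).toLT.psi
  let i2 := lamModule (Matrix.toLin' (T.map (Int.castRingHom ℤ_[p]))) (matLT_p hA).toLT.psi
  obtain ⟨f, hf, hi⟩ := isog_lam (p := p) hA hB h
  have f1 : @Module.Finite (Lam (p * m') Q ℤ_[p]) (κ → ℤ_[p]) _ _ i1 := finite_mod _
  have f2 : @Module.Finite (Lam (p * m') Q ℤ_[p]) (ι → ℤ_[p]) _ _ i2 := finite_mod _
  obtain ⟨P, _, _, Q₀, _, _, a1, a2, a3, a4, ⟨e, he⟩, ⟨e', he'⟩⟩ :=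
    split_lam hp hpQ (κ → ℤ_[p]) (ι → ℤ_[p]) (tf_mod _) (hm1_mod _ hHB) (tf_mod _)
      (hm1_mod _ hHA) f hf hi
  exact cong_of_split (matLT_p hB) (matLT_p hA) hQ hm (loc_lam _ Q hQ) (normQuot_lam hp hpQ)
    (loc_lam m' Q hQ) (Nn_mem m' Q) e he e' he'

end glue

/-! ### the theorem -/

/-- P4.6a in the form used here. -/
def HM1P : Prop :=
  ∀ (L : List (ℕ × ℕ × ℤ)) (u : ℕ) (q : List ℕ), Cert L u → Aux u q → ∀ s j : ℕ,
    ∀ (p : ℕ) [Fact p.Prime] (m' : ℕ), 3 * u = p * m' →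
    ∀ T : Matrix (Idx (F L u q s j)) (Idx (F L u q s j)) ℤ,
      sysMat (F L u q s j) * T = (sysMat (F L u q s j))ᵀ → HM1 p (m' * q.prod) T

theorem locsq_of (hHM : HM1P) : P4LocsQ_780.LOCSQ := by
  intro L u q hC hA s i _ j _ hc p hp
  obtain ⟨hd1, T, hT1, -, hT3⟩ := P414_111.mono L u q hC hA s i
  obtain ⟨hd2, S, hS1, -, hS3⟩ := P414_111.mono L u q hC hA s j
  have hMA : MatLT (3 * u) q.prod (sysMat (F L u q s i)) T := ⟨hd1, hT1, hT3⟩
  have hMB : MatLT (3 * u) q.prod (sysMat (F L u q s j)) S := ⟨hd2, hS1, hS3⟩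
  have hQ := goodQ hA
  have hm := odd_m hC
  have hprime : p.Prime := hp.out
  have hm0 : NeZero (3 * u) := ⟨by have := hC.big; omega⟩
  have hQ0 : NeZero q.prod := ⟨by have := hQ.two; omega⟩
  by_cases h1 : p ∣ 3 * u
  · obtain ⟨m', hm'⟩ := h1
    have hm1 : NeZero m' := ⟨by
      intro h0
      rw [h0, mul_zero] at hm'
      exact hm0.out hm'⟩
    have h2 : ¬ p ∣ m' * q.prod := by
      intro h
      rcases hprime.dvd_mul.1 h with h3 | h3
      · apply not_sq_dvd_m hC hprime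
        rw [hm', pow_two]
        exact Nat.mul_dvd_mul_left p h3
      · exact not_dvd_Q hC hA hprime ⟨m', hm'⟩ h3
    have hHA := hHM L u q hC hA s i p m' hm' T hT1
    have hHB := hHM L u q hC hA s j p m' hm' S hS1
    rw [hm'] at hMA hMB hm
    exact cong_split hMA hMB hQ hm h2 hc hHA hHB
  · by_cases h2 : p ∣ q.prod
    · obtain ⟨Q', hQ'⟩ := h2
      have hQ1 : NeZero Q' := ⟨by
        intro h0
        rw [h0, mul_zero] at hQ'
        exact hQ0.out hQ'⟩
      have h3 : ¬ p ∣ 3 * u * Q' := by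
        intro h
        rcases hprime.dvd_mul.1 h with h4 | h4
        · exact h1 h4
        · apply not_sq_dvd_Q hA hprime
          rw [hQ', pow_two]
          exact Nat.mul_dvd_mul_left p h4
      rw [hQ'] at hMA hMB hQ
      exact cong_ram hMA hMB hQ hm h3 hc
    · refine cong_unram hMA hMB hQ hm ?_ hc
      intro h
      rcases hprime.dvd_mul.1 h with h4 | h4
      · exact h1 h4
      · exact h2 h4

end Crest.Agent.R267.P46f_484
end

-- ▼ part R267/P46h_484

/-!
# S0407, package P4.6a: `HM1P` (helper484)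

`ker N = im (T^k - 1)` over `ℤ_p` for the monodromy `T` of `F`.
-/

set_option autoImplicit false
set_option linter.unusedSectionVars false

namespace Crest.Agent.R267.P46h_484

open Polynomial Matrix Crest.Agent.R267.P46g_484 Crest.Agent.R267.P4Defs_780
  Crest.Agent.R267.P41_339
open scoped Kronecker

/-! ### the module `J → R[X]` with `γ = X^e G` -/

section Gam

variable {R : Type*} [CommRing R] {J : Type*} [Fintype J] [DecidableEq J]

/-- `X^e G`. -/
noncomputable def gam (e : ℕ) (G : Matrix J J R) : (J → R[X]) →ₗ[R[X]] (J → R[X]) :=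
  (X ^ e : R[X]) • Matrix.toLin' (G.map C)

theorem gam_apply (e : ℕ) (G : Matrix J J R) (x : J → R[X]) :
    gam e G x = (X ^ e : R[X]) • (G.map C *ᵥ x) := by
  simp [gam]

theorem gam_apply' (e : ℕ) (G : Matrix J J R) (x : J → R[X]) :
    gam e G x = G.map C *ᵥ ((X ^ e : R[X]) • x) := by
  rw [gam_apply, Matrix.mulVec_smul]

theorem gam_pow (e : ℕ) (G : Matrix J J R) (n : ℕ) :
    gam e G ^ n = gam (e * n) (G ^ n) := by
  unfold gam
  rw [_root_.smul_pow, ← pow_mul, ← Matrix.toLin'_pow]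
  congr 2
  exact (Matrix.map_pow G (C : R →+* R[X]) n).symm

theorem gam_pow_p {e p : ℕ} {G : Matrix J J R} (hG : G ^ p = 1) (x : J → R[X]) :
    (gam e G ^ p) x = (X ^ (e * p) : R[X]) • x := by
  rw [gam_pow, hG, gam_apply, Matrix.map_one _ (map_zero C) (map_one C), Matrix.one_mulVec]

theorem X_pow_sub_one_dvd {r n : ℕ} (h : r ∣ n) : (X ^ r - 1 : R[X]) ∣ X ^ n - 1 := by
  obtain ⟨t, rfl⟩ := h
  rw [pow_mul]
  simpa using sub_dvd_pow_sub_pow (X ^ r : R[X]) 1 t

theorem hp_W {e p r : ℕ} {G : Matrix J J R} (hG : G ^ p = 1) (hr : r ∣ e * p) (x : J → R[X]) :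
    (gam e G ^ p) x - x ∈ W (J → R[X]) (X ^ r - 1 : R[X]) := by
  obtain ⟨g, hg⟩ := X_pow_sub_one_dvd (R := R) hr
  refine mem_W.2 ⟨g • x, ?_⟩
  rw [gam_pow_p hG, smul_smul, ← hg, sub_smul, one_smul]

/-- componentwise filter. -/
noncomputable def filtV (d p : ℕ) : (J → R[X]) →+ (J → R[X]) where
  toFun x := fun j => filt R d p (x j)
  map_zero' := by ext1 j; simp
  map_add' x y := by ext1 j; simp

theorem filtV_mulVec (d p : ℕ) (M : Matrix J J R) (x : J → R[X]) :
    filtV d p (M.map C *ᵥ x) = M.map C *ᵥ filtV d p x := by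
  ext1 j
  change filt R d p (∑ i, C (M j i) * x i) = ∑ i, C (M j i) * filt R d p (x i)
  rw [map_sum]
  refine Finset.sum_congr rfl fun i _ => ?_
  rw [← smul_eq_C_mul, ← smul_eq_C_mul, map_smul]

theorem ct_hyp {d p e' : ℕ} (hd : 0 < d) (hp : p.Prime) (he : ¬ p ∣ e') {G : Matrix J J R}
    (hG : G ^ p = 1) :
    (∀ x ∈ W (J → R[X]) (X ^ (d * p) - 1 : R[X]),
      filtV d p x ∈ W (J → R[X]) (X ^ (d * p) - 1 : R[X])) ∧
    (∀ x : J → R[X], ∑ t ∈ Finset.range p,
      ((gam (d * e') G) ^ t) (filtV d p (((gam (d * e') G) ^ (p - t)) x)) - x ∈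
        W (J → R[X]) (X ^ (d * p) - 1 : R[X])) := by
  constructor
  · intro x hx
    obtain ⟨z, rfl⟩ := mem_W.1 hx
    refine mem_W.2 ⟨filtV d p z, ?_⟩
    ext1 j
    exact filt_X_pow_mul hd (z j)
  · intro x
    have h1 : ∀ t ∈ Finset.range p,
        ((gam (d * e') G) ^ t) (filtV d p (((gam (d * e') G) ^ (p - t)) x)) =
        fun j => (X ^ (d * e' * t) * filt R d p (X ^ (d * e' * (p - t)) * x j) : R[X]) := by
      intro t ht
      have ht' : t < p := Finset.mem_range.1 ht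
      rw [gam_pow, gam_pow, gam_apply' (d * e' * (p - t)), gam_apply (d * e' * t), filtV_mulVec,
        Matrix.mulVec_mulVec, ← Matrix.map_mul, ← pow_add,
        show t + (p - t) = p by omega, hG, Matrix.map_one _ (map_zero C) (map_one C),
        Matrix.one_mulVec]
      rfl
    rw [Finset.sum_congr rfl h1]
    have h2 : (∑ t ∈ Finset.range p, fun j : J =>
        (X ^ (d * e' * t) * filt R d p (X ^ (d * e' * (p - t)) * x j) : R[X])) =
        (X ^ (d * e' * p) : R[X]) • x := by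
      ext1 j
      rw [Finset.sum_apply]
      exact filt_sum hd hp he (x j)
    rw [h2]
    obtain ⟨g, hg⟩ := X_pow_sub_one_dvd (R := R) (r := d * p) (n := d * e' * p)
      ⟨e', by ring⟩
    refine mem_W.2 ⟨g • x, ?_⟩
    rw [smul_smul, ← hg, sub_smul, one_smul]

theorem split_r {r e p : ℕ} (hr : 0 < r) (hp : p.Prime) (h1 : r ∣ e * p) (h2 : ¬ r ∣ e) :
    ∃ d e', 0 < d ∧ r = d * p ∧ e = d * e' ∧ ¬ p ∣ e' := by
  have hg : 0 < Nat.gcd r e := Nat.gcd_pos_of_pos_left _ hr
  obtain ⟨r', hr'⟩ := Nat.gcd_dvd_left r e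
  obtain ⟨e', he'⟩ := Nat.gcd_dvd_right r e
  have hco : Nat.Coprime r' e' := by
    have h := Nat.coprime_div_gcd_div_gcd hg
    have h3 : r / Nat.gcd r e = r' := by
      conv_lhs => rw [hr']
      rw [← hr']
      exact Nat.div_eq_of_eq_mul_right hg hr'
    have h4 : e / Nat.gcd r e = e' := Nat.div_eq_of_eq_mul_right hg he'
    rwa [h3, h4] at h
  have h5 : r' ∣ p := by
    have h6 : Nat.gcd r e * r' ∣ Nat.gcd r e * (e' * p) := by
      rw [← hr', ← mul_assoc, ← he']; exact h1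
    have h7 := Nat.dvd_of_mul_dvd_mul_left hg h6
    exact hco.dvd_of_dvd_mul_left h7
  rcases (Nat.dvd_prime hp).1 h5 with h6 | h6
  · exfalso
    apply h2
    rw [h6, mul_one] at hr'
    rw [hr']
    exact Nat.gcd_dvd_right r e
  · refine ⟨Nat.gcd r e, e', hg, ?_, he', ?_⟩
    · rw [← h6]; exact hr'
    · rw [h6] at hco
      exact hp.coprime_iff_not_dvd.1 hco

theorem base {r e p : ℕ} (hr : 0 < r) (hp : p.Prime) (h1 : r ∣ e * p) (h2 : ¬ r ∣ e)
    {G : Matrix J J R} (hG : G ^ p = 1) :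
    E0 p (X ^ r - 1 : R[X]) (gam e G) ∧ E1 p (X ^ r - 1 : R[X]) (gam e G) := by
  obtain ⟨d, e', hd, rfl, rfl, he⟩ := split_r hr hp h1 h2
  obtain ⟨hA, hB⟩ := ct_hyp (R := R) hd hp he hG
  exact ⟨ct0 _ hA hB, ct1 _ hA hB⟩

end Gam

/-! ### matrices -/

section ME

variable {R : Type*} [CommRing R] {J : Type*} [Fintype J] [DecidableEq J]

/-- `Ĥ^{-1} = 0` for a matrix. -/
def ME0 (p : ℕ) (A : Matrix J J R) : Prop :=
  ∀ x : J → R, ∑ i ∈ Finset.range p, (A ^ i) *ᵥ x = 0 → ∃ y, x = A *ᵥ y - y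

/-- `Ĥ^0 = 0` for a matrix. -/
def ME1 (p : ℕ) (A : Matrix J J R) : Prop :=
  ∀ x : J → R, A *ᵥ x = x → ∃ y, x = ∑ i ∈ Finset.range p, (A ^ i) *ᵥ y

/-- both, by parity. -/
def ME (b : Bool) (p : ℕ) (A : Matrix J J R) : Prop := if b then ME1 p A else ME0 p A

/-- a presentation of the module of `A`. -/
structure Pres (V : Type*) [AddCommGroup V] [Module R[X] V] (γ : V →ₗ[R[X]] V) (f : R[X])
    (A : Matrix J J R) where
  /-- the map -/
  toHom : V →+ (J → R)
  surj : ∀ y, ∃ x, toHom x = y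
  ker : ∀ x, toHom x = 0 ↔ x ∈ W V f
  comm : ∀ x, toHom (γ x) = A *ᵥ toHom x

variable {V : Type*} [AddCommGroup V] [Module R[X] V] {γ : V →ₗ[R[X]] V} {f : R[X]}
  {A : Matrix J J R}

theorem Pres.comm_pow (P : Pres V γ f A) (n : ℕ) (x : V) :
    P.toHom ((γ ^ n) x) = (A ^ n) *ᵥ P.toHom x := by
  induction n with
  | zero => simp
  | succ n ih =>
    rw [pow_succ', Module.End.mul_apply, P.comm, ih, Matrix.mulVec_mulVec, ← pow_succ']

theorem Pres.comm_Nm (P : Pres V γ f A) (p : ℕ) (x : V) :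
    P.toHom (Nm p γ x) = ∑ i ∈ Finset.range p, (A ^ i) *ᵥ P.toHom x := by
  rw [Nm_apply, map_sum]
  exact Finset.sum_congr rfl fun i _ => P.comm_pow i x

theorem Pres.e0 (P : Pres V γ f A) {p : ℕ} : E0 p f γ ↔ ME0 p A := by
  constructor
  · intro h x hx
    obtain ⟨v, rfl⟩ := P.surj x
    rw [← P.comm_Nm, P.ker] at hx
    obtain ⟨y, hy⟩ := h v hx
    refine ⟨P.toHom y, ?_⟩
    rw [← P.ker, map_sub, map_sub, P.comm, sub_eq_zero] at hy
    exact hy
  · intro h v hv
    rw [← P.ker, P.comm_Nm] at hv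
    obtain ⟨y, hy⟩ := h _ hv
    obtain ⟨w, rfl⟩ := P.surj y
    refine ⟨w, ?_⟩
    rw [← P.ker, map_sub, map_sub, P.comm, sub_eq_zero]
    exact hy

theorem Pres.e1 (P : Pres V γ f A) {p : ℕ} : E1 p f γ ↔ ME1 p A := by
  constructor
  · intro h x hx
    obtain ⟨v, rfl⟩ := P.surj x
    rw [← P.comm, ← sub_eq_zero, ← map_sub, P.ker] at hx
    obtain ⟨y, hy⟩ := h v hx
    refine ⟨P.toHom y, ?_⟩
    rw [← P.ker, map_sub, P.comm_Nm, sub_eq_zero] at hy
    exact hy
  · intro h v hv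
    rw [← P.ker, map_sub, P.comm, sub_eq_zero] at hv
    obtain ⟨y, hy⟩ := h _ hv
    obtain ⟨w, rfl⟩ := P.surj y
    refine ⟨w, ?_⟩
    rw [← P.ker, map_sub, P.comm_Nm, sub_eq_zero]
    exact hy

end ME

/-! ### one chain -/

section Chain

variable {R : Type*} [CommRing R] {J : Type*} [Fintype J] [DecidableEq J]

/-- the companion matrix over `R`. -/
noncomputable def Cr (R : Type*) [CommRing R] (c : List ℕ) : Matrix (Fin (mu c)) (Fin (mu c)) R :=
  (compMat c).map (Int.castRingHom R)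

/-- `phi` over `R`. -/
noncomputable def phr (R : Type*) [CommRing R] (c : List ℕ) : R[X] :=
  (phi c).map (Int.castRingHom R)

theorem phr_monic {c : List ℕ} (h : Good c) : (phr R c).Monic := (basic h).monic.map _

theorem Cr_pow (c : List ℕ) (n : ℕ) : Cr R c ^ n = (compMat c ^ n).map (Int.castRingHom R) :=
  (Matrix.map_pow (compMat c) (Int.castRingHom R) n).symm

theorem aeval_phr {c : List ℕ} (h : Good c) : aeval (Cr R c) (phr R c) = 0 := by
  have h1 : ∀ g : ℤ[X], aeval (Cr R c) (g.map (Int.castRingHom R)) =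
      (aeval (compMat c) g).map (Int.castRingHom R) := by
    intro g
    induction g using Polynomial.induction_on' with
    | add g g' hg hg' =>
      rw [Polynomial.map_add, map_add, map_add, hg, hg',
        Matrix.map_add _ (fun a b => map_add (Int.castRingHom R) a b)]
    | monomial n a =>
      rw [Polynomial.map_monomial, aeval_monomial, aeval_monomial, Cr_pow]
      ext i j
      rw [← Algebra.smul_def, ← Algebra.smul_def, Matrix.smul_apply, Matrix.map_apply,
        Matrix.map_apply, Matrix.smul_apply, smul_eq_mul, smul_eq_mul, map_mul]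
  unfold phr
  rw [h1, comp_phi h]
  ext i j
  simp

variable (R) in
/-- first basis vector. -/
def b0 {c : List ℕ} (h0 : 0 < mu c) : Fin (mu c) → R := Pi.single ⟨0, h0⟩ 1

theorem Cr_pow_b0 {c : List ℕ} (h0 : 0 < mu c) {n : ℕ} (hn : n < mu c) :
    (Cr R c ^ n) *ᵥ b0 R h0 = Pi.single (⟨n, hn⟩ : Fin (mu c)) 1 := by
  have h1 := comp_pow_mulVec_zero h0 hn
  rw [Cr_pow]
  ext i
  have h2 := congrArg (Int.castRingHom R) (congrFun h1 i)
  rw [Matrix.mulVec_single_one, Matrix.col_apply] at h2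
  unfold b0
  rw [Matrix.mulVec_single_one, Matrix.col_apply, Matrix.map_apply, h2]
  by_cases hi : i = (⟨n, hn⟩ : Fin (mu c))
  · subst hi; simp
  · rw [Pi.single_eq_of_ne hi, Pi.single_eq_of_ne hi, map_zero]

/-- value of a polynomial of small degree. -/
theorem aeval_b0 {c : List ℕ} (h0 : 0 < mu c) {g : R[X]} (hg : g.natDegree < mu c)
    (i : Fin (mu c)) : (aeval (Cr R c) g *ᵥ b0 R h0) i = g.coeff i := by
  rw [aeval_eq_sum_range' hg, Matrix.sum_mulVec, Finset.sum_apply]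
  rw [Finset.sum_eq_single (i : ℕ)]
  · rw [Matrix.smul_mulVec, Cr_pow_b0 h0 i.2, Pi.smul_apply, Pi.single_eq_same, smul_eq_mul,
      mul_one]
  · intro n hn hne
    have hn' := Finset.mem_range.1 hn
    rw [Matrix.smul_mulVec, Cr_pow_b0 h0 hn', Pi.smul_apply, Pi.single_eq_of_ne, smul_zero]
    intro e
    exact hne (congrArg Fin.val e).symm
  · intro h
    exact absurd (Finset.mem_range.2 i.2) h

/-- the evaluation. -/
noncomputable def psi {c : List ℕ} (h0 : 0 < mu c) (J : Type*) :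
    (J → R[X]) →+ (Fin (mu c) × J → R) where
  toFun x := fun ij => (aeval (Cr R c) (x ij.2) *ᵥ b0 R h0) ij.1
  map_zero' := by ext1 ij; simp
  map_add' x y := by
    ext1 ij
    simp [Matrix.add_mulVec]

theorem psi_apply {c : List ℕ} (h0 : 0 < mu c) (x : J → R[X]) (ij : Fin (mu c) × J) :
    psi h0 J x ij = (aeval (Cr R c) (x ij.2) *ᵥ b0 R h0) ij.1 := rfl

theorem psi_surj {c : List ℕ} (h0 : 0 < mu c) (y : Fin (mu c) × J → R) :
    ∃ x, psi h0 J x = y := by
  refine ⟨fun j => ∑ i : Fin (mu c), monomial (i : ℕ) (y (i, j)), ?_⟩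
  ext1 ⟨i, j⟩
  rw [psi_apply]
  simp only
  rw [aeval_b0 h0]
  · rw [finsetSum_coeff, Finset.sum_eq_single i]
    · rw [coeff_monomial, if_pos rfl]
    · intro i' _ hne
      rw [coeff_monomial, if_neg]
      intro e; exact hne (Fin.ext e)
    · intro h; exact absurd (Finset.mem_univ _) h
  · refine lt_of_le_of_lt (natDegree_sum_le_of_forall_le (n := mu c - 1) _ _ ?_) (by omega)
    intro i' _
    refine (natDegree_monomial_le _).trans ?_
    have := i'.2
    omega

theorem psi_ker {c : List ℕ} (h : Good c) (h0 : 0 < mu c) (x : J → R[X]) :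
    psi h0 J x = 0 ↔ x ∈ W (J → R[X]) (phr R c) := by
  nontriviality R
  constructor
  · intro hx
    have hm := phr_monic (R := R) h
    refine mem_W.2 ⟨fun j => x j /ₘ phr R c, ?_⟩
    ext1 j
    have h1 := modByMonic_add_div (x j) (phr R c)
    have h2 : x j %ₘ phr R c = 0 := by
      have hdeg : (x j %ₘ phr R c).natDegree < mu c := by
        have h3 : (phr R c).natDegree = mu c := by
          unfold phr
          rw [(basic h).monic.natDegree_map, (basic h).natDegree]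
        rw [← h3]
        refine natDegree_modByMonic_lt _ hm ?_
        intro h4
        rw [h4, natDegree_one] at h3
        omega
      ext n
      rcases lt_or_ge n (mu c) with hn | hn
      · have h5 := congrFun hx (⟨n, hn⟩, j)
        rw [psi_apply] at h5
        simp only at h5
        rw [← h1, map_add, map_mul, aeval_phr h, zero_mul, add_zero, aeval_b0 h0 hdeg] at h5
        simpa using h5
      · rw [coeff_eq_zero_of_natDegree_lt (lt_of_lt_of_le hdeg hn), coeff_zero]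
    rw [h2, zero_add] at h1
    exact h1.symm
  · intro hx
    obtain ⟨z, rfl⟩ := mem_W.1 hx
    ext1 ⟨i, j⟩
    rw [psi_apply]
    simp only [Pi.smul_apply, smul_eq_mul]
    rw [map_mul, aeval_phr h, zero_mul, Matrix.zero_mulVec]
    rfl

theorem psi_comm {c : List ℕ} (h0 : 0 < mu c) (e : ℕ) (G : Matrix J J R) (x : J → R[X]) :
    psi h0 J (gam e G x) = ((Cr R c ^ e) ⊗ₖ G) *ᵥ psi h0 J x := by
  ext1 ⟨i, j⟩
  rw [psi_apply]
  simp only
  rw [gam_apply]
  have h1 : ((X ^ e : R[X]) • (G.map C *ᵥ x)) j = ∑ j', X ^ e * (C (G j j') * x j') := by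
    rw [Pi.smul_apply, smul_eq_mul, Matrix.mulVec, dotProduct, Finset.mul_sum]
    rfl
  rw [h1, map_sum, Matrix.sum_mulVec, Finset.sum_apply, Matrix.mulVec, dotProduct,
    Fintype.sum_prod_type, Finset.sum_comm]
  refine Finset.sum_congr rfl fun j' _ => ?_
  rw [← smul_eq_C_mul, mul_smul_comm, map_smul, map_mul, map_pow, aeval_X, Matrix.smul_mulVec,
    ← Matrix.mulVec_mulVec, Pi.smul_apply, smul_eq_mul, Matrix.mulVec, dotProduct,
    Finset.mul_sum]
  refine Finset.sum_congr rfl fun i' _ => ?_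
  rw [psi_apply, Matrix.kroneckerMap_apply]
  ring

/-- the presentation of `C^e ⊗ G`. -/
noncomputable def pres {c : List ℕ} (h : Good c) (h0 : 0 < mu c) (e : ℕ) (G : Matrix J J R) :
    Pres (J → R[X]) (gam e G) (phr R c) ((Cr R c ^ e) ⊗ₖ G) where
  toHom := psi h0 J
  surj := psi_surj h0
  ker := psi_ker h h0
  comm := psi_comm h0 e G

theorem monic_cancel {f : R[X]} (hf : f.Monic) (v : J → R[X]) (h : f • v = 0) : v = 0 := by
  ext1 j
  have h1 := congrFun h j
  rw [Pi.smul_apply, smul_eq_mul, Pi.zero_apply] at h1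
  refine hf.isRegular.left ?_
  change f * v j = f * 0
  rw [h1, mul_zero]

theorem kron_pow' {m n : Type*} [Fintype m] [DecidableEq m] [Fintype n] [DecidableEq n]
    (A : Matrix m m R) (B : Matrix n n R) (k : ℕ) : (A ⊗ₖ B) ^ k = (A ^ k) ⊗ₖ (B ^ k) := by
  induction k with
  | zero => simp
  | succ k ih => rw [pow_succ, pow_succ, pow_succ, ih, Matrix.mul_kronecker_mul]

theorem one_kron_mulVec {m n : Type*} [Fintype m] [DecidableEq m] [Fintype n] [DecidableEq n]
    (B : Matrix n n R) (x : m × n → R) (i : m) (j : n) :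
    (((1 : Matrix m m R) ⊗ₖ B) *ᵥ x) (i, j) = (B *ᵥ fun j' => x (i, j')) j := by
  rw [Matrix.mulVec, dotProduct, Fintype.sum_prod_type, Finset.sum_eq_single i]
  · rw [Matrix.mulVec, dotProduct]
    refine Finset.sum_congr rfl fun j' _ => ?_
    rw [Matrix.kroneckerMap_apply, Matrix.one_apply_eq, one_mul]
  · intro i' _ hne
    refine Finset.sum_eq_zero fun j' _ => ?_
    rw [Matrix.kroneckerMap_apply, Matrix.one_apply_ne (Ne.symm hne), zero_mul, zero_mul]
  · intro h; exact absurd (Finset.mem_univ _) h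

theorem ME_one {m : Type*} [Fintype m] [DecidableEq m] {b : Bool} {p : ℕ} {G : Matrix J J R}
    (h : ME b p G) : ME b p ((1 : Matrix m m R) ⊗ₖ G) := by
  have hpow : ∀ n, ((1 : Matrix m m R) ⊗ₖ G) ^ n = (1 : Matrix m m R) ⊗ₖ (G ^ n) := by
    intro n
    rw [kron_pow', one_pow]
  cases b with
  | false =>
    change ME0 p _
    change ME0 p G at h
    intro x hx
    have h1 : ∀ i : m, ∃ y : J → R, (fun j => x (i, j)) = G *ᵥ y - y := by
      intro i
      apply h
      ext1 j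
      have h2 := congrFun hx (i, j)
      rw [Finset.sum_apply] at h2 ⊢
      rw [Pi.zero_apply] at h2 ⊢
      rw [← h2]
      refine Finset.sum_congr rfl fun n _ => ?_
      rw [hpow, one_kron_mulVec]
    choose y hy using h1
    refine ⟨fun ij => y ij.1 ij.2, ?_⟩
    ext1 ⟨i, j⟩
    have h3 := congrFun (hy i) j
    rw [Pi.sub_apply, one_kron_mulVec]
    exact h3
  | true =>
    change ME1 p _
    change ME1 p G at h
    intro x hx
    have h1 : ∀ i : m, ∃ y : J → R, (fun j => x (i, j)) =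
        ∑ n ∈ Finset.range p, (G ^ n) *ᵥ y := by
      intro i
      apply h
      ext1 j
      have h2 := congrFun hx (i, j)
      rw [one_kron_mulVec] at h2
      exact h2
    choose y hy using h1
    refine ⟨fun ij => y ij.1 ij.2, ?_⟩
    ext1 ⟨i, j⟩
    have h3 := congrFun (hy i) j
    rw [Finset.sum_apply] at h3 ⊢
    refine h3.trans ?_
    refine Finset.sum_congr rfl fun n _ => ?_
    rw [hpow, one_kron_mulVec]

theorem Cr_pow_one {c : List ℕ} (h : Good c) {e : ℕ} (he : c.prod ∣ e) : Cr R c ^ e = 1 := by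
  obtain ⟨t, rfl⟩ := he
  rw [Cr_pow, pow_mul, comp_pow_prod h, one_pow]
  exact Matrix.map_one _ (map_zero _) (map_one _)

theorem phr_mul {a : ℕ} {l : List ℕ} (h : Good (a :: l)) :
    phr R (a :: l) * phr R l = X ^ (a * l.prod) - 1 := by
  unfold phr
  rw [← Polynomial.map_mul, phi_mul h]
  simp

/-- one shift. -/
theorem ME_shift {a : ℕ} {l : List ℕ} (h : Good (a :: l)) (h0 : 0 < mu (a :: l))
    (h1 : 0 < mu l) {p e : ℕ} (hp : p.Prime) (hd : a * l.prod ∣ e * p) (hn : ¬ a * l.prod ∣ e)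
    {G : Matrix J J R} (hG : G ^ p = 1) {b : Bool} (hb : ME (!b) p ((Cr R l ^ e) ⊗ₖ G)) :
    ME b p ((Cr R (a :: l) ^ e) ⊗ₖ G) := by
  have hr : 0 < a * l.prod := Nat.mul_pos h.head h.tail.prod_pos
  obtain ⟨hB0, hB1⟩ := base (R := R) hr hp hd hn hG
  have hW := hp_W (R := R) hG hd
  rw [← phr_mul h] at hB0 hB1 hW
  have hcan := monic_cancel (J := J) (phr_monic (R := R) h)
  cases b with
  | false =>
    change ME0 p _
    rw [← (pres h h0 e G).e0]
    change ME1 p _ at hb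
    rw [← (pres h.tail h1 e G).e1] at hb
    exact shift0 hcan hW hB0 hb
  | true =>
    change ME1 p _
    rw [← (pres h h0 e G).e1]
    change ME0 p _ at hb
    rw [← (pres h.tail h1 e G).e0] at hb
    exact shift1 hcan hW hB1 hb

/-- number of shifts modulo two. -/
def kap (e : ℕ) : List ℕ → Bool
  | [] => false
  | a :: l => if a * l.prod ∣ e then false else !kap e l

theorem ME_chain {p e : ℕ} (hp : p.Prime) {G : Matrix J J R} (hG : G ^ p = 1) :
    ∀ c : List ℕ, (∀ x ∈ c, 2 ≤ x) → c.prod ∣ e * p → ∀ b : Bool,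
      ME (xor b (kap e c)) p G → ME b p ((Cr R c ^ e) ⊗ₖ G)
  | [], _, _, b, hb => by
      rw [Cr_pow_one (by intro a ha; simp at ha) (by simp)]
      refine ME_one ?_
      simpa [kap] using hb
  | a :: l, h2, hd, b, hb => by
      have hg : Good (a :: l) := Good.of_two h2
      rw [List.prod_cons] at hd
      by_cases hdiv : a * l.prod ∣ e
      · rw [Cr_pow_one hg (by rwa [List.prod_cons])]
        refine ME_one ?_
        simpa [kap, hdiv] using hb
      · have h2' : ∀ x ∈ l, 2 ≤ x := fun x hx => h2 x (List.mem_cons_of_mem _ hx)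
        refine ME_shift hg (P411_61.mu_pos_of_two h2) (P411_61.mu_pos_of_two h2') hp hd hdiv hG ?_
        refine ME_chain hp hG l h2' ((dvd_mul_left _ _).trans hd) (!b) ?_
        have h3 : xor b (kap e (a :: l)) = xor (!b) (kap e l) := by
          rw [kap, if_neg hdiv]
          cases b <;> cases kap e l <;> rfl
        rwa [← h3]

end Chain

/-! ### the system -/

section Sys

variable {R : Type*} [CommRing R]

/-- the monodromy of a system over `R`. -/
noncomputable def Sr (R : Type*) [CommRing R] (S : List (List ℕ)) : Matrix (Idx S) (Idx S) R :=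
  (P45e_235.sysMono S).map (Int.castRingHom R)

theorem Sr_pow (S : List (List ℕ)) (n : ℕ) :
    Sr R S ^ n = (P45e_235.sysMono S ^ n).map (Int.castRingHom R) :=
  (Matrix.map_pow _ (Int.castRingHom R) n).symm

theorem monoMat_eq {c : List ℕ} (hc : c ≠ []) : P45e_235.monoMat c = compMat c ^ mu c.tail := by
  cases c with
  | nil => exact absurd rfl hc
  | cons a l => rfl

theorem Sr_cons_pow {c : List ℕ} (hc : c ≠ []) (S : List (List ℕ)) (k : ℕ) :
    Sr R (c :: S) ^ k =
      ((Cr R c ^ (mu c.tail * k)) ⊗ₖ (Sr R S ^ k) :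
        Matrix (Fin (mu c) × Idx S) (Fin (mu c) × Idx S) R) := by
  rw [Sr_pow, Sr_pow, Cr_pow, pow_mul, ← monoMat_eq hc]
  have h1 : P45e_235.sysMono (c :: S) ^ k =
      ((P45e_235.monoMat c ^ k) ⊗ₖ (P45e_235.sysMono S ^ k) :
        Matrix (Fin (mu c) × Idx S) (Fin (mu c) × Idx S) ℤ) :=
    P45e_235.kron_pow _ _ k
  rw [h1]
  ext ⟨i, j⟩ ⟨i', j'⟩
  exact map_mul (Int.castRingHom R) _ _

/-- number of shifts of a system modulo two. -/
def tot (k : ℕ) : List (List ℕ) → Bool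
  | [] => false
  | c :: S => xor (kap (mu c.tail * k) c) (tot k S)

theorem Sr_pow_one {p k : ℕ} {S : List (List ℕ)} (hS : ∀ c ∈ S, P411_61.OK (k * p) c) :
    (Sr R S ^ k) ^ p = 1 := by
  rw [← pow_mul, Sr_pow, P45e_235.sysMono_pow S]
  · exact Matrix.map_one _ (map_zero _) (map_one _)
  · intro c hc
    obtain ⟨hne, h2, t, ht⟩ := hS c hc
    rw [monoMat_eq hne, ← pow_mul, ht, pow_mul, comp_pow_prod (Good.of_two h2), one_pow]

theorem ME_sys {p k : ℕ} (hp : p.Prime) :
    ∀ S : List (List ℕ), (∀ c ∈ S, P411_61.OK (k * p) c) → ∀ b : Bool,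
      ME (xor b (tot k S)) p (1 : Matrix Unit Unit R) → ME b p (Sr R S ^ k)
  | [], _, b, hb => by
      have h1 : (Sr R [] ^ k) = (1 : Matrix Unit Unit R) := by
        rw [Sr_pow]
        have h2 : P45e_235.sysMono [] = 1 := rfl
        rw [h2, one_pow]
        exact Matrix.map_one _ (map_zero _) (map_one _)
      rw [tot, Bool.xor_false] at hb
      have h3 : ME b p (1 : Matrix (Idx []) (Idx []) R) := hb
      have h4 : (Sr R [] ^ k) = (1 : Matrix (Idx []) (Idx []) R) := h1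
      rw [h4]
      exact h3
  | c :: S, hS, b, hb => by
      have hc := hS c List.mem_cons_self
      have hS' : ∀ d ∈ S, P411_61.OK (k * p) d := fun d hd => hS d (List.mem_cons_of_mem _ hd)
      have h1 : ME b p ((Cr R c ^ (mu c.tail * k)) ⊗ₖ (Sr R S ^ k)) := by
        refine ME_chain hp (Sr_pow_one hS') c hc.two ?_ b ?_
        · rw [mul_assoc]; exact hc.dvd
        · refine ME_sys hp S hS' _ ?_
          rw [Bool.xor_assoc]
          exact hb
      rw [Sr_cons_pow hc.ne]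
      exact h1

theorem tot_append (k : ℕ) (S S' : List (List ℕ)) :
    tot k (S ++ S') = xor (tot k S) (tot k S') := by
  induction S with
  | nil => simp [tot]
  | cons c S ih => rw [List.cons_append, tot, tot, ih, Bool.xor_assoc]

theorem tot_rep (k n : ℕ) (S : List (List ℕ)) : tot k (rep (2 * n) S) = false := by
  induction n with
  | zero => rfl
  | succ n ih =>
    have h1 : rep (2 * (n + 1)) S = S ++ (S ++ rep (2 * n) S) := by
      unfold rep
      rw [show 2 * (n + 1) = 2 * n + 1 + 1 by ring, List.replicate_succ, List.flatten_cons,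
        List.replicate_succ, List.flatten_cons]
    rw [h1, tot_append, tot_append, ih]
    cases tot k S <;> rfl

theorem tot_single (k : ℕ) (q : List ℕ) (h : ∀ x ∈ q, x ∣ k) :
    tot k (q.map fun x => [x]) = false := by
  induction q with
  | nil => rfl
  | cons x q ih =>
    rw [List.map_cons, tot, ih fun y hy => h y (List.mem_cons_of_mem _ hy)]
    have h1 : x * ([] : List ℕ).prod ∣ mu ([x] : List ℕ).tail * k := by
      rw [List.prod_nil, mul_one]
      exact (h x List.mem_cons_self).mul_left _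
    rw [kap, if_pos h1]
    rfl

theorem tot_F {L : List (ℕ × ℕ × ℤ)} {u : ℕ} {q : List ℕ} (s j m' : ℕ) :
    tot (m' * q.prod) (F L u q s j) = false := by
  unfold F
  have h1 : ∀ x ∈ q, x ∣ m' * q.prod := fun x hx => (List.dvd_prod hx).mul_left _
  have e1 : 8 * (s - j) = 2 * (4 * (s - j)) := by ring
  have e2 : 8 * j = 2 * (4 * j) := by ring
  rw [tot_append, tot_append, tot_append, tot_append, tot_single _ q h1, e1, e2, tot_rep, tot_rep,
    show (8 : ℕ) = 2 * 4 by norm_num, tot_rep, tot_rep]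
  rfl

end Sys

/-! ### the result -/

theorem eq_sysMono {L : List (ℕ × ℕ × ℤ)} {u : ℕ} {q : List ℕ} (hC : Cert L u) (hA : Aux u q)
    (s j : ℕ) {T : Matrix (Idx (F L u q s j)) (Idx (F L u q s j)) ℤ}
    (hT : sysMat (F L u q s j) * T = (sysMat (F L u q s j))ᵀ) :
    T = P45e_235.sysMono (F L u q s j) := by
  have h1 := P45e_235.sys_det _ (P45e_235.good_F' hC hA s j)
  have h2 := P45e_235.transpose_F hC hA s j
  rw [h2] at hT
  have h3 : IsUnit (sysMat (F L u q s j)).det := by rw [h1]; exact isUnit_one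
  have h4 := congrArg (fun M => (sysMat (F L u q s j))⁻¹ * M) hT
  simp only [Matrix.nonsing_inv_mul_cancel_left _ _ h3] at h4
  exact h4

theorem ME0_unit (p : ℕ) [Fact p.Prime] : ME0 p (1 : Matrix Unit Unit ℤ_[p]) := by
  intro x hx
  refine ⟨0, ?_⟩
  have h1 : (p : ℤ_[p]) • x = 0 := by
    rw [← hx]
    simp only [one_pow, Matrix.one_mulVec, Finset.sum_const, Finset.card_range]
    ext1 i
    simp
  have hp : (p : ℤ_[p]) ≠ 0 := by exact_mod_cast (Fact.out : p.Prime).ne_zero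
  have h2 : x = 0 := (smul_eq_zero.1 h1).resolve_left hp
  rw [h2]
  simp

/-- P4.6a: the norm condition. -/
theorem hm1p : P46f_484.HM1P := by
  intro L u q hC hA s j p hp m' hm T hT
  have hT' := eq_sysMono hC hA s j hT
  subst hT'
  have hprime : p.Prime := Fact.out
  have hok : ∀ c ∈ F L u q s j, P411_61.OK (m' * q.prod * p) c := by
    intro c hc
    have h1 := P411_61.ok_F hC hA s j c hc
    have h2 : 3 * u * q.prod = m' * q.prod * p := by rw [hm]; ring
    rwa [h2] at h1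
  have h3 : ME false p (Sr ℤ_[p] (F L u q s j) ^ (m' * q.prod)) := by
    refine ME_sys hprime _ hok false ?_
    rw [tot_F]
    exact ME0_unit p
  exact h3

/-- P4.6 + P4.7, unconditional. -/
theorem locsq : P4LocsQ_780.LOCSQ := P46f_484.locsq_of hm1p

end Crest.Agent.R267.P46h_484
private theorem rz_951d0c446a : type_of% @_root_.Crest.Agent.R267.P46h_484.kap.eq_def := @_root_.Crest.Agent.R267.P46h_484.kap.eq_def -- L501
private theorem rz_70b8661e97 : type_of% @_root_.Crest.Agent.R267.P46h_484.kap.eq_1 := @_root_.Crest.Agent.R267.P46h_484.kap.eq_1 -- L501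
private theorem rz_bd3a5f574b : type_of% @_root_.Crest.Agent.R267.P46h_484.tot.eq_def := @_root_.Crest.Agent.R267.P46h_484.tot.eq_def -- L562
private theorem rz_702b7b5c05 : type_of% @_root_.Crest.Agent.R267.P46h_484.tot.eq_1 := @_root_.Crest.Agent.R267.P46h_484.tot.eq_1 -- L562
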