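import Mathlib
import Crest.Agent.R267.P4Defs_780
import Crest.Agent.R267.P41_339
import Crest.Agent.R267.P44a_148
import Crest.Agent.R267.P44b_148

-- ▼ part R267/P44c_148
section

/-!
# S0407, node P4.4 (helper148), part c: rational decomposition of the chain matrices, theorem
`types`.
-/

set_option autoImplicit false

namespace Crest.Agent.R267.P44c_148

open Matrix Module Polynomial Crest.Agent.R267.P4Defs_780 Crest.Agent.R267.P44a_148
  Crest.Agent.R267.P44b_148 Crest.Agent.R267.P41_339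

/-! ### complex conjugation on a cyclotomic field -/

/-- `ℚ(ζ_d)`, with its unique `ℚ`-algebra structure -/
def Cy (d : ℕ) : Type := CyclotomicField d ℚ

noncomputable instance (d : ℕ) : Field (Cy d) := inferInstanceAs (Field (CyclotomicField d ℚ))

instance (d : ℕ) : CharZero (Cy d) := inferInstanceAs (CharZero (CyclotomicField d ℚ))

instance (d : ℕ) [NeZero d] : IsCyclotomicExtension {d} ℚ (Cy d) := by
  have h : @IsCyclotomicExtension {d} ℚ (CyclotomicField d ℚ) _ _
    (CyclotomicField.algebra d ℚ) := inferInstance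
  have e : CyclotomicField.algebra d ℚ = (inferInstance : Algebra ℚ (Cy d)) :=
    Subsingleton.elim _ _
  rw [e] at h
  exact h

section Conj

variable (d : ℕ) [NeZero d]

/-- the chosen primitive root -/
noncomputable def zt : Cy d := IsCyclotomicExtension.zeta d ℚ (Cy d)

lemma zt_spec : IsPrimitiveRoot (zt d) d := IsCyclotomicExtension.zeta_spec d ℚ (Cy d)

lemma zt_ne : zt d ≠ 0 := (zt_spec d).ne_zero (NeZero.ne d)

instance : IsGalois ℚ (Cy d) := IsCyclotomicExtension.isGalois {d} ℚ _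

instance : FiniteDimensional ℚ (Cy d) :=
  IsCyclotomicExtension.finiteDimensional {d} ℚ _

lemma irr : Irreducible (cyclotomic d ℚ) := cyclotomic.irreducible_rat (NeZero.pos d)

/-- complex conjugation -/
noncomputable def cj : Cy d ≃ₐ[ℚ] Cy d :=
  IsCyclotomicExtension.fromZetaAut (zt_spec d).inv (irr d)

lemma cj_zt : cj d (zt d) = (zt d)⁻¹ := IsCyclotomicExtension.fromZetaAut_spec _ _

lemma cj_comm (s : Cy d ≃ₐ[ℚ] Cy d) (x : Cy d) :
    cj d (s x) = s (cj d x) := by
  have h : ((cj d : Cy d →ₐ[ℚ] Cy d).comp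
      (s : Cy d →ₐ[ℚ] Cy d)) =
      ((s : Cy d →ₐ[ℚ] Cy d).comp
      (cj d : Cy d →ₐ[ℚ] Cy d)) := by
    refine ((zt_spec d).powerBasis ℚ).algHom_ext ?_
    rw [IsPrimitiveRoot.powerBasis_gen]
    show cj d (s (zt d)) = s (cj d (zt d))
    have h1 : (s (zt d)) ^ d = 1 := by rw [← map_pow, (zt_spec d).pow_eq_one, map_one]
    obtain ⟨k, _, hk⟩ := (zt_spec d).eq_pow_of_pow_eq_one h1
    rw [cj_zt, map_inv₀, ← hk, map_pow, cj_zt, inv_pow]
  exact DFunLike.congr_fun h x

lemma trace_zt (G : ℂ → ℂ) (x : Cy d)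
    (h : ∀ φ : Cy d →ₐ[ℚ] ℂ, φ x = G (φ (zt d))) :
    ((Algebra.trace ℚ (Cy d) x : ℚ) : ℂ) = ∑ z ∈ primitiveRoots d ℂ, G z := by
  have h1 := trace_eq_sum_embeddings (K := ℚ) ℂ (x := x)
  rw [show ((Algebra.trace ℚ (Cy d) x : ℚ) : ℂ) =
    algebraMap ℚ ℂ (Algebra.trace ℚ (Cy d) x) from rfl, h1]
  rw [← Finset.sum_coe_sort (primitiveRoots d ℂ)]
  refine Fintype.sum_equiv ((zt_spec d).embeddingsEquivPrimitiveRoots ℂ (irr d)) _ _ fun φ => ?_
  rw [IsPrimitiveRoot.embeddingsEquivPrimitiveRoots_apply_coe]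
  exact h φ

end Conj

/-! ### chains -/

section Chain

variable {a : ℕ} {l : List ℕ}

/-- the multiplier -/
noncomputable def rh (a : ℕ) (l : List ℕ) (d : ℕ) [NeZero d] : Cy d :=
  aeval (zt d)⁻¹ (symb l) / ((a * l.prod : ℕ) : Cy d)

lemma cj_rh (h : Good (a :: l)) (d : ℕ) [NeZero d] :
    cj d (rh a l d) = ((-1) ^ (l.length + 1) * (zt d) ^ mu l) * rh a l d := by
  unfold rh
  have h1 : cj d (aeval (zt d)⁻¹ (symb l)) = aeval (zt d) (symb l) := by
    have h2 := Polynomial.aeval_algHom_apply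
      ((cj d : Cy d →ₐ[ℚ] Cy d).restrictScalars ℤ)
      (zt d)⁻¹ (symb l)
    have h3 : (cj d : Cy d →ₐ[ℚ] Cy d).restrictScalars ℤ
      ((zt d)⁻¹) = zt d := by
      show cj d ((zt d)⁻¹) = zt d
      rw [map_inv₀, cj_zt, inv_inv]
    rw [h3] at h2
    exact h2.symm
  rw [map_div₀, map_natCast, h1]
  have h4 := symb_inv (K := Cy d) h.tail (zt_ne d)
  have h5 : ((-1 : Cy d) ^ (l.length + 1)) * (-1) ^ (l.length + 1) = 1 := by
    rw [← mul_pow]; simp
  rw [mul_div_assoc']
  congr 1
  generalize ((-1 : Cy d) ^ (l.length + 1)) = e at h4 h5 ⊢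
  linear_combination (-e) * h4 - (aeval (zt d) (symb l)) * h5

lemma eps_pow (l : List ℕ) (d : ℕ) [NeZero d] :
    ((-1) ^ (l.length + 1) * (zt d) ^ mu l : Cy d) ^ (2 * d) = 1 := by
  have h1 : ((-1 : Cy d) ^ (l.length + 1)) ^ (2 * d) = 1 := by
    rw [← pow_mul, mul_comm, mul_assoc, pow_mul]; simp
  have h2 : ((zt d) ^ mu l) ^ (2 * d) = 1 := by
    rw [← pow_mul, mul_comm (mu l), mul_comm 2, mul_assoc, pow_mul, (zt_spec d).pow_eq_one, one_pow]
  rw [mul_pow, h1, h2, one_mul]

/-- chain matrix as a sum of traces -/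
lemma chain_trace (h : Good (a :: l)) (i j : Fin (mu (a :: l))) :
    (chainMat (a :: l) i j : ℚ) = ∑ d ∈ (a * l.prod).divisors.attach,
      haveI : NeZero d.1 := ⟨(Nat.pos_of_mem_divisors d.2).ne'⟩
      Algebra.trace ℚ (Cy d.1)
        (rh a l d.1 * cj d.1 ((zt d.1) ^ (i : ℕ)) * (zt d.1) ^ (j : ℕ)) := by
  classical
  have hr : 0 < a * l.prod := Nat.mul_pos h.head h.tail.prod_pos
  have hrC : ((a * l.prod : ℕ) : ℂ) ≠ 0 := by exact_mod_cast hr.ne'
  have hζ := prim h
  set ζ := Complex.exp (2 * Real.pi * Complex.I / ((a * l.prod : ℕ) : ℂ)) with hζdef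
  let G : ℂ → ℂ := fun z => aeval z⁻¹ (symb l) / ((a * l.prod : ℕ) : ℂ) * (z⁻¹) ^ (i : ℕ) *
    z ^ (j : ℕ)
  have h1 : ((chainMat (a :: l) i j : ℤ) : ℂ) = ∑ z ∈ nthRootsFinset (a * l.prod) (1 : ℂ), G z := by
    have e0 : nthRootsFinset (a * l.prod) (1 : ℂ) =
        (Finset.range (a * l.prod)).image (fun k => ζ ^ k) := by
      symm
      apply Finset.eq_of_subset_of_card_le
      · intro z hz
        obtain ⟨k, _, rfl⟩ := Finset.mem_image.1 hz
        rw [mem_nthRootsFinset hr, ← pow_mul, mul_comm, pow_mul, hζ.pow_eq_one, one_pow]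
      · rw [hζ.card_nthRootsFinset, Finset.card_image_of_injOn, Finset.card_range]
        intro k hk k' hk' hkk
        exact hζ.pow_inj (Finset.mem_range.1 hk) (Finset.mem_range.1 hk') hkk
    rw [e0, Finset.sum_image]
    · apply mul_left_cancel₀ hrC
      rw [chainMat_dft h hζ, Finset.mul_sum]
      refine Finset.sum_congr rfl fun k _ => ?_
      simp only [G]
      rw [inv_pow]
      field_simp
    · intro k hk k' hk' hkk
      exact hζ.pow_inj (Finset.mem_range.1 hk) (Finset.mem_range.1 hk') hkk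
  have h2 : ((chainMat (a :: l) i j : ℤ) : ℂ) = ∑ d ∈ (a * l.prod).divisors,
      ∑ z ∈ primitiveRoots d ℂ, G z := by
    rw [h1, IsPrimitiveRoot.nthRoots_one_eq_biUnion_primitiveRoots, Finset.sum_biUnion]
    intro x _ y _ hxy
    exact IsPrimitiveRoot.disjoint hxy
  have h3 : ((chainMat (a :: l) i j : ℚ) : ℂ) = (((∑ d ∈ (a * l.prod).divisors.attach,
      haveI : NeZero d.1 := ⟨(Nat.pos_of_mem_divisors d.2).ne'⟩
      Algebra.trace ℚ (Cy d.1)
        (rh a l d.1 * cj d.1 ((zt d.1) ^ (i : ℕ)) * (zt d.1) ^ (j : ℕ))) : ℚ) : ℂ) := by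
    rw [Rat.cast_intCast, h2, ← Finset.sum_attach, Rat.cast_sum]
    refine Finset.sum_congr rfl fun d _ => ?_
    have : NeZero d.1 := ⟨(Nat.pos_of_mem_divisors d.2).ne'⟩
    symm
    apply trace_zt
    intro φ
    simp only [G, rh]
    rw [map_mul, map_mul, map_div₀, map_natCast, map_pow, map_pow, map_pow, cj_zt, map_inv₀]
    congr 3
    have := Polynomial.aeval_algHom_apply (φ.restrictScalars ℤ) (zt d.1)⁻¹ (symb l)
    rw [AlgHom.restrictScalars_apply, AlgHom.restrictScalars_apply, map_inv₀] at this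
    exact this.symm
  exact_mod_cast h3

/-- the divisors which occur in a chain -/
noncomputable def Dv (a : ℕ) (l : List ℕ) : Finset ℕ := by
  classical
  exact (a * l.prod).divisors.filter fun d => ∃ h : 0 < d,
    haveI : NeZero d := ⟨h.ne'⟩
    rh a l d ≠ 0

instance instNZ (d : {d // d ∈ Dv a l}) : NeZero d.1 := by
  classical
  have h := d.2
  unfold Dv at h
  obtain ⟨h1, _⟩ := (Finset.mem_filter.1 h).2
  exact ⟨h1.ne'⟩

lemma Dv_dvd (d : {d // d ∈ Dv a l}) : d.1 ∣ a * l.prod := by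
  classical
  have h := d.2
  unfold Dv at h
  exact Nat.dvd_of_mem_divisors (Finset.mem_filter.1 h).1

lemma Dv_ne (d : {d // d ∈ Dv a l}) : rh a l d.1 ≠ 0 := by
  classical
  have h := d.2
  unfold Dv at h
  obtain ⟨h1, h2⟩ := (Finset.mem_filter.1 h).2
  exact h2

lemma chain_trace' (h : Good (a :: l)) (i j : Fin (mu (a :: l))) :
    (chainMat (a :: l) i j : ℚ) = ∑ d : {d // d ∈ Dv a l},
      Algebra.trace ℚ (Cy d.1)
        (rh a l d.1 * cj d.1 ((zt d.1) ^ (i : ℕ)) * (zt d.1) ^ (j : ℕ)) := by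
  classical
  rw [chain_trace h]
  let f : ℕ → ℚ := fun d => if hd : 0 < d then
    haveI : NeZero d := ⟨hd.ne'⟩
    Algebra.trace ℚ (Cy d) (rh a l d * cj d ((zt d) ^ (i : ℕ)) * (zt d) ^ (j : ℕ)) else 0
  have e1 : ∀ d ∈ (a * l.prod).divisors.attach,
      (haveI : NeZero d.1 := ⟨(Nat.pos_of_mem_divisors d.2).ne'⟩
      Algebra.trace ℚ (Cy d.1)
        (rh a l d.1 * cj d.1 ((zt d.1) ^ (i : ℕ)) * (zt d.1) ^ (j : ℕ))) = f d.1 := by
    intro d _
    simp only [f]
    rw [dif_pos (Nat.pos_of_mem_divisors d.2)]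
  rw [Finset.sum_congr rfl e1, Finset.sum_attach _ f]
  have e2 : ∀ d : {d // d ∈ Dv a l}, Algebra.trace ℚ (Cy d.1)
        (rh a l d.1 * cj d.1 ((zt d.1) ^ (i : ℕ)) * (zt d.1) ^ (j : ℕ)) = f d.1 := by
    intro d
    simp only [f]
    rw [dif_pos (NeZero.pos d.1)]
  rw [Finset.sum_congr rfl fun d _ => e2 d, Finset.sum_coe_sort (Dv a l) f]
  symm
  refine Finset.sum_subset ?_ ?_
  · intro d hd
    unfold Dv at hd
    exact (Finset.mem_filter.1 hd).1
  · intro d hd hd'
    have h0 := Nat.pos_of_mem_divisors hd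
    simp only [f]
    rw [dif_pos h0]
    have h1 : @rh a l d ⟨h0.ne'⟩ = 0 := by
      by_contra h2
      apply hd'
      unfold Dv
      exact Finset.mem_filter.2 ⟨hd, h0, h2⟩
    rw [h1, zero_mul, zero_mul, map_zero]

lemma finrank_Cy (d : ℕ) [NeZero d] : finrank ℚ (Cy d) = d.totient :=
  IsCyclotomicExtension.finrank (Cy d) (irr d)

lemma card_Dv (h : Good (a :: l)) : ∑ d : {d // d ∈ Dv a l}, finrank ℚ (Cy d.1) ≤
    mu (a :: l) := by
  classical
  have hr : 0 < a * l.prod := Nat.mul_pos h.head h.tail.prod_pos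
  have h1 : ∑ d : {d // d ∈ Dv a l}, finrank ℚ (Cy d.1) = ∑ d ∈ Dv a l, d.totient := by
    rw [← Finset.sum_coe_sort (Dv a l) Nat.totient]
    refine Finset.sum_congr rfl ?_
    intro d _
    exact finrank_Cy d.1
  have hdvd : ∏ d ∈ Dv a l, cyclotomic d ℚ ∣ (phi (a :: l)).map (Int.castRingHom ℚ) := by
    apply Finset.prod_dvd_of_coprime
    · intro d _ d' _ hdd
      exact cyclotomic.isCoprime_rat hdd
    · intro d hd
      have hne := Dv_ne ⟨d, hd⟩
      have hdv := Dv_dvd ⟨d, hd⟩
      have : NeZero d := instNZ ⟨d, hd⟩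
      rw [cyclotomic_eq_minpoly_rat (zt_spec d) (NeZero.pos d)]
      apply minpoly.dvd
      have h2 : aeval (zt d)⁻¹ (phi l) ≠ 0 := by
        intro h3
        apply hne
        show aeval (zt d)⁻¹ (symb l) / ((a * l.prod : ℕ) : Cy d) = 0
        rw [symb_aeval, h3, mul_zero, zero_div]
      have h3 : ((zt d)⁻¹) ^ (a * l.prod) = 1 := by
        obtain ⟨k, hk⟩ := hdv
        rw [hk, pow_mul, inv_pow, (zt_spec d).pow_eq_one, inv_one, one_pow]
      have h4 := phi_zero_of_tail_ne h h3 h2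
      have h5 := phi_inv_zero h (zt_ne d) h4
      have h6 := aeval_map_algebraMap ℚ (zt d) (phi (a :: l))
      exact h6.trans h5
  have h2 := natDegree_le_of_dvd hdvd (by
    rw [Polynomial.map_ne_zero_iff (RingHom.injective_int _)]
    exact (basic h).monic.ne_zero)
  rw [natDegree_map_eq_of_injective (RingHom.injective_int _), (basic h).natDegree,
    natDegree_prod_of_monic _ _ fun d _ => cyclotomic.monic d ℚ] at h2
  rw [h1]
  refine le_trans (le_of_eq ?_) h2
  exact Finset.sum_congr rfl fun d _ => (natDegree_cyclotomic d ℚ).symm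

/-- the chain matrix over `ℚ` -/
theorem cl_chain (h : Good (a :: l)) :
    cl ((chainMat (a :: l)).map (Int.cast : ℤ → ℚ)) =
      ∑ d : {d // d ∈ Dv a l}, cl (FB (cj d.1) (rh a l d.1)) := by
  classical
  refine cl_eq_sum_FB (fun d : {d // d ∈ Dv a l} => Cy d.1) (fun d => cj d.1)
    (fun d => rh a l d.1) _ ?_ (fun d i => (zt d.1) ^ (i : ℕ)) ?_ ?_
  · have h1 := chain_det h
    have h2 : ((chainMat (a :: l)).map (Int.cast : ℤ → ℚ)).det = 1 := by
      have := (Int.castRingHom ℚ).map_det (chainMat (a :: l))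
      rw [h1, map_one] at this
      exact this.symm
    rw [h2]; exact isUnit_one
  · intro i j
    rw [Matrix.map_apply, chain_trace' h]
  · rw [Fintype.card_fin]
    exact card_Dv h

theorem bdd_chain (h : Good (a :: l)) :
    Bdd (cl ((chainMat (a :: l)).map (Int.cast : ℤ → ℚ))) := by
  rw [cl_chain h]
  apply bdd_sum
  intro d _
  exact bdd_FB (cj d.1) (cj_comm d.1) (Dv_ne d) (cj_rh h d.1) (M := 2 * d.1)
    (by have := NeZero.pos d.1; omega) (eps_pow l d.1)

end Chain

/-! ### systems -/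

lemma cl_sysMat_cons (c : List ℕ) (S : List (List ℕ)) :
    cl ((sysMat (c :: S)).map (Int.cast : ℤ → ℚ)) =
      cl ((chainMat c).map (Int.cast : ℤ → ℚ)) * cl ((sysMat S).map (Int.cast : ℤ → ℚ)) := by
  rw [← cl_kronecker]
  refine cl_reindex (κ := Fin (mu c) × Idx S) _ _ (Equiv.refl (Fin (mu c) × Idx S)) ?_
  rintro ⟨i, i'⟩ ⟨j, j'⟩
  show ((chainMat c i j : ℤ) : ℚ) * ((sysMat S i' j' : ℤ) : ℚ) =
    ((chainMat c i j * sysMat S i' j' : ℤ) : ℚ)
  rw [Int.cast_mul]

lemma cl_sysMat_nil : cl ((sysMat []).map (Int.cast : ℤ → ℚ)) = 1 := by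
  rw [← cl_one]
  refine cl_reindex (κ := Unit) _ _ (Equiv.refl Unit) ?_
  intro i j
  simp [sysMat]

/-- finitely many types for all systems with chains in a finite set -/
theorem types_aux (C : Finset (List ℕ)) (hC : ∀ c ∈ C, c ≠ [] ∧ Good c) :
    ∃ T : Finset Cls, ∀ S : List (List ℕ), (∀ c ∈ S, c ∈ C) →
      cl ((sysMat S).map (Int.cast : ℤ → ℚ)) ∈ AddSubmonoid.closure (T : Set Cls) := by
  obtain ⟨S, hS, h1, h2⟩ := bdd_joint C (fun c => cl ((chainMat c).map (Int.cast : ℤ → ℚ))) (by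
    intro c hc
    obtain ⟨h3, h4⟩ := hC c hc
    cases c with
    | nil => exact absurd rfl h3
    | cons a l => exact bdd_chain h4)
  obtain ⟨T, hT⟩ := hS
  refine ⟨T, fun L hL => ?_⟩
  rw [← Submodule.span_nat_eq_addSubmonoidClosure, Submodule.mem_toAddSubmonoid, hT]
  induction L with
  | nil => rw [cl_sysMat_nil]; exact h1
  | cons c L ih =>
      rw [cl_sysMat_cons]
      exact h2 c (hL c List.mem_cons_self) _ (ih fun d hd => hL d (List.mem_cons_of_mem _ hd))

lemma sysMat_det : ∀ {S : List (List ℕ)}, (∀ c ∈ S, c ≠ [] ∧ Good c) →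
    IsUnit ((sysMat S).map (Int.cast : ℤ → ℚ)).det
  | [], _ => by
      have : ((sysMat []).map (Int.cast : ℤ → ℚ)) = (1 : Matrix (Idx []) (Idx []) ℚ) :=
        Matrix.map_one (Int.cast : ℤ → ℚ) Int.cast_zero Int.cast_one
      rw [this, Matrix.det_one]; exact isUnit_one
  | c :: S, h => by
      obtain ⟨h3, h4⟩ := h c List.mem_cons_self
      have ih := sysMat_det (S := S) fun d hd => h d (List.mem_cons_of_mem _ hd)
      have h5 : IsUnit ((chainMat c).map (Int.cast : ℤ → ℚ)).det := by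
        cases c with
        | nil => exact absurd rfl h3
        | cons a l =>
            have h1 := chain_det h4
            have := (Int.castRingHom ℚ).map_det (chainMat (a :: l))
            rw [h1, map_one] at this
            have h2 : ((chainMat (a :: l)).map (Int.cast : ℤ → ℚ)).det = 1 := this.symm
            rw [h2]; exact isUnit_one
      have e : (sysMat (c :: S)).map (Int.cast : ℤ → ℚ) =
          (kroneckerMap (· * ·) ((chainMat c).map (Int.cast : ℤ → ℚ))
            ((sysMat S).map (Int.cast : ℤ → ℚ)) : Matrix (Fin (mu c) × Idx S)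
              (Fin (mu c) × Idx S) ℚ) := by
        ext ⟨i, i'⟩ ⟨j, j'⟩
        show ((chainMat c i j * sysMat S i' j' : ℤ) : ℚ) =
          ((chainMat c i j : ℤ) : ℚ) * ((sysMat S i' j' : ℤ) : ℚ)
        rw [Int.cast_mul]
      have h6 := Matrix.det_kronecker ((chainMat c).map (Int.cast : ℤ → ℚ))
        ((sysMat S).map (Int.cast : ℤ → ℚ))
      have h7 : ((sysMat (c :: S)).map (Int.cast : ℤ → ℚ)).det = _ :=
        (congrArg Matrix.det e).trans h6
      rw [h7]
      exact (h5.pow _).mul (ih.pow _)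

lemma cong_det {ι κ : Type} [Fintype ι] [Fintype κ] [DecidableEq ι] [DecidableEq κ]
    {A : Matrix ι ι ℚ} {B : Matrix κ κ ℚ} (h : Cong ℚ A B) (hA : IsUnit A.det) :
    ∃ N : Matrix κ κ ℚ, N * B = 1 := by
  obtain ⟨P, Q, h1, h2, h3⟩ := h
  refine ⟨Q * A⁻¹ * Qᵀ, ?_⟩
  rw [← h3]
  have h4 : Qᵀ * Pᵀ = 1 := by rw [← Matrix.transpose_mul, h1, Matrix.transpose_one]
  calc Q * A⁻¹ * Qᵀ * (Pᵀ * A * P) = Q * (A⁻¹ * ((Qᵀ * Pᵀ) * A)) * P := by
        simp only [Matrix.mul_assoc]
    _ = 1 := by rw [h4, Matrix.one_mul, Matrix.nonsing_inv_mul _ hA, Matrix.mul_one, h2]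

lemma block_unit {m : ℕ} {n : Fin m → Type} [∀ i, Fintype (n i)] [∀ i, DecidableEq (n i)]
    (M : ∀ i, Matrix (n i) (n i) ℚ) (N : Matrix (Σ i, n i) (Σ i, n i) ℚ)
    (h : N * blockDiagonal' M = 1) (i : Fin m) : IsUnit (M i).det := by
  have h1 : (Matrix.of fun x y : n i => N ⟨i, x⟩ ⟨i, y⟩) * M i = 1 := by
    ext x y
    have h2 := congrFun (congrFun h ⟨i, x⟩) ⟨i, y⟩
    rw [Matrix.mul_apply, Fintype.sum_sigma, Finset.sum_eq_single i] at h2
    · rw [Matrix.mul_apply]
      have e : ∀ z : n i, (Matrix.of fun x y : n i => N ⟨i, x⟩ ⟨i, y⟩) x z * M i z y =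
          N ⟨i, x⟩ ⟨i, z⟩ * blockDiagonal' M ⟨i, z⟩ ⟨i, y⟩ := by
        intro z
        rw [blockDiagonal'_apply_eq]; rfl
      rw [Finset.sum_congr rfl fun z _ => e z, h2, Matrix.one_apply, Matrix.one_apply]
      simp
    · intro j _ hj
      refine Finset.sum_eq_zero fun z _ => ?_
      rw [blockDiagonal'_apply_ne _ _ _ hj, mul_zero]
    · intro hi
      exact absurd (Finset.mem_univ i) hi
  have h3 := congrArg Matrix.det h1
  rw [Matrix.det_mul, Matrix.det_one] at h3
  exact IsUnit.of_mul_eq_one_right _ h3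

/-- finitely many types, matrix form -/
theorem types_general (C : Finset (List ℕ)) (hC : ∀ c ∈ C, c ≠ [] ∧ Good c) :
    ∃ (t : ℕ) (n : Fin t → ℕ) (tau : ∀ k, Matrix (Fin (n k)) (Fin (n k)) ℚ),
      (∀ k, IsUnit (tau k).det) ∧ ∀ S : List (List ℕ), (∀ c ∈ S, c ∈ C) →
        ∃ (m : ℕ) (f : Fin m → Fin t), Cong ℚ ((sysMat S).map (Int.cast : ℤ → ℚ))
          (blockDiagonal' fun i => tau (f i)) := by
  classical
  obtain ⟨T, hT⟩ := types_aux C hC
  choose n A hA using exists_cl
  let T' : Finset Cls := T.filter fun x => IsUnit (A x).det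
  refine ⟨T'.card, fun k => n (T'.equivFin.symm k).1, fun k => A (T'.equivFin.symm k).1, ?_, ?_⟩
  · intro k
    exact (Finset.mem_filter.1 (T'.equivFin.symm k).2).2
  · intro S hS
    obtain ⟨m, f, hf, hsum⟩ := exists_sum_of_mem (hT S hS)
    have h1 : cl ((sysMat S).map (Int.cast : ℤ → ℚ)) = cl (blockDiagonal' fun i => A (f i)) := by
      rw [cl_blockDiagonal', hsum]
      exact Finset.sum_congr rfl fun i _ => (hA (f i)).symm
    have h2 := cl_eq_iff.1 h1
    obtain ⟨N, hN⟩ := cong_det h2 (sysMat_det fun c hc => hC c (hS c hc))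
    have h3 := block_unit _ N hN
    have hf' : ∀ i, f i ∈ T' := fun i => Finset.mem_filter.2 ⟨hf i, h3 i⟩
    refine ⟨m, fun i => T'.equivFin ⟨f i, hf' i⟩, ?_⟩
    have e : ∀ i, (T'.equivFin.symm (T'.equivFin ⟨f i, hf' i⟩)).1 = f i := by
      intro i; rw [Equiv.symm_apply_apply]
    refine cl_eq_iff.1 ?_
    rw [h1, cl_blockDiagonal', cl_blockDiagonal']
    refine Finset.sum_congr rfl fun i _ => ?_
    rw [hA, hA, e]

/-! ### the family `F` -/

lemma good_chainOf (b : ℕ) : ∀ a : ℕ, a ≤ b → Good (chainOf a b) := by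
  intro a
  induction a using Nat.strong_induction_on with
  | _ a ih =>
    intro hab
    rw [chainOf]
    split_ifs with h0
    · intro x hx; simp at hx
    · intro x hx
      rcases List.mem_cons.1 hx with rfl | hx
      · exact (Nat.one_le_div_iff (Nat.pos_of_ne_zero h0)).2 hab
      · have h1 : b % a < a := Nat.mod_lt _ (Nat.pos_of_ne_zero h0)
        exact ih (b % a) h1 (by omega) x hx

lemma mem_rep {n : ℕ} {S : List (List ℕ)} {c : List ℕ} (h : c ∈ rep n S) : c ∈ S := by
  unfold rep at h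
  obtain ⟨s, hs, hc⟩ := List.mem_flatten.1 h
  rw [List.eq_of_mem_replicate hs] at hc
  exact hc

/-- TYPES -/
theorem types (L : List (ℕ × ℕ × ℤ)) (u : ℕ) (q : List ℕ) (hL : Cert L u) (hq : Aux u q) :
    ∃ (t : ℕ) (n : Fin t → ℕ) (tau : ∀ k, Matrix (Fin (n k)) (Fin (n k)) ℚ),
      (∀ k, IsUnit (tau k).det) ∧ ∀ s j : ℕ,
        ∃ (m : ℕ) (f : Fin m → Fin t), Cong ℚ ((sysMat (F L u q s j)).map (Int.cast : ℤ → ℚ))
          (blockDiagonal' fun i => tau (f i)) := by
  classical
  let C : Finset (List ℕ) := ([3] :: [u] :: (ZP L ++ ZM L ++ q.map fun x => [x])).toFinset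
  have hmem : ∀ c, c ∈ C ↔ c = [3] ∨ c = [u] ∨ c ∈ ZP L ∨ c ∈ ZM L ∨ c ∈ q.map fun x => [x] := by
    intro c
    simp [C]
  have hch : ∀ x ∈ L, Good (chainOf x.1 x.2.1) ∧ Good (chainOf (x.2.1 % x.1) x.2.1) := by
    intro x hx
    obtain ⟨h1, h2, _, _⟩ := hL.range x hx
    have h3 : x.2.1 % x.1 < x.1 := Nat.mod_lt _ h1
    exact ⟨good_chainOf _ _ (by omega), good_chainOf _ _ (by omega)⟩
  have hC : ∀ c ∈ C, c ≠ [] ∧ Good c := by
    intro c hc
    rcases (hmem c).1 hc with rfl | rfl | hc | hc | hc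
    · refine ⟨by simp, fun x hx => ?_⟩
      rw [List.mem_singleton] at hx
      omega
    · refine ⟨by simp, fun x hx => ?_⟩
      rw [List.mem_singleton] at hx
      have := hL.big
      omega
    · unfold ZP at hc
      rw [List.mem_filter] at hc
      obtain ⟨h1, h2⟩ := hc
      refine ⟨by simpa using h2, ?_⟩
      obtain ⟨x, hx, hx'⟩ := List.mem_flatMap.1 h1
      unfold blockP at hx'
      rcases List.mem_append.1 hx' with h | h
      · rw [List.eq_of_mem_replicate h]; exact (hch x hx).1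
      · rw [List.eq_of_mem_replicate h]; exact (hch x hx).2
    · unfold ZM at hc
      rw [List.mem_filter] at hc
      obtain ⟨h1, h2⟩ := hc
      refine ⟨by simpa using h2, ?_⟩
      obtain ⟨x, hx, hx'⟩ := List.mem_flatMap.1 h1
      unfold blockM at hx'
      rcases List.mem_append.1 hx' with h | h
      · rw [List.eq_of_mem_replicate h]; exact (hch x hx).2
      · rw [List.eq_of_mem_replicate h]; exact (hch x hx).1
    · obtain ⟨x, hx, rfl⟩ := List.mem_map.1 hc
      refine ⟨by simp, fun y hy => ?_⟩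
      rw [List.mem_singleton] at hy
      have := (hq.big x hx).1
      omega
  obtain ⟨t, n, tau, h1, h2⟩ := types_general C hC
  refine ⟨t, n, tau, h1, fun s j => h2 _ ?_⟩
  intro c hc
  rw [hmem]
  unfold F at hc
  simp only [List.mem_append] at hc
  rcases hc with (((hc | hc) | hc) | hc) | hc
  · left; simpa using mem_rep hc
  · right; left; simpa using mem_rep hc
  · right; right; left; exact mem_rep hc
  · right; right; right; left; exact mem_rep hc
  · right; right; right; right; exact hc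

end Crest.Agent.R267.P44c_148
end

-- ▼ part R267/P41b_339
section

/-!
# S0407, node P4.1, part 2 (helper339): trace form of the chain matrix over `ℂ`, argument of the
multipliers `rho`.
-/

set_option autoImplicit false

namespace Crest.Agent.R267.P41_339

open Polynomial Matrix Crest.Agent.R267.P4Defs_780 Complex

/-- the argument function `alpha` of a chain at `x = κ / r`. -/
noncomputable def alpha : List ℕ → ℝ → ℝ
  | [], _ => 0
  | _ :: l, x => (l.length : ℝ) - Int.fract (x * l.prod) - alpha l x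

/-- `e(x) = exp (2 π i x)`. -/
noncomputable def e (x : ℝ) : ℂ := exp ((2 * Real.pi * x : ℝ) * I)

lemma e_add (x y : ℝ) : e (x + y) = e x * e y := by
  unfold e; rw [← exp_add]; congr 1; push_cast; ring

lemma e_ne_zero (x : ℝ) : e x ≠ 0 := exp_ne_zero _

lemma e_neg (x : ℝ) : e (-x) = (e x)⁻¹ := by
  unfold e; rw [← exp_neg]; congr 1; push_cast; ring

lemma e_int (n : ℤ) : e n = 1 := by
  unfold e
  rw [exp_eq_one_iff]
  exact ⟨n, by push_cast; ring⟩

lemma e_zero : e 0 = 1 := by simpa using e_int 0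

lemma e_pow (x : ℝ) (n : ℕ) : e x ^ n = e (x * n) := by
  unfold e; rw [← exp_nat_mul]; congr 1; push_cast; ring

lemma e_fract (x : ℝ) : e (Int.fract x) = e x := by
  have : x = Int.fract x + (⌊x⌋ : ℤ) := (Int.fract_add_floor x).symm
  conv_rhs => rw [this, e_add, e_int, mul_one]

/-- unit vector `exp (i π y)` -/
noncomputable def u (y : ℝ) : ℂ := exp ((Real.pi * y : ℝ) * I)

lemma u_add (x y : ℝ) : u (x + y) = u x * u y := by
  unfold u; rw [← exp_add]; congr 1; push_cast; ring

lemma u_ne_zero (x : ℝ) : u x ≠ 0 := exp_ne_zero _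

lemma u_neg (x : ℝ) : u (-x) = (u x)⁻¹ := by
  unfold u; rw [← exp_neg]; congr 1; push_cast; ring

lemma u_zero : u 0 = 1 := by simp [u]

lemma u_two_mul (x : ℝ) : u (2 * x) = e x := by
  unfold u e; congr 1; push_cast; ring

lemma u_half : u (1 / 2) = I := by
  unfold u
  rw [show ((Real.pi * (1 / 2) : ℝ) : ℂ) * I = (Real.pi : ℂ) / 2 * I by push_cast; ring]
  exact exp_pi_div_two_mul_I

lemma u_one : u 1 = -1 := by
  unfold u
  rw [show ((Real.pi * 1 : ℝ) : ℂ) * I = (Real.pi : ℂ) * I by push_cast; ring]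
  exact exp_pi_mul_I

lemma u_nat (n : ℕ) : u n = (-1) ^ n := by
  induction n with
  | zero => simp [u_zero]
  | succ n ih => rw [Nat.cast_succ, u_add, u_one, ih, pow_succ]

/-- `e(-f) - 1 = 2 sin (π f) · exp (iπ(-1/2-f))`. -/
lemma e_neg_sub_one (f : ℝ) :
    e (-f) - 1 = (2 * Real.sin (Real.pi * f) : ℝ) * u (-1 / 2 - f) := by
  have h1 : u (-1 / 2 - f) = -I * u (-f) := by
    rw [show (-1 / 2 - f : ℝ) = -(1 / 2) + -f by ring, u_add, u_neg, u_half, inv_I]
  have h2 : e (-f) = u (-f) * u (-f) := by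
    rw [← u_add, ← u_two_mul]; congr 1; ring
  have h3 : (1 : ℂ) = u f * u (-f) := by
    rw [← u_add, add_neg_cancel, u_zero]
  have h4 : ((2 * Real.sin (Real.pi * f) : ℝ) : ℂ) = (u (-f) - u f) * I := by
    push_cast
    rw [Complex.two_sin]
    unfold u
    congr 2 <;> push_cast <;> ring_nf
  rw [h1, h4, h2]
  conv_lhs => rw [h3]
  linear_combination ((u (-f) - u f) * u (-f)) * I_mul_I

/-- positive multiples of a complex number -/
def PM (z w : ℂ) : Prop := ∃ p : ℝ, 0 < p ∧ z = p * w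

lemma PM.refl (w : ℂ) : PM w w := ⟨1, one_pos, by simp⟩

lemma PM.mul {z w z' w' : ℂ} (h : PM z w) (h' : PM z' w') : PM (z * z') (w * w') := by
  obtain ⟨p, hp, rfl⟩ := h
  obtain ⟨q, hq, rfl⟩ := h'
  exact ⟨p * q, mul_pos hp hq, by push_cast; ring⟩

lemma PM.inv {z w : ℂ} (h : PM z w) : PM z⁻¹ w⁻¹ := by
  obtain ⟨p, hp, rfl⟩ := h
  exact ⟨p⁻¹, inv_pos.2 hp, by push_cast; rw [mul_inv]⟩

lemma PM.div {z w z' w' : ℂ} (h : PM z w) (h' : PM z' w') : PM (z / z') (w / w') := by
  rw [div_eq_mul_inv, div_eq_mul_inv]; exact h.mul h'.inv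

lemma PM.of_pos {p : ℝ} (hp : 0 < p) : PM (p : ℂ) 1 := ⟨p, hp, by simp⟩

/-- `e(-y) - 1` when it does not vanish -/
lemma pm_e_sub_one {y : ℝ} (h : e (-y) ≠ 1) : PM (e (-y) - 1) (u (-1 / 2 - Int.fract y)) := by
  have h1 : e (-y) = e (-Int.fract y) := by
    rw [e_neg, e_neg, e_fract]
  rw [h1, e_neg_sub_one]
  refine ⟨2 * Real.sin (Real.pi * Int.fract y), ?_, rfl⟩
  have h0 : Int.fract y ≠ 0 := by
    intro h0
    apply h
    rw [h1, h0, neg_zero, e_zero]
  have h2 : 0 < Int.fract y := lt_of_le_of_ne (Int.fract_nonneg y) h0.symm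
  have h3 := Int.fract_lt_one y
  have : 0 < Real.sin (Real.pi * Int.fract y) := by
    apply Real.sin_pos_of_pos_of_lt_pi
    · exact mul_pos Real.pi_pos h2
    · nlinarith [Real.pi_pos]
  positivity

lemma fract_zero_of_e {y : ℝ} (h : e (-y) = 1) : Int.fract y = 0 := by
  unfold e at h
  rw [exp_eq_one_iff] at h
  obtain ⟨n, hn⟩ := h
  have h1 : ((2 * Real.pi * -y : ℝ) : ℂ) = ((n * (2 * Real.pi) : ℝ) : ℂ) := by
    have h2 : ((2 * Real.pi * -y : ℝ) : ℂ) * I = ((n * (2 * Real.pi) : ℝ) : ℂ) * I := by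
      rw [hn]; push_cast; ring
    exact mul_right_cancel₀ I_ne_zero h2
  have h3 : 2 * Real.pi * -y = n * (2 * Real.pi) := by exact_mod_cast h1
  have h4 : y = ((-n : ℤ) : ℝ) := by
    have hp := Real.pi_pos.ne'
    have : 2 * Real.pi * (-y - n) = 0 := by linarith
    rcases mul_eq_zero.1 this with h | h
    · simp [hp] at h
    · push_cast; linarith
  rw [h4]; exact Int.fract_intCast _

/-- the exponent of `phi c (e(-x))` -/
noncomputable def B (c : List ℕ) (x : ℝ) : ℝ :=
  ((c.length : ℝ) - 1) / 2 - Int.fract (x * c.prod) - alpha c x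

lemma B_cons (a : ℕ) (l : List ℕ) (x : ℝ) :
    B (a :: l) x = -1 / 2 - Int.fract (x * (a :: l).prod) - B l x := by
  simp only [B, alpha, List.length_cons]
  push_cast
  ring

lemma B_nil (x : ℝ) : B [] x = -1 / 2 - Int.fract x := by
  simp only [B, alpha, List.length_nil, List.prod_nil]
  push_cast
  ring_nf

theorem phi_arg : ∀ {c : List ℕ}, Good c → ∀ x : ℝ,
    (aeval (e (-x)) (phi c) ≠ 0 → PM (aeval (e (-x)) (phi c)) (u (B c x))) ∧
    (aeval (e (-x)) (phi c) = 0 →
      PM (aeval (e (-x)) (derivative (phi c))) ((e (-x))⁻¹ * u (B c x + 1 / 2)))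
  | [], _, x => by
      have hphi : aeval (e (-x)) (phi []) = e (-x) - 1 := by simp [phi]
      have hder : aeval (e (-x)) (derivative (phi [])) = 1 := by simp [phi]
      rw [hphi, hder, B_nil]
      refine ⟨fun h => pm_e_sub_one (fun h1 => h (by rw [h1, sub_self])), fun h => ?_⟩
      have h1 : e (-x) = 1 := sub_eq_zero.1 h
      rw [h1, fract_zero_of_e h1]
      have : u (-1 / 2 - 0 + 1 / 2) = 1 := by
        rw [show (-1 / 2 - 0 + 1 / 2 : ℝ) = 0 by norm_num, u_zero]
      rw [this]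
      simpa using PM.refl 1
  | a :: l, h, x => by
      have ih := phi_arg h.tail x
      have hr : 0 < a * l.prod := Nat.mul_pos h.head h.tail.prod_pos
      set η := e (-x) with hη
      have hη0 : η ≠ 0 := e_ne_zero _
      have hm := congrArg (aeval η) (phi_mul h)
      rw [map_mul, aeval_X_pow_sub_one] at hm
      have hηr : η ^ (a * l.prod) = e (-(x * (a :: l).prod)) := by
        rw [hη, e_pow, List.prod_cons]; congr 1; push_cast; ring
      have hd := congrArg (fun p : ℤ[X] => aeval η (derivative p)) (phi_mul h)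
      simp only [derivative_mul, derivative_sub, derivative_one, derivative_X_pow, sub_zero,
        map_add, map_mul, map_pow, aeval_X, aeval_C, map_natCast] at hd
      rw [B_cons]
      by_cases hl : aeval η (phi l) = 0
      · -- tail vanishes: `η ^ r = 1`, derivative of the product
        have hr1 : η ^ (a * l.prod) = 1 := by
          rw [hl, mul_zero] at hm; exact (sub_eq_zero.1 hm.symm)
        have hf : Int.fract (x * (a :: l).prod) = 0 := fract_zero_of_e (by rw [← hηr, hr1])
        have h1 := ih.2 hl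
        rw [hl, mul_zero, zero_add] at hd
        have h2 : PM (((a * l.prod : ℕ) : ℂ) * η ^ (a * l.prod - 1)) (η⁻¹) := by
          refine ⟨(a * l.prod : ℕ), by exact_mod_cast hr, ?_⟩
          have : η ^ (a * l.prod - 1) = η⁻¹ := by
            have h3 : η ^ (a * l.prod - 1) * η = 1 := by
              rw [← pow_succ, Nat.sub_add_cancel hr, hr1]
            exact eq_inv_of_mul_eq_one_left h3
          rw [this, Complex.ofReal_natCast]
        have hne : aeval η (derivative (phi l)) ≠ 0 := by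
          intro h0
          rw [h0, mul_zero] at hd
          obtain ⟨p, hp, h3⟩ := h2
          rw [← hd] at h3
          have : ((p : ℂ) * η⁻¹) ≠ 0 := mul_ne_zero (by exact_mod_cast hp.ne') (inv_ne_zero hη0)
          exact this h3.symm
        have h3 : aeval η (phi (a :: l)) =
            (((a * l.prod : ℕ) : ℂ) * η ^ (a * l.prod - 1)) / aeval η (derivative (phi l)) := by
          rw [eq_div_iff hne, hd]
        have h4 : PM (aeval η (phi (a :: l))) (η⁻¹ / (η⁻¹ * u (B l x + 1 / 2))) := by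
          rw [h3]; exact h2.div h1
        have h5 : η⁻¹ / (η⁻¹ * u (B l x + 1 / 2)) =
            u (-1 / 2 - Int.fract (x * (a :: l).prod) - B l x) := by
          rw [hf, div_mul_cancel_left₀ (inv_ne_zero hη0), ← u_neg]
          congr 1; ring
        rw [h5] at h4
        refine ⟨fun _ => h4, fun h0 => ?_⟩
        exfalso
        obtain ⟨p, hp, h6⟩ := h4
        rw [h0] at h6
        exact (mul_ne_zero (by exact_mod_cast hp.ne') (u_ne_zero _)) h6.symm
      · have h1 := ih.1 hl
        by_cases hr1 : η ^ (a * l.prod) = 1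
        · -- `phi c (η) = 0`
          have hf : Int.fract (x * (a :: l).prod) = 0 := fract_zero_of_e (by rw [← hηr, hr1])
          have h0 : aeval η (phi (a :: l)) = 0 := phi_zero_of_tail_ne h hr1 hl
          refine ⟨fun h2 => absurd h0 h2, fun _ => ?_⟩
          rw [h0, zero_mul, add_zero] at hd
          have h2 : PM (((a * l.prod : ℕ) : ℂ) * η ^ (a * l.prod - 1)) (η⁻¹) := by
            refine ⟨(a * l.prod : ℕ), by exact_mod_cast hr, ?_⟩
            have : η ^ (a * l.prod - 1) = η⁻¹ := by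
              have h3 : η ^ (a * l.prod - 1) * η = 1 := by
                rw [← pow_succ, Nat.sub_add_cancel hr, hr1]
              exact eq_inv_of_mul_eq_one_left h3
            rw [this, Complex.ofReal_natCast]
          have h3 : aeval η (derivative (phi (a :: l))) =
              (((a * l.prod : ℕ) : ℂ) * η ^ (a * l.prod - 1)) / aeval η (phi l) := by
            rw [eq_div_iff hl, hd]
          rw [h3]
          have h4 := h2.div h1
          have h5 : η⁻¹ / u (B l x) =
              η⁻¹ * u (-1 / 2 - Int.fract (x * (a :: l).prod) - B l x + 1 / 2) := by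
            rw [hf, div_eq_mul_inv, ← u_neg]
            congr 2; ring
          rw [← h5]; exact h4
        · have h2 : PM (η ^ (a * l.prod) - 1) (u (-1 / 2 - Int.fract (x * (a :: l).prod))) := by
            rw [hηr]; apply pm_e_sub_one; rw [← hηr]; exact hr1
          have h3 : aeval η (phi (a :: l)) = (η ^ (a * l.prod) - 1) / aeval η (phi l) := by
            rw [eq_div_iff hl, hm]
          have h4 := h2.div h1
          rw [← h3] at h4
          have h5 : u (-1 / 2 - Int.fract (x * (a :: l).prod)) / u (B l x) =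
              u (-1 / 2 - Int.fract (x * (a :: l).prod) - B l x) := by
            rw [div_eq_mul_inv, ← u_neg, ← u_add]; congr 1
          rw [h5] at h4
          refine ⟨fun _ => h4, fun h0 => ?_⟩
          exfalso
          obtain ⟨p, hp, h6⟩ := h4
          rw [h0] at h6
          exact (mul_ne_zero (by exact_mod_cast hp.ne') (u_ne_zero _)) h6.symm

/-- multiplier `rho` of the chain `a :: l` at `η = e(x)`, `x = κ / r`:
`rho = symb l (e(-x)) / r`. -/
noncomputable def rho (a : ℕ) (l : List ℕ) (x : ℝ) : ℂ :=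
  aeval (e (-x)) (symb l) / ((a * l.prod : ℕ) : ℂ)

/-- P4.1: argument of `rho`: a positive multiple of `exp (iπ(k/2 + alpha))`, `k` = length,
whenever `phi (tail) (e(-x)) ≠ 0` (in particular for `x = κ / r`, `phi c (e(x)) = 0`). -/
theorem rho_arg {a : ℕ} {l : List ℕ} (h : Good (a :: l)) (x : ℝ)
    (hx : aeval (e (-x)) (phi l) ≠ 0) :
    PM (rho a l x) (u (((a :: l).length : ℝ) / 2 + alpha (a :: l) x)) := by
  have hr : 0 < a * l.prod := Nat.mul_pos h.head h.tail.prod_pos
  have h1 := (phi_arg h.tail x).1 hx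
  unfold rho
  rw [symb_aeval, ← u_nat, div_eq_mul_inv]
  have h2 : PM ((((a * l.prod : ℕ) : ℂ))⁻¹) 1 := by
    have := (PM.of_pos (p := ((a * l.prod : ℕ) : ℝ)) (by exact_mod_cast hr)).inv
    rwa [Complex.ofReal_natCast, inv_one] at this
  have h3 := ((PM.refl (u ((l.length + 1 : ℕ) : ℝ))).mul h1).mul h2
  rw [mul_one, ← u_add] at h3
  have h4 : (((l.length + 1 : ℕ) : ℝ) + B l x) =
      ((a :: l).length : ℝ) / 2 + alpha (a :: l) x := by
    simp only [B, alpha, List.length_cons]
    push_cast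
    ring
  rw [h4] at h3
  exact h3

/-- P4.1: eigenvalue of the monodromy: `e(x) ^ mu l = e(-alpha)`. -/
theorem mono_eigen {a : ℕ} : ∀ {l : List ℕ}, Good l → ∀ x : ℝ,
    e x ^ mu l = e (-alpha (a :: l) x)
  | [], _, x => by
      simp only [mu, pow_one, alpha, List.prod_nil, List.length_nil]
      push_cast
      rw [show (-(0 - Int.fract (x * 1) - 0) : ℝ) = Int.fract x by ring_nf, e_fract]
  | b :: l, h, x => by
      have ih := mono_eigen (a := b) h.tail x
      have hmu := mu_add_mu (a := b) (l := l) h.head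
      have h1 : e x ^ mu (b :: l) * e x ^ mu l = e (x * (b :: l).prod) := by
        rw [← pow_add, hmu, e_pow, List.prod_cons]
      have h2 : e x ^ mu (b :: l) = e (x * (b :: l).prod) * e (alpha (b :: l) x) := by
        have h3 : e (-alpha (b :: l) x) * e (alpha (b :: l) x) = 1 := by
          rw [← e_add, neg_add_cancel, e_zero]
        rw [← h1, ih, mul_assoc, h3, mul_one]
      rw [h2, ← e_fract (x * (b :: l).prod), ← e_add]
      have h4 : -alpha (a :: b :: l) x =
          Int.fract (x * (b :: l).prod) + alpha (b :: l) x + ((-((l.length : ℤ) + 1) : ℤ) : ℝ) := by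
        simp only [alpha, List.length_cons]
        push_cast
        ring
      rw [h4, e_add _ ((_ : ℤ) : ℝ), e_int, mul_one]

lemma e_div (r k : ℕ) :
    e ((k : ℝ) / (r : ℝ)) = Complex.exp (2 * Real.pi * Complex.I / (r : ℂ)) ^ k := by
  rw [← exp_nat_mul]
  unfold e
  congr 1
  push_cast
  ring

/-- P4.1: trace form. With `r = a * l.prod`, sum over `κ < r` with `phi c (e(κ/r)) = 0`. -/
theorem trace_form {a : ℕ} {l : List ℕ} (h : Good (a :: l)) (i j : Fin (mu (a :: l))) :
    (chainMat (a :: l) i j : ℂ) =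
      ∑ k ∈ (Finset.range (a * l.prod)).filter
          (fun k : ℕ => aeval (e ((k : ℝ) / ((a * l.prod : ℕ) : ℝ))) (phi (a :: l)) = 0),
        rho a l ((k : ℝ) / ((a * l.prod : ℕ) : ℝ)) *
          (e (-((k : ℝ) / ((a * l.prod : ℕ) : ℝ))) ^ (i : ℕ) *
            e ((k : ℝ) / ((a * l.prod : ℕ) : ℝ)) ^ (j : ℕ)) := by
  have hr : 0 < a * l.prod := Nat.mul_pos h.head h.tail.prod_pos
  have hrC : ((a * l.prod : ℕ) : ℂ) ≠ 0 := by exact_mod_cast hr.ne'
  have hζ := prim h
  set ζ := Complex.exp (2 * Real.pi * Complex.I / ((a * l.prod : ℕ) : ℂ)) with hζdef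
  have he : ∀ k : ℕ, e ((k : ℝ) / ((a * l.prod : ℕ) : ℝ)) = ζ ^ k := by
    intro k
    rw [hζdef, e_div]
  have he' : ∀ k : ℕ, e (-((k : ℝ) / ((a * l.prod : ℕ) : ℝ))) = (ζ⁻¹) ^ k := by
    intro k
    rw [e_neg, he, inv_pow]
  have hd := chainMat_dft h hζ i j
  have h1 : (chainMat (a :: l) i j : ℂ) = ∑ k ∈ Finset.range (a * l.prod),
      rho a l ((k : ℝ) / ((a * l.prod : ℕ) : ℝ)) *
          (e (-((k : ℝ) / ((a * l.prod : ℕ) : ℝ))) ^ (i : ℕ) *
            e ((k : ℝ) / ((a * l.prod : ℕ) : ℝ)) ^ (j : ℕ)) := by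
    apply mul_left_cancel₀ hrC
    rw [hd, Finset.mul_sum]
    refine Finset.sum_congr rfl fun k _ => ?_
    unfold rho
    rw [he, he']
    field_simp
  rw [h1, Finset.sum_filter_of_ne]
  intro k _ hk
  rw [he]
  rcases key_zero h hζ k with h0 | ⟨_, h2⟩
  · exfalso
    apply hk
    unfold rho
    rw [he', h0]
    simp
  · exact h2

end Crest.Agent.R267.P41_339
private theorem rz_09f2e28c86 : type_of% @_root_.Crest.Agent.R267.P41_339.alpha.eq_def := @_root_.Crest.Agent.R267.P41_339.alpha.eq_def -- L17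
private theorem rz_8a349983b8 : type_of% @_root_.Crest.Agent.R267.P41_339.alpha.eq_1 := @_root_.Crest.Agent.R267.P41_339.alpha.eq_1 -- L17
end

-- ▼ part R267/P42_339
section

/-!
# S0407, node P4.2 (helper339): the sums `S_c(κ) = ∑_{phi(η)=0} exp (iπκ alpha(η))` of a chain.

* `S_odd`  : `κ` odd, no `sin (πκ w_j / 2)` zero: `S_c(κ) = (-i)^k ∏ cot (πκ w_j/2)`;
* `S_even` : `S_c(2κ) = ∏ (1/w_j - 1 if κ w_j ∈ ℤ, else -1)`.
-/

set_option autoImplicit false

namespace Crest.Agent.R267.P42_339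

open Polynomial Matrix Crest.Agent.R267.P4Defs_780 Crest.Agent.R267.P41_339 Complex
open scoped ComplexConjugate

lemma conj_u (y : ℝ) : conj (u y) = u (-y) := by
  unfold u
  rw [← exp_conj]
  congr 1
  rw [map_mul, conj_I, conj_ofReal]
  push_cast
  ring

lemma u_int_even {n : ℤ} (h : Even n) : u n = 1 := by
  obtain ⟨m, rfl⟩ := h
  rw [show (((m + m : ℤ)) : ℝ) = 2 * (m : ℝ) by push_cast; ring, u_two_mul, e_int]

lemma u_int_odd {n : ℤ} (h : Odd n) : u n = -1 := by
  obtain ⟨m, rfl⟩ := h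
  rw [show (((2 * m + 1 : ℤ)) : ℝ) = 2 * (m : ℝ) + 1 by push_cast; ring, u_add, u_two_mul,
    e_int, u_one, one_mul]

/-- first weight of a chain (`0` for the empty chain) -/
noncomputable def w : List ℕ → ℝ
  | [] => 0
  | a :: l => (mu l : ℝ) / ((a * l.prod : ℕ) : ℝ)

/-- summation set: indices of the roots of `phi c` among the `c.prod`-th roots of unity -/
noncomputable def rootSet (c : List ℕ) : Finset ℕ :=
  (Finset.range c.prod).filter
    (fun m : ℕ => aeval (e ((m : ℝ) / ((c.prod : ℕ) : ℝ))) (phi c) = 0)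

/-- `S_c(κ)`. -/
noncomputable def S (c : List ℕ) (κ : ℤ) : ℂ :=
  ∑ m ∈ rootSet c, u (κ * alpha c ((m : ℝ) / ((c.prod : ℕ) : ℝ)))

/-- `Z_c(κ)`: the same sum over all `r`-th roots of unity. -/
noncomputable def Z (c : List ℕ) (κ : ℤ) : ℂ :=
  ∑ m ∈ Finset.range c.prod, u (κ * alpha c ((m : ℝ) / ((c.prod : ℕ) : ℝ)))

/-- `nu l = mu (tail l)`, `nu [] = 0`; `mu l + nu l = l.prod`. -/
def nu : List ℕ → ℕ
  | [] => 0
  | _ :: l => mu l

lemma mu_add_nu {l : List ℕ} (h : Good l) : mu l + nu l = l.prod := by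
  cases l with
  | nil => simp [mu, nu]
  | cons a l => rw [List.prod_cons]; exact mu_add_mu h.head

/-- no carry: slope of `alpha` on an interval. -/
lemma alpha_slope : ∀ {l : List ℕ}, Good l → ∀ (q : ℕ) (t : ℝ), 0 ≤ t → t < 1 →
    alpha l (((q : ℝ) + t) / (l.prod : ℕ)) =
      alpha l ((q : ℝ) / (l.prod : ℕ)) - t * (nu l : ℝ) / (l.prod : ℕ)
  | [], _, q, t, _, _ => by simp [alpha, nu]
  | b :: l, h, q, t, ht, ht1 => by
      have hb : (0 : ℝ) < b := by exact_mod_cast h.head
      have hP : (0 : ℝ) < (l.prod : ℕ) := by exact_mod_cast h.tail.prod_pos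
      obtain ⟨q', s', hs', hq⟩ : ∃ q' s' : ℕ, s' < b ∧ q = b * q' + s' :=
        ⟨q / b, q % b, Nat.mod_lt _ h.head, (Nat.div_add_mod q b).symm⟩
      have hs'' : (s' : ℝ) + 1 ≤ b := by exact_mod_cast hs'
      have hprod : (((b :: l).prod : ℕ) : ℝ) = b * (l.prod : ℕ) := by
        rw [List.prod_cons]; exact Nat.cast_mul _ _
      have hqr : (q : ℝ) = b * q' + s' := by rw [hq]; push_cast; ring
      have h0s : (0 : ℝ) ≤ s' := Nat.cast_nonneg _
      -- positions
      have e1 : ((q : ℝ) + t) / ((b :: l).prod : ℕ) =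
          ((q' : ℝ) + (s' + t) / b) / (l.prod : ℕ) := by
        rw [hprod, hqr]; field_simp; ring
      have e2 : (q : ℝ) / ((b :: l).prod : ℕ) = ((q' : ℝ) + s' / b) / (l.prod : ℕ) := by
        rw [hprod, hqr]; field_simp
      have t1 : 0 ≤ ((s' : ℝ) + t) / b := by positivity
      have t2 : ((s' : ℝ) + t) / b < 1 := by rw [div_lt_one hb]; linarith
      have t3 : 0 ≤ (s' : ℝ) / b := by positivity
      have t4 : (s' : ℝ) / b < 1 := by rw [div_lt_one hb]; linarith
      have f1 : Int.fract (((q' : ℝ) + (s' + t) / b) / (l.prod : ℕ) * (l.prod : ℕ)) =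
          (s' + t) / b := by
        rw [div_mul_cancel₀ _ hP.ne']
        rw [show ((q' : ℝ) + (s' + t) / b) = (s' + t) / b + (q' : ℕ) by ring,
          Int.fract_add_natCast, Int.fract_eq_self.2 ⟨t1, t2⟩]
      have f2 : Int.fract (((q' : ℝ) + s' / b) / (l.prod : ℕ) * (l.prod : ℕ)) = s' / b := by
        rw [div_mul_cancel₀ _ hP.ne']
        rw [show ((q' : ℝ) + s' / b) = s' / b + (q' : ℕ) by ring,
          Int.fract_add_natCast, Int.fract_eq_self.2 ⟨t3, t4⟩]
      rw [e1, e2]
      simp only [alpha]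
      rw [f1, f2, alpha_slope h.tail q' _ t1 t2, alpha_slope h.tail q' _ t3 t4, hprod]
      have hmn := mu_add_nu h.tail
      have hmn' : (nu l : ℝ) = (l.prod : ℕ) - (mu l : ℝ) := by
        rw [← hmn]; push_cast; ring
      rw [show nu (b :: l) = mu l from rfl, hmn']
      field_simp
      ring

/-- `alpha` of the chain `a :: l` at `(a q + s) / r`. -/
lemma alpha_cons_split {a : ℕ} {l : List ℕ} (h : Good (a :: l)) (q s : ℕ) (hs : s < a) :
    alpha (a :: l) (((a * q + s : ℕ) : ℝ) / (((a :: l).prod : ℕ) : ℝ)) =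
      (l.length : ℝ) - alpha l ((q : ℝ) / (l.prod : ℕ)) - s * w (a :: l) := by
  have ha : (0 : ℝ) < a := by exact_mod_cast h.head
  have hP : (0 : ℝ) < (l.prod : ℕ) := by exact_mod_cast h.tail.prod_pos
  have hs' : (s : ℝ) + 1 ≤ a := by exact_mod_cast hs
  have h0s : (0 : ℝ) ≤ s := Nat.cast_nonneg _
  have hprod : (((a :: l).prod : ℕ) : ℝ) = a * (l.prod : ℕ) := by
    rw [List.prod_cons]; exact Nat.cast_mul _ _
  have e1 : ((a * q + s : ℕ) : ℝ) / (((a :: l).prod : ℕ) : ℝ) =
      ((q : ℝ) + s / a) / (l.prod : ℕ) := by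
    rw [hprod]; push_cast; field_simp
  have t3 : 0 ≤ (s : ℝ) / a := by positivity
  have t4 : (s : ℝ) / a < 1 := by rw [div_lt_one ha]; linarith
  rw [e1]
  simp only [alpha]
  rw [alpha_slope h.tail q _ t3 t4, div_mul_cancel₀ _ hP.ne',
    show ((q : ℝ) + s / a) = s / a + (q : ℕ) by ring, Int.fract_add_natCast,
    Int.fract_eq_self.2 ⟨t3, t4⟩]
  have hmn := mu_add_nu h.tail
  have hmn' : (nu l : ℝ) = (l.prod : ℕ) - (mu l : ℝ) := by
    rw [← hmn]; push_cast; ring
  rw [hmn']
  simp only [w]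
  rw [Nat.cast_mul]
  field_simp
  ring

lemma sum_range_mul' {M : Type*} [AddCommMonoid M] (f : ℕ → M) (a P : ℕ) :
    ∑ m ∈ Finset.range (a * P), f m =
      ∑ q ∈ Finset.range P, ∑ s ∈ Finset.range a, f (a * q + s) := by
  induction P with
  | zero => simp
  | succ P ih => rw [Nat.mul_succ, Finset.sum_range_add, ih, Finset.sum_range_succ]

lemma Z_cons {a : ℕ} {l : List ℕ} (h : Good (a :: l)) (κ : ℤ) :
    Z (a :: l) κ = u (κ * l.length) * conj (Z l κ) *
      ∑ s ∈ Finset.range a, u (-(κ * w (a :: l))) ^ s := by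
  have e1 : Z (a :: l) κ = ∑ q ∈ Finset.range l.prod, ∑ s ∈ Finset.range a,
      u (κ * alpha (a :: l) (((a * q + s : ℕ) : ℝ) / (((a :: l).prod : ℕ) : ℝ))) := by
    unfold Z
    conv_lhs => rw [List.prod_cons]
    rw [sum_range_mul']
    rfl
  rw [e1]
  unfold Z
  generalize hG : ∑ s ∈ Finset.range a, u (-(κ * w (a :: l))) ^ s = G
  rw [map_sum, Finset.mul_sum, Finset.sum_mul, ← hG]
  refine Finset.sum_congr rfl fun q _ => ?_
  rw [Finset.mul_sum]
  refine Finset.sum_congr rfl fun s hs => ?_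
  rw [alpha_cons_split h q s (Finset.mem_range.1 hs), conj_u]
  have e2 : u (-(κ * w (a :: l))) ^ s = u (s * -(κ * w (a :: l))) := by
    unfold u; rw [← exp_nat_mul]; congr 1; push_cast; ring
  rw [e2, ← u_add, ← u_add]
  congr 1
  ring

/-- a root of unity is not a root of both `phi c` and `phi (tail)`. -/
lemma not_both {a : ℕ} {l : List ℕ} (h : Good (a :: l)) {η : ℂ}
    (hη : η ^ (a * l.prod) = 1) (h1 : aeval η (phi (a :: l)) = 0) :
    aeval η (phi l) ≠ 0 := by
  intro h2
  have hr : 0 < a * l.prod := Nat.mul_pos h.head h.tail.prod_pos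
  have hd := congrArg (fun p : ℤ[X] => aeval η (derivative p)) (phi_mul h)
  simp only [derivative_mul, derivative_sub, derivative_one, derivative_X_pow, sub_zero,
    map_add, map_mul, map_pow, aeval_X, map_natCast] at hd
  rw [h1, h2, mul_zero, zero_mul, add_zero] at hd
  have hne : η ≠ 0 := by
    intro h0; rw [h0, zero_pow hr.ne'] at hη; exact zero_ne_one hη
  exact (mul_ne_zero (by exact_mod_cast hr.ne') (pow_ne_zero _ hne)) hd.symm

lemma e_div_pow (r m : ℕ) (hr : 0 < r) : e ((m : ℝ) / (r : ℕ)) ^ r = 1 := by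
  have hr' : (r : ℝ) ≠ 0 := by exact_mod_cast hr.ne'
  rw [e_pow, div_mul_cancel₀ _ hr']
  exact_mod_cast e_int m

/-- roots of the tail among the `r`-th roots of unity -/
lemma tail_roots {a : ℕ} {l : List ℕ} (h : Good (a :: l)) (f : ℕ → ℂ) :
    ∑ m ∈ (Finset.range (a :: l).prod).filter
      (fun m : ℕ => aeval (e ((m : ℝ) / (((a :: l).prod : ℕ) : ℝ))) (phi l) = 0), f m =
    ∑ q ∈ rootSet l, f (a * q) := by
  symm
  have ha : 0 < a := h.head
  have hP : 0 < l.prod := h.tail.prod_pos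
  have haR : (a : ℝ) ≠ 0 := by exact_mod_cast ha.ne'
  have hPR : ((l.prod : ℕ) : ℝ) ≠ 0 := by exact_mod_cast hP.ne'
  have hprod : (((a :: l).prod : ℕ) : ℝ) = a * (l.prod : ℕ) := by
    rw [List.prod_cons]; exact Nat.cast_mul _ _
  have hdiv : ∀ q : ℕ, ((a * q : ℕ) : ℝ) / (((a :: l).prod : ℕ) : ℝ) = (q : ℝ) / (l.prod : ℕ) := by
    intro q
    rw [hprod]; push_cast; field_simp
  refine Finset.sum_bij (fun q _ => a * q) ?_ ?_ ?_ ?_
  · intro q hq
    rw [rootSet, Finset.mem_filter, Finset.mem_range] at hq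
    rw [Finset.mem_filter, Finset.mem_range, List.prod_cons]
    refine ⟨(Nat.mul_lt_mul_left ha).2 hq.1, ?_⟩
    have := hdiv q
    rw [List.prod_cons] at this
    rw [this]
    exact hq.2
  · intro q _ q' _ hqq
    exact Nat.eq_of_mul_eq_mul_left ha hqq
  · intro m hm
    rw [Finset.mem_filter, Finset.mem_range, List.prod_cons] at hm
    obtain ⟨hm1, hm2⟩ := hm
    -- `e(m / r) ^ P = 1`
    obtain ⟨g, hg⟩ := (basic h.tail).dvd
    have h1 := congrArg (aeval (e ((m : ℝ) / ((a * l.prod : ℕ) : ℝ)))) hg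
    rw [map_mul, hm2, zero_mul, aeval_X_pow_sub_one, sub_eq_zero, e_pow] at h1
    have h2 : (m : ℝ) / ((a * l.prod : ℕ) : ℝ) * (l.prod : ℕ) = (m : ℝ) / a := by
      rw [Nat.cast_mul]; field_simp
    rw [h2] at h1
    have h3 : Int.fract ((m : ℝ) / a) = 0 := by
      apply fract_zero_of_e
      rw [e_neg, h1, inv_one]
    have h4 : a ∣ m := by
      rw [Int.fract_eq_iff] at h3
      obtain ⟨_, _, z, hz⟩ := h3
      rw [sub_zero, div_eq_iff haR] at hz
      have h5 : (m : ℤ) = z * a := by exact_mod_cast hz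
      exact_mod_cast (Dvd.intro_left z h5.symm : (a : ℤ) ∣ m)
    obtain ⟨q, rfl⟩ := h4
    refine ⟨q, ?_, rfl⟩
    rw [rootSet, Finset.mem_filter, Finset.mem_range]
    refine ⟨(Nat.mul_lt_mul_left ha).1 hm1, ?_⟩
    have := hdiv q
    rw [List.prod_cons] at this
    rw [← this]
    exact hm2
  · intro q _; rfl

lemma Z_eq_S_add {a : ℕ} {l : List ℕ} (h : Good (a :: l)) (κ : ℤ) :
    Z (a :: l) κ = S (a :: l) κ + u (κ * l.length) * conj (S l κ) := by
  have hr : 0 < (a :: l).prod := h.prod_pos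
  have ha : 0 < a := h.head
  have hP : 0 < l.prod := h.tail.prod_pos
  have haR : (a : ℝ) ≠ 0 := by exact_mod_cast ha.ne'
  have hPR : ((l.prod : ℕ) : ℝ) ≠ 0 := by exact_mod_cast hP.ne'
  have hprod : (((a :: l).prod : ℕ) : ℝ) = a * (l.prod : ℕ) := by
    rw [List.prod_cons]; exact Nat.cast_mul _ _
  have hdiv : ∀ q : ℕ, ((a * q : ℕ) : ℝ) / (((a :: l).prod : ℕ) : ℝ) = (q : ℝ) / (l.prod : ℕ) := by
    intro q
    rw [hprod]; push_cast; field_simp
  unfold Z
  rw [← Finset.sum_filter_add_sum_filter_not (Finset.range (a :: l).prod)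
    (fun m : ℕ => aeval (e ((m : ℝ) / (((a :: l).prod : ℕ) : ℝ))) (phi (a :: l)) = 0)]
  congr 1
  have hfil : (Finset.range (a :: l).prod).filter
      (fun m : ℕ => ¬ aeval (e ((m : ℝ) / (((a :: l).prod : ℕ) : ℝ))) (phi (a :: l)) = 0) =
      (Finset.range (a :: l).prod).filter
      (fun m : ℕ => aeval (e ((m : ℝ) / (((a :: l).prod : ℕ) : ℝ))) (phi l) = 0) := by
    apply Finset.filter_congr
    intro m _
    have h1 := e_div_pow (a :: l).prod m hr
    rw [List.prod_cons] at h1 ⊢
    constructor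
    · intro h2
      by_contra h3
      exact h2 (phi_zero_of_tail_ne h h1 h3)
    · intro h2 h3
      exact not_both h h1 h3 h2
  rw [hfil, tail_roots h]
  unfold S
  rw [map_sum, Finset.mul_sum]
  refine Finset.sum_congr rfl fun q _ => ?_
  rw [hdiv, conj_u, ← u_add]
  congr 1
  simp only [alpha]
  rw [div_mul_cancel₀ _ hPR]
  rw [Int.fract_natCast]
  ring

lemma S_nil (κ : ℤ) : S [] κ = 1 := by
  unfold S rootSet
  have h1 : aeval (e (((0 : ℕ) : ℝ) / ((([] : List ℕ).prod : ℕ) : ℝ))) (phi []) = 0 := by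
    simp [phi, e_zero]
  rw [Finset.sum_filter]
  rw [show ([] : List ℕ).prod = 1 from rfl] at h1 ⊢
  rw [Finset.sum_range_one, if_pos h1]
  simp [alpha, u_zero]

lemma Z_nil (κ : ℤ) : Z [] κ = 1 := by
  unfold Z
  simp [alpha, u_zero]

/-- geometric sum of the `Z` recursion -/
lemma geom (a : ℕ) (y : ℝ) :
    (∑ s ∈ Finset.range a, u (-y) ^ s) * (1 - u (-y)) = 1 - u (-(a * y)) := by
  rw [geom_sum_mul_neg]
  congr 1
  unfold u; rw [← exp_nat_mul]; congr 1; push_cast; ring

/-- nonvanishing condition for odd `κ` -/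
def NZ (κ : ℤ) : List ℕ → Prop
  | [] => True
  | a :: l => Real.sin (Real.pi * κ * w (a :: l) / 2) ≠ 0 ∧ NZ κ l

/-- `∏ cot (πκ w_j/2)`. -/
noncomputable def cotProd (κ : ℤ) : List ℕ → ℝ
  | [] => 1
  | a :: l => (Real.cos (Real.pi * κ * w (a :: l) / 2) / Real.sin (Real.pi * κ * w (a :: l) / 2)) *
      cotProd κ l

lemma one_sub_u (y : ℝ) : 1 - u (-y) = 2 * I * Real.sin (Real.pi * y / 2) * u (-(y / 2)) := by
  have h1 : (1 : ℂ) = u (y / 2) * u (-(y / 2)) := by rw [← u_add, add_neg_cancel, u_zero]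
  have h2 : u (-y) = u (-(y / 2)) * u (-(y / 2)) := by rw [← u_add]; congr 1; ring
  have h3 : (Real.sin (Real.pi * y / 2) : ℂ) * 2 = (u (-(y / 2)) - u (y / 2)) * I := by
    rw [Complex.ofReal_sin, mul_comm, Complex.two_sin]
    unfold u
    congr 2 <;> push_cast <;> ring_nf
  rw [h2]
  conv_lhs => rw [h1]
  linear_combination (-I * u (-(y / 2))) * h3 - (u (-(y / 2)) - u (y / 2)) * u (-(y / 2)) * I_mul_I

lemma one_add_u (y : ℝ) : 1 + u (-y) = 2 * Real.cos (Real.pi * y / 2) * u (-(y / 2)) := by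
  have h1 : (1 : ℂ) = u (y / 2) * u (-(y / 2)) := by rw [← u_add, add_neg_cancel, u_zero]
  have h2 : u (-y) = u (-(y / 2)) * u (-(y / 2)) := by rw [← u_add]; congr 1; ring
  have h3 : (Real.cos (Real.pi * y / 2) : ℂ) * 2 = u (y / 2) + u (-(y / 2)) := by
    rw [Complex.ofReal_cos, mul_comm, Complex.two_cos]
    unfold u
    congr 2 <;> push_cast <;> ring_nf
  rw [h2]
  conv_lhs => rw [h1]
  linear_combination (-u (-(y / 2))) * h3

/-- P4.2, odd `κ`. -/
theorem S_odd_aux {κ : ℤ} (hκ : Odd κ) : ∀ {c : List ℕ}, Good c → NZ κ c →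
    S c κ = (-I) ^ c.length * (cotProd κ c : ℂ) ∧
      2 * S c κ = Z c κ * (1 + u (-(κ * w c)))
  | [], _, _ => by
      rw [S_nil, Z_nil]
      simp only [cotProd, w, List.length_nil, pow_zero, mul_zero, neg_zero, u_zero]
      norm_num
  | a :: l, h, hnz => by
      obtain ⟨hsin, hnz'⟩ := hnz
      obtain ⟨ih1, ih2⟩ := S_odd_aux hκ h.tail hnz'
      have ha : (0 : ℝ) < a := by exact_mod_cast h.head
      have hP : (0 : ℝ) < (l.prod : ℕ) := by exact_mod_cast h.tail.prod_pos
      -- reality type of `S l`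
      have hul : u (κ * l.length) = (-1) ^ l.length := by
        have : ((κ : ℝ) * l.length) = (((κ * l.length : ℤ)) : ℝ) := by push_cast; ring
        rw [this]
        rcases Nat.even_or_odd l.length with hl | hl
        · rw [u_int_even, hl.neg_one_pow]
          exact Even.mul_left (by exact_mod_cast hl) κ
        · rw [u_int_odd, hl.neg_one_pow]
          exact hκ.mul (by exact_mod_cast hl)
      have hreal : u (κ * l.length) * conj (S l κ) = S l κ := by
        rw [hul, ih1, map_mul, map_pow, conj_ofReal, map_neg, conj_I, neg_neg, ← mul_assoc,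
          ← mul_pow]
        congr 2
        ring
      -- `a w₁ = 1 - w₂`
      have hw : (a : ℝ) * w (a :: l) = 1 - w l := by
        have hmn := mu_add_nu h.tail
        have hwl : w l = (nu l : ℝ) / (l.prod : ℕ) := by
          cases l with
          | nil => simp [w, nu]
          | cons b l => simp only [w, nu, List.prod_cons]
        have hmn' : (nu l : ℝ) = (l.prod : ℕ) - (mu l : ℝ) := by
          rw [← hmn]; push_cast; ring
        rw [hwl, hmn']
        simp only [w]
        rw [Nat.cast_mul]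
        field_simp
        ring
      have hZ : Z (a :: l) κ * (1 - u (-(κ * w (a :: l)))) = 2 * S l κ := by
        rw [Z_cons h, mul_assoc, geom]
        have h1 : u (-(a * (κ * w (a :: l)))) = -u (κ * w l) := by
          rw [show -((a : ℝ) * (κ * w (a :: l))) = κ * w l + ((-κ : ℤ) : ℝ) by
            rw [show (a : ℝ) * (κ * w (a :: l)) = κ * (a * w (a :: l)) by ring, hw]
            push_cast; ring]
          rw [u_add, u_int_odd hκ.neg]
          ring
        rw [h1, sub_neg_eq_add]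
        have h2 := congrArg conj ih2
        rw [map_mul, map_mul, map_add, map_one, conj_u, neg_neg] at h2
        have h3 : conj (2 : ℂ) = 2 := by
          have : (2 : ℂ) = ((2 : ℝ) : ℂ) := by norm_num
          rw [this, conj_ofReal]
        rw [h3] at h2
        rw [mul_assoc, ← h2]
        calc u (κ * l.length) * (2 * conj (S l κ)) = 2 * (u (κ * l.length) * conj (S l κ)) := by
              ring
          _ = _ := by rw [hreal]
      have hZS := Z_eq_S_add h κ
      rw [hreal] at hZS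
      have hS2 : 2 * S (a :: l) κ = Z (a :: l) κ * (1 + u (-(κ * w (a :: l)))) := by
        linear_combination (-2 : ℂ) * hZS + hZ
      refine ⟨?_, hS2⟩
      -- solve for `S`
      have hD : 1 - u (-(κ * w (a :: l))) ≠ 0 := by
        rw [one_sub_u]
        have : Real.sin (Real.pi * (κ * w (a :: l)) / 2) ≠ 0 := by
          rwa [← mul_assoc]
        exact mul_ne_zero (mul_ne_zero (mul_ne_zero two_ne_zero I_ne_zero)
          (by exact_mod_cast this)) (u_ne_zero _)
      have hSD : S (a :: l) κ * (1 - u (-(κ * w (a :: l)))) =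
          S l κ * (1 + u (-(κ * w (a :: l)))) := by
        linear_combination (-(1 - u (-(κ * w (a :: l))))) * hZS + hZ
      apply mul_right_cancel₀ hD
      rw [hSD, ih1, one_sub_u, one_add_u]
      simp only [cotProd, List.length_cons]
      rw [show Real.pi * ((κ : ℝ) * w (a :: l)) / 2 = Real.pi * κ * w (a :: l) / 2 by ring]
      have hsC : ((Real.sin (Real.pi * κ * w (a :: l) / 2) : ℝ) : ℂ) ≠ 0 := by
        exact_mod_cast hsin
      rw [ofReal_mul, ofReal_div]
      have hI : (-I) * I = 1 := by rw [neg_mul, I_mul_I, neg_neg]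
      rw [pow_succ]
      generalize (-I) ^ l.length = J
      field_simp
      linear_combination (J * (cotProd κ l : ℂ) * (Real.cos (Real.pi * κ * w (a :: l) / 2) : ℂ) *
        u (-(κ * w (a :: l) / 2))) * I_sq

/-- P4.2, odd `κ`: `S_c(κ) = (-i)^k ∏ cot (πκ w_j/2)`. -/
theorem S_odd {κ : ℤ} (hκ : Odd κ) {c : List ℕ} (h : Good c) (hnz : NZ κ c) :
    S c κ = (-I) ^ c.length * (cotProd κ c : ℂ) := (S_odd_aux hκ h hnz).1

/-! ### even `κ`: traces -/

lemma e_zpow (x : ℝ) (n : ℤ) : e x ^ n = e (x * n) := by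
  unfold e
  rw [← exp_int_mul]
  congr 1
  push_cast
  ring

lemma e_alpha {a : ℕ} {l : List ℕ} (h : Good (a :: l)) (κ : ℤ) (m r : ℕ) :
    e (κ * alpha (a :: l) ((m : ℝ) / (r : ℕ))) =
      e (-(κ * (mu l / (r : ℕ)))) ^ m := by
  have h1 := mono_eigen (a := a) h.tail ((m : ℝ) / (r : ℕ))
  have h2 : e (κ * alpha (a :: l) ((m : ℝ) / (r : ℕ))) =
      (e (-alpha (a :: l) ((m : ℝ) / (r : ℕ)))) ^ (-κ) := by
    rw [e_zpow]; congr 1; push_cast; ring
  rw [h2, ← h1, e_pow, e_zpow, e_pow]
  congr 1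
  push_cast
  ring

lemma w_cons (a : ℕ) (l : List ℕ) : w (a :: l) = (mu l : ℝ) / (((a :: l).prod : ℕ) : ℝ) := by
  rw [List.prod_cons]; rfl

open Classical in
lemma Z_even {a : ℕ} {l : List ℕ} (h : Good (a :: l)) (κ : ℤ) :
    Z (a :: l) (2 * κ) =
      if ∃ n : ℤ, κ * w (a :: l) = n then (((a :: l).prod : ℕ) : ℂ) else 0 := by
  have hr : 0 < (a :: l).prod := h.prod_pos
  have hrR : (((a :: l).prod : ℕ) : ℝ) ≠ 0 := by exact_mod_cast hr.ne'
  have e1 : Z (a :: l) (2 * κ) =
      ∑ m ∈ Finset.range (a :: l).prod, e (-(κ * w (a :: l))) ^ m := by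
    unfold Z
    refine Finset.sum_congr rfl fun m _ => ?_
    rw [w_cons, ← e_alpha h, ← u_two_mul]
    congr 1
    push_cast
    ring
  rw [e1]
  split_ifs with hn
  · obtain ⟨n, hn⟩ := hn
    rw [hn, show (-(n : ℝ)) = ((-n : ℤ) : ℝ) by push_cast; ring, e_int]
    simp
  · have hne : e (-(κ * w (a :: l))) ≠ 1 := by
      intro h1
      have h2 := fract_zero_of_e h1
      rw [Int.fract_eq_iff] at h2
      obtain ⟨_, _, z, hz⟩ := h2
      exact hn ⟨z, by rw [← hz, sub_zero]⟩
    have h3 : e (-(κ * w (a :: l))) ^ (a :: l).prod = 1 := by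
      rw [w_cons]
      generalize (a :: l).prod = r at hrR
      rw [e_pow, show -((κ : ℝ) * (mu l / (r : ℝ))) * (r : ℝ) =
        ((-κ * mu l : ℤ) : ℝ) by push_cast; field_simp, e_int]
    have h4 := geom_sum_mul (e (-(κ * w (a :: l)))) (a :: l).prod
    rw [h3, sub_self] at h4
    rcases mul_eq_zero.1 h4 with h5 | h5
    · exact h5
    · exact absurd (sub_eq_zero.1 h5) hne

/-- `a w₁ = 1 - w₂`. -/
lemma w_rec {a : ℕ} {l : List ℕ} (h : Good (a :: l)) : (a : ℝ) * w (a :: l) = 1 - w l := by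
  have ha : (0 : ℝ) < a := by exact_mod_cast h.head
  have hP : (0 : ℝ) < (l.prod : ℕ) := by exact_mod_cast h.tail.prod_pos
  have hmn := mu_add_nu h.tail
  have hwl : w l = (nu l : ℝ) / (l.prod : ℕ) := by
    cases l with
    | nil => simp [w, nu]
    | cons b l => simp only [w, nu, List.prod_cons]
  have hmn' : (nu l : ℝ) = (l.prod : ℕ) - (mu l : ℝ) := by
    rw [← hmn]; push_cast; ring
  rw [hwl, hmn']
  simp only [w]
  rw [Nat.cast_mul]
  field_simp
  ring

open Classical in
/-- `∏ (1/w_j - 1 if κ w_j ∈ ℤ, else -1)`. -/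
noncomputable def evProd (κ : ℤ) : List ℕ → ℝ
  | [] => 1
  | a :: l => (if ∃ n : ℤ, (κ : ℝ) * w (a :: l) = n then 1 / w (a :: l) - 1 else -1) * evProd κ l

lemma mu_pos {c : List ℕ} (h : ∀ a ∈ c, 2 ≤ a) : 0 < mu c := by
  cases c with
  | nil => simp [mu]
  | cons a l =>
    have hg : Good l := (Good.of_two h).tail
    have h1 := mu_add_nu hg
    have h2 : 2 ≤ a := h a List.mem_cons_self
    have h3 : 0 < l.prod := hg.prod_pos
    simp only [mu]
    have h4 : 2 * l.prod ≤ a * l.prod := Nat.mul_le_mul_right _ h2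
    omega

/-- P4.2, even exponent. -/
theorem S_even_aux (κ : ℤ) : ∀ {c : List ℕ}, (∀ a ∈ c, 2 ≤ a) →
    S c (2 * κ) = (evProd κ c : ℂ) ∧
      ((∃ n : ℤ, (κ : ℝ) * w c = n) → S c (2 * κ) = mu c)
  | [], _ => by
      rw [S_nil]
      simp [evProd, mu]
  | a :: l, h2 => by
      have h : Good (a :: l) := Good.of_two h2
      obtain ⟨ih1, ih2⟩ := S_even_aux κ (c := l) (fun b hb => h2 b (List.mem_cons_of_mem _ hb))
      have hul : u (((2 * κ : ℤ) : ℝ) * l.length) = 1 := by
        have : (((2 * κ : ℤ) : ℝ) * l.length) = (((κ * l.length + κ * l.length : ℤ)) : ℝ) := by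
          push_cast; ring
        rw [this, u_int_even ⟨_, rfl⟩]
      have hreal : conj (S l (2 * κ)) = S l (2 * κ) := by rw [ih1, conj_ofReal]
      have hS : S (a :: l) (2 * κ) = Z (a :: l) (2 * κ) - S l (2 * κ) := by
        rw [Z_eq_S_add h, hul, hreal]; ring
      have hr : 0 < (a :: l).prod := h.prod_pos
      have hrR : (((a :: l).prod : ℕ) : ℝ) ≠ 0 := by exact_mod_cast hr.ne'
      by_cases hn : ∃ n : ℤ, (κ : ℝ) * w (a :: l) = n
      · have hl : S l (2 * κ) = mu l := by
          apply ih2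
          obtain ⟨n, hn⟩ := hn
          refine ⟨κ - a * n, ?_⟩
          push_cast
          rw [← hn]
          have := w_rec h
          linear_combination (κ : ℝ) * this
        have hmul : mu l ≠ 0 := (mu_pos (fun b hb => h2 b (List.mem_cons_of_mem _ hb))).ne'
        have hmm := mu_add_nu h
        have hnu : nu (a :: l) = mu l := rfl
        have hmm' : ((mu (a :: l) : ℕ) : ℝ) = (((a :: l).prod : ℕ) : ℝ) - mu l := by
          rw [← hmm, hnu]; push_cast; ring
        have hSv : S (a :: l) (2 * κ) = mu (a :: l) := by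
          rw [hS, Z_even h, if_pos hn, hl]
          rw [← hmm, hnu]; push_cast; ring
        refine ⟨?_, fun _ => hSv⟩
        simp only [evProd]
        rw [if_pos hn, ofReal_mul, ← ih1, hl, hSv]
        rw [w_cons]
        have hmulR : ((mu l : ℕ) : ℝ) ≠ 0 := by exact_mod_cast hmul
        have : (1 / ((mu l : ℝ) / (((a :: l).prod : ℕ) : ℝ)) - 1) * (mu l : ℝ) =
            (mu (a :: l) : ℝ) := by
          rw [hmm']; field_simp
        exact_mod_cast this.symm
      · refine ⟨?_, fun h' => absurd h' hn⟩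
        rw [hS, Z_even h, if_neg hn]
        simp only [evProd]
        rw [if_neg hn, ofReal_mul, ← ih1]
        push_cast
        ring

/-- P4.2, even exponent (traces): `S_c(2κ) = ∏ (1/w_j - 1 if κ w_j ∈ ℤ, else -1)`. -/
theorem S_even (κ : ℤ) {c : List ℕ} (h : ∀ a ∈ c, 2 ≤ a) : S c (2 * κ) = (evProd κ c : ℂ) :=
  (S_even_aux κ h).1

end Crest.Agent.R267.P42_339
private theorem rz_d80f47b8f7 : type_of% @_root_.Crest.Agent.R267.P42_339.cotProd.eq_def := @_root_.Crest.Agent.R267.P42_339.cotProd.eq_def -- L309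
private theorem rz_b690131de7 : type_of% @_root_.Crest.Agent.R267.P42_339.cotProd.eq_1 := @_root_.Crest.Agent.R267.P42_339.cotProd.eq_1 -- L309
private theorem rz_387d023aed : type_of% @_root_.Crest.Agent.R267.P42_339.evProd.eq_def := @_root_.Crest.Agent.R267.P42_339.evProd.eq_def -- L508
private theorem rz_700d982e9e : type_of% @_root_.Crest.Agent.R267.P42_339.evProd.eq_1 := @_root_.Crest.Agent.R267.P42_339.evProd.eq_1 -- L508
private theorem rz_1ba65fe486 : type_of% @_root_.Crest.Agent.R267.P42_339.nu.eq_1 := @_root_.Crest.Agent.R267.P42_339.nu.eq_1 -- L56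
private theorem rz_2aaf03e6d2 : type_of% @_root_.Crest.Agent.R267.P42_339.w.eq_1 := @_root_.Crest.Agent.R267.P42_339.w.eq_1 -- L38
end

-- ▼ part R267/P43_903
section

/-!
# S0407, node P4.3 (helper903): the sums of the systems `F_{s,j}` do not depend on `j`.
-/

set_option autoImplicit false

namespace Crest.Agent.R267.P43_903

open Crest.Agent.R267.P4Defs_780 Crest.Agent.R267.P41_339 Crest.Agent.R267.P42_339 Complex
open scoped ComplexConjugate

/-! ### Euclid chains -/

lemma chainOf_zero (b : ℕ) : chainOf 0 b = [] := by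
  rw [chainOf]; simp

lemma chainOf_pos {a : ℕ} (ha : 0 < a) (b : ℕ) :
    chainOf a b = (b / a) :: chainOf (b % a) b := by
  rw [chainOf, dif_neg ha.ne']

/-- all exponents are at least two. -/
lemma chainOf_two (b : ℕ) : ∀ a : ℕ, 2 * a ≤ b → ∀ x ∈ chainOf a b, 2 ≤ x := by
  intro a
  induction a using Nat.strong_induction_on with
  | _ a ih =>
    intro hab x hx
    rcases Nat.eq_zero_or_pos a with rfl | ha
    · rw [chainOf_zero] at hx; simp at hx
    · rw [chainOf_pos ha, List.mem_cons] at hx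
      rcases hx with rfl | hx
      · exact (Nat.le_div_iff_mul_le ha).2 hab
      · have hlt := Nat.mod_lt b ha
        exact ih _ hlt (by omega) x hx

lemma chainOf_good {a b : ℕ} (h : 2 * a ≤ b) : Good (chainOf a b) :=
  Good.of_two (chainOf_two b a h)

/-- the first weight of the Euclid chain is `a / b`. -/
lemma w_chainOf {b : ℕ} (hb : 0 < b) : ∀ a : ℕ, 2 * a ≤ b → w (chainOf a b) = (a : ℝ) / b := by
  intro a
  induction a using Nat.strong_induction_on with
  | _ a ih =>
    intro hab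
    rcases Nat.eq_zero_or_pos a with rfl | ha
    · rw [chainOf_zero]; simp [w]
    · have hlt := Nat.mod_lt b ha
      have hg := chainOf_good hab
      have ihh := ih _ hlt (by omega)
      rw [chainOf_pos ha] at hg ⊢
      have h1 := w_rec hg
      rw [ihh] at h1
      have hbR : (b : ℝ) ≠ 0 := by exact_mod_cast hb.ne'
      have hq : 0 < b / a := Nat.div_pos (by omega) ha
      have hqR : ((b / a : ℕ) : ℝ) ≠ 0 := by exact_mod_cast hq.ne'
      have hdm : (a : ℝ) * ((b / a : ℕ) : ℝ) + ((b % a : ℕ) : ℝ) = b := by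
        exact_mod_cast Nat.div_add_mod b a
      apply mul_left_cancel₀ hqR
      rw [h1]
      field_simp
      linarith

lemma nz_chainOf {b : ℕ} (hb : 0 < b) {κ : ℤ} (hκ : IsCoprime κ (b : ℤ)) :
    ∀ a : ℕ, 2 * a ≤ b → NZ κ (chainOf a b) := by
  intro a
  induction a using Nat.strong_induction_on with
  | _ a ih =>
    intro hab
    rcases Nat.eq_zero_or_pos a with rfl | ha
    · rw [chainOf_zero]; trivial
    · have hlt := Nat.mod_lt b ha
      have hw := w_chainOf hb a hab
      rw [chainOf_pos ha] at hw ⊢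
      refine ⟨?_, ih _ hlt (by omega)⟩
      rw [hw]
      intro h0
      rw [Real.sin_eq_zero_iff] at h0
      obtain ⟨n, hn⟩ := h0
      have hbR : (b : ℝ) ≠ 0 := by exact_mod_cast hb.ne'
      have h1 : (κ : ℝ) * a = 2 * b * n := by
        have hp := Real.pi_pos.ne'
        field_simp at hn
        linear_combination (-1 : ℝ) * hn
      have h2 : κ * a = 2 * b * n := by exact_mod_cast h1
      have h3 : (b : ℤ) ∣ κ * a := ⟨2 * n, by rw [h2]; ring⟩
      have h4 : (b : ℤ) ∣ a := hκ.symm.dvd_of_dvd_mul_left h3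
      have h5 : b ∣ a := by exact_mod_cast h4
      have := Nat.le_of_dvd ha h5
      omega

/-! ### the ratio chain / tail -/

/-- ratio at odd `κ`. -/
lemma ratio_odd {a b : ℕ} (ha : 0 < a) (hab : 2 * a ≤ b) {κ : ℤ} (hodd : Odd κ)
    (hκ : IsCoprime κ (b : ℤ)) :
    S (chainOf a b) κ = (-I * ((Real.cos (Real.pi * κ * (a / b) / 2) /
      Real.sin (Real.pi * κ * (a / b) / 2) : ℝ) : ℂ)) * S (chainOf (b % a) b) κ := by
  have hb : 0 < b := by omega
  have hlt := Nat.mod_lt b ha
  have hw := w_chainOf hb a hab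
  have h1 := S_odd hodd (chainOf_good hab) (nz_chainOf hb hκ a hab)
  have h2 := S_odd hodd (chainOf_good (a := b % a) (b := b) (by omega))
    (nz_chainOf hb hκ (b % a) (by omega))
  rw [h1, h2]
  rw [chainOf_pos ha] at hw ⊢
  simp only [cotProd, List.length_cons]
  rw [hw, ofReal_mul, pow_succ]
  ring

open Classical in
/-- ratio at even exponents. -/
lemma ratio_even {a b : ℕ} (ha : 0 < a) (hab : 2 * a ≤ b) (κ : ℤ) :
    S (chainOf a b) (2 * κ) = ((if ∃ n : ℤ, (κ : ℝ) * (a / b) = n then 1 / ((a : ℝ) / b) - 1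
      else -1 : ℝ) : ℂ) * S (chainOf (b % a) b) (2 * κ) := by
  have hb : 0 < b := by omega
  have hlt := Nat.mod_lt b ha
  have hw := w_chainOf hb a hab
  rw [S_even κ (chainOf_two b a hab), S_even κ (chainOf_two b (b % a) (by omega))]
  rw [chainOf_pos ha] at hw ⊢
  simp only [evProd]
  rw [hw, ofReal_mul]

/-! ### products over systems -/

/-- `∏_{c ∈ T} S_c(κ)`. -/
noncomputable def prodS (T : List (List ℕ)) (κ : ℤ) : ℂ := (T.map (fun c => S c κ)).prod

lemma prodS_nil (κ : ℤ) : prodS [] κ = 1 := rfl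

lemma prodS_cons (c : List ℕ) (T : List (List ℕ)) (κ : ℤ) :
    prodS (c :: T) κ = S c κ * prodS T κ := by
  simp [prodS]

lemma prodS_append (T T' : List (List ℕ)) (κ : ℤ) :
    prodS (T ++ T') κ = prodS T κ * prodS T' κ := by
  simp [prodS]

lemma prodS_replicate (n : ℕ) (c : List ℕ) (κ : ℤ) :
    prodS (List.replicate n c) κ = S c κ ^ n := by
  simp [prodS]

lemma prodS_rep (n : ℕ) (T : List (List ℕ)) (κ : ℤ) :
    prodS (rep n T) κ = prodS T κ ^ n := by
  induction n with
  | zero => simp [rep, prodS]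
  | succ n ih =>
    unfold rep at ih ⊢
    rw [List.replicate_succ, List.flatten_cons, prodS_append, ih, pow_succ']

lemma prodS_filter (T : List (List ℕ)) (κ : ℤ) :
    prodS (T.filter (fun c => c ≠ [])) κ = prodS T κ := by
  induction T with
  | nil => rfl
  | cons c T ih =>
    by_cases hc : c = []
    · subst hc
      rw [List.filter_cons_of_neg (by simp), ih, prodS_cons, S_nil, one_mul]
    · rw [List.filter_cons_of_pos (by simpa using hc), prodS_cons, prodS_cons, ih]

lemma prodS_flatMap (f : ℕ × ℕ × ℤ → List (List ℕ)) (L : List (ℕ × ℕ × ℤ)) (κ : ℤ) :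
    prodS (L.flatMap f) κ = (L.map (fun x => prodS (f x) κ)).prod := by
  induction L with
  | nil => rfl
  | cons x L ih =>
    rw [List.flatMap_cons, prodS_append, ih, List.map_cons, List.prod_cons]

lemma prodS_ZP (L : List (ℕ × ℕ × ℤ)) (κ : ℤ) :
    prodS (ZP L) κ = (L.map (fun x => S (chainOf x.1 x.2.1) κ ^ x.2.2.toNat *
      S (chainOf (x.2.1 % x.1) x.2.1) κ ^ (-x.2.2).toNat)).prod := by
  unfold ZP
  rw [prodS_filter, prodS_flatMap]
  congr 1
  refine List.map_congr_left fun x _ => ?_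
  rw [blockP, prodS_append, prodS_replicate, prodS_replicate]

lemma prodS_ZM (L : List (ℕ × ℕ × ℤ)) (κ : ℤ) :
    prodS (ZM L) κ = (L.map (fun x => S (chainOf (x.2.1 % x.1) x.2.1) κ ^ x.2.2.toNat *
      S (chainOf x.1 x.2.1) κ ^ (-x.2.2).toNat)).prod := by
  unfold ZM
  rw [prodS_filter, prodS_flatMap]
  congr 1
  refine List.map_congr_left fun x _ => ?_
  rw [blockM, prodS_append, prodS_replicate, prodS_replicate]

/-- if `S_chain = g * S_tail` with `g ≠ 0` for all `x ∈ L`, then
`prodS ZP = (∏ g^z) * prodS ZM`. -/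
lemma prodS_ratio (g : ℕ × ℕ × ℤ → ℂ) (κ : ℤ) : ∀ (L : List (ℕ × ℕ × ℤ)),
    (∀ x ∈ L, g x ≠ 0 ∧ S (chainOf x.1 x.2.1) κ = g x * S (chainOf (x.2.1 % x.1) x.2.1) κ) →
    prodS (ZP L) κ = (L.map (fun x => g x ^ x.2.2)).prod * prodS (ZM L) κ := by
  intro L hL
  rw [prodS_ZP, prodS_ZM]
  induction L with
  | nil => simp
  | cons x L ih =>
    have ih' := ih fun y hy => hL y (List.mem_cons_of_mem _ hy)
    obtain ⟨hg, hx⟩ := hL x List.mem_cons_self
    simp only [List.map_cons, List.prod_cons]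
    rw [ih', hx]
    have key : (g x * S (chainOf (x.2.1 % x.1) x.2.1) κ) ^ x.2.2.toNat *
        S (chainOf (x.2.1 % x.1) x.2.1) κ ^ (-x.2.2).toNat =
        g x ^ x.2.2 * (S (chainOf (x.2.1 % x.1) x.2.1) κ ^ x.2.2.toNat *
          (g x * S (chainOf (x.2.1 % x.1) x.2.1) κ) ^ (-x.2.2).toNat) := by
      generalize S (chainOf (x.2.1 % x.1) x.2.1) κ = t
      rcases le_total 0 x.2.2 with hz | hz
      · obtain ⟨n, hn⟩ := Int.eq_ofNat_of_zero_le hz
        rw [hn]
        simp [mul_pow]
      · obtain ⟨n, hn⟩ := Int.eq_ofNat_of_zero_le (neg_nonneg.2 hz)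
        have hn' : x.2.2 = -(n : ℤ) := by omega
        rw [hn']
        simp only [Int.toNat_neg_natCast, pow_zero, one_mul, neg_neg, Int.toNat_natCast,
          zpow_neg, zpow_natCast, mul_pow]
        field_simp
    rw [key]
    ring

/-! ### list products -/

lemma prod_map_pow' {α M : Type} [CommMonoid M] (f : α → M) (n : ℕ) (L : List α) :
    (L.map (fun x => f x ^ n)).prod = (L.map f).prod ^ n := by
  induction L with
  | nil => simp
  | cons x L ih => simp only [List.map_cons, List.prod_cons, ih, mul_pow]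

lemma prod_map_inv' {α M : Type} [DivisionCommMonoid M] (f : α → M) (L : List α) :
    (L.map (fun x => (f x)⁻¹)).prod = ((L.map f).prod)⁻¹ := by
  induction L with
  | nil => simp
  | cons x L ih => simp only [List.map_cons, List.prod_cons, ih, mul_inv]

lemma prod_split (L : List (ℕ × ℕ × ℤ)) (u : ℕ) (hu : 0 < u)
    (h : ∀ x ∈ L, x.2.1 = u ∨ x.2.1 = 3 * u) (f : ℕ × ℕ × ℤ → ℂ) :
    (L.map f).prod = ((L.filter (fun x => x.2.1 == u)).map f).prod *
      ((L.filter (fun x => x.2.1 == 3 * u)).map f).prod := by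
  induction L with
  | nil => simp
  | cons x L ih =>
    have ih' := ih fun y hy => h y (List.mem_cons_of_mem _ hy)
    rcases h x List.mem_cons_self with hx | hx
    · have h1 : (x.2.1 == u) = true := by simpa using hx
      have h2 : ¬ ((x.2.1 == 3 * u) = true) := by
        simp only [beq_iff_eq]; omega
      rw [List.filter_cons_of_pos (p := fun x : ℕ × ℕ × ℤ => x.2.1 == u) h1,
        List.filter_cons_of_neg (p := fun x : ℕ × ℕ × ℤ => x.2.1 == 3 * u) h2, List.map_cons,
        List.map_cons, List.prod_cons, List.prod_cons, ih', mul_assoc]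
    · have h1 : ¬ ((x.2.1 == u) = true) := by
        simp only [beq_iff_eq]; omega
      have h2 : (x.2.1 == 3 * u) = true := by simpa using hx
      rw [List.filter_cons_of_neg (p := fun x : ℕ × ℕ × ℤ => x.2.1 == u) h1,
        List.filter_cons_of_pos (p := fun x : ℕ × ℕ × ℤ => x.2.1 == 3 * u) h2, List.map_cons,
        List.map_cons, List.prod_cons, List.prod_cons, ih']
      ring

lemma key8 (c s : ℝ) (z : ℤ) :
    ((-I * (((c / s : ℝ)) : ℂ)) ^ z) ^ 8 = ((((|s / c| ^ z : ℝ) : ℂ)) ^ 8)⁻¹ := by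
  have hI : (-I) ^ 8 = 1 := by
    rw [show (-I) ^ 8 = (I ^ 4) ^ 2 by ring, I_pow_four, one_pow]
  have e2 : (-I * (((c / s : ℝ)) : ℂ)) ^ 8 = (((|s / c| ^ 8)⁻¹ : ℝ) : ℂ) := by
    rw [mul_pow, hI, one_mul, ← ofReal_pow]
    congr 1
    rw [Even.pow_abs (by decide : Even 8), ← inv_pow, inv_div]
  calc ((-I * (((c / s : ℝ)) : ℂ)) ^ z) ^ 8 = ((-I * (((c / s : ℝ)) : ℂ)) ^ 8) ^ z := by
        rw [← zpow_natCast, ← zpow_natCast, ← zpow_mul, ← zpow_mul, mul_comm z]
    _ = _ := by
        rw [e2, ← ofReal_zpow, ← ofReal_pow, ← ofReal_inv]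
        congr 1
        rw [inv_zpow]
        congr 1
        rw [← zpow_natCast, ← zpow_natCast, ← zpow_mul, ← zpow_mul, mul_comm z]

lemma prod_ofReal {α : Type} (f : α → ℝ) (L : List α) :
    (L.map (fun x => ((f x : ℝ) : ℂ))).prod = (((L.map f).prod : ℝ) : ℂ) := by
  induction L with
  | nil => simp
  | cons x L ih => simp only [List.map_cons, List.prod_cons, ofReal_mul, ih]

/-- odd case. -/
theorem eight_odd {L : List (ℕ × ℕ × ℤ)} {u : ℕ} (hC : Cert L u) {κ : ℤ} (hodd : Odd κ)
    (hκ : IsCoprime κ ((3 * u : ℕ) : ℤ)) : prodS (ZP L) κ ^ 8 = prodS (ZM L) κ ^ 8 := by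
  set g : ℕ × ℕ × ℤ → ℂ := fun x =>
    (-I * ((Real.cos (Real.pi * κ * (x.1 / x.2.1) / 2) /
      Real.sin (Real.pi * κ * (x.1 / x.2.1) / 2) : ℝ) : ℂ)) with hg
  have hcop : ∀ x ∈ L, IsCoprime κ (x.2.1 : ℤ) := by
    intro x hx
    rcases (hC.range x hx).2.2.2 with h | h
    · rw [h]
      refine IsCoprime.of_isCoprime_of_dvd_right hκ ?_
      exact ⟨3, by push_cast; ring⟩
    · rw [h]; exact hκ
  -- no zero of `sin (πκ a / b)`
  have hns : ∀ x ∈ L, Real.sin (Real.pi * κ * (x.1 / x.2.1)) ≠ 0 := by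
    intro x hx h0
    obtain ⟨ha, hab, -, -⟩ := hC.range x hx
    rw [Real.sin_eq_zero_iff] at h0
    obtain ⟨n, hn⟩ := h0
    have hbR : (x.2.1 : ℝ) ≠ 0 := by
      have : x.2.1 ≠ 0 := by omega
      exact_mod_cast this
    have h1 : (κ : ℝ) * x.1 = x.2.1 * n := by
      have hp := Real.pi_pos.ne'
      field_simp at hn
      linear_combination (-1 : ℝ) * hn
    have h2 : κ * x.1 = x.2.1 * n := by exact_mod_cast h1
    have h3 : (x.2.1 : ℤ) ∣ κ * x.1 := ⟨n, h2⟩
    have h4 : (x.2.1 : ℤ) ∣ x.1 := (hcop x hx).symm.dvd_of_dvd_mul_left h3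
    have h5 : x.2.1 ∣ x.1 := by exact_mod_cast h4
    have := Nat.le_of_dvd ha h5
    omega
  have hsc : ∀ x ∈ L, Real.sin (Real.pi * κ * (x.1 / x.2.1) / 2) ≠ 0 ∧
      Real.cos (Real.pi * κ * (x.1 / x.2.1) / 2) ≠ 0 := by
    intro x hx
    have h1 := hns x hx
    have h2 : Real.sin (Real.pi * κ * (x.1 / x.2.1)) =
        2 * Real.sin (Real.pi * κ * (x.1 / x.2.1) / 2) *
          Real.cos (Real.pi * κ * (x.1 / x.2.1) / 2) := by
      rw [← Real.sin_two_mul]; congr 1; ring
    rw [h2] at h1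
    exact ⟨fun h => h1 (by rw [h]; ring), fun h => h1 (by rw [h]; ring)⟩
  have hne : ∀ x ∈ L, g x ≠ 0 := by
    intro x hx
    obtain ⟨h1, h2⟩ := hsc x hx
    refine mul_ne_zero (neg_ne_zero.2 I_ne_zero) ?_
    exact_mod_cast div_ne_zero h2 h1
  have hr := prodS_ratio g κ L fun x hx => ⟨hne x hx, by
    obtain ⟨ha, hab, -, -⟩ := hC.range x hx
    exact ratio_odd ha (by omega) hodd (hcop x hx)⟩
  have h8 : (L.map (fun x => g x ^ x.2.2)).prod ^ 8 = 1 := by
    rw [← prod_map_pow']
    have h1 : (L.map (fun x => (g x ^ x.2.2) ^ 8)) = L.map (fun x =>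
        (((((|Real.tan (Real.pi * κ * x.1 / (2 * x.2.1))| ^ x.2.2 : ℝ)) : ℂ)) ^ 8)⁻¹) := by
      refine List.map_congr_left fun x hx => ?_
      have e1 : Real.pi * κ * x.1 / (2 * x.2.1) = Real.pi * κ * (x.1 / x.2.1) / 2 := by
        have hbR : (x.2.1 : ℝ) ≠ 0 := by
          have : x.2.1 ≠ 0 := by
            have := hC.range x hx; omega
          exact_mod_cast this
        field_simp
      rw [hg, e1, Real.tan_eq_sin_div_cos]
      exact key8 _ _ _
    rw [h1, prod_map_inv', prod_map_pow', prod_ofReal, hC.tan κ hodd hκ]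
    simp
  rw [hr, mul_pow, h8, one_mul]

/-- even case. -/
theorem eight_even {L : List (ℕ × ℕ × ℤ)} {u : ℕ} (hC : Cert L u) (κ : ℤ) :
    prodS (ZP L) (2 * κ) ^ 8 = prodS (ZM L) (2 * κ) ^ 8 := by
  classical
  set r : ℕ × ℕ × ℤ → ℝ := fun x => 1 / ((x.1 : ℝ) / x.2.1) - 1 with hr
  set g : ℕ × ℕ × ℤ → ℂ := fun x =>
    ((if ∃ n : ℤ, (κ : ℝ) * (x.1 / x.2.1) = n then r x else -1 : ℝ) : ℂ) with hg
  have hrr : ∀ x ∈ L, r x = ((x.2.1 : ℝ) - x.1) / x.1 ∧ r x ≠ 0 := by
    intro x hx
    obtain ⟨ha, hab, -, -⟩ := hC.range x hx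
    have haR : (0 : ℝ) < x.1 := by exact_mod_cast ha
    have habR : (2 : ℝ) * x.1 < x.2.1 := by exact_mod_cast hab
    have h1 : r x = ((x.2.1 : ℝ) - x.1) / x.1 := by
      simp only [hr]
      field_simp
    refine ⟨h1, ?_⟩
    rw [h1]
    exact div_ne_zero (by linarith) haR.ne'
  have hne : ∀ x ∈ L, g x ≠ 0 := by
    intro x hx
    simp only [hg]
    split_ifs
    · exact_mod_cast (hrr x hx).2
    · norm_num
  have hrat := prodS_ratio g (2 * κ) L fun x hx => ⟨hne x hx, by
    obtain ⟨ha, hab, -, -⟩ := hC.range x hx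
    exact ratio_even ha (by omega) κ⟩
  have hu : 0 < u := hC.prime.pos
  have hlev : ∀ b : ℕ, ((L.filter (fun x => x.2.1 == b)).map
      (fun x => (g x ^ x.2.2) ^ 8)).prod = 1 := by
    intro b
    have hmem : ∀ x ∈ L.filter (fun x => x.2.1 == b), x ∈ L ∧ x.2.1 = b := by
      intro x hx
      rw [List.mem_filter] at hx
      exact ⟨hx.1, by simpa using hx.2⟩
    -- the condition is `b ∣ κ`
    have hcond : ∀ x ∈ L.filter (fun x => x.2.1 == b),
        ((∃ n : ℤ, (κ : ℝ) * (x.1 / x.2.1) = n) ↔ (b : ℤ) ∣ κ) := by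
      intro x hx
      obtain ⟨hxL, hxb⟩ := hmem x hx
      obtain ⟨ha, hab, hcop, -⟩ := hC.range x hxL
      have hbR : (x.2.1 : ℝ) ≠ 0 := by
        have : x.2.1 ≠ 0 := by omega
        exact_mod_cast this
      rw [← hxb]
      constructor
      · rintro ⟨n, hn⟩
        have h1 : (κ : ℝ) * x.1 = x.2.1 * n := by
          field_simp at hn
          linear_combination hn
        have h2 : κ * x.1 = x.2.1 * n := by exact_mod_cast h1
        have h3 : IsCoprime (x.1 : ℤ) (x.2.1 : ℤ) := Nat.isCoprime_iff_coprime.2 hcop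
        exact h3.symm.dvd_of_dvd_mul_right ⟨n, h2⟩
      · rintro ⟨n, hn⟩
        refine ⟨n * x.1, ?_⟩
        rw [hn]
        push_cast
        field_simp
    by_cases hb : (b : ℤ) ∣ κ
    · have h1 : ((L.filter (fun x => x.2.1 == b)).map (fun x => (g x ^ x.2.2) ^ 8)) =
          ((L.filter (fun x => x.2.1 == b)).map
            (fun x => (((((x.2.1 : ℚ) - x.1) / x.1) ^ x.2.2 : ℚ) : ℂ) ^ 8)) := by
        refine List.map_congr_left fun x hx => ?_
        have h2 := (hcond x hx).2 hb
        simp only [hg]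
        rw [if_pos h2, (hrr x (hmem x hx).1).1]
        push_cast
        rfl
      rw [h1, prod_map_pow']
      have h3 : ((L.filter (fun x => x.2.1 == b)).map
          (fun x => ((((((x.2.1 : ℚ) - x.1) / x.1) ^ x.2.2 : ℚ)) : ℂ))).prod =
          ((((L.filter (fun x => x.2.1 == b)).map
            (fun x => (((x.2.1 : ℚ) - x.1) / x.1) ^ x.2.2)).prod : ℚ) : ℂ) := by
        generalize L.filter (fun x => x.2.1 == b) = L'
        induction L' with
        | nil => simp
        | cons x L' ih => simp only [List.map_cons, List.prod_cons, Rat.cast_mul, ih]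
      rw [h3, hC.zeta b]
      simp
    · have h1 : ((L.filter (fun x => x.2.1 == b)).map (fun x => (g x ^ x.2.2) ^ 8)) =
          ((L.filter (fun x => x.2.1 == b)).map (fun _ => (1 : ℂ))) := by
        refine List.map_congr_left fun x hx => ?_
        have h2 : ¬ ∃ n : ℤ, (κ : ℝ) * (x.1 / x.2.1) = n := fun h => hb ((hcond x hx).1 h)
        simp only [hg]
        rw [if_neg h2]
        have h3 : (((-1 : ℝ) : ℂ) ^ x.2.2) ^ 8 = ((((-1 : ℝ) : ℂ)) ^ 8) ^ x.2.2 := by
          rw [← zpow_natCast, ← zpow_natCast, ← zpow_mul, ← zpow_mul, mul_comm x.2.2]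
        rw [h3]
        norm_num
      rw [h1]
      simp
  have h8 : (L.map (fun x => g x ^ x.2.2)).prod ^ 8 = 1 := by
    rw [← prod_map_pow', prod_split L u hu (fun x hx => (hC.range x hx).2.2.2), hlev, hlev, one_mul]
  rw [hrat, mul_pow, h8, one_mul]

/-! ### killers -/

lemma S_single {a : ℕ} (ha : 0 < a) (κ : ℤ) :
    S [a] κ = (∑ s ∈ Finset.range a, u (-(κ * w [a])) ^ s) - 1 := by
  have hg : Good [a] := by
    intro x hx
    rw [List.mem_singleton] at hx
    rw [hx]; exact ha
  have h1 := Z_eq_S_add hg κ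
  have h2 := Z_cons hg κ
  rw [S_nil] at h1
  rw [Z_nil] at h2
  simp only [List.length_nil, Nat.cast_zero, mul_zero, u_zero, map_one, mul_one, one_mul] at h1 h2
  rw [← h2, h1]
  ring

lemma killer {a : ℕ} (ha : Odd a) {κ : ℤ} (hodd : Odd κ) (hd : (a : ℤ) ∣ κ) : S [a] κ = 0 := by
  obtain ⟨m, hm⟩ := hd
  have ha0 : 0 < a := ha.pos
  have haR : (a : ℝ) ≠ 0 := by exact_mod_cast ha0.ne'
  have hm' : Odd m := by
    rw [hm] at hodd
    exact (Int.odd_mul.1 hodd).2
  have h1 : u (-(κ * w [a])) = -1 := by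
    have : -((κ : ℝ) * w [a]) = ((-m : ℤ) : ℝ) := by
      rw [hm]
      simp only [w, mu, List.prod_nil]
      push_cast
      field_simp
    rw [this, u_int_odd hm'.neg]
  rw [S_single ha0, h1, neg_one_geom_sum, if_neg (Nat.not_even_iff_odd.2 ha), sub_self]

/-! ### the family -/

theorem prodS_F (L : List (ℕ × ℕ × ℤ)) (v : ℕ) (q : List ℕ) (s j : ℕ) (κ : ℤ) :
    prodS (F L v q s j) κ = S [3] κ ^ 8 * S [v] κ ^ 8 * (prodS (ZP L) κ ^ 8) ^ (s - j) *
      (prodS (ZM L) κ ^ 8) ^ j * prodS (q.map (fun x => [x])) κ := by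
  unfold F
  rw [prodS_append, prodS_append, prodS_append, prodS_append, prodS_rep, prodS_rep, prodS_rep,
    prodS_rep, prodS_cons, prodS_cons, prodS_nil, mul_one, mul_one, pow_mul, pow_mul]

/-- **P4.3.** -/
theorem prodS_F_eq {L : List (ℕ × ℕ × ℤ)} {v : ℕ} (hC : Cert L v) (q : List ℕ) {s i j : ℕ}
    (hi : i ≤ s) (hj : j ≤ s) (κ : ℤ) :
    prodS (F L v q s i) κ = prodS (F L v q s j) κ := by
  rw [prodS_F, prodS_F]
  have hvodd : Odd v := hC.prime.odd_of_ne_two (by have := hC.big; omega)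
  by_cases h0 : S [3] κ = 0 ∨ S [v] κ = 0
  · rcases h0 with h0 | h0 <;> rw [h0] <;> simp
  · push Not at h0
    have h8 : prodS (ZP L) κ ^ 8 = prodS (ZM L) κ ^ 8 := by
      rcases Int.even_or_odd' κ with ⟨m, rfl | rfl⟩
      · exact eight_even hC m
      · have hodd : Odd (2 * m + 1) := ⟨m, rfl⟩
        have h3 : ¬ ((3 : ℕ) : ℤ) ∣ (2 * m + 1) := fun h => h0.1 (killer (by decide) hodd h)
        have hv : ¬ ((v : ℕ) : ℤ) ∣ (2 * m + 1) := fun h => h0.2 (killer hvodd hodd h)
        refine eight_odd hC hodd ?_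
        have c3 : IsCoprime (2 * m + 1 : ℤ) ((3 : ℕ) : ℤ) := by
          have hp : Prime ((3 : ℕ) : ℤ) := Nat.prime_iff_prime_int.1 (by norm_num)
          exact ((Prime.coprime_iff_not_dvd hp).2 h3).symm
        have cv : IsCoprime (2 * m + 1 : ℤ) ((v : ℕ) : ℤ) := by
          have hp : Prime ((v : ℕ) : ℤ) := Nat.prime_iff_prime_int.1 hC.prime
          exact ((Prime.coprime_iff_not_dvd hp).2 hv).symm
        push_cast at c3 cv ⊢
        exact c3.mul_right cv
    rw [h8]
    have e1 : (prodS (ZM L) κ ^ 8) ^ (s - i) * (prodS (ZM L) κ ^ 8) ^ i =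
        (prodS (ZM L) κ ^ 8) ^ (s - j) * (prodS (ZM L) κ ^ 8) ^ j := by
      rw [← pow_add, ← pow_add, Nat.sub_add_cancel hi, Nat.sub_add_cancel hj]
    linear_combination (S [3] κ ^ 8 * S [v] κ ^ 8 * prodS (q.map (fun x => [x])) κ) * e1

/-! ### number of roots -/

/-- number of roots of `phi c`. -/
theorem card_rootSet {c : List ℕ} (h : ∀ a ∈ c, 2 ≤ a) : (rootSet c).card = mu c := by
  have h1 := (S_even_aux 0 h).2 ⟨0, by simp⟩
  unfold S at h1
  simp only [mul_zero, Int.cast_zero, zero_mul, u_zero, Finset.sum_const, nsmul_eq_mul,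
    mul_one] at h1
  exact_mod_cast h1

end Crest.Agent.R267.P43_903
end

-- ▼ part R267/Reals_903
section

/-!
# S0407, REALS part 1 (helper903): real congruence from complex diagonalisation data.

`Diag A ι σ z`: the real matrix `A` is `V^H diag(z) V` with `V` invertible and `σ` the complex
conjugation on the index set.  Two such matrices with the same multiset of `z`'s and `σ` without
fixed points are congruent over `ℝ`.
-/

set_option autoImplicit false

namespace Crest.Agent.R267.Reals_903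

open Matrix Crest.Agent.R267.P4Defs_780

/-- complex diagonalisation data of a real bilinear form. -/
structure Diag {n : Type} [Fintype n] [DecidableEq n] (A : Matrix n n ℝ)
    (ι : Type) [Fintype ι] [DecidableEq ι] (σ : ι → ι) (z : ι → ℂ) where
  V : Matrix ι n ℂ
  W : Matrix n ι ℂ
  VW : V * W = 1
  WV : W * V = 1
  inv : ∀ k, σ (σ k) = k
  conjV : ∀ k j, V (σ k) j = (starRingEnd ℂ) (V k j)
  form : ∀ i j, (A i j : ℂ) = ∑ k, z k * ((starRingEnd ℂ) (V k i) * V k j)

section Cong

variable {n n' : Type} [Fintype n] [DecidableEq n] [Fintype n'] [DecidableEq n']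
  {A : Matrix n n ℝ} {A' : Matrix n' n' ℝ}
  {ι ι' : Type} [Fintype ι] [DecidableEq ι] [Fintype ι'] [DecidableEq ι']
  {σ : ι → ι} {σ' : ι' → ι'} {z : ι → ℂ} {z' : ι' → ℂ}

lemma Diag.conjW (D : Diag A ι σ z) (i : n) (k : ι) :
    D.W i (σ k) = (starRingEnd ℂ) (D.W i k) := by
  have hσ : Function.Involutive σ := D.inv
  set e : ι ≃ ι := hσ.toPerm σ
  -- `W.submatrix id σ` and `conj W` are both inverse to `conj V`
  have h1 : D.V.map (starRingEnd ℂ) = D.V.submatrix e id := by
    ext k j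
    simp only [Matrix.map_apply, Matrix.submatrix_apply, id]
    exact (D.conjV k j).symm
  have h2 : (D.V.map (starRingEnd ℂ)) * (D.W.map (starRingEnd ℂ)) = 1 := by
    rw [← Matrix.map_mul, D.VW, Matrix.map_one _ (map_zero _) (map_one _)]
  have h3 : (D.W.submatrix id e) * (D.V.submatrix e id) = 1 := by
    rw [Matrix.submatrix_mul_equiv, D.WV, Matrix.submatrix_id_id]
  have h4 : D.W.submatrix id e = D.W.map (starRingEnd ℂ) := by
    calc D.W.submatrix id e = D.W.submatrix id e * ((D.V.map (starRingEnd ℂ)) *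
          (D.W.map (starRingEnd ℂ))) := by rw [h2, Matrix.mul_one]
      _ = (D.W.submatrix id e * D.V.submatrix e id) * (D.W.map (starRingEnd ℂ)) := by
          rw [h1, Matrix.mul_assoc]
      _ = _ := by rw [h3, Matrix.one_mul]
  have h5 := congrFun (congrFun h4 i) k
  simpa [e] using h5

/-- transition matrix of an equivariant bijection. -/
noncomputable def trans (D : Diag A ι σ z) (D' : Diag A' ι' σ' z') (τ : ι ≃ ι') :
    Matrix n n' ℂ := D.W * D'.V.submatrix τ id

lemma trans_real (D : Diag A ι σ z) (D' : Diag A' ι' σ' z') (τ : ι ≃ ι')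
    (hτ : ∀ k, τ (σ k) = σ' (τ k)) (i : n) (j : n') :
    (starRingEnd ℂ) (trans D D' τ i j) = trans D D' τ i j := by
  have hσ : Function.Involutive σ := D.inv
  unfold trans
  simp only [Matrix.mul_apply, Matrix.submatrix_apply, id, map_sum, map_mul]
  have h1 : ∀ k, (starRingEnd ℂ) (D.W i k) * (starRingEnd ℂ) (D'.V (τ k) j) =
      D.W i (σ k) * D'.V (τ (σ k)) j := by
    intro k
    rw [D.conjW, hτ, D'.conjV]
  simp only [h1]
  exact Equiv.sum_comp (hσ.toPerm σ) (fun k => D.W i k * D'.V (τ k) j)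

lemma trans_mul (D : Diag A ι σ z) (D' : Diag A' ι' σ' z') (τ : ι ≃ ι') :
    trans D D' τ * trans D' D τ.symm = 1 := by
  unfold trans
  calc D.W * D'.V.submatrix τ id * (D'.W * D.V.submatrix τ.symm id)
      = D.W * ((D'.V.submatrix τ id * D'.W) * D.V.submatrix τ.symm id) := by
        simp only [Matrix.mul_assoc]
    _ = D.W * D.V := by
        congr 1
        have h1 : D'.V.submatrix τ id * D'.W = (1 : Matrix ι' ι' ℂ).submatrix τ id := by
          have := D'.VW
          rw [← this]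
          ext i j
          simp [Matrix.mul_apply]
        rw [h1]
        ext k j
        simp [Matrix.mul_apply, Matrix.one_apply]
    _ = 1 := D.WV

theorem cong_of_diag (D : Diag A ι σ z) (D' : Diag A' ι' σ' z') (τ : ι ≃ ι')
    (hτ : ∀ k, τ (σ k) = σ' (τ k)) (hz : ∀ k, z' (τ k) = z k) : Cong ℝ A A' := by
  have hτ' : ∀ k, τ.symm (σ' k) = σ (τ.symm k) := by
    intro k
    rw [Equiv.symm_apply_eq, hτ, Equiv.apply_symm_apply]
  have hinj : Function.Injective (Complex.ofReal : ℝ → ℂ) := Complex.ofReal_injective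
  set P : Matrix n n' ℝ := (trans D D' τ).map Complex.re with hP
  set Q : Matrix n' n ℝ := (trans D' D τ.symm).map Complex.re with hQ
  have hPc : P.map Complex.ofRealHom = trans D D' τ := by
    ext i j
    simp only [hP, Matrix.map_apply, Complex.ofRealHom_eq_coe]
    exact Complex.conj_eq_iff_re.1 (trans_real D D' τ hτ i j)
  have hQc : Q.map Complex.ofRealHom = trans D' D τ.symm := by
    ext i j
    simp only [hQ, Matrix.map_apply, Complex.ofRealHom_eq_coe]
    exact Complex.conj_eq_iff_re.1 (trans_real D' D τ.symm hτ' i j)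
  have hmapinj : ∀ {a b : Type} (X Y : Matrix a b ℝ),
      X.map Complex.ofRealHom = Y.map Complex.ofRealHom → X = Y := by
    intro a b X Y h
    ext i j
    have := congrFun (congrFun h i) j
    exact hinj this
  refine ⟨P, Q, ?_, ?_, ?_⟩
  · apply hmapinj
    rw [Matrix.map_mul, hPc, hQc, trans_mul, Matrix.map_one _ (map_zero _) (map_one _)]
  · apply hmapinj
    rw [Matrix.map_mul, hPc, hQc, Matrix.map_one _ (map_zero _) (map_one _)]
    have := trans_mul D' D τ.symm
    rwa [Equiv.symm_symm] at this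
  · apply hmapinj
    rw [Matrix.map_mul, Matrix.map_mul, Matrix.transpose_map, hPc]
    have hVP : D.V * trans D D' τ = D'.V.submatrix τ id := by
      unfold trans
      rw [← Matrix.mul_assoc, D.VW, Matrix.one_mul]
    have hA : A.map Complex.ofRealHom = D.Vᴴ * Matrix.diagonal z * D.V := by
      ext i j
      simp only [Matrix.map_apply, Complex.ofRealHom_eq_coe]
      rw [D.form, Matrix.mul_assoc, Matrix.mul_apply]
      refine Finset.sum_congr rfl fun k _ => ?_
      rw [Matrix.diagonal_mul, Matrix.conjTranspose_apply, RCLike.star_def]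
      ring
    have hreal : (trans D D' τ)ᵀ = (trans D D' τ)ᴴ := by
      ext i j
      rw [Matrix.transpose_apply, Matrix.conjTranspose_apply, RCLike.star_def,
        trans_real D D' τ hτ]
    rw [hreal, hA]
    calc (trans D D' τ)ᴴ * (D.Vᴴ * Matrix.diagonal z * D.V) * trans D D' τ
        = (D.V * trans D D' τ)ᴴ * Matrix.diagonal z * (D.V * trans D D' τ) := by
          rw [Matrix.conjTranspose_mul]; simp only [Matrix.mul_assoc]
      _ = _ := by
          rw [hVP]
          ext i j
          simp only [Matrix.map_apply, Complex.ofRealHom_eq_coe]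
          rw [D'.form, Matrix.mul_assoc, Matrix.mul_apply, ← Equiv.sum_comp τ]
          refine Finset.sum_congr rfl fun k _ => ?_
          rw [Matrix.diagonal_mul, Matrix.conjTranspose_apply, RCLike.star_def,
            Matrix.submatrix_apply, Matrix.submatrix_apply, hz]
          simp only [id]
          ring

end Cong

section Match

variable {ι ι' : Type} [Fintype ι] [DecidableEq ι] [Fintype ι'] [DecidableEq ι']
  {σ : ι → ι} {σ' : ι' → ι'} {z : ι → ℂ} {z' : ι' → ℂ}

/-- inductive matching. -/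
lemma match_aux [Nonempty ι'] (hσ : ∀ k, σ (σ k) = k) (hσ' : ∀ k, σ' (σ' k) = k)
    (hne : ∀ k, σ k ≠ k)
    (hne' : ∀ k, σ' k ≠ k) (hz : ∀ k, z (σ k) = (starRingEnd ℂ) (z k))
    (hz' : ∀ k, z' (σ' k) = (starRingEnd ℂ) (z' k)) (N : ℕ) :
    ∀ (s : Finset ι) (s' : Finset ι'), s.card = N → (∀ k ∈ s, σ k ∈ s) → (∀ k ∈ s', σ' k ∈ s') →
      Multiset.map z s.val = Multiset.map z' s'.val →
      ∃ g : ι → ι', (∀ k ∈ s, g k ∈ s' ∧ g (σ k) = σ' (g k) ∧ z' (g k) = z k) ∧
        Set.InjOn g s := by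
  induction N using Nat.strong_induction_on with
  | _ N ih =>
    intro s s' hs h1 h2 hm
    rcases s.eq_empty_or_nonempty with rfl | ⟨x, hx⟩
    · exact ⟨fun _ => Classical.arbitrary ι', by simp, by simp⟩
    · have hyy : z x ∈ Multiset.map z' s'.val := by
        rw [← hm]; exact Multiset.mem_map_of_mem z hx
      obtain ⟨y, hy', hyx⟩ := Multiset.mem_map.1 hyy
      have hy : y ∈ s' := hy'
      have hσx := h1 x hx
      have hσy := h2 y hy
      have injσ : ∀ a b, σ a = σ b → a = b := fun a b h => by rw [← hσ a, h, hσ]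
      have injσ' : ∀ a b, σ' a = σ' b → a = b := fun a b h => by rw [← hσ' a, h, hσ']
      obtain ⟨g, hg, hgi⟩ := ih ((s.erase x).erase (σ x)).card (by
          rw [← hs]
          refine lt_of_le_of_lt (Finset.card_le_card (Finset.erase_subset _ _)) ?_
          exact Finset.card_erase_lt_of_mem hx)
        ((s.erase x).erase (σ x)) ((s'.erase y).erase (σ' y)) rfl
        (by
          intro k hk
          simp only [Finset.mem_erase] at hk ⊢
          refine ⟨fun h => hk.2.1 (injσ _ _ h), fun h => hk.1 ?_, h1 k hk.2.2⟩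
          rw [← hσ k, h])
        (by
          intro k hk
          simp only [Finset.mem_erase] at hk ⊢
          refine ⟨fun h => hk.2.1 (injσ' _ _ h), fun h => hk.1 ?_, h2 k hk.2.2⟩
          rw [← hσ' k, h])
        (by
          rw [Finset.erase_val, Finset.erase_val, Finset.erase_val, Finset.erase_val,
            Multiset.map_erase_of_mem z _ (by
              rw [← Finset.erase_val]; exact Finset.mem_erase.2 ⟨hne x, hσx⟩),
            Multiset.map_erase_of_mem z' _ (by
              rw [← Finset.erase_val]; exact Finset.mem_erase.2 ⟨hne' y, hσy⟩),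
            Multiset.map_erase_of_mem z _ hx, Multiset.map_erase_of_mem z' _ hy, hm, hyx, hz, hz',
            hyx])
      refine ⟨fun k => if k = x then y else if k = σ x then σ' y else g k, ?_, ?_⟩
      · intro k hk
        by_cases hkx : k = x
        · subst hkx
          refine ⟨?_, ?_, ?_⟩
          · simpa using hy
          · simp [hne k]
          · simpa using hyx
        · by_cases hkσ : k = σ x
          · subst hkσ
            refine ⟨?_, ?_, ?_⟩
            · simpa [hne x] using hσy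
            · simp [hσ, hσ', hne x]
            · simp [hne x, hz, hz', hyx]
          · have hk' : k ∈ (s.erase x).erase (σ x) := by
              simp only [Finset.mem_erase]; exact ⟨hkσ, hkx, hk⟩
            obtain ⟨g1, g2, g3⟩ := hg k hk'
            have n1 : σ k ≠ x := fun h => hkσ (by rw [← h, hσ])
            have n2 : σ k ≠ σ x := fun h => hkx (injσ _ _ h)
            simp only [if_neg hkx, if_neg hkσ, if_neg n1, if_neg n2]
            simp only [Finset.mem_erase] at g1
            exact ⟨g1.2.2, g2, g3⟩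
      · intro a ha b hb hab
        have key : ∀ k ∈ s, k ≠ x → k ≠ σ x → g k ≠ y ∧ g k ≠ σ' y := by
          intro k hk hkx hkσ
          have hk' : k ∈ (s.erase x).erase (σ x) := by
            simp only [Finset.mem_erase]; exact ⟨hkσ, hkx, hk⟩
          have := (hg k hk').1
          simp only [Finset.mem_erase] at this
          exact ⟨this.2.1, this.1⟩
        simp only at hab
        by_cases hax : a = x
        · by_cases hbx : b = x
          · rw [hax, hbx]
          · rw [if_pos hax, if_neg hbx] at hab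
            by_cases hbσ : b = σ x
            · rw [if_pos hbσ] at hab; exact absurd hab.symm (hne' y)
            · rw [if_neg hbσ] at hab; exact absurd hab.symm (key b hb hbx hbσ).1
        · rw [if_neg hax] at hab
          by_cases haσ : a = σ x
          · rw [if_pos haσ] at hab
            by_cases hbx : b = x
            · rw [if_pos hbx] at hab; exact absurd hab (hne' y)
            · rw [if_neg hbx] at hab
              by_cases hbσ : b = σ x
              · rw [haσ, hbσ]
              · rw [if_neg hbσ] at hab; exact absurd hab.symm (key b hb hbx hbσ).2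
          · rw [if_neg haσ] at hab
            by_cases hbx : b = x
            · rw [if_pos hbx] at hab; exact absurd hab (key a ha hax haσ).1
            · rw [if_neg hbx] at hab
              by_cases hbσ : b = σ x
              · rw [if_pos hbσ] at hab; exact absurd hab (key a ha hax haσ).2
              · rw [if_neg hbσ] at hab
                apply hgi _ _ hab
                · simp only [Finset.coe_erase, Set.mem_sdiff, Set.mem_singleton_iff]
                  exact ⟨⟨ha, hax⟩, haσ⟩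
                · simp only [Finset.coe_erase, Set.mem_sdiff, Set.mem_singleton_iff]
                  exact ⟨⟨hb, hbx⟩, hbσ⟩

/-- equivariant matching of two index sets with the same multiset of values. -/
theorem exists_match (hσ : ∀ k, σ (σ k) = k) (hσ' : ∀ k, σ' (σ' k) = k)
    (hne : ∀ k, σ k ≠ k)
    (hne' : ∀ k, σ' k ≠ k) (hz : ∀ k, z (σ k) = (starRingEnd ℂ) (z k))
    (hz' : ∀ k, z' (σ' k) = (starRingEnd ℂ) (z' k))
    (hm : Multiset.map z (Finset.univ : Finset ι).val =
      Multiset.map z' (Finset.univ : Finset ι').val) :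
    ∃ τ : ι ≃ ι', (∀ k, τ (σ k) = σ' (τ k)) ∧ ∀ k, z' (τ k) = z k := by
  have hcard : Fintype.card ι = Fintype.card ι' := by
    have := congrArg Multiset.card hm
    simpa using this
  rcases isEmpty_or_nonempty ι' with he | he
  · have hι : IsEmpty ι := by
      rw [← Fintype.card_eq_zero_iff, hcard, Fintype.card_eq_zero_iff]; exact he
    exact ⟨Equiv.equivOfIsEmpty ι ι', fun k => (hι.false k).elim, fun k => (hι.false k).elim⟩
  · obtain ⟨g, hg, hgi⟩ := match_aux hσ hσ' hne hne' hz hz' _ Finset.univ Finset.univ rfl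
      (by simp) (by simp) hm
    have hinj : Function.Injective g := by
      intro a b hab
      exact hgi (by simp) (by simp) hab
    have hbij : Function.Bijective g := (Fintype.bijective_iff_injective_and_card g).2 ⟨hinj, hcard⟩
    exact ⟨Equiv.ofBijective g hbij, fun k => (hg k (by simp)).2.1, fun k => (hg k (by simp)).2.2⟩

end Match

section Power

variable {ι ι' : Type} [Fintype ι] [Fintype ι']

/-- equal power sums imply equal multisets of values. -/
theorem multiset_eq_of_powersums {f : ι → ℂ} {f' : ι' → ℂ}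
    (h : ∀ n : ℕ, ∑ k, f k ^ n = ∑ k, f' k ^ n) :
    Multiset.map f (Finset.univ : Finset ι).val = Multiset.map f' (Finset.univ : Finset ι').val := by
  classical
  have hp : ∀ p : Polynomial ℂ, ∑ k, p.eval (f k) = ∑ k, p.eval (f' k) := by
    intro p
    simp only [Polynomial.eval_eq_sum_range]
    rw [Finset.sum_comm, Finset.sum_comm (s := (Finset.univ : Finset ι'))]
    refine Finset.sum_congr rfl fun i _ => ?_
    rw [← Finset.mul_sum, ← Finset.mul_sum, h]
  ext z
  rw [Multiset.count_map, Multiset.count_map]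
  set T : Finset ℂ := (Finset.univ.image f ∪ Finset.univ.image f').erase z with hT
  set p : Polynomial ℂ := ∏ w ∈ T, (Polynomial.X - Polynomial.C w) with hpdef
  have hpz : p.eval z ≠ 0 := by
    rw [hpdef, Polynomial.eval_prod, Finset.prod_ne_zero_iff]
    intro w hw
    simp only [Polynomial.eval_sub, Polynomial.eval_X, Polynomial.eval_C]
    rw [sub_ne_zero]
    exact (Finset.ne_of_mem_erase hw).symm
  have hp0 : ∀ w ∈ T, p.eval w = 0 := by
    intro w hw
    rw [hpdef, Polynomial.eval_prod]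
    exact Finset.prod_eq_zero hw (by simp)
  have key := hp p
  have e1 : ∀ k, p.eval (f k) = if z = f k then p.eval z else 0 := by
    intro k
    by_cases hk : z = f k
    · rw [if_pos hk, ← hk]
    · rw [if_neg hk]
      apply hp0
      rw [hT, Finset.mem_erase]
      exact ⟨fun h => hk h.symm, Finset.mem_union_left _ (Finset.mem_image_of_mem f (Finset.mem_univ k))⟩
  have e2 : ∀ k, p.eval (f' k) = if z = f' k then p.eval z else 0 := by
    intro k
    by_cases hk : z = f' k
    · rw [if_pos hk, ← hk]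
    · rw [if_neg hk]
      apply hp0
      rw [hT, Finset.mem_erase]
      exact ⟨fun h => hk h.symm, Finset.mem_union_right _ (Finset.mem_image_of_mem f' (Finset.mem_univ k))⟩
  simp only [e1, e2] at key
  rw [← Finset.sum_filter, ← Finset.sum_filter, Finset.sum_const, Finset.sum_const,
    nsmul_eq_mul, nsmul_eq_mul] at key
  have key2 := mul_right_cancel₀ hpz key
  have key3 : (Finset.univ.filter (fun k => z = f k)).card =
      (Finset.univ.filter (fun k => z = f' k)).card := by exact_mod_cast key2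
  exact key3

end Power

end Crest.Agent.R267.Reals_903
end

-- ▼ part R267/RealsB_903

/-!
# S0407, REALS part 2 (helper903): diagonalisation data of the Seifert matrices of chains and
systems; the theorem REALS.
-/

set_option autoImplicit false

namespace Crest.Agent.R267.RealsB_903

open Crest.Agent.R267.P4Defs_780 Crest.Agent.R267.P41_339 Crest.Agent.R267.P42_339
open Crest.Agent.R267.P43_903 Crest.Agent.R267.Reals_903
open Complex Matrix
open scoped ComplexConjugate

/-! ### one chain -/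

/-- index type: roots of `phi c`. -/
abbrev RI (c : List ℕ) : Type := {m : ℕ // m ∈ rootSet c}

/-- the argument `x = m / r`. -/
noncomputable def xx (c : List ℕ) (m : ℕ) : ℝ := (m : ℝ) / ((c.prod : ℕ) : ℝ)

/-- conjugation on indices. -/
def sg (c : List ℕ) (m : ℕ) : ℕ := (c.prod - m) % c.prod

lemma e_conj (x : ℝ) : conj (e x) = e (-x) := by
  unfold e
  rw [← exp_conj]
  congr 1
  rw [map_mul, conj_I, conj_ofReal]
  push_cast
  ring

lemma e_sg {c : List ℕ} (hc : 0 < c.prod) {m : ℕ} (hm : m < c.prod) :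
    e (xx c (sg c m)) = e (-(xx c m)) := by
  have hr : ((c.prod : ℕ) : ℝ) ≠ 0 := by exact_mod_cast hc.ne'
  unfold xx sg
  rcases Nat.eq_zero_or_pos m with rfl | h0
  · simp
  · rw [Nat.mod_eq_of_lt (by omega), Nat.cast_sub hm.le]
    have : (((c.prod : ℕ) : ℝ) - m) / ((c.prod : ℕ) : ℝ) = -(m / ((c.prod : ℕ) : ℝ)) + ((1 : ℤ) : ℝ) := by
      rw [Int.cast_one, sub_div, div_self hr]; ring
    rw [this, e_add, e_int, mul_one]

lemma sg_lt {c : List ℕ} (hc : 0 < c.prod) (m : ℕ) : sg c m < c.prod := Nat.mod_lt _ hc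

lemma sg_sg {c : List ℕ} {m : ℕ} (hm : m < c.prod) : sg c (sg c m) = m := by
  unfold sg
  rcases Nat.eq_zero_or_pos m with rfl | h0
  · simp
  · rw [Nat.mod_eq_of_lt (by omega : c.prod - m < c.prod), Nat.mod_eq_of_lt (by omega)]
    omega

lemma aeval_conj (x : ℂ) (p : Polynomial ℤ) :
    Polynomial.aeval (conj x) p = conj (Polynomial.aeval x p) := by
  have h := Polynomial.hom_eval₂ p (Int.castRingHom ℂ) (starRingEnd ℂ) x
  have h2 : (starRingEnd ℂ).comp (Int.castRingHom ℂ) = Int.castRingHom ℂ := by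
    ext; simp
  rw [h2] at h
  rw [Polynomial.aeval_def, Polynomial.aeval_def]
  exact h.symm

lemma mem_rootSet {c : List ℕ} {m : ℕ} : m ∈ rootSet c ↔
    m < c.prod ∧ Polynomial.aeval (e (xx c m)) (phi c) = 0 := by
  unfold rootSet xx
  rw [Finset.mem_filter, Finset.mem_range]

lemma sg_mem {c : List ℕ} (hc : 0 < c.prod) {m : ℕ} (hm : m ∈ rootSet c) : sg c m ∈ rootSet c := by
  rw [mem_rootSet] at hm ⊢
  refine ⟨sg_lt hc m, ?_⟩
  rw [e_sg hc hm.1, ← e_conj, aeval_conj, hm.2, map_zero]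

lemma RI_pos {c : List ℕ} (m : RI c) : 0 < c.prod :=
  lt_of_le_of_lt (Nat.zero_le _) (mem_rootSet.1 m.2).1

/-- conjugation on the index type. -/
def sig (c : List ℕ) : RI c → RI c := fun m => ⟨sg c m.1, sg_mem (RI_pos m) m.2⟩

lemma sig_sig (c : List ℕ) (m : RI c) : sig c (sig c m) = m := by
  apply Subtype.ext
  exact sg_sg (mem_rootSet.1 m.2).1

/-- the unit multiplier. -/
noncomputable def zc (c : List ℕ) (m : RI c) : ℂ :=
  u ((c.length : ℝ) / 2 + alpha c (xx c m.1))

lemma norm_u (y : ℝ) : ‖u y‖ = 1 := by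
  unfold u
  exact norm_exp_ofReal_mul_I _

lemma pm_norm {z w : ℂ} (h : PM z w) (hw : ‖w‖ = 1) : z = (‖z‖ : ℝ) * w := by
  obtain ⟨p, hp, rfl⟩ := h
  rw [norm_mul, hw, mul_one, norm_real, Real.norm_of_nonneg hp.le]

lemma rho_pm {a : ℕ} {l : List ℕ} (h : Good (a :: l)) (m : RI (a :: l)) :
    PM (rho a l (xx (a :: l) m.1)) (zc (a :: l) m) := by
  apply rho_arg h
  have hm := mem_rootSet.1 m.2
  have h1 : Polynomial.aeval (e (-(xx (a :: l) m.1))) (phi (a :: l)) = 0 := by
    rw [← e_conj, aeval_conj, hm.2, map_zero]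
  refine not_both h ?_ h1
  rw [e_neg, inv_pow, inv_eq_one]
  have := e_div_pow (a :: l).prod m.1 h.prod_pos
  rw [← List.prod_cons]
  exact this

lemma rho_ne {a : ℕ} {l : List ℕ} (h : Good (a :: l)) (m : RI (a :: l)) :
    rho a l (xx (a :: l) m.1) ≠ 0 := by
  obtain ⟨p, hp, h1⟩ := rho_pm h m
  rw [h1]
  refine mul_ne_zero (by exact_mod_cast hp.ne') ?_
  exact u_ne_zero _

lemma rho_sig {a : ℕ} {l : List ℕ} (h : Good (a :: l)) (m : RI (a :: l)) :
    rho a l (xx (a :: l) (sig (a :: l) m).1) = conj (rho a l (xx (a :: l) m.1)) := by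
  have hm := mem_rootSet.1 m.2
  unfold rho
  rw [map_div₀, ← aeval_conj, e_conj]
  congr 1
  · congr 1
    rw [neg_neg, e_neg]
    have : e (xx (a :: l) (sig (a :: l) m).1) = e (-(xx (a :: l) m.1)) :=
      e_sg h.prod_pos hm.1
    rw [this, e_neg, inv_inv]
  · rw [map_natCast]

lemma zc_sig {a : ℕ} {l : List ℕ} (h : Good (a :: l)) (m : RI (a :: l)) :
    zc (a :: l) (sig (a :: l) m) = conj (zc (a :: l) m) := by
  have h1 := pm_norm (rho_pm h m) (norm_u _)
  have h2 := pm_norm (rho_pm h (sig (a :: l) m)) (norm_u _)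
  rw [rho_sig h m] at h2
  have h3 : (‖rho a l (xx (a :: l) m.1)‖ : ℂ) ≠ 0 := by
    have := norm_ne_zero_iff.2 (rho_ne h m)
    exact_mod_cast this
  rw [RCLike.norm_conj] at h2
  have h4 := congrArg conj h1
  rw [map_mul, conj_ofReal] at h4
  rw [h4] at h2
  exact (mul_left_cancel₀ h3 h2).symm

/-- diagonalisation data of a chain. -/
noncomputable def chainDiag {a : ℕ} {l : List ℕ} (h2 : ∀ x ∈ a :: l, 2 ≤ x) :
    Diag ((chainMat (a :: l)).map (Int.cast : ℤ → ℝ)) (RI (a :: l))
      (sig (a :: l)) (zc (a :: l)) := by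
  have h : Good (a :: l) := Good.of_two h2
  set V : Matrix (RI (a :: l)) (Fin (mu (a :: l))) ℂ := fun m j =>
    (Real.sqrt ‖rho a l (xx (a :: l) m.1)‖ : ℂ) * e (xx (a :: l) m.1) ^ (j : ℕ) with hV
  have hform : ∀ i j, ((((chainMat (a :: l)).map (Int.cast : ℤ → ℝ)) i j : ℝ) : ℂ) =
      ∑ k, zc (a :: l) k * ((starRingEnd ℂ) (V k i) * V k j) := by
    intro i j
    have h1 := trace_form h i j
    rw [Matrix.map_apply]
    have h3 : (((chainMat (a :: l) i j : ℤ) : ℝ) : ℂ) = ((chainMat (a :: l) i j : ℤ) : ℂ) := by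
      push_cast; rfl
    rw [h3, h1, ← List.prod_cons]
    change ∑ k ∈ rootSet (a :: l), _ = _
    rw [← Finset.sum_coe_sort]
    refine Finset.sum_congr rfl fun k _ => ?_
    have h4 := pm_norm (rho_pm h k) (norm_u _)
    have h5 : ((Real.sqrt ‖rho a l (xx (a :: l) k.1)‖ : ℝ) : ℂ) *
        ((Real.sqrt ‖rho a l (xx (a :: l) k.1)‖ : ℝ) : ℂ) =
        ((‖rho a l (xx (a :: l) k.1)‖ : ℝ) : ℂ) := by
      rw [← ofReal_mul, Real.mul_self_sqrt (norm_nonneg _)]
    simp only [hV, map_mul, map_pow, conj_ofReal, e_conj]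
    change rho a l (xx (a :: l) k.1) * (e (-(xx (a :: l) k.1)) ^ (i : ℕ) *
      e (xx (a :: l) k.1) ^ (j : ℕ)) = _
    conv_lhs => rw [h4]
    rw [← h5]
    ring
  -- invertibility
  set C : Matrix (Fin (mu (a :: l))) (Fin (mu (a :: l))) ℂ :=
    (chainMat (a :: l)).map (Int.castRingHom ℂ) with hC
  have hCV : C = Vᴴ * Matrix.diagonal (zc (a :: l)) * V := by
    ext i j
    have h1 := hform i j
    rw [Matrix.map_apply] at h1
    have h3 : (((chainMat (a :: l) i j : ℤ) : ℝ) : ℂ) = ((chainMat (a :: l) i j : ℤ) : ℂ) := by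
      push_cast; rfl
    rw [h3] at h1
    rw [hC, Matrix.map_apply, eq_intCast, h1, Matrix.mul_assoc, Matrix.mul_apply]
    refine Finset.sum_congr rfl fun k _ => ?_
    rw [Matrix.diagonal_mul, Matrix.conjTranspose_apply, RCLike.star_def]
    ring
  have hdet : IsUnit C.det := by
    have h1 : C.det = 1 := by
      rw [hC, ← RingHom.mapMatrix_apply, ← RingHom.map_det, chain_det h, map_one]
    rw [h1]; exact isUnit_one
  have hWV : (C⁻¹ * (Vᴴ * Matrix.diagonal (zc (a :: l)))) * V = 1 := by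
    rw [Matrix.mul_assoc, ← hCV, Matrix.nonsing_inv_mul C hdet]
  have hcard : Fintype.card (RI (a :: l)) = Fintype.card (Fin (mu (a :: l))) := by
    rw [Fintype.card_coe, Fintype.card_fin, card_rootSet h2]
  have hVW : V * (C⁻¹ * (Vᴴ * Matrix.diagonal (zc (a :: l)))) = 1 :=
    (Matrix.mul_eq_one_comm_of_card_eq _ _ _ hcard).2 hWV
  exact {
    V := V
    W := C⁻¹ * (Vᴴ * Matrix.diagonal (zc (a :: l)))
    VW := hVW
    WV := hWV
    inv := sig_sig _
    conjV := by
      intro k j
      have hk := mem_rootSet.1 k.2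
      simp only [hV, map_mul, map_pow, conj_ofReal, e_conj]
      have e1 : e (xx (a :: l) (sig (a :: l) k).1) = e (-(xx (a :: l) k.1)) :=
        e_sg h.prod_pos hk.1
      rw [e1, rho_sig h k, RCLike.norm_conj]
    form := hform }

/-! ### Kronecker products -/

section Kron

variable {n n' : Type} [Fintype n] [DecidableEq n] [Fintype n'] [DecidableEq n']
  {A : Matrix n n ℝ} {A' : Matrix n' n' ℝ}
  {ι ι' : Type} [Fintype ι] [DecidableEq ι] [Fintype ι'] [DecidableEq ι']
  {σ : ι → ι} {σ' : ι' → ι'} {z : ι → ℂ} {z' : ι' → ℂ}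

/-- data of a Kronecker product. -/
noncomputable def kron (D : Diag A ι σ z) (D' : Diag A' ι' σ' z') :
    Diag (Matrix.kroneckerMap (· * ·) A A') (ι × ι') (fun p => (σ p.1, σ' p.2))
      (fun p => z p.1 * z' p.2) where
  V := Matrix.kroneckerMap (· * ·) D.V D'.V
  W := Matrix.kroneckerMap (· * ·) D.W D'.W
  VW := by
    have h := Matrix.mul_kronecker_mul D.V D.W D'.V D'.W
    rw [D.VW, D'.VW, Matrix.one_kronecker_one] at h
    exact h.symm
  WV := by
    have h := Matrix.mul_kronecker_mul D.W D.V D'.W D'.V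
    rw [D.WV, D'.WV, Matrix.one_kronecker_one] at h
    exact h.symm
  inv := fun k => by
    ext
    · simp [D.inv]
    · simp [D'.inv]
  conjV := fun k j => by
    simp only [Matrix.kroneckerMap_apply, map_mul, D.conjV, D'.conjV]
  form := fun i j => by
    simp only [Matrix.kroneckerMap_apply, ofReal_mul, D.form, D'.form]
    rw [Finset.sum_mul_sum, Fintype.sum_prod_type]
    refine Finset.sum_congr rfl fun k _ => Finset.sum_congr rfl fun k' _ => ?_
    simp only [map_mul]
    ring

end Kron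

/-! ### systems -/

/-- index type of a system. -/
def IS : List (List ℕ) → Type
  | [] => Unit
  | c :: T => RI c × IS T

noncomputable instance instFintypeIS : (T : List (List ℕ)) → Fintype (IS T)
  | [] => inferInstanceAs (Fintype Unit)
  | _ :: T => @instFintypeProd _ _ _ (instFintypeIS T)

instance instDecidableEqIS : (T : List (List ℕ)) → DecidableEq (IS T)
  | [] => inferInstanceAs (DecidableEq Unit)
  | _ :: T => @instDecidableEqProd _ _ _ (instDecidableEqIS T)

/-- conjugation. -/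
noncomputable def sigS : (T : List (List ℕ)) → IS T → IS T
  | [], x => x
  | c :: T, p => (sig c p.1, sigS T p.2)

/-- multiplier. -/
noncomputable def zS : (T : List (List ℕ)) → IS T → ℂ
  | [], _ => 1
  | c :: T, p => zc c p.1 * zS T p.2

/-- sum of the `alpha`s. -/
noncomputable def alS : (T : List (List ℕ)) → IS T → ℝ
  | [], _ => 0
  | c :: T, p => alpha c (xx c p.1.1) + alS T p.2

lemma zS_eq : ∀ (T : List (List ℕ)) (p : IS T), zS T p = u ((nvar T : ℝ) / 2 + alS T p)
  | [], _ => by simp [zS, nvar, alS, u_zero]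
  | c :: T, p => by
      have hn : (nvar (c :: T) : ℝ) = c.length + nvar T := by simp [nvar]
      simp only [zS, alS]
      rw [zS_eq T p.2, zc, ← u_add, hn]
      congr 1
      ring

/-- the empty system. -/
noncomputable def unitDiag (A : Matrix Unit Unit ℝ) (hA : A () () = 1) :
    Diag A Unit (fun x => x) (fun _ => 1) where
  V := 1
  W := 1
  VW := by simp
  WV := by simp
  inv := fun _ => rfl
  conjV := fun k j => by simp
  form := fun i j => by
    cases i; cases j
    simp [hA]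

theorem sysDiag : ∀ {T : List (List ℕ)}, Adm T →
    Nonempty (Diag ((sysMat T).map (Int.cast : ℤ → ℝ)) (IS T) (sigS T) (zS T))
  | [], _ => ⟨unitDiag ((1 : Matrix Unit Unit ℤ).map (Int.cast : ℤ → ℝ)) (by simp)⟩
  | [] :: T, h => absurd rfl (h [] List.mem_cons_self).1
  | (a :: l) :: T, h => by
      obtain ⟨D'⟩ := sysDiag (T := T) fun c hc => h c (List.mem_cons_of_mem _ hc)
      have D := chainDiag (h (a :: l) List.mem_cons_self).2
      have D'' := kron D D'
      have e1 : Matrix.kroneckerMap (· * ·) ((chainMat (a :: l)).map (Int.cast : ℤ → ℝ))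
          ((sysMat T).map (Int.cast : ℤ → ℝ)) =
          (Matrix.kroneckerMap (· * ·) (chainMat (a :: l)) (sysMat T)).map (Int.cast : ℤ → ℝ) := by
        ext i j
        simp [Matrix.kroneckerMap_apply]
      rw [e1] at D''
      exact ⟨D''⟩

lemma zS_sig : ∀ {T : List (List ℕ)}, Adm T → ∀ p : IS T, zS T (sigS T p) = conj (zS T p)
  | [], _, _ => by simp [zS]
  | [] :: T, h, _ => absurd rfl (h [] List.mem_cons_self).1
  | (a :: l) :: T, h, p => by
      have h1 := zS_sig (T := T) (fun c hc => h c (List.mem_cons_of_mem _ hc)) p.2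
      have h2 := zc_sig (Good.of_two (h (a :: l) List.mem_cons_self).2) p.1
      simp only [zS, sigS, map_mul]
      rw [h1, h2]

lemma sigS_ne : ∀ {T : List (List ℕ)}, (∃ c ∈ T, ∀ m : RI c, sig c m ≠ m) →
    ∀ p : IS T, sigS T p ≠ p
  | [], h, _ => by
      obtain ⟨c, hc, _⟩ := h
      simp at hc
  | c :: T, h, p => by
      obtain ⟨d, hd, hne⟩ := h
      intro heq
      rw [List.mem_cons] at hd
      rcases hd with rfl | hd
      · exact hne p.1 (congrArg Prod.fst heq)
      · exact sigS_ne ⟨d, hd, hne⟩ p.2 (congrArg Prod.snd heq)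

lemma sig_three (m : RI [3]) : sig [3] m ≠ m := by
  intro h
  have h1 : sg [3] m.1 = m.1 := congrArg Subtype.val h
  obtain ⟨hm, h0⟩ := mem_rootSet.1 m.2
  have hm3 : m.1 < 3 := by simpa using hm
  have h2 : (3 - m.1) % 3 = m.1 := by simpa [sg] using h1
  have h3 : m.1 = 0 := by
    interval_cases m.1 <;> omega
  rw [h3] at h0
  -- `phi [3] (1) ≠ 0`
  have hg : Good [3] := by
    intro x hx
    rw [List.mem_singleton] at hx
    omega
  have he : e (xx [3] 0) = 1 := by
    unfold xx
    simp [e_zero]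
  rw [he] at h0
  have h4 : Polynomial.aeval (1 : ℂ) (phi []) = 0 := by simp [phi]
  exact not_both hg (by simp) h0 h4

/-- power sums. -/
lemma sum_alS (κ : ℤ) : ∀ T : List (List ℕ), ∑ p : IS T, u (κ * alS T p) = prodS T κ
  | [] => by
      change ∑ p : Unit, u (κ * alS [] p) = prodS [] κ
      simp [alS, prodS_nil, u_zero]
  | c :: T => by
      have h1 := sum_alS κ T
      rw [prodS_cons, ← h1]
      change ∑ p : RI c × IS T, u (κ * (alpha c (xx c p.1.1) + alS T p.2)) = _
      rw [Fintype.sum_prod_type]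
      have h2 : S c κ = ∑ k : RI c, u (κ * alpha c (xx c k.1)) := by
        unfold S
        rw [← Finset.sum_coe_sort]
        rfl
      rw [h2, Finset.sum_mul_sum]
      refine Finset.sum_congr rfl fun k _ => ?_
      refine Finset.sum_congr rfl fun k' _ => ?_
      rw [mul_add, u_add]

lemma u_pow (y : ℝ) (n : ℕ) : u y ^ n = u (n * y) := by
  unfold u; rw [← exp_nat_mul]; congr 1; push_cast; ring

/-- **criterion**: two admissible systems whose sums agree, with number of variables divisible by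
`8` and containing the chain `[3]`, are congruent over `ℝ`. -/
theorem cong_real {T T' : List (List ℕ)} (hT : Adm T) (hT' : Adm T') (h3 : [3] ∈ T)
    (h3' : [3] ∈ T') (hn : 8 ∣ nvar T) (hn' : 8 ∣ nvar T') (h : ∀ κ : ℤ, prodS T κ = prodS T' κ) :
    CongOver ℝ (sysMat T) (sysMat T') := by
  obtain ⟨D⟩ := sysDiag hT
  obtain ⟨D'⟩ := sysDiag hT'
  have hm : Multiset.map (fun p => u (alS T p)) (Finset.univ : Finset (IS T)).val =
      Multiset.map (fun p => u (alS T' p)) (Finset.univ : Finset (IS T')).val := by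
    apply multiset_eq_of_powersums
    intro n
    have h1 := h (n : ℤ)
    rw [← sum_alS, ← sum_alS] at h1
    simp only [u_pow]
    exact_mod_cast h1
  have hz : ∀ {U : List (List ℕ)}, 8 ∣ nvar U → ∀ p : IS U, zS U p = u (alS U p) := by
    intro U hU p
    rw [zS_eq]
    obtain ⟨k, hk⟩ := hU
    have : (nvar U : ℝ) / 2 = ((4 * k : ℤ) : ℝ) := by
      rw [hk]; push_cast; ring
    rw [u_add, this, u_int_even ⟨2 * k, by ring⟩, one_mul]
  have hm' : Multiset.map (zS T) (Finset.univ : Finset (IS T)).val =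
      Multiset.map (zS T') (Finset.univ : Finset (IS T')).val := by
    rw [show zS T = fun p => u (alS T p) from funext (hz hn),
      show zS T' = fun p => u (alS T' p) from funext (hz hn')]
    exact hm
  obtain ⟨τ, h1, h2⟩ := exists_match D.inv D'.inv
    (sigS_ne ⟨[3], h3, sig_three⟩) (sigS_ne ⟨[3], h3', sig_three⟩) (zS_sig hT) (zS_sig hT') hm'
  exact cong_of_diag D D' τ h1 h2

/-! ### the family -/

lemma nvar_append (T T' : List (List ℕ)) : nvar (T ++ T') = nvar T + nvar T' := by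
  simp [nvar]

lemma nvar_rep (n : ℕ) (T : List (List ℕ)) : nvar (rep n T) = n * nvar T := by
  induction n with
  | zero => simp [rep, nvar]
  | succ n ih =>
    unfold rep at ih ⊢
    rw [List.replicate_succ, List.flatten_cons, nvar_append, ih]
    ring

lemma nvar_F {L : List (ℕ × ℕ × ℤ)} {v : ℕ} {q : List ℕ} (hq : q.length = 8) (s j : ℕ) :
    8 ∣ nvar (F L v q s j) := by
  unfold F
  rw [nvar_append, nvar_append, nvar_append, nvar_append, nvar_rep, nvar_rep, nvar_rep, nvar_rep]
  have h1 : nvar (q.map (fun x => [x])) = 8 := by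
    rw [← hq]
    unfold nvar
    rw [List.map_map]
    have : (List.length ∘ fun x : ℕ => [x]) = fun _ => 1 := by funext x; rfl
    rw [this]
    simp
  rw [h1]
  refine Nat.dvd_add (Nat.dvd_add (Nat.dvd_add (Nat.dvd_add ?_ ?_) ?_) ?_) (dvd_refl 8)
  · exact dvd_mul_right _ _
  · exact dvd_mul_right _ _
  · exact ⟨(s - j) * nvar (ZP L), by ring⟩
  · exact ⟨j * nvar (ZM L), by ring⟩

lemma mem_rep {n : ℕ} {T : List (List ℕ)} {c : List ℕ} (h : c ∈ rep n T) : c ∈ T := by
  unfold rep at h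
  rw [List.mem_flatten] at h
  obtain ⟨T', h1, h2⟩ := h
  rw [List.eq_of_mem_replicate h1] at h2
  exact h2

lemma adm_Z {L : List (ℕ × ℕ × ℤ)} {v : ℕ} (hC : Cert L v) : Adm (ZP L) ∧ Adm (ZM L) := by
  have key : ∀ x ∈ L, (∀ y ∈ chainOf x.1 x.2.1, 2 ≤ y) ∧
      (∀ y ∈ chainOf (x.2.1 % x.1) x.2.1, 2 ≤ y) := by
    intro x hx
    obtain ⟨ha, hab, -, -⟩ := hC.range x hx
    have hlt := Nat.mod_lt x.2.1 ha
    exact ⟨chainOf_two _ _ (by omega), chainOf_two _ _ (by omega)⟩
  constructor
  · intro c hc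
    unfold ZP at hc
    rw [List.mem_filter, List.mem_flatMap] at hc
    obtain ⟨⟨x, hx, hc⟩, hne⟩ := hc
    refine ⟨by simpa using hne, ?_⟩
    unfold blockP at hc
    rw [List.mem_append] at hc
    rcases hc with hc | hc
    · rw [List.eq_of_mem_replicate hc]; exact (key x hx).1
    · rw [List.eq_of_mem_replicate hc]; exact (key x hx).2
  · intro c hc
    unfold ZM at hc
    rw [List.mem_filter, List.mem_flatMap] at hc
    obtain ⟨⟨x, hx, hc⟩, hne⟩ := hc
    refine ⟨by simpa using hne, ?_⟩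
    unfold blockM at hc
    rw [List.mem_append] at hc
    rcases hc with hc | hc
    · rw [List.eq_of_mem_replicate hc]; exact (key x hx).2
    · rw [List.eq_of_mem_replicate hc]; exact (key x hx).1

lemma adm_F {L : List (ℕ × ℕ × ℤ)} {v : ℕ} {q : List ℕ} (hC : Cert L v) (hA : Aux v q)
    (s j : ℕ) : Adm (F L v q s j) := by
  intro c hc
  unfold F at hc
  rw [List.mem_append, List.mem_append, List.mem_append, List.mem_append] at hc
  rcases hc with (((hc | hc) | hc) | hc) | hc
  · have := mem_rep hc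
    rw [List.mem_singleton] at this
    rw [this]
    refine ⟨by simp, ?_⟩
    intro a ha
    rw [List.mem_singleton] at ha
    omega
  · have := mem_rep hc
    rw [List.mem_singleton] at this
    rw [this]
    refine ⟨by simp, ?_⟩
    intro a ha
    rw [List.mem_singleton] at ha
    have := hC.big
    omega
  · exact (adm_Z hC).1 c (mem_rep hc)
  · exact (adm_Z hC).2 c (mem_rep hc)
  · rw [List.mem_map] at hc
    obtain ⟨x, hx, rfl⟩ := hc
    refine ⟨by simp, ?_⟩
    intro a ha
    rw [List.mem_singleton] at ha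
    have := (hA.big x hx).1
    omega

lemma three_mem_F (L : List (ℕ × ℕ × ℤ)) (v : ℕ) (q : List ℕ) (s j : ℕ) :
    [3] ∈ F L v q s j := by
  unfold F
  simp only [List.mem_append]
  left; left; left; left
  simp [rep]

/-- **REALS**: the `F_{s,j}` (fixed `s`) are congruent over `ℝ`. -/
theorem reals (L : List (ℕ × ℕ × ℤ)) (v : ℕ) (q : List ℕ) (hC : Cert L v) (hA : Aux v q)
    (s : ℕ) (i : ℕ) (hi : i ≤ s) (j : ℕ) (hj : j ≤ s) :
    CongOver ℝ (sysMat (F L v q s i)) (sysMat (F L v q s j)) :=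
  cong_real (adm_F hC hA s i) (adm_F hC hA s j) (three_mem_F L v q s i) (three_mem_F L v q s j)
    (nvar_F hA.length s i) (nvar_F hA.length s j) (fun κ => prodS_F_eq hC q hi hj κ)

end Crest.Agent.R267.RealsB_903
private theorem rz_cdb76e8e35 : type_of% @_root_.Crest.Agent.R267.RealsB_903.alS.eq_def := @_root_.Crest.Agent.R267.RealsB_903.alS.eq_def -- L278
private theorem rz_89dd669a39 : type_of% @_root_.Crest.Agent.R267.RealsB_903.alS.eq_1 := @_root_.Crest.Agent.R267.RealsB_903.alS.eq_1 -- L278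
private theorem rz_bb85604e80 : type_of% @_root_.Crest.Agent.R267.RealsB_903.sigS.eq_def := @_root_.Crest.Agent.R267.RealsB_903.sigS.eq_def -- L268
private theorem rz_86713c2e06 : type_of% @_root_.Crest.Agent.R267.RealsB_903.sigS.eq_1 := @_root_.Crest.Agent.R267.RealsB_903.sigS.eq_1 -- L268
private theorem rz_0df013f009 : type_of% @_root_.Crest.Agent.R267.RealsB_903.zS.eq_def := @_root_.Crest.Agent.R267.RealsB_903.zS.eq_def -- L273
private theorem rz_31e73beb74 : type_of% @_root_.Crest.Agent.R267.RealsB_903.zS.eq_1 := @_root_.Crest.Agent.R267.RealsB_903.zS.eq_1 -- L273
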