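import Crest.Agent.R267.P45Rat_96
import Crest.Agent.R267.P45e_235
import Crest.Agent.R267.RealsB_903_Mg
import Crest.Agent.R267.P411c_61
import Crest.Agent.R267.P4Lam_780
import Mathlib
import Crest.Agent.R267.P4Brg_780
import Crest.Agent.R267.P411b_61_Mg
import Crest.Agent.R267.P414_111
import Crest.Agent.R267.P4Asm_780
import Crest.Agent.R267.P4Defs_780
import Crest.Agent.R267.Cone_808
import Crest.Agent.R267.P46h_484
import Crest.Agent.R267.DraftB_808

-- ▼ part R267/P45Fin_96
section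

/-!
# S0407, package P4.5: the Prop `RATB`, unconditionally (helper96)
-/

set_option autoImplicit false

namespace Crest.Agent.R267.P45Fin_96

open Crest.Agent.R267.P4Defs_780 Crest.Agent.R267.P45Rat_96

theorem reals : REALS := fun L u q hC hA s i hi j hj =>
  RealsB_903.reals L u q hC hA s i hi j hj

theorem types : TYPES := fun L u q hC hA => P44c_148.types L u q hC hA

theorem ndeg : NDEG := fun _ _ _ hC hA s j =>
  ⟨P45e_235.isUnit_add hC hA s j, P45e_235.isUnit_sub hC hA s j⟩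

/-- the `F_{s,j}` fall into a bounded number of rational congruence classes. -/
theorem ratb : RATB := P45Rat_96.ratb reals types ndeg

end Crest.Agent.R267.P45Fin_96
end

-- ▼ part R267/P411d_61
section

/-!
# S0407, package P4, node P4.11: hyperbolic pair with `b(e, T^k f) = lam (X^k)` (helper61)
-/

set_option autoImplicit false

namespace Crest.Agent.R267.P411d_61

open Matrix Polynomial Crest.Agent.R267.P4Defs_780 Crest.Agent.R267.P4Lam_780
open Crest.Agent.R267.P411_61 Crest.Agent.R267.P411c_61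

theorem cyc_dvd_geom {Q p v : ℕ} (hQ : 0 < Q) (h1 : Q ∣ p * v) (h2 : ¬ Q ∣ v) :
    cyclotomic Q ℤ ∣ ∑ t ∈ Finset.range p, ((X : ℤ[X]) ^ v) ^ t := by
  have h3 : cyclotomic Q ℤ ∣ (∑ t ∈ Finset.range p, ((X : ℤ[X]) ^ v) ^ t) * (X ^ v - 1) := by
    rw [geom_sum_mul, ← pow_mul, mul_comm v]
    obtain ⟨t, ht⟩ := h1
    refine (cyclotomic.dvd_X_pow_sub_one Q ℤ).trans ?_
    rw [ht, pow_mul]
    exact sub_one_dvd_pow_sub_one _ _
  rcases ((cyclotomic.irreducible hQ).prime).dvd_or_dvd h3 with h | h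
  · exact h
  · exfalso
    apply h2
    have hz := Complex.isPrimitiveRoot_exp Q hQ.ne'
    obtain ⟨g, hg⟩ := h
    have h4 := congrArg (aeval (Complex.exp (2 * Real.pi * Complex.I / Q))) hg
    have h5 : aeval (Complex.exp (2 * Real.pi * Complex.I / Q)) (cyclotomic Q ℤ) = 0 := by
      have : NeZero ((Q : ℕ) : ℂ) := ⟨by exact_mod_cast hQ.ne'⟩
      have h6 := (isRoot_cyclotomic_iff (n := Q) (R := ℂ)).2 hz
      rw [aeval_def, ← eval_map]
      have h7 : (cyclotomic Q ℤ).map (algebraMap ℤ ℂ) = cyclotomic Q ℂ := map_cyclotomic _ _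
      rw [h7]
      exact h6
    rw [map_mul, h5, zero_mul] at h4
    have h8 : Complex.exp (2 * Real.pi * Complex.I / Q) ^ v = 1 := by
      simpa [sub_eq_zero] using h4
    exact hz.dvd_of_pow_eq_one v h8

section Ring

variable {m Q : ℕ}

lemma gx_pow_congr {a b : ℕ} (h : a ≡ b [MOD (m * Q)]) : gx m Q ℤ ^ a = gx m Q ℤ ^ b := by
  have h1 := gx_pow (m := m) (Q := Q) (R := ℤ)
  have h2 : ∀ a, gx m Q ℤ ^ a = gx m Q ℤ ^ (a % (m * Q)) := by
    intro a
    conv_lhs => rw [← Nat.div_add_mod a (m * Q), pow_add, pow_mul, h1, one_pow, one_mul]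
  rw [h2 a, h2 b, h]

lemma gx_geom [NeZero Q] {p v : ℕ} (h1 : Q ∣ p * v) (h2 : ¬ Q ∣ v) :
    ∑ t ∈ Finset.range p, (gx m Q ℤ ^ (m * v)) ^ t = 0 := by
  obtain ⟨g, hg⟩ := cyc_dvd_geom (NeZero.pos Q) h1 h2
  have h3 := congrArg (aeval (gx m Q ℤ ^ m)) hg
  rw [map_mul, aeval_gx_pow, zero_mul, map_sum] at h3
  rw [← h3]
  refine Finset.sum_congr rfl fun t _ => ?_
  rw [map_pow, map_pow, aeval_X, pow_mul]

end Ring

section Family

variable {L : List (ℕ × ℕ × ℤ)} {u : ℕ} {q : List ℕ}

lemma q_pos (hA : Aux u q) : 0 < q.prod := Nat.pos_of_ne_zero (by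
    intro h0
    rw [List.prod_eq_zero_iff] at h0
    exact (hA.prime 0 h0).ne_zero rfl)

/-- P4.11: for every functional `lam` on `Lam = ℤ[X]/Φ_Q(X^{3u})` which vanishes on `X^k`,
`3 u ∤ k`, there are `e`, `f` with `b(e, T^k e) = 0`, `b(e, T^k f) = lam (X^k)`, where
`b(x, y) = xᵗ A T^h y`. -/
theorem hyp_lam (hC : Cert L u) (hA : Aux u q) [NeZero (3 * u)] [NeZero q.prod] (s j : ℕ)
    (lam : Lam (3 * u) q.prod ℤ →+ ℤ)
    (h0 : ∀ k, ¬ 3 * u ∣ k → lam (gx (3 * u) q.prod ℤ ^ k) = 0) :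
    ∃ e f : Idx (F L u q s j) → ℤ, ∀ k : ℕ,
      e ⬝ᵥ ((sysMat (F L u q s j) * Tsys (F L u q s j) ^ (hs u q + k)) *ᵥ e) = 0 ∧
      e ⬝ᵥ ((sysMat (F L u q s j) * Tsys (F L u q s j) ^ (hs u q + k)) *ᵥ f) =
        lam (gx (3 * u) q.prod ℤ ^ k) := by
  have hu := hC.big
  have hm : 0 < 3 * u := by omega
  have hQ := q_pos hA
  have hco := coprime_mq hC hA
  obtain ⟨μ, hμ1, hμ2⟩ := Nat.chineseRemainder hco 0 1
  rw [Nat.modEq_zero_iff_dvd] at hμ1
  obtain ⟨μ', hμ'⟩ := hμ1
  set h := hs u q with hh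
  -- the shift
  obtain ⟨i, hi1, hi2⟩ := Nat.chineseRemainder hco (3 * u * h - h) 0
  have hi3 : 3 * u ∣ h + i := by
    have h1 : h + i ≡ h + (3 * u * h - h) [MOD 3 * u] := hi1.add_left _
    rw [Nat.add_sub_cancel' (Nat.le_mul_of_pos_left _ hm)] at h1
    rw [Nat.dvd_iff_mod_eq_zero, h1]
    exact Nat.mul_mod_right _ _
  have hi4 : q.prod ∣ i := (Nat.modEq_zero_iff_dvd).1 hi2
  set c := q.prod * h - h with hc
  have hc' : c + h = q.prod * h := Nat.sub_add_cancel (Nat.le_mul_of_pos_left _ hQ)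
  set G : ℕ → ℤ := fun k => lam (gx (3 * u) q.prod ℤ ^ (μ * (k + c))) with hG
  have hAdm : Adm q G := by
    refine ⟨fun k => ?_, fun p hp e h1 h2 k => ?_⟩
    · show lam (gx (3 * u) q.prod ℤ ^ (μ * (k + q.prod + c))) =
        lam (gx (3 * u) q.prod ℤ ^ (μ * (k + c)))
      congr 1
      apply gx_pow_congr
      rw [show μ * (k + q.prod + c) = μ * (k + c) + 3 * u * q.prod * μ' by rw [hμ']; ring]
      exact modEq_add_mul _ _ _
    · show ∑ t ∈ Finset.range p, lam (gx (3 * u) q.prod ℤ ^ (μ * (k + t * e + c))) = 0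
      have h3 : ∑ t ∈ Finset.range p, (gx (3 * u) q.prod ℤ ^ (3 * u * (μ' * e))) ^ t = 0 := by
        apply gx_geom
        · rw [mul_left_comm]; exact Dvd.dvd.mul_left h1 _
        · intro hd
          apply h2
          have h4 : q.prod ∣ μ * e := by
            rw [hμ', mul_assoc]; exact Dvd.dvd.mul_left hd _
          have h5 : μ * e ≡ 1 * e [MOD q.prod] := hμ2.mul_right e
          rw [one_mul] at h5
          exact (Nat.modEq_zero_iff_dvd).1 (h5.symm.trans ((Nat.modEq_zero_iff_dvd).2 h4))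
      have h4 : ∀ t, gx (3 * u) q.prod ℤ ^ (μ * (k + t * e + c)) =
          gx (3 * u) q.prod ℤ ^ (μ * (k + c)) *
            (gx (3 * u) q.prod ℤ ^ (3 * u * (μ' * e))) ^ t := by
        intro t
        rw [← pow_mul, ← pow_add, hμ']
        congr 1
        ring
      simp only [h4]
      rw [← map_sum, ← Finset.mul_sum, h3, mul_zero, map_zero]
  obtain ⟨e, f, hef⟩ := hyp_gen hC hA s j G hAdm
  refine ⟨e, Tsys (F L u q s j) ^ i *ᵥ f, fun k => ⟨(hef _).1, ?_⟩⟩
  rw [Matrix.mulVec_mulVec, Matrix.mul_assoc, ← pow_add, (hef _).2]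
  have h5 : 3 * u ∣ h + k + i ↔ 3 * u ∣ k := by
    rw [show h + k + i = k + (h + i) by ring]
    exact Nat.dvd_add_iff_left hi3 |>.symm
  by_cases hk : 3 * u ∣ k
  · rw [if_pos (h5.2 hk)]
    show lam (gx (3 * u) q.prod ℤ ^ (μ * (h + k + i + c))) = _
    congr 1
    apply gx_pow_congr
    rw [← Nat.modEq_and_modEq_iff_modEq_mul hco]
    constructor
    · rw [hμ', mul_assoc]
      exact ((Nat.modEq_zero_iff_dvd).2 (dvd_mul_right _ _)).trans
        ((Nat.modEq_zero_iff_dvd).2 hk).symm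
    · have h6 : μ * (h + k + i + c) ≡ 1 * (h + k + i + c) [MOD q.prod] := hμ2.mul_right _
      refine h6.trans ?_
      obtain ⟨i', hi'⟩ := hi4
      rw [one_mul, show h + k + i + c = k + q.prod * (i' + h) by
        rw [mul_add, ← hi', ← hc']; ring]
      exact modEq_add_mul _ _ _
  · rw [if_neg (fun h => hk (h5.1 h)), h0 k hk]

end Family

end Crest.Agent.R267.P411d_61
end

-- ▼ part R267/P410_785
section

/-!
# S0407, leaf P4.10 (helper785): finitely many isomorphism classes of ideals (Jordan-Zassenhaus,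
rank one)

`R` commutative, reduced, finite and free over `ℤ` (an order in a product of number fields).
`fullClasses`: there is an integer `k ≠ 0` such that every ideal `I` of finite index is isomorphic
to an ideal `J` containing `k`: `a I = b J` with nonzerodivisors `a`, `b`.
-/

set_option autoImplicit false

namespace Crest.Agent.R267.P410_785

open nonZeroDivisors NumberField

/-- a full ideal: it contains a nonzero integer. -/
def Full {R : Type*} [CommRing R] (I : Ideal R) : Prop := ∃ n : ℤ, n ≠ 0 ∧ (n : R) ∈ I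

/-- every full ideal is isomorphic to an ideal containing a fixed nonzero integer. -/
def FC (R : Type*) [CommRing R] : Prop :=
  ∃ k : ℤ, k ≠ 0 ∧ ∀ I : Ideal R, Full I →
    ∃ J : Ideal R, (k : R) ∈ J ∧ ∃ a ∈ R⁰, ∃ b ∈ R⁰, Ideal.span {a} * I = Ideal.span {b} * J

theorem mem_map_aux {R O : Type*} [CommRing R] [CommRing O] (φ : R →+* O) (m : ℤ)
    (h : ∀ x : O, ∃ r : R, φ r = m * x) (I : Ideal R) (z : O) (hz : z ∈ I.map φ) :
    ∀ c : O, ∃ y ∈ I, φ y = m * (c * z) := by
  induction hz using Submodule.span_induction with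
  | mem x hx =>
    obtain ⟨i, hi, rfl⟩ := hx
    intro c
    obtain ⟨r, hr⟩ := h c
    exact ⟨r * i, I.mul_mem_left r hi, by rw [map_mul, hr]; ring⟩
  | zero => exact fun c => ⟨0, I.zero_mem, by simp⟩
  | add x y _ _ hx hy =>
    intro c
    obtain ⟨u, hu, hu'⟩ := hx c
    obtain ⟨v, hv, hv'⟩ := hy c
    exact ⟨u + v, I.add_mem hu hv, by rw [map_add, hu', hv']; ring⟩
  | smul d x _ hx =>
    intro c
    obtain ⟨u, hu, hu'⟩ := hx (c * d)
    exact ⟨u, hu, by rw [hu', smul_eq_mul]; ring⟩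

/-- the sandwich argument: `m O ⊆ R ⊆ O`. -/
theorem FC.of_sandwich {R O : Type*} [CommRing R] [CommRing O] (φ : R →+* O)
    (hφ : Function.Injective φ) (m : ℤ) (hm : m ≠ 0) (hmO : (m : O) ∈ O⁰)
    (h : ∀ x : O, ∃ r : R, φ r = m * x) (hO : FC O) : FC R := by
  obtain ⟨k, hk, H⟩ := hO
  refine ⟨m ^ 2 * k, by positivity, fun I hI => ?_⟩
  have hI' : Full (I.map φ) := by
    obtain ⟨n, hn, hnI⟩ := hI
    exact ⟨n, hn, by simpa using Ideal.mem_map_of_mem φ hnI⟩
  obtain ⟨J, hkJ, a, ha, b, hb, hab⟩ := H _ hI'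
  obtain ⟨ra, hra⟩ := h (m * a)
  obtain ⟨rb, hrb⟩ := h b
  have key1 : ∀ z ∈ I.map φ, ∃ j ∈ J, b * j = a * z := fun z hz => by
    have : a * z ∈ Ideal.span {a} * I.map φ := Ideal.mem_span_singleton_mul.2 ⟨z, hz, rfl⟩
    rw [hab] at this
    exact Ideal.mem_span_singleton_mul.1 this
  have key2 : ∀ j ∈ J, ∃ z ∈ I.map φ, a * z = b * j := fun z hz => by
    have : b * z ∈ Ideal.span {b} * J := Ideal.mem_span_singleton_mul.2 ⟨z, hz, rfl⟩
    rw [← hab] at this
    exact Ideal.mem_span_singleton_mul.1 this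
  have hnz : ∀ c ∈ O⁰, ∀ r : R, φ r = m * c → r ∈ R⁰ := fun c hc r hr => by
    rw [mem_nonZeroDivisors_iff_right]
    intro x hx
    apply hφ
    have h1 : φ x * (m * c) = 0 := by rw [← hr, ← map_mul, hx, map_zero]
    rw [map_zero]
    exact (mul_right_mem_nonZeroDivisors_eq_zero_iff (mul_mem hmO hc)).1 h1
  let I' : Ideal R :=
    { carrier := {x | ∃ y ∈ I, b * φ x = m * a * φ y}
      add_mem' := by
        rintro x x' ⟨y, hy, h1⟩ ⟨y', hy', h2⟩
        exact ⟨y + y', I.add_mem hy hy', by rw [map_add, map_add, mul_add, mul_add, h1, h2]⟩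
      zero_mem' := ⟨0, I.zero_mem, by simp⟩
      smul_mem' := by
        rintro c x ⟨y, hy, h1⟩
        refine ⟨c * y, I.mul_mem_left c hy, ?_⟩
        rw [smul_eq_mul, map_mul, map_mul]
        linear_combination φ c * h1 }
  refine ⟨I', ?_, ra, hnz _ (mul_mem hmO ha) _ hra, rb, hnz _ hb _ hrb, ?_⟩
  · obtain ⟨z, hz, hz'⟩ := key2 _ hkJ
    obtain ⟨y, hy, hy'⟩ := mem_map_aux φ m h I z hz 1
    refine ⟨y, hy, ?_⟩
    rw [hy', map_intCast]
    push_cast
    linear_combination (-(m : O) ^ 2) * hz'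
  · ext x
    rw [Ideal.mem_span_singleton_mul, Ideal.mem_span_singleton_mul]
    constructor
    · rintro ⟨y, hy, rfl⟩
      obtain ⟨j, _, hj'⟩ := key1 _ (Ideal.mem_map_of_mem φ hy)
      obtain ⟨x, hx⟩ := h j
      have hbx : b * φ x = m * a * φ y := by rw [hx]; linear_combination (m : O) * hj'
      refine ⟨x, ⟨y, hy, hbx⟩, hφ ?_⟩
      rw [map_mul, map_mul, hra, hrb]
      linear_combination (m : O) * hbx
    · rintro ⟨x, ⟨y, hy, hxy⟩, rfl⟩
      refine ⟨y, hy, hφ ?_⟩
      rw [map_mul, map_mul, hra, hrb]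
      linear_combination (-(m : O)) * hxy

/-- the class group of a number field is finite. -/
theorem FC.ringOfIntegers (K : Type*) [Field K] [NumberField K] : FC (𝓞 K) := by
  classical
  have hs : ∀ C : ClassGroup (𝓞 K), ∃ J : (Ideal (𝓞 K))⁰, ClassGroup.mk0 J = C :=
    ClassGroup.mk0_surjective
  choose J hJ using hs
  refine ⟨∏ C, (Ideal.absNorm (J C : Ideal (𝓞 K)) : ℤ), ?_, fun I hI => ?_⟩
  · rw [Finset.prod_ne_zero_iff]
    intro C _
    exact_mod_cast Ideal.absNorm_ne_zero_of_nonZeroDivisors (J C)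
  · have hI0 : I ∈ (Ideal (𝓞 K))⁰ := by
      rw [mem_nonZeroDivisors_iff_ne_zero]
      rintro rfl
      obtain ⟨n, hn, hn'⟩ := hI
      have : ((n : ℤ) : 𝓞 K) = 0 := by simpa using hn'
      exact hn (by exact_mod_cast this)
    have := hJ (ClassGroup.mk0 ⟨I, hI0⟩)
    obtain ⟨x, y, hx, hy, hxy⟩ := ClassGroup.mk0_eq_mk0_iff.1 this.symm
    refine ⟨J (ClassGroup.mk0 ⟨I, hI0⟩), ?_, x, mem_nonZeroDivisors_of_ne_zero hx, y,
      mem_nonZeroDivisors_of_ne_zero hy, hxy⟩
    obtain ⟨c, hc⟩ := Finset.dvd_prod_of_mem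
      (fun C => (Ideal.absNorm (J C : Ideal (𝓞 K)) : ℤ)) (Finset.mem_univ (ClassGroup.mk0 ⟨I, hI0⟩))
    rw [hc]
    push_cast
    apply Ideal.mul_mem_right
    exact Ideal.absNorm_mem _

/-- finite products. -/
theorem FC.pi {ι : Type*} [Finite ι] (O : ι → Type*) [∀ i, CommRing (O i)]
    (hO : ∀ i, FC (O i)) : FC (∀ i, O i) := by
  classical
  have := Fintype.ofFinite ι
  choose k hk H using hO
  refine ⟨∏ i, k i, Finset.prod_ne_zero_iff.2 fun i _ => hk i, fun I hI => ?_⟩
  have hI' : ∀ i, Full (I.map (Pi.evalRingHom O i)) := fun i => by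
    obtain ⟨n, hn, hnI⟩ := hI
    exact ⟨n, hn, by simpa using Ideal.mem_map_of_mem (Pi.evalRingHom O i) hnI⟩
  choose J hJ a ha b hb hab using fun i => H i _ (hI' i)
  have hnz : ∀ c : ∀ i, O i, (∀ i, c i ∈ (O i)⁰) → c ∈ (∀ i, O i)⁰ := fun c hc => by
    rw [mem_nonZeroDivisors_iff_right]
    intro x hx
    ext i
    exact (mul_right_mem_nonZeroDivisors_eq_zero_iff (hc i)).1 (congrFun hx i)
  refine ⟨Ideal.pi J, ?_, a, hnz a ha, b, hnz b hb, ?_⟩
  · intro i
    obtain ⟨c, hc⟩ := Finset.dvd_prod_of_mem k (Finset.mem_univ i)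
    have : (((∏ i, k i : ℤ) : (∀ i, O i)) i) = (k i : O i) * (c : O i) := by
      rw [hc]; simp
    rw [this]
    exact Ideal.mul_mem_right _ _ (hJ i)
  · ext x
    rw [Ideal.mem_span_singleton_mul, Ideal.mem_span_singleton_mul]
    constructor
    · rintro ⟨y, hy, rfl⟩
      have : ∀ i, ∃ j ∈ J i, b i * j = a i * y i := fun i => by
        have h1 : a i * y i ∈ Ideal.span {a i} * I.map (Pi.evalRingHom O i) :=
          Ideal.mem_span_singleton_mul.2 ⟨y i, Ideal.mem_map_of_mem (Pi.evalRingHom O i) hy, rfl⟩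
        rw [hab] at h1
        exact Ideal.mem_span_singleton_mul.1 h1
      choose j hj hj' using this
      exact ⟨j, fun i => hj i, funext hj'⟩
    · rintro ⟨j, hj, rfl⟩
      have : ∀ i, ∃ y ∈ I, a i * y i = b i * j i := fun i => by
        have h1 : b i * j i ∈ Ideal.span {b i} * J i :=
          Ideal.mem_span_singleton_mul.2 ⟨j i, hj i, rfl⟩
        rw [← hab] at h1
        obtain ⟨z, hz, hz'⟩ := Ideal.mem_span_singleton_mul.1 h1
        obtain ⟨y, hy, hy'⟩ := (Ideal.mem_map_iff_of_surjective (Pi.evalRingHom O i)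
          (Function.surjective_eval i)).1 hz
        refine ⟨y, hy, ?_⟩
        rw [← hz', ← hy']
        rfl
      choose y hy hy' using this
      refine ⟨∑ i, Pi.single i 1 * y i, I.sum_mem fun i _ => I.mul_mem_left _ (hy i), ?_⟩
      funext i
      rw [Pi.mul_apply, Pi.mul_apply, ← hy' i, Finset.sum_apply]
      congr 1
      rw [Finset.sum_eq_single i]
      · simp
      · intro l _ hl
        simp [Pi.single_eq_of_ne' hl]
      · simp

/-- the case of a ring embedded in a product of number fields as a full order. -/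
theorem FC.of_fields {R : Type*} [CommRing R] [Module.Finite ℤ R] {ι : Type*} [Finite ι]
    (K : ι → Type*) [∀ i, Field (K i)] [∀ i, NumberField (K i)] (f : R →+* ∀ i, K i)
    (hf : Function.Injective f)
    (hK : ∀ x : ∀ i, K i, ∃ n : ℤ, n ≠ 0 ∧ ∃ r : R, f r = n * x) : FC R := by
  classical
  have hint : ∀ i (r : R), f r i ∈ integralClosure ℤ (K i) := fun i r =>
    (Algebra.IsIntegral.isIntegral (R := ℤ) r).map ((Pi.evalRingHom K i).comp f).toIntAlgHom
  let φi : ∀ i, R →+* 𝓞 (K i) := fun i =>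
    ((Pi.evalRingHom K i).comp f).codRestrict (integralClosure ℤ (K i)) (hint i)
  let φ : R →+* ∀ i, 𝓞 (K i) := RingHom.pi φi
  have hφc : ∀ r i, ((φ r i : 𝓞 (K i)) : K i) = f r i := fun r i => rfl
  have hφ : Function.Injective φ := fun x y hxy => hf <| funext fun i => by
    rw [← hφc, ← hφc, hxy]
  have hden : ∀ x : ∀ i, 𝓞 (K i), ∃ n : ℤ, n ≠ 0 ∧ ∃ r : R, φ r = n * x := fun x => by
    obtain ⟨n, hn, r, hr⟩ := hK fun i => (x i : K i)
    refine ⟨n, hn, r, funext fun i => RingOfIntegers.ext ?_⟩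
    rw [hφc, hr]
    simp
  choose n hn r hr using hden
  obtain ⟨s, hs⟩ := (Module.Finite.fg_top : (⊤ : Submodule ℤ (∀ i, 𝓞 (K i))).FG)
  have hm0 : (∏ x ∈ s, n x) ≠ 0 := Finset.prod_ne_zero_iff.2 fun x _ => hn x
  refine FC.of_sandwich φ hφ (∏ x ∈ s, n x) hm0 ?_ ?_ (FC.pi _ fun i => FC.ringOfIntegers (K i))
  · rw [mem_nonZeroDivisors_iff_right]
    intro x hx
    funext i
    have h1 : x i * ((∏ x ∈ s, n x : ℤ) : 𝓞 (K i)) = 0 := by
      have := congrFun hx i
      simpa using this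
    rcases mul_eq_zero.1 h1 with h2 | h2
    · exact h2
    · exact absurd (by exact_mod_cast h2) hm0
  · intro x
    have hx : x ∈ Submodule.span ℤ (s : Set (∀ i, 𝓞 (K i))) := by rw [hs]; trivial
    induction hx using Submodule.span_induction with
    | mem x hx =>
      obtain ⟨c, hc⟩ := Finset.dvd_prod_of_mem n hx
      refine ⟨c * r x, ?_⟩
      rw [map_mul, hr, hc, map_intCast]
      push_cast
      ring
    | zero => exact ⟨0, by simp⟩
    | add x y _ _ hx hy =>
      obtain ⟨u, hu⟩ := hx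
      obtain ⟨v, hv⟩ := hy
      exact ⟨u + v, by rw [map_add, hu, hv]; ring⟩
    | smul c x _ hx =>
      obtain ⟨u, hu⟩ := hx
      exact ⟨c * u, by rw [map_mul, hu, map_intCast, zsmul_eq_mul]; ring⟩

theorem finite_rat_aux {V W : Type*} [AddCommGroup V] [AddCommGroup W] (_ : Module ℚ V)
    (_ : Module ℚ W) [Module.Finite ℚ V] (f : V →+ W) (hf : Function.Surjective f) :
    Module.Finite ℚ W :=
  Module.Finite.of_surjective f.toRatLinearMap hf

/-- **Jordan-Zassenhaus in rank one**: for a reduced commutative ring `R`, finite and free over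
`ℤ`, there is `k ≠ 0` such that every ideal of finite index is isomorphic to one containing `k`. -/
theorem FC.of_order (R : Type*) [CommRing R] [IsReduced R] [Module.Finite ℤ R]
    [Module.Free ℤ R] : FC R := by
  classical
  open TensorProduct in
  have hinj : Function.Injective
      (Algebra.TensorProduct.includeRight : R →ₐ[ℤ] ℚ ⊗[ℤ] R) :=
    Algebra.TensorProduct.includeRight_injective (RingHom.injective_int _)
  have hden : ∀ x : TensorProduct ℤ ℚ R, ∃ n : ℤ, n ≠ 0 ∧ ∃ r : R,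
      (Algebra.TensorProduct.includeRight : R →ₐ[ℤ] TensorProduct ℤ ℚ R) r = n * x := by
    intro x
    induction x using TensorProduct.induction_on with
    | zero => exact ⟨1, one_ne_zero, 0, by simp⟩
    | tmul q r =>
      refine ⟨q.den, by exact_mod_cast q.den_nz, q.num * r, ?_⟩
      have h1 : ((q.den : ℤ) : TensorProduct ℤ ℚ R) = ((q.den : ℚ) ⊗ₜ[ℤ] (1 : R)) := by
        have := map_natCast (Algebra.TensorProduct.includeLeft :
          ℚ →ₐ[ℤ] TensorProduct ℤ ℚ R) q.den
        rw [Int.cast_natCast]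
        exact this.symm
      rw [h1, Algebra.TensorProduct.tmul_mul_tmul, one_mul]
      have h2 : (q.den : ℚ) * q = (q.num : ℚ) := by
        rw [mul_comm]; exact Rat.mul_den_eq_num q
      rw [h2, Algebra.TensorProduct.includeRight_apply, ← zsmul_eq_mul,
        TensorProduct.tmul_smul, TensorProduct.smul_tmul']
      simp
    | add x y hx hy =>
      obtain ⟨n, hn, r, hr⟩ := hx
      obtain ⟨n', hn', r', hr'⟩ := hy
      refine ⟨n * n', mul_ne_zero hn hn', n' * r + n * r', ?_⟩
      rw [map_add, map_mul, map_mul, hr, hr', map_intCast, map_intCast]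
      push_cast
      ring
  have hz : ∀ (n : ℤ) (x : TensorProduct ℤ ℚ R), n ≠ 0 → (n : TensorProduct ℤ ℚ R) * x = 0 →
      x = 0 := by
    intro n x hn hx
    have h1 : ((n : ℚ)⁻¹ • ((n : ℚ) • x)) = 0 := by
      have : (n : ℚ) • x = (n : TensorProduct ℤ ℚ R) * x := by
        rw [Algebra.smul_def (n : ℚ) x]; simp
      rw [this, hx, smul_zero]
    rwa [smul_smul, inv_mul_cancel₀ (by exact_mod_cast hn), one_smul] at h1
  have hred : IsReduced (TensorProduct ℤ ℚ R) := by
    refine ⟨fun x hx => ?_⟩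
    obtain ⟨n, hn, r, hr⟩ := hden x
    have h1 : IsNilpotent (Algebra.TensorProduct.includeRight (R := ℤ) (A := ℚ) r) := by
      rw [hr]; exact (Commute.all _ _).isNilpotent_mul_left hx
    have h2 : IsNilpotent r := (IsNilpotent.map_iff hinj).1 h1
    rw [h2.eq_zero, map_zero] at hr
    exact hz n x hn hr.symm
  have hart : IsArtinianRing (TensorProduct ℤ ℚ R) := IsArtinianRing.of_finite ℚ _
  let _ : ∀ I : MaximalSpectrum (TensorProduct ℤ ℚ R), Field (TensorProduct ℤ ℚ R ⧸ I.asIdeal) :=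
    fun I => IsArtinianRing.fieldOfSubtypeIsMaximal (TensorProduct ℤ ℚ R) I
  have hnf : ∀ I : MaximalSpectrum (TensorProduct ℤ ℚ R),
      NumberField (TensorProduct ℤ ℚ R ⧸ I.asIdeal) := fun I => by
    have h1 : CharZero (TensorProduct ℤ ℚ R ⧸ I.asIdeal) := algebraRat.charZero _
    refine @NumberField.mk _ _ h1 ?_
    exact finite_rat_aux inferInstance _ (Ideal.Quotient.mk I.asIdeal).toAddMonoidHom
      Ideal.Quotient.mk_surjective
  let e := IsArtinianRing.equivPi (TensorProduct ℤ ℚ R)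
  refine FC.of_fields (fun I : MaximalSpectrum (TensorProduct ℤ ℚ R) =>
    TensorProduct ℤ ℚ R ⧸ I.asIdeal)
    ((e : TensorProduct ℤ ℚ R →+* _).comp
      (Algebra.TensorProduct.includeRight : R →ₐ[ℤ] TensorProduct ℤ ℚ R).toRingHom)
    (e.injective.comp hinj) fun x => ?_
  obtain ⟨n, hn, r, hr⟩ := hden (e.symm x)
  refine ⟨n, hn, r, ?_⟩
  have : e ((Algebra.TensorProduct.includeRight : R →ₐ[ℤ] TensorProduct ℤ ℚ R) r) = n * x := by
    rw [hr, map_mul, AlgEquiv.apply_symm_apply, map_intCast]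
  exact this

theorem finite_quot (R : Type*) [CommRing R] [Module.Finite ℤ R] (k : ℤ) (hk : k ≠ 0) :
    Finite (R ⧸ Ideal.span {(k : R)}) := by
  have : Module.Finite ℤ (R ⧸ Ideal.span {(k : R)}) :=
    Module.Finite.of_surjective (Ideal.Quotient.mk (Ideal.span {(k : R)})).toAddMonoidHom.toIntLinearMap
      Ideal.Quotient.mk_surjective
  refine Module.finite_of_fg_torsion _ fun {x} => ?_
  obtain ⟨x, rfl⟩ := Ideal.Quotient.mk_surjective x
  refine ⟨⟨k, mem_nonZeroDivisors_of_ne_zero hk⟩, ?_⟩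
  change k • Ideal.Quotient.mk (Ideal.span {(k : R)}) x = 0
  rw [← map_zsmul, Ideal.Quotient.eq_zero_iff_mem, zsmul_eq_mul]
  exact Ideal.mul_mem_right _ _ (Ideal.subset_span rfl)

/-- only finitely many ideals contain a given nonzero integer. -/
theorem finite_ideals (R : Type*) [CommRing R] [Module.Finite ℤ R] (k : ℤ) (hk : k ≠ 0) :
    {J : Ideal R | (k : R) ∈ J}.Finite := by
  have := finite_quot R k hk
  refine Set.Finite.of_injOn (f := fun J : Ideal R => (J.map (Ideal.Quotient.mk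
    (Ideal.span {(k : R)})) : Set (R ⧸ Ideal.span {(k : R)}))) (t := Set.univ)
    (fun _ _ => Set.mem_univ _) ?_ (Set.toFinite _)
  intro J hJ J' hJ' h
  have key : ∀ J : Ideal R, (k : R) ∈ J →
      (J.map (Ideal.Quotient.mk (Ideal.span {(k : R)}))).comap
        (Ideal.Quotient.mk (Ideal.span {(k : R)})) = J := fun J hJ => by
    rw [Ideal.comap_map_of_surjective _ Ideal.Quotient.mk_surjective, ← RingHom.ker_eq_comap_bot,
      Ideal.mk_ker, sup_eq_left, Ideal.span_singleton_le_iff_mem]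
    exact hJ
  rw [← key J hJ, ← key J' hJ', SetLike.coe_injective h]

/-- finitely many classes of full ideals. -/
theorem finite_classes (R : Type*) [CommRing R] [IsReduced R] [Module.Finite ℤ R]
    [Module.Free ℤ R] : ∃ S : Set (Ideal R), S.Finite ∧ ∀ I : Ideal R, Full I →
      ∃ J ∈ S, ∃ a ∈ R⁰, ∃ b ∈ R⁰, Ideal.span {a} * I = Ideal.span {b} * J := by
  obtain ⟨k, hk, H⟩ := FC.of_order R
  exact ⟨_, finite_ideals R k hk, fun I hI => H I hI⟩






end Crest.Agent.R267.P410_785
end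

-- ▼ part R267/P410b_785
section

/-!
# S0407, leaf P4.10, lattice version (helper785)

`K` reduced commutative `ℚ`-algebra, `Λ ⊆ K` a subring, finite over `ℤ`, with `ℚ Λ = K`.
The full `Λ`-lattices `I ⊆ K` fall into finitely many classes modulo multiplication by units
of `K`.
-/

set_option autoImplicit false

namespace Crest.Agent.R267.P410b_785

open nonZeroDivisors Crest.Agent.R267.P410_785

/-- a full lattice: `n ∈ I`, `n I ⊆ Λ` for some integer `n ≠ 0`. -/
def LFull {K : Type*} [CommRing K] {Λ : Subring K} (I : Submodule Λ K) : Prop :=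
  ∃ n : ℤ, n ≠ 0 ∧ (n : K) ∈ I ∧ ∀ x ∈ I, (n : K) * x ∈ Λ

section

variable {K : Type*} [CommRing K] {Λ : Subring K}

/-- the ideal `n I` of `Λ`. -/
def toIdeal (n : ℤ) (I : Submodule Λ K) : Ideal Λ where
  carrier := {x | ∃ y ∈ I, (x : K) = n * y}
  add_mem' := by
    rintro x x' ⟨y, hy, h⟩ ⟨y', hy', h'⟩
    exact ⟨y + y', I.add_mem hy hy', by rw [Subring.coe_add, h, h', mul_add]⟩
  zero_mem' := ⟨0, I.zero_mem, by simp⟩
  smul_mem' := by
    rintro c x ⟨y, hy, h⟩
    refine ⟨c • y, I.smul_mem c hy, ?_⟩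
    rw [smul_eq_mul, Subring.coe_mul, h, Subring.smul_def, smul_eq_mul]
    ring


end

variable (K : Type*) [CommRing K] [Algebra ℚ K] (Λ : Subring K)

theorem isUnit_int [Nontrivial K] (n : ℤ) (hn : n ≠ 0) : IsUnit (n : K) := by
  have h1 : IsUnit (n : ℚ) := IsUnit.mk0 _ (by exact_mod_cast hn)
  simpa using h1.map (algebraMap ℚ K)

theorem isUnit_nzd [Nontrivial K] [Module.Finite ℤ Λ] (a : Λ) (ha : a ∈ Λ⁰) :
    IsUnit (a : K) := by
  have h1 : IsAlgebraic ℤ a := by
    have : Nontrivial Λ := inferInstance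
    exact (Algebra.IsIntegral.isIntegral (R := ℤ) a).isAlgebraic
  obtain ⟨r, hr, c, hc⟩ := h1.exists_nonzero_dvd ha
  have h2 : (a : K) * (c : K) = (r : K) := by
    rw [← Subring.coe_mul, ← hc]; simp
  exact isUnit_of_mul_isUnit_left (h2 ▸ isUnit_int K r hr)

theorem exists_coloring' [IsReduced K] [Module.Finite ℤ Λ] :
    ∃ (h : ℕ) (col : Submodule Λ K → Fin (h + 1)), ∀ I I' : Submodule Λ K,
      LFull I → LFull I' → col I = col I' → ∃ a : Kˣ, ∀ x : K, x ∈ I' ↔ ∃ y ∈ I, x = a * y := by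
  classical
  rcases subsingleton_or_nontrivial K with hK | hK
  · exact ⟨0, fun _ => 0, fun I I' _ _ _ => ⟨1, fun x => ⟨fun _ => ⟨0, I.zero_mem,
      Subsingleton.elim _ _⟩, fun _ => by rw [Subsingleton.elim x 0]; exact I'.zero_mem⟩⟩⟩
  have hred : IsReduced Λ := isReduced_of_injective Λ.subtype Subtype.val_injective
  have htf : Module.IsTorsionFree ℤ Λ := by
    refine ⟨fun n hn x y hxy => ?_⟩
    have hn0 : n ≠ 0 := hn.ne_zero
    have h1 : (n : K) * (x : K) = (n : K) * (y : K) := by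
      have := congrArg (Subtype.val) hxy
      simpa using this
    exact Subtype.ext ((isUnit_int K n hn0).mul_left_cancel h1)
  obtain ⟨S, hS, H⟩ := finite_classes Λ
  have := hS.fintype
  choose! J hJS a ha b hb hab using H
  let e := Fintype.equivFin S
  let N : Submodule Λ K → ℤ := fun I => if h : LFull I then h.choose else 1
  have hN : ∀ I, LFull I → N I ≠ 0 ∧ (N I : K) ∈ I ∧ ∀ x ∈ I, (N I : K) * x ∈ Λ := fun I hI => by
    have := hI.choose_spec
    simp only [N, hI, dif_pos]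
    exact this
  have hfull : ∀ I, LFull I → Full (toIdeal (N I) I) := fun I hI => by
    obtain ⟨h1, h2, _⟩ := hN I hI
    exact ⟨N I * N I, mul_ne_zero h1 h1, (N I : K), h2, by push_cast; rfl⟩
  refine ⟨Fintype.card S, fun I => if h : LFull I then
    (e ⟨J (toIdeal (N I) I), hJS _ (hfull I h)⟩).castSucc else Fin.last _, fun I I' hI hI' h => ?_⟩
  simp only [hI, hI', dif_pos, Fin.castSucc_inj, EmbeddingLike.apply_eq_iff_eq,
    Subtype.mk.injEq] at h
  set A := toIdeal (N I) I with hA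
  set A' := toIdeal (N I') I' with hA'
  have hAf : Full A := hfull I hI
  have hAf' : Full A' := hfull I' hI'
  obtain ⟨hn, hnI, hnΛ⟩ := hN I hI
  obtain ⟨hn', hnI', hnΛ'⟩ := hN I' hI'
  have e1 := hab A hAf
  have e2 := hab A' hAf'
  rw [← h] at e2
  -- `(a b') A = (b a') A'` after scaling
  obtain ⟨ua, hua⟩ := isUnit_nzd K Λ _ (ha A hAf)
  obtain ⟨ub, hub⟩ := isUnit_nzd K Λ _ (hb A hAf)
  obtain ⟨ua', hua'⟩ := isUnit_nzd K Λ _ (ha A' hAf')
  obtain ⟨ub', hub'⟩ := isUnit_nzd K Λ _ (hb A' hAf')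
  obtain ⟨un, hun⟩ := isUnit_int K (N I) hn
  obtain ⟨un', hun'⟩ := isUnit_int K (N I') hn'
  -- general transport
  have key : ∀ (B B' : Ideal Λ) (α β α' β' : Λ) (C : Ideal Λ),
      Ideal.span {α} * B = Ideal.span {β} * C → Ideal.span {α'} * B' = Ideal.span {β'} * C →
      ∀ x ∈ B, ∃ x' ∈ B', α' * β * x' = α * β' * x := by
    intro B B' α β α' β' C h1 h2 x hx
    have h3 : α * x ∈ Ideal.span {α} * B := Ideal.mem_span_singleton_mul.2 ⟨x, hx, rfl⟩
    rw [h1] at h3
    obtain ⟨c, hc, hc'⟩ := Ideal.mem_span_singleton_mul.1 h3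
    have h4 : β' * c ∈ Ideal.span {β'} * C := Ideal.mem_span_singleton_mul.2 ⟨c, hc, rfl⟩
    rw [← h2] at h4
    obtain ⟨x', hx', h5⟩ := Ideal.mem_span_singleton_mul.1 h4
    exact ⟨x', hx', by linear_combination β * h5 + β' * hc'⟩
  have mem1 : ∀ (I : Submodule Λ K), LFull I → ∀ y ∈ I, ∃ x ∈ toIdeal (N I) I,
      ((x : Λ) : K) = (N I : K) * y := fun I hI y hy =>
    ⟨⟨_, (hN I hI).2.2 y hy⟩, ⟨y, hy, rfl⟩, rfl⟩
  refine ⟨(ua' * ub * un')⁻¹ * (ua * ub' * un), fun x => ⟨fun hx => ?_, ?_⟩⟩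
  · obtain ⟨x1, hx1, hx1'⟩ := mem1 I' hI' x hx
    obtain ⟨x2, ⟨y, hy, hy'⟩, h6⟩ := key A' A _ _ _ _ _ e2 e1 x1 hx1
    refine ⟨y, hy, ?_⟩
    have h7 := congrArg (Subtype.val) h6
    simp only [Subring.coe_mul, hx1', hy', ← hua, ← hub, ← hua', ← hub', ← hun, ← hun'] at h7
    have h8 : ((ua * ub' * un : Kˣ) : K) * y = ((ua' * ub * un' : Kˣ) : K) * x := by
      push_cast
      linear_combination h7
    rw [Units.val_mul, mul_assoc, h8, Units.inv_mul_cancel_left]
  · rintro ⟨y, hy, rfl⟩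
    obtain ⟨x1, hx1, hx1'⟩ := mem1 I hI y hy
    obtain ⟨x2, ⟨z, hz, hz'⟩, h6⟩ := key A A' _ _ _ _ _ e1 e2 x1 hx1
    have h7 := congrArg (Subtype.val) h6
    simp only [Subring.coe_mul, hx1', hz', ← hua, ← hub, ← hua', ← hub', ← hun, ← hun'] at h7
    have h8 : ((ua * ub' * un : Kˣ) : K) * y = ((ua' * ub * un' : Kˣ) : K) * z := by
      push_cast
      linear_combination -h7
    rw [Units.val_mul, mul_assoc, h8, Units.inv_mul_cancel_left]
    exact hz

/-- pigeonhole form: among more than `h` full lattices two differ by a unit of `K`. -/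
theorem pigeonhole' [IsReduced K] [Module.Finite ℤ Λ] :
    ∃ h : ℕ, ∀ (J : Finset ℕ) (_ : h < J.card) (I : ℕ → Submodule Λ K) (_ : ∀ j ∈ J, LFull (I j)),
      ∃ i ∈ J, ∃ j ∈ J, i < j ∧ ∃ a : Kˣ, ∀ x : K, x ∈ I j ↔ ∃ y ∈ I i, x = a * y := by
  obtain ⟨n, col, H⟩ := exists_coloring' K Λ
  refine ⟨n + 1, fun J hJ I hI => ?_⟩
  obtain ⟨i, hi, j, hj, hij, h⟩ := Finset.exists_ne_map_eq_of_card_lt_of_maps_to
    (t := (Finset.univ : Finset (Fin (n + 1)))) (by simpa using hJ)
    (f := fun j => col (I j)) (fun _ _ => by simp)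
  rcases lt_or_gt_of_ne hij with h1 | h1
  · exact ⟨i, hi, j, hj, h1, H _ _ (hI i hi) (hI j hj) h⟩
  · exact ⟨j, hj, i, hi, h1, H _ _ (hI j hj) (hI i hi) h.symm⟩

end Crest.Agent.R267.P410b_785
end

-- ▼ part R267/P4Z_169
section

/-!
# S0407, package P4: the inclusion `Lam m Q ℤ → Lam m Q ℚ` (helper169)
-/

set_option autoImplicit false

namespace Crest.Agent.R267.P4Z_169

open Polynomial Crest.Agent.R267.P4Herm_780 Crest.Agent.R267.P4Lam_780
  Crest.Agent.R267.P4Fun_780 Crest.Agent.R267.P4Defs_780 Crest.Agent.R267.P4Brg_780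

variable {m Q : ℕ} [NeZero m] [NeZero Q]

theorem isReduced_lam (m Q : ℕ) [NeZero m] [NeZero Q] : IsReduced (Lam m Q ℚ) := by
  have h0 : ((m * Q : ℕ) : ℚ) ≠ 0 := by exact_mod_cast (mQ_pos m Q).ne'
  have h1 : (X ^ (m * Q) - 1 : ℚ[X]).Separable := (X_pow_sub_one_separable_iff).2 h0
  have h2 : Squarefree (Psi m Q ℚ) := (h1.of_dvd (Psi_dvd m Q ℚ)).squarefree
  have h3 : (Ideal.span {Psi m Q ℚ}).IsRadical :=
    isRadical_iff_span_singleton.1 h2.isRadical
  exact (Ideal.isRadical_iff_quotient_reduced _).1 h3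

/-- the inclusion. -/
noncomputable def iot (m Q : ℕ) [NeZero m] [NeZero Q] : Lam m Q ℤ →+* Lam m Q ℚ :=
  AdjoinRoot.lift ((algebraMap ℚ (Lam m Q ℚ)).comp (Int.castRingHom ℚ)) (gx m Q ℚ) (by
    rw [← eval₂_map, Psi_map]
    exact aeval_gx)

theorem iot_gx : iot m Q (gx m Q ℤ) = gx m Q ℚ := AdjoinRoot.lift_root _

omit [NeZero m] [NeZero Q] in
theorem algZ (r : ℤ) : algebraMap ℤ (Lam m Q ℤ) r = ((r : ℤ) : Lam m Q ℤ) := eq_intCast _ r

omit [NeZero m] [NeZero Q] in
theorem hom_ext' {B : Type*} [CommRing B] {φ ψ : Lam m Q ℤ →+* B}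
    (h : φ (gx m Q ℤ) = ψ (gx m Q ℤ)) : φ = ψ := by
  apply RingHom.ext
  intro z
  induction z using ind with
  | h f =>
    induction f using Polynomial.induction_on' with
    | add p q hp hq => rw [map_add, map_add, map_add, hp, hq]
    | monomial k r =>
      rw [aeval_monomial, algZ, map_mul, map_mul, map_pow, map_pow, h, map_intCast, map_intCast]

theorem iot_star (z : Lam m Q ℤ) : iot m Q (star z) = star (iot m Q z) := by
  have h : (iot m Q).comp (conj : Lam m Q ℤ →ₐ[ℤ] Lam m Q ℤ).toRingHom =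
      ((conj : Lam m Q ℚ →ₐ[ℚ] Lam m Q ℚ).toRingHom).comp (iot m Q) := by
    apply hom_ext'
    change iot m Q (conj (gx m Q ℤ)) = conj (iot m Q (gx m Q ℤ))
    rw [iot_gx, conj_gx, conj_gx, map_pow, iot_gx]
  exact congrArg (fun f => f z) h

omit [NeZero m] [NeZero Q] in
theorem cast_mul_q (r : ℤ) (x : Lam m Q ℚ) : (r : Lam m Q ℚ) * x = (r : ℚ) • x := by
  rw [Algebra.smul_def]
  congr 1

theorem iot_alg (r : ℤ) (z : Lam m Q ℤ) :
    iot m Q (algebraMap ℤ (Lam m Q ℤ) r * z) = (r : ℚ) • iot m Q z := by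
  rw [algZ, map_mul, map_intCast, cast_mul_q]

theorem tau_iot (z : Lam m Q ℤ) : tau m Q ℚ (iot m Q z) = ((tau m Q ℤ z : ℤ) : ℚ) := by
  have hd : (Psi m Q ℚ).natDegree = (Psi m Q ℤ).natDegree := by
    rw [Psi_natDegree, Psi_natDegree]
  conv_lhs => rw [← (bas m Q ℤ).sum_repr z]
  conv_rhs => rw [← (bas m Q ℤ).sum_repr z]
  rw [map_sum, map_sum, map_sum, Int.cast_sum]
  refine Finset.sum_congr rfl fun i _ => ?_
  have hi := i.2
  rw [bas_apply]
  conv_lhs => rw [Algebra.smul_def, iot_alg, map_pow, iot_gx]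
  rw [map_smul, map_smul, tau_pow hi, tau_pow (by rw [hd]; exact hi), hd]
  split_ifs <;> simp

theorem iot_skew : iot m Q (skew m Q ℤ) = skew m Q ℚ := by
  rw [skew, skew, map_sub, map_pow, iot_gx, iot_star, map_pow, iot_gx]

theorem lam_iot (z : Lam m Q ℤ) : lam m Q ℚ (iot m Q z) = ((lam m Q ℤ z : ℤ) : ℚ) := by
  have hd : (Psi m Q ℚ).natDegree = (Psi m Q ℤ).natDegree := by
    rw [Psi_natDegree, Psi_natDegree]
  simp only [lam, LinearMap.comp_apply, LinearMap.mulLeft_apply]
  rw [← tau_iot]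
  congr 1
  rw [map_mul (iot m Q), map_mul (iot m Q), map_pow, iot_gx, iot_skew, hd]

theorem iot_full : ∀ a : Lam m Q ℚ, ∃ n : ℕ, 0 < n ∧ ∃ z, iot m Q z = n • a := by
  intro a
  induction a using ind with
  | h f =>
    induction f using Polynomial.induction_on' with
    | add p q hp hq =>
      obtain ⟨n1, h1, z1, hz1⟩ := hp
      obtain ⟨n2, h2, z2, hz2⟩ := hq
      refine ⟨n1 * n2, Nat.mul_pos h1 h2, n2 • z1 + n1 • z2, ?_⟩
      rw [map_add, map_nsmul, map_nsmul, hz1, hz2, map_add, smul_add, smul_smul, smul_smul,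
        mul_comm n2 n1]
    | monomial k r =>
      refine ⟨r.den, r.pos, algebraMap ℤ (Lam m Q ℤ) r.num * gx m Q ℤ ^ k, ?_⟩
      rw [iot_alg, map_pow, iot_gx, aeval_monomial, ← Algebra.smul_def,
        ← Nat.cast_smul_eq_nsmul ℚ, smul_smul, mul_comm, Rat.mul_den_eq_num]

theorem ext_gx (hQ : GoodQ Q) {a b : Lam m Q ℚ}
    (h : ∀ k : ℕ, lam m Q ℚ (a * gx m Q ℚ ^ k) = lam m Q ℚ (b * gx m Q ℚ ^ k)) : a = b := by
  apply (lam_perf hQ.two hQ.npp hQ.odd).ext
  intro w
  induction w using ind with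
  | h f =>
    induction f using Polynomial.induction_on' with
    | add p q hp hq => rw [map_add, mul_add, mul_add, map_add, map_add, hp, hq]
    | monomial k r =>
      rw [aeval_monomial, ← Algebra.smul_def, mul_smul_comm, mul_smul_comm, map_smul, map_smul, h]

theorem iot_dual (hQ : GoodQ Q) : ∀ a : Lam m Q ℚ,
    (∀ z, ∃ c : ℤ, lam m Q ℚ (a * iot m Q z) = c) → ∃ z, iot m Q z = a := by
  intro a ha
  choose c hc using ha
  let φ : Lam m Q ℤ →ₗ[ℤ] ℤ :=
    { toFun := c
      map_add' := fun x y => by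
        have h1 := hc (x + y)
        rw [map_add, mul_add, map_add, hc, hc] at h1
        exact_mod_cast h1.symm
      map_smul' := fun r x => by
        have h1 := hc (r • x)
        rw [zsmul_eq_mul, map_mul (iot m Q), map_intCast, cast_mul_q, mul_smul_comm, map_smul,
          hc] at h1
        rw [zsmul_eq_mul]
        rw [RingHom.id_apply, smul_eq_mul]
        rw [smul_eq_mul] at h1
        exact_mod_cast h1.symm }
  obtain ⟨z0, hz0, -⟩ := lam_perf (m := m) (R := ℤ) hQ.two hQ.npp hQ.odd φ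
  refine ⟨z0, ext_gx hQ fun k => ?_⟩
  have h1 := hz0 (gx m Q ℤ ^ k)
  have h2 := hc (gx m Q ℤ ^ k)
  have h3 := lam_iot (z0 * gx m Q ℤ ^ k)
  rw [map_pow, iot_gx] at h2
  rw [map_mul, map_pow, iot_gx, h1] at h3
  rw [h2, h3]; rfl

end Crest.Agent.R267.P4Z_169
end

-- ▼ part R267/P411f_61
section

/-!
# S0407, package P4, node P4.11: hyperbolic pair for the functional `lam` of P4Fun_780 (helper61)
-/

set_option autoImplicit false

namespace Crest.Agent.R267.P411f_61

open Matrix Polynomial Crest.Agent.R267.P4Defs_780 Crest.Agent.R267.P4Lam_780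
open Crest.Agent.R267.P4Fun_780 Crest.Agent.R267.P4Brg_780
open Crest.Agent.R267.P411_61 Crest.Agent.R267.P411c_61 Crest.Agent.R267.P411d_61

/-- `ℤ/m`-grading: `tau` only sees the degree `-1`. -/
theorem tau_gx_pow {m Q j : ℕ} [NeZero m] [NeZero Q] (hj : j % m ≠ m - 1) :
    tau m Q ℤ (gx m Q ℤ ^ j) = 0 := by
  have hm : 0 < m := NeZero.pos m
  have hφ : 0 < Q.totient := Nat.totient_pos.2 (NeZero.pos Q)
  have hlt : j % m < m := Nat.mod_lt _ hm
  set f : ℤ[X] := (X ^ (j / m) : ℤ[X]) %ₘ cyclotomic Q ℤ with hf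
  have hfd : f.natDegree < Q.totient := by
    by_cases h0 : f = 0
    · rw [h0, natDegree_zero]; exact hφ
    · have h1 : f.degree < (cyclotomic Q ℤ).degree :=
        degree_modByMonic_lt _ (cyclotomic.monic Q ℤ)
      have h2 := natDegree_lt_natDegree h0 h1
      rwa [natDegree_cyclotomic] at h2
  have h1 : gx m Q ℤ ^ j = aeval (gx m Q ℤ) (expand ℤ m f * X ^ (j % m)) := by
    have h2 := modByMonic_add_div (X ^ (j / m) : ℤ[X]) (cyclotomic Q ℤ)
    have h3 := congrArg (fun P => aeval (gx m Q ℤ) (expand ℤ m P)) h2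
    simp only [map_add, map_mul, map_pow, expand_X, aeval_X] at h3
    have h4 : aeval (gx m Q ℤ) (expand ℤ m (cyclotomic Q ℤ)) = 0 := aeval_gx
    rw [h4, zero_mul, add_zero] at h3
    rw [map_mul, h3, map_pow, aeval_X, ← pow_mul, ← pow_add, Nat.div_add_mod]
  have hD : (Psi m Q ℤ).natDegree = Q.totient * m := Psi_natDegree m Q ℤ
  have hdeg : (expand ℤ m f * X ^ (j % m)).natDegree < (Psi m Q ℤ).natDegree := by
    refine lt_of_le_of_lt natDegree_mul_le ?_
    rw [natDegree_expand, natDegree_X_pow, hD]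
    have : f.natDegree * m ≤ (Q.totient - 1) * m := Nat.mul_le_mul_right _ (by omega)
    have h5 : (Q.totient - 1) * m + m = Q.totient * m := by
      rw [Nat.sub_mul, one_mul]
      exact Nat.sub_add_cancel (Nat.le_mul_of_pos_left _ hφ)
    omega
  rw [h1, tau_aeval hdeg, hD, coeff_mul_X_pow', coeff_expand hm]
  split_ifs with h6 h7
  · exfalso
    apply hj
    have h8 : m ∣ Q.totient * m := dvd_mul_left _ _
    have h9 : 1 ≤ Q.totient * m := Nat.mul_pos hφ hm
    have h10 : Q.totient * m = (Q.totient * m - 1 - j % m) + (1 + j % m) := by omega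
    rw [h10] at h8
    have h11 := (Nat.dvd_add_iff_right h7).2 h8
    have h12 : m ≤ 1 + j % m := Nat.le_of_dvd (by omega) h11
    omega
  · rfl
  · rfl

/-- (a) -/
theorem lam_gx_pow {m Q k : ℕ} [NeZero m] [NeZero Q] (hQ : GoodQ Q) (hk : ¬ m ∣ k) :
    lam m Q ℤ (gx m Q ℤ ^ k) = 0 := by
  have hm : 0 < m := NeZero.pos m
  have hφ : 0 < Q.totient := Nat.totient_pos.2 (NeZero.pos Q)
  have hD : (Psi m Q ℤ).natDegree = Q.totient * m := Psi_natDegree m Q ℤ
  obtain ⟨t, ht⟩ := Nat.totient_even hQ.two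
  have ht0 : 0 < t := by omega
  have hD2 : (Psi m Q ℤ).natDegree / 2 - 1 = t * m - 1 := by
    rw [hD, ht, show (t + t) * m = 2 * (t * m) by ring, Nat.mul_div_cancel_left _ (by norm_num)]
  have htm : 1 ≤ t * m := Nat.mul_pos ht0 hm
  have hstar : star (gx m Q ℤ ^ m) = gx m Q ℤ ^ (m * (m * Q - 1)) := by
    rw [star_pow, star_def, conj_gx, ← pow_mul, mul_comm]
  have key : ∀ a : ℕ, (t * m - 1 + a * m + k) % m ≠ m - 1 := by
    intro a h
    apply hk
    have h1 : m ∣ t * m - 1 + a * m + k + 1 := by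
      rw [Nat.dvd_iff_mod_eq_zero, Nat.add_mod, h]
      rcases Nat.lt_or_ge 1 m with h2 | h2
      · rw [Nat.mod_eq_of_lt h2, Nat.sub_add_cancel hm, Nat.mod_self]
      · have : m = 1 := by omega
        subst this
        simp
    have h2 : t * m - 1 + a * m + k + 1 = (t + a) * m + k := by
      rw [add_mul]; omega
    rw [h2] at h1
    exact (Nat.dvd_add_iff_right (dvd_mul_left _ _)).2 h1
  have e1 : gx m Q ℤ ^ (t * m - 1) * (gx m Q ℤ ^ m - star (gx m Q ℤ ^ m)) * gx m Q ℤ ^ k =
      gx m Q ℤ ^ (t * m - 1 + 1 * m + k) - gx m Q ℤ ^ (t * m - 1 + (m * Q - 1) * m + k) := by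
    rw [hstar, mul_sub, sub_mul, ← pow_add, ← pow_add, ← pow_add, ← pow_add, one_mul,
      mul_comm m (m * Q - 1)]
  show tau m Q ℤ (gx m Q ℤ ^ ((Psi m Q ℤ).natDegree / 2 - 1) *
    (gx m Q ℤ ^ m - star (gx m Q ℤ ^ m)) * gx m Q ℤ ^ k) = 0
  rw [hD2, e1, map_sub, tau_gx_pow (key _), tau_gx_pow (key _), sub_zero]

/-- (b) -/
theorem goodQ {u : ℕ} {q : List ℕ} (hA : Aux u q) : GoodQ q.prod := by
  obtain ⟨x, y, q', rfl⟩ : ∃ x y q', q = x :: y :: q' := by
    have := hA.length
    match q, this with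
    | x :: y :: q', _ => exact ⟨x, y, q', rfl⟩
  have hx := hA.prime x (by simp)
  have hy := hA.prime y (by simp)
  have hxy : x ≠ y := by
    have := hA.nodup
    simp only [List.nodup_cons, List.mem_cons, not_or] at this
    exact this.1.1
  have hpos : 0 < (x :: y :: q').prod := by
    apply List.prod_pos
    intro a ha
    exact (hA.prime a ha).pos
  have hxd : x ∣ (x :: y :: q').prod := List.dvd_prod (by simp)
  have hyd : y ∣ (x :: y :: q').prod := List.dvd_prod (by simp)
  refine ⟨?_, ?_, ?_⟩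
  · have h1 := Nat.le_of_dvd hpos hxd
    have h2 := (hA.big x (by simp)).1
    omega
  · intro p hp k hk
    have h1 : x ∣ p ^ k := hk ▸ hxd
    have h2 : y ∣ p ^ k := hk ▸ hyd
    have h3 := (Nat.prime_dvd_prime_iff_eq hx hp).1 (hx.dvd_of_dvd_pow h1)
    have h4 := (Nat.prime_dvd_prime_iff_eq hy hp).1 (hy.dvd_of_dvd_pow h2)
    exact hxy (h3.trans h4.symm)
  · have h1 : ∀ l : List ℕ, (∀ a ∈ l, a.Prime ∧ 3 < a) → Odd l.prod := by
      intro l
      induction l with
      | nil => intro _; simp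
      | cons a l ih =>
        intro h
        rw [List.prod_cons]
        exact ((h a (by simp)).1.odd_of_ne_two (by have := (h a (by simp)).2; omega)).mul
          (ih fun b hb => h b (by simp [hb]))
    exact h1 _ fun a ha => ⟨hA.prime a ha, (hA.big a ha).1⟩

section Family

variable {L : List (ℕ × ℕ × ℤ)} {u : ℕ} {q : List ℕ}


end Family

end Crest.Agent.R267.P411f_61
end

-- ▼ part R267/Globs_169
section

/-!
# S0407, package P4: the Prop `GLOBS` (helper169)
-/

set_option autoImplicit false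

namespace Crest.Agent.R267.Globs_169

open Polynomial Matrix Crest.Agent.R267.P4Herm_780 Crest.Agent.R267.P4Lam_780
  Crest.Agent.R267.P4Fun_780 Crest.Agent.R267.P4Defs_780 Crest.Agent.R267.P4Brg_780
  Crest.Agent.R267.P49_169 Crest.Agent.R267.P49b_169 Crest.Agent.R267.WA_169
  Crest.Agent.R267.P4Z_169

section cast

variable {ι : Type}

/-- integral vectors in `ℚ ^ ι`. -/
def cst (ι : Type) : (ι → ℤ) →+ (ι → ℚ) := (Int.castAddHom ℚ).compLeft ι

theorem cst_apply (x : ι → ℤ) (i : ι) : cst ι x i = (x i : ℚ) := rfl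

theorem cst_inj : Function.Injective (cst ι) := fun x y h => by
  funext i
  have := congrFun h i
  rw [cst_apply, cst_apply] at this
  exact_mod_cast this

variable [Fintype ι]

theorem cst_mulVec {κ : Type} (A : Matrix κ ι ℤ) (x : ι → ℤ) :
    (A.map (Int.castRingHom ℚ)) *ᵥ (cst ι x) = cst κ (A *ᵥ x) := by
  funext i
  simp [Matrix.mulVec, dotProduct, cst_apply]

theorem cst_dot (x y : ι → ℤ) : cst ι x ⬝ᵥ cst ι y = ((x ⬝ᵥ y : ℤ) : ℚ) := by
  simp [dotProduct, cst_apply]

theorem exists_clear (x : ι → ℚ) : ∃ n : ℕ, 0 < n ∧ n • x ∈ (cst ι).range := by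
  refine ⟨∏ i, (x i).den, Finset.prod_pos fun i _ => (x i).pos, ?_⟩
  have h : ∀ i, ∃ c : ℤ, ((∏ i, (x i).den : ℕ) : ℚ) * x i = c := by
    intro i
    obtain ⟨r, hr⟩ : (x i).den ∣ ∏ i, (x i).den :=
      Finset.dvd_prod_of_mem (fun i => (x i).den) (Finset.mem_univ i)
    refine ⟨r * (x i).num, ?_⟩
    have h1 := Rat.mul_den_eq_num (x i)
    rw [hr]; push_cast
    linear_combination (r : ℚ) * h1
  choose c hc using h
  refine ⟨c, ?_⟩
  funext i
  rw [cst_apply, ← hc, Pi.smul_apply, nsmul_eq_mul]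

theorem range_fg : (cst ι).range.FG := by
  classical
  have : AddGroup.FG (ι → ℤ) := inferInstance
  obtain ⟨S, hS⟩ := (AddGroup.fg_def.1 this : (⊤ : AddSubgroup (ι → ℤ)).FG)
  rw [AddMonoidHom.range_eq_map]
  exact fg_map ⟨S, hS⟩ _

end cast

variable {m Q : ℕ} [NeZero m] [NeZero Q]

/-- the integral subring of `Lam m Q ℚ`. -/
noncomputable abbrev LZ (m Q : ℕ) [NeZero m] [NeZero Q] : Subring (Lam m Q ℚ) := (iot m Q).range

section std

variable {ι : Type} [Fintype ι] [DecidableEq ι] {A T : Matrix ι ι ℤ}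

theorem smul_cst (hA : MatLT m Q A T) (z : Lam m Q ℤ) (y : ι → ℤ) :
    letI := lamModule (Matrix.toLin' (T.map (Int.castRingHom ℚ))) (hA.map (Int.castRingHom ℚ)).toLT.psi
    iot m Q z • (cst ι y) ∈ (cst ι).range := by
  let _ := lamModule (Matrix.toLin' (T.map (Int.castRingHom ℚ)))
    (hA.map (Int.castRingHom ℚ)).toLT.psi
  have hT : ∀ (k : ℕ) (y : ι → ℤ), gx m Q ℚ ^ k • (cst ι y) = cst ι ((T ^ k) *ᵥ y) := by
    intro k y
    rw [(hA.map (Int.castRingHom ℚ)).toLT.gx_pow_smul]
    induction k with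
    | zero => simp
    | succ k ih =>
      rw [pow_succ', Module.End.mul_apply, ih, Matrix.toLin'_apply, cst_mulVec,
        Matrix.mulVec_mulVec, pow_succ']
  induction z using ind with
  | h f =>
    induction f using Polynomial.induction_on' with
    | add p q hp hq =>
      rw [map_add, map_add, add_smul]
      exact AddSubgroup.add_mem _ hp hq
    | monomial k r =>
      have h1 : iot m Q (aeval (gx m Q ℤ) (monomial k r)) = (r : Lam m Q ℚ) * gx m Q ℚ ^ k := by
        rw [aeval_monomial, map_mul, map_pow, iot_gx]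
        congr 1
        rw [show algebraMap ℤ (Lam m Q ℤ) r = ((r : ℤ) : Lam m Q ℤ) from eq_intCast _ r,
          map_intCast]
      rw [h1, mul_smul, hT, Int.cast_smul_eq_zsmul]
      exact AddSubgroup.zsmul_mem _ (AddMonoidHom.mem_range.2 ⟨_, rfl⟩) _

/-- the standard lattice of a unimodular Seifert matrix. -/
noncomputable def stdHL (hA : MatLT m Q A T) (hQ : GoodQ Q) (hm : Odd m) :
    HL (Lam m Q ℚ) (LZ m Q) := by
  letI := lamModule (Matrix.toLin' (T.map (Int.castRingHom ℚ)))
    (hA.map (Int.castRingHom ℚ)).toLT.psi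
  haveI := isScalarTower' (Matrix.toLin' (T.map (Int.castRingHom ℚ)))
    (hA.map (Int.castRingHom ℚ)).toLT.psi
  haveI : Module.Finite (Lam m Q ℚ) (ι → ℚ) := Module.Finite.of_restrictScalars_finite ℚ _ _
  exact
  { V := ι → ℚ
    H := (hA.map (Int.castRingHom ℚ)).toLT.hform hQ hm
    uni := (hA.map (Int.castRingHom ℚ)).toLT.hform_unimodular hQ hm
    M := (cst ι).range
    smul_mem := by
      rintro _ ⟨z, rfl⟩ _ ⟨y, rfl⟩
      exact smul_cst hA z y
    h_mem := by
      rintro _ ⟨x, rfl⟩ _ ⟨y, rfl⟩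
      apply iot_dual hQ
      intro z
      obtain ⟨y', hy'⟩ := smul_cst hA z y
      have h1 : lam m Q ℚ (((hA.map (Int.castRingHom ℚ)).toLT.hform hQ hm).h (cst ι x) (cst ι y) *
          iot m Q z) = LT.bb m Q (MatLT.form (A.map (Int.castRingHom ℚ)))
            (Matrix.toLin' (T.map (Int.castRingHom ℚ))) (cst ι x) (iot m Q z • cst ι y) :=
        hh_spec (lam_perf hQ.two hQ.npp hQ.odd) _ _ _ _
      refine ⟨x ⬝ᵥ (A *ᵥ (T ^ ((m * Q + 1) / 2) *ᵥ y')), ?_⟩
      rw [h1, ← hy']
      have h2 : ((Matrix.toLin' (T.map (Int.castRingHom ℚ))) ^ ((m * Q + 1) / 2)) (cst ι y') =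
          cst ι (T ^ ((m * Q + 1) / 2) *ᵥ y') := by
        rw [← Matrix.toLin'_pow, Matrix.toLin'_apply, ← cst_mulVec]
        congr 1
        exact ((Int.castRingHom ℚ).mapMatrix.map_pow T _).symm
      rw [LT.bb_apply, h2, MatLT.form_apply, cst_mulVec, cst_dot]
    mem_of := by
      intro x hx
      set U : Matrix ι ι ℤ := A * T ^ ((m * Q + 1) / 2) with hU
      have hTu : IsUnit T.det := by
        have h1 := congrArg Matrix.det hA.mono
        rw [Matrix.det_mul, Matrix.det_transpose] at h1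
        have h2 : T.det = 1 := hA.det.mul_left_cancel (by rw [h1, mul_one])
        rw [h2]; exact isUnit_one
      have hUu : IsUnit U.det := by
        rw [hU, Matrix.det_mul, Matrix.det_pow]
        exact hA.det.mul (hTu.pow _)
      have h1 : ∀ y : ι → ℤ, ∃ c : ℤ, x ⬝ᵥ cst ι (U *ᵥ y) = c := by
        intro y
        obtain ⟨z, hz⟩ := hx (cst ι y) ⟨y, rfl⟩
        have h2 : lam m Q ℚ (((hA.map (Int.castRingHom ℚ)).toLT.hform hQ hm).h x (cst ι y)) =
          LT.bb m Q (MatLT.form (A.map (Int.castRingHom ℚ)))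
            (Matrix.toLin' (T.map (Int.castRingHom ℚ))) x (cst ι y) :=
          lam_hh (lam_perf hQ.two hQ.npp hQ.odd) _ _ _
        rw [← hz, lam_iot, LT.bb_apply, MatLT.form_apply] at h2
        refine ⟨lam m Q ℤ z, ?_⟩
        rw [h2, ← Matrix.mulVec_mulVec]
        have h3 : ((Matrix.toLin' (T.map (Int.castRingHom ℚ))) ^ ((m * Q + 1) / 2)) (cst ι y) =
            cst ι (T ^ ((m * Q + 1) / 2) *ᵥ y) := by
          rw [← Matrix.toLin'_pow, Matrix.toLin'_apply, ← cst_mulVec]
          congr 1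
          exact ((Int.castRingHom ℚ).mapMatrix.map_pow T _).symm
        rw [h3, cst_mulVec]
      have h4 : ∀ i, ∃ c : ℤ, x i = c := by
        intro i
        obtain ⟨c, hc⟩ := h1 (U⁻¹ *ᵥ Pi.single i 1)
        rw [Matrix.mulVec_mulVec, Matrix.mul_nonsing_inv _ hUu, Matrix.one_mulVec] at hc
        refine ⟨c, ?_⟩
        rw [← hc]
        have h5 : cst ι (Pi.single i 1) = Pi.single i 1 := by
          funext k
          by_cases hk : k = i
          · subst hk; simp [cst_apply]
          · simp [cst_apply, hk]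
        rw [h5]; simp
      choose c hc using h4
      exact ⟨c, funext fun i => by rw [cst_apply, hc]⟩
    full := exists_clear
    fg := range_fg }

variable {κ : Type} [Fintype κ] [DecidableEq κ] {B S : Matrix κ κ ℤ}

theorem rIso_of_nearQ (hA : MatLT m Q A T) (hB : MatLT m Q B S) (hQ : GoodQ Q) (hm : Odd m)
    {N : ℕ} (h : NearQ N A B) : RIso N (stdHL hA hQ hm) (stdHL hB hQ hm) := by
  obtain ⟨P, P', h1, h2, h3, t, ht, ⟨X, hX⟩, ⟨X', hX'⟩⟩ := h
  let g : (ι → ℚ) ≃ₗ[ℚ] (κ → ℚ) := LinearEquiv.ofLinearMap (Matrix.toLin' P') (Matrix.toLin' P)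
    (by rw [← Matrix.toLin'_mul, h2, Matrix.toLin'_one])
    (by rw [← Matrix.toLin'_mul, h1, Matrix.toLin'_one])
  have hgx : ∀ x, g x = P' *ᵥ x := fun x => rfl
  have h4 : P'ᵀ * B.map (Int.castRingHom ℚ) * P' = A.map (Int.castRingHom ℚ) := by
    have h5 : P'ᵀ * Pᵀ = 1 := by rw [← transpose_mul, h1, transpose_one]
    have h6 : B.map (Int.castRingHom ℚ) = Pᵀ * A.map (Int.castRingHom ℚ) * P := h3.symm
    calc P'ᵀ * B.map (Int.castRingHom ℚ) * P'
        = (P'ᵀ * Pᵀ) * A.map (Int.castRingHom ℚ) * (P * P') := by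
          rw [h6]; simp only [Matrix.mul_assoc]
      _ = A.map (Int.castRingHom ℚ) := by rw [h5, h1, Matrix.one_mul, Matrix.mul_one]
  have hg : ∀ x y, MatLT.form (B.map (Int.castRingHom ℚ)) (g x) (g y) =
      MatLT.form (A.map (Int.castRingHom ℚ)) x y := by
    intro x y
    rw [MatLT.form_apply, MatLT.form_apply, hgx, hgx, ← h4, ← Matrix.mulVec_mulVec,
      ← Matrix.mulVec_mulVec, Matrix.mulVec_transpose, dotProduct_comm x,
      ← Matrix.dotProduct_mulVec, dotProduct_comm]
  obtain ⟨g', hg1, hg2⟩ := (hA.map (Int.castRingHom ℚ)).toLT.to_isom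
    (hB.map (Int.castRingHom ℚ)).toLT hQ hm g hg
  refine ⟨g', hg2, t, ht, ?_, ?_⟩
  · rintro _ ⟨_, ⟨y, rfl⟩, rfl⟩
    refine ⟨X' *ᵥ y, ?_⟩
    rw [← cst_mulVec]
    have h5 : X'.map (Int.castRingHom ℚ) = (t : ℚ) • P' := hX'.symm
    rw [h5, Matrix.smul_mulVec, ← hgx, ← hg1, Nat.cast_smul_eq_nsmul]
    rfl
  · rintro _ ⟨y, rfl⟩
    refine ⟨cst ι (X *ᵥ y), ⟨_, rfl⟩, ?_⟩
    have h5 : X.map (Int.castRingHom ℚ) = (t : ℚ) • P := hX.symm
    have h6 : g (cst ι (X *ᵥ y)) = t • cst κ y := by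
      rw [hgx, ← cst_mulVec, h5, Matrix.smul_mulVec, Matrix.mulVec_smul, Matrix.mulVec_mulVec, h2,
        Matrix.one_mulVec, Nat.cast_smul_eq_nsmul]
    exact (hg1 _).trans h6

theorem cong_of_iso (hA : MatLT m Q A T) (hB : MatLT m Q B S) (hQ : GoodQ Q) (hm : Odd m)
    (h : Iso (stdHL hA hQ hm) (stdHL hB hQ hm)) : Cong ℤ B A := by
  let _ := lamModule (Matrix.toLin' (T.map (Int.castRingHom ℚ)))
    (hA.map (Int.castRingHom ℚ)).toLT.psi
  let _ := lamModule (Matrix.toLin' (S.map (Int.castRingHom ℚ)))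
    (hB.map (Int.castRingHom ℚ)).toLT.psi
  obtain ⟨g0, hg0, hM0⟩ := h
  let g : (ι → ℚ) ≃ₗ[Lam m Q ℚ] (κ → ℚ) := g0
  have hg : ∀ x y, ((hB.map (Int.castRingHom ℚ)).toLT.hform hQ hm).h (g x) (g y) =
    ((hA.map (Int.castRingHom ℚ)).toLT.hform hQ hm).h x y := hg0
  have hM : (cst ι).range.map ((g : (ι → ℚ) →ₗ[Lam m Q ℚ] (κ → ℚ)).toAddMonoidHom) =
    (cst κ).range := hM0
  have ho := hm.mul hQ.odd
  have hb : ∀ x y, LT.bb m Q (MatLT.form (B.map (Int.castRingHom ℚ)))
      (Matrix.toLin' (S.map (Int.castRingHom ℚ))) (g x) (g y) =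
      LT.bb m Q (MatLT.form (A.map (Int.castRingHom ℚ)))
      (Matrix.toLin' (T.map (Int.castRingHom ℚ))) x y := by
    intro x y
    rw [← (hA.map (Int.castRingHom ℚ)).toLT.lam_hform hQ hm,
      ← (hB.map (Int.castRingHom ℚ)).toLT.lam_hform hQ hm, hg]
  have hL : ∀ x y, MatLT.form (B.map (Int.castRingHom ℚ)) (g x) (g y) =
      MatLT.form (A.map (Int.castRingHom ℚ)) x y := by
    intro x y
    rw [(hA.map (Int.castRingHom ℚ)).toLT.L_apply ho, (hB.map (Int.castRingHom ℚ)).toLT.L_apply ho,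
      ← hb]
    congr 1
    rw [← (hA.map (Int.castRingHom ℚ)).toLT.gx_pow_smul, map_smul,
      ← (hB.map (Int.castRingHom ℚ)).toLT.gx_pow_smul]
  have ha : ∀ x : ι → ℤ, ∃ y : κ → ℤ, cst κ y = g (cst ι x) := by
    intro x
    have : g (cst ι x) ∈ (cst κ).range := by
      rw [← hM]; exact ⟨_, ⟨x, rfl⟩, rfl⟩
    exact this
  have hb' : ∀ y : κ → ℤ, ∃ x : ι → ℤ, cst ι x = g.symm (cst κ y) := by
    intro y
    have : cst κ y ∈ (cst ι).range.map ((g : (ι → ℚ) →ₗ[Lam m Q ℚ] (κ → ℚ)).toAddMonoidHom) := by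
      rw [hM]; exact ⟨y, rfl⟩
    obtain ⟨_, ⟨x, rfl⟩, hx⟩ := this
    refine ⟨x, ?_⟩
    rw [← hx]
    exact (g.symm_apply_apply _).symm
  choose a ha using ha
  choose b hb' using hb'
  let G : (ι → ℤ) ≃ₗ[ℤ] (κ → ℤ) :=
    { toFun := a
      invFun := b
      left_inv := fun x => cst_inj (by rw [hb', ha, g.symm_apply_apply])
      right_inv := fun y => cst_inj (by rw [ha, hb', g.apply_symm_apply])
      map_add' := fun x y => cst_inj (by rw [ha, map_add, map_add, map_add, ha, ha])
      map_smul' := fun c x => cst_inj (by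
        rw [ha, RingHom.id_apply, map_zsmul, map_zsmul, map_zsmul, ha]) }
  have hG : ∀ x, cst κ (G x) = g (cst ι x) := ha
  refine MatLT.cong_of_isometry G fun x y => ?_
  have h1 := hL (cst ι x) (cst ι y)
  rw [← hG, ← hG, MatLT.form_apply, MatLT.form_apply, cst_mulVec, cst_mulVec, cst_dot, cst_dot] at h1
  rw [MatLT.form_apply, MatLT.form_apply]
  exact_mod_cast h1

end std

theorem iso_symm {K : Type} [CommRing K] [StarRing K] {Λ : Subring K} {X Y : HL K Λ}
    (h : Iso X Y) : Iso Y X := by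
  obtain ⟨g, hg, hM⟩ := h
  exact ⟨g.symm, fun x y => by rw [← hg]; simp, by rw [← hM, img_symm_img]⟩

/-- P4.10 in our form. -/
theorem exists_P410 (m Q : ℕ) [NeZero m] [NeZero Q] : ∃ h : ℕ, P410 (LZ m Q) h := by
  have := isReduced_lam m Q
  have hfin : Module.Finite ℤ (LZ m Q) := by
    have h0 : @Module.Finite ℤ (Lam m Q ℤ) _ _ (AddCommGroup.toIntModule _) := by
      have h1 : (AddCommGroup.toIntModule (Lam m Q ℤ)) = Algebra.toModule := Subsingleton.elim _ _
      rw [h1]; infer_instance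
    let _ : Module ℤ (Lam m Q ℤ) := AddCommGroup.toIntModule _
    exact Module.Finite.of_surjective ((iot m Q).rangeRestrict.toAddMonoidHom.toIntLinearMap)
      (iot m Q).rangeRestrict_surjective
  obtain ⟨h, H⟩ := Crest.Agent.R267.P410b_785.pigeonhole' (Lam m Q ℚ) (LZ m Q)
  refine ⟨h, fun I hI1 hI2 => ?_⟩
  let I' : Fin (h + 1) → Submodule (LZ m Q) (Lam m Q ℚ) := fun i =>
    { carrier := I i
      add_mem' := (I i).add_mem
      zero_mem' := (I i).zero_mem
      smul_mem' := fun c x hx => hI1 i c.1 c.2 x hx }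
  obtain ⟨i, hi, j, hj, hij, a, ha⟩ := H (Finset.range (h + 1)) (by simp)
    (fun k => if hk : k < h + 1 then I' ⟨k, hk⟩ else ⊥) (by
      intro k hk
      rw [Finset.mem_range] at hk
      simp only [hk, dif_pos]
      obtain ⟨c, hc, h1, h2⟩ := hI2 ⟨k, hk⟩
      refine ⟨c, by exact_mod_cast hc.ne', ?_, fun x hx => ?_⟩
      · have := h2 1 (one_mem (LZ m Q))
        rw [nsmul_eq_mul, mul_one] at this
        change (((c : ℤ)) : Lam m Q ℚ) ∈ I ⟨k, hk⟩
        rwa [Int.cast_natCast]
      · have := h1 x hx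
        rw [nsmul_eq_mul] at this
        rw [Int.cast_natCast]
        exact this)
  rw [Finset.mem_range] at hi hj
  simp only [hi, hj, dif_pos] at ha
  refine ⟨⟨i, hi⟩, ⟨j, hj⟩, fun h => hij.ne (congrArg Fin.val h), a, fun x => ?_⟩
  constructor
  · intro hx
    exact (ha _).2 ⟨x, hx, rfl⟩
  · intro hx
    obtain ⟨y, hy, hxy⟩ := (ha _).1 hx
    have : x = y := by
      have := congrArg (fun z => ((a⁻¹ : (Lam m Q ℚ)ˣ) : Lam m Q ℚ) * z) hxy
      simpa [← mul_assoc] using this
    rw [this]; exact hy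

/-- the hyperbolic pair. -/
theorem exists_pair {L : List (ℕ × ℕ × ℤ)} {u : ℕ} {q : List ℕ} (hC : Cert L u) (hA : Aux u q)
    [NeZero (3 * u)] [NeZero q.prod] (hQ : GoodQ q.prod) (hm : Odd (3 * u)) (s j : ℕ)
    (hM : MatLT (3 * u) q.prod (sysMat (F L u q s j))
      (Crest.Agent.R267.P411_61.Tsys (F L u q s j))) :
    ∃ e ∈ (stdHL hM hQ hm).M, ∃ f ∈ (stdHL hM hQ hm).M, (stdHL hM hQ hm).H.h e e = 0 ∧
      (stdHL hM hQ hm).H.h e f = 1 := by
  let _ := lamModule (Matrix.toLin' ((Crest.Agent.R267.P411_61.Tsys (F L u q s j)).map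
    (Int.castRingHom ℚ))) (hM.map (Int.castRingHom ℚ)).toLT.psi
  obtain ⟨e, f, hef⟩ := Crest.Agent.R267.P411d_61.hyp_lam hC hA s j
    (lam (3 * u) q.prod ℤ).toAddMonoidHom (fun k hk => Crest.Agent.R267.P411f_61.lam_gx_pow hQ hk)
  have key : ∀ (x y : Idx (F L u q s j) → ℤ) (k : ℕ), lam (3 * u) q.prod ℚ
      (((hM.map (Int.castRingHom ℚ)).toLT.hform hQ hm).h (cst _ x) (cst _ y) *
        gx (3 * u) q.prod ℚ ^ k) =
      ((x ⬝ᵥ ((sysMat (F L u q s j) * Crest.Agent.R267.P411_61.Tsys (F L u q s j) ^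
        (Crest.Agent.R267.P411_61.hs u q + k)) *ᵥ y) : ℤ) : ℚ) := by
    intro x y k
    have h1 : lam (3 * u) q.prod ℚ
      (((hM.map (Int.castRingHom ℚ)).toLT.hform hQ hm).h (cst _ x) (cst _ y) *
        gx (3 * u) q.prod ℚ ^ k) = LT.bb (3 * u) q.prod
          (MatLT.form ((sysMat (F L u q s j)).map (Int.castRingHom ℚ)))
          (Matrix.toLin' ((Crest.Agent.R267.P411_61.Tsys (F L u q s j)).map
            (Int.castRingHom ℚ))) (cst _ x) (gx (3 * u) q.prod ℚ ^ k • cst _ y) :=
      hh_spec (lam_perf hQ.two hQ.npp hQ.odd) _ _ _ _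
    rw [h1, (hM.map (Int.castRingHom ℚ)).toLT.gx_pow_smul, LT.bb_apply, ← Module.End.mul_apply,
      ← pow_add]
    have h3 : ((Matrix.toLin' ((Crest.Agent.R267.P411_61.Tsys (F L u q s j)).map
        (Int.castRingHom ℚ))) ^ (Crest.Agent.R267.P411_61.hs u q + k)) (cst _ y) =
        cst _ ((Crest.Agent.R267.P411_61.Tsys (F L u q s j)) ^
          (Crest.Agent.R267.P411_61.hs u q + k) *ᵥ y) := by
      rw [← Matrix.toLin'_pow, Matrix.toLin'_apply, ← cst_mulVec]
      congr 1
      exact ((Int.castRingHom ℚ).mapMatrix.map_pow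
        (Crest.Agent.R267.P411_61.Tsys (F L u q s j)) _).symm
    change MatLT.form ((sysMat (F L u q s j)).map (Int.castRingHom ℚ)) (cst _ x)
      (((Matrix.toLin' ((Crest.Agent.R267.P411_61.Tsys (F L u q s j)).map
        (Int.castRingHom ℚ))) ^ (Crest.Agent.R267.P411_61.hs u q + k)) (cst _ y)) = _
    rw [h3, MatLT.form_apply, cst_mulVec, cst_dot, Matrix.mulVec_mulVec]
  refine ⟨cst _ e, ⟨e, rfl⟩, cst _ f, ⟨f, rfl⟩, ?_, ?_⟩
  · refine ext_gx (m := 3 * u) (Q := q.prod) hQ fun k => ?_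
    refine (key e e k).trans ?_
    rw [(hef k).1, zero_mul, map_zero, Int.cast_zero]
  · refine ext_gx (m := 3 * u) (Q := q.prod) hQ fun k => ?_
    refine (key e f k).trans ?_
    rw [(hef k).2, one_mul]
    have h2 := lam_iot (m := 3 * u) (Q := q.prod) (gx (3 * u) q.prod ℤ ^ k)
    rw [map_pow, iot_gx] at h2
    exact h2.symm

theorem globs : GLOBS := by
  intro L u q hC hA
  have hu := hC.big
  have : NeZero (3 * u) := ⟨by omega⟩
  have : NeZero q.prod := ⟨(Crest.Agent.R267.P411d_61.q_pos hA).ne'⟩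
  have hQ := Crest.Agent.R267.P411f_61.goodQ hA
  have hm : Odd (3 * u) := by
    have : Odd u := hC.prime.odd_of_ne_two (by omega)
    exact (by decide : Odd 3).mul this
  obtain ⟨h, hP⟩ := exists_P410 (3 * u) q.prod
  refine ⟨h, fun s J hJs hcard hQc hloc => ?_⟩
  have hMat : ∀ j, MatLT (3 * u) q.prod (sysMat (F L u q s j))
      (Crest.Agent.R267.P411_61.Tsys (F L u q s j)) := fun j =>
    ⟨(Crest.Agent.R267.P414_111.mono L u q hC hA s j).1,
      Crest.Agent.R267.P411_61.F_T hC hA s j, by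
        rw [Psi, expand_aeval]; exact Crest.Agent.R267.P411b_61.F_cyc hC hA s j⟩
  obtain ⟨J', hJ', hcard'⟩ := Finset.exists_subset_card_eq (Nat.succ_le_of_lt hcard)
  let ε := J'.orderEmbOfFin hcard'
  have hε : ∀ i, ε i ∈ J := fun i => hJ' (J'.orderEmbOfFin_mem hcard' i)
  obtain ⟨e, he, f, hf, hee, hef⟩ := exists_pair hC hA hQ hm s (ε 0) (hMat (ε 0))
  have hK : Good (Lam (3 * u) q.prod ℚ) := P4Lam_780.good hQ.npp hQ.odd
  have hZ : Good (Lam (3 * u) q.prod ℤ) := P4Lam_780.good hQ.npp hQ.odd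
  obtain ⟨c, hc⟩ := hZ.tr
  have := isReduced_lam (3 * u) q.prod
  have : IsArtinianRing (Lam (3 * u) q.prod ℚ) := IsArtinianRing.of_finite ℚ _
  obtain ⟨i, j, hij, hI⟩ := pigeonHL (Λ := LZ (3 * u) q.prod) hK
    (by rintro _ ⟨z, rfl⟩; exact ⟨star z, iot_star z⟩)
    (fun a => by
      obtain ⟨n, hn, z, hz⟩ := iot_full a
      exact ⟨n, hn, z, hz⟩)
    (c := iot _ _ c) ⟨c, rfl⟩ (by rw [← iot_star, ← map_add, hc, map_one]) hP
    (stdHL (hMat (ε 0)) hQ hm) he hf hee hef (fun i => stdHL (hMat (ε i)) hQ hm)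
    (fun i N hN => rIso_of_nearQ _ _ hQ hm (WA _ _ (hMat (ε i)).det
      (Crest.Agent.R267.P45e_235.isUnit_add hC hA s (ε 0))
      (Crest.Agent.R267.P45e_235.isUnit_sub hC hA s (ε 0))
      (hQc _ (hε 0) _ (hε i)) (fun p _ => hloc _ (hε 0) _ (hε i) p) N hN))
  rcases lt_or_gt_of_ne hij with hlt | hlt
  · exact ⟨ε i, hε i, ε j, hε j, ε.strictMono hlt, cong_of_iso _ _ hQ hm (iso_symm hI)⟩
  · exact ⟨ε j, hε j, ε i, hε i, ε.strictMono hlt, cong_of_iso _ _ hQ hm hI⟩

end Crest.Agent.R267.Globs_169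
end

-- ▼ part R267/P4Fin_780
section

/-!
# S0407, package P4: assembly with a colouring, `RATB → LOCSQ → GLOBS → INTb` (helper780)
-/

set_option autoImplicit false

namespace Crest.Agent.R267.P4Fin_780

open Matrix Crest.Agent.R267.P4Defs_780 Crest.Agent.R267.P4LocsQ_780 Crest.Agent.R267.P4Asm_780

/-- the head of `chainOf a b` bounds all entries from below (strictly for the tail). -/
theorem chainOf_inc (a b : ℕ) : (chainOf a b).Pairwise (· < ·) ∧
    ∀ e ∈ chainOf a b, b / a ≤ e := by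
  induction a using Nat.strong_induction_on with
  | _ a ih =>
    rcases Nat.eq_zero_or_pos a with rfl | ha
    · rw [chainOf_zero]; simp
    · rw [chainOf_pos ha]
      have hlt := Nat.mod_lt b ha
      obtain ⟨h1, h2⟩ := ih _ hlt
      have key : ∀ e ∈ chainOf (b % a) b, b / a < e := by
        intro e he
        rcases Nat.eq_zero_or_pos (b % a) with h0 | h0
        · rw [h0, chainOf_zero] at he; simp at he
        · refine lt_of_lt_of_le ?_ (h2 e he)
          -- `b = (b / a) * a + b % a`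
          rw [Nat.lt_iff_add_one_le, Nat.le_div_iff_mul_le h0]
          have h3 := Nat.div_add_mod b a
          have h4 : b / a * (b % a) ≤ b / a * a := Nat.mul_le_mul_left _ hlt.le
          nlinarith
      refine ⟨List.pairwise_cons.2 ⟨key, h1⟩, ?_⟩
      intro e he
      rcases List.mem_cons.1 he with rfl | he
      · exact le_rfl
      · exact (key e he).le

theorem inc_Z {L : List (ℕ × ℕ × ℤ)} {c : List ℕ} (hc : c ∈ ZP L ∨ c ∈ ZM L) :
    c.Pairwise (· < ·) := by
  have hblock : ∀ x, c ∈ blockP x ∨ c ∈ blockM x →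
      c = chainOf x.1 x.2.1 ∨ c = chainOf (x.2.1 % x.1) x.2.1 := by
    intro x h
    simp only [blockP, blockM, List.mem_append, List.mem_replicate] at h
    tauto
  have key : ∀ x : ℕ × ℕ × ℤ, c = chainOf x.1 x.2.1 ∨ c = chainOf (x.2.1 % x.1) x.2.1 →
      c.Pairwise (· < ·) := by
    rintro x (rfl | rfl)
    · exact (chainOf_inc _ _).1
    · exact (chainOf_inc _ _).1
  rcases hc with hc | hc
  · simp only [ZP, List.mem_filter, List.mem_flatMap] at hc
    obtain ⟨⟨x, hx, hcx⟩, hne⟩ := hc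
    exact key x (hblock x (Or.inl hcx))
  · simp only [ZM, List.mem_filter, List.mem_flatMap] at hc
    obtain ⟨⟨x, hx, hcx⟩, hne⟩ := hc
    exact key x (hblock x (Or.inr hcx))

theorem inc_F {L : List (ℕ × ℕ × ℤ)} {u : ℕ} {q : List ℕ} {s j : ℕ} {c : List ℕ}
    (hc : c ∈ F L u q s j) : c.Pairwise (· < ·) := by
  simp only [F, List.mem_append, List.mem_map] at hc
  rcases hc with (((hc | hc) | hc) | hc) | ⟨x, hx, rfl⟩
  · have := mem_rep hc; simp at this; subst this; simp
  · have := mem_rep hc; simp at this; subst this; simp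
  · exact inc_Z (Or.inl (mem_rep hc))
  · exact inc_Z (Or.inr (mem_rep hc))
  · simp

/-- the output with a colouring `bit` which does not see squares. -/
theorem INTcol_of (hR : RATB) (hL : LOCSQ) (hG : GLOBS) (bit : List (List ℕ) → Bool)
    (hbit : ∀ S, bit ([2] :: S) = bit S) :
    ∃ S S' : List (List ℕ), Adm S ∧ Adm S' ∧ (∀ c ∈ S, c.Pairwise (· < ·)) ∧
      (∀ c ∈ S', c.Pairwise (· < ·)) ∧ nvar S = nvar S' ∧ 3 < nvar S ∧
      8 ∣ nvar S ∧ [2] ∈ S ∧ [3] ∈ S' ∧ (∀ c ∈ S', ∀ h : c ≠ [], 3 ≤ c.getLast h) ∧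
      bit S = bit S' ∧ Cong ℤ (sysMat S) (sysMat S') := by
  obtain ⟨L, u, q, hC, hA⟩ := exists_data
  obtain ⟨B, hB⟩ := hR L u q hC hA
  obtain ⟨h, hh⟩ := hG L u q hC hA
  obtain ⟨s, hs⟩ : ∃ s : ℕ, s = ((B + 1) * 2) * h := ⟨_, rfl⟩
  obtain ⟨col, hcol⟩ := hB s
  -- a colour with more than `h` indices
  obtain ⟨y, -, hy⟩ : ∃ y ∈ (Finset.univ : Finset (Fin (B + 1) × Bool)),
      h < ((Finset.range (s + 1)).filter (fun j => (col j, bit (F L u q s j)) = y)).card := by
    apply Finset.exists_lt_card_fiber_of_mul_lt_card_of_maps_to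
    · intro a _; exact Finset.mem_univ _
    · rw [hs]; simp [Fintype.card_prod]
  set J := (Finset.range (s + 1)).filter (fun j => (col j, bit (F L u q s j)) = y) with hJ
  have hJs : ∀ j ∈ J, j ≤ s := by
    intro j hj
    have := (Finset.mem_filter.1 hj).1
    have := Finset.mem_range.1 this
    omega
  have hJp : ∀ i ∈ J, ∀ j ∈ J, (col i, bit (F L u q s i)) = (col j, bit (F L u q s j)) := by
    intro i hi j hj
    rw [(Finset.mem_filter.1 hi).2, (Finset.mem_filter.1 hj).2]
  have hJc : ∀ i ∈ J, ∀ j ∈ J, col i = col j := fun i hi j hj => (Prod.mk.inj (hJp i hi j hj)).1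
  obtain ⟨i, hi, j, hj, hij, hcong⟩ := hh s J hJs hy
    (fun i hi j hj => hcol i (hJs i hi) j (hJs j hj) (hJc i hi j hj))
    (fun i hi j hj p _ => hL L u q hC hA s i (hJs i hi) j (hJs j hj)
      (hcol i (hJs i hi) j (hJs j hj) (hJc i hi j hj)) p)
  have hjs := hJs j hj
  clear hh hcol hB
  have hbij : bit (F L u q s j) = bit (F L u q s i) := (Prod.mk.inj (hJp j hj i hi)).2
  have hbr : ∀ (d : ℕ) (S : List (List ℕ)), bit (List.replicate d [2] ++ S) = bit S := by
    intro d S
    induction d with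
    | zero => rfl
    | succ d ih => rw [List.replicate_succ, List.cons_append, hbit, ih]
  -- the number of squares
  set d : ℕ := nvar (F L u q s i) - nvar (F L u q s j) with hd
  have hZ := nvar_Z (L := L) (fun x hx => (hC.range x hx).1)
  have hpos := hC.sum_pos
  have hPM : nvar (ZM L) < nvar (ZP L) := by omega
  obtain ⟨t, ht⟩ : ∃ t, j = i + t := ⟨j - i, by omega⟩
  obtain ⟨r, hr⟩ : ∃ r, s = j + r := ⟨s - j, by omega⟩
  obtain ⟨w, hw⟩ : ∃ w, nvar (ZP L) = nvar (ZM L) + w := ⟨nvar (ZP L) - nvar (ZM L), by omega⟩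
  have hwpos : 0 < w := by omega
  have htpos : 0 < t := by omega
  have hNi : nvar (F L u q s i) = nvar (F L u q s j) + 8 * (t * w) := by
    rw [nvar_F hA, nvar_F hA, hw]
    have e1 : s - i = r + t := by omega
    have e2 : s - j = r := by omega
    rw [e1, e2, ht]; ring
  have hdval : d = 8 * (t * w) := by rw [hd, hNi, Nat.add_sub_cancel_left]
  have hdpos : 0 < d := by
    rw [hdval]; exact Nat.mul_pos (by norm_num) (Nat.mul_pos htpos hwpos)
  clear_value d
  clear_value J
  refine ⟨List.replicate d [2] ++ F L u q s j, F L u q s i, ?_, ?_, ?_, ?_, ?_, ?_, ?_, ?_, ?_,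
    ?_, ?_, ?_⟩
  · intro c hc
    rcases List.mem_append.1 hc with hc | hc
    · rw [List.eq_of_mem_replicate hc]
      refine ⟨by simp, ?_⟩
      intro a ha; simp at ha; omega
    · obtain ⟨h1, h2, -⟩ := good_F hC hA hc
      exact ⟨h1, h2⟩
  · intro c hc
    obtain ⟨h1, h2, -⟩ := good_F hC hA hc
    exact ⟨h1, h2⟩
  · intro c hc
    rcases List.mem_append.1 hc with hc | hc
    · rw [List.eq_of_mem_replicate hc]; simp
    · exact inc_F hc
  · intro c hc; exact inc_F hc
  · rw [nvar_append, nvar_replicate, hNi, hdval]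
    simp only [List.length_cons, List.length_nil]
    ring
  · rw [nvar_append, nvar_F hA]; omega
  · rw [nvar_append, nvar_replicate, hdval, nvar_F hA]
    simp only [List.length_cons, List.length_nil]
    have : 8 * (t * w) * (0 + 1) + (24 + 8 * (s - j) * nvar (ZP L) + 8 * j * nvar (ZM L)) =
      8 * (t * w + 3 + (s - j) * nvar (ZP L) + j * nvar (ZM L)) := by ring
    rw [this]
    exact dvd_mul_right _ _
  · exact List.mem_append_left _ (List.mem_replicate.2 ⟨hdpos.ne', rfl⟩)
  · exact three_mem_F _ _ _ _ _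
  · intro c hc
    exact (good_F hC hA hc).2.2
  · rw [hbr, hbij]
  · exact Cong.symm (Cong.trans hcong (cong_two d _))

end Crest.Agent.R267.P4Fin_780
end

-- ▼ part R267/ChainPoly_145
section

/-!
# Thom–Sebastiani sums of chain polynomials (row 267, S0407 side conditions)

`poly pred a = ∑ i, (x_{pred i} or 1) * x_i ^ (a i)` over a finite index type `ι`, where
`pred : ι → Option ι` is injective where defined and decreases a rank `rk : ι → ℕ`.
-/

set_option autoImplicit false
open Topology Filter MvPolynomial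

namespace Crest.Agent.R267.ChainPoly_145

variable {ι κ : Type*} [Fintype ι] [DecidableEq ι] [Fintype κ] [DecidableEq κ]

/-- combinatorial data of a Thom–Sebastiani sum of chain polynomials. -/
structure Chains (ι : Type*) where
  /-- predecessor -/
  pred : ι → Option ι
  /-- exponent -/
  a : ι → ℕ
  /-- rank function -/
  rk : ι → ℕ
  rk_lt : ∀ i j, pred i = some j → rk j < rk i
  inj : ∀ i i' j, pred i = some j → pred i' = some j → i = i'
  two_le : ∀ i, 2 ≤ a i

/-- coefficient monomial -/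
noncomputable def coef (R : Type*) [CommSemiring R] (p : Option ι) : MvPolynomial ι R :=
  p.elim 1 X

/-- The polynomial over any commutative semiring. -/
noncomputable def poly (R : Type*) [CommSemiring R] (C : Chains ι) : MvPolynomial ι R :=
  ∑ i, coef R (C.pred i) * X i ^ C.a i

/-- The underlying function. -/
def cz (p : Option ι) (z : ι → ℂ) : ℂ := p.elim 1 z

omit [Fintype ι] [DecidableEq ι] in
@[simp] lemma cz_none (z : ι → ℂ) : cz none z = 1 := rfl
omit [Fintype ι] [DecidableEq ι] in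
@[simp] lemma cz_some (j : ι) (z : ι → ℂ) : cz (some j) z = z j := rfl

omit [DecidableEq ι] in
lemma aeval_poly (C : Chains ι) (z : ι → ℂ) :
    aeval z (poly ℝ C) = ∑ i, cz (C.pred i) z * z i ^ C.a i := by
  unfold poly coef cz
  rw [map_sum]
  refine Finset.sum_congr rfl fun i _ => ?_
  rw [map_mul, map_pow, aeval_X]
  congr 1
  cases C.pred i with
  | none => simp
  | some j => simp

/-! ### derivatives of polynomial functions -/

/-- the gradient of a polynomial function, as a continuous linear map. -/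
noncomputable def grad (p : MvPolynomial ι ℝ) (z : ι → ℂ) : (ι → ℂ) →L[ℂ] ℂ :=
  ∑ i, (aeval z (pderiv i p) : ℂ) • ContinuousLinearMap.proj (R := ℂ) (φ := fun _ : ι => ℂ) i

omit [DecidableEq ι] in
lemma grad_apply (p : MvPolynomial ι ℝ) (z v : ι → ℂ) :
    grad p z v = ∑ i, aeval z (pderiv i p) * v i := by
  unfold grad
  simp

omit [DecidableEq ι] in
lemma hasFDerivAt_aeval (p : MvPolynomial ι ℝ) (z : ι → ℂ) :
    HasFDerivAt (fun z : ι → ℂ => (aeval z p : ℂ)) (grad p z) z := by
  classical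
  induction p using MvPolynomial.induction_on with
  | C r =>
    have : grad (C r) z = 0 := by
      ext v; simp [grad_apply]
    rw [this]
    simp only [aeval_C]
    exact hasFDerivAt_const _ _
  | add p q hp hq =>
    have : grad (p + q) z = grad p z + grad q z := by
      refine ContinuousLinearMap.ext fun v => ?_
      rw [add_apply, grad_apply, grad_apply, grad_apply, ← Finset.sum_add_distrib]
      refine Finset.sum_congr rfl fun i _ => ?_
      rw [map_add, map_add, add_mul]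
    rw [this]
    simp only [map_add]
    exact hp.add hq
  | mul_X p j hp =>
    have hX : HasFDerivAt (fun z : ι → ℂ => z j)
        (ContinuousLinearMap.proj (R := ℂ) (φ := fun _ : ι => ℂ) j) z :=
      (ContinuousLinearMap.proj (R := ℂ) (φ := fun _ : ι => ℂ) j).hasFDerivAt
    have h := hp.mul hX
    simp only [map_mul, aeval_X]
    refine h.congr_fderiv ?_
    refine ContinuousLinearMap.ext fun v => ?_
    rw [add_apply, grad_apply, smul_apply, smul_apply, grad_apply]
    simp only [Derivation.leibniz, map_add, smul_eq_mul, map_mul, aeval_X, add_mul,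
      Finset.sum_add_distrib, ContinuousLinearMap.proj_apply]
    congr 1
    · rw [Finset.sum_eq_single j]
      · simp
      · intro i _ hij
        rw [pderiv_X_of_ne hij.symm]; simp
      · simp
    · rw [Finset.mul_sum]
      refine Finset.sum_congr rfl fun i _ => ?_
      ring

omit [DecidableEq ι] in
lemma fderiv_aeval (p : MvPolynomial ι ℝ) (z : ι → ℂ) :
    fderiv ℂ (fun z : ι → ℂ => (aeval z p : ℂ)) z = grad p z :=
  (hasFDerivAt_aeval p z).fderiv

lemma grad_single (p : MvPolynomial ι ℝ) (z : ι → ℂ) (i : ι) :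
    grad p z (Pi.single i 1) = aeval z (pderiv i p) := by
  rw [grad_apply, Finset.sum_eq_single i]
  · simp
  · intro j _ hji
    simp [Pi.single_eq_of_ne hji]
  · simp

omit [DecidableEq ι] in
/-- the polynomial function has vanishing derivative iff all partials vanish. -/
lemma fderiv_aeval_eq_zero_iff (p : MvPolynomial ι ℝ) (z : ι → ℂ) :
    fderiv ℂ (fun z : ι → ℂ => (aeval z p : ℂ)) z = 0 ↔ ∀ i, aeval z (pderiv i p) = 0 := by
  classical
  rw [fderiv_aeval]
  constructor
  · intro h i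
    rw [← grad_single, h]; rfl
  · intro h
    refine ContinuousLinearMap.ext fun v => ?_
    rw [grad_apply]
    exact Finset.sum_eq_zero fun i _ => by rw [h i, zero_mul]

/-! ### partial derivatives of the chain polynomial -/

omit [Fintype ι] in
lemma pderiv_coef (i : ι) (p : Option ι) :
    pderiv i (coef ℝ p) = if p = some i then 1 else 0 := by
  unfold coef
  cases p with
  | none => simp
  | some j =>
    by_cases h : j = i
    · subst h; simp
    · simp [pderiv_X_of_ne h, h]

lemma pderiv_poly (C : Chains ι) (i : ι) :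
    pderiv i (poly ℝ C) =
      coef ℝ (C.pred i) * ((C.a i : MvPolynomial ι ℝ) * X i ^ (C.a i - 1)) +
        ∑ k, (if C.pred k = some i then X k ^ C.a k else 0) := by
  unfold poly
  rw [map_sum]
  have h1 : ∀ k, pderiv i (coef ℝ (C.pred k) * X k ^ C.a k) =
      (if k = i then coef ℝ (C.pred i) * ((C.a i : MvPolynomial ι ℝ) * X i ^ (C.a i - 1)) else 0) +
      (if C.pred k = some i then X k ^ C.a k else 0) := by
    intro k
    rw [Derivation.leibniz, pderiv_coef, Derivation.leibniz_pow]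
    by_cases hk : k = i
    · subst hk
      simp only [pderiv_X_self, smul_eq_mul, nsmul_eq_mul, mul_one, if_true]
      split_ifs <;> ring
    · rw [pderiv_X_of_ne hk]
      simp only [smul_eq_mul, nsmul_eq_mul, mul_zero, if_neg hk]
      split_ifs <;> ring
  rw [Finset.sum_congr rfl fun k _ => h1 k, Finset.sum_add_distrib]
  congr 1
  rw [Finset.sum_ite_eq' Finset.univ i]
  simp

lemma aeval_pderiv_poly (C : Chains ι) (i : ι) (z : ι → ℂ) :
    aeval z (pderiv i (poly ℝ C)) =
      cz (C.pred i) z * ((C.a i : ℂ) * z i ^ (C.a i - 1)) +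
        ∑ k, (if C.pred k = some i then z k ^ C.a k else 0) := by
  rw [pderiv_poly]
  simp only [map_add, map_mul, map_pow, aeval_X, map_natCast, map_sum]
  congr 1
  · congr 1
    unfold coef cz
    cases C.pred i <;> simp
  · refine Finset.sum_congr rfl fun k _ => ?_
    split_ifs <;> simp

/-! ### the critical locus -/

/-- forward propagation of zeros -/
lemma forward (C : Chains ι) (z : ι → ℂ) (hz : ∀ i, aeval z (pderiv i (poly ℝ C)) = 0)
    (i k : ι) (hk : C.pred k = some i) (h0 : z i = 0) : z k = 0 := by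
  have h := hz i
  rw [aeval_pderiv_poly, h0, zero_pow (by have := C.two_le i; omega), mul_zero, mul_zero,
    zero_add] at h
  rw [Finset.sum_eq_single k] at h
  · rw [if_pos hk] at h
    exact pow_eq_zero_iff (by have := C.two_le k; omega) |>.mp h
  · intro b _ hb
    rw [if_neg]
    intro hb'
    exact hb (C.inj _ _ _ hb' hk)
  · simp

/-- at a critical point, if all successors vanish then the coordinate vanishes -/
lemma backward (C : Chains ι) (z : ι → ℂ) (hz : ∀ i, aeval z (pderiv i (poly ℝ C)) = 0)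
    (i : ι) (hs : ∀ k, C.pred k = some i → z k = 0) : z i = 0 := by
  have h := hz i
  rw [aeval_pderiv_poly] at h
  have hsum : (∑ k, (if C.pred k = some i then z k ^ C.a k else 0)) = 0 := by
    refine Finset.sum_eq_zero fun k _ => ?_
    split_ifs with hk
    · rw [hs k hk, zero_pow (by have := C.two_le k; omega)]
    · rfl
  rw [hsum, add_zero] at h
  have ha : (C.a i : ℂ) ≠ 0 := by
    have := C.two_le i
    exact_mod_cast (by omega : C.a i ≠ 0)
  have hne : C.a i - 1 ≠ 0 := by have := C.two_le i; omega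
  cases hp : C.pred i with
  | none =>
    rw [hp, cz_none, one_mul] at h
    rcases mul_eq_zero.mp h with h | h
    · exact absurd h ha
    · exact (pow_eq_zero_iff hne).mp h
  | some j =>
    rw [hp, cz_some] at h
    rcases mul_eq_zero.mp h with h | h
    · exact forward C z hz j i hp h
    · rcases mul_eq_zero.mp h with h | h
      · exact absurd h ha
      · exact (pow_eq_zero_iff hne).mp h

/-- The only critical point (over `ℂ`) is the origin. -/
theorem critical_eq_zero (C : Chains ι) (z : ι → ℂ)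
    (hz : ∀ i, aeval z (pderiv i (poly ℝ C)) = 0) : z = 0 := by
  -- downward induction on the rank
  have key : ∀ n : ℕ, ∀ i, (Finset.univ.sup C.rk) - C.rk i < n → z i = 0 := by
    intro n
    induction n with
    | zero => intro i h; omega
    | succ n ih =>
      intro i hi
      refine backward C z hz i fun k hk => ih k ?_
      have h1 := C.rk_lt k i hk
      have h2 : C.rk k ≤ Finset.univ.sup C.rk := Finset.le_sup (Finset.mem_univ k)
      omega
  funext i
  exact key _ i (Nat.lt_succ_self _)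

theorem fderiv_ne_zero (C : Chains ι) (z : ι → ℂ) (hz : z ≠ 0) :
    fderiv ℂ (fun z : ι → ℂ => aeval z (poly ℝ C)) z ≠ 0 := by
  intro h
  exact hz (critical_eq_zero C z ((fderiv_aeval_eq_zero_iff _ _).mp h))

theorem isolated (C : Chains ι) :
    ∀ᶠ z in 𝓝[≠] (0 : ι → ℂ), fderiv ℂ (fun z : ι → ℂ => aeval z (poly ℝ C)) z ≠ 0 := by
  filter_upwards [self_mem_nhdsWithin] with z hz using fderiv_ne_zero C z hz

theorem fderiv_zero (C : Chains ι) :
    fderiv ℂ (fun z : ι → ℂ => aeval z (poly ℝ C)) 0 = 0 := by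
  rw [fderiv_aeval_eq_zero_iff]
  intro i
  rw [aeval_pderiv_poly]
  have h1 : ((0 : ι → ℂ) i) ^ (C.a i - 1) = 0 := by
    rw [Pi.zero_apply, zero_pow (by have := C.two_le i; omega)]
  rw [h1, mul_zero, mul_zero, zero_add]
  refine Finset.sum_eq_zero fun k _ => ?_
  split_ifs
  · rw [Pi.zero_apply, zero_pow (by have := C.two_le k; omega)]
  · rfl

/-! ### squarefree -/

omit [Fintype ι] [DecidableEq ι] in
/-- value on complex lines that avoid the origin -/
lemma aeval_line (h : MvPolynomial ι ℝ) (hz : ∀ z : ι → ℂ, aeval z h = 0 → z = 0)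
    (p q : ι → ℂ) (hpq : ∀ t : ℂ, p + t • q ≠ 0) :
    (aeval (p + q) h : ℂ) = aeval p h := by
  let P : Polynomial ℂ :=
    aeval (fun i => Polynomial.C (p i) + Polynomial.X * Polynomial.C (q i)) h
  have hP : ∀ t : ℂ, P.eval t = aeval (p + t • q) h := by
    intro t
    have h1 : ((Polynomial.aeval t : Polynomial ℂ →ₐ[ℂ] ℂ).restrictScalars ℝ).comp
        (aeval (fun i => Polynomial.C (p i) + Polynomial.X * Polynomial.C (q i)) :
          MvPolynomial ι ℝ →ₐ[ℝ] Polynomial ℂ) = aeval (p + t • q) := by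
      apply MvPolynomial.algHom_ext
      intro i
      simp
      ring
    have h2 := DFunLike.congr_fun h1 h
    rw [← h2]
    simp [P]
  by_contra hne
  have hdeg : P.degree ≠ 0 := by
    intro hd
    have hC := Polynomial.eq_C_of_degree_eq_zero hd
    apply hne
    have e1 := hP 1
    have e0 := hP 0
    rw [one_smul] at e1
    rw [zero_smul, add_zero] at e0
    rw [← e1, ← e0, hC]; simp
  obtain ⟨t, ht⟩ := IsAlgClosed.exists_root P hdeg
  have h3 : aeval (p + t • q) h = (0 : ℂ) := by rw [← hP t]; exact ht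
  exact hpq t (hz _ h3)

omit [Fintype ι] [DecidableEq ι] in
/-- A polynomial with no complex zeros off the origin, in at least two variables, is constant. -/
lemma eq_C_of_no_zero [Nontrivial ι] (h : MvPolynomial ι ℝ)
    (hz : ∀ z : ι → ℂ, aeval z h = 0 → z = 0) : ∃ c : ℝ, h = C c := by
  classical
  -- equal values at linearly independent points
  have indep : ∀ p p' : ι → ℂ, (∀ t : ℂ, p + t • (p' - p) ≠ 0) →
      (aeval p' h : ℂ) = aeval p h := by
    intro p p' hp
    have := aeval_line h hz p (p' - p) hp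
    rwa [add_sub_cancel] at this
  obtain ⟨i₀, i₁, hi⟩ := exists_pair_ne ι
  -- all nonzero points have the same value as `e_{i₀}`
  have nz0 : ∀ p : ι → ℂ, ∀ i j : ι, i ≠ j → p i ≠ 0 →
      (aeval p h : ℂ) = aeval (Pi.single j (1 : ℂ)) h := by
    intro p i j hij hpi
    refine indep (Pi.single j 1) p fun t ht => ?_
    have h1 := congrFun ht i
    have h2 := congrFun ht j
    simp [Pi.single_eq_of_ne hij, hpi] at h1 h2
    subst h1
    simp at h2
  have nz : ∀ p : ι → ℂ, p ≠ 0 →
      (aeval p h : ℂ) = aeval (Pi.single i₀ (1 : ℂ)) h := by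
    intro p hp
    obtain ⟨i, hpi⟩ := Function.ne_iff.mp hp
    by_cases hii : i = i₀
    · subst hii
      rw [nz0 p i i₁ hi hpi]
      exact nz0 (Pi.single i₁ 1) i₁ i hi.symm (by simp)
    · exact nz0 p i i₀ hii hpi
  -- real value
  let c : ℝ := eval (Pi.single i₀ (1 : ℝ)) h
  have hval : ∀ x : ι → ℝ, (aeval (fun i => (x i : ℂ)) h : ℂ) = ((eval x h : ℝ) : ℂ) := by
    intro x
    have h1 : (Complex.ofRealAm.comp (aeval x) : MvPolynomial ι ℝ →ₐ[ℝ] ℂ) =
        aeval (fun i => (x i : ℂ)) := by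
      apply MvPolynomial.algHom_ext
      intro i
      simp
    have h2 := DFunLike.congr_fun h1 h
    rw [← h2]
    simp
  have hreal : ∀ x : ι → ℝ, x ≠ 0 → eval x h = c := by
    intro x hx
    have hx' : (fun i => (x i : ℂ)) ≠ (0 : ι → ℂ) := by
      intro h0
      apply hx
      funext i
      have := congrFun h0 i
      simpa using this
    have h1 := nz _ hx'
    have h2 : (Pi.single i₀ (1 : ℂ) : ι → ℂ) = fun i => ((Pi.single i₀ (1 : ℝ) : ι → ℝ) i : ℂ) := by
      funext i
      by_cases hi : i = i₀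
      · subst hi; simp
      · simp [Pi.single_eq_of_ne hi]
    rw [h2, hval, hval] at h1
    exact_mod_cast h1
  refine ⟨c, ?_⟩
  have hprod : (h - C c) * X i₀ = 0 := by
    apply MvPolynomial.funext
    intro x
    by_cases hx : x = 0
    · subst hx; simp
    · rw [map_mul, map_sub, hreal x hx]; simp
  rcases mul_eq_zero.mp hprod with h0 | h0
  · exact sub_eq_zero.mp h0
  · exact absurd h0 (X_ne_zero _)

/-- the chain polynomial is non-zero. -/
lemma poly_ne_zero [Nonempty ι] (C : Chains ι) : poly ℝ C ≠ 0 := by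
  intro h0
  obtain ⟨i⟩ := ‹Nonempty ι›
  have h1 : (fun _ : ι => (1 : ℂ)) = 0 := by
    apply critical_eq_zero C
    intro i
    rw [h0]; simp
  have := congrFun h1 i
  simp at this

/-- A chain polynomial in at least two variables is squarefree. -/
theorem squarefree [Nontrivial ι] (C : Chains ι) : Squarefree (poly ℝ C) := by
  intro h hh
  obtain ⟨u, hu⟩ := hh
  have hz : ∀ z : ι → ℂ, aeval z h = 0 → z = 0 := by
    intro z hz
    apply critical_eq_zero C
    intro i
    rw [hu]
    simp only [Derivation.leibniz, map_add, smul_eq_mul, map_mul, hz]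
    ring
  obtain ⟨c, hc⟩ := eq_C_of_no_zero h hz
  have hc0 : c ≠ 0 := by
    intro hc0
    apply poly_ne_zero C
    rw [hu, hc, hc0]; simp
  rw [hc]
  exact (IsUnit.mk0 c hc0).map MvPolynomial.C

/-! ### weighted homogeneity -/

omit [DecidableEq ι] in
/-- rational weights. -/
theorem exists_ratWeights (C : Chains ι) :
    ∃ r : ι → ℚ, (∀ i, 0 < r i ∧ r i < 1) ∧
      ∀ i, (C.pred i).elim 0 r + C.a i * r i = 1 := by
  classical
  -- define by recursion on the rank
  have key : ∀ n : ℕ, ∃ r : ι → ℚ, (∀ i, 0 < r i ∧ r i < 1) ∧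
      ∀ i, C.rk i < n → (C.pred i).elim 0 r + C.a i * r i = 1 := by
    intro n
    induction n with
    | zero => exact ⟨fun _ => 1/2, fun i => by norm_num, fun i h => absurd h (Nat.not_lt_zero _)⟩
    | succ n ih =>
      obtain ⟨r, hr, hr'⟩ := ih
      refine ⟨fun i => (1 - (C.pred i).elim 0 r) / C.a i, ?_, ?_⟩
      · intro i
        have h2 : (2 : ℚ) ≤ C.a i := by exact_mod_cast C.two_le i
        have h0 : 0 ≤ (C.pred i).elim 0 r ∧ (C.pred i).elim 0 r < 1 := by
          cases C.pred i with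
          | none => simp
          | some j => exact ⟨(hr j).1.le, (hr j).2⟩
        refine ⟨by apply div_pos <;> linarith, ?_⟩
        rw [div_lt_one (by linarith)]
        linarith
      · intro i hi
        have h2 : (C.a i : ℚ) ≠ 0 := by
          have := C.two_le i
          exact_mod_cast (by omega : C.a i ≠ 0)
        have h3 : (C.pred i).elim 0 (fun i => (1 - (C.pred i).elim 0 r) / (C.a i : ℚ)) =
            (C.pred i).elim 0 r := by
          cases hp : C.pred i with
          | none => simp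
          | some j =>
            have hj : C.rk j < n := by have := C.rk_lt i j hp; omega
            have h4 := hr' j hj
            have h5 : (C.a j : ℚ) ≠ 0 := by
              have := C.two_le j
              exact_mod_cast (by omega : C.a j ≠ 0)
            simp only [Option.elim_some]
            rw [div_eq_iff h5]
            linarith
        rw [h3]
        field_simp
        ring
  obtain ⟨r, hr, hr'⟩ := key (Finset.univ.sup C.rk + 1)
  exact ⟨r, hr, fun i => hr' i (Nat.lt_succ_of_le (Finset.le_sup (Finset.mem_univ i)))⟩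

omit [DecidableEq ι] in
/-- natural weights. -/
theorem exists_natWeights (C : Chains ι) :
    ∃ (w : ι → ℕ) (d : ℕ), 0 < d ∧ (∀ i, 0 < w i ∧ w i < d) ∧
      ∀ i, (C.pred i).elim 0 w + C.a i * w i = d := by
  classical
  obtain ⟨r, hr, hr'⟩ := exists_ratWeights C
  let d : ℕ := ∏ i, (r i).den
  have hd : 0 < d := Finset.prod_pos fun i _ => (r i).pos
  have hw : ∀ i, ∃ w : ℕ, (w : ℚ) = d * r i := by
    intro i
    obtain ⟨e, he⟩ : (r i).den ∣ d := Finset.dvd_prod_of_mem _ (Finset.mem_univ i)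
    refine ⟨e * (r i).num.toNat, ?_⟩
    have h1 : ((r i).num.toNat : ℚ) = (r i).num := by
      have : (((r i).num.toNat : ℕ) : ℤ) = (r i).num :=
        Int.toNat_of_nonneg (Rat.num_nonneg.mpr (hr i).1.le)
      exact_mod_cast this
    rw [he]
    push_cast
    rw [h1]
    have h2 : ((r i).den : ℚ) * r i = (r i).num := by
      rw [mul_comm]; exact Rat.mul_den_eq_num (r i)
    calc (e : ℚ) * (r i).num = e * ((r i).den * r i) := by rw [h2]
      _ = _ := by ring
  choose w hw using hw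
  have hdq : (0 : ℚ) < d := by exact_mod_cast hd
  refine ⟨w, d, hd, fun i => ⟨?_, ?_⟩, fun i => ?_⟩
  · have : (0 : ℚ) < w i := by rw [hw i]; exact mul_pos hdq (hr i).1
    exact_mod_cast this
  · have : (w i : ℚ) < d := by
      rw [hw i]
      nlinarith [(hr i).2]
    exact_mod_cast this
  · have h1 : (((C.pred i).elim 0 w : ℕ) : ℚ) = d * (C.pred i).elim 0 r := by
      cases C.pred i with
      | none => simp
      | some j => simpa using hw j
    have h2 : (((C.pred i).elim 0 w + C.a i * w i : ℕ) : ℚ) = d := by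
      push_cast
      rw [h1, hw i]
      have := hr' i
      calc (d : ℚ) * (C.pred i).elim 0 r + C.a i * (d * r i)
          = d * ((C.pred i).elim 0 r + C.a i * r i) := by ring
        _ = d := by rw [this, mul_one]
    exact_mod_cast h2

omit [DecidableEq ι] in
theorem weightedHomogeneous (C : Chains ι) (w : ι → ℕ) (d : ℕ)
    (h : ∀ i, (C.pred i).elim 0 w + C.a i * w i = d) :
    IsWeightedHomogeneous w (poly ℝ C) d := by
  unfold poly
  have : ∀ i ∈ (Finset.univ : Finset ι), coef ℝ (C.pred i) * X i ^ C.a i ∈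
      weightedHomogeneousSubmodule ℝ w d := by
    intro i _
    rw [mem_weightedHomogeneousSubmodule, ← h i]
    refine IsWeightedHomogeneous.mul ?_ ?_
    · unfold coef
      cases C.pred i with
      | none => exact isWeightedHomogeneous_one ℝ w
      | some j => exact isWeightedHomogeneous_X ℝ w j
    · rw [← smul_eq_mul]
      exact (isWeightedHomogeneous_X ℝ w i).pow (C.a i)
  exact Submodule.sum_mem _ this

/-! ### homogeneous components -/

/-- degree of the `i`-th monomial -/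
def deg (C : Chains ι) (i : ι) : ℕ := (C.pred i).elim 0 (fun _ => 1) + C.a i

omit [DecidableEq ι] in
lemma homogeneousComponent_poly (C : Chains ι) (n : ℕ) :
    homogeneousComponent n (poly ℝ C) =
      ∑ i, if deg C i = n then coef ℝ (C.pred i) * X i ^ C.a i else 0 := by
  unfold poly
  rw [map_sum]
  refine Finset.sum_congr rfl fun i _ => ?_
  have : coef ℝ (C.pred i) * X i ^ C.a i ∈ homogeneousSubmodule ι ℝ (deg C i) := by
    rw [mem_homogeneousSubmodule]
    refine IsHomogeneous.mul ?_ ?_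
    · unfold coef
      cases C.pred i with
      | none => exact isHomogeneous_one ι ℝ
      | some j => exact isHomogeneous_X ℝ j
    · simpa using (isHomogeneous_X ℝ i).pow (C.a i)
  rw [homogeneousComponent_of_mem this]
  simp [eq_comm]

omit [DecidableEq ι] in
lemma homogeneousComponent_poly_ne_zero (C : Chains ι) (n : ℕ) (h : ∃ i, deg C i = n) :
    homogeneousComponent n (poly ℝ C) ≠ 0 := by
  classical
  intro h0
  rw [homogeneousComponent_poly] at h0
  have h1 := congrArg (eval (fun _ => (1 : ℝ))) h0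
  rw [map_sum, map_zero] at h1
  have h2 : ∀ i, eval (fun _ => (1 : ℝ))
      (if deg C i = n then coef ℝ (C.pred i) * X i ^ C.a i else 0) =
      if deg C i = n then 1 else 0 := by
    intro i
    split_ifs
    · unfold coef
      cases C.pred i <;> simp
    · simp
  rw [Finset.sum_congr rfl fun i _ => h2 i, Finset.sum_boole] at h1
  have h3 : (Finset.univ.filter fun i => deg C i = n).card = 0 := by exact_mod_cast h1
  rw [Finset.card_eq_zero, Finset.filter_eq_empty_iff] at h3
  obtain ⟨i, hi⟩ := h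
  exact h3 (Finset.mem_univ i) hi

omit [DecidableEq ι] in
lemma homogeneousComponent_poly_eq_zero (C : Chains ι) (n : ℕ) (h : ∀ i, deg C i ≠ n) :
    homogeneousComponent n (poly ℝ C) = 0 := by
  rw [homogeneousComponent_poly]
  exact Finset.sum_eq_zero fun i _ => by rw [if_neg (h i)]

omit [DecidableEq ι] in
/-- Order `n` exactly. -/
theorem order_eq (C : Chains ι) (n : ℕ) (h : ∀ i, n ≤ deg C i) (h' : ∃ i, deg C i = n) :
    (∀ j < n, homogeneousComponent j (poly ℝ C) = 0) ∧
      homogeneousComponent n (poly ℝ C) ≠ 0 :=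
  ⟨fun j hj => homogeneousComponent_poly_eq_zero C j fun i hi => by have := h i; omega,
    homogeneousComponent_poly_ne_zero C n h'⟩

/-! ### transport and Thom–Sebastiani sums -/

/-- transport along an equivalence -/
def Chains.map (C : Chains ι) (e : ι ≃ κ) : Chains κ where
  pred k := (C.pred (e.symm k)).map e
  a k := C.a (e.symm k)
  rk k := C.rk (e.symm k)
  rk_lt i j h := by
    rw [Option.map_eq_some_iff] at h
    obtain ⟨j', hj', rfl⟩ := h
    rw [e.symm_apply_apply]
    exact C.rk_lt _ _ hj'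
  inj i i' j h h' := by
    rw [Option.map_eq_some_iff] at h h'
    obtain ⟨k, hk, rfl⟩ := h
    obtain ⟨k', hk', h2⟩ := h'
    have := e.injective h2
    subst this
    exact e.symm.injective (C.inj _ _ _ hk hk')
  two_le i := C.two_le _

omit [DecidableEq ι] [DecidableEq κ] in
lemma poly_map (R : Type*) [CommSemiring R] (C : Chains ι) (e : ι ≃ κ) :
    poly R (C.map e) = rename e (poly R C) := by
  unfold poly
  rw [map_sum, ← e.sum_comp]
  refine Finset.sum_congr rfl fun i _ => ?_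
  rw [map_mul, map_pow, rename_X]
  simp only [Chains.map, e.symm_apply_apply]
  congr 1
  unfold coef
  cases C.pred i <;> simp

omit [DecidableEq ι] [DecidableEq κ] in
lemma aeval_poly_map (C : Chains ι) (e : ι ≃ κ) (z : κ → ℂ) :
    aeval z (poly ℝ (C.map e)) = aeval (z ∘ e) (poly ℝ C) := by
  rw [poly_map, aeval_rename]

omit [Fintype ι] [DecidableEq ι] [Fintype κ] [DecidableEq κ] in
lemma deg_map (C : Chains ι) (e : ι ≃ κ) (k : κ) : deg (C.map e) k = deg C (e.symm k) := by
  unfold deg Chains.map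
  simp only
  cases C.pred (e.symm k) <;> simp

/-- Thom–Sebastiani sum -/
def Chains.sum (C : Chains ι) (D : Chains κ) : Chains (ι ⊕ κ) where
  pred := Sum.elim (fun i => (C.pred i).map Sum.inl) (fun k => (D.pred k).map Sum.inr)
  a := Sum.elim C.a D.a
  rk := Sum.elim C.rk D.rk
  rk_lt := by
    rintro (i | i) (j | j) h
    · simp only [Sum.elim_inl, Option.map_eq_some_iff, Sum.inl.injEq, exists_eq_right] at h
      exact C.rk_lt _ _ h
    · simp at h
    · simp at h
    · simp only [Sum.elim_inr, Option.map_eq_some_iff, Sum.inr.injEq, exists_eq_right] at h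
      exact D.rk_lt _ _ h
  inj := by
    rintro (i | i) (i' | i') (j | j) h h' <;>
      simp only [Sum.elim_inl, Sum.elim_inr, Option.map_eq_some_iff, Sum.inr.injEq,
        Sum.inl.injEq, exists_eq_right, reduceCtorEq, and_false, exists_false] at h h'
    · rw [C.inj _ _ _ h h']
    · rw [D.inj _ _ _ h h']
  two_le := by
    rintro (i | i)
    · exact C.two_le i
    · exact D.two_le i

omit [DecidableEq ι] [DecidableEq κ] in
lemma poly_sum (R : Type*) [CommSemiring R] (C : Chains ι) (D : Chains κ) :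
    poly R (C.sum D) = rename Sum.inl (poly R C) + rename Sum.inr (poly R D) := by
  unfold poly
  rw [Fintype.sum_sum_type, map_sum, map_sum]
  congr 1 <;> refine Finset.sum_congr rfl fun i _ => ?_
  · rw [map_mul, map_pow, rename_X]
    simp only [Chains.sum, Sum.elim_inl]
    congr 1
    unfold coef
    cases C.pred i <;> simp
  · rw [map_mul, map_pow, rename_X]
    simp only [Chains.sum, Sum.elim_inr]
    congr 1
    unfold coef
    cases D.pred i <;> simp

omit [DecidableEq ι] [DecidableEq κ] in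
lemma aeval_poly_sum (C : Chains ι) (D : Chains κ) (z : ι ⊕ κ → ℂ) :
    (aeval z (poly ℝ (C.sum D)) : ℂ) =
      aeval (z ∘ Sum.inl) (poly ℝ C) + aeval (z ∘ Sum.inr) (poly ℝ D) := by
  rw [poly_sum, map_add, aeval_rename, aeval_rename]

omit [Fintype ι] [DecidableEq ι] [Fintype κ] [DecidableEq κ] in
lemma deg_sum_inl (C : Chains ι) (D : Chains κ) (i : ι) :
    deg (C.sum D) (Sum.inl i) = deg C i := by
  unfold deg Chains.sum
  simp only [Sum.elim_inl]
  cases C.pred i <;> simp

omit [Fintype ι] [DecidableEq ι] [Fintype κ] [DecidableEq κ] in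
lemma deg_sum_inr (C : Chains ι) (D : Chains κ) (i : κ) :
    deg (C.sum D) (Sum.inr i) = deg D i := by
  unfold deg Chains.sum
  simp only [Sum.elim_inr]
  cases D.pred i <;> simp


/-- **All algebraic side conditions of S0407**, for an abstract Thom–Sebastiani sum of chains. -/
theorem side_conditions {N : ℕ} (hN : 2 ≤ N) (C : Chains (Fin N)) (n : ℕ)
    (h : ∀ i, n ≤ deg C i) (h' : ∃ i, deg C i = n) :
    Squarefree (poly ℝ C) ∧
    (∃ w : Fin N → ℕ, (∀ i, 0 < w i) ∧ ∃ d : ℕ, IsWeightedHomogeneous w (poly ℝ C) d) ∧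
    fderiv ℂ (fun z : Fin N → ℂ => aeval z (poly ℝ C)) 0 = 0 ∧
    (∀ᶠ z in 𝓝[≠] (0 : Fin N → ℂ), fderiv ℂ (fun z : Fin N → ℂ => aeval z (poly ℝ C)) z ≠ 0) ∧
    (∀ j < n, homogeneousComponent j (poly ℝ C) = 0) ∧
    homogeneousComponent n (poly ℝ C) ≠ 0 := by
  have : Nontrivial (Fin N) := Fin.nontrivial_iff_two_le.mpr hN
  obtain ⟨w, d, _, hw, hd⟩ := exists_natWeights C
  exact ⟨squarefree C, ⟨w, fun i => (hw i).1, d, weightedHomogeneous C w d hd⟩,
    fderiv_zero C, isolated C, (order_eq C n h h').1, (order_eq C n h h').2⟩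

end Crest.Agent.R267.ChainPoly_145
end

-- ▼ part R267/Sys_808
section

/-!
# Systems of chains as polynomials (row 267, S0407)

`Var S` = variables of a list of chains `S` (in the convention of `P4Defs_780`: the chain
`[a₁, …, a_k]` is `x₁^{a₁} x₂ + x₂^{a₂} x₃ + … + x_k^{a_k}`), `sysFun S` = the function,
`sysC S` = the combinatorial data for `ChainPoly_145`.
-/

set_option autoImplicit false

namespace Crest.Agent.R267.Sys_808

open Crest.Agent.R267.P4Defs_780 Crest.Agent.R267.ChainPoly_145 MvPolynomial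

/-! ### one chain -/

/-- value of the head variable of a chain (`1` for the empty chain). -/
def hd : (c : List ℕ) → (Fin c.length → ℂ) → ℂ
  | [], _ => 1
  | _ :: _, z => z 0

/-- the chain function, `chainFun (a :: l) z = z₀ ^ a * hd l z' + chainFun l z'`. -/
def chainFun : (c : List ℕ) → (Fin c.length → ℂ) → ℂ
  | [], _ => 0
  | a :: l, z => z 0 ^ a * hd l (fun i => z i.succ) + chainFun l (fun i => z i.succ)

/-- the combinatorial data of one chain. -/
def chainC (c : List ℕ) (hc : ∀ a ∈ c, 2 ≤ a) : Chains (Fin c.length) where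
  pred i := if h : i.1 + 1 < c.length then some ⟨i.1 + 1, h⟩ else none
  a i := c.get i
  rk i := c.length - i.1
  rk_lt i j h := by
    split_ifs at h with h0
    simp only [Option.some.injEq] at h
    rw [← h]
    simp only
    omega
  inj i i' j h h' := by
    split_ifs at h h' with h0 h0'
    simp only [Option.some.injEq] at h h'
    have h1 := congrArg Fin.val (h.trans h'.symm)
    simp only at h1
    exact Fin.ext (by omega)
  two_le i := hc _ (List.get_mem _ _)

lemma chainC_pred_of_lt (c : List ℕ) (hc : ∀ b ∈ c, 2 ≤ b) (i : Fin c.length)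
    (h : i.1 + 1 < c.length) : (chainC c hc).pred i = some ⟨i.1 + 1, h⟩ := by
  simp only [chainC]
  rw [dif_pos h]

lemma chainC_pred_zero (a : ℕ) (l : List ℕ) (hc : ∀ b ∈ a :: l, 2 ≤ b) (z : Fin (a :: l).length → ℂ) :
    cz ((chainC (a :: l) hc).pred 0) z = hd l (fun i => z i.succ) := by
  cases l with
  | nil => rfl
  | cons b l =>
    have h : (0 : Fin (a :: b :: l).length).1 + 1 < (a :: b :: l).length := by
      simp
    have h2 := chainC_pred_of_lt (a :: b :: l) hc 0 h
    rw [h2]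
    rfl

lemma chainC_pred_succ (a : ℕ) (l : List ℕ) (hc : ∀ b ∈ a :: l, 2 ≤ b)
    (hc' : ∀ b ∈ l, 2 ≤ b) (z : Fin (a :: l).length → ℂ) (i : Fin l.length) :
    cz ((chainC (a :: l) hc).pred i.succ) z =
      cz ((chainC l hc').pred i) (fun i => z i.succ) := by
  simp only [chainC, List.length_cons, Fin.val_succ, Nat.add_lt_add_iff_right]
  split_ifs with h
  · rfl
  · rfl

lemma aeval_chainC (c : List ℕ) (hc : ∀ a ∈ c, 2 ≤ a) (z : Fin c.length → ℂ) :
    aeval z (poly ℝ (chainC c hc)) = chainFun c z := by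
  rw [aeval_poly]
  induction c with
  | nil => simp [chainFun]
  | cons a l ih =>
    have hl : ∀ b ∈ l, 2 ≤ b := fun b hb => hc b (List.mem_cons_of_mem _ hb)
    rw [chainFun, ← ih hl]
    refine (Fin.sum_univ_succ (n := l.length) (fun i : Fin (l.length + 1) =>
      cz ((chainC (a :: l) hc).pred i) z * z i ^ (chainC (a :: l) hc).a i)).trans ?_
    have h0 := chainC_pred_zero a l hc z
    congr 1
    · refine (mul_comm _ _).trans ?_
      exact congrArg₂ (· * ·) rfl h0
    · refine Finset.sum_congr rfl fun i _ => ?_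
      exact congrArg₂ (· * ·) (chainC_pred_succ a l hc hl z i) rfl

/-! ### systems -/

/-- index type of the variables of a system. -/
def Var : List (List ℕ) → Type
  | [] => Empty
  | c :: S => Fin c.length ⊕ Var S

instance instFintypeVar : (S : List (List ℕ)) → Fintype (Var S)
  | [] => inferInstanceAs (Fintype Empty)
  | _ :: S => @instFintypeSum _ _ _ (instFintypeVar S)

instance instDecidableEqVar : (S : List (List ℕ)) → DecidableEq (Var S)
  | [] => inferInstanceAs (DecidableEq Empty)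
  | _ :: S => @instDecidableEqSum _ _ _ (instDecidableEqVar S)

lemma card_Var (S : List (List ℕ)) : Fintype.card (Var S) = nvar S := by
  induction S with
  | nil => rfl
  | cons c S ih =>
    have : Fintype.card (Var (c :: S)) = Fintype.card (Fin c.length) + Fintype.card (Var S) :=
      Fintype.card_sum
    rw [this, Fintype.card_fin, ih]
    simp [nvar]

/-- the Thom-Sebastiani sum of the chains of a system. -/
def sysFun : (S : List (List ℕ)) → (Var S → ℂ) → ℂ
  | [], _ => 0
  | c :: S, z => chainFun c (fun i => z (Sum.inl i)) + sysFun S (fun i => z (Sum.inr i))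

/-- no chain, for the empty system. -/
def emptyC : Chains (Var []) where
  pred i := i.elim
  a i := i.elim
  rk i := i.elim
  rk_lt i := i.elim
  inj i := i.elim
  two_le i := i.elim

/-- the combinatorial data of a system. -/
def sysC : (S : List (List ℕ)) → (∀ c ∈ S, ∀ a ∈ c, 2 ≤ a) → Chains (Var S)
  | [], _ => emptyC
  | c :: S, h => (chainC c (h c (List.mem_cons_self ..))).sum
      (sysC S fun c' hc' => h c' (List.mem_cons_of_mem _ hc'))

lemma aeval_sysC (S : List (List ℕ)) (h : ∀ c ∈ S, ∀ a ∈ c, 2 ≤ a) (z : Var S → ℂ) :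
    aeval z (poly ℝ (sysC S h)) = sysFun S z := by
  induction S with
  | nil =>
    rw [aeval_poly]
    exact Finset.sum_eq_zero fun i _ => i.elim
  | cons c S ih =>
    have := aeval_poly_sum (chainC c (h c (List.mem_cons_self ..)))
      (sysC S fun c' hc' => h c' (List.mem_cons_of_mem _ hc')) z
    refine this.trans ?_
    rw [aeval_chainC, ih]
    rfl

/-! ### degrees -/

lemma deg_chainC (c : List ℕ) (hc : ∀ a ∈ c, 2 ≤ a) (i : Fin c.length) :
    deg (chainC c hc) i = (if i.1 + 1 < c.length then 1 else 0) + c.get i := by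
  unfold deg chainC
  simp only
  split_ifs <;> simp

lemma two_le_deg {ι : Type*} (C : Chains ι) (i : ι) : 2 ≤ deg C i := by
  have := C.two_le i
  unfold deg
  omega

lemma deg_chainC_ge_three (c : List ℕ) (hc : ∀ a ∈ c, 2 ≤ a) (h : ∀ h : c ≠ [], 3 ≤ c.getLast h)
    (i : Fin c.length) : 3 ≤ deg (chainC c hc) i := by
  rw [deg_chainC]
  have h2 : 2 ≤ c.get i := hc _ (List.get_mem _ _)
  split_ifs with h0
  · omega
  · have hne : c ≠ [] := by
      rintro rfl
      exact i.elim0
    have h3 := h hne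
    have : c.getLast hne = c.get i := by
      rw [List.getLast_eq_getElem, List.get_eq_getElem]
      congr 1
      have := i.2
      omega
    omega

lemma deg_sysC_ge_three (S : List (List ℕ)) (hS : ∀ c ∈ S, ∀ a ∈ c, 2 ≤ a)
    (h : ∀ c ∈ S, ∀ h : c ≠ [], 3 ≤ c.getLast h) (i : Var S) : 3 ≤ deg (sysC S hS) i := by
  induction S with
  | nil => exact i.elim
  | cons c S ih =>
    rcases i with i | i
    · have := deg_sum_inl (chainC c (hS c (List.mem_cons_self ..)))
        (sysC S fun c' hc' => hS c' (List.mem_cons_of_mem _ hc')) i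
      refine le_of_le_of_eq ?_ this.symm
      exact deg_chainC_ge_three _ _ (h c (List.mem_cons_self ..)) i
    · have := deg_sum_inr (chainC c (hS c (List.mem_cons_self ..)))
        (sysC S fun c' hc' => hS c' (List.mem_cons_of_mem _ hc')) i
      refine le_of_le_of_eq ?_ this.symm
      exact ih _ (fun c' hc' => h c' (List.mem_cons_of_mem _ hc')) i

lemma exists_deg_eq (S : List (List ℕ)) (hS : ∀ c ∈ S, ∀ a ∈ c, 2 ≤ a) (n : ℕ)
    (h : [n] ∈ S) : ∃ i : Var S, deg (sysC S hS) i = n := by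
  induction S with
  | nil => simp at h
  | cons c S ih =>
    rw [List.mem_cons] at h
    by_cases hc : [n] = c
    · subst hc
      refine ⟨Sum.inl (0 : Fin 1), ?_⟩
      have := deg_sum_inl (chainC [n] (hS _ (List.mem_cons_self ..)))
        (sysC S fun c' hc' => hS c' (List.mem_cons_of_mem _ hc')) (0 : Fin 1)
      refine this.trans ?_
      rw [deg_chainC]
      simp
    · obtain ⟨i, hi⟩ := ih (fun c' hc' => hS c' (List.mem_cons_of_mem _ hc'))
        (h.resolve_left hc)
      refine ⟨Sum.inr i, ?_⟩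
      exact (deg_sum_inr (chainC c (hS c (List.mem_cons_self ..)))
        (sysC S fun c' hc' => hS c' (List.mem_cons_of_mem _ hc')) i).trans hi

end Crest.Agent.R267.Sys_808
private theorem rz_fcc0f4c7d3 : type_of% @_root_.Crest.Agent.R267.Sys_808.chainFun.eq_def := @_root_.Crest.Agent.R267.Sys_808.chainFun.eq_def -- L26
private theorem rz_08cb0452e7 : type_of% @_root_.Crest.Agent.R267.Sys_808.chainFun.eq_1 := @_root_.Crest.Agent.R267.Sys_808.chainFun.eq_1 -- L26
private theorem rz_a5f267c89d : type_of% @_root_.Crest.Agent.R267.Sys_808.hd.eq_1 := @_root_.Crest.Agent.R267.Sys_808.hd.eq_1 -- L21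
end

-- ▼ part R267/Asm_808
section

/-!
# Assembly of S0407 (row 267) from the arithmetic output `INTb` and the topological output `TOPb`

`INTb` : for every colouring of systems by a finite set which does not see squares there are two
systems as in `P4Defs_780.INT`, all chains strictly increasing, with the same colour.
`TOPb` : there is a colouring (one Arf bit) such that two systems with the same number of
variables, congruent Seifert matrices and equal colour have homeomorphic links.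
-/

set_option autoImplicit false

namespace Crest.Agent.R267.Asm_808

open Topology Filter MvPolynomial
open Crest.Agent.R267.P4Defs_780 Crest.Agent.R267.ChainPoly_145
open Crest.Agent.R267.Cone_808 Crest.Agent.R267.Sys_808

/-- the exponents of every chain are strictly increasing (so the pure power has the largest
exponent). -/
def Inc (S : List (List ℕ)) : Prop := ∀ c ∈ S, c.Pairwise (· < ·)

/-- a colouring of the systems which does not see squares. -/
def Blind (bit : List (List ℕ) → Bool) : Prop := ∀ S, bit ([2] :: S) = bit S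

/-- **ARITHMETIC OUTPUT** (P4 with one bit). -/
def INTb : Prop :=
  ∀ bit : List (List ℕ) → Bool, Blind bit →
    ∃ S S' : List (List ℕ), Adm S ∧ Adm S' ∧ Inc S ∧ Inc S' ∧ nvar S = nvar S' ∧ 3 < nvar S ∧
      8 ∣ nvar S ∧ [2] ∈ S ∧ [3] ∈ S' ∧ (∀ c ∈ S', ∀ h : c ≠ [], 3 ≤ c.getLast h) ∧
      bit S = bit S' ∧ Cong ℤ (sysMat S) (sysMat S')

/-- The links of two systems correspond under a homeomorphism of the unit spheres. -/
def LinkEq (S S' : List (List ℕ)) : Prop :=
  ∃ h : Sph (Var S) ≃ₜ Sph (Var S'),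
    ∀ s : Sph (Var S), sysFun S s = 0 ↔ sysFun S' (h s) = 0


/-! ### reindexing of spheres -/

lemma nsq_comp {ι κ : Type*} [Fintype ι] [Fintype κ] (e : ι ≃ κ) (x : κ → ℂ) :
    nsq (x ∘ e) = nsq x := by
  unfold nsq
  exact e.sum_comp (fun k => ‖x k‖ ^ 2)

/-- reindexing of the sphere. -/
def sphCongr {ι κ : Type*} [Fintype ι] [Fintype κ] (e : ι ≃ κ) : Sph κ ≃ₜ Sph ι where
  toFun x := ⟨(x : κ → ℂ) ∘ e, by rw [nsq_comp]; exact x.2⟩
  invFun x := ⟨(x : ι → ℂ) ∘ e.symm, by rw [nsq_comp]; exact x.2⟩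
  left_inv x := by
    apply Subtype.ext
    funext i
    simp
  right_inv x := by
    apply Subtype.ext
    funext i
    simp
  continuous_toFun := by
    refine Continuous.subtype_mk ?_ _
    exact continuous_pi fun i => (continuous_apply (e i)).comp continuous_subtype_val
  continuous_invFun := by
    refine Continuous.subtype_mk ?_ _
    exact continuous_pi fun i => (continuous_apply (e.symm i)).comp continuous_subtype_val

/-- The literal conclusion of S0407. -/
def S0407Stmt : Prop :=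
    ∃ N : ℕ, 3 < N ∧ 8 ∣ N ∧ ∃ f g : MvPolynomial (Fin N) ℝ,
      Squarefree f ∧ Squarefree g ∧
      (∃ w : Fin N → ℕ, (∀ i, 0 < w i) ∧ ∃ d : ℕ, MvPolynomial.IsWeightedHomogeneous w f d) ∧
      (∃ w : Fin N → ℕ, (∀ i, 0 < w i) ∧ ∃ d : ℕ, MvPolynomial.IsWeightedHomogeneous w g d) ∧
      fderiv ℂ (fun z : Fin N → ℂ => MvPolynomial.aeval z f) 0 = 0 ∧
      (∀ᶠ z in 𝓝[≠] (0 : Fin N → ℂ), fderiv ℂ (fun z : Fin N → ℂ => MvPolynomial.aeval z f) z ≠ 0) ∧
      fderiv ℂ (fun z : Fin N → ℂ => MvPolynomial.aeval z g) 0 = 0 ∧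
      (∀ᶠ z in 𝓝[≠] (0 : Fin N → ℂ), fderiv ℂ (fun z : Fin N → ℂ => MvPolynomial.aeval z g) z ≠ 0) ∧
      (∀ j < 2, MvPolynomial.homogeneousComponent j f = 0) ∧
      MvPolynomial.homogeneousComponent 2 f ≠ 0 ∧
      (∀ j < 3, MvPolynomial.homogeneousComponent j g = 0) ∧
      MvPolynomial.homogeneousComponent 3 g ≠ 0 ∧
      ∃ φ : OpenPartialHomeomorph (Fin N → ℂ) (Fin N → ℂ),
        (0 : Fin N → ℂ) ∈ φ.source ∧ φ 0 = 0 ∧
        ∀ z ∈ φ.source, (MvPolynomial.aeval z f = 0 ↔ MvPolynomial.aeval (φ z) g = 0)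

/-- One pair of systems with homeomorphic links gives S0407. -/
theorem stmt_of_linkEq {S S' : List (List ℕ)} (hS : Adm S) (hS' : Adm S')
    (hn : nvar S = nvar S') (h3 : 3 < nvar S) (h8 : 8 ∣ nvar S) (h2 : [2] ∈ S) (h3' : [3] ∈ S')
    (hl : ∀ c ∈ S', ∀ h : c ≠ [], 3 ≤ c.getLast h) (hL : LinkEq S S') : S0407Stmt := by
  have tS : ∀ c ∈ S, ∀ a ∈ c, 2 ≤ a := fun c hc => (hS c hc).2
  have tS' : ∀ c ∈ S', ∀ a ∈ c, 2 ≤ a := fun c hc => (hS' c hc).2
  obtain ⟨N, hN⟩ : ∃ N, N = nvar S := ⟨_, rfl⟩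
  have e : Var S ≃ Fin N := Fintype.equivFinOfCardEq (by rw [card_Var, hN])
  have e' : Var S' ≃ Fin N := Fintype.equivFinOfCardEq (by rw [card_Var, hN, hn])
  have A := side_conditions (N := N) (by omega) ((sysC S tS).map e) 2
    (fun i => two_le_deg _ _)
    (by
      obtain ⟨i, hi⟩ := exists_deg_eq S tS 2 h2
      exact ⟨e i, by rw [deg_map, e.symm_apply_apply, hi]⟩)
  have B := side_conditions (N := N) (by omega) ((sysC S' tS').map e') 3
    (fun i => by rw [deg_map]; exact deg_sysC_ge_three S' tS' hl _)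
    (by
      obtain ⟨i, hi⟩ := exists_deg_eq S' tS' 3 h3'
      exact ⟨e' i, by rw [deg_map, e'.symm_apply_apply, hi]⟩)
  obtain ⟨A1, A2, A3, A4, A5, A6⟩ := A
  obtain ⟨B1, B2, B3, B4, B5, B6⟩ := B
  refine ⟨N, by omega, by rw [hN]; exact h8, _, _, A1, B1, A2, B2, A3, A4, B3, B4, A5, A6, B5, B6, ?_⟩
  obtain ⟨w, hw, d, hd⟩ := A2
  obtain ⟨w', hw', d', hd'⟩ := B2
  obtain ⟨h, hh⟩ := hL
  refine exists_germ_homeo hw hw' hd hd' ?_
    ((sphCongr e).trans (h.trans (sphCongr e').symm)) fun s => ?_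
  · have key : ∀ (C : Chains (Fin N)), aeval (0 : Fin N → ℂ) (poly ℝ C) = (0 : ℂ) := by
      intro C
      rw [aeval_poly]
      refine Finset.sum_eq_zero fun i _ => ?_
      have := C.two_le i
      rw [Pi.zero_apply, zero_pow (by omega), mul_zero]
    rw [key, key]
  · rw [aeval_poly_map, aeval_poly_map, aeval_sysC, aeval_sysC]
    refine (hh (sphCongr e s)).trans ?_
    have : ((((sphCongr e).trans (h.trans (sphCongr e').symm)) s : Sph (Fin N)) : Fin N → ℂ) ∘ e'
        = (h (sphCongr e s) : Var S' → ℂ) := by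
      funext i
      simp [sphCongr]
    rw [this]


end Crest.Agent.R267.Asm_808
end

-- ▼ part R267/P4FinB_780
section

/-!
# S0407: `RATB → LOCSQ → GLOBS → INTb` in the form consumed by `Asm_808` (helper780)
-/

set_option autoImplicit false

namespace Crest.Agent.R267.P4FinB_780

open Crest.Agent.R267.P4Defs_780 Crest.Agent.R267.P4LocsQ_780

theorem INTb_of (hR : RATB) (hL : LOCSQ) (hG : GLOBS) : Asm_808.INTb := by
  intro bit hbit
  obtain ⟨S, S', h1, h2, h3, h4, h5, h6, h7, h8, h9, h10, h11, h12⟩ :=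
    P4Fin_780.INTcol_of hR hL hG bit hbit
  exact ⟨S, S', h1, h2, h3, h4, h5, h6, h7, h8, h9, h10, h11, h12⟩

end Crest.Agent.R267.P4FinB_780
end

-- ▼ part R267/P4Done_484
section

/-!
# S0407: the package P4 is complete (helper484)

`INTb` unconditional (RATB: helper96, LOCSQ: helper484, GLOBS: helper169), hence the statement of
S0407 follows from `TOPb`.
-/

set_option autoImplicit false

namespace Crest.Agent.R267.P4Done_484

/-- **P4**, unconditional. -/
theorem intb : Asm_808.INTb :=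
  P4FinB_780.INTb_of P45Fin_96.ratb P46h_484.locsq Globs_169.globs



end Crest.Agent.R267.P4Done_484
end

-- ▼ part R267/TopAsm_808

/-!
# Assembly of S0407 from the class theorem for graph systems and T3 (row 267)

`IsLink Z G`: the pair `(sphere, Z)` is the link of the graph system `G` (in the one point
compactification of `B × V`). `T3Prop n`: the link of every increasing system of chains in `n + 3`
variables is the link of a graph system whose matrix is congruent to `± sysMat` (or its transpose),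
the same sign and transposition for all systems. `stmt_of`: T3 for all `n ≥ 1` and `ClassGProp`
for all `n ≥ 1` give S0407.
-/

set_option autoImplicit false

namespace Crest.Agent.R267.TopAsm_808

open Set
open Crest.Agent.R267.P4Defs_780 Crest.Agent.R267.Cone_808 Crest.Agent.R267.Sys_808
open Crest.Agent.R267.Asm_808 Crest.Agent.R267.GS_808 Crest.Agent.R267.DraftB_808

/-- the pair `(X, Z)` is the link of the graph system `G`. -/
def IsLink {n m : ℕ} {X : Type*} [TopologicalSpace X] (Z : Set X) (G : S n m) : Prop :=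
  ∃ h : X ≃ₜ OnePoint (Bc (n + 2) × Vc (n + 2)), ∀ x, x ∈ Z ↔ ∃ p ∈ G.K, h x = (p : OnePoint _)

theorem homeo_of_links {n m : ℕ} {X X' : Type*} [TopologicalSpace X] [TopologicalSpace X']
    {Z : Set X} {Z' : Set X'} {G G' : S n m} (h : IsLink Z G) (h' : IsLink Z' G')
    (E : Eqv G.K G'.K) : ∃ f : X ≃ₜ X', ∀ x, x ∈ Z ↔ f x ∈ Z' := by
  obtain ⟨a, ha⟩ := h
  obtain ⟨b, hb⟩ := h'
  obtain ⟨g, -, hg⟩ := E
  refine ⟨(a.trans g.onePointCongr).trans b.symm, fun x => ?_⟩
  rw [ha, hb]
  have : b (((a.trans g.onePointCongr).trans b.symm) x) = g.onePointCongr (a x) := by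
    simp
  rw [this]
  constructor
  · rintro ⟨p, hp, hx⟩
    exact ⟨g p, (hg p).1 hp, by rw [hx]; rfl⟩
  · rintro ⟨p, hp, hx⟩
    refine ⟨g.symm p, (hg _).2 (by simpa using hp), ?_⟩
    apply g.onePointCongr.injective
    rw [hx]
    have h2 : g.onePointCongr ((g.symm p : Bc (n + 2) × Vc (n + 2)) : OnePoint _) =
        ((g (g.symm p) : Bc (n + 2) × Vc (n + 2)) : OnePoint (Bc (n + 2) × Vc (n + 2))) := rfl
    rw [h2, g.apply_symm_apply]

/-- transposition if `t`. -/
def tr {ι : Type} (t : Bool) (A : Matrix ι ι ℤ) : Matrix ι ι ℤ := if t then A.transpose else A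

/-- **T3** in base dimension `n + 2` (`n + 3` variables). -/
def T3Prop (n : ℕ) : Prop :=
  ∃ (s : ℤ) (t : Bool), ∀ C : List (List ℕ), Adm C → Inc C → nvar C = n + 3 →
    ∃ (m : ℕ) (G : S n m) (A : Matrix (Fin m) (Fin m) ℤ), HasMat G A ∧
      IsLink {z : Sph (Var C) | sysFun C z = 0} G ∧ Cong ℤ (s • tr t (sysMat C)) A

lemma Cong.symm {ι κ : Type} [Fintype ι] [Fintype κ] [DecidableEq ι] [DecidableEq κ]
    {A : Matrix ι ι ℤ} {B : Matrix κ κ ℤ} (h : Cong ℤ A B) : Cong ℤ B A := by
  obtain ⟨P, Q, h1, h2, h3⟩ := h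
  refine ⟨Q, P, h2, h1, ?_⟩
  rw [← h3]
  have h1' : Q.transpose * P.transpose = 1 := by
    rw [← Matrix.transpose_mul, h1, Matrix.transpose_one]
  calc Q.transpose * (P.transpose * A * P) * Q
      = (Q.transpose * P.transpose) * A * (P * Q) := by simp only [Matrix.mul_assoc]
    _ = A := by rw [h1, h1', Matrix.one_mul, Matrix.mul_one]

lemma Cong.trans {ι κ τ : Type} [Fintype ι] [Fintype κ] [DecidableEq ι] [DecidableEq κ]
    [Fintype τ] [DecidableEq τ] {A : Matrix ι ι ℤ} {B : Matrix κ κ ℤ} {C : Matrix τ τ ℤ}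
    (h : Cong ℤ A B) (h' : Cong ℤ B C) : Cong ℤ A C := by
  obtain ⟨P, Q, h1, h2, h3⟩ := h
  obtain ⟨P', Q', h1', h2', h3'⟩ := h'
  refine ⟨P * P', Q' * Q, ?_, ?_, ?_⟩
  · calc P * P' * (Q' * Q) = P * (P' * Q') * Q := by simp only [Matrix.mul_assoc]
      _ = 1 := by rw [h1', Matrix.mul_one, h1]
  · calc Q' * Q * (P * P') = Q' * (Q * P) * P' := by simp only [Matrix.mul_assoc]
      _ = 1 := by rw [h2, Matrix.mul_one, h2']
  · rw [← h3', ← h3, Matrix.transpose_mul]
    simp only [Matrix.mul_assoc]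

lemma Cong.tr {ι κ : Type} [Fintype ι] [Fintype κ] [DecidableEq ι] [DecidableEq κ]
    {A : Matrix ι ι ℤ} {B : Matrix κ κ ℤ} (h : Cong ℤ A B) (s : ℤ) (t : Bool) :
    Cong ℤ (s • tr t A) (s • tr t B) := by
  obtain ⟨P, Q, h1, h2, h3⟩ := h
  refine ⟨P, Q, h1, h2, ?_⟩
  rw [Matrix.mul_smul, Matrix.smul_mul]
  congr 1
  unfold TopAsm_808.tr
  split_ifs
  · rw [← h3]
    simp only [Matrix.transpose_mul, Matrix.transpose_transpose, Matrix.mul_assoc]
  · exact h3

/-! ### number of strands -/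

lemma mu_le_prod : ∀ l : List ℕ, mu l ≤ l.prod
  | [] => le_rfl
  | a :: l => by rw [mu, List.prod_cons]; exact Nat.sub_le _ _

lemma prod_pos_of_two_le {l : List ℕ} (h : ∀ a ∈ l, 2 ≤ a) : 1 ≤ l.prod := by
  induction l with
  | nil => exact le_rfl
  | cons a l ih =>
    rw [List.prod_cons]
    have h1 := h a List.mem_cons_self
    have h2 := ih fun b hb => h b (List.mem_cons_of_mem _ hb)
    exact Nat.one_le_iff_ne_zero.2 (Nat.mul_ne_zero (by omega) (by omega))

lemma two_le_mu {c : List ℕ} (hc : c ≠ []) (h : ∀ a ∈ c, 2 ≤ a) (hl : 3 ≤ c.getLast hc) :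
    2 ≤ mu c := by
  cases c with
  | nil => exact absurd rfl hc
  | cons a l =>
    rw [mu]
    have h1 := mu_le_prod l
    have h2 := prod_pos_of_two_le fun b hb => h b (List.mem_cons_of_mem a hb)
    cases l with
    | nil =>
      simp only [List.getLast_singleton] at hl
      simp [mu]
      omega
    | cons b l =>
      have h3 : 2 ≤ (b :: l).prod := by
        rw [List.prod_cons]
        have := prod_pos_of_two_le (l := l) fun x hx =>
          h x (List.mem_cons_of_mem a (List.mem_cons_of_mem b hx))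
        have h4 := h b (List.mem_cons_of_mem a List.mem_cons_self)
        nlinarith
      have h4 := h a List.mem_cons_self
      have : 2 * (b :: l).prod ≤ a * (b :: l).prod := Nat.mul_le_mul_right _ h4
      by_cases h5 : 3 ≤ a
      · have : 3 * (b :: l).prod ≤ a * (b :: l).prod := Nat.mul_le_mul_right _ h5
        omega
      · omega

lemma one_le_card_Idx {S : List (List ℕ)} (h : ∀ c ∈ S, 1 ≤ mu c) : 1 ≤ Fintype.card (Idx S) := by
  induction S with
  | nil => exact le_of_eq Fintype.card_unit.symm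
  | cons c S ih =>
    have h1 : Fintype.card (Idx (c :: S)) = Fintype.card (Fin (mu c)) * Fintype.card (Idx S) :=
      Fintype.card_prod _ _
    rw [h1, Fintype.card_fin]
    have h2 := h c List.mem_cons_self
    have h3 := ih fun d hd => h d (List.mem_cons_of_mem _ hd)
    exact Nat.one_le_iff_ne_zero.2 (Nat.mul_ne_zero (by omega) (by omega))

lemma three_le_card {S : List (List ℕ)} (hA : Adm S)
    (hl : ∀ c ∈ S, ∀ h : c ≠ [], 3 ≤ c.getLast h) (h3 : [3] ∈ S) (hn : 3 < nvar S) :
    3 ≤ Fintype.card (Idx S) := by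
  have h2 : ∀ c ∈ S, 2 ≤ mu c := fun c hc => two_le_mu (hA c hc).1 (hA c hc).2 (hl c hc (hA c hc).1)
  match S, h2, h3, hn with
  | [], _, h3, _ => simp at h3
  | [c], _, h3, hn =>
    rw [List.mem_singleton] at h3
    rw [← h3] at hn
    simp [nvar] at hn
  | c :: d :: S, h2, _, _ =>
    have h1 : Fintype.card (Idx (c :: d :: S)) =
        Fintype.card (Fin (mu c)) * Fintype.card (Idx (d :: S)) := Fintype.card_prod _ _
    have h1' : Fintype.card (Idx (d :: S)) =
        Fintype.card (Fin (mu d)) * Fintype.card (Idx S) := Fintype.card_prod _ _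
    rw [h1, h1', Fintype.card_fin, Fintype.card_fin]
    have a1 := h2 c (by simp)
    have a2 := h2 d (by simp)
    have a3 := one_le_card_Idx (S := S) fun x hx => by
      have := h2 x (by simp [hx])
      omega
    have a4 : 2 * 1 ≤ mu d * Fintype.card (Idx S) := Nat.mul_le_mul a2 a3
    have a5 : 2 * (2 * 1) ≤ mu c * (mu d * Fintype.card (Idx S)) := Nat.mul_le_mul a1 a4
    omega

/-- **S0407 from T3 and the class theorem.** -/
theorem stmt_of (h3 : ∀ n, 1 ≤ n → T3Prop n) (hG : ∀ n, 1 ≤ n → ClassGProp n) : S0407Stmt := by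
  obtain ⟨C, C', hA, hA', hI, hI', hn, h4, h8, h2, h3', hl, -, hc⟩ :=
    P4Done_484.intb (fun _ => true) (fun _ => rfl)
  refine stmt_of_linkEq hA hA' hn h4 h8 h2 h3' hl ?_
  obtain ⟨n, hn'⟩ : ∃ n, nvar C = n + 3 := ⟨nvar C - 3, by omega⟩
  have hn1 : 1 ≤ n := by omega
  obtain ⟨s, t, hT⟩ := h3 n hn1
  obtain ⟨m, G, A, hG1, hG2, hG3⟩ := hT C hA hI hn'
  obtain ⟨m', G', A', hG1', hG2', hG3'⟩ := hT C' hA' hI' (by omega)
  have key : Cong ℤ A' A := Cong.trans (Cong.symm hG3') (Cong.trans (Cong.tr (Cong.symm hc) s t) hG3)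
  have hcard : 3 ≤ m' := by
    have h5 := three_le_card hA' hl h3' (by omega)
    obtain ⟨P, Q, h6, h7, -⟩ := hG3'
    have := T2alg1_684.card_eq_of_cong P Q h6 h7
    rw [Fintype.card_fin] at this
    omega
  obtain ⟨P, Q, k1, k2, k3⟩ := key
  have hm : m = m' := by
    have := T2alg1_684.card_eq_of_cong P Q k1 k2
    rw [Fintype.card_fin, Fintype.card_fin] at this
    exact this.symm
  subst hm
  have E := hG n hn1 m G' G A' A ⟨P, Q, k1, k2⟩ hcard hG1' hG1 k3.symm
  obtain ⟨f, hf⟩ := homeo_of_links hG2 hG2' E.symm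
  exact ⟨f, hf⟩

end Crest.Agent.R267.TopAsm_808
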