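import Mathlib
import Crest.Agent.R267.P4Defs_780
import Crest.Agent.R267.P41_339
import Crest.Agent.R267.HmC_951
import Crest.Agent.R267.T3aDefs_957
import Crest.Agent.R267.LobeDefs_407

-- ▼ part R267/P413Def_322
section

/-!
# S0407, node P4.13 (helper322): definitions of the poset form of the Seifert matrix of a chain

Order of a chain as in `chainMat` (head = last variable).  The letters of the page of a strictly
increasing chain `c = [a₁ < a₂ < ... < a_k]` are the lists `t = [t₁, ..., t_k]` with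
`1 ≤ t_i ≤ a_i`, `t_k < a_k` and `t_i = a_i → t_{i+1} ≤ a_i`; the matrix is the zeta matrix of the
coordinatewise order.
-/

set_option autoImplicit false

namespace Crest.Agent.R267.P413Def_322

open Matrix Crest.Agent.R267.P4Defs_780

/-- the list starts with a number `≤ a` -/
def low (a : ℕ) : List ℕ → Prop
  | [] => False
  | b :: _ => b ≤ a

instance instDecLow (a : ℕ) : DecidablePred (low a)
  | [] => inferInstanceAs (Decidable False)
  | b :: _ => inferInstanceAs (Decidable (b ≤ a))

/-- the finite set of letters of the page of a chain. -/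
def PF : List ℕ → Finset (List ℕ)
  | [] => {[]}
  | a :: l => (((Finset.range (a + 1)) ×ˢ PF l).filter
      (fun p => 1 ≤ p.1 ∧ (p.1 < a ∨ (p.1 = a ∧ low a p.2)))).image (fun p => p.1 :: p.2)

/-- the letters of the page of a chain, as a predicate. -/
def Ok : List ℕ → List ℕ → Prop
  | [], t => t = []
  | _ :: _, [] => False
  | a :: l, x :: t => 1 ≤ x ∧ (x < a ∨ (x = a ∧ low a t)) ∧ Ok l t

theorem mem_PF : ∀ {c t : List ℕ}, t ∈ PF c ↔ Ok c t
  | [], t => by simp [PF, Ok]
  | a :: l, [] => by simp [PF, Ok]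
  | a :: l, x :: t => by
      simp only [PF, Ok, Finset.mem_image, Finset.mem_filter, Finset.mem_product, Finset.mem_range,
        Prod.exists, List.cons.injEq]
      constructor
      · rintro ⟨p, q, ⟨⟨_, h2⟩, h3, h4⟩, rfl, rfl⟩
        exact ⟨h3, h4, mem_PF.1 h2⟩
      · rintro ⟨h1, h2, h3⟩
        refine ⟨x, t, ⟨⟨?_, mem_PF.2 h3⟩, h1, h2⟩, rfl, rfl⟩
        rcases h2 with h2 | ⟨h2, _⟩ <;> omega

/-- index type of the poset matrix of a chain. -/
abbrev PIdx (c : List ℕ) : Type := ↥(PF c)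

/-- product of the indicators `s_i ≤ t_i`. -/
def zt : List ℕ → List ℕ → ℤ
  | [], [] => 1
  | x :: s, y :: t => if x ≤ y then zt s t else 0
  | [], _ :: _ => 0
  | _ :: _, [] => 0


/-- the poset matrix of a chain: `1` iff `s ≤ t` coordinatewise. -/
def posMat (c : List ℕ) : Matrix (PIdx c) (PIdx c) ℤ := fun s t => zt s.1 t.1

/-- index type of the poset matrix of a system. -/
def PSys : List (List ℕ) → Type
  | [] => Unit
  | c :: S => PIdx c × PSys S

instance instFintypePSys : (S : List (List ℕ)) → Fintype (PSys S)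
  | [] => inferInstanceAs (Fintype Unit)
  | _ :: S => @instFintypeProd _ _ _ (instFintypePSys S)

instance instDecidableEqPSys : (S : List (List ℕ)) → DecidableEq (PSys S)
  | [] => inferInstanceAs (DecidableEq Unit)
  | _ :: S => @instDecidableEqProd _ _ _ (instDecidableEqPSys S)

/-- poset matrix of a system = Kronecker product of the poset matrices of the chains. -/
def posSys : (S : List (List ℕ)) → Matrix (PSys S) (PSys S) ℤ
  | [] => 1
  | c :: S => Matrix.kroneckerMap (· * ·) (posMat c) (posSys S)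

/-- the chains of S0407: strictly increasing with exponents at least two. -/
def Pierce (c : List ℕ) : Prop := (∀ a ∈ c, 2 ≤ a) ∧ c.Pairwise (· < ·)

lemma Pierce.tail {a : ℕ} {l : List ℕ} (h : Pierce (a :: l)) : Pierce l :=
  ⟨fun b hb => h.1 b (List.mem_cons_of_mem _ hb), (List.pairwise_cons.1 h.2).2⟩

lemma Pierce.lt {a b : ℕ} {l : List ℕ} (h : Pierce (a :: b :: l)) : a < b :=
  (List.pairwise_cons.1 h.2).1 b List.mem_cons_self

end Crest.Agent.R267.P413Def_322
private theorem rz_b6888cec64 : type_of% @_root_.Crest.Agent.R267.P413Def_322.Ok.eq_def := @_root_.Crest.Agent.R267.P413Def_322.Ok.eq_def -- L35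
private theorem rz_d3accd3f6a : type_of% @_root_.Crest.Agent.R267.P413Def_322.Ok.eq_1 := @_root_.Crest.Agent.R267.P413Def_322.Ok.eq_1 -- L35
private theorem rz_5ca42e9483 : type_of% @_root_.Crest.Agent.R267.P413Def_322.PF.eq_def := @_root_.Crest.Agent.R267.P413Def_322.PF.eq_def -- L29
private theorem rz_2164d23823 : type_of% @_root_.Crest.Agent.R267.P413Def_322.PF.eq_1 := @_root_.Crest.Agent.R267.P413Def_322.PF.eq_1 -- L29
private theorem rz_44c8dd0fd1 : type_of% @_root_.Crest.Agent.R267.P413Def_322.low.eq_1 := @_root_.Crest.Agent.R267.P413Def_322.low.eq_1 -- L20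
private theorem rz_4c772bd712 : type_of% @_root_.Crest.Agent.R267.P413Def_322.zt.eq_def := @_root_.Crest.Agent.R267.P413Def_322.zt.eq_def -- L57
private theorem rz_7ddac0aa97 : type_of% @_root_.Crest.Agent.R267.P413Def_322.zt.eq_1 := @_root_.Crest.Agent.R267.P413Def_322.zt.eq_1 -- L57
end

-- ▼ part R267/P413_322
section

/-!
# S0407, node P4.13 (helper322): `chainMat c` is congruent to the poset matrix of the page

For strictly increasing chains.  Idea: the inverse of `chainMat (a :: l)` is the matrix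
`W s t = L_l (ω^s, ω^t)` for `s ≤ t`, `0` for `s > t`, of a word of consecutive powers of `ω`; cut
into `a - 1` blocks of length `mu l` and a last shorter block; every block is a triangular basis
and may be replaced by any other triangular basis of the same sublattice.
-/

set_option autoImplicit false

namespace Crest.Agent.R267.P413_322

open Polynomial Matrix Crest.Agent.R267.P4Defs_780 Crest.Agent.R267.P41_339
  Crest.Agent.R267.P413Def_322

/-! ### the lattice of a chain -/

lemma mu_pos : ∀ {l : List ℕ}, (∀ a ∈ l, 2 ≤ a) → 0 < mu l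
  | [], _ => by simp [mu]
  | a :: l, h => by
      have h1 := mu_le_prod l
      have h2 : 2 ≤ a := h a List.mem_cons_self
      have h3 : Good l := Good.of_two (fun b hb => h b (List.mem_cons_of_mem _ hb))
      have h4 := h3.prod_pos
      have h5 := mu_add_mu (a := a) (l := l) (by omega)
      nlinarith

lemma comp_nil : compMat [] = 1 := by
  ext i j
  have hi : (i : ℕ) = 0 := by have := i.2; simp only [mu] at this; omega
  have hj : (j : ℕ) = 0 := by have := j.2; simp only [mu] at this; omega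
  have hij : i = j := Fin.ext (by omega)
  subst hij
  rw [Matrix.one_apply_eq]
  unfold compMat
  rw [if_neg (by rw [hj]; simp [mu]), hi]
  simp [phi]

/-- `Cᵀ L C = L`, also for the empty chain. -/
theorem inv_l {l : List ℕ} (h : Good l) :
    (compMat l)ᵀ * chainMat l * compMat l = chainMat l := by
  cases l with
  | nil => rw [comp_nil]; simp
  | cons a l => exact chain_inv h

theorem inv_pow {l : List ℕ} (h : Good l) (n : ℕ) :
    (compMat l ^ n)ᵀ * chainMat l * compMat l ^ n = chainMat l := by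
  induction n with
  | zero => simp
  | succ n ih =>
      rw [pow_succ, Matrix.transpose_mul]
      calc (compMat l)ᵀ * (compMat l ^ n)ᵀ * chainMat l * (compMat l ^ n * compMat l)
          = (compMat l)ᵀ * ((compMat l ^ n)ᵀ * chainMat l * compMat l ^ n) * compMat l := by
            simp only [Matrix.mul_assoc]
        _ = _ := by rw [ih, inv_l h]

variable {l : List ℕ}

lemma col_zero (h0 : 0 < mu l) (i k : Fin (mu l)) :
    (compMat l ^ (i : ℕ)) k ⟨0, h0⟩ = if k = i then 1 else 0 := by
  have h := congrFun (comp_pow_mulVec_zero h0 i.2) k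
  rw [Matrix.mulVec_single_one, Matrix.col_apply] at h
  rw [h]
  by_cases hk : k = i
  · subst hk; simp
  · rw [if_neg hk, Pi.single_eq_of_ne hk]

lemma col_shift (h0 : 0 < mu l) (s : ℕ) (i k : Fin (mu l)) :
    (compMat l ^ (s + (i : ℕ))) k ⟨0, h0⟩ = (compMat l ^ s) k i := by
  rw [pow_add, Matrix.mul_apply, Finset.sum_eq_single i]
  · rw [col_zero h0, if_pos rfl, mul_one]
  · intro j _ hj
    rw [col_zero h0, if_neg hj, mul_zero]
  · simp

/-- Gram matrix of the letters `ω^s`. -/
noncomputable def gr (l : List ℕ) (h0 : 0 < mu l) (s t : ℕ) : ℤ :=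
  ((compMat l ^ s)ᵀ * chainMat l * compMat l ^ t) ⟨0, h0⟩ ⟨0, h0⟩

lemma gr_shift (hg : Good l) (h0 : 0 < mu l) (s t k : ℕ) :
    gr l h0 (s + k) (t + k) = gr l h0 s t := by
  have key : (compMat l ^ (s + k))ᵀ * chainMat l * compMat l ^ (t + k) =
      (compMat l ^ s)ᵀ * chainMat l * compMat l ^ t := by
    rw [add_comm s, add_comm t, pow_add, pow_add, Matrix.transpose_mul]
    calc (compMat l ^ s)ᵀ * (compMat l ^ k)ᵀ * chainMat l * (compMat l ^ k * compMat l ^ t)
        = (compMat l ^ s)ᵀ * ((compMat l ^ k)ᵀ * chainMat l * compMat l ^ k) * compMat l ^ t := by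
          simp only [Matrix.mul_assoc]
      _ = _ := by rw [inv_pow hg]
  unfold gr
  rw [key]

lemma gr_eq (hg : Good l) (h0 : 0 < mu l) {s t : ℕ} (h : s ≤ t) :
    gr l h0 s t = gr l h0 0 (t - s) := by
  have := gr_shift hg h0 0 (t - s) s
  rw [zero_add, Nat.sub_add_cancel h] at this
  exact this

lemma gr_basis (h0 : 0 < mu l) (i j : Fin (mu l)) : gr l h0 i j = chainMat l i j := by
  unfold gr
  rw [Matrix.mul_apply, Finset.sum_eq_single j]
  · rw [col_zero h0, if_pos rfl, mul_one, Matrix.mul_apply, Finset.sum_eq_single i]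
    · rw [Matrix.transpose_apply, col_zero h0, if_pos rfl, one_mul]
    · intro k _ hk
      rw [Matrix.transpose_apply, col_zero h0, if_neg hk, zero_mul]
    · simp
  · intro k _ hk
    rw [col_zero h0, if_neg hk, mul_zero]
  · simp

lemma chain_lower (i j : Fin (mu l)) (h : j < i) : chainMat l i j = 0 := by
  cases l with
  | nil =>
      have hi := i.2
      simp only [mu] at hi
      have : (j : ℕ) < i := h
      omega
  | cons a l => rw [chainMat_apply, if_neg (not_le.2 h)]

lemma chain_diag (hg : Good l) (i : Fin (mu l)) : chainMat l i i = 1 := by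
  cases l with
  | nil => simp [chainMat]
  | cons a l =>
      rw [chainMat_apply, if_pos le_rfl, Nat.sub_self, symb_coeff, phi_coeff_zero hg.tail,
        ← mul_pow]
      simp

lemma gr_zero (hg : Good l) (h0 : 0 < mu l) {s t : ℕ} (h1 : t < s) (h2 : s < t + mu l) :
    gr l h0 s t = 0 := by
  have h3 := gr_shift hg h0 (s - t) 0 t
  rw [zero_add, Nat.sub_add_cancel h1.le] at h3
  have h4 := gr_basis h0 (⟨s - t, by omega⟩ : Fin (mu l)) ⟨0, h0⟩
  rw [h3]
  simp only at h4
  rw [h4]
  apply chain_lower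
  show (0 : ℕ) < s - t
  omega

lemma gr_self (hg : Good l) (h0 : 0 < mu l) (s : ℕ) : gr l h0 s s = 1 := by
  rw [gr_eq hg h0 le_rfl, Nat.sub_self]
  have h4 := gr_basis h0 (⟨0, h0⟩ : Fin (mu l)) ⟨0, h0⟩
  simp only at h4
  rw [h4, chain_diag hg]

lemma gr_rec (hg : Good l) (h0 : 0 < mu l) (s t : ℕ) :
    ∑ i ∈ Finset.range (mu l + 1), (symb l).coeff i * gr l h0 (s + i) t = 0 := by
  have h1 : ∑ i ∈ Finset.range (mu l + 1), (phi l).coeff i • compMat l ^ i = 0 := by
    have := comp_phi hg
    rw [aeval_eq_sum_range, (basic hg).natDegree] at this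
    exact this
  have h2 : ∑ i ∈ Finset.range (mu l + 1), (phi l).coeff i * gr l h0 (s + i) t =
      ((∑ i ∈ Finset.range (mu l + 1), (phi l).coeff i • compMat l ^ i) * compMat l ^ s)ᵀ.mulVec
        ((chainMat l * compMat l ^ t).mulVec (Pi.single ⟨0, h0⟩ 1)) ⟨0, h0⟩ := by
    rw [Finset.sum_mul, Matrix.transpose_sum, Matrix.sum_mulVec, Finset.sum_apply]
    refine Finset.sum_congr rfl fun i _ => ?_
    rw [Matrix.mulVec_mulVec, Matrix.mulVec_single_one, Matrix.col_apply]
    unfold gr
    rw [Matrix.smul_mul, Matrix.transpose_smul, Matrix.smul_mul, Matrix.smul_apply, smul_eq_mul,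
      add_comm s i, pow_add, Matrix.mul_assoc]
  have h3 : ∑ i ∈ Finset.range (mu l + 1), (symb l).coeff i * gr l h0 (s + i) t =
      (-1) ^ (l.length + 1) *
        ∑ i ∈ Finset.range (mu l + 1), (phi l).coeff i * gr l h0 (s + i) t := by
    rw [Finset.mul_sum]
    refine Finset.sum_congr rfl fun i _ => ?_
    rw [symb_coeff]; ring
  rw [h3, h2, h1]
  simp

/-- the upper triangular matrix of the word `1, ω, ω², …` (`n` letters). -/
noncomputable def W (l : List ℕ) (h0 : 0 < mu l) (n : ℕ) : Matrix (Fin n) (Fin n) ℤ :=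
  fun s t => if s ≤ t then gr l h0 s t else 0

lemma symb_rec (hg : Good l) (h0 : 0 < mu l) {s t : ℕ} (h : s < t) :
    ∑ i ∈ Finset.range (t - s + 1), (symb l).coeff i * gr l h0 (s + i) t = 0 := by
  rcases Nat.lt_or_ge (mu l) (t - s) with h1 | h1
  · rw [← gr_rec hg h0 s t]
    symm
    apply Finset.sum_subset
    · intro i hi
      simp only [Finset.mem_range] at hi ⊢
      omega
    · intro i _ hi
      simp only [Finset.mem_range, not_lt] at hi
      rw [coeff_eq_zero_of_natDegree_lt, zero_mul]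
      rw [symb_natDegree hg]; omega
  · rw [← gr_rec hg h0 s t]
    apply Finset.sum_subset
    · intro i hi
      simp only [Finset.mem_range] at hi ⊢
      omega
    · intro i hi hi2
      simp only [Finset.mem_range, not_lt] at hi hi2
      rw [gr_zero hg h0 (by omega) (by omega), mul_zero]

/-- `L_{a :: l} W = 1`. -/
theorem chain_mul_W (a : ℕ) (hg : Good l) (h0 : 0 < mu l) :
    chainMat (a :: l) * W l h0 (mu (a :: l)) = 1 := by
  ext s t
  rw [Matrix.mul_apply]
  have e1 : ∀ j : Fin (mu (a :: l)), chainMat (a :: l) s j * W l h0 (mu (a :: l)) j t =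
      (fun j : ℕ => if (s : ℕ) ≤ j ∧ j ≤ t then (symb l).coeff (j - s) * gr l h0 j t else 0)
        (j : ℕ) := by
    intro j
    rw [chainMat_apply]
    unfold W
    simp only [Fin.le_def]
    by_cases h1 : (s : ℕ) ≤ j
    · by_cases h2 : (j : ℕ) ≤ t
      · rw [if_pos h1, if_pos h2, if_pos ⟨h1, h2⟩]
      · have h3 : ¬ ((s : ℕ) ≤ j ∧ (j : ℕ) ≤ t) := fun h => h2 h.2
        rw [if_neg h2, if_neg h3, mul_zero]
    · have h3 : ¬ ((s : ℕ) ≤ j ∧ (j : ℕ) ≤ t) := fun h => h1 h.1
      rw [if_neg h1, if_neg h3, zero_mul]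
  rw [Finset.sum_congr rfl fun j _ => e1 j, Fin.sum_univ_eq_sum_range
    (fun j : ℕ => if (s : ℕ) ≤ j ∧ j ≤ t then (symb l).coeff (j - s) * gr l h0 j t else 0)]
  rcases lt_trichotomy (s : ℕ) t with h | h | h
  · have hst : s ≠ t := fun e => by rw [e] at h; exact lt_irrefl _ h
    rw [Matrix.one_apply_ne hst, ← Finset.sum_filter]
    have e2 : (Finset.range (mu (a :: l))).filter (fun j => (s : ℕ) ≤ j ∧ j ≤ t) =
        Finset.Ico (s : ℕ) (t + 1) := by
      ext j
      have := t.2
      simp only [Finset.mem_filter, Finset.mem_range, Finset.mem_Ico]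
      omega
    rw [e2, Finset.sum_Ico_eq_sum_range]
    have e3 : (t : ℕ) + 1 - s = t - s + 1 := by omega
    rw [e3, ← symb_rec hg h0 h]
    refine Finset.sum_congr rfl fun i _ => ?_
    rw [Nat.add_sub_cancel_left]
  · have hst : s = t := Fin.ext h
    subst hst
    rw [Matrix.one_apply_eq, Finset.sum_eq_single (s : ℕ)]
    · rw [if_pos ⟨le_rfl, le_rfl⟩, Nat.sub_self, gr_self hg, symb_coeff, phi_coeff_zero hg,
        ← mul_pow]
      simp
    · intro j _ hj
      rw [if_neg]
      rintro ⟨h1, h2⟩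
      exact hj (le_antisymm h2 h1)
    · intro h1
      exact absurd (Finset.mem_range.2 s.2) h1
  · have hst : s ≠ t := fun e => by rw [e] at h; exact lt_irrefl _ h
    rw [Matrix.one_apply_ne hst]
    apply Finset.sum_eq_zero
    intro j _
    rw [if_neg]
    rintro ⟨h1, h2⟩
    omega

theorem W_mul_chain (a : ℕ) (hg : Good l) (h0 : 0 < mu l) :
    W l h0 (mu (a :: l)) * chainMat (a :: l) = 1 :=
  mul_eq_one_comm.1 (chain_mul_W a hg h0)

/-! ### the dual basis -/

/-- dual basis: `G i s = W (rev s) i`. -/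
noncomputable def G (l : List ℕ) (h0 : 0 < mu l) (n : ℕ) : Matrix (Fin n) (Fin n) ℤ :=
  fun i s => W l h0 n s.rev i

/-- its inverse. -/
noncomputable def H (a : ℕ) (l : List ℕ) : Matrix (Fin (mu (a :: l))) (Fin (mu (a :: l))) ℤ :=
  fun s i => chainMat (a :: l) i s.rev

lemma G_mul_H (a : ℕ) (hg : Good l) (h0 : 0 < mu l) : G l h0 (mu (a :: l)) * H a l = 1 := by
  ext i j
  have h1 := congrFun (congrFun (chain_mul_W a hg h0) j) i
  rw [Matrix.mul_apply] at h1 ⊢
  have e1 : ∑ s, G l h0 (mu (a :: l)) i s * H a l s j =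
      ∑ s, chainMat (a :: l) j s * W l h0 (mu (a :: l)) s i := by
    rw [← Equiv.sum_comp Fin.revPerm]
    refine Finset.sum_congr rfl fun s _ => ?_
    simp only [G, H, Fin.revPerm_apply, Fin.rev_rev]
    ring
  rw [e1, h1, Matrix.one_apply, Matrix.one_apply]
  simp only [eq_comm]

lemma H_mul_G (a : ℕ) (hg : Good l) (h0 : 0 < mu l) : H a l * G l h0 (mu (a :: l)) = 1 :=
  mul_eq_one_comm.1 (G_mul_H a hg h0)

lemma G_gram (a : ℕ) (hg : Good l) (h0 : 0 < mu l) :
    (G l h0 (mu (a :: l)))ᵀ * chainMat (a :: l) * G l h0 (mu (a :: l)) =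
      W l h0 (mu (a :: l)) := by
  have e1 : G l h0 (mu (a :: l)) = ((W l h0 (mu (a :: l)))ᵀ).submatrix id Fin.rev := rfl
  have e2 : (G l h0 (mu (a :: l)))ᵀ = (W l h0 (mu (a :: l))).submatrix Fin.rev id := rfl
  rw [e2, e1]
  have e3 : (W l h0 (mu (a :: l))).submatrix Fin.rev id * chainMat (a :: l) *
      ((W l h0 (mu (a :: l)))ᵀ).submatrix id Fin.rev =
      (W l h0 (mu (a :: l)) * chainMat (a :: l) * (W l h0 (mu (a :: l)))ᵀ).submatrix
        Fin.rev Fin.rev := by
    ext s t
    simp only [Matrix.mul_apply, Matrix.submatrix_apply, id]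
  rw [e3, W_mul_chain a hg h0, Matrix.one_mul]
  ext s t
  rw [Matrix.submatrix_apply, Matrix.transpose_apply]
  unfold W
  simp only [Fin.rev_le_rev]
  split_ifs with h
  · have h' : (s : ℕ) ≤ t := h
    have hs := s.2
    have ht := t.2
    rw [gr_eq hg h0 h', gr_eq hg h0 (Fin.rev_le_rev.2 h)]
    congr 1
    rw [Fin.val_rev, Fin.val_rev]
    omega
  · rfl

end Crest.Agent.R267.P413_322
end

-- ▼ part R267/P413b_322
section

/-!
# S0407, node P4.13, part 2 (helper322): induction over the chain and the theorem for systems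
-/

set_option autoImplicit false

namespace Crest.Agent.R267.P413_322

open Polynomial Matrix Crest.Agent.R267.P4Defs_780 Crest.Agent.R267.P41_339
  Crest.Agent.R267.P413Def_322

/-! ### sums over the letters -/

lemma sum_PF (a : ℕ) (l : List ℕ) (F : List ℕ → ℤ) :
    ∑ x ∈ PF (a :: l), F x = ∑ x0 ∈ Finset.range (a + 1), ∑ y ∈ PF l,
      if 1 ≤ x0 ∧ (x0 < a ∨ (x0 = a ∧ low a y)) then F (x0 :: y) else 0 := by
  rw [PF, Finset.sum_image, Finset.sum_filter, Finset.sum_product]
  rintro ⟨p, q⟩ _ ⟨p', q'⟩ _ h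
  simp only [List.cons.injEq] at h
  exact Prod.ext h.1 h.2

/-- the filtered form of the induction hypothesis. -/
structure Fil (c : List ℕ) (k j : ℕ) (P : Matrix (Fin (mu c)) (List ℕ) ℤ)
    (Q : Matrix (List ℕ) (Fin (mu c)) ℤ) : Prop where
  PQ : ∀ i i', ∑ x ∈ PF c, P i x * Q x i' = if i = i' then 1 else 0
  QP : ∀ x ∈ PF c, ∀ y ∈ PF c, ∑ i, Q x i * P i y = if x = y then 1 else 0
  gram : ∀ x ∈ PF c, ∀ y ∈ PF c, (Pᵀ * chainMat c * P) x y = zt x y
  fP : ∀ x ∈ PF c, low j x → ∀ i : Fin (mu c), k ≤ (i : ℕ) → P i x = 0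
  fQ : ∀ x ∈ PF c, ¬ low j x → ∀ i : Fin (mu c), (i : ℕ) < k → Q x i = 0

lemma fil_nil (j : ℕ) : Fil [] 0 j (Matrix.of fun _ _ => 1) (Matrix.of fun _ _ => 1) where
  PQ := by
    intro i i'
    have : i = i' := by
      apply Fin.ext
      have h1 := i.2
      have h2 := i'.2
      simp only [mu] at h1 h2
      omega
    simp [PF, this]
  QP := by
    intro x hx y hy
    simp only [PF, Finset.mem_singleton] at hx hy
    subst hx; subst hy
    have h1 : (Finset.univ : Finset (Fin (mu []))).card = 1 := Fintype.card_fin _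
    simp [h1]
  gram := by
    intro x hx y hy
    simp only [PF, Finset.mem_singleton] at hx hy
    subst hx; subst hy
    have h1 : (Finset.univ : Finset (Fin (mu []))).card = 1 := Fintype.card_fin _
    have h2 : chainMat [] = 1 := rfl
    rw [h2, Matrix.mul_one, Matrix.mul_apply]
    simp [h1, zt]
  fP := by
    intro x hx hl
    simp only [PF, Finset.mem_singleton] at hx
    subst hx
    exact absurd hl (by simp [low])
  fQ := by
    intro x _ _ i hi
    exact absurd hi (Nat.not_lt_zero _)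

lemma sum_fin_ind (n k : ℕ) (f : ℕ → ℤ) :
    ∑ s : Fin n, (if (s : ℕ) = k then f s else 0) = if k < n then f k else 0 := by
  split_ifs with h
  · rw [Finset.sum_eq_single (⟨k, h⟩ : Fin n)]
    · simp
    · intro s _ hs
      rw [if_neg]
      intro e
      exact hs (Fin.ext e)
    · simp
  · apply Finset.sum_eq_zero
    intro s _
    rw [if_neg]
    have := s.2
    omega

lemma block_inj {m x y i j : ℕ} (hi : i < m) (hj : j < m) (h : x * m + i = y * m + j) :
    x = y ∧ i = j := by
  have hm : 0 < m := by omega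
  have h1 : (x * m + i) / m = x := by
    rw [mul_comm, Nat.mul_add_div hm, Nat.div_eq_of_lt hi, add_zero]
  have h2 : (y * m + j) / m = y := by
    rw [mul_comm, Nat.mul_add_div hm, Nat.div_eq_of_lt hj, add_zero]
  have h3 : x = y := by rw [← h1, ← h2, h]
  subst h3
  exact ⟨rfl, by omega⟩

section Step

variable (a : ℕ) (l : List ℕ) (P' : Matrix (Fin (mu l)) (List ℕ) ℤ)
  (Q' : Matrix (List ℕ) (Fin (mu l)) ℤ)

/-- inverse of the companion matrix -/
noncomputable def Cinv (c : List ℕ) : Matrix (Fin (mu c)) (Fin (mu c)) ℤ :=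
  compMat c ^ (c.prod - 1)

lemma Cinv_mul {c : List ℕ} (h : Good c) : Cinv c * compMat c = 1 := by
  unfold Cinv
  rw [← pow_succ, Nat.sub_add_cancel h.prod_pos, comp_pow_prod h]

lemma Cinv_pow_mul {c : List ℕ} (h : Good c) (n : ℕ) : Cinv c ^ n * compMat c ^ n = 1 := by
  have hc : Commute (Cinv c) (compMat c) := (Commute.refl _).pow_left _
  rw [← hc.mul_pow, Cinv_mul h, one_pow]

lemma pow_mul_Cinv {c : List ℕ} (h : Good c) (n : ℕ) : compMat c ^ n * Cinv c ^ n = 1 :=
  mul_eq_one_comm.1 (Cinv_pow_mul h n)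

/-- coefficients of the block `x0` -/
noncomputable def DD (x0 : ℕ) : Matrix (Fin (mu l)) (List ℕ) ℤ :=
  compMat l ^ ((a - x0) * mu l) * P'

/-- inverse coefficients -/
noncomputable def EE (x0 : ℕ) : Matrix (List ℕ) (Fin (mu l)) ℤ :=
  Q' * Cinv l ^ ((a - x0) * mu l)

/-- block diagonal base change -/
noncomputable def RR (n : ℕ) : Matrix (Fin n) (List ℕ) ℤ := fun s x =>
  match x with
  | [] => 0
  | x0 :: y => ∑ i : Fin (mu l), if (s : ℕ) = (x0 - 1) * mu l + i then DD a l P' x0 i y else 0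

/-- its inverse -/
noncomputable def SS (n : ℕ) : Matrix (List ℕ) (Fin n) ℤ := fun x s =>
  match x with
  | [] => 0
  | x0 :: y => ∑ i : Fin (mu l), if (s : ℕ) = (x0 - 1) * mu l + i then EE a l Q' x0 y i else 0

lemma RR_cons (n : ℕ) (s : Fin n) (x0 : ℕ) (y : List ℕ) : RR a l P' n s (x0 :: y) =
    ∑ i : Fin (mu l), if (s : ℕ) = (x0 - 1) * mu l + i then DD a l P' x0 i y else 0 := rfl

lemma SS_cons (n : ℕ) (s : Fin n) (x0 : ℕ) (y : List ℕ) : SS a l Q' n (x0 :: y) s =
    ∑ i : Fin (mu l), if (s : ℕ) = (x0 - 1) * mu l + i then EE a l Q' x0 y i else 0 := rfl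

lemma sum_RR (n : ℕ) (f : ℕ → ℤ) (x0 : ℕ) (y : List ℕ) :
    ∑ s : Fin n, f s * RR a l P' n s (x0 :: y) =
      ∑ i : Fin (mu l), if (x0 - 1) * mu l + i < n then
        f ((x0 - 1) * mu l + i) * DD a l P' x0 i y else 0 := by
  simp only [RR_cons, Finset.mul_sum]
  rw [Finset.sum_comm]
  refine Finset.sum_congr rfl fun i _ => ?_
  rw [← sum_fin_ind n ((x0 - 1) * mu l + i) (fun s => f s * DD a l P' x0 i y)]
  refine Finset.sum_congr rfl fun s _ => ?_
  rw [mul_ite, mul_zero]

variable {a l P' Q'} {k : ℕ}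

lemma DD_last (y : List ℕ) (i : Fin (mu l)) : DD a l P' a i y = P' i y := by
  unfold DD
  rw [Nat.sub_self, zero_mul, pow_zero, Matrix.one_mul]

lemma EE_last (y : List ℕ) (i : Fin (mu l)) : EE a l Q' a y i = Q' y i := by
  unfold EE
  rw [Nat.sub_self, zero_mul, pow_zero, Matrix.mul_one]

/-- size of a block: all letters of a full block are inside, of the last block the first `k`. -/
lemma block_lt {n x0 i : ℕ} (hn : n = (a - 1) * mu l + k) (hx : 1 ≤ x0) (hxa : x0 < a)
    (hi : i < mu l) : (x0 - 1) * mu l + i < n := by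
  have h1 : (x0 - 1 + 1) * mu l ≤ (a - 1) * mu l := Nat.mul_le_mul_right _ (by omega)
  rw [add_mul, one_mul] at h1
  omega

lemma U_RR (hF : Fil l k a P' Q') (h0 : 0 < mu l) {n : ℕ}
    (hn : n = (a - 1) * mu l + k) {x0 : ℕ} {y : List ℕ} (hx : x0 :: y ∈ PF (a :: l))
    (p : Fin (mu l)) :
    ∑ s : Fin n, (compMat l ^ (s : ℕ)) p ⟨0, h0⟩ * RR a l P' n s (x0 :: y) =
      (compMat l ^ ((a - 1) * mu l) * P') p y := by
  rw [sum_RR a l P' n (fun s => (compMat l ^ s) p ⟨0, h0⟩)]
  obtain ⟨h1, h2, h3⟩ := mem_PF.1 hx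
  have h3' := mem_PF.2 h3
  have e1 : ∀ i : Fin (mu l), (if (x0 - 1) * mu l + (i : ℕ) < n then
      (compMat l ^ ((x0 - 1) * mu l + (i : ℕ))) p ⟨0, h0⟩ * DD a l P' x0 i y else 0) =
      (compMat l ^ ((x0 - 1) * mu l)) p i * DD a l P' x0 i y := by
    intro i
    rw [col_shift h0]
    split_ifs with hlt
    · rfl
    · rcases h2 with h2 | ⟨h2, h4⟩
      · exact absurd (block_lt hn h1 h2 i.2) hlt
      · subst h2
        rw [DD_last, hF.fP y h3' h4 i (by omega), mul_zero]
  rw [Finset.sum_congr rfl fun i _ => e1 i, ← Matrix.mul_apply]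
  unfold DD
  have e2 : x0 - 1 + (a - x0) = a - 1 := by
    rcases h2 with h2 | ⟨h2, _⟩ <;> omega
  rw [← Matrix.mul_assoc, ← pow_add, ← add_mul, e2]

lemma SS_RR (hg : Good l) (hF : Fil l k a P' Q') {n : ℕ}
    (hn : n = (a - 1) * mu l + k) {x y : List ℕ} (hx : x ∈ PF (a :: l)) (hy : y ∈ PF (a :: l)) :
    ∑ s : Fin n, SS a l Q' n x s * RR a l P' n s y = if x = y then 1 else 0 := by
  cases x with
  | nil => exact absurd (mem_PF.1 hx) (by simp [Ok])
  | cons x0 x =>
    cases y with
    | nil => exact absurd (mem_PF.1 hy) (by simp [Ok])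
    | cons y0 y =>
      obtain ⟨h1, h2, h3⟩ := mem_PF.1 hx
      obtain ⟨g1, g2, g3⟩ := mem_PF.1 hy
      have h3' := mem_PF.2 h3
      have g3' := mem_PF.2 g3
      have e1 : ∑ s : Fin n, SS a l Q' n (x0 :: x) s * RR a l P' n s (y0 :: y) =
          ∑ i : Fin (mu l), if (y0 - 1) * mu l + i < n then
            (∑ j : Fin (mu l), if (y0 - 1) * mu l + (i : ℕ) = (x0 - 1) * mu l + j then
              EE a l Q' x0 x j else 0) * DD a l P' y0 i y else 0 := by
        rw [← sum_RR a l P' n (fun s => ∑ j : Fin (mu l), if s = (x0 - 1) * mu l + (j : ℕ) then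
              EE a l Q' x0 x j else 0)]
        rfl
      rw [e1]
      by_cases hxy : x0 = y0
      · subst hxy
        have e2 : ∀ i : Fin (mu l), (∑ j : Fin (mu l),
            if (x0 - 1) * mu l + (i : ℕ) = (x0 - 1) * mu l + j then
              EE a l Q' x0 x j else 0) = EE a l Q' x0 x i := by
          intro i
          rw [Finset.sum_eq_single i]
          · rw [if_pos rfl]
          · intro j _ hj
            rw [if_neg]
            intro e
            exact hj (Fin.ext (by omega))
          · simp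
        have e3 : ∀ i : Fin (mu l), (if (x0 - 1) * mu l + (i : ℕ) < n then
            (∑ j : Fin (mu l), if (x0 - 1) * mu l + (i : ℕ) = (x0 - 1) * mu l + j then
              EE a l Q' x0 x j else 0) * DD a l P' x0 i y else 0) =
            EE a l Q' x0 x i * DD a l P' x0 i y := by
          intro i
          rw [e2]
          split_ifs with hlt
          · rfl
          · rcases g2 with g2 | ⟨g2, g4⟩
            · exact absurd (block_lt hn g1 g2 i.2) hlt
            · subst g2
              rw [DD_last, hF.fP y g3' g4 i (by omega), mul_zero]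
        rw [Finset.sum_congr rfl fun i _ => e3 i, ← Matrix.mul_apply]
        unfold EE DD
        rw [Matrix.mul_assoc, ← Matrix.mul_assoc (Cinv l ^ _), Cinv_pow_mul hg, Matrix.one_mul,
          Matrix.mul_apply, hF.QP x h3' y g3']
        simp
      · rw [if_neg (by simp [hxy])]
        apply Finset.sum_eq_zero
        intro i _
        split_ifs with hlt
        · rw [Finset.sum_eq_zero, zero_mul]
          intro j _
          rw [if_neg]
          intro e
          have := (block_inj i.2 j.2 e).1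
          omega
        · rfl

lemma RR_SS (hg : Good l) (hF : Fil l k a P' Q') {n : ℕ} (h0 : 0 < mu l) (ha : 1 ≤ a)
    (hn : n = (a - 1) * mu l + k) (hk : k ≤ mu l) (s t : Fin n) :
    ∑ x ∈ PF (a :: l), RR a l P' n s x * SS a l Q' n x t = if s = t then 1 else 0 := by
  rw [sum_PF]
  -- decomposition of `s` and `t`
  have hs := s.2
  have ht := t.2
  obtain ⟨b, hb⟩ : ∃ b, b = (s : ℕ) / mu l := ⟨_, rfl⟩
  obtain ⟨b', hb'⟩ : ∃ b, b = (t : ℕ) / mu l := ⟨_, rfl⟩
  have hsm := Nat.mod_lt (s : ℕ) h0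
  have htm := Nat.mod_lt (t : ℕ) h0
  have hse : (s : ℕ) = b * mu l + (s : ℕ) % mu l := by
    rw [hb, mul_comm]; exact (Nat.div_add_mod _ _).symm
  have hte : (t : ℕ) = b' * mu l + (t : ℕ) % mu l := by
    rw [hb', mul_comm]; exact (Nat.div_add_mod _ _).symm
  have hba : b < a := by
    by_contra hcon
    have h1 : a * mu l ≤ b * mu l := Nat.mul_le_mul_right _ (by omega)
    have h2 : a * mu l = (a - 1) * mu l + mu l := by
      rw [← Nat.succ_mul]; congr 1; omega
    omega
  have e1 : ∀ x0 y, 1 ≤ x0 → RR a l P' n s (x0 :: y) * SS a l Q' n (x0 :: y) t =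
      if x0 = b + 1 then (if b = b' then
        DD a l P' (b + 1) ⟨(s : ℕ) % mu l, hsm⟩ y * EE a l Q' (b + 1) y ⟨(t : ℕ) % mu l, htm⟩
        else 0) else 0 := by
    intro x0 y hx0
    rw [RR_cons, SS_cons]
    by_cases hx : x0 = b + 1
    · subst hx
      rw [if_pos rfl, Nat.add_sub_cancel, Finset.sum_eq_single ⟨(s : ℕ) % mu l, hsm⟩,
        if_pos hse]
      · by_cases hbb : b = b'
        · subst hbb
          rw [if_pos rfl, Finset.sum_eq_single ⟨(t : ℕ) % mu l, htm⟩, if_pos hte]
          · intro j _ hj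
            rw [if_neg]
            intro e
            apply hj
            apply Fin.ext
            have := (block_inj (m := mu l) htm j.2 (hte.symm.trans e)).2
            exact this.symm
          · simp
        · rw [if_neg hbb, Finset.sum_eq_zero, mul_zero]
          intro j _
          rw [if_neg]
          intro e
          exact hbb (block_inj (m := mu l) htm j.2 (hte.symm.trans e)).1.symm
      · intro j _ hj
        rw [if_neg]
        intro e
        apply hj
        apply Fin.ext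
        exact (block_inj (m := mu l) hsm j.2 (hse.symm.trans e)).2.symm
      · simp
    · rw [if_neg hx, Finset.sum_eq_zero, zero_mul]
      intro j _
      rw [if_neg]
      intro e
      have := (block_inj (m := mu l) hsm j.2 (hse.symm.trans e)).1
      omega
  have e2 : ∀ x0 ∈ Finset.range (a + 1), (∑ y ∈ PF l,
      if 1 ≤ x0 ∧ (x0 < a ∨ (x0 = a ∧ low a y)) then
        RR a l P' n s (x0 :: y) * SS a l Q' n (x0 :: y) t else 0) =
      if x0 = b + 1 then (∑ y ∈ PF l, if (x0 < a ∨ (x0 = a ∧ low a y)) then (if b = b' then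
        DD a l P' (b + 1) ⟨(s : ℕ) % mu l, hsm⟩ y * EE a l Q' (b + 1) y ⟨(t : ℕ) % mu l, htm⟩
        else 0) else 0) else 0 := by
    intro x0 _
    by_cases hx0 : 1 ≤ x0
    · by_cases hx : x0 = b + 1
      · rw [if_pos hx]
        refine Finset.sum_congr rfl fun y _ => ?_
        rw [e1 x0 y hx0, if_pos hx]
        simp only [hx0, true_and]
      · rw [if_neg hx]
        apply Finset.sum_eq_zero
        intro y _
        rw [e1 x0 y hx0, if_neg hx]
        simp
    · rw [if_neg (by omega)]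
      apply Finset.sum_eq_zero
      intro y _
      rw [if_neg]
      exact fun h => hx0 h.1
  rw [Finset.sum_congr rfl e2, Finset.sum_ite_eq' (Finset.range (a + 1)) (b + 1),
    if_pos (Finset.mem_range.2 (by omega))]
  by_cases hbb : b = b'
  · subst hbb
    simp only [if_true]
    have e3 : ∑ y ∈ PF l, DD a l P' (b + 1) ⟨(s : ℕ) % mu l, hsm⟩ y *
        EE a l Q' (b + 1) y ⟨(t : ℕ) % mu l, htm⟩ = if s = t then 1 else 0 := by
      unfold DD EE
      have e4 : ∀ y, (compMat l ^ ((a - (b + 1)) * mu l) * P') ⟨(s : ℕ) % mu l, hsm⟩ y *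
          (Q' * Cinv l ^ ((a - (b + 1)) * mu l)) y ⟨(t : ℕ) % mu l, htm⟩ =
          ∑ p, ∑ q, (compMat l ^ ((a - (b + 1)) * mu l)) ⟨(s : ℕ) % mu l, hsm⟩ p *
            (P' p y * Q' y q) * (Cinv l ^ ((a - (b + 1)) * mu l)) q ⟨(t : ℕ) % mu l, htm⟩ := by
        intro y
        rw [Matrix.mul_apply, Matrix.mul_apply, Finset.sum_mul]
        refine Finset.sum_congr rfl fun p _ => ?_
        rw [Finset.mul_sum]
        refine Finset.sum_congr rfl fun q _ => ?_
        ring
      rw [Finset.sum_congr rfl fun y _ => e4 y, Finset.sum_comm]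
      have e5 : ∀ p : Fin (mu l), ∑ y ∈ PF l, ∑ q,
          (compMat l ^ ((a - (b + 1)) * mu l)) ⟨(s : ℕ) % mu l, hsm⟩ p *
            (P' p y * Q' y q) * (Cinv l ^ ((a - (b + 1)) * mu l)) q ⟨(t : ℕ) % mu l, htm⟩ =
          (compMat l ^ ((a - (b + 1)) * mu l)) ⟨(s : ℕ) % mu l, hsm⟩ p *
            (Cinv l ^ ((a - (b + 1)) * mu l)) p ⟨(t : ℕ) % mu l, htm⟩ := by
        intro p
        rw [Finset.sum_comm]
        have e6 : ∀ q : Fin (mu l), ∑ y ∈ PF l,
            (compMat l ^ ((a - (b + 1)) * mu l)) ⟨(s : ℕ) % mu l, hsm⟩ p *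
            (P' p y * Q' y q) * (Cinv l ^ ((a - (b + 1)) * mu l)) q ⟨(t : ℕ) % mu l, htm⟩ =
            if p = q then (compMat l ^ ((a - (b + 1)) * mu l)) ⟨(s : ℕ) % mu l, hsm⟩ p *
            (Cinv l ^ ((a - (b + 1)) * mu l)) q ⟨(t : ℕ) % mu l, htm⟩ else 0 := by
          intro q
          rw [← Finset.sum_mul, ← Finset.mul_sum, hF.PQ p q]
          split_ifs <;> ring
        rw [Finset.sum_congr rfl fun q _ => e6 q, Finset.sum_ite_eq, if_pos (Finset.mem_univ _)]
      rw [Finset.sum_congr rfl fun p _ => e5 p, ← Matrix.mul_apply, pow_mul_Cinv hg,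
        Matrix.one_apply]
      have e7 : ((⟨(s : ℕ) % mu l, hsm⟩ : Fin (mu l)) = ⟨(t : ℕ) % mu l, htm⟩) ↔ s = t := by
        rw [Fin.mk.injEq]
        constructor
        · intro h
          apply Fin.ext
          rw [hse, hte, h]
        · rintro rfl; rfl
      simp only [e7]
    rw [← e3]
    refine Finset.sum_congr rfl fun y hy => ?_
    split_ifs with hcond
    · rfl
    · -- last block, `y` not low: the `EE` factor vanishes
      have hb1 : b + 1 = a := by
        by_contra hne
        exact hcond (Or.inl (by omega))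
      have hlow : ¬ low a y := fun h => hcond (Or.inr ⟨hb1, h⟩)
      rw [hb1, EE_last, hF.fQ y hy hlow, mul_zero]
      show (t : ℕ) % mu l < k
      have h1 : a - 1 = b := by omega
      rw [h1] at hn
      omega
  · have hst : s ≠ t := by
      rintro rfl
      exact hbb (hb.trans hb'.symm)
    rw [if_neg hst]
    apply Finset.sum_eq_zero
    intro y _
    rw [if_neg hbb]
    simp

/-- Gram matrix of the new basis. -/
lemma RR_gram (hg : Good l) (hF : Fil l k a P' Q') {n : ℕ} (h0 : 0 < mu l)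
    (hn : n = (a - 1) * mu l + k) {x y : List ℕ} (hx : x ∈ PF (a :: l)) (hy : y ∈ PF (a :: l)) :
    ((RR a l P' n)ᵀ * W l h0 n * RR a l P' n) x y = zt x y := by
  cases x with
  | nil => exact absurd (mem_PF.1 hx) (by simp [Ok])
  | cons x0 x =>
    cases y with
    | nil => exact absurd (mem_PF.1 hy) (by simp [Ok])
    | cons y0 y =>
      obtain ⟨h1, h2, h3⟩ := mem_PF.1 hx
      obtain ⟨g1, g2, g3⟩ := mem_PF.1 hy
      have h3' := mem_PF.2 h3
      have g3' := mem_PF.2 g3
      -- termwise replacement of `W`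
      have hterm : ∀ s t : Fin n, RR a l P' n s (x0 :: x) * W l h0 n s t *
          RR a l P' n t (y0 :: y) = RR a l P' n s (x0 :: x) *
            (if x0 ≤ y0 then gr l h0 s t else 0) * RR a l P' n t (y0 :: y) := by
        intro s t
        rw [RR_cons, RR_cons, Finset.sum_mul, Finset.sum_mul, Finset.sum_mul, Finset.sum_mul]
        refine Finset.sum_congr rfl fun i _ => ?_
        rw [Finset.mul_sum, Finset.mul_sum]
        refine Finset.sum_congr rfl fun j _ => ?_
        by_cases hs : (s : ℕ) = (x0 - 1) * mu l + i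
        · by_cases ht : (t : ℕ) = (y0 - 1) * mu l + j
          · rw [if_pos hs, if_pos ht]
            congr 2
            unfold W
            have hi := i.2
            have hj := j.2
            rcases lt_trichotomy x0 y0 with h | h | h
            · have h4 : (x0 - 1 + 1) * mu l ≤ (y0 - 1) * mu l :=
                Nat.mul_le_mul_right _ (by omega)
              rw [add_mul, one_mul] at h4
              rw [if_pos h.le, if_pos]
              rw [Fin.le_def]; omega
            · subst h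
              rw [if_pos le_rfl]
              split_ifs with hle
              · rfl
              · rw [Fin.le_def] at hle
                exact (gr_zero hg h0 (by omega) (by omega)).symm
            · have h4 : (y0 - 1 + 1) * mu l ≤ (x0 - 1) * mu l :=
                Nat.mul_le_mul_right _ (by omega)
              rw [add_mul, one_mul] at h4
              rw [if_neg (not_le.2 h), if_neg]
              rw [Fin.le_def]; omega
          · rw [if_neg ht, mul_zero, mul_zero]
        · rw [if_neg hs, zero_mul, zero_mul, zero_mul, zero_mul]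
      have e1 : ((RR a l P' n)ᵀ * W l h0 n * RR a l P' n) (x0 :: x) (y0 :: y) =
          ∑ t, ∑ s, RR a l P' n s (x0 :: x) * W l h0 n s t * RR a l P' n t (y0 :: y) := by
        rw [Matrix.mul_apply]
        refine Finset.sum_congr rfl fun t _ => ?_
        rw [Matrix.mul_apply, Finset.sum_mul]
        rfl
      rw [e1, Finset.sum_congr rfl fun t _ => Finset.sum_congr rfl fun s _ => hterm s t]
      rw [zt]
      by_cases hle : x0 ≤ y0
      · simp only [if_pos hle]
        -- `gr` factors through the lattice of `l`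
        set U : Matrix (Fin (mu l)) (Fin n) ℤ := fun p s => (compMat l ^ (s : ℕ)) p ⟨0, h0⟩
          with hU
        have hgr : ∀ s t : Fin n, gr l h0 s t = (Uᵀ * chainMat l * U) s t := by
          intro s t
          unfold gr
          rw [Matrix.mul_apply, Matrix.mul_apply]
          refine Finset.sum_congr rfl fun q _ => ?_
          rw [Matrix.mul_apply, Matrix.mul_apply]
          rfl
        have hUR : ∀ (z0 : ℕ) (z : List ℕ), z0 :: z ∈ PF (a :: l) → ∀ p,
            (U * RR a l P' n) p (z0 :: z) = (compMat l ^ ((a - 1) * mu l) * P') p z := by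
          intro z0 z hz p
          rw [Matrix.mul_apply]
          exact U_RR hF h0 hn hz p
        have e2 : ∑ t : Fin n, ∑ s : Fin n,
            RR a l P' n s (x0 :: x) * gr l h0 s t * RR a l P' n t (y0 :: y) =
            ((U * RR a l P' n)ᵀ * chainMat l * (U * RR a l P' n)) (x0 :: x) (y0 :: y) := by
          rw [Matrix.transpose_mul]
          have e3 : (RR a l P' n)ᵀ * Uᵀ * chainMat l * (U * RR a l P' n) =
              (RR a l P' n)ᵀ * (Uᵀ * chainMat l * U) * RR a l P' n := by
            simp only [Matrix.mul_assoc]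
          rw [e3, Matrix.mul_apply]
          refine Finset.sum_congr rfl fun t _ => ?_
          rw [Matrix.mul_apply, Finset.sum_mul]
          refine Finset.sum_congr rfl fun s _ => ?_
          rw [hgr]; rfl
        rw [e2, Matrix.mul_apply]
        have e4 : ∑ q, ((U * RR a l P' n)ᵀ * chainMat l) (x0 :: x) q *
            (U * RR a l P' n) q (y0 :: y) =
            ((compMat l ^ ((a - 1) * mu l) * P')ᵀ * chainMat l *
              (compMat l ^ ((a - 1) * mu l) * P')) x y := by
          rw [Matrix.mul_apply]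
          refine Finset.sum_congr rfl fun q _ => ?_
          rw [hUR y0 y hy, Matrix.mul_apply, Matrix.mul_apply]
          congr 1
          refine Finset.sum_congr rfl fun p _ => ?_
          show (U * RR a l P' n) p (x0 :: x) * chainMat l p q =
            (compMat l ^ ((a - 1) * mu l) * P') p x * chainMat l p q
          rw [hUR x0 x hx]
        rw [e4, Matrix.transpose_mul]
        have e5 : P'ᵀ * (compMat l ^ ((a - 1) * mu l))ᵀ * chainMat l *
            (compMat l ^ ((a - 1) * mu l) * P') = P'ᵀ * chainMat l * P' := by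
          calc P'ᵀ * (compMat l ^ ((a - 1) * mu l))ᵀ * chainMat l *
              (compMat l ^ ((a - 1) * mu l) * P')
              = P'ᵀ * ((compMat l ^ ((a - 1) * mu l))ᵀ * chainMat l *
                compMat l ^ ((a - 1) * mu l)) * P' := by simp only [Matrix.mul_assoc]
            _ = _ := by rw [inv_pow hg]
        rw [e5, hF.gram x h3' y g3']
      · simp [hle]

end Step

end Crest.Agent.R267.P413_322
end

-- ▼ part R267/P413c_322
section

/-!
# S0407, node P4.13, part 3 (helper322): the theorem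

`p413_chain : Pierce c → Cong ℤ (chainMat c) (posMat c)`,
`p413 : (∀ c ∈ S, Pierce c) → Cong ℤ (sysMat S) (posSys S)`,
`pierce_chainOf : 2 * a < b → Pierce (chainOf a b)`, `pierce_F`.
-/

set_option autoImplicit false

namespace Crest.Agent.R267.P413_322

open Polynomial Matrix Crest.Agent.R267.P4Defs_780 Crest.Agent.R267.P41_339
  Crest.Agent.R267.P413Def_322

lemma sandwich {n : ℕ} {F : Finset (List ℕ)} {R : Matrix (Fin n) (List ℕ) ℤ}
    {S : Matrix (List ℕ) (Fin n) ℤ}
    (h : ∀ p q, ∑ x ∈ F, R p x * S x q = if p = q then 1 else 0)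
    (A B : Matrix (Fin n) (Fin n) ℤ) (i j : Fin n) :
    ∑ x ∈ F, (A * R) i x * (S * B) x j = (A * B) i j := by
  have e4 : ∀ x, (A * R) i x * (S * B) x j = ∑ p, ∑ q, A i p * (R p x * S x q) * B q j := by
    intro x
    rw [Matrix.mul_apply, Matrix.mul_apply, Finset.sum_mul]
    refine Finset.sum_congr rfl fun p _ => ?_
    rw [Finset.mul_sum]
    refine Finset.sum_congr rfl fun q _ => ?_
    ring
  rw [Finset.sum_congr rfl fun x _ => e4 x, Finset.sum_comm, Matrix.mul_apply]
  refine Finset.sum_congr rfl fun p _ => ?_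
  rw [Finset.sum_comm]
  have e6 : ∀ q : Fin n, ∑ x ∈ F, A i p * (R p x * S x q) * B q j =
      if p = q then A i p * B q j else 0 := by
    intro q
    rw [← Finset.sum_mul, ← Finset.mul_sum, h p q]
    split_ifs <;> ring
  rw [Finset.sum_congr rfl fun q _ => e6 q, Finset.sum_ite_eq, if_pos (Finset.mem_univ _)]

theorem step {a : ℕ} {l : List ℕ} {k : ℕ} {P' : Matrix (Fin (mu l)) (List ℕ) ℤ}
    {Q' : Matrix (List ℕ) (Fin (mu l)) ℤ} (hg : Good (a :: l)) (h0 : 0 < mu l)
    (hF : Fil l k a P' Q') (hn : mu (a :: l) = (a - 1) * mu l + k) (hk : k ≤ mu l) (j : ℕ)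
    (hj : j < a) : ∃ P Q, Fil (a :: l) (j * mu l) j P Q := by
  have hgl := hg.tail
  have ha := hg.head
  have hjm : j * mu l ≤ (a - 1) * mu l := Nat.mul_le_mul_right _ (by omega)
  obtain ⟨q, hq⟩ : ∃ q, q = mu (a :: l) - j * mu l := ⟨_, rfl⟩
  have hqp : q ≤ (a :: l).prod := by
    have := mu_le_prod (a :: l)
    omega
  set n := mu (a :: l) with hnn
  set K : Matrix (Fin n) (Fin n) ℤ := compMat (a :: l) ^ ((a :: l).prod - q) with hK
  set Ki : Matrix (Fin n) (Fin n) ℤ := compMat (a :: l) ^ q with hKi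
  have hKKi : K * Ki = 1 := by
    rw [hK, hKi, ← pow_add, Nat.sub_add_cancel hqp, comp_pow_prod hg]
  have hKiK : Ki * K = 1 := mul_eq_one_comm.1 hKKi
  have hGH := G_mul_H a hgl h0
  have hHG := H_mul_G a hgl h0
  have hRS := RR_SS hgl hF h0 ha hn hk
  refine ⟨(K * G l h0 n) * RR a l P' n, SS a l Q' n * (H a l * Ki), ?_, ?_, ?_, ?_, ?_⟩
  · intro i i'
    rw [sandwich hRS]
    have e1 : K * G l h0 n * (H a l * Ki) = 1 := by
      calc K * G l h0 n * (H a l * Ki) = K * (G l h0 n * H a l) * Ki := by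
            simp only [Matrix.mul_assoc]
        _ = 1 := by rw [hGH, Matrix.mul_one, hKKi]
    rw [e1, Matrix.one_apply]
  · intro x hx y hy
    rw [← Matrix.mul_apply]
    have e1 : SS a l Q' n * (H a l * Ki) * (K * G l h0 n * RR a l P' n) =
        SS a l Q' n * RR a l P' n := by
      calc SS a l Q' n * (H a l * Ki) * (K * G l h0 n * RR a l P' n)
          = SS a l Q' n * (H a l * (Ki * K) * G l h0 n) * RR a l P' n := by
            simp only [Matrix.mul_assoc]
        _ = _ := by rw [hKiK, Matrix.mul_one, hHG, Matrix.mul_one]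
    rw [e1, Matrix.mul_apply]
    exact SS_RR hgl hF hn hx hy
  · intro x hx y hy
    have e1 : (K * G l h0 n * RR a l P' n)ᵀ * chainMat (a :: l) * (K * G l h0 n * RR a l P' n) =
        (RR a l P' n)ᵀ * W l h0 n * RR a l P' n := by
      rw [Matrix.transpose_mul, Matrix.transpose_mul]
      calc (RR a l P' n)ᵀ * ((G l h0 n)ᵀ * Kᵀ) * chainMat (a :: l) *
            (K * G l h0 n * RR a l P' n)
          = (RR a l P' n)ᵀ * ((G l h0 n)ᵀ * (Kᵀ * chainMat (a :: l) * K) * G l h0 n) *
            RR a l P' n := by simp only [Matrix.mul_assoc]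
        _ = _ := by rw [hK, inv_pow hg, G_gram a hgl h0]
    rw [e1]
    exact RR_gram hgl hF h0 hn hx hy
  · intro x hx hlow i hi
    cases x with
    | nil => exact absurd hlow (by simp [low])
    | cons x0 x =>
      have hx0 : x0 ≤ j := hlow
      obtain ⟨h1, -, -⟩ := mem_PF.1 hx
      rw [Matrix.mul_assoc, Matrix.mul_apply]
      apply Finset.sum_eq_zero
      intro p _
      have hx0m : (x0 - 1 + 1) * mu l ≤ j * mu l := Nat.mul_le_mul_right _ (by omega)
      rw [add_mul, one_mul] at hx0m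
      rcases Nat.lt_or_ge (p : ℕ) q with hp | hp
      · have e1 : (G l h0 n * RR a l P' n) p (x0 :: x) = 0 := by
          rw [Matrix.mul_apply]
          apply Finset.sum_eq_zero
          intro s _
          rw [RR_cons, Finset.mul_sum]
          apply Finset.sum_eq_zero
          intro i' _
          split_ifs with hs
          · have e2 : G l h0 n p s = 0 := by
              unfold G W
              rw [if_neg]
              rw [Fin.le_def, Fin.val_rev]
              have := i'.2
              omega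
            rw [e2, zero_mul]
          · rw [mul_zero]
        rw [e1, mul_zero]
      · have hn0 : 0 < mu (a :: l) := lt_of_le_of_lt (Nat.zero_le _) p.2
        have e1 : K i p = 0 := by
          have hp2 := p.2
          have e2 : (a :: l).prod - q + (p : ℕ) = (a :: l).prod + (p - q) := by omega
          have e3 : (p : ℕ) - q < mu (a :: l) := by omega
          rw [hK, ← col_shift hn0, e2, pow_add, comp_pow_prod hg, Matrix.one_mul]
          have e4 := col_zero hn0 (⟨p - q, e3⟩ : Fin (mu (a :: l))) i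
          simp only at e4
          rw [e4, if_neg]
          intro e5
          have e6 : (i : ℕ) = p - q := by rw [e5]
          omega
        rw [e1, zero_mul]
  · intro x hx hlow i hi
    cases x with
    | nil => exact absurd (mem_PF.1 hx) (by simp [Ok])
    | cons x0 x =>
      have hx0 : ¬ x0 ≤ j := hlow
      rw [Matrix.mul_apply]
      apply Finset.sum_eq_zero
      intro p _
      have hx0m : j * mu l ≤ (x0 - 1) * mu l := Nat.mul_le_mul_right _ (by omega)
      have hn0 : 0 < mu (a :: l) := lt_of_le_of_lt (Nat.zero_le _) p.2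
      have hin := i.2
      have hqi : q + (i : ℕ) < mu (a :: l) := by omega
      have e1 : (H a l * Ki) p i = H a l p ⟨q + i, hqi⟩ := by
        rw [Matrix.mul_apply, Finset.sum_eq_single (⟨q + i, hqi⟩ : Fin (mu (a :: l)))]
        · have e2 : Ki ⟨q + i, hqi⟩ i = 1 := by
            rw [hKi, ← col_shift hn0]
            have e4 := col_zero hn0 (⟨q + i, hqi⟩ : Fin (mu (a :: l))) ⟨q + i, hqi⟩
            rw [if_pos rfl] at e4
            exact e4
          rw [e2, mul_one]
        · intro t _ ht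
          have e2 : Ki t i = 0 := by
            rw [hKi, ← col_shift hn0]
            have e4 := col_zero hn0 (⟨q + i, hqi⟩ : Fin (mu (a :: l))) t
            simp only at e4
            rw [e4, if_neg ht]
          rw [e2, mul_zero]
        · simp
      rw [e1, SS_cons, Finset.sum_mul]
      apply Finset.sum_eq_zero
      intro i' _
      split_ifs with hs
      · have e2 : H a l p ⟨q + i, hqi⟩ = 0 := by
          unfold H
          apply chain_lower
          rw [Fin.lt_def, Fin.val_rev]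
          have := p.2
          show mu (a :: l) - ((p : ℕ) + 1) < q + i
          omega
        rw [e2, mul_zero]
      · rw [zero_mul]

/-- the filtered isometry for every strictly increasing chain. -/
theorem main : ∀ (l : List ℕ) (a : ℕ), Pierce (a :: l) → ∀ j < a,
    ∃ P Q, Fil (a :: l) (j * mu l) j P Q
  | [], a, h, j, hj => by
      have hg : Good [a] := Good.of_two h.1
      refine step hg (by simp [mu]) (fil_nil a) ?_ (Nat.zero_le _) j hj
      simp [mu]
  | b :: l, a, h, j, hj => by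
      have hg : Good (a :: b :: l) := Good.of_two h.1
      have hab : a < b := h.lt
      obtain ⟨P', Q', hF⟩ := main l b h.tail a hab
      have h1 := mu_add_mu (a := b) (l := l) hg.tail.head
      have h2 := mu_add_mu (a := a) (l := b :: l) hg.head
      have h3 := mu_le_prod l
      rw [List.prod_cons] at h2
      have h0 : 0 < mu (b :: l) := mu_pos h.tail.1
      have ha := hg.head
      refine step hg h0 hF ?_ ?_ j hj
      · have h4 : a * (b * l.prod) = a * mu (b :: l) + a * mu l := by rw [← h1, mul_add]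
        have h5 : (a - 1) * mu (b :: l) + mu (b :: l) = a * mu (b :: l) := by
          rw [← Nat.succ_mul]; congr 1; omega
        omega
      · have h4 : (a + 1) * mu l ≤ b * l.prod := Nat.mul_le_mul hab h3
        rw [add_mul, one_mul] at h4
        omega

/-- **P4.13 for a chain**: the Toeplitz form and the poset form are congruent. -/
theorem p413_chain {c : List ℕ} (h : Pierce c) : Cong ℤ (chainMat c) (posMat c) := by
  obtain ⟨k, j, P, Q, hF⟩ : ∃ k j P Q, Fil c k j P Q := by
    cases c with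
    | nil => exact ⟨_, _, _, _, fil_nil 0⟩
    | cons a l =>
        have ha : 0 < a := by have := h.1 a List.mem_cons_self; omega
        obtain ⟨P, Q, hF⟩ := main l a h 0 ha
        exact ⟨_, _, _, _, hF⟩
  refine ⟨P.submatrix id Subtype.val, Q.submatrix Subtype.val id, ?_, ?_, ?_⟩
  · ext i i'
    rw [Matrix.mul_apply, Matrix.one_apply, ← hF.PQ i i']
    exact Finset.sum_coe_sort (PF c) (fun x => P i x * Q x i')
  · ext x y
    rw [Matrix.mul_apply, Matrix.one_apply]
    simp only [Matrix.submatrix_apply, id]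
    rw [hF.QP x.1 x.2 y.1 y.2]
    simp only [Subtype.ext_iff]
  · ext x y
    have := hF.gram x.1 x.2 y.1 y.2
    unfold posMat
    rw [← this]
    simp only [Matrix.mul_apply, Matrix.transpose_apply, Matrix.submatrix_apply, id]

/-- Kronecker products of congruent matrices are congruent. -/
theorem cong_kron {ι κ ι' κ' : Type} [Fintype ι] [Fintype κ] [Fintype ι'] [Fintype κ']
    [DecidableEq ι] [DecidableEq κ] [DecidableEq ι'] [DecidableEq κ'] {R : Type} [CommRing R]
    {A : Matrix ι ι R} {B : Matrix κ κ R} {A' : Matrix ι' ι' R} {B' : Matrix κ' κ' R}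
    (h : Cong R A B) (h' : Cong R A' B') :
    Cong R (Matrix.kroneckerMap (· * ·) A A') (Matrix.kroneckerMap (· * ·) B B') := by
  obtain ⟨P, Q, h1, h2, h3⟩ := h
  obtain ⟨P', Q', h1', h2', h3'⟩ := h'
  refine ⟨Matrix.kroneckerMap (· * ·) P P', Matrix.kroneckerMap (· * ·) Q Q', ?_, ?_, ?_⟩
  · rw [← Matrix.mul_kronecker_mul, h1, h1']
    exact Matrix.one_kronecker_one
  · rw [← Matrix.mul_kronecker_mul, h2, h2']
    exact Matrix.one_kronecker_one
  · rw [← Matrix.kroneckerMap_transpose, ← Matrix.mul_kronecker_mul, ← Matrix.mul_kronecker_mul,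
      h3, h3']

/-- **P4.13**: the Seifert matrix of a system of strictly increasing chains is congruent to the
poset matrix of its page. -/
theorem p413 : ∀ {S : List (List ℕ)}, (∀ c ∈ S, Pierce c) → Cong ℤ (sysMat S) (posSys S)
  | [], _ => by
      have h : Cong ℤ (1 : Matrix Unit Unit ℤ) (1 : Matrix Unit Unit ℤ) :=
        ⟨1, 1, by simp, by simp, by simp⟩
      exact h
  | c :: S, h => cong_kron (p413_chain (h c List.mem_cons_self))
      (p413 (S := S) fun d hd => h d (List.mem_cons_of_mem _ hd))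

/-! ### the chains of the family `F` -/








end Crest.Agent.R267.P413_322
end

-- ▼ part R267/T3Asm_322
section

/-!
# Row 267 (helper322): assembly of `T3Prop` (T3) from T3b (one chain at a time) and T3a

* `BlockProp L`: T3b, for every chain of S0407 the polynomial is stably link equivalent to the
  lobed function `L c` and `L c` is tame;
* `EndProp n L`: T3a, for every system in `n + 3` variables the link of the sum of the lobed
  functions is the link of a graph system whose matrix is the transposed poset matrix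
  (`1` iff `l ≤ k`) for some enumeration of the letters;
* `t3prop`: `BlockProp L → EndProp n L → T3Prop n`;
* `stmt_of'`: S0407 from `BlockProp`, `EndProp` and `ClassGProp`.
-/

set_option autoImplicit false

namespace Crest.Agent.R267.T3Asm_322

open Set Matrix
open Crest.Agent.R267.P4Defs_780 Crest.Agent.R267.ChainPoly_145
open Crest.Agent.R267.Cone_808 Crest.Agent.R267.Sys_808
open Crest.Agent.R267.Asm_808 Crest.Agent.R267.GS_808 Crest.Agent.R267.DraftB_808
open Crest.Agent.R267.TopAsm_808 Crest.Agent.R267.Hm_951 Crest.Agent.R267.P413Def_322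



/-- reindexing is a congruence. -/
theorem cong_submatrix {ι κ : Type} [Fintype ι] [Fintype κ] [DecidableEq ι] [DecidableEq κ]
    (A : Matrix ι ι ℤ) (e : κ ≃ ι) : Cong ℤ A (A.submatrix e e) := by
  refine ⟨(1 : Matrix ι ι ℤ).submatrix id e, (1 : Matrix ι ι ℤ).submatrix e id, ?_, ?_, ?_⟩
  · rw [Matrix.submatrix_mul_equiv, Matrix.mul_one, Matrix.submatrix_id_id]
  · rw [← Matrix.submatrix_mul _ _ _ _ _ Function.bijective_id, Matrix.mul_one,
      Matrix.submatrix_one_equiv]
  · rw [Matrix.transpose_submatrix, Matrix.transpose_one]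
    ext i j
    simp [Matrix.mul_apply, Matrix.one_apply]



end Crest.Agent.R267.T3Asm_322
end

-- ▼ part R267/GlueDefs_322

/-!
# Row 267 (helper322): GLUE between T3b (407's lobe states) and T3a (957's function `G`)

* `F8 K cB ga M C`: the lobed function of degree `8` without total gauge:
  `∑ pg⁷ pl - cB ga ∑ H8`, `H8` = harmonic coupling `ρρ'/(ρ+ρ')·win·win`, `ρ = pg⁷ s⁺`.
* GL1 (one chain at a time, `SEq`): 407's state ~ `FS` (`pg⁸ pl/|pl|`, couplings
  `c pg⁴ λ · pg⁴ β`) ~ `F8`.
* GL2 (whole system, `ZEq`): `F8 = NN⁷ Gx (x⁷)` ~ `Gx 1` ~ `Gx (χ_d + η x⁷)` ~ `Gx χ_d = G`.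
* `SysLD`: the `LD` of a system of chains; final assembly.
-/

set_option autoImplicit false

noncomputable section

open Finset Set
open Crest.Agent.R267.T3aDefs_957 Crest.Agent.R267.Hm_951 Crest.Agent.R267.Ang_739
open Crest.Agent.R267.Sys_808 Crest.Agent.R267.P413Def_322 Crest.Agent.R267.GS_808
open Crest.Agent.R267.Cone_808 Crest.Agent.R267.DraftB_808 Crest.Agent.R267.TopAsm_808

namespace Crest.Agent.R267.GlueDefs_322

/-! ### the function of degree 8 -/

/-- `pg⁷ s⁺` -/
def rho (K : ℝ) (z : ℂ) : ℝ := pg K z ^ 7 * max 0 z.re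

/-- planar term of degree `8` -/
def P8 (K ga : ℝ) (M : ℕ) (z : ℂ) : ℂ := ((pg K z ^ 7 : ℝ) : ℂ) * pl ga M z

/-- harmonic coupling of degree `8`: deletes the last lobe of `y` (`M'` strand lobes) over the
lobes `l ≥ m` of `x` (`M` strand lobes) -/
def H8 (K : ℝ) (m M M' : ℕ) (x y : ℂ) : ℝ :=
  rho K x * rho K y / (rho K x + rho K y) *
    (win m M (x.im / x.re) * win (M' - 1) M' (y.im / y.re))

/-- **the lobed function of degree 8** -/
def F8 {ι : Type} [Fintype ι] (K cB ga : ℝ) (M : ι → ℕ) (C : Finset (ι × ι × ℕ)) (z : ι → ℂ) : ℂ :=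
  ∑ j, P8 K ga (M j) (z j) -
    ((cB * ga * ∑ e ∈ C, H8 K e.2.2 (M e.1) (M e.2.1) (z e.1) (z e.2.1) : ℝ) : ℂ)

/-! ### GL2: the whole system -/

section GL2

variable {N : ℕ} (D : LD N)

/-- `X(x_j) s_j⁺` -/
def Rx (X : ℝ → ℝ) (z : Fin N → ℂ) (j : Fin N) : ℝ := X (D.xr z j) * max 0 (z j).re

/-- coupling with profile `X` -/
def Bx (X : ℝ → ℝ) (e : Fin N × Fin N × ℕ) (z : Fin N → ℂ) : ℝ :=
  Rx D X z e.1 * Rx D X z e.2.1 / (Rx D X z e.1 + Rx D X z e.2.1) *
    (win e.2.2 (D.M e.1) ((z e.1).im / (z e.1).re) *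
      win (D.M e.2.1 - 1) (D.M e.2.1) ((z e.2.1).im / (z e.2.1).re))

/-- **`G` with the profile `X` instead of `chi d`** -/
def Gx (X : ℝ → ℝ) (cB ga : ℝ) (z : Fin N → ℂ) : ℂ :=
  ∑ j, (X (D.xr z j) : ℂ) * pl ga (D.M j) (z j) -
    ((cB * ga * ∑ e ∈ D.C, Bx D X e z : ℝ) : ℂ)


/-- profiles without dead zone -/
structure Prf (X : ℝ → ℝ) : Prop where
  cont : Continuous X
  pos : ∀ x, 0 < x → 0 < X x
  mono : MonotoneOn X (Set.Ici 0)

/-- the profiles `chi d + η x⁷` -/
def Xe (d η x : ℝ) : ℝ := chi d x + η * x ^ 7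

/-- **GLUE-HOMEO**: `Gx X = Gx 1 ∘ Ψ`, `Ψ z j = X (x_j) z_j`. -/
def HomeoP : Prop := ∀ X : ℝ → ℝ, Prf X → ∀ cB ga : ℝ, ZEq (Gx D X cB ga) (Gx D (fun _ => 1) cB ga)

/-- **GLUE-C2** -/
def C2P : Prop := ∀ cB ga d η : ℝ, 0 < d → 0 < η → ContDiffOn ℝ 2 (Gx D (Xe d η) cB ga) {0}ᶜ

/-- **GLUE-CONT** -/
def ContP : Prop := ∀ cB ga d : ℝ, 0 < d → ContDiffOn ℝ 2 (D.G cB ga d) {0}ᶜ →
  ContinuousOn (fun p : ℝ × (Fin N → ℂ) => Gx D (Xe d p.1) cB ga p.2) (Set.Ici 0 ×ˢ {0}ᶜ) ∧
  ContinuousOn (fun p : ℝ × (Fin N → ℂ) => fderiv ℝ (Gx D (Xe d p.1) cB ga) p.2)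
    (Set.Ici 0 ×ˢ {0}ᶜ)

/-- **GL2** -/
def GL2P : Prop := LD.Ev fun cB ga d => ZEq (F8 D.K cB ga D.M D.C) (D.G cB ga d)

end GL2

/-- **GLUE-OPEN**: stability of the link under `C¹`-small perturbations. -/
def OpenP : Prop := ∀ (N : ℕ) (F : ℝ → (Fin N → ℂ) → ℂ),
  (∀ η, 0 ≤ η → ∀ r : ℝ, 0 < r → ∀ z, F η (r • z) = r • F η z) →
  (∀ η, 0 ≤ η → ContDiffOn ℝ 2 (F η) {0}ᶜ) →
  ContinuousOn (fun p : ℝ × (Fin N → ℂ) => F p.1 p.2) (Set.Ici 0 ×ˢ {0}ᶜ) →
  ContinuousOn (fun p : ℝ × (Fin N → ℂ) => fderiv ℝ (F p.1) p.2) (Set.Ici 0 ×ˢ {0}ᶜ) →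
  (∀ z, z ≠ 0 → F 0 z = 0 → Function.Surjective (fderiv ℝ (F 0) z)) →
  ∃ η, 0 < η ∧ ZEq (F 0) (F η)

/-! ### GL1: one chain, head first (order of `LobeDefs_407`) -/

section GL1

variable {n : ℕ}

/-- number of strand lobes -/
def Mh (a : Fin (n + 1) → ℕ) (i : Fin (n + 1)) : ℕ := if i = 0 then a i - 1 else a i

/-- couplings -/
def Ch (a : Fin (n + 1) → ℕ) : Finset (Fin (n + 1) × Fin (n + 1) × ℕ) :=
  univ.image fun e : Fin n => (e.castSucc, e.succ, a e.succ)

/-- a cut-off on the circle of `pl ga M` (`1` on the lobes `m ≤ l < M`), free where `Re pl < 0` -/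
structure CutL (ga : ℝ) (m M : ℕ) (l : ℂ → ℝ) : Prop where
  smooth : ContDiffOn ℝ 2 l {0}ᶜ
  hom : ∀ r : ℝ, 0 < r → ∀ z, l ((r : ℂ) * z) = l z
  nn : ∀ z, 0 ≤ l z
  le : ∀ z, l z ≤ 1
  flat : ∀ z, z ≠ 0 → 0 ≤ (pl ga M z).re → fderiv ℝ l z = 0
  val : ∀ z, z ≠ 0 → 0 ≤ (pl ga M z).re → l z = if 0 < z.re then win m M (z.im / z.re) else 0

/-- the planar term `pg⁸ pl / |pl|` -/
def PS (K ga : ℝ) (M : ℕ) (z : ℂ) : ℂ := ((pg K z ^ 8 / ‖pl ga M z‖ : ℝ) : ℂ) * pl ga M z

/-- the function between 407's state and `F8` -/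
def FS (K ga c : ℝ) (a : Fin (n + 1) → ℕ) (lam bet : Fin n → ℂ → ℝ) (z : Fin (n + 1) → ℂ) : ℂ :=
  ∑ i, PS K ga (Mh a i) (z i) -
    ((c * ∑ e : Fin n, (pg K (z e.castSucc) ^ 4 * lam e (z e.castSucc)) *
      (pg K (z e.succ) ^ 4 * bet e (z e.succ)) : ℝ) : ℂ)

/-- **LIFT**: the phase of `pl`: plate at `2π` (and `2π(M+2)`), strand lobe `l` at `2π(l+2)`. -/
def LiftP (ga : ℝ) (M : ℕ) : Prop := ∃ φ : ℝ → ℝ, LobeDefs_407.Pha (M + 1) φ ∧
  (∀ x, pl ga M (cis x) = (‖pl ga M (cis x)‖ : ℂ) * cis (φ x)) ∧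
  (∀ x, Real.pi / 2 ≤ x → x ≤ 3 * Real.pi / 2 → |φ x - 2 * Real.pi * (M + 2)| ≤ Real.pi / 2) ∧
  ∀ x, -(Real.pi / 2) < x → x < Real.pi / 2 → 0 ≤ (pl ga M (cis x)).re →
    ∃ l < M, |Real.tan x - sg l| ≤ 3 / 2 ∧ |φ x - 2 * Real.pi * (l + 2)| ≤ Real.pi / 2

/-- **STAR**: T3b gives `FS` with suitable cut-offs. -/
def StarP : Prop := ∀ (n : ℕ) (a : Fin (n + 1) → ℕ), LobeDefs_407.Exps a → ∀ K ga : ℝ, 1 ≤ K →
  0 < ga → ga ≤ 1 / 8 →
  ∃ (c : ℝ) (lam bet : Fin n → ℂ → ℝ), 2 < c ∧
    (∀ e : Fin n, CutL ga (a e.succ) (Mh a e.castSucc) (lam e)) ∧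
    (∀ e : Fin n, CutL ga (Mh a e.succ - 1) (Mh a e.succ) (bet e)) ∧
    SEq (chainFun (List.ofFn fun i : Fin (n + 1) => a i.rev)) (FS K ga c a lam bet)

/-- **LINE**: the straight line from `FS` to `F8`. -/
def LineP : Prop := ∀ (n : ℕ) (a : Fin (n + 1) → ℕ), LobeDefs_407.Exps a → ∀ K ga cB c : ℝ,
  0 < ga → ga ≤ 1 / 8 → 4 < cB → 2 < c → (∀ i, 8 * (Mh a i : ℝ) + 2 ≤ K) →
  ∀ lam bet : Fin n → ℂ → ℝ,
    (∀ e : Fin n, CutL ga (a e.succ) (Mh a e.castSucc) (lam e)) →
    (∀ e : Fin n, CutL ga (Mh a e.succ - 1) (Mh a e.succ) (bet e)) →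
    HPath (fun p : ℝ × (Fin (n + 1) → ℂ) =>
      (1 - p.1) • FS K ga c a lam bet p.2 + p.1 • F8 K cB ga (Mh a) (Ch a) p.2)

/-- **GL1, head first** -/
def GL1h : Prop := ∀ (n : ℕ) (a : Fin (n + 1) → ℕ), LobeDefs_407.Exps a → ∀ K ga cB : ℝ,
  0 < ga → ga ≤ 1 / 8 → 4 < cB → (∀ i, 8 * (Mh a i : ℝ) + 2 ≤ K) →
    SEq (chainFun (List.ofFn fun i : Fin (n + 1) => a i.rev)) (F8 K cB ga (Mh a) (Ch a)) ∧
      Tame (F8 K cB ga (Mh a) (Ch a))

theorem gl1h (hS : StarP) (hL : LineP) : GL1h := by
  intro n a ha K ga cB h1 h2 h3 h4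
  have hK : (1 : ℝ) ≤ K := by
    have h5 := h4 0
    have h6 : (0 : ℝ) ≤ (Mh a 0 : ℝ) := Nat.cast_nonneg _
    linarith
  obtain ⟨c, lam, bet, h5, h6, h7, h8⟩ := hS n a ha K ga hK h1 h2
  have hp := hL n a ha K ga cB c h1 h2 h3 h5 h4 lam bet h6 h7
  have e1 : (fun x : Fin (n + 1) → ℂ => (1 - (0 : ℝ)) • FS K ga c a lam bet x +
      (0 : ℝ) • F8 K cB ga (Mh a) (Ch a) x) = FS K ga c a lam bet := by
    funext x; simp
  have e2 : (fun x : Fin (n + 1) → ℂ => (1 - (1 : ℝ)) • FS K ga c a lam bet x +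
      (1 : ℝ) • F8 K cB ga (Mh a) (Ch a) x) = F8 K cB ga (Mh a) (Ch a) := by
    funext x; simp
  have s := hp.seq
  have t := hp.tame (t := 1) (by simp)
  simp only at s t
  rw [e1, e2] at s
  rw [e2] at t
  exact ⟨h8.trans s, t⟩

end GL1

/-! ### lists and systems -/

/-- number of strand lobes, order of a list (head = last variable) -/
def Mc (c : List ℕ) (i : Fin c.length) : ℕ := if (i : ℕ) + 1 < c.length then c.get i else c.get i - 1

/-- couplings of a chain -/
def Cc (c : List ℕ) : Finset (Fin c.length × Fin c.length × ℕ) :=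
  (univ.filter fun e : Fin c.length × Fin c.length => (e.1 : ℕ) = e.2 + 1).image
    fun e => (e.1, e.2, c.get e.2)

/-- **the lobed function of a chain** -/
def L8 (K cB ga : ℝ) (c : List ℕ) : (Fin c.length → ℂ) → ℂ := F8 K cB ga (Mc c) (Cc c)

/-- **GL1** for lists -/
def GL1 : Prop := ∀ c : List ℕ, c ≠ [] → Pierce c → ∀ K ga cB : ℝ, 0 < ga → ga ≤ 1 / 8 → 4 < cB →
  (∀ i, 8 * (Mc c i : ℝ) + 2 ≤ K) → SEq (chainFun c) (L8 K cB ga c) ∧ Tame (L8 K cB ga c)

/-- number of strand lobes of the variables of a system -/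
def Ms : (S : List (List ℕ)) → Var S → ℕ
  | [] => fun i => i.elim
  | c :: S => Sum.elim (Mc c) (Ms S)

/-- couplings of a system -/
def Cs : (S : List (List ℕ)) → Finset (Var S × Var S × ℕ)
  | [] => ∅
  | c :: S => (Cc c).image (fun e => (Sum.inl e.1, Sum.inl e.2.1, e.2.2)) ∪
      (Cs S).image (fun e => (Sum.inr e.1, Sum.inr e.2.1, e.2.2))

/-- **T3a**: for `cB` large, `ga` small, `d` small the link of `G` is the link of a graph system
with matrix "`1` iff letter `b ≤` letter `a`". -/
def T3aP {n : ℕ} (D : LD (n + 3)) : Prop := LD.Ev fun cB ga d =>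
  ∃ (m : ℕ) (e : Fin m ≃ {k : Fin (n + 3) → ℕ // D.Let k}) (G : S n m),
    HasMat G (Matrix.of fun a b => open Classical in if ∀ j, (e b).1 j ≤ (e a).1 j then 1 else 0) ∧
      IsLink {z : Sph (Fin (n + 3)) | D.G cB ga d z = 0} G


end Crest.Agent.R267.GlueDefs_322
end
private theorem rz_4337122320 : type_of% @_root_.Crest.Agent.R267.GlueDefs_322.Cs.eq_def := @_root_.Crest.Agent.R267.GlueDefs_322.Cs.eq_def -- L210
private theorem rz_5100dbbd36 : type_of% @_root_.Crest.Agent.R267.GlueDefs_322.Cs.eq_1 := @_root_.Crest.Agent.R267.GlueDefs_322.Cs.eq_1 -- L210
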