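import Mathlib
import Crest.Agent.R267.NdT3_484

-- ▼ part R267/NdSt_484
section

/-!
# S0406, T3N entrance: the star function `Ss` (helper484)
-/

set_option autoImplicit false
set_option linter.unusedSectionVars false

noncomputable section

open Set Filter Topology Finset
open scoped ContDiff
open Crest.Agent.R267.Cone_808 Crest.Agent.R267.Hm_951
open Crest.Agent.R267.NdP_484 Crest.Agent.R267.NdR_484 Crest.Agent.R267.NdQ_484
open Crest.Agent.R267.NdS_484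
open Crest.Agent.R267.Amal_52 (g_nonneg N_nonneg bw_pos aw_pos g_eq_zero g_le_N N_eq_zero t1_lt
  lt_t1 th_zero th_one contDiff_th contDiff_g contDiff_N continuous_g continuous_N act_coord
  act_three g_act N_act wt_pos)

namespace Crest.Agent.R267.NdSt_484

variable {b : Bool} {p : E4}

theorem N_pos (h : N b p ≠ 0) : 0 < N b p := lt_of_le_of_ne (N_nonneg b p) (Ne.symm h)


theorem N_le_Ds (b : Bool) (p : E4) : N b p ≤ Ds b p := by
  unfold Ds
  have : 0 ≤ ‖p 3‖ ^ 60 := by positivity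
  linarith

theorem Ds_pos (hp : p ≠ 0) : 0 < Ds b p := by
  by_cases h : N b p = 0
  · have h1 := N_eq_zero.1 h
    have h3 : p 3 ≠ 0 := by
      intro h3
      apply hp
      funext i
      refine Fin.lastCases ?_ (fun j => ?_) i
      · exact h3
      · exact h1 j
    have : 0 < ‖p 3‖ ^ 60 := by
      have := norm_pos_iff.2 h3
      positivity
    unfold Ds
    linarith [N_nonneg b p]
  · exact (N_pos h).trans_le (N_le_Ds b p)

theorem contDiff_Ds (b : Bool) : ContDiff ℝ ∞ (Ds b) := by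
  unfold Ds
  refine (contDiff_N b).add ?_
  have h : ∀ p : E4, ‖p 3‖ ^ 60 = (‖p 3‖ ^ 2) ^ 30 := fun p => by rw [← pow_mul]
  simp_rw [h]
  have h1 : ContDiff ℝ ∞ fun p : E4 => p 3 := by fun_prop
  exact (h1.norm_sq ℝ).pow _

theorem th_nonneg (t : ℝ) : 0 ≤ th t := Real.smoothTransition.nonneg _

theorem th_le_one (t : ℝ) : th t ≤ 1 := Real.smoothTransition.le_one _

theorem psi_nonneg (h t : ℝ) : 0 ≤ psi h t := Real.smoothTransition.nonneg _

theorem psi_le_one (h t : ℝ) : psi h t ≤ 1 := Real.smoothTransition.le_one _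

theorem psi_zero {h t : ℝ} (h0 : 0 < h) (ht : t ≤ h) : psi h t = 0 := by
  unfold psi
  exact Real.smoothTransition.zero_of_nonpos (div_nonpos_of_nonpos_of_nonneg (by linarith) h0.le)

theorem psi_one {h t : ℝ} (h0 : 0 < h) (ht : 2 * h ≤ t) : psi h t = 1 := by
  unfold psi
  apply Real.smoothTransition.one_of_one_le
  rw [one_le_div h0]
  linarith

theorem contDiff_psi (h : ℝ) : ContDiff ℝ ∞ (psi h) := by
  unfold psi
  exact Real.smoothTransition.contDiff.comp (by fun_prop)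

/-! ### the star function of the hub -/

theorem g_add_le (b : Bool) (p : E4) {v u : Fin 3} (hu : u ≠ v) :
    g b v p + g b u p ≤ N b p := by
  have e : g b v p + g b u p = ∑ i ∈ ({v, u} : Finset (Fin 3)), g b i p :=
    (Finset.sum_pair (f := fun i => g b i p) hu.symm).symm
  rw [e]
  unfold N
  exact Finset.sum_le_sum_of_subset_of_nonneg (Finset.subset_univ _) fun i _ _ => g_nonneg b i p

/-- the two other quotients are small. -/
theorem other_small (hN : N b p ≠ 0) {v u : Fin 3} (hu : u ≠ v) {s : ℝ} (h : s < g b v p / N b p) :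
    g b u p / N b p < 1 - s := by
  have hp := N_pos hN
  rw [lt_div_iff₀ hp] at h
  rw [div_lt_iff₀ hp]
  have h2 : g b v p + g b u p ≤ N b p := g_add_le b p hu
  nlinarith

theorem other_small' (hN : N b p ≠ 0) {v u : Fin 3} (hu : u ≠ v) {s : ℝ}
    (h : s ≤ g b v p / N b p) : g b u p / N b p ≤ 1 - s := by
  have hp := N_pos hN
  rw [le_div_iff₀ hp] at h
  rw [div_le_iff₀ hp]
  have h2 : g b v p + g b u p ≤ N b p := g_add_le b p hu
  nlinarith

theorem exists_main (hN : N b p ≠ 0) : ∃ v : Fin 3, ∀ u, u ≠ v → g b u p / N b p ≤ 3 / 4 := by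
  by_cases h : ∃ v, 3 / 4 < g b v p / N b p
  · obtain ⟨v, hv⟩ := h
    refine ⟨v, fun u hu => ?_⟩
    have := other_small hN hu hv
    linarith
  · push Not at h
    exact ⟨0, fun u _ => h u⟩

theorem Qs_of {v : Fin 3} (h : ∀ u, u ≠ v → g b u p / N b p ≤ 3 / 4) :
    Qs b p = N b p - th (g b v p / N b p) * (N b p - g b v p) := by
  unfold Qs
  congr 1
  refine Finset.sum_eq_single v (fun u _ hu => ?_) (fun h => absurd (Finset.mem_univ v) h)
  rw [th_zero (h u hu), zero_mul]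

theorem Qs_core (hN : N b p ≠ 0) {v : Fin 3} (hv : t1 ≤ g b v p / N b p) : Qs b p = g b v p := by
  have h1 : ∀ u, u ≠ v → g b u p / N b p ≤ 3 / 4 := fun u hu => by
    have := other_small' hN hu hv
    have := lt_t1
    linarith
  rw [Qs_of h1, th_one hv]
  ring

theorem Qs_le (b : Bool) (p : E4) : Qs b p ≤ N b p := by
  unfold Qs
  have : 0 ≤ ∑ v, th (g b v p / N b p) * (N b p - g b v p) :=
    Finset.sum_nonneg fun v _ => mul_nonneg (th_nonneg _) (by linarith [g_le_N b v p])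
  linarith

theorem le_Qs (b : Bool) (p : E4) : (3 / 4) * N b p ≤ Qs b p := by
  by_cases hN : N b p = 0
  · have h1 : ∀ v, g b v p = 0 := fun v => g_eq_zero.2 (N_eq_zero.1 hN v)
    unfold Qs
    rw [hN]
    simp [h1]
  · have hp := N_pos hN
    obtain ⟨v, hv⟩ := exists_main hN
    rw [Qs_of hv]
    have h1 := g_le_N b v p
    rcases le_or_gt (g b v p / N b p) (3 / 4) with h | h
    · rw [th_zero h]
      linarith
    · rw [lt_div_iff₀ hp] at h
      have h2 : th (g b v p / N b p) * (N b p - g b v p) ≤ 1 * (N b p - g b v p) :=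
        mul_le_mul_of_nonneg_right (th_le_one _) (by linarith)
      linarith

theorem contDiffAt_th (hN : N b p ≠ 0) (v : Fin 3) :
    ContDiffAt ℝ ∞ (fun p => th (g b v p / N b p)) p :=
  contDiff_th.contDiffAt.comp p (((contDiff_g b v).contDiffAt).div (contDiff_N b).contDiffAt hN)

theorem contDiffAt_Qs (hN : N b p ≠ 0) : ContDiffAt ℝ ∞ (Qs b) p := by
  unfold Qs
  refine (contDiff_N b).contDiffAt.sub (ContDiffAt.sum fun v _ => ?_)
  exact (contDiffAt_th hN v).mul ((contDiff_N b).contDiffAt.sub (contDiff_g b v).contDiffAt)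

theorem quot_act (v : Fin 3) (s : ℝ) (p : E4) :
    g b v (act (wt b) s p) / N b (act (wt b) s p) = g b v p / N b p := by
  rw [g_act, N_act]
  exact mul_div_mul_left _ _ (Real.exp_pos _).ne'

theorem Qs_act (s : ℝ) (p : E4) : Qs b (act (wt b) s p) = Real.exp (4 * s) * Qs b p := by
  unfold Qs
  simp_rw [quot_act]
  simp_rw [g_act, N_act]
  rw [mul_sub, Finset.mul_sum]
  congr 1
  exact Finset.sum_congr rfl fun v _ => by ring

theorem Ds_act (s : ℝ) (p : E4) : Ds b (act (wt b) s p) = Real.exp (4 * s) * Ds b p := by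
  unfold Ds
  rw [N_act, act_three, norm_mul, mul_pow, Complex.norm_real, Real.norm_eq_abs,
    abs_of_pos (Real.exp_pos _), ← Real.exp_nat_mul, mul_add]
  congr 3
  push_cast
  ring

theorem Ss_act (h s : ℝ) (p : E4) : Ss b h (act (wt b) s p) = Real.exp (4 * s) * Ss b h p := by
  unfold Ss
  have e : N b (act (wt b) s p) / Ds b (act (wt b) s p) = N b p / Ds b p := by
    rw [N_act, Ds_act]
    exact mul_div_mul_left _ _ (Real.exp_pos _).ne'
  rw [e, Qs_act, Ds_act]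
  ring

variable {h : ℝ}

theorem Ss_pos (h0 : 0 < h) (hp : p ≠ 0) : 0 < Ss b h p := by
  have hD := Ds_pos (b := b) hp
  unfold Ss
  have h1 := psi_nonneg h (N b p / Ds b p)
  have h2 := psi_le_one h (N b p / Ds b p)
  rcases h1.eq_or_lt with h3 | h3
  · rw [← h3]
    linarith
  · have hN : 0 < N b p := by
      by_contra hn
      have : N b p = 0 := le_antisymm (not_lt.1 hn) (N_nonneg b p)
      rw [this, zero_div, psi_zero h0 h0.le] at h3
      exact lt_irrefl _ h3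
    have hQ : 0 < Qs b p := lt_of_lt_of_le (by linarith) (le_Qs b p)
    have h4 : 0 < psi h (N b p / Ds b p) * Qs b p := mul_pos h3 hQ
    have h5 : 0 ≤ (1 - psi h (N b p / Ds b p)) * Ds b p := mul_nonneg (by linarith) hD.le
    linarith

theorem le_Ss (b : Bool) (h : ℝ) (p : E4) : (3 / 4) * N b p ≤ Ss b h p := by
  unfold Ss
  have h1 := psi_nonneg h (N b p / Ds b p)
  have h2 := psi_le_one h (N b p / Ds b p)
  have h3 := le_Qs b p
  have h4 := N_le_Ds b p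
  have h5 := N_nonneg b p
  nlinarith [mul_le_mul_of_nonneg_left h3 h1,
    mul_le_mul_of_nonneg_left (show (3 / 4) * N b p ≤ Ds b p by linarith) (sub_nonneg.2 h2)]

theorem Ss_eq_Qs (h0 : 0 < h) (hD : 0 < Ds b p) (hN : 2 * h * Ds b p ≤ N b p) :
    Ss b h p = Qs b p := by
  unfold Ss
  rw [psi_one h0 (by rw [le_div_iff₀ hD]; exact hN)]
  ring

theorem Ss_eq_Ds (h0 : 0 < h) (hD : 0 < Ds b p) (hN : N b p ≤ h * Ds b p) :
    Ss b h p = Ds b p := by
  unfold Ss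
  rw [psi_zero h0 (by rw [div_le_iff₀ hD]; exact hN)]
  ring

theorem ev_Ds (hp : p ≠ 0) : ∀ᶠ q in 𝓝 p, 0 < Ds b q :=
  ((contDiff_Ds b).continuous.continuousAt).eventually_const_lt (Ds_pos hp)

/-- near such a point the star function is `Qs`. -/
theorem ev_Qs (h0 : 0 < h) (hp : p ≠ 0) (hN : 2 * h * Ds b p < N b p) :
    Ss b h =ᶠ[𝓝 p] Qs b := by
  have h1 : ∀ᶠ q in 𝓝 p, 2 * h * Ds b q < N b q :=
    (isOpen_lt (continuous_const.mul (contDiff_Ds b).continuous) (continuous_N b)).mem_nhds hN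
  filter_upwards [h1, ev_Ds (b := b) hp] with q hq hq'
  exact Ss_eq_Qs h0 hq' hq.le

theorem ev_Dss (h0 : 0 < h) (hp : p ≠ 0) (hN : N b p < h * Ds b p) :
    Ss b h =ᶠ[𝓝 p] Ds b := by
  have h1 : ∀ᶠ q in 𝓝 p, N b q < h * Ds b q :=
    (isOpen_lt (continuous_N b) (continuous_const.mul (contDiff_Ds b).continuous)).mem_nhds hN
  filter_upwards [h1, ev_Ds (b := b) hp] with q hq hq'
  exact Ss_eq_Ds h0 hq' hq.le

theorem contDiffAt_Ss (h0 : 0 < h) (hp : p ≠ 0) : ContDiffAt ℝ ∞ (Ss b h) p := by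
  by_cases hN : N b p = 0
  · have h1 := ev_Dss (b := b) h0 hp (by rw [hN]; exact mul_pos h0 (Ds_pos hp))
    exact (contDiff_Ds b).contDiffAt.congr_of_eventuallyEq h1
  · unfold Ss
    have h1 : ContDiffAt ℝ ∞ (fun p => psi h (N b p / Ds b p)) p :=
      (contDiff_psi h).contDiffAt.comp p
        ((contDiff_N b).contDiffAt.div (contDiff_Ds b).contDiffAt (Ds_pos hp).ne')
    exact (h1.mul (contDiffAt_Qs hN)).add
      ((contDiffAt_const.sub h1).mul (contDiff_Ds b).contDiffAt)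

/-- `S^{-1/60}`. -/
def sg (b : Bool) (h : ℝ) (p : E4) : ℝ := Ss b h p ^ (-(1 / 60) : ℝ)

theorem contDiffAt_sg (h0 : 0 < h) (hp : p ≠ 0) : ContDiffAt ℝ ∞ (sg b h) p := by
  unfold sg
  exact (contDiffAt_Ss h0 hp).rpow_const_of_ne (Ss_pos h0 hp).ne'

theorem sg_act (h0 : 0 < h) (s : ℝ) (hp : p ≠ 0) :
    sg b h (act (wt b) s p) = Real.exp (-(s / 15)) * sg b h p := by
  unfold sg
  rw [Ss_act, Real.mul_rpow (Real.exp_pos _).le (Ss_pos h0 hp).le, ← Real.exp_mul]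
  congr 2
  ring


theorem sg_one (hS : Ss b h p = 1) : sg b h p = 1 := by
  unfold sg
  rw [hS, Real.one_rpow]

/-! ### sizes -/

theorem aw_bw (b : Bool) (v : Fin 3) : aw b v * (2 * bw b v) = 60 := by
  unfold aw bw
  cases b <;> fin_cases v <;> rfl

/-- the size of the hub point. -/
theorem exists_n (b : Bool) (p : E4) :
    ∃ n : ℝ, 0 ≤ n ∧ n ^ 60 = N b p ∧ ∀ v : Fin 3, ‖p v.castSucc‖ ≤ n ^ aw b v := by
  have hN := N_nonneg b p
  refine ⟨N b p ^ ((60 : ℕ) : ℝ)⁻¹, Real.rpow_nonneg hN _, Real.rpow_inv_natCast_pow hN (by norm_num),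
    fun v => ?_⟩
  have h1 : (N b p ^ ((60 : ℕ) : ℝ)⁻¹) ^ 60 = N b p := Real.rpow_inv_natCast_pow hN (by norm_num)
  have h2 : 0 ≤ N b p ^ ((60 : ℕ) : ℝ)⁻¹ := Real.rpow_nonneg hN _
  have h3 : ‖p v.castSucc‖ ^ (2 * bw b v) ≤
      ((N b p ^ ((60 : ℕ) : ℝ)⁻¹) ^ aw b v) ^ (2 * bw b v) := by
    rw [← pow_mul, aw_bw, h1]
    exact g_le_N b v p
  have := bw_pos b v
  exact (pow_le_pow_iff_left₀ (norm_nonneg _) (pow_nonneg h2 _) (by omega)).1 h3

theorem n_le_two {n : ℝ} (h : n ^ 60 ≤ 4 / 3) : n ≤ 2 := by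
  by_contra hn
  push Not at hn
  have : (2 : ℝ) ^ 60 ≤ n ^ 60 := by gcongr
  norm_num at this
  linarith

theorem Ss_zero (h0 : 0 < h) : Ss b h 0 = 0 := by
  have hN : N b (0 : E4) = 0 := N_eq_zero.2 fun v => rfl
  have hD : Ds b (0 : E4) = 0 := by
    unfold Ds
    rw [hN]
    simp
  unfold Ss
  rw [hN, hD, div_zero, psi_zero h0 h0.le]
  ring

theorem ne_of_Ss (h0 : 0 < h) (hS : Ss b h p = 1) : p ≠ 0 := by
  rintro rfl
  rw [Ss_zero h0] at hS
  exact zero_ne_one hS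

end Crest.Agent.R267.NdSt_484
end
end

-- ▼ part R267/NdF_484
section

/-!
# S0406, T3N entrance: smoothness and homogeneity of `F_{r,s}` (helper484)
-/

set_option autoImplicit false
set_option linter.unusedSectionVars false

noncomputable section

open Set Filter Topology Finset
open scoped ContDiff
open Crest.Agent.R267.Cone_808 Crest.Agent.R267.Hm_951
open Crest.Agent.R267.NdP_484 Crest.Agent.R267.NdR_484 Crest.Agent.R267.NdQ_484
open Crest.Agent.R267.NdS_484 Crest.Agent.R267.NdSt_484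
open Crest.Agent.R267.Amal_52 (g_nonneg N_nonneg bw_pos aw_pos g_eq_zero g_le_N N_eq_zero t1_lt
  lt_t1 th_zero th_one contDiff_th contDiff_g contDiff_N continuous_g continuous_N act_coord
  act_three g_act N_act wt_pos continuousAt_quot)

namespace Crest.Agent.R267.NdF_484

/-- what is used about the cut off arm. -/
structure AcOK (a : ℕ) (T : Finset (ℕ × ℕ)) (c : ℕ × ℕ → ℂ) (W : ℝ) : Prop where
  smooth : ContDiffOn ℝ 2 (fun q : ℝ × (ℂ × ℂ) => Ac a T c W q.1 q.2)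
    (univ ×ˢ {z : ℂ × ℂ | z.1 ≠ 0})
  hom : ∀ (r l : ℝ) (u w : ℂ), 0 < l →
    Ac a T c W r ((l : ℂ) ^ a * u, (l : ℂ) * w) = (l : ℂ) ^ 15 * Ac a T c W r (u, w)
  supp : ∀ (r : ℝ) (u w : ℂ), 2 * W ^ 2 * ‖u‖ ^ 2 ≤ ‖w‖ ^ (2 * a) → Ac a T c W r (u, w) = 0

/-- the slice `F_{r,s}`. -/
def Fs (b : Bool) (T : Fin 3 → Finset (ℕ × ℕ)) (c : Fin 3 → ℕ × ℕ → ℂ) (M W h r s : ℝ)
    (p : E4) : ℂ := Ff b T c M W h (r, s, p)

variable {b : Bool} {T : Fin 3 → Finset (ℕ × ℕ)} {c : Fin 3 → ℕ × ℕ → ℂ} {M W h r s : ℝ}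

/-- the core part. -/
def Co (b : Bool) (M : ℝ) (p : E4) : ℂ := M * P b (p 0) (p 1 * p 2) + p 3 ^ 15

/-- the part coming from the arms, for a general gauge `σ`. -/
def Re (b : Bool) (T : Fin 3 → Finset (ℕ × ℕ)) (c : Fin 3 → ℕ × ℕ → ℂ) (W : ℝ) (σ : E4 → ℝ)
    (q : ℝ × ℝ × E4) : ℂ :=
  ∑ v, (((1 - q.2.1 : ℝ) : ℂ) * E (T v)
        (cz (aw b v) (c v) (q.1 * σ q.2.2)) (q.2.2 v.castSucc) (q.2.2 3) +
      ((q.2.1 * th (g b v q.2.2 / N b q.2.2) : ℝ) : ℂ) *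
        Arms b T c W q.1 v (q.2.2 v.castSucc, q.2.2 3))

theorem Ff_eq (q : ℝ × ℝ × E4) :
    Ff b T c M W h q = Co b M q.2.2 + Re b T c W (sg b h) q := rfl

theorem contDiff_Co (b : Bool) (M : ℝ) : ContDiff ℝ ∞ (Co b M) := by
  unfold Co P
  cases b <;> simp only [cond_true, cond_false] <;> fun_prop

theorem contDiffAt_E {S : Finset (ℕ × ℕ)} {a : ℕ} {d : ℕ × ℕ → ℂ} {v : Fin 3} {σ : E4 → ℝ}
    {q : ℝ × ℝ × E4} (hσ : ContDiffAt ℝ ∞ σ q.2.2) :
    ContDiffAt ℝ ∞ (fun q : ℝ × ℝ × E4 =>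
      E S (cz a d (q.1 * σ q.2.2)) (q.2.2 v.castSucc) (q.2.2 3)) q := by
  unfold E cz
  refine ContDiffAt.sum fun m _ => ?_
  have h1 : ContDiffAt ℝ ∞ (fun q : ℝ × ℝ × E4 => q.1 * σ q.2.2) q :=
    contDiffAt_fst.mul (hσ.comp q (contDiffAt_snd.comp q contDiffAt_snd))
  have h2 : ContDiffAt ℝ ∞ (fun q : ℝ × ℝ × E4 => ((q.1 * σ q.2.2 : ℝ) : ℂ)) q :=
    Complex.ofRealCLM.contDiff.contDiffAt.comp q h1
  have h3 : ContDiff ℝ ∞ (fun q : ℝ × ℝ × E4 => q.2.2 v.castSucc ^ m.1 * q.2.2 3 ^ m.2) := by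
    fun_prop
  exact (contDiffAt_const.mul (h2.pow _)).mul h3.contDiffAt

theorem two_le : (2 : WithTop ℕ∞) ≤ ∞ := WithTop.coe_le_coe.2 le_top

/-- the cut off arm times its hub cut-off is smooth. -/
theorem contDiffAt_A {v : Fin 3} (hA : AcOK (aw b v) (T v) (c v) W)
    {q : ℝ × ℝ × E4} (hq : q.2.2 ≠ 0) :
    ContDiffAt ℝ 2 (fun q : ℝ × ℝ × E4 =>
      ((q.2.1 * th (g b v q.2.2 / N b q.2.2) : ℝ) : ℂ) *
        Arms b T c W q.1 v (q.2.2 v.castSucc, q.2.2 3)) q := by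
  by_cases hN : N b q.2.2 = 0
  · have hv : q.2.2 v.castSucc = 0 := N_eq_zero.1 hN v
    have h3 : q.2.2 3 ≠ 0 := by
      intro h3
      apply hq
      funext i
      refine Fin.lastCases ?_ (fun j => ?_) i
      · exact h3
      · exact N_eq_zero.1 hN j
    have hlt : 2 * W ^ 2 * ‖q.2.2 v.castSucc‖ ^ 2 < ‖q.2.2 3‖ ^ (2 * aw b v) := by
      have h4 := norm_pos_iff.2 h3
      have h5 : 0 < ‖q.2.2 3‖ ^ (2 * aw b v) := pow_pos h4 _
      rw [hv, norm_zero]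
      simpa using h5
    have h1 : ∀ᶠ q' : ℝ × ℝ × E4 in 𝓝 q,
        2 * W ^ 2 * ‖q'.2.2 v.castSucc‖ ^ 2 < ‖q'.2.2 3‖ ^ (2 * aw b v) := by
      have c1 : Continuous fun q' : ℝ × ℝ × E4 => 2 * W ^ 2 * ‖q'.2.2 v.castSucc‖ ^ 2 := by fun_prop
      have c2 : Continuous fun q' : ℝ × ℝ × E4 => ‖q'.2.2 3‖ ^ (2 * aw b v) := by fun_prop
      exact (isOpen_lt c1 c2).mem_nhds hlt
    refine (contDiffAt_const (c := (0 : ℂ))).congr_of_eventuallyEq ?_
    filter_upwards [h1] with q' hq'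
    have : Arms b T c W q'.1 v (q'.2.2 v.castSucc, q'.2.2 3) = 0 := hA.supp _ _ _ hq'.le
    rw [this, mul_zero]
  · by_cases hv : q.2.2 v.castSucc = 0
    · have h1 : ∀ᶠ q' : ℝ × ℝ × E4 in 𝓝 q, g b v q'.2.2 / N b q'.2.2 < 3 / 4 := by
        have hc : ContinuousAt (fun q' : ℝ × ℝ × E4 => g b v q'.2.2 / N b q'.2.2) q :=
          ContinuousAt.comp (f := fun q : ℝ × ℝ × E4 => q.2.2) (x := q) (continuousAt_quot hN v)
            (by fun_prop)
        refine hc.eventually_lt_const ?_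
        show g b v q.2.2 / N b q.2.2 < 3 / 4
        rw [g_eq_zero.2 hv, zero_div]
        norm_num
      refine (contDiffAt_const (c := (0 : ℂ))).congr_of_eventuallyEq ?_
      filter_upwards [h1] with q' hq'
      rw [th_zero hq'.le]
      simp
    · have h1 : ContDiffAt ℝ 2 (fun q : ℝ × ℝ × E4 => th (g b v q.2.2 / N b q.2.2)) q :=
        ((contDiffAt_th hN v).of_le two_le).comp (f := fun q : ℝ × ℝ × E4 => q.2.2) q
          (by fun_prop)
      have h2 : ContDiffAt ℝ 2 (fun q : ℝ × ℝ × E4 =>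
          ((q.2.1 * th (g b v q.2.2 / N b q.2.2) : ℝ) : ℂ)) q :=
        Complex.ofRealCLM.contDiff.contDiffAt.comp q
          ((contDiffAt_fst.comp q contDiffAt_snd).mul h1)
      have ho : IsOpen ((univ : Set ℝ) ×ˢ {z : ℂ × ℂ | z.1 ≠ 0}) :=
        isOpen_univ.prod (isOpen_ne_fun continuous_fst continuous_const)
      have h3 : ContDiffAt ℝ 2 (fun q : ℝ × (ℂ × ℂ) => Ac (aw b v) (T v) (c v) W q.1 q.2)
          (q.1, (q.2.2 v.castSucc, q.2.2 3)) :=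
        hA.smooth.contDiffAt (ho.mem_nhds ⟨mem_univ _, hv⟩)
      have h4 : ContDiffAt ℝ 2 (fun q : ℝ × ℝ × E4 =>
          Arms b T c W q.1 v (q.2.2 v.castSucc, q.2.2 3)) q :=
        h3.comp (f := fun q : ℝ × ℝ × E4 => (q.1, (q.2.2 v.castSucc, q.2.2 3))) q (by fun_prop)
      exact h2.mul h4

theorem contDiffAt_Re (hA : ∀ v, AcOK (aw b v) (T v) (c v) W) {σ : E4 → ℝ}
    {q : ℝ × ℝ × E4} (hq : q.2.2 ≠ 0) (hσ : ContDiffAt ℝ ∞ σ q.2.2) :
    ContDiffAt ℝ 2 (Re b T c W σ) q := by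
  unfold Re
  refine ContDiffAt.sum fun v _ => ?_
  refine ContDiffAt.add ?_ (contDiffAt_A (hA v) hq)
  have h2 : ContDiff ℝ ∞ fun q : ℝ × ℝ × E4 => (1 - q.2.1 : ℝ) := by fun_prop
  have h1 : ContDiff ℝ ∞ fun q : ℝ × ℝ × E4 => ((1 - q.2.1 : ℝ) : ℂ) :=
    Complex.ofRealCLM.contDiff.comp h2
  exact (h1.contDiffAt.mul (contDiffAt_E hσ)).of_le two_le

/-- **smoothness.** -/
theorem contDiffAt_Ff (hA : ∀ v, AcOK (aw b v) (T v) (c v) W) (h0 : 0 < h)
    {q : ℝ × ℝ × E4} (hq : q.2.2 ≠ 0) : ContDiffAt ℝ 2 (Ff b T c M W h) q := by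
  have h1 : ContDiffAt ℝ 2 (fun q : ℝ × ℝ × E4 => Co b M q.2.2) q :=
    (((contDiff_Co b M).contDiffAt).of_le two_le).comp (f := fun q : ℝ × ℝ × E4 => q.2.2) q
      (by fun_prop)
  have e : Ff b T c M W h = fun q => Co b M q.2.2 + Re b T c W (sg b h) q := funext Ff_eq
  rw [e]
  exact h1.add (contDiffAt_Re hA hq (contDiffAt_sg h0 hq))

theorem contDiffAt_Fs (hA : ∀ v, AcOK (aw b v) (T v) (c v) W) (h0 : 0 < h)
    {p : E4} (hp : p ≠ 0) : ContDiffAt ℝ 2 (Fs b T c M W h r s) p :=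
  (contDiffAt_Ff (M := M) hA h0 (q := (r, s, p)) hp).comp
    (f := fun p : E4 => ((r, s, p) : ℝ × ℝ × E4)) p (by fun_prop)

theorem differentiableAt_Fs (hA : ∀ v, AcOK (aw b v) (T v) (c v) W) (h0 : 0 < h)
    {p : E4} (hp : p ≠ 0) : DifferentiableAt ℝ (Fs b T c M W h r s) p :=
  (contDiffAt_Fs hA h0 hp).differentiableAt (by norm_num)

/-! ### homogeneity -/

theorem E_act {a : ℕ} {S : Finset (ℕ × ℕ)} {d : ℕ × ℕ → ℂ} (hS : Adm a S) {l ζ : ℝ} (hl : 0 < l)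
    (v w : ℂ) : E S (cz a d (ζ * l⁻¹)) ((l : ℂ) ^ a * v) ((l : ℂ) * w) =
      (l : ℂ) ^ 15 * E S (cz a d ζ) v w := by
  unfold E cz
  rw [Finset.mul_sum]
  refine Finset.sum_congr rfl fun m hm => ?_
  obtain ⟨-, -, h3⟩ := hS m hm
  have hl' : (l : ℂ) ≠ 0 := by exact_mod_cast hl.ne'
  have e : (l : ℂ) ^ (a * m.1 + m.2) = (l : ℂ) ^ 15 * (l : ℂ) ^ ex a m := by
    rw [← pow_add]
    unfold ex
    congr 1
    omega
  have e2 : ((ζ * l⁻¹ : ℝ) : ℂ) ^ ex a m * (l : ℂ) ^ (a * m.1 + m.2) =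
      (l : ℂ) ^ 15 * (ζ : ℂ) ^ ex a m := by
    rw [e]
    push_cast
    rw [mul_pow, inv_pow]
    field_simp
  calc d m * ((ζ * l⁻¹ : ℝ) : ℂ) ^ ex a m * (((l : ℂ) ^ a * v) ^ m.1 * ((l : ℂ) * w) ^ m.2)
      = d m * (((ζ * l⁻¹ : ℝ) : ℂ) ^ ex a m * (l : ℂ) ^ (a * m.1 + m.2)) * (v ^ m.1 * w ^ m.2) := by
        rw [mul_pow, mul_pow, ← pow_mul, pow_add]; ring
    _ = (l : ℂ) ^ 15 * (d m * (ζ : ℂ) ^ ex a m * (v ^ m.1 * w ^ m.2)) := by rw [e2]; ring

theorem exp15 (t : ℝ) : ((Real.exp (t / 15) : ℝ) : ℂ) ^ 15 = ((Real.exp t : ℝ) : ℂ) := by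
  rw [← Complex.ofReal_pow, ← Real.exp_nat_mul]
  congr 2
  push_cast
  ring

theorem Co_act (t : ℝ) (p : E4) :
    Co b M (act (wt b) t p) = ((Real.exp t : ℝ) : ℂ) * Co b M p := by
  have h0 := act_coord b t p 0
  have h1 := act_coord b t p 1
  have h2 := act_coord b t p 2
  have h3 := act_three b t p
  have c0 : (0 : Fin 3).castSucc = (0 : Fin 4) := rfl
  have c1 : (1 : Fin 3).castSucc = (1 : Fin 4) := rfl
  have c2 : (2 : Fin 3).castSucc = (2 : Fin 4) := rfl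
  rw [c0] at h0
  rw [c1] at h1
  rw [c2] at h2
  unfold Co
  rw [h0, h1, h2, h3, ← exp15 t]
  set l := ((Real.exp (t / 15) : ℝ) : ℂ)
  unfold P aw
  cases b
  · simp only [cond_false, Matrix.cons_val_zero, Matrix.cons_val_one, Matrix.cons_val]
    ring
  · simp only [cond_true, Matrix.cons_val_zero, Matrix.cons_val_one, Matrix.cons_val]
    ring

/-- **homogeneity.** -/
theorem Fs_act (hd : ∀ v, Adm (aw b v) (T v)) (hA : ∀ v, AcOK (aw b v) (T v) (c v) W)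
    (h0 : 0 < h) (t : ℝ) {p : E4} (hp : p ≠ 0) :
    Fs b T c M W h r s (act (wt b) t p) = ((Real.exp t : ℝ) : ℂ) * Fs b T c M W h r s p := by
  unfold Fs
  rw [Ff_eq, Ff_eq]
  simp only
  rw [Co_act, mul_add]
  congr 1
  unfold Re
  simp only
  rw [Finset.mul_sum]
  refine Finset.sum_congr rfl fun v _ => ?_
  have hl : 0 < Real.exp (t / 15) := Real.exp_pos _
  rw [quot_act, act_coord, act_three, sg_act h0 t hp]
  have e1 : r * (Real.exp (-(t / 15)) * sg b h p) = (r * sg b h p) * (Real.exp (t / 15))⁻¹ := by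
    rw [Real.exp_neg]; ring
  rw [e1, E_act (hd v) hl]
  unfold Arms
  rw [(hA v).hom r _ _ _ hl, ← exp15 t]
  ring

theorem Fs_smul (hd : ∀ v, Adm (aw b v) (T v)) (hA : ∀ v, AcOK (aw b v) (T v) (c v) W)
    (h0 : 0 < h) (t : ℝ) (p : E4) (hz : Fs b T c M W h r s 0 = 0) :
    Fs b T c M W h r s (act (wt b) t p) = Real.exp t • Fs b T c M W h r s p := by
  by_cases hp : p = 0
  · rw [hp, act_zero, hz, smul_zero]
  · rw [Fs_act hd hA h0 t hp, Complex.real_smul]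

theorem Fs_zero (hd : ∀ v, Adm (aw b v) (T v)) (hA : ∀ v, AcOK (aw b v) (T v) (c v) W) :
    Fs b T c M W h r s 0 = 0 := by
  unfold Fs
  rw [Ff_eq]
  have h1 : Co b M (0 : E4) = 0 := by
    unfold Co P
    cases b <;> simp
  have h2 : Re b T c W (sg b h) (r, s, (0 : E4)) = 0 := by
    unfold Re
    refine Finset.sum_eq_zero fun v _ => ?_
    have e1 : E (T v) (cz (aw b v) (c v) (r * sg b h 0)) ((0 : E4) v.castSucc) ((0 : E4) 3) = 0 := by
      unfold E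
      refine Finset.sum_eq_zero fun m hm => ?_
      obtain ⟨h1, -, -⟩ := hd v m hm
      simp [show m.1 ≠ 0 by omega]
    have e2 : Arms b T c W r v ((0 : E4) v.castSucc, (0 : E4) 3) = 0 := by
      refine (hA v).supp r _ _ ?_
      simp [aw_pos b v |>.ne']
    simp only at e1 e2 ⊢
    rw [e1, e2, mul_zero, mul_zero, add_zero]
  simp only [h1, h2, add_zero]

end Crest.Agent.R267.NdF_484
end
end

-- ▼ part R267/NdG_484
section

/-!
# S0406, T3N entrance: estimates and derivatives along lines (helper484)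
-/

set_option autoImplicit false
set_option linter.unusedSectionVars false

noncomputable section

open Set Filter Topology Finset
open scoped ContDiff
open Crest.Agent.R267.Cone_808 Crest.Agent.R267.Hm_951
open Crest.Agent.R267.NdP_484 Crest.Agent.R267.NdR_484 Crest.Agent.R267.NdQ_484
open Crest.Agent.R267.NdS_484 Crest.Agent.R267.NdSt_484 Crest.Agent.R267.NdF_484
open Crest.Agent.R267.Amal_52 (g_nonneg N_nonneg bw_pos aw_pos g_eq_zero g_le_N N_eq_zero t1_lt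
  lt_t1 th_zero th_one contDiff_th contDiff_g contDiff_N continuous_g continuous_N act_coord
  act_three g_act N_act wt_pos continuousAt_quot)

namespace Crest.Agent.R267.NdG_484

/-! ### bounds of the scaled arms -/

section bounds

variable {a : ℕ} {T : Finset (ℕ × ℕ)} {c : ℕ × ℕ → ℂ} {r n om : ℝ}

theorem Bd_cz (hT : Adm a T) (hr : 0 ≤ r) (hn : 0 ≤ n) (hrn : r * n ≤ 1) (hom : 0 ≤ om) {B : ℝ}
    (hB : ∀ j ≤ 14, n ^ (15 - j) * om ^ j ≤ B) : Bd a T (cz a c r) n om ≤ Kc T c * B := by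
  unfold Bd Kc
  rw [Finset.sum_mul]
  refine Finset.sum_le_sum fun q hq => ?_
  obtain ⟨h1, h2, h3⟩ := hT q hq
  have e1 : n ^ (a * q.1) = n ^ ex a q * n ^ (15 - q.2) := by
    rw [← pow_add]
    unfold ex
    congr 1
    omega
  unfold cz
  rw [norm_mul, norm_pow, Complex.norm_real, Real.norm_eq_abs, abs_of_nonneg hr, e1]
  have h4 : (r * n) ^ ex a q ≤ 1 := pow_le_one₀ (mul_nonneg hr hn) hrn
  calc ((q.1 : ℝ) + q.2 + 1) * (‖c q‖ * r ^ ex a q) * (n ^ ex a q * n ^ (15 - q.2) * om ^ q.2)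
      = ((q.1 : ℝ) + q.2 + 1) * ‖c q‖ * ((r * n) ^ ex a q * (n ^ (15 - q.2) * om ^ q.2)) := by
        rw [mul_pow]; ring
    _ ≤ ((q.1 : ℝ) + q.2 + 1) * ‖c q‖ * (1 * B) := by
        gcongr
        exact hB q.2 h2
    _ = _ := by ring

theorem Bd_eps (hT : Adm a T) (hr : 0 ≤ r) (hn : 0 ≤ n) (hrn : r * n ≤ 1) (hom : 0 ≤ om)
    {eta : ℝ} (he : 0 ≤ eta) (he1 : eta ≤ 1) (h : n ≤ eta * om) :
    Bd a T (cz a c r) n om ≤ Kc T c * (eta * om ^ 15) := by
  refine Bd_cz hT hr hn hrn hom fun j hj => ?_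
  have e : om ^ 15 = om ^ (15 - j) * om ^ j := by rw [← pow_add]; congr 1; omega
  calc n ^ (15 - j) * om ^ j ≤ (eta * om) ^ (15 - j) * om ^ j := by gcongr
    _ = eta ^ (15 - j) * om ^ 15 := by rw [mul_pow, e]; ring
    _ ≤ eta ^ 1 * om ^ 15 := by
        refine mul_le_mul_of_nonneg_right ?_ (by positivity)
        exact pow_le_pow_of_le_one he he1 (by omega)
    _ = _ := by rw [pow_one]

theorem Bd_two (hT : Adm a T) (hr : 0 ≤ r) (hn : 0 ≤ n) (hrn : r * n ≤ 1) (hn2 : n ≤ 2)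
    (hom : 1 ≤ om) : Bd a T (cz a c r) n om ≤ Kc T c * (2 ^ 15 * om ^ 14) := by
  refine Bd_cz hT hr hn hrn (by linarith) fun j hj => ?_
  have h1 : n ^ (15 - j) ≤ 2 ^ 15 := by
    calc n ^ (15 - j) ≤ 2 ^ (15 - j) := by gcongr
      _ ≤ 2 ^ 15 := pow_le_pow_right₀ (by norm_num) (by omega)
  have h2 : om ^ j ≤ om ^ 14 := pow_le_pow_right₀ hom hj
  exact mul_le_mul h1 h2 (by positivity) (by positivity)

end bounds

theorem E_zero {T : Finset (ℕ × ℕ)} {a : ℕ} (hT : Adm a T) (c : ℕ × ℕ → ℂ) (w : ℂ) :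
    E T c 0 w = 0 := by
  unfold E
  refine Finset.sum_eq_zero fun q hq => ?_
  obtain ⟨h1, -, -⟩ := hT q hq
  simp [show q.1 ≠ 0 by omega]

/-! ### derivatives along lines -/

theorem hasDerivAt_line (v a : ℂ) : HasDerivAt (fun ε : ℝ => v + ε • a) a 0 := by
  simpa using ((hasDerivAt_id (0 : ℝ)).smul_const a).const_add v

theorem hasDerivAt_E (T : Finset (ℕ × ℕ)) (c : ℕ × ℕ → ℂ) (v w a b : ℂ) :
    HasDerivAt (fun ε : ℝ => E T c (v + ε • a) (w + ε • b))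
      (Ev T c v w * a + Ew T c v w * b) 0 := by
  unfold E Ev Ew
  have h1 := hasDerivAt_line v a
  have h2 := hasDerivAt_line w b
  have h : ∀ q ∈ T, HasDerivAt (fun ε : ℝ => c q * ((v + ε • a) ^ q.1 * (w + ε • b) ^ q.2))
      (c q * (((q.1 : ℂ) * v ^ (q.1 - 1) * a) * w ^ q.2 +
        v ^ q.1 * ((q.2 : ℂ) * w ^ (q.2 - 1) * b))) 0 := by
    intro q _
    have h3 := h1.fun_pow q.1
    have h4 := h2.fun_pow q.2
    have h5 := (h3.fun_mul h4).const_mul (c q)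
    refine h5.congr_deriv ?_
    simp
  refine (HasDerivAt.fun_sum h).congr_deriv ?_
  rw [Finset.sum_mul, Finset.sum_mul, ← Finset.sum_add_distrib]
  exact Finset.sum_congr rfl fun q _ => by ring

theorem hasDerivAt_P (b : Bool) (x y z a1 a2 a3 : ℂ) :
    HasDerivAt (fun ε : ℝ => P b (x + ε • a1) ((y + ε • a2) * (z + ε • a3)))
      (Ps b x (y * z) * a1 + Pt b x (y * z) * (z * a2 + y * a3)) 0 := by
  have hx := hasDerivAt_line x a1
  have hy := hasDerivAt_line y a2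
  have hz := hasDerivAt_line z a3
  have ht := hy.fun_mul hz
  cases b
  · unfold P Ps Pt
    simp only [cond_false]
    have h1 := (hx.fun_mul (ht.fun_pow 2)).fun_add ((hx.fun_pow 3).fun_mul ht)
    refine h1.congr_deriv ?_
    simp
    ring
  · unfold P Ps Pt
    simp only [cond_true]
    have h1 := ((hx.fun_pow 2).fun_mul ht).fun_add (hx.fun_mul (ht.fun_pow 3))
    refine h1.congr_deriv ?_
    simp
    ring

theorem hasDerivAt_Co (b : Bool) (M : ℝ) (p y : E4) :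
    HasDerivAt (fun ε : ℝ => Co b M (p + ε • y))
      (M * ∑ v, dP b p v * y v.castSucc + 15 * p 3 ^ 14 * y 3) 0 := by
  unfold Co
  have h1 := (hasDerivAt_P b (p 0) (p 1) (p 2) (y 0) (y 1) (y 2)).const_mul (M : ℂ)
  have h2 := (hasDerivAt_line (p 3) (y 3)).fun_pow 15
  refine (h1.fun_add h2).congr_deriv ?_
  have d0 : dP b p 0 = Ps b (p 0) (p 1 * p 2) := rfl
  have d1 : dP b p 1 = Pt b (p 0) (p 1 * p 2) * p 2 := rfl
  have d2 : dP b p 2 = Pt b (p 0) (p 1 * p 2) * p 1 := rfl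
  have c0 : (0 : Fin 3).castSucc = (0 : Fin 4) := rfl
  have c1 : (1 : Fin 3).castSucc = (1 : Fin 4) := rfl
  have c2 : (2 : Fin 3).castSucc = (2 : Fin 4) := rfl
  rw [Fin.sum_univ_three, d0, d1, d2, c0, c1, c2, zero_smul, add_zero,
    show (15 - 1 : ℕ) = 14 from rfl, show ((15 : ℕ) : ℂ) = 15 from by norm_num]
  ring

/-- derivative from a line. -/
theorem fderiv_of_line {F : E4 → ℂ} {p y : E4} {d : ℂ} (hF : DifferentiableAt ℝ F p)
    (hd : HasDerivAt (fun ε : ℝ => F (p + ε • y)) d 0) : fderiv ℝ F p y = d := by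
  have h1 : HasDerivAt (fun ε : ℝ => p + ε • y) y 0 := by
    simpa using ((hasDerivAt_id (0 : ℝ)).smul_const y).const_add p
  have h2 : HasFDerivAt F (fderiv ℝ F p) (p + (0 : ℝ) • y) := by
    rw [zero_smul, add_zero]; exact hF.hasFDerivAt
  exact (h2.comp_hasDerivAt 0 h1).unique hd

/-- the embedding of a coordinate. -/
def sgl (i : Fin 4) : ℂ →ₗ[ℝ] E4 := LinearMap.single ℝ (fun _ : Fin 4 => ℂ) i


theorem onto_coord {F : E4 → ℂ} {p : E4} (i : Fin 4)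
    (h : ∀ z : ℂ, z ≠ 0 → fderiv ℝ F p (Pi.single i z) ≠ 0) (β : ℂ) :
    ∃ y, fderiv ℝ F p y = β := by
  let L : ℂ →ₗ[ℝ] ℂ := (fderiv ℝ F p : E4 →ₗ[ℝ] ℂ).comp (sgl i)
  obtain ⟨z, hz⟩ := Amal_52.onto_pert L (fun z hz => h z hz) β
  exact ⟨_, hz⟩

/-- line near a point. -/
theorem ev_line {p y : E4} {s : E4 → Prop} (h : ∀ᶠ q in 𝓝 p, s q) :
    ∀ᶠ ε : ℝ in 𝓝 0, s (p + ε • y) := by
  have hc : Tendsto (fun ε : ℝ => p + ε • y) (𝓝 0) (𝓝 p) := by
    have : Continuous fun ε : ℝ => p + ε • y := by fun_prop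
    have := this.tendsto 0
    simpa using this
  exact hc.eventually h

end Crest.Agent.R267.NdG_484
end
end

-- ▼ part R267/NdH_484

/-!
# S0406, T3N entrance: regularity of `F_{r,s}`, far regions (helper484)
-/

set_option autoImplicit false
set_option linter.unusedSectionVars false

noncomputable section

open Set Filter Topology Finset
open scoped ContDiff
open Crest.Agent.R267.Cone_808 Crest.Agent.R267.Hm_951
open Crest.Agent.R267.NdP_484 Crest.Agent.R267.NdR_484 Crest.Agent.R267.NdQ_484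
open Crest.Agent.R267.NdS_484 Crest.Agent.R267.NdSt_484 Crest.Agent.R267.NdF_484
open Crest.Agent.R267.NdG_484
open Crest.Agent.R267.Amal_52 (g_nonneg N_nonneg bw_pos aw_pos g_eq_zero g_le_N N_eq_zero t1_lt
  lt_t1 th_zero th_one contDiff_th contDiff_g contDiff_N continuous_g continuous_N act_coord
  act_three g_act N_act wt_pos continuousAt_quot)

namespace Crest.Agent.R267.NdH_484

variable {b : Bool} {T : Fin 3 → Finset (ℕ × ℕ)} {c : Fin 3 → ℕ × ℕ → ℂ} {M W h r s : ℝ} {p : E4}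

theorem N_le (hS : Ss b h p = 1) : N b p ≤ 4 / 3 := by
  have := le_Ss b h p
  rw [hS] at this
  linarith

theorem P_le' {n : ℝ} (hn : 0 ≤ n) (hv : ∀ v : Fin 3, ‖p v.castSucc‖ ≤ n ^ aw b v) :
    ‖P b (p 0) (p 1 * p 2)‖ ≤ 4 * n ^ 15 := by
  have h0 : ‖p 0‖ ≤ n ^ aw b 0 := hv 0
  have h1 : ‖p 1‖ ≤ n ^ aw b 1 := hv 1
  have h2 : ‖p 2‖ ≤ n ^ aw b 2 := hv 2
  refine P_le b hn (h0.trans (le_of_eq ?_)) ?_
  · congr 1; unfold aw al; cases b <;> rfl
  · rw [norm_mul]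
    calc ‖p 1‖ * ‖p 2‖ ≤ n ^ aw b 1 * n ^ aw b 2 := by gcongr
      _ = n ^ be b := by
        rw [← pow_add]
        congr 1
        unfold aw be; cases b <;> rfl

/-- the value on the star sphere. -/
theorem Fs_one (hS : Ss b h p = 1) : Fs b T c M W h r s p = Co b M p +
    ∑ v, (((1 - s : ℝ) : ℂ) * E (T v) (cz (aw b v) (c v) r) (p v.castSucc) (p 3) +
      ((s * th (g b v p / N b p) : ℝ) : ℂ) * Arms b T c W r v (p v.castSucc, p 3)) := by
  unfold Fs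
  rw [Ff_eq]
  unfold Re
  simp only [sg_one hS, mul_one]

/-- **(a)** no zeros near the `w`-axis. -/
theorem no_zero (hd : ∀ v, Adm (aw b v) (T v)) (hA : ∀ v, AcOK (aw b v) (T v) (c v) W) {C0 : ℝ}
    (hC : ∀ v, Kc (T v) (c v) ≤ C0) {eps : ℝ} (he : 0 < eps) (he2 : eps ≤ 1 / 2) (hM : 0 ≤ M)
    (heM : (4 * M + 3 * C0) * eps < 1) (heW : 2 * W ^ 2 * eps ^ 2 ≤ 1)
    (hr0 : 0 ≤ r) (hr1 : r ≤ 1 / 2) (hs0 : 0 ≤ s) (hs1 : s ≤ 1)
    (hh : h = eps ^ 60 / 4) (hS : Ss b h p = 1) (hN : N b p ≤ 3 * h * Ds b p) :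
    Fs b T c M W h r s p ≠ 0 := by
  have h0 : 0 < h := by rw [hh]; positivity
  have hp := ne_of_Ss h0 hS
  obtain ⟨n, hn0, hn60, hnv⟩ := exists_n b p
  have hN43 := N_le hS
  have hn2 : n ≤ 2 := n_le_two (hn60 ▸ hN43)
  have hh12 : h ≤ 1 / 12 := by
    rw [hh]
    have : eps ^ 60 ≤ (1 / 2) ^ 2 := by
      calc eps ^ 60 ≤ eps ^ 2 := pow_le_pow_of_le_one he.le (by linarith) (by norm_num)
        _ ≤ (1 / 2) ^ 2 := by gcongr
    linarith
  have hN0 := N_nonneg b p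
  have hD : Ds b p = N b p + ‖p 3‖ ^ 60 := rfl
  have hw60 : 0 ≤ ‖p 3‖ ^ 60 := pow_nonneg (norm_nonneg _) _
  have hNe : N b p ≤ (eps * ‖p 3‖) ^ 60 := by
    rw [mul_pow]
    rw [hD] at hN
    have e : eps ^ 60 = 4 * h := by rw [hh]; ring
    rw [e]
    have h3 : (3 / 4) * N b p ≤ 3 * h * ‖p 3‖ ^ 60 := by nlinarith
    linarith
  have hne : n ≤ eps * ‖p 3‖ := by
    rw [← hn60] at hNe
    exact (pow_le_pow_iff_left₀ hn0 (by positivity) (by norm_num)).1 hNe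
  have hw : 0 < ‖p 3‖ := by
    rcases (norm_nonneg (p 3)).eq_or_lt with h1 | h1
    · exfalso
      rw [← h1, mul_zero] at hne
      have h2 : n = 0 := le_antisymm hne hn0
      have h3 : Ds b p = 0 := by
        rw [hD, ← hn60, h2, ← h1]
        norm_num
      exact (Ds_pos (b := b) hp).ne' h3
    · exact h1
  have hC0 : 0 ≤ C0 := (Kc_nonneg _ _).trans (hC 0)
  have he1 : eps ≤ 1 := by linarith
  have hrn : r * n ≤ 1 := by nlinarith
  have hB0 : 0 ≤ eps * ‖p 3‖ ^ 15 := by positivity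
  -- the arms vanish
  have hArm : ∀ v, Arms b T c W r v (p v.castSucc, p 3) = 0 := by
    intro v
    refine (hA v).supp r _ _ ?_
    have h1 : ‖p v.castSucc‖ ≤ eps * ‖p 3‖ ^ aw b v := by
      calc ‖p v.castSucc‖ ≤ n ^ aw b v := hnv v
        _ ≤ (eps * ‖p 3‖) ^ aw b v := by gcongr
        _ = eps ^ aw b v * ‖p 3‖ ^ aw b v := mul_pow _ _ _
        _ ≤ eps ^ 1 * ‖p 3‖ ^ aw b v := by
          refine mul_le_mul_of_nonneg_right ?_ (by positivity)
          exact pow_le_pow_of_le_one he.le he1 (aw_pos b v)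
        _ = _ := by rw [pow_one]
    calc 2 * W ^ 2 * ‖p v.castSucc‖ ^ 2 ≤ 2 * W ^ 2 * (eps * ‖p 3‖ ^ aw b v) ^ 2 := by gcongr
      _ = (2 * W ^ 2 * eps ^ 2) * ‖p 3‖ ^ (2 * aw b v) := by rw [mul_pow, ← pow_mul]; ring
      _ ≤ 1 * ‖p 3‖ ^ (2 * aw b v) := by gcongr
      _ = _ := one_mul _
  have hE : ∀ v, ‖((1 - s : ℝ) : ℂ) * E (T v) (cz (aw b v) (c v) r) (p v.castSucc) (p 3)‖ ≤
      C0 * (eps * ‖p 3‖ ^ 15) := by
    intro v
    rw [norm_mul, Complex.norm_real, Real.norm_eq_abs, abs_of_nonneg (by linarith)]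
    have h1 := (E_le (c := cz (aw b v) (c v) r) (w := p 3) (hd v) hn0 (hnv v)).trans
      (Bd_eps (hd v) hr0 hn0 hrn (norm_nonneg _) he.le he1 hne)
    calc (1 - s) * ‖E (T v) (cz (aw b v) (c v) r) (p v.castSucc) (p 3)‖
        ≤ 1 * ‖E (T v) (cz (aw b v) (c v) r) (p v.castSucc) (p 3)‖ := by
          gcongr
          linarith
      _ = ‖E (T v) (cz (aw b v) (c v) r) (p v.castSucc) (p 3)‖ := one_mul _
      _ ≤ Kc (T v) (c v) * (eps * ‖p 3‖ ^ 15) := h1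
      _ ≤ _ := by gcongr; exact hC v
  have hMP : ‖(M : ℂ) * P b (p 0) (p 1 * p 2)‖ ≤ 4 * M * (eps * ‖p 3‖ ^ 15) := by
    rw [norm_mul, Complex.norm_real, Real.norm_eq_abs, abs_of_nonneg hM]
    calc M * ‖P b (p 0) (p 1 * p 2)‖ ≤ M * (4 * n ^ 15) := by
          gcongr
          exact P_le' hn0 hnv
      _ ≤ M * (4 * (eps * ‖p 3‖) ^ 15) := by gcongr
      _ = 4 * M * (eps ^ 15 * ‖p 3‖ ^ 15) := by rw [mul_pow]; ring
      _ ≤ 4 * M * (eps ^ 1 * ‖p 3‖ ^ 15) := by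
          have : eps ^ 15 ≤ eps ^ 1 := pow_le_pow_of_le_one he.le he1 (by norm_num)
          gcongr
      _ = _ := by rw [pow_one]
  intro hz
  rw [Fs_one hS] at hz
  simp only [hArm, mul_zero, add_zero] at hz
  rw [Fin.sum_univ_three] at hz
  unfold Co at hz
  have hw15 : p 3 ^ 15 = -((M : ℂ) * P b (p 0) (p 1 * p 2)) -
      ((1 - s : ℝ) : ℂ) * E (T 0) (cz (aw b 0) (c 0) r) (p (Fin.castSucc 0)) (p 3) -
      ((1 - s : ℝ) : ℂ) * E (T 1) (cz (aw b 1) (c 1) r) (p (Fin.castSucc 1)) (p 3) -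
      ((1 - s : ℝ) : ℂ) * E (T 2) (cz (aw b 2) (c 2) r) (p (Fin.castSucc 2)) (p 3) := by
    linear_combination hz
  have h1 := congrArg norm hw15
  rw [norm_pow] at h1
  have h2 := norm_sub_le (-((M : ℂ) * P b (p 0) (p 1 * p 2)) -
      ((1 - s : ℝ) : ℂ) * E (T 0) (cz (aw b 0) (c 0) r) (p (Fin.castSucc 0)) (p 3) -
      ((1 - s : ℝ) : ℂ) * E (T 1) (cz (aw b 1) (c 1) r) (p (Fin.castSucc 1)) (p 3))
      (((1 - s : ℝ) : ℂ) * E (T 2) (cz (aw b 2) (c 2) r) (p (Fin.castSucc 2)) (p 3))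
  have h3 := norm_sub_le (-((M : ℂ) * P b (p 0) (p 1 * p 2)) -
      ((1 - s : ℝ) : ℂ) * E (T 0) (cz (aw b 0) (c 0) r) (p (Fin.castSucc 0)) (p 3))
      (((1 - s : ℝ) : ℂ) * E (T 1) (cz (aw b 1) (c 1) r) (p (Fin.castSucc 1)) (p 3))
  have h4 := norm_sub_le (-((M : ℂ) * P b (p 0) (p 1 * p 2)))
      (((1 - s : ℝ) : ℂ) * E (T 0) (cz (aw b 0) (c 0) r) (p (Fin.castSucc 0)) (p 3))
  rw [norm_neg] at h4
  have k0 := hE 0
  have k1 := hE 1
  have k2 := hE 2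
  have hw15' : 0 < ‖p 3‖ ^ 15 := by positivity
  have hfin : ‖p 3‖ ^ 15 ≤ ((4 * M + 3 * C0) * eps) * ‖p 3‖ ^ 15 := by nlinarith
  nlinarith

/-! ### the far region -/

theorem hub_congr {q : E4} (hq : ∀ v : Fin 3, q v.castSucc = p v.castSucc) (v : Fin 3) :
    g b v q = g b v p := by
  unfold g
  rw [hq]

theorem N_congr {q : E4} (hq : ∀ v : Fin 3, q v.castSucc = p v.castSucc) : N b q = N b p :=
  Finset.sum_congr rfl fun v _ => hub_congr hq v

theorem Qs_congr {q : E4} (hq : ∀ v : Fin 3, q v.castSucc = p v.castSucc) : Qs b q = Qs b p := by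
  unfold Qs
  rw [N_congr hq]
  congr 1
  exact Finset.sum_congr rfl fun v _ => by rw [hub_congr hq]

theorem norm_le_two (hN : N b p ≤ 4 / 3) (v : Fin 3) : ‖p v.castSucc‖ ≤ 2 := by
  by_contra hn
  push Not at hn
  have h1 : g b v p ≤ 4 / 3 := (g_le_N b v p).trans hN
  unfold g at h1
  have hb := bw_pos b v
  have h2 : (2 : ℝ) ^ 1 ≤ ‖p v.castSucc‖ ^ (2 * bw b v) := by
    calc (2 : ℝ) ^ 1 ≤ 2 ^ (2 * bw b v) := pow_le_pow_right₀ (by norm_num) (by omega)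
      _ ≤ ‖p v.castSucc‖ ^ (2 * bw b v) := by gcongr
  linarith

/-- the derivative estimate of the cut off arms. -/
def Der (b : Bool) (T : Fin 3 → Finset (ℕ × ℕ)) (c : Fin 3 → ℕ × ℕ → ℂ) (W C2 : ℝ) : Prop :=
  ∀ v : Fin 3, ∀ r : ℝ, 0 < r → r ≤ 1 → ∀ u w : ℂ, u ≠ 0 → ‖u‖ ≤ 2 → 1 ≤ ‖w‖ → ∀ h : ℂ, ∃ d : ℂ,
    HasDerivAt (fun ε : ℝ => Ac (aw b v) (T v) (c v) W r (u, w + (ε : ℂ) * h)) d 0 ∧
      ‖d‖ ≤ C2 * ‖w‖ ^ 13 * ‖h‖

/-- near a point of the hub region the function is given on the star sphere. -/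
theorem ev_sg (h0 : 0 < h) (hp : p ≠ 0) (hN : 2 * h * Ds b p < N b p) :
    ∀ᶠ q in 𝓝 p, sg b h q = Qs b q ^ (-(1 / 60) : ℝ) := by
  filter_upwards [ev_Qs (b := b) h0 hp hN] with q hq
  unfold sg
  rw [hq]

/-- **(b)** the far region. -/
theorem reg_far (hd : ∀ v, Adm (aw b v) (T v)) (hA : ∀ v, AcOK (aw b v) (T v) (c v) W) {C0 : ℝ}
    (hC : ∀ v, Kc (T v) (c v) ≤ C0) {C2 : ℝ} (hC2 : 0 ≤ C2) (hder : Der b T c W C2) {W1 : ℝ}
    (hW1 : 1 ≤ W1) (hW1' : 3 * (2 ^ 15 * C0) + 3 * C2 < 15 * W1) (h0 : 0 < h)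
    (hr0 : 0 < r) (hr1 : r ≤ 1 / 2) (hs0 : 0 ≤ s) (hs1 : s ≤ 1)
    (hS : Ss b h p = 1) (hN : 2 * h * Ds b p < N b p) (hw : W1 ≤ ‖p 3‖) (β : ℂ) :
    ∃ y, fderiv ℝ (Fs b T c M W h r s) p y = β := by
  have hp := ne_of_Ss h0 hS
  have hN43 := N_le hS
  obtain ⟨n, hn0, hn60, hnv⟩ := exists_n b p
  have hn2 : n ≤ 2 := n_le_two (hn60 ▸ hN43)
  have hrn : r * n ≤ 1 := by nlinarith
  have hw1 : 1 ≤ ‖p 3‖ := hW1.trans hw
  have hQ : Qs b p = 1 := by rw [← hS, (ev_Qs (b := b) h0 hp hN).self_of_nhds]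
  refine onto_coord 3 (fun z hz => ?_) β
  set y : E4 := Pi.single 3 z with hy
  have hyv : ∀ v : Fin 3, y v.castSucc = 0 := by
    intro v
    rw [hy, Pi.single_apply, if_neg]
    exact (Fin.castSucc_lt_last v).ne
  have hy3 : y 3 = z := by rw [hy, Pi.single_eq_same]
  have hcoord : ∀ (ε : ℝ) (v : Fin 3), (p + ε • y) v.castSucc = p v.castSucc := by
    intro ε v
    rw [Pi.add_apply, Pi.smul_apply, hyv, smul_zero, add_zero]
  have hcoord3 : ∀ ε : ℝ, (p + ε • y) 3 = p 3 + ε • z := by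
    intro ε
    rw [Pi.add_apply, Pi.smul_apply, hy3]
  -- derivatives of the arms
  have hAd : ∀ v, ∃ d : ℂ, HasDerivAt (fun ε : ℝ =>
      Arms b T c W r v (p v.castSucc, p 3 + ε • z)) d 0 ∧ ‖d‖ ≤ C2 * ‖p 3‖ ^ 13 * ‖z‖ := by
    intro v
    by_cases hv : p v.castSucc = 0
    · refine ⟨0, ?_, by rw [norm_zero]; positivity⟩
      have e : (fun ε : ℝ => Arms b T c W r v (p v.castSucc, p 3 + ε • z)) = fun _ => 0 := by
        funext ε
        refine (hA v).supp r _ _ ?_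
        rw [hv, norm_zero]
        simp
      rw [e]
      exact hasDerivAt_const _ _
    · obtain ⟨d, h1, h2⟩ := hder v r hr0 (by linarith) (p v.castSucc) (p 3) hv
        (norm_le_two hN43 v) hw1 z
      refine ⟨d, ?_, h2⟩
      have e : (fun ε : ℝ => Arms b T c W r v (p v.castSucc, p 3 + ε • z)) =
          fun ε : ℝ => Ac (aw b v) (T v) (c v) W r (p v.castSucc, p 3 + (ε : ℂ) * z) := by
        funext ε
        rw [Complex.real_smul]
        rfl
      rw [e]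
      exact h1
  choose dA hdA hdA' using hAd
  -- the derivative of the whole function
  have hder : HasDerivAt (fun ε : ℝ => Fs b T c M W h r s (p + ε • y))
      ((M * ∑ v, dP b p v * y v.castSucc + 15 * p 3 ^ 14 * y 3) +
        ∑ v, (((1 - s : ℝ) : ℂ) * (Ev (T v) (cz (aw b v) (c v) r) (p v.castSucc) (p 3) * 0 +
            Ew (T v) (cz (aw b v) (c v) r) (p v.castSucc) (p 3) * z) +
          ((s * th (g b v p / N b p) : ℝ) : ℂ) * dA v)) 0 := by
    have h1 : HasDerivAt (fun ε : ℝ => Co b M (p + ε • y) +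
        ∑ v, (((1 - s : ℝ) : ℂ) * E (T v) (cz (aw b v) (c v) r) (p v.castSucc + ε • (0 : ℂ))
            (p 3 + ε • z) +
          ((s * th (g b v p / N b p) : ℝ) : ℂ) * Arms b T c W r v (p v.castSucc, p 3 + ε • z)))
        ((M * ∑ v, dP b p v * y v.castSucc + 15 * p 3 ^ 14 * y 3) +
        ∑ v, (((1 - s : ℝ) : ℂ) * (Ev (T v) (cz (aw b v) (c v) r) (p v.castSucc) (p 3) * 0 +
            Ew (T v) (cz (aw b v) (c v) r) (p v.castSucc) (p 3) * z) +
          ((s * th (g b v p / N b p) : ℝ) : ℂ) * dA v)) 0 := by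
      refine (hasDerivAt_Co b M p y).fun_add (HasDerivAt.fun_sum fun v _ => ?_)
      exact ((hasDerivAt_E (T v) (cz (aw b v) (c v) r) (p v.castSucc) (p 3) 0 z).const_mul
        _).fun_add ((hdA v).const_mul _)
    refine h1.congr_of_eventuallyEq ?_
    filter_upwards [ev_line (y := y) (ev_sg (b := b) h0 hp hN)] with ε hε
    have hQε : Qs b (p + ε • y) = 1 := by rw [Qs_congr (hcoord ε), hQ]
    rw [hQε, Real.one_rpow] at hε
    unfold Fs
    rw [Ff_eq]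
    unfold Re
    simp only [hε, mul_one, hcoord, hcoord3, smul_zero, add_zero, N_congr (hcoord ε),
      hub_congr (hcoord ε)]
  rw [fderiv_of_line (differentiableAt_Fs hA h0 hp) hder]
  simp only [hyv, hy3, mul_zero, Finset.sum_const_zero, zero_add]
  -- the estimate
  have hC0 : 0 ≤ C0 := (Kc_nonneg _ _).trans (hC 0)
  have hz' : 0 < ‖z‖ := norm_pos_iff.2 hz
  have hw0 : 0 < ‖p 3‖ := by linarith
  have hEw : ∀ v, ‖Ew (T v) (cz (aw b v) (c v) r) (p v.castSucc) (p 3)‖ ≤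
      2 ^ 15 * C0 * ‖p 3‖ ^ 13 := by
    intro v
    have h1 := (Ew_le (c := cz (aw b v) (c v) r) (w := p 3) (hd v) hn0 (hnv v)).trans
      (Bd_two (hd v) hr0.le hn0 hrn hn2 hw1)
    rw [norm_mul] at h1
    have h2 : Kc (T v) (c v) * (2 ^ 15 * ‖p 3‖ ^ 14) ≤ ‖p 3‖ * (2 ^ 15 * C0 * ‖p 3‖ ^ 13) := by
      calc Kc (T v) (c v) * (2 ^ 15 * ‖p 3‖ ^ 14) ≤ C0 * (2 ^ 15 * ‖p 3‖ ^ 14) := by
            gcongr
            exact hC v
        _ = _ := by ring
    exact le_of_mul_le_mul_left (h1.trans h2) hw0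
  have hterm : ∀ v, ‖((1 - s : ℝ) : ℂ) * (Ew (T v) (cz (aw b v) (c v) r) (p v.castSucc) (p 3) * z) +
      ((s * th (g b v p / N b p) : ℝ) : ℂ) * dA v‖ ≤
      (2 ^ 15 * C0 + C2) * ‖p 3‖ ^ 13 * ‖z‖ := by
    intro v
    refine (norm_add_le _ _).trans ?_
    rw [norm_mul, norm_mul, norm_mul, Complex.norm_real, Complex.norm_real, Real.norm_eq_abs,
      Real.norm_eq_abs, abs_of_nonneg (by linarith : 0 ≤ 1 - s),
      abs_of_nonneg (mul_nonneg hs0 (th_nonneg _))]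
    have h1 : (1 - s) * (‖Ew (T v) (cz (aw b v) (c v) r) (p v.castSucc) (p 3)‖ * ‖z‖) ≤
        1 * (2 ^ 15 * C0 * ‖p 3‖ ^ 13 * ‖z‖) := by
      have := hEw v
      gcongr
      linarith
    have h2 : (s * th (g b v p / N b p)) * ‖dA v‖ ≤ 1 * (C2 * ‖p 3‖ ^ 13 * ‖z‖) := by
      have h3 := hdA' v
      have h4 : s * th (g b v p / N b p) ≤ 1 := by
        calc s * th (g b v p / N b p) ≤ 1 * 1 :=
              mul_le_mul hs1 (th_le_one _) (th_nonneg _) zero_le_one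
          _ = 1 := one_mul 1
      gcongr
    calc _ ≤ 1 * (2 ^ 15 * C0 * ‖p 3‖ ^ 13 * ‖z‖) + 1 * (C2 * ‖p 3‖ ^ 13 * ‖z‖) := add_le_add h1 h2
      _ = _ := by ring
  intro hzero
  have hsum : ‖∑ v, (((1 - s : ℝ) : ℂ) *
      (Ew (T v) (cz (aw b v) (c v) r) (p v.castSucc) (p 3) * z) +
      ((s * th (g b v p / N b p) : ℝ) : ℂ) * dA v)‖ ≤
      3 * ((2 ^ 15 * C0 + C2) * ‖p 3‖ ^ 13 * ‖z‖) := by
    refine (norm_sum_le _ _).trans ?_
    refine (Finset.sum_le_sum fun v _ => hterm v).trans (le_of_eq ?_)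
    simp
  have hEq : 15 * p 3 ^ 14 * z = -∑ v, (((1 - s : ℝ) : ℂ) *
      (Ew (T v) (cz (aw b v) (c v) r) (p v.castSucc) (p 3) * z) +
      ((s * th (g b v p / N b p) : ℝ) : ℂ) * dA v) := by
    linear_combination hzero
  have h1 := congrArg norm hEq
  rw [norm_neg, norm_mul, norm_mul, norm_pow, Complex.norm_ofNat] at h1
  have h2 : 15 * ‖p 3‖ ^ 14 * ‖z‖ ≤ (3 * (2 ^ 15 * C0) + 3 * C2) * ‖p 3‖ ^ 13 * ‖z‖ := by
    rw [h1]
    refine hsum.trans (le_of_eq (by ring))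
  have h3 : (3 * (2 ^ 15 * C0) + 3 * C2) * ‖p 3‖ ^ 13 * ‖z‖ < 15 * ‖p 3‖ ^ 14 * ‖z‖ := by
    have h4 : (3 * (2 ^ 15 * C0) + 3 * C2) < 15 * ‖p 3‖ := hW1'.trans_le (by linarith)
    have h5 : 0 < ‖p 3‖ ^ 13 * ‖z‖ := by positivity
    calc (3 * (2 ^ 15 * C0) + 3 * C2) * ‖p 3‖ ^ 13 * ‖z‖
        = (3 * (2 ^ 15 * C0) + 3 * C2) * (‖p 3‖ ^ 13 * ‖z‖) := by ring
      _ < 15 * ‖p 3‖ * (‖p 3‖ ^ 13 * ‖z‖) := by gcongr
      _ = _ := by ring
  linarith

end Crest.Agent.R267.NdH_484
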