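import Mathlib
import Crest.Agent.R267.NdR_484
import Crest.Agent.R267.Amal_52

-- ▼ part R267/NdP_484
section

/-!
# S0406, T3N entrance: planar inequality for convex Newton polygons (helper484)

`pl` : for a polynomial `∑ c_p V^{p.1} W^{p.2}` with strictly convex exponent set every monomial is
bounded by the two linear combinations with weights `la`, `mu`, for `V` small and ALL `W`.
-/

set_option autoImplicit false
set_option linter.unusedSectionVars false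

noncomputable section

open Set Filter Topology Finset

namespace Crest.Agent.R267.NdP_484

/-- monomial. -/
def mon (p : ℕ × ℕ) (V W : ℂ) : ℂ := V ^ p.1 * W ^ p.2

/-- weighted sum. -/
def ws (T : Finset (ℕ × ℕ)) (c la : ℕ × ℕ → ℂ) (V W : ℂ) : ℂ := ∑ p ∈ T, la p * (c p * mon p V W)

/-- a strictly convex polygon. -/
structure Conv (T : Finset (ℕ × ℕ)) : Prop where
  bot : ∃ p ∈ T, p.2 = 0
  mono : ∀ p ∈ T, ∀ q ∈ T, p.1 < q.1 → q.2 < p.2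
  inj : ∀ p ∈ T, ∀ q ∈ T, p.1 = q.1 → p = q
  conv : ∀ p ∈ T, ∀ m ∈ T, ∀ q ∈ T, p.1 < m.1 → m.1 < q.1 →
    (m.2 - q.2) * (m.1 - p.1) < (p.2 - m.2) * (q.1 - m.1)

variable {T : Finset (ℕ × ℕ)} {c : ℕ × ℕ → ℂ}

/-- the binomial relation. -/
theorem rel (h : Conv T) {p m q : ℕ × ℕ} (hp : p ∈ T) (hm : m ∈ T) (hq : q ∈ T)
    (h1 : p.1 < m.1) (h2 : m.1 < q.1) :
    ∃ a b e : ℕ, 0 < a ∧ 0 < b ∧ 0 < e ∧ ∀ V W : ℂ,
      mon p V W ^ a * mon q V W ^ b = mon m V W ^ (a + b) * V ^ e := by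
  have k1 := h.mono _ hp _ hm h1
  have k2 := h.mono _ hm _ hq h2
  have k3 := h.conv _ hp _ hm _ hq h1 h2
  obtain ⟨a, ha⟩ := Nat.exists_eq_add_of_lt k2
  obtain ⟨b, hb⟩ := Nat.exists_eq_add_of_lt k1
  obtain ⟨s, hs⟩ := Nat.exists_eq_add_of_lt h1
  obtain ⟨t, ht⟩ := Nat.exists_eq_add_of_lt h2
  have e1 : m.2 - q.2 = a + 1 := by omega
  have e2 : m.1 - p.1 = s + 1 := by omega
  have e3 : p.2 - m.2 = b + 1 := by omega
  have e4 : q.1 - m.1 = t + 1 := by omega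
  rw [e1, e2, e3, e4] at k3
  obtain ⟨e, he⟩ := Nat.exists_eq_add_of_lt k3
  refine ⟨a + 1, b + 1, e + 1, by omega, by omega, by omega, fun V W => ?_⟩
  unfold mon
  simp only [mul_pow, ← pow_mul]
  have f1 : p.1 * (a + 1) + q.1 * (b + 1) = m.1 * (a + 1 + (b + 1)) + (e + 1) := by
    have : q.1 = p.1 + s + 1 + t + 1 := by omega
    have h' : m.1 = p.1 + s + 1 := by omega
    rw [this, h']
    nlinarith
  have f2 : p.2 * (a + 1) + q.2 * (b + 1) = m.2 * (a + 1 + (b + 1)) := by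
    have : p.2 = q.2 + a + 1 + b + 1 := by omega
    have h' : m.2 = q.2 + a + 1 := by omega
    rw [this, h']
    ring
  calc V ^ (p.1 * (a + 1)) * W ^ (p.2 * (a + 1)) * (V ^ (q.1 * (b + 1)) * W ^ (q.2 * (b + 1)))
      = V ^ (p.1 * (a + 1) + q.1 * (b + 1)) * W ^ (p.2 * (a + 1) + q.2 * (b + 1)) := by
        rw [pow_add, pow_add]; ring
    _ = _ := by rw [f1, f2, pow_add]; ring

/-- **planar inequality.** -/
theorem pl (h : Conv T) (hc : ∀ p ∈ T, c p ≠ 0) {la mu : ℕ × ℕ → ℂ}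
    (h1 : ∀ p ∈ T, la p ≠ 0 ∨ mu p ≠ 0)
    (h2 : ∀ p ∈ T, ∀ q ∈ T, p ≠ q → la p * mu q ≠ la q * mu p) :
    ∃ κ > 0, ∃ δ > 0, ∀ V W : ℂ, V ≠ 0 → ‖V‖ < δ → ∀ p ∈ T,
      κ * ‖mon p V W‖ ≤ max ‖ws T c la V W‖ ‖ws T c mu V W‖ := by
  classical
  by_contra hn
  push Not at hn
  have key : ∀ n : ℕ, ∃ V W : ℂ, V ≠ 0 ∧ ‖V‖ < 1 / ((n : ℝ) + 1) ∧ ∃ p ∈ T,
      max ‖ws T c la V W‖ ‖ws T c mu V W‖ < 1 / ((n : ℝ) + 1) * ‖mon p V W‖ := by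
    intro n
    have hp : 0 < 1 / ((n : ℝ) + 1) := by positivity
    exact hn _ hp _ hp
  choose V W hV0 hV1 P hP hPm using key
  obtain ⟨q0, hq0, hq0'⟩ := h.bot
  have hmax : ∀ n, ∃ v ∈ T, ∀ w ∈ T, ‖mon w (V n) (W n)‖ ≤ ‖mon v (V n) (W n)‖ := fun n =>
    T.exists_max_image (fun v => ‖mon v (V n) (W n)‖) ⟨q0, hq0⟩
  choose vm hvm hvmax using hmax
  set M : ℕ → ℝ := fun n => ‖mon (vm n) (V n) (W n)‖ with hMdef
  have hM : ∀ n, 0 < M n := by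
    intro n
    refine lt_of_lt_of_le ?_ (hvmax n q0 hq0)
    unfold mon
    rw [hq0', pow_zero, mul_one, norm_pow]
    exact pow_pos (norm_pos_iff.2 (hV0 n)) _
  let Y : ℕ → ({v // v ∈ T} → ℂ) := fun n v => mon v.1 (V n) (W n) / (M n : ℂ)
  have hY : ∀ n, Y n ∈ Metric.closedBall (0 : {v // v ∈ T} → ℂ) 1 := by
    intro n
    rw [mem_closedBall_zero_iff, pi_norm_le_iff_of_nonneg zero_le_one]
    intro v
    change ‖mon v.1 (V n) (W n) / (M n : ℂ)‖ ≤ 1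
    rw [norm_div, Complex.norm_real, Real.norm_eq_abs, abs_of_pos (hM n), div_le_one (hM n)]
    exact hvmax n v.1 v.2
  obtain ⟨Z, -, φ, hφ, hZ⟩ := (isCompact_closedBall (0 : {v // v ∈ T} → ℂ) 1).tendsto_subseq hY
  let Ξ : ℕ × ℕ → ℂ := fun v => if hv : v ∈ T then Z ⟨v, hv⟩ else 0
  have hΞ : ∀ v ∈ T, Tendsto (fun n => mon v (V (φ n)) (W (φ n)) / (M (φ n) : ℂ)) atTop
      (𝓝 (Ξ v)) := by
    intro v hv
    have : Ξ v = Z ⟨v, hv⟩ := dif_pos hv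
    rw [this]
    exact (tendsto_pi_nhds.1 hZ) ⟨v, hv⟩
  have hVt : Tendsto (fun n => V (φ n)) atTop (𝓝 0) := by
    have : Tendsto V atTop (𝓝 0) := by
      rw [tendsto_zero_iff_norm_tendsto_zero]
      exact squeeze_zero (fun n => norm_nonneg _) (fun n => (hV1 n).le)
        tendsto_one_div_add_atTop_nhds_zero_nat
    exact this.comp hφ.tendsto_atTop
  -- linear equations
  have lin : ∀ nu : ℕ × ℕ → ℂ, (∀ n, ‖ws T c nu (V n) (W n)‖ ≤ 1 / ((n : ℝ) + 1) * M n) →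
      ∑ v ∈ T, nu v * (c v * Ξ v) = 0 := by
    intro nu hnu
    have e1 : Tendsto (fun n => ws T c nu (V (φ n)) (W (φ n)) / (M (φ n) : ℂ)) atTop
        (𝓝 (∑ v ∈ T, nu v * (c v * Ξ v))) := by
      have e2 : (fun n => ws T c nu (V (φ n)) (W (φ n)) / (M (φ n) : ℂ)) =
          fun n => ∑ v ∈ T, nu v * (c v * (mon v (V (φ n)) (W (φ n)) / (M (φ n) : ℂ))) := by
        funext n
        unfold ws
        rw [Finset.sum_div]
        exact Finset.sum_congr rfl fun v _ => by ring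
      rw [e2]
      exact tendsto_finsetSum _ fun v hv => ((hΞ v hv).const_mul _).const_mul _
    have e3 : Tendsto (fun n => ws T c nu (V (φ n)) (W (φ n)) / (M (φ n) : ℂ)) atTop (𝓝 0) := by
      rw [tendsto_zero_iff_norm_tendsto_zero]
      have e4 : Tendsto (fun n => 1 / (((φ n : ℕ) : ℝ) + 1)) atTop (𝓝 0) :=
        tendsto_one_div_add_atTop_nhds_zero_nat.comp hφ.tendsto_atTop
      refine squeeze_zero (fun n => norm_nonneg _) (fun n => ?_) e4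
      rw [norm_div, Complex.norm_real, Real.norm_eq_abs, abs_of_pos (hM _), div_le_iff₀ (hM _)]
      exact hnu _
    exact tendsto_nhds_unique e1 e3
  have hle : ∀ n, max ‖ws T c la (V n) (W n)‖ ‖ws T c mu (V n) (W n)‖ ≤
      1 / ((n : ℝ) + 1) * M n := fun n => (hPm n).le.trans
    (mul_le_mul_of_nonneg_left (hvmax n _ (hP n)) (by positivity))
  have L1 := lin la fun n => (le_max_left _ _).trans (hle n)
  have L2 := lin mu fun n => (le_max_right _ _).trans (hle n)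
  -- relations
  have R : ∀ p ∈ T, ∀ m ∈ T, ∀ q ∈ T, p.1 < m.1 → m.1 < q.1 → Ξ p ≠ 0 → Ξ q ≠ 0 → False := by
    intro p hp m hm q hq k1 k2 hp0 hq0
    obtain ⟨a, b, e, ha, hb, he, hrel⟩ := rel h hp hm hq k1 k2
    have t1 : Tendsto (fun n => (mon p (V (φ n)) (W (φ n)) / (M (φ n) : ℂ)) ^ a *
        (mon q (V (φ n)) (W (φ n)) / (M (φ n) : ℂ)) ^ b) atTop (𝓝 (Ξ p ^ a * Ξ q ^ b)) :=
      ((hΞ p hp).pow a).mul ((hΞ q hq).pow b)
    have t2 : Tendsto (fun n => (mon m (V (φ n)) (W (φ n)) / (M (φ n) : ℂ)) ^ (a + b) *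
        V (φ n) ^ e) atTop (𝓝 (Ξ m ^ (a + b) * 0 ^ e)) := ((hΞ m hm).pow _).mul (hVt.pow e)
    rw [zero_pow he.ne', mul_zero] at t2
    have t3 : Ξ p ^ a * Ξ q ^ b = 0 := by
      refine tendsto_nhds_unique t1 (t2.congr fun n => ?_)
      rw [div_pow, div_pow, div_pow, div_mul_div_comm, hrel, pow_add (M (φ n) : ℂ)]
      ring
    rcases mul_eq_zero.1 t3 with h' | h'
    · exact hp0 (pow_eq_zero_iff ha.ne' |>.1 h')
    · exact hq0 (pow_eq_zero_iff hb.ne' |>.1 h')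
  -- some coordinate does not vanish
  have hne : ∃ p ∈ T, Ξ p ≠ 0 := by
    by_contra hall
    push Not at hall
    have s1 : Tendsto (fun n => ∑ v ∈ T, ‖mon v (V (φ n)) (W (φ n)) / (M (φ n) : ℂ)‖) atTop
        (𝓝 (∑ v ∈ T, ‖Ξ v‖)) := tendsto_finsetSum _ fun v hv => (hΞ v hv).norm
    rw [Finset.sum_eq_zero fun v hv => by rw [hall v hv, norm_zero]] at s1
    have s2 : ∀ n, 1 ≤ ∑ v ∈ T, ‖mon v (V (φ n)) (W (φ n)) / (M (φ n) : ℂ)‖ := by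
      intro n
      have s3 : ‖mon (vm (φ n)) (V (φ n)) (W (φ n)) / (M (φ n) : ℂ)‖ = 1 := by
        rw [norm_div, Complex.norm_real, Real.norm_eq_abs, abs_of_pos (hM _)]
        exact div_self (hM (φ n)).ne'
      calc (1 : ℝ) = ‖mon (vm (φ n)) (V (φ n)) (W (φ n)) / (M (φ n) : ℂ)‖ := s3.symm
        _ ≤ _ := Finset.single_le_sum
          (f := fun v => ‖mon v (V (φ n)) (W (φ n)) / (M (φ n) : ℂ)‖)
          (fun _ _ => norm_nonneg _) (hvm (φ n))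
    exact absurd (ge_of_tendsto s1 (Eventually.of_forall s2)) (by norm_num)
  obtain ⟨p, hp, hp0⟩ := hne
  by_cases hq : ∃ q ∈ T, q ≠ p ∧ Ξ q ≠ 0
  · obtain ⟨q, hq, hqp, hq0⟩ := hq
    have hz : ∀ m ∈ T, m ≠ p ∧ m ≠ q → Ξ m = 0 := by
      intro m hm hmn
      by_contra hm0
      have d1 : p.1 ≠ q.1 := fun e => hqp (h.inj _ hq _ hp e.symm)
      have d2 : m.1 ≠ p.1 := fun e => hmn.1 (h.inj _ hm _ hp e)
      have d3 : m.1 ≠ q.1 := fun e => hmn.2 (h.inj _ hm _ hq e)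
      rcases lt_trichotomy p.1 q.1 with a1 | a1 | a1
      · rcases lt_or_gt_of_ne d2 with a2 | a2
        · exact R m hm p hp q hq a2 a1 hm0 hq0
        · rcases lt_or_gt_of_ne d3 with a3 | a3
          · exact R p hp m hm q hq a2 a3 hp0 hq0
          · exact R p hp q hq m hm a1 a3 hp0 hm0
      · exact d1 a1
      · rcases lt_or_gt_of_ne d3 with a2 | a2
        · exact R m hm q hq p hp a2 a1 hm0 hp0
        · rcases lt_or_gt_of_ne d2 with a3 | a3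
          · exact R q hq m hm p hp a2 a3 hq0 hp0
          · exact R q hq p hp m hm a1 a3 hq0 hm0
    have two : ∀ nu : ℕ × ℕ → ℂ, ∑ v ∈ T, nu v * (c v * Ξ v) = 0 →
        nu p * (c p * Ξ p) + nu q * (c q * Ξ q) = 0 := by
      intro nu hnu
      rw [← hnu]
      symm
      refine Finset.sum_eq_add p q hqp.symm (fun m hm hmn => ?_) (fun h' => absurd hp h')
        (fun h' => absurd hq h')
      rw [hz m hm hmn, mul_zero, mul_zero]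
    have T1 := two la L1
    have T2 := two mu L2
    have hdet := h2 p hp q hq hqp.symm
    have hX : c q * Ξ q = 0 := by
      have : (la p * mu q - la q * mu p) * (c q * Ξ q) = 0 := by
        linear_combination la p * T2 - mu p * T1
      exact (mul_eq_zero.1 this).resolve_left (sub_ne_zero.2 hdet)
    exact (mul_ne_zero (hc q hq) hq0) hX
  · push Not at hq
    have one : ∀ nu : ℕ × ℕ → ℂ, ∑ v ∈ T, nu v * (c v * Ξ v) = 0 → nu p = 0 := by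
      intro nu hnu
      rw [Finset.sum_eq_single p (fun m hm hmp => by rw [hq m hm hmp, mul_zero, mul_zero])
        (fun h' => absurd hp h')] at hnu
      exact (mul_eq_zero.1 hnu).resolve_right (mul_ne_zero (hc p hp) hp0)
    rcases h1 p hp with h' | h'
    · exact h' (one la L1)
    · exact h' (one mu L2)

end Crest.Agent.R267.NdP_484
end
end

-- ▼ part R267/NdQ_484
section

/-!
# S0406, T3N entrance: tube estimates (helper484)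
-/

set_option autoImplicit false
set_option linter.unusedSectionVars false

noncomputable section

open Set Filter Topology Finset
open Crest.Agent.R267.NdP_484 Crest.Agent.R267.NdR_484

namespace Crest.Agent.R267.NdQ_484

/-! ### the core -/

/-- `∂P/∂s`. -/
def Ps (b : Bool) (s t : ℂ) : ℂ := bif b then 2 * s * t + t ^ 3 else t ^ 2 + 3 * s ^ 2 * t

/-- `∂P/∂t`. -/
def Pt (b : Bool) (s t : ℂ) : ℂ := bif b then s ^ 2 + 3 * s * t ^ 2 else 2 * s * t + s ^ 3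

theorem low_true {s t : ℂ} {n : ℝ} (hn : 0 ≤ n) (hs : ‖s‖ ≤ n ^ 6) (ht : ‖t‖ ≤ n ^ 3)
    (h : ‖s‖ = n ^ 6 ∨ ‖t‖ = n ^ 3) :
    (1 / 4) * n ^ 9 ≤ ‖2 * s * t + t ^ 3‖ ∨ (1 / 4) * n ^ 12 ≤ ‖s ^ 2 + 3 * s * t ^ 2‖ := by
  have e1 : 2 * s * t + t ^ 3 = t * (2 * s + t ^ 2) := by ring
  have e2 : s ^ 2 + 3 * s * t ^ 2 = s * (s + 3 * t ^ 2) := by ring
  rw [e1, e2, norm_mul, norm_mul]
  have hA := norm_nonneg s
  have hB := norm_nonneg t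
  have hn3 : 0 ≤ n ^ 3 := by positivity
  have hn6 : 0 ≤ n ^ 6 := by positivity
  have k1 : ‖t‖ ^ 2 - 2 * ‖s‖ ≤ ‖2 * s + t ^ 2‖ := by
    have := norm_sub_norm_le (t ^ 2) (-(2 * s))
    rw [norm_neg, norm_mul, norm_pow, Complex.norm_ofNat] at this
    have e : t ^ 2 - -(2 * s) = 2 * s + t ^ 2 := by ring
    rwa [e] at this
  have k2 : 2 * ‖s‖ - ‖t‖ ^ 2 ≤ ‖2 * s + t ^ 2‖ := by
    have := norm_sub_norm_le (2 * s) (-(t ^ 2))
    rw [norm_neg, norm_mul, norm_pow, Complex.norm_ofNat] at this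
    have e : 2 * s - -(t ^ 2) = 2 * s + t ^ 2 := by ring
    rwa [e] at this
  have k3 : 3 * ‖t‖ ^ 2 - ‖s‖ ≤ ‖s + 3 * t ^ 2‖ := by
    have := norm_sub_norm_le (3 * t ^ 2) (-s)
    rw [norm_neg, norm_mul, norm_pow, Complex.norm_ofNat] at this
    have e : 3 * t ^ 2 - -s = s + 3 * t ^ 2 := by ring
    rwa [e] at this
  have k4 : ‖s‖ - 3 * ‖t‖ ^ 2 ≤ ‖s + 3 * t ^ 2‖ := by
    have := norm_sub_norm_le s (-(3 * t ^ 2))
    rw [norm_neg, norm_mul, norm_pow, Complex.norm_ofNat] at this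
    have e : s - -(3 * t ^ 2) = s + 3 * t ^ 2 := by ring
    rwa [e] at this
  rcases h with h | h
  · by_cases hc : n ^ 3 / 4 ≤ ‖t‖
    · left
      have h1 : ‖t‖ ^ 2 ≤ n ^ 6 := by
        calc ‖t‖ ^ 2 ≤ (n ^ 3) ^ 2 := by gcongr
          _ = n ^ 6 := by ring
      have h2 : n ^ 6 ≤ ‖2 * s + t ^ 2‖ := by rw [h] at k2; linarith
      calc (1 / 4) * n ^ 9 = (n ^ 3 / 4) * n ^ 6 := by ring
        _ ≤ ‖t‖ * ‖2 * s + t ^ 2‖ := by gcongr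
    · right
      push Not at hc
      have h1 : ‖t‖ ^ 2 ≤ n ^ 6 / 16 := by
        calc ‖t‖ ^ 2 ≤ (n ^ 3 / 4) ^ 2 := by gcongr
          _ = n ^ 6 / 16 := by ring
      have h2 : n ^ 6 / 4 ≤ ‖s + 3 * t ^ 2‖ := by rw [h] at k4; linarith
      calc (1 / 4) * n ^ 12 = n ^ 6 * (n ^ 6 / 4) := by ring
        _ ≤ ‖s‖ * ‖s + 3 * t ^ 2‖ := by rw [h]; gcongr
  · have ht2 : ‖t‖ ^ 2 = n ^ 6 := by rw [h]; ring
    by_cases hc : n ^ 6 / 4 ≤ ‖2 * s + t ^ 2‖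
    · left
      calc (1 / 4) * n ^ 9 = n ^ 3 * (n ^ 6 / 4) := by ring
        _ ≤ ‖t‖ * ‖2 * s + t ^ 2‖ := by rw [h]; gcongr
    · right
      push Not at hc
      have h1 : n ^ 6 * (3 / 8) ≤ ‖s‖ := by rw [ht2] at k1; linarith
      have h2 : n ^ 6 * 2 ≤ ‖s + 3 * t ^ 2‖ := by rw [ht2] at k3; linarith
      calc (1 / 4) * n ^ 12 ≤ (n ^ 6 * (3 / 8)) * (n ^ 6 * 2) := by nlinarith [mul_nonneg hn6 hn6]
        _ ≤ ‖s‖ * ‖s + 3 * t ^ 2‖ := by gcongr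

/-- weight of `s`. -/
def al (b : Bool) : ℕ := bif b then 6 else 3

/-- weight of `t`. -/
def be (b : Bool) : ℕ := bif b then 3 else 6

theorem low (b : Bool) {s t : ℂ} {n : ℝ} (hn : 0 ≤ n) (hs : ‖s‖ ≤ n ^ al b) (ht : ‖t‖ ≤ n ^ be b)
    (h : ‖s‖ = n ^ al b ∨ ‖t‖ = n ^ be b) :
    (1 / 4) * n ^ (15 - al b) ≤ ‖Ps b s t‖ ∨ (1 / 4) * n ^ (15 - be b) ≤ ‖Pt b s t‖ := by
  cases b
  · have := low_true (s := t) (t := s) hn ht hs h.symm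
    have e1 : Ps false s t = t ^ 2 + 3 * t * s ^ 2 := by unfold Ps; simp; ring
    have e2 : Pt false s t = 2 * t * s + s ^ 3 := by unfold Pt; simp; ring
    rw [e1, e2]
    exact this.symm
  · exact low_true hn hs ht h

theorem P_le (b : Bool) {s t : ℂ} {n : ℝ} (hn : 0 ≤ n) (hs : ‖s‖ ≤ n ^ al b)
    (ht : ‖t‖ ≤ n ^ be b) : ‖P b s t‖ ≤ 4 * n ^ 15 := by
  have hA := norm_nonneg s
  have hB := norm_nonneg t
  have h15 : 0 ≤ n ^ 15 := by positivity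
  cases b
  · change ‖s * t ^ 2 + s ^ 3 * t‖ ≤ _
    have hs' : ‖s‖ ≤ n ^ 3 := hs
    have ht' : ‖t‖ ≤ n ^ 6 := ht
    calc ‖s * t ^ 2 + s ^ 3 * t‖ ≤ ‖s‖ * ‖t‖ ^ 2 + ‖s‖ ^ 3 * ‖t‖ := by
          refine (norm_add_le _ _).trans ?_
          rw [norm_mul, norm_mul, norm_pow, norm_pow]
      _ ≤ n ^ 3 * (n ^ 6) ^ 2 + (n ^ 3) ^ 3 * n ^ 6 := by gcongr
      _ ≤ 4 * n ^ 15 := by nlinarith
  · change ‖s ^ 2 * t + s * t ^ 3‖ ≤ _
    have hs' : ‖s‖ ≤ n ^ 6 := hs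
    have ht' : ‖t‖ ≤ n ^ 3 := ht
    calc ‖s ^ 2 * t + s * t ^ 3‖ ≤ ‖s‖ ^ 2 * ‖t‖ + ‖s‖ * ‖t‖ ^ 3 := by
          refine (norm_add_le _ _).trans ?_
          rw [norm_mul, norm_mul, norm_pow, norm_pow]
      _ ≤ (n ^ 6) ^ 2 * n ^ 3 + n ^ 6 * (n ^ 3) ^ 3 := by gcongr
      _ ≤ 4 * n ^ 15 := by nlinarith

theorem tPt_le (b : Bool) {s t : ℂ} {n : ℝ} (hn : 0 ≤ n) (hs : ‖s‖ ≤ n ^ al b)
    (ht : ‖t‖ ≤ n ^ be b) : ‖t * Pt b s t‖ ≤ 4 * n ^ 15 := by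
  have hA := norm_nonneg s
  have hB := norm_nonneg t
  have h15 : 0 ≤ n ^ 15 := by positivity
  cases b
  · have e : t * Pt false s t = 2 * (s * t ^ 2) + s ^ 3 * t := by unfold Pt; simp; ring
    rw [e]
    have hs' : ‖s‖ ≤ n ^ 3 := hs
    have ht' : ‖t‖ ≤ n ^ 6 := ht
    calc ‖2 * (s * t ^ 2) + s ^ 3 * t‖ ≤ 2 * (‖s‖ * ‖t‖ ^ 2) + ‖s‖ ^ 3 * ‖t‖ := by
          refine (norm_add_le _ _).trans ?_
          rw [norm_mul, norm_mul, norm_mul, norm_pow, norm_pow, Complex.norm_ofNat]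
      _ ≤ 2 * (n ^ 3 * (n ^ 6) ^ 2) + (n ^ 3) ^ 3 * n ^ 6 := by gcongr
      _ ≤ 4 * n ^ 15 := by nlinarith
  · have e : t * Pt true s t = s ^ 2 * t + 3 * (s * t ^ 3) := by unfold Pt; simp; ring
    rw [e]
    have hs' : ‖s‖ ≤ n ^ 6 := hs
    have ht' : ‖t‖ ≤ n ^ 3 := ht
    calc ‖s ^ 2 * t + 3 * (s * t ^ 3)‖ ≤ ‖s‖ ^ 2 * ‖t‖ + 3 * (‖s‖ * ‖t‖ ^ 3) := by
          refine (norm_add_le _ _).trans ?_
          rw [norm_mul, norm_mul, norm_mul, norm_pow, norm_pow, Complex.norm_ofNat]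
      _ ≤ (n ^ 6) ^ 2 * n ^ 3 + 3 * (n ^ 6 * (n ^ 3) ^ 3) := by gcongr
      _ ≤ 4 * n ^ 15 := by nlinarith

/-- `x`-tube. -/
theorem Pt_ge (b : Bool) {x t : ℂ} (hx : ‖x‖ = 1) (ht : ‖t‖ ≤ 1 / 4) : 1 / 4 ≤ ‖Pt b x t‖ := by
  have hB := norm_nonneg t
  cases b
  · change 1 / 4 ≤ ‖2 * x * t + x ^ 3‖
    have := norm_sub_norm_le (x ^ 3) (-(2 * x * t))
    rw [norm_neg, norm_mul, norm_mul, norm_pow, hx, Complex.norm_ofNat] at this
    have e : x ^ 3 - -(2 * x * t) = 2 * x * t + x ^ 3 := by ring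
    rw [e] at this
    linarith
  · change 1 / 4 ≤ ‖x ^ 2 + 3 * x * t ^ 2‖
    have := norm_sub_norm_le (x ^ 2) (-(3 * x * t ^ 2))
    rw [norm_neg, norm_mul, norm_mul, norm_pow, norm_pow, hx, Complex.norm_ofNat] at this
    have e : x ^ 2 - -(3 * x * t ^ 2) = x ^ 2 + 3 * x * t ^ 2 := by ring
    rw [e] at this
    nlinarith

theorem Px_le (b : Bool) {x t : ℂ} (hx : ‖x‖ = 1) (ht : ‖t‖ ≤ 1 / 4) :
    ‖P b x t‖ ≤ 4 * ‖t‖ ∧ ‖x * Ps b x t‖ ≤ 4 * ‖t‖ := by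
  have hB := norm_nonneg t
  have h2 : ‖t‖ ^ 2 ≤ ‖t‖ := by nlinarith
  have h3 : ‖t‖ ^ 3 ≤ ‖t‖ := by nlinarith [mul_nonneg hB hB]
  cases b
  · constructor
    · change ‖x * t ^ 2 + x ^ 3 * t‖ ≤ _
      refine (norm_add_le _ _).trans ?_
      rw [norm_mul, norm_mul, norm_pow, norm_pow, hx]
      linarith
    · change ‖x * (t ^ 2 + 3 * x ^ 2 * t)‖ ≤ _
      rw [norm_mul, hx, one_mul]
      refine (norm_add_le _ _).trans ?_
      rw [norm_mul, norm_mul, norm_pow, norm_pow, hx, Complex.norm_ofNat]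
      linarith
  · constructor
    · change ‖x ^ 2 * t + x * t ^ 3‖ ≤ _
      refine (norm_add_le _ _).trans ?_
      rw [norm_mul, norm_mul, norm_pow, norm_pow, hx]
      linarith
    · change ‖x * (2 * x * t + t ^ 3)‖ ≤ _
      rw [norm_mul, hx, one_mul]
      refine (norm_add_le _ _).trans ?_
      rw [norm_mul, norm_mul, norm_pow, hx, Complex.norm_ofNat]
      linarith

/-! ### monomials -/

section mono

variable {n om eta : ℝ} {m k : ℕ}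

theorem term_small (hn0 : 0 ≤ n) (hn1 : n ≤ 1) (hom : 0 ≤ om) (he : 0 < eta) (he1 : eta ≤ 1)
    (hm : 1 ≤ m) (hk : k ≤ 14) (hmk : 15 ≤ m + k) (h : n ≤ eta * om) :
    n ^ m * om ^ k ≤ eta * om ^ 15 := by
  by_cases h1 : om ≤ 1
  · calc n ^ m * om ^ k ≤ (eta * om) ^ m * om ^ k := by gcongr
      _ = eta ^ m * om ^ (m + k) := by rw [mul_pow, pow_add]; ring
      _ ≤ eta ^ 1 * om ^ 15 := by
          refine mul_le_mul (pow_le_pow_of_le_one he.le he1 hm)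
            (pow_le_pow_of_le_one hom h1 hmk) (by positivity) (by positivity)
      _ = _ := by rw [pow_one]
  · push Not at h1
    calc n ^ m * om ^ k ≤ n ^ 1 * om ^ 14 :=
          mul_le_mul (pow_le_pow_of_le_one hn0 hn1 hm) (pow_le_pow_right₀ h1.le hk)
            (by positivity) (by positivity)
      _ ≤ (eta * om) * om ^ 14 := by rw [pow_one]; gcongr
      _ = _ := by ring

theorem term_big (hn0 : 0 ≤ n) (hn1 : n ≤ 1) (hom : 0 ≤ om) (he : 0 < eta) (he1 : eta ≤ 1)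
    (hk : k ≤ 14) (hmk : 15 ≤ m + k) (h : eta * om < n) :
    n ^ m * om ^ k ≤ (1 / eta) ^ 14 * n ^ 15 := by
  have h1 : om ≤ n / eta := by
    rw [le_div_iff₀ he]; linarith
  calc n ^ m * om ^ k ≤ n ^ m * (n / eta) ^ k := by gcongr
    _ = (1 / eta) ^ k * n ^ (m + k) := by rw [div_pow, div_pow, pow_add]; ring
    _ ≤ (1 / eta) ^ 14 * n ^ 15 := by
        refine mul_le_mul (pow_le_pow_right₀ ?_ hk) (pow_le_pow_of_le_one hn0 hn1 hmk)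
          (by positivity) (by positivity)
        rw [le_div_iff₀ he]; linarith

end mono

/-! ### arms -/

/-- arm polynomial. -/
def E (T : Finset (ℕ × ℕ)) (c : ℕ × ℕ → ℂ) (v w : ℂ) : ℂ := ∑ p ∈ T, c p * (v ^ p.1 * w ^ p.2)

/-- `∂E/∂v`. -/
def Ev (T : Finset (ℕ × ℕ)) (c : ℕ × ℕ → ℂ) (v w : ℂ) : ℂ :=
  ∑ p ∈ T, c p * ((p.1 : ℂ) * v ^ (p.1 - 1) * w ^ p.2)

/-- `∂E/∂w`. -/
def Ew (T : Finset (ℕ × ℕ)) (c : ℕ × ℕ → ℂ) (v w : ℂ) : ℂ :=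
  ∑ p ∈ T, c p * (v ^ p.1 * ((p.2 : ℂ) * w ^ (p.2 - 1)))

/-- admissible exponents. -/
def Adm (a : ℕ) (T : Finset (ℕ × ℕ)) : Prop :=
  ∀ p ∈ T, 1 ≤ p.1 ∧ p.2 ≤ 14 ∧ 15 ≤ a * p.1 + p.2

theorem Adm.mono {a a' : ℕ} {T : Finset (ℕ × ℕ)} (h : Adm a T) (haa : a ≤ a') : Adm a' T := by
  intro p hp
  obtain ⟨h1, h2, h3⟩ := h p hp
  refine ⟨h1, h2, h3.trans ?_⟩
  have := Nat.mul_le_mul_right p.1 haa
  omega

/-- the bound. -/
def Bd (a : ℕ) (T : Finset (ℕ × ℕ)) (c : ℕ × ℕ → ℂ) (n om : ℝ) : ℝ :=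
  ∑ p ∈ T, (((p.1 : ℝ) + p.2 + 1) * ‖c p‖) * (n ^ (a * p.1) * om ^ p.2)

/-- the constant. -/
def Kc (T : Finset (ℕ × ℕ)) (c : ℕ × ℕ → ℂ) : ℝ := ∑ p ∈ T, ((p.1 : ℝ) + p.2 + 1) * ‖c p‖

theorem Kc_nonneg (T : Finset (ℕ × ℕ)) (c : ℕ × ℕ → ℂ) : 0 ≤ Kc T c :=
  Finset.sum_nonneg fun p _ => by positivity

section arms

variable {a : ℕ} {T : Finset (ℕ × ℕ)} {c : ℕ × ℕ → ℂ} {n eta : ℝ} {v w : ℂ}

theorem Bd_small (hT : Adm a T) (ha : 1 ≤ a) (hn0 : 0 ≤ n) (hn1 : n ≤ 1) {om : ℝ} (hom : 0 ≤ om)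
    (he : 0 < eta) (he1 : eta ≤ 1) (h : n ≤ eta * om) : Bd a T c n om ≤ Kc T c * (eta * om ^ 15) := by
  unfold Bd Kc
  rw [Finset.sum_mul]
  refine Finset.sum_le_sum fun p hp => ?_
  obtain ⟨h1, h2, h3⟩ := hT p hp
  refine mul_le_mul_of_nonneg_left ?_ (by positivity)
  exact term_small hn0 hn1 hom he he1 (by nlinarith) h2 h3 h

theorem Bd_big (hT : Adm a T) (hn0 : 0 ≤ n) (hn1 : n ≤ 1) {om : ℝ} (hom : 0 ≤ om)
    (he : 0 < eta) (he1 : eta ≤ 1) (h : eta * om < n) :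
    Bd a T c n om ≤ Kc T c * ((1 / eta) ^ 14 * n ^ 15) := by
  unfold Bd Kc
  rw [Finset.sum_mul]
  refine Finset.sum_le_sum fun p hp => ?_
  obtain ⟨h1, h2, h3⟩ := hT p hp
  refine mul_le_mul_of_nonneg_left ?_ (by positivity)
  exact term_big hn0 hn1 hom he he1 h2 h3 h

theorem E_le (hT : Adm a T) (hn0 : 0 ≤ n) (hv : ‖v‖ ≤ n ^ a) : ‖E T c v w‖ ≤ Bd a T c n ‖w‖ := by
  unfold E Bd
  refine (norm_sum_le _ _).trans (Finset.sum_le_sum fun p hp => ?_)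
  rw [norm_mul, norm_mul, norm_pow, norm_pow, pow_mul]
  have h1 : ‖v‖ ^ p.1 ≤ (n ^ a) ^ p.1 := by gcongr
  calc ‖c p‖ * (‖v‖ ^ p.1 * ‖w‖ ^ p.2) ≤ ‖c p‖ * ((n ^ a) ^ p.1 * ‖w‖ ^ p.2) := by gcongr
    _ ≤ (((p.1 : ℝ) + p.2 + 1) * ‖c p‖) * ((n ^ a) ^ p.1 * ‖w‖ ^ p.2) := by
        refine mul_le_mul_of_nonneg_right ?_ (by positivity)
        nlinarith [norm_nonneg (c p), mul_nonneg (Nat.cast_nonneg (α := ℝ) p.1) (norm_nonneg (c p)),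
          mul_nonneg (Nat.cast_nonneg (α := ℝ) p.2) (norm_nonneg (c p))]

theorem Ev_le (hT : Adm a T) (hn0 : 0 ≤ n) (hv : ‖v‖ ≤ n ^ a) :
    n ^ a * ‖Ev T c v w‖ ≤ Bd a T c n ‖w‖ := by
  unfold Ev Bd
  refine (mul_le_mul_of_nonneg_left (norm_sum_le _ _) (by positivity)).trans ?_
  rw [Finset.mul_sum]
  refine Finset.sum_le_sum fun p hp => ?_
  obtain ⟨h1, -, -⟩ := hT p hp
  rw [norm_mul, norm_mul, norm_mul, norm_pow, norm_pow, pow_mul, Complex.norm_natCast]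
  have h2 : n ^ a * ‖v‖ ^ (p.1 - 1) ≤ (n ^ a) ^ p.1 := by
    calc n ^ a * ‖v‖ ^ (p.1 - 1) ≤ n ^ a * (n ^ a) ^ (p.1 - 1) := by gcongr
      _ = (n ^ a) ^ (p.1 - 1 + 1) := by rw [pow_succ]; ring
      _ = (n ^ a) ^ p.1 := by rw [Nat.sub_add_cancel h1]
  calc n ^ a * (‖c p‖ * ((p.1 : ℝ) * ‖v‖ ^ (p.1 - 1) * ‖w‖ ^ p.2))
      = ((p.1 : ℝ) * ‖c p‖) * ((n ^ a * ‖v‖ ^ (p.1 - 1)) * ‖w‖ ^ p.2) := by ring
    _ ≤ ((p.1 : ℝ) * ‖c p‖) * ((n ^ a) ^ p.1 * ‖w‖ ^ p.2) := by gcongr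
    _ ≤ (((p.1 : ℝ) + p.2 + 1) * ‖c p‖) * ((n ^ a) ^ p.1 * ‖w‖ ^ p.2) := by
        refine mul_le_mul_of_nonneg_right ?_ (by positivity)
        nlinarith [norm_nonneg (c p), mul_nonneg (Nat.cast_nonneg (α := ℝ) p.2) (norm_nonneg (c p))]

theorem Ew_le (hT : Adm a T) (hn0 : 0 ≤ n) (hv : ‖v‖ ≤ n ^ a) :
    ‖w * Ew T c v w‖ ≤ Bd a T c n ‖w‖ := by
  unfold Ew Bd
  rw [Finset.mul_sum]
  refine (norm_sum_le _ _).trans (Finset.sum_le_sum fun p hp => ?_)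
  rcases Nat.eq_zero_or_pos p.2 with h0 | h0
  · rw [h0]
    simp only [Nat.cast_zero, zero_mul, mul_zero, norm_zero]
    positivity
  · have e : w * (c p * (v ^ p.1 * ((p.2 : ℂ) * w ^ (p.2 - 1)))) =
        (p.2 : ℂ) * c p * (v ^ p.1 * w ^ p.2) := by
      have : w ^ p.2 = w ^ (p.2 - 1) * w := by rw [← pow_succ, Nat.sub_add_cancel h0]
      rw [this]; ring
    rw [e, norm_mul, norm_mul, norm_mul, norm_pow, norm_pow, pow_mul, Complex.norm_natCast]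
    have h1 : ‖v‖ ^ p.1 ≤ (n ^ a) ^ p.1 := by gcongr
    calc (p.2 : ℝ) * ‖c p‖ * (‖v‖ ^ p.1 * ‖w‖ ^ p.2)
        ≤ (p.2 : ℝ) * ‖c p‖ * ((n ^ a) ^ p.1 * ‖w‖ ^ p.2) := by gcongr
      _ ≤ (((p.1 : ℝ) + p.2 + 1) * ‖c p‖) * ((n ^ a) ^ p.1 * ‖w‖ ^ p.2) := by
          refine mul_le_mul_of_nonneg_right ?_ (by positivity)
          nlinarith [norm_nonneg (c p),
            mul_nonneg (Nat.cast_nonneg (α := ℝ) p.1) (norm_nonneg (c p))]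

end arms

/-- size of the pair `(a, b)` for the weights `α, β`. -/
theorem exists_size {al be : ℕ} (hal : 1 ≤ al) (hbe : 1 ≤ be) {A B : ℝ} (hA : 0 ≤ A) (hB : 0 ≤ B)
    (hA1 : A ≤ 1) (hB1 : B ≤ 1) :
    ∃ n : ℝ, 0 ≤ n ∧ n ≤ 1 ∧ A ≤ n ^ al ∧ B ≤ n ^ be ∧ (A = n ^ al ∨ B = n ^ be) := by
  have h1 : (A ^ ((al : ℝ)⁻¹)) ^ al = A := Real.rpow_inv_natCast_pow hA (by omega)
  have h2 : (B ^ ((be : ℝ)⁻¹)) ^ be = B := Real.rpow_inv_natCast_pow hB (by omega)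
  have hA' : 0 ≤ A ^ ((al : ℝ)⁻¹) := Real.rpow_nonneg hA _
  have hB' : 0 ≤ B ^ ((be : ℝ)⁻¹) := Real.rpow_nonneg hB _
  have hA1' : A ^ ((al : ℝ)⁻¹) ≤ 1 := Real.rpow_le_one hA hA1 (by positivity)
  have hB1' : B ^ ((be : ℝ)⁻¹) ≤ 1 := Real.rpow_le_one hB hB1 (by positivity)
  rcases le_total (A ^ ((al : ℝ)⁻¹)) (B ^ ((be : ℝ)⁻¹)) with h | h
  · refine ⟨B ^ ((be : ℝ)⁻¹), hB', hB1', ?_, h2.ge, Or.inr h2.symm⟩
    calc A = (A ^ ((al : ℝ)⁻¹)) ^ al := h1.symm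
      _ ≤ (B ^ ((be : ℝ)⁻¹)) ^ al := by gcongr
  · refine ⟨A ^ ((al : ℝ)⁻¹), hA', hA1', h1.ge, ?_, Or.inl h1.symm⟩
    calc B = (B ^ ((be : ℝ)⁻¹)) ^ be := h2.symm
      _ ≤ (A ^ ((al : ℝ)⁻¹)) ^ be := by gcongr

/-- **TUBE LEMMA** (numbers): own arm `K` with `κ |w|^15 ≤ max (|K| or |v K_v|) |w K_w|`. -/
theorem tube {al be : ℕ} (hal : 1 ≤ al) (hbe : 1 ≤ be) (hal' : al ≤ 15) (hbe' : be ≤ 15)
    {T1 T2 : Finset (ℕ × ℕ)} {c1 c2 : ℕ × ℕ → ℂ} (hT1 : Adm al T1) (hT2 : Adm be T2)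
    {C κ M : ℝ} (hκ : 0 < κ) (hC1 : Kc T1 c1 ≤ C) (hC2 : Kc T2 c2 ≤ C)
    (hM : ∃ eta : ℝ, 0 < eta ∧ eta ≤ 1 ∧ 100 * (C + 1) * eta ≤ κ ∧
      16 * (C + 1) * (1 / eta) ^ 14 < M)
    {a b w pa pb p0 KK Kw : ℂ} {n s1 s2 : ℝ} (hs1 : |s1| ≤ 1) (hs2 : |s2| ≤ 1)
    (hn0 : 0 ≤ n) (hn1 : n ≤ 1) (ha : ‖a‖ ≤ n ^ al) (hb : ‖b‖ ≤ n ^ be)
    (hlow : (1 / 4) * n ^ (15 - al) ≤ ‖pa‖ ∨ (1 / 4) * n ^ (15 - be) ≤ ‖pb‖)
    (hp0 : ‖p0‖ ≤ 4 * n ^ 15)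
    (ea : M * pa + s1 * Ev T1 c1 a w = 0) (eb : M * pb + s2 * Ev T2 c2 b w = 0)
    (ew : Kw + s1 * (w * Ew T1 c1 a w) + s2 * (w * Ew T2 c2 b w) = 0)
    (e0 : ∃ q1 q2 : ℂ, ‖q1‖ ≤ Bd al T1 c1 n ‖w‖ ∧ ‖q2‖ ≤ Bd be T2 c2 n ‖w‖ ∧
      M * p0 + KK + q1 + q2 = 0)
    (hPL : κ * ‖w‖ ^ 15 ≤ max ‖KK‖ ‖Kw‖) : n = 0 ∧ w = 0 := by
  obtain ⟨eta, he, he1, hk, hMM⟩ := hM
  have hC0 : 0 ≤ C := (Kc_nonneg _ _).trans hC1
  have hw := norm_nonneg w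
  have hMpos : 0 < M := lt_of_le_of_lt (by positivity) hMM
  -- the star inequality
  have B1 : 0 ≤ Bd al T1 c1 n ‖w‖ := Finset.sum_nonneg fun p _ => by positivity
  have B2 : 0 ≤ Bd be T2 c2 n ‖w‖ := Finset.sum_nonneg fun p _ => by positivity
  have step : ∀ {q : ℕ} {pq E' : ℂ} {s B : ℝ}, q ≤ 15 → |s| ≤ 1 →
      M * pq + s * E' = 0 → n ^ q * ‖E'‖ ≤ B → (1 / 4) * n ^ (15 - q) ≤ ‖pq‖ →
      (M / 4) * n ^ 15 ≤ B := by
    intro q pq E' s B hq hs h1 h2 h3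
    have h4 : M * ‖pq‖ ≤ ‖E'‖ := by
      have : (M : ℂ) * pq = -(s * E') := by linear_combination h1
      have h5 := congrArg norm this
      rw [norm_mul, norm_neg, norm_mul, Complex.norm_real, Complex.norm_real, Real.norm_eq_abs,
        Real.norm_eq_abs, abs_of_pos hMpos] at h5
      rw [h5]
      calc |s| * ‖E'‖ ≤ 1 * ‖E'‖ := by gcongr
        _ = ‖E'‖ := one_mul _
    have e15 : n ^ 15 = n ^ q * n ^ (15 - q) := by rw [← pow_add]; congr 1; omega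
    calc (M / 4) * n ^ 15 = n ^ q * (M * ((1 / 4) * n ^ (15 - q))) := by rw [e15]; ring
      _ ≤ n ^ q * (M * ‖pq‖) := by gcongr
      _ ≤ n ^ q * ‖E'‖ := by gcongr
      _ ≤ B := h2
  have star : (M / 4) * n ^ 15 ≤ Bd al T1 c1 n ‖w‖ + Bd be T2 c2 n ‖w‖ := by
    rcases hlow with h | h
    · exact (step hal' hs1 ea (Ev_le hT1 hn0 ha) h).trans (by linarith)
    · exact (step hbe' hs2 eb (Ev_le hT2 hn0 hb) h).trans (by linarith)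
  have hsmall : n ≤ eta * ‖w‖ := by
    by_contra hn
    push Not at hn
    have hnpos : 0 < n := lt_of_le_of_lt (by positivity) hn
    have h1 := Bd_big (c := c1) hT1 hn0 hn1 hw he he1 hn
    have h2 := Bd_big (c := c2) hT2 hn0 hn1 hw he he1 hn
    have h3 : (M / 4) * n ^ 15 ≤ (2 * (C + 1)) * ((1 / eta) ^ 14 * n ^ 15) := by
      have k0 : 0 ≤ (1 / eta) ^ 14 * n ^ 15 := by positivity
      have k1 : Kc T1 c1 * ((1 / eta) ^ 14 * n ^ 15) ≤ C * ((1 / eta) ^ 14 * n ^ 15) := by gcongr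
      have k2 : Kc T2 c2 * ((1 / eta) ^ 14 * n ^ 15) ≤ C * ((1 / eta) ^ 14 * n ^ 15) := by gcongr
      nlinarith
    have h4 : 0 < n ^ 15 := by positivity
    have h5 : (M / 4 - 2 * (C + 1) * (1 / eta) ^ 14) * n ^ 15 ≤ 0 := by nlinarith
    have h6 : 0 < M / 4 - 2 * (C + 1) * (1 / eta) ^ 14 := by
      have : 0 ≤ (C + 1) * (1 / eta) ^ 14 := by positivity
      nlinarith
    have h7 : 0 < (M / 4 - 2 * (C + 1) * (1 / eta) ^ 14) * n ^ 15 := mul_pos h6 h4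
    linarith
  have h1 : Bd al T1 c1 n ‖w‖ ≤ C * (eta * ‖w‖ ^ 15) :=
    (Bd_small hT1 hal hn0 hn1 hw he he1 hsmall).trans (by gcongr)
  have h2 : Bd be T2 c2 n ‖w‖ ≤ C * (eta * ‖w‖ ^ 15) :=
    (Bd_small hT2 hbe hn0 hn1 hw he he1 hsmall).trans (by gcongr)
  have hB : 0 ≤ eta * ‖w‖ ^ 15 := by positivity
  have hMn : M * n ^ 15 ≤ 8 * C * (eta * ‖w‖ ^ 15) := by nlinarith
  have hKw : ‖Kw‖ ≤ 2 * C * (eta * ‖w‖ ^ 15) := by
    have h3 : Kw = -(s1 * (w * Ew T1 c1 a w)) - s2 * (w * Ew T2 c2 b w) := by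
      linear_combination ew
    have h4 : ‖(s1 : ℂ) * (w * Ew T1 c1 a w)‖ ≤ C * (eta * ‖w‖ ^ 15) := by
      rw [norm_mul, Complex.norm_real, Real.norm_eq_abs]
      calc |s1| * ‖w * Ew T1 c1 a w‖ ≤ 1 * ‖w * Ew T1 c1 a w‖ := by gcongr
        _ ≤ _ := by rw [one_mul]; exact (Ew_le hT1 hn0 ha).trans h1
    have h5 : ‖(s2 : ℂ) * (w * Ew T2 c2 b w)‖ ≤ C * (eta * ‖w‖ ^ 15) := by
      rw [norm_mul, Complex.norm_real, Real.norm_eq_abs]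
      calc |s2| * ‖w * Ew T2 c2 b w‖ ≤ 1 * ‖w * Ew T2 c2 b w‖ := by gcongr
        _ ≤ _ := by rw [one_mul]; exact (Ew_le hT2 hn0 hb).trans h2
    rw [h3]
    refine (norm_sub_le _ _).trans ?_
    rw [norm_neg]
    linarith
  have hKK : ‖KK‖ ≤ 34 * C * (eta * ‖w‖ ^ 15) := by
    obtain ⟨q1, q2, hq1, hq2, hq⟩ := e0
    have h3 : KK = -(M * p0) - q1 - q2 := by linear_combination hq
    have h4 : ‖(M : ℂ) * p0‖ ≤ 32 * C * (eta * ‖w‖ ^ 15) := by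
      rw [norm_mul, Complex.norm_real, Real.norm_eq_abs, abs_of_pos hMpos]
      calc M * ‖p0‖ ≤ M * (4 * n ^ 15) := by gcongr
        _ = 4 * (M * n ^ 15) := by ring
        _ ≤ 4 * (8 * C * (eta * ‖w‖ ^ 15)) := by gcongr
        _ = _ := by ring
    rw [h3]
    have h5 := norm_sub_le (-((M : ℂ) * p0) - q1) q2
    have h6 := norm_sub_le (-((M : ℂ) * p0)) q1
    rw [norm_neg] at h6
    linarith [hq1.trans h1, hq2.trans h2]
  have hmax : max ‖KK‖ ‖Kw‖ ≤ 34 * C * (eta * ‖w‖ ^ 15) := by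
    refine max_le hKK (hKw.trans ?_)
    nlinarith [mul_nonneg hC0 hB]
  have hfin : κ * ‖w‖ ^ 15 ≤ 34 * C * eta * ‖w‖ ^ 15 := by
    calc κ * ‖w‖ ^ 15 ≤ 34 * C * (eta * ‖w‖ ^ 15) := hPL.trans hmax
      _ = _ := by ring
  have hw0 : w = 0 := by
    by_contra hw0
    have hwp : 0 < ‖w‖ ^ 15 := by
      have := norm_pos_iff.2 hw0
      positivity
    have h3 := le_of_mul_le_mul_right hfin hwp
    nlinarith
  refine ⟨?_, hw0⟩
  rw [hw0, norm_zero, mul_zero] at hsmall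
  exact le_antisymm hsmall hn0

end Crest.Agent.R267.NdQ_484
end
end

-- ▼ part R267/NdS_484

/-!
# S0406, T3N entrance: definitions, part 2 (helper484)

* `ArmDat a T c` : data of one arm (exponents `T`, coefficients `c`; `w^15` is not in `T`);
* `cz a c ζ` : scaled coefficients `c_{ij} ζ^{a i + j - 15}`, so that
  `E T (cz a c r) v w = E T c (r^a v) (r w) / r^15` (`E`, `Ev`, `Ew` of `NdQ_484`);
* `ct`, `Ac a T c W r` : the cut off homogeneous arm;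
* `Qs`, `Ds`, `psi`, `Ss b h` : star function (homogeneous of degree `4` for `wt b`);
* `Ff` : the function `F_{r,s}`; `dP` : the partial derivatives of `P (x, yz)`;
* `pf`, `dpf` : the polynomial function `f_M` and its partial derivatives;
* `Con w f ρ H T` : the germ of `f` is described by the family `H (t, ·)`, `t ≤ T`.
-/

set_option autoImplicit false
set_option linter.unusedSectionVars false

noncomputable section

open Set Filter Topology Finset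
open scoped ContDiff
open Crest.Agent.R267.Cone_808 Crest.Agent.R267.SphReg_808 Crest.Agent.R267.Hm_951
open Crest.Agent.R267.NdP_484 Crest.Agent.R267.NdR_484 Crest.Agent.R267.NdQ_484

namespace Crest.Agent.R267.NdS_484

/-- data of one arm. -/
structure ArmDat (a : ℕ) (T : Finset (ℕ × ℕ)) (c : ℕ × ℕ → ℂ) : Prop where
  adm : Adm a T
  conv : Conv (insert (0, 15) T)
  ne : ∀ q ∈ T, c q ≠ 0

/-- excess of a monomial. -/
def ex (a : ℕ) (q : ℕ × ℕ) : ℕ := a * q.1 + q.2 - 15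

/-- scaled coefficients. -/
def cz (a : ℕ) (c : ℕ × ℕ → ℂ) (ζ : ℝ) (q : ℕ × ℕ) : ℂ := c q * (ζ : ℂ) ^ ex a q

/-- cut-off of an arm: `1` for `|w|^a ≤ W |v|`, `0` for `|w|^{2a} ≥ 2 W² |v|²`. -/
def ct (a : ℕ) (W : ℝ) (v w : ℂ) : ℝ :=
  Real.smoothTransition (2 - ‖w‖ ^ (2 * a) / (W ^ 2 * ‖v‖ ^ 2))

/-- the cut off homogeneous arm. -/
def Ac (a : ℕ) (T : Finset (ℕ × ℕ)) (c : ℕ × ℕ → ℂ) (W r : ℝ) (z : ℂ × ℂ) : ℂ :=
  (ct a W z.1 z.2 : ℂ) * E T (cz a c (r * ‖z.1‖ ^ (-(1 / (a : ℝ))))) z.1 z.2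

/-- star function of the hub. -/
def Qs (b : Bool) (p : E4) : ℝ := N b p - ∑ v, th (g b v p / N b p) * (N b p - g b v p)

/-- the full gauge. -/
def Ds (b : Bool) (p : E4) : ℝ := N b p + ‖p 3‖ ^ 60

/-- smooth step between `h` and `2h`. -/
def psi (h t : ℝ) : ℝ := Real.smoothTransition ((t - h) / h)

/-- **star function**. -/
def Ss (b : Bool) (h : ℝ) (p : E4) : ℝ :=
  psi h (N b p / Ds b p) * Qs b p + (1 - psi h (N b p / Ds b p)) * Ds b p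

variable (b : Bool) (T : Fin 3 → Finset (ℕ × ℕ)) (c : Fin 3 → ℕ × ℕ → ℂ)

/-- the arms. -/
def Arms (W r : ℝ) (v : Fin 3) : ℂ × ℂ → ℂ := Ac (aw b v) (T v) (c v) W r

/-- the function `F_{r,s}`, variables `(r, s, p)`. -/
def Ff (M W h : ℝ) (q : ℝ × ℝ × E4) : ℂ :=
  M * P b (q.2.2 0) (q.2.2 1 * q.2.2 2) + q.2.2 3 ^ 15 +
    ∑ v, (((1 - q.2.1 : ℝ) : ℂ) * E (T v)
        (cz (aw b v) (c v) (q.1 * (Ss b h q.2.2) ^ (-(1 / 60) : ℝ))) (q.2.2 v.castSucc) (q.2.2 3) +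
      ((q.2.1 * th (g b v q.2.2 / N b q.2.2) : ℝ) : ℂ) *
        Arms b T c W q.1 v (q.2.2 v.castSucc, q.2.2 3))

/-- the partial derivatives of `P (x, yz)`. -/
def dP (b : Bool) (p : E4) : Fin 3 → ℂ :=
  ![Ps b (p 0) (p 1 * p 2), Pt b (p 0) (p 1 * p 2) * p 2, Pt b (p 0) (p 1 * p 2) * p 1]

/-- the polynomial function `f_M`. -/
def pf (M : ℝ) (p : E4) : ℂ :=
  M * P b (p 0) (p 1 * p 2) + p 3 ^ 15 + ∑ v, E (T v) (c v) (p v.castSucc) (p 3)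

/-- its derivatives in the hub variables. -/
def dpf (M : ℝ) (p : E4) (v : Fin 3) : ℂ := M * dP b p v + Ev (T v) (c v) (p v.castSucc) (p 3)

/-- its derivative in `w`. -/
def dpw (p : E4) : ℂ := 15 * p 3 ^ 14 + ∑ v, Ew (T v) (c v) (p v.castSucc) (p 3)

end Crest.Agent.R267.NdS_484

namespace Crest.Agent.R267.NdS_484

variable {ι : Type} [Fintype ι]

/-- the germ of `f` at `0` is described by the family `H (t, ·)`, `t ≤ T`. -/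
structure Con (w : ι → ℝ) (f : (ι → ℂ) → ℂ) (ρ : (ι → ℂ) → ℝ) (H : ℝ × (ι → ℂ) → ℂ) (T : ℝ) :
    Prop where
  wpos : ∀ i, 0 < w i
  zero : f 0 = 0
  cont : Continuous fun u : Sph ι => ρ u
  link : ∀ (t : ℝ) (u : Sph ι), t ≤ T → (f (act w (t - ρ u) u) = 0 ↔ H (t, u) = 0)
  smooth : ContDiffOn ℝ 2 H (univ ×ˢ {0}ᶜ)
  wh : ∀ t ≤ T, ∀ (s : ℝ) (x : ι → ℂ), H (t, act w s x) = Real.exp s • H (t, x)
  reg : ∀ t ≤ T, ∀ x : ι → ℂ, x ≠ 0 → H (t, x) = 0 →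
    ∀ b : ℂ, ∃ y : ι → ℂ, fderiv ℝ H (t, x) (0, y) = b

end Crest.Agent.R267.NdS_484
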