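import Crest.Agent.R267.Reg_808

/-!
# Row 267 (helper808): regular paths on the unit sphere of `ℂ^N` and germs

* `ehresmann_sphere`: Ehresmann's lemma on `Sph ι`;
* `regular_of_wh`: a weighted homogeneous function with nonvanishing derivative on its zero set has
  `0` as a regular value on the unit sphere;
* `germ_of_path`: the final form for S0407.
-/

set_option autoImplicit false
set_option linter.unusedSectionVars false

noncomputable section

open Set Filter Topology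
open scoped ContDiff InnerProductSpace
open Crest.Agent.R267.Iso_808 Crest.Agent.R267.Reg_808 Crest.Agent.R267.Cone_808

namespace Crest.Agent.R267.SphReg_808

variable {ι : Type*} [Fintype ι]

theorem contDiff_nsq {n : WithTop ℕ∞} : ContDiff ℝ n (nsq (ι := ι)) := by
  unfold nsq
  exact ContDiff.sum fun i _ => (contDiff_apply ℝ ℂ i).norm_sq ℝ

/-- the real scalar product on `ℂ^ι` -/
def ip (x y : ι → ℂ) : ℝ := ∑ i, ⟪x i, y i⟫_ℝ

theorem fderiv_nsq (x y : ι → ℂ) : fderiv ℝ nsq x y = 2 * ip x y := by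
  have h : ∀ i, HasFDerivAt (fun x : ι → ℂ => ‖x i‖ ^ 2)
      (2 • (innerSL ℝ (x i)).comp (ContinuousLinearMap.proj (R := ℝ) (φ := fun _ : ι => ℂ) i)) x :=
    fun i => (hasFDerivAt_apply (𝕜 := ℝ) i x).norm_sq
  have h1 : HasFDerivAt (nsq (ι := ι)) (∑ i, (2 • (innerSL ℝ (x i)).comp
      (ContinuousLinearMap.proj (R := ℝ) (φ := fun _ : ι => ℂ) i))) x :=
    HasFDerivAt.fun_sum fun i _ => h i
  rw [h1.fderiv, ip, Finset.mul_sum]
  simp [mul_add]

theorem ip_self (x : ι → ℂ) : ip x x = nsq x := by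
  unfold ip nsq
  exact Finset.sum_congr rfl fun i _ => real_inner_self_eq_norm_sq (x i)

theorem isCompact_sph : IsCompact (nsq (ι := ι) ⁻¹' {1}) := by
  refine Metric.isCompact_of_isClosed_isBounded (isClosed_singleton.preimage continuous_nsq) ?_
  refine (Metric.isBounded_closedBall (x := (0 : ι → ℂ)) (r := 1)).subset fun x hx => ?_
  rw [mem_closedBall_zero_iff]
  refine norm_le_of_nsq zero_le_one ?_
  have : nsq x = 1 := hx
  rw [this]; norm_num

variable {F : Type*} [NormedAddCommGroup F] [NormedSpace ℝ F] [FiniteDimensional ℝ F]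

/-- **Ehresmann's lemma on the unit sphere of `ℂ^ι`** -/
theorem ehresmann_sphere {U : Set (ℝ × (ι → ℂ))} (hU : IsOpen U)
    (hKU : ∀ t ∈ Icc (0 : ℝ) 1, ∀ x : ι → ℂ, nsq x = 1 → (t, x) ∈ U)
    {H : ℝ × (ι → ℂ) → F} (hH : ContDiffOn ℝ 2 H U)
    (hreg : ∀ t ∈ Icc (0 : ℝ) 1, ∀ x : ι → ℂ, nsq x = 1 → H (t, x) = 0 →
      ∀ b : F, ∃ y : ι → ℂ, ip x y = 0 ∧ fderiv ℝ H (t, x) (0, y) = b) :
    ∃ (Φ : Icc (0 : ℝ) 1 → (Sph ι ≃ₜ Sph ι)) (δ : ℝ), 0 < δ ∧
      (Continuous fun p : Icc (0 : ℝ) 1 × Sph ι => Φ p.1 p.2) ∧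
      (Continuous fun p : Icc (0 : ℝ) 1 × Sph ι => (Φ p.1).symm p.2) ∧
      (∀ x, Φ ⟨0, by simp⟩ x = x) ∧
      (∀ (x : Sph ι) (s t : Icc (0 : ℝ) 1),
        ‖H (s, Φ s x)‖ < δ → H (t, Φ t x) = H (s, Φ s x)) ∧
      (∀ x : Sph ι, (∀ t ∈ Icc (0 : ℝ) 1, fderiv ℝ H (t, (x : ι → ℂ)) (1, 0) = 0) →
        ∀ t, Φ t x = x) := by
  refine ehresmann (ρ := nsq (ι := ι)) (c := 1) isCompact_sph hU
    (fun p hp => hKU p.1 hp.1 p.2 hp.2) (fun p _ => contDiff_nsq.contDiffAt) hH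
    (fun t ht x hx h0 a b => ?_)
  obtain ⟨y, hy1, hy2⟩ := hreg t ht x hx h0 (b - fderiv ℝ H (t, x) (0, (a / 2) • x))
  refine ⟨(a / 2) • x + y, ?_, ?_⟩
  · rw [map_add, map_smul, fderiv_nsq, fderiv_nsq, hy1, ip_self, hx, smul_eq_mul]
    ring
  · have : ((0 : ℝ), (a / 2) • x + y) = (0, (a / 2) • x) + (0, y) := by simp
    rw [this, map_add, hy2]
    abel

/-- zero sets at the two ends -/
theorem exists_homeo_of_path {U : Set (ℝ × (ι → ℂ))} (hU : IsOpen U)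
    (hKU : ∀ t ∈ Icc (0 : ℝ) 1, ∀ x : ι → ℂ, nsq x = 1 → (t, x) ∈ U)
    {H : ℝ × (ι → ℂ) → F} (hH : ContDiffOn ℝ 2 H U)
    (hreg : ∀ t ∈ Icc (0 : ℝ) 1, ∀ x : ι → ℂ, nsq x = 1 → H (t, x) = 0 →
      ∀ b : F, ∃ y : ι → ℂ, ip x y = 0 ∧ fderiv ℝ H (t, x) (0, y) = b) :
    ∃ h : Sph ι ≃ₜ Sph ι, (∀ x : Sph ι, H (0, x) = 0 ↔ H (1, h x) = 0) ∧
      ∀ x : Sph ι, (∀ t ∈ Icc (0 : ℝ) 1, fderiv ℝ H (t, (x : ι → ℂ)) (1, 0) = 0) → h x = x := by
  obtain ⟨Φ, δ, hδ, -, -, hΦ0, hΦ, hfix⟩ := ehresmann_sphere hU hKU hH hreg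
  refine ⟨Φ ⟨1, by simp⟩, fun x => ⟨fun h => ?_, fun h => ?_⟩, fun x hx => hfix x hx _⟩
  · have h1 := hΦ x ⟨0, by simp⟩ ⟨1, by simp⟩ (by rw [hΦ0]; simpa [h] using hδ)
    rw [hΦ0] at h1
    exact h1.trans h
  · have h1 := hΦ x ⟨1, by simp⟩ ⟨0, by simp⟩ (by
      have : H ((⟨1, by simp⟩ : Icc (0 : ℝ) 1), ((Φ ⟨1, by simp⟩ x : Sph ι) : ι → ℂ)) = 0 := h
      rw [this]; simpa using hδ)
    rw [hΦ0] at h1
    exact h1.trans h

/-- the Euler vector -/
def eul (w : ι → ℝ) (x : ι → ℂ) : ι → ℂ := fun i => (w i : ℂ) * x i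

theorem hasDerivAt_act (w : ι → ℝ) (x : ι → ℂ) :
    HasDerivAt (fun t => act w t x) (eul w x) 0 := by
  rw [hasDerivAt_pi]
  intro i
  unfold act eul
  have h1 : HasDerivAt (fun t : ℝ => (Real.exp (t * w i) : ℂ)) ((w i : ℝ) : ℂ) 0 := by
    have h2 : HasDerivAt (fun t : ℝ => Real.exp (t * w i)) (w i) 0 := by
      have h3 := ((hasDerivAt_id (0 : ℝ)).mul_const (w i)).exp
      simpa using h3
    exact h2.ofReal_comp
  exact h1.mul_const (x i)

theorem ip_eul_pos {w : ι → ℝ} (hw : ∀ i, 0 < w i) {x : ι → ℂ} (hx : x ≠ 0) :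
    0 < ip x (eul w x) := by
  have h1 : ip x (eul w x) = ∑ i, w i * ‖x i‖ ^ 2 := by
    unfold ip eul
    refine Finset.sum_congr rfl fun i _ => ?_
    have : (w i : ℂ) * x i = w i • x i := by simp
    rw [this, inner_smul_right, real_inner_self_eq_norm_sq]
  rw [h1]
  obtain ⟨j, hj⟩ : ∃ j, x j ≠ 0 := by
    by_contra h
    push Not at h
    exact hx (funext h)
  exact Finset.sum_pos' (fun i _ => mul_nonneg (hw i).le (by positivity))
    ⟨j, Finset.mem_univ j, mul_pos (hw j) (by positivity)⟩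

/-- if the zero set of `f` is invariant under the weighted dilations in the infinitesimal sense
then regularity in `ℂ^ι` gives regularity on the sphere -/
theorem regular_of_euler {w : ι → ℝ} (hw : ∀ i, 0 < w i) {L : (ι → ℂ) →L[ℝ] F} {x : ι → ℂ}
    (hx : x ≠ 0) (hE : L (eul w x) = 0) (hL : Function.Surjective L) (b : F) :
    ∃ y : ι → ℂ, ip x y = 0 ∧ L y = b := by
  obtain ⟨z, hz⟩ := hL b
  have hpos := ip_eul_pos hw hx
  have hlin : ∀ (c : ℝ) (u v : ι → ℂ), ip x (u + c • v) = ip x u + c * ip x v := by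
    intro c u v
    unfold ip
    rw [Finset.mul_sum, ← Finset.sum_add_distrib]
    refine Finset.sum_congr rfl fun i _ => ?_
    rw [Pi.add_apply, Pi.smul_apply, inner_add_right, inner_smul_right]
  refine ⟨z + (-(ip x z / ip x (eul w x))) • eul w x, ?_, ?_⟩
  · rw [hlin]
    field_simp
    ring
  · rw [map_add, map_smul, hE, smul_zero, add_zero, hz]


/-- complex differentiable function with nonzero derivative: the real derivative is onto -/
theorem surj_of_complex {f : (ι → ℂ) → ℂ} {x : ι → ℂ} (hf : DifferentiableAt ℂ f x)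
    (h : fderiv ℂ f x ≠ 0) : Function.Surjective (fderiv ℝ f x) := by
  have h1 : fderiv ℝ f x = (fderiv ℂ f x).restrictScalars ℝ :=
    (hf.hasFDerivAt.restrictScalars ℝ).fderiv
  rw [h1]
  obtain ⟨v, hv⟩ : ∃ v, fderiv ℂ f x v ≠ 0 := by
    by_contra hn
    push Not at hn
    exact h (ContinuousLinearMap.ext hn)
  intro b
  refine ⟨(b / fderiv ℂ f x v) • v, ?_⟩
  rw [ContinuousLinearMap.coe_restrictScalars', map_smul, smul_eq_mul]
  field_simp


end Crest.Agent.R267.SphReg_808
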