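import Mathlib
import Crest.Agent.R267.NdH_484
import Crest.Agent.R267.NdS_484
import Crest.Agent.R267.SphReg_808
import Crest.Agent.R267.NdT3_484
import Crest.Agent.R267.EntD_370

-- ▼ part R267/NdI_484
section

/-!
# S0406, T3N entrance: regularity of `F_{r,s}`, tubes and middle (helper484)
-/

set_option autoImplicit false
set_option linter.unusedSectionVars false

noncomputable section

open Set Filter Topology Finset
open scoped ContDiff
open Crest.Agent.R267.Cone_808 Crest.Agent.R267.Hm_951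
open Crest.Agent.R267.NdP_484 Crest.Agent.R267.NdR_484 Crest.Agent.R267.NdQ_484
open Crest.Agent.R267.NdS_484 Crest.Agent.R267.NdSt_484 Crest.Agent.R267.NdF_484
open Crest.Agent.R267.NdG_484 Crest.Agent.R267.NdH_484 Crest.Agent.R267.NdT3_484
open Crest.Agent.R267.Amal_52 (g_nonneg N_nonneg bw_pos aw_pos g_eq_zero g_le_N N_eq_zero t1_lt
  lt_t1 th_zero th_one contDiff_th contDiff_g contDiff_N continuous_g continuous_N act_coord
  act_three g_act N_act wt_pos continuousAt_quot)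

namespace Crest.Agent.R267.NdI_484

variable {b : Bool} {T : Fin 3 → Finset (ℕ × ℕ)} {c : Fin 3 → ℕ × ℕ → ℂ} {M W h r s : ℝ} {p : E4}

/-- the function on the slice of the `v`-tube. -/
def Gv (b : Bool) (T : Fin 3 → Finset (ℕ × ℕ)) (c : Fin 3 → ℕ × ℕ → ℂ) (M r s : ℝ) (v : Fin 3)
    (q : E4) : ℂ :=
  Co b M q + E (T v) (cz (aw b v) (c v) r) (q v.castSucc) (q 3) +
    ((1 - s : ℝ) : ℂ) * ∑ u ∈ univ.erase v, E (T u) (cz (aw b u) (c u) r) (q u.castSucc) (q 3)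

/-- what is used about the arm `v` where the cut-off is one. -/
def AcEq (b : Bool) (T : Fin 3 → Finset (ℕ × ℕ)) (c : Fin 3 → ℕ × ℕ → ℂ) (W : ℝ) : Prop :=
  ∀ (v : Fin 3) (r : ℝ) (u w : ℂ), ‖u‖ = 1 → ‖w‖ ^ aw b v ≤ W →
    Ac (aw b v) (T v) (c v) W r (u, w) = E (T v) (cz (aw b v) (c v) r) u w

theorem ev_Gv (heq : AcEq b T c W) (h0 : 0 < h) (hp : p ≠ 0)
    (hN : 2 * h * Ds b p < N b p) {v : Fin 3} (hv : t1 < g b v p / N b p)
    (hw : ‖p 3‖ ^ aw b v < W) :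
    ∀ᶠ q in 𝓝 p, ‖q v.castSucc‖ = 1 → Fs b T c M W h r s q = Gv b T c M r s v q := by
  have hN0 : N b p ≠ 0 := by
    have := Ds_pos (b := b) hp
    have : 0 < 2 * h * Ds b p := by positivity
    linarith [this]
  have h1 : ∀ᶠ q in 𝓝 p, N b q ≠ 0 := (continuous_N b).continuousAt.eventually_ne hN0
  have h2 : ∀ᶠ q in 𝓝 p, t1 < g b v q / N b q :=
    (continuousAt_quot hN0 v).eventually_const_lt hv
  have h3 : ∀ᶠ q : E4 in 𝓝 p, ‖q 3‖ ^ aw b v < W := by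
    have c1 : Continuous fun q : E4 => ‖q 3‖ ^ aw b v := by fun_prop
    exact c1.continuousAt.eventually_lt_const hw
  filter_upwards [h1, h2, h3, ev_sg (b := b) h0 hp hN] with q hq1 hq2 hq3 hq4 hqv
  have hQ : Qs b q = 1 := by
    rw [Qs_core hq1 hq2.le]
    unfold g
    rw [hqv, one_pow]
  rw [hQ, Real.one_rpow] at hq4
  unfold Fs
  rw [Ff_eq]
  unfold Re Gv
  simp only [hq4, mul_one]
  rw [add_assoc]
  congr 1
  rw [← Finset.add_sum_erase univ _ (Finset.mem_univ v), Finset.mul_sum]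
  congr 1
  · rw [th_one hq2.le]
    unfold Arms
    rw [heq v r _ _ hqv hq3.le]
    push_cast
    ring
  · refine Finset.sum_congr rfl fun u hu => ?_
    have hu' : u ≠ v := (Finset.mem_erase.1 hu).1
    have h5 := other_small hq1 hu' hq2
    have h6 := lt_t1
    rw [th_zero (by linarith)]
    simp

theorem hasDerivAt_Gv (v : Fin 3) (y : E4) (hy : y v.castSucc = 0) :
    HasDerivAt (fun ε : ℝ => Gv b T c M r s v (p + ε • y))
      (M * ∑ u, dP b p u * y u.castSucc +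
        ((1 - s : ℝ) : ℂ) * ∑ u ∈ univ.erase v,
          Ev (T u) (cz (aw b u) (c u) r) (p u.castSucc) (p 3) * y u.castSucc +
        (15 * p 3 ^ 14 + Ew (T v) (cz (aw b v) (c v) r) (p v.castSucc) (p 3) +
          ((1 - s : ℝ) : ℂ) * ∑ u ∈ univ.erase v,
            Ew (T u) (cz (aw b u) (c u) r) (p u.castSucc) (p 3)) * y 3) 0 := by
  unfold Gv
  have hE : ∀ u : Fin 3, HasDerivAt (fun ε : ℝ => E (T u) (cz (aw b u) (c u) r)
      ((p + ε • y) u.castSucc) ((p + ε • y) 3))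
      (Ev (T u) (cz (aw b u) (c u) r) (p u.castSucc) (p 3) * y u.castSucc +
        Ew (T u) (cz (aw b u) (c u) r) (p u.castSucc) (p 3) * y 3) 0 := fun u =>
    hasDerivAt_E (T u) (cz (aw b u) (c u) r) (p u.castSucc) (p 3) (y u.castSucc) (y 3)
  have h1 := ((hasDerivAt_Co b M p y).fun_add (hE v)).fun_add
    ((HasDerivAt.fun_sum (u := univ.erase v) fun u _ => hE u).const_mul ((1 - s : ℝ) : ℂ))
  refine h1.congr_deriv ?_
  rw [hy, Finset.sum_add_distrib, ← Finset.sum_mul]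
  ring

/-- **(c)** tubes. -/
theorem reg_tube (hd : ∀ v, ArmDat (aw b v) (T v) (c v))
    (hA : ∀ v, AcOK (aw b v) (T v) (c v) W) (heq : AcEq b T c W) {κ C0 : ℝ} (hκ : 0 < κ)
    (hC : ∀ v, Kc (T v) (c v) ≤ C0)
    (hpl : ∀ (v : Fin 3) (u w : ℂ), ‖u‖ = 1 →
      κ * ‖w‖ ^ 15 ≤ max ‖w ^ 15 + E (T v) (cz (aw b v) (c v) r) u w‖
        ‖15 * w ^ 15 + w * Ew (T v) (cz (aw b v) (c v) r) u w‖ ∧
      0 < max ‖w ^ 15 + E (T v) (cz (aw b v) (c v) r) u w‖
        ‖15 * w ^ 15 + w * Ew (T v) (cz (aw b v) (c v) r) u w‖)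
    (hM : ∃ eta : ℝ, 0 < eta ∧ eta ≤ 1 ∧ 100 * (C0 + 1) * eta ≤ κ ∧
      16 * (C0 + 1) * (1 / eta) ^ 14 < M)
    (h0 : 0 < h) (hr0 : 0 ≤ r) (hr1 : r ≤ 1) (hs0 : 0 ≤ s) (hs1 : s ≤ 1)
    (hS : Ss b h p = 1) (hN : 2 * h * Ds b p < N b p) {v : Fin 3} (hv : t1 < g b v p / N b p)
    (hw : ‖p 3‖ ^ aw b v < W) (hz : Fs b T c M W h r s p = 0) (β : ℂ) :
    ∃ y, fderiv ℝ (Fs b T c M W h r s) p y = β := by
  have hp := ne_of_Ss h0 hS
  have hN0 : N b p ≠ 0 := by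
    have := Ds_pos (b := b) hp
    have : 0 < 2 * h * Ds b p := by positivity
    linarith [this]
  have hNp := N_pos hN0
  have hQ : Qs b p = 1 := by rw [← hS, (ev_Qs (b := b) h0 hp hN).self_of_nhds]
  have hg : g b v p = 1 := by rw [← Qs_core hN0 hv.le, hQ]
  have hpv : ‖p v.castSucc‖ = 1 := by
    unfold g at hg
    exact (pow_eq_one_iff_of_nonneg (norm_nonneg _) (by have := bw_pos b v; omega)).1 hg
  have hsm : ∀ u, u ≠ v → g b u p ≤ (1 / 2) ^ 40 := by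
    intro u hu
    have h1 := other_small hN0 hu hv
    rw [div_lt_iff₀ hNp] at h1
    have h2 : N b p ≤ 2 := (N_le hS).trans (by norm_num)
    have e : (1 : ℝ) - t1 = (1 / 2) ^ 41 := by unfold t1; ring
    rw [e] at h1
    calc g b u p ≤ (1 / 2) ^ 41 * N b p := h1.le
      _ ≤ (1 / 2) ^ 41 * 2 := by gcongr
      _ = (1 / 2) ^ 40 := by norm_num
  have hev := ev_Gv (M := M) (r := r) (s := s) heq h0 hp hN hv hw
  have hcoord : ∀ y : E4, y v.castSucc = 0 → ∀ ε : ℝ, ‖(p + ε • y) v.castSucc‖ = 1 := by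
    intro y hy ε
    rw [Pi.add_apply, Pi.smul_apply, hy, smul_zero, add_zero, hpv]
  have key : ∀ y : E4, y v.castSucc = 0 → fderiv ℝ (Fs b T c M W h r s) p y =
      M * ∑ u, dP b p u * y u.castSucc +
        ((1 - s : ℝ) : ℂ) * ∑ u ∈ univ.erase v,
          Ev (T u) (cz (aw b u) (c u) r) (p u.castSucc) (p 3) * y u.castSucc +
        (15 * p 3 ^ 14 + Ew (T v) (cz (aw b v) (c v) r) (p v.castSucc) (p 3) +
          ((1 - s : ℝ) : ℂ) * ∑ u ∈ univ.erase v,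
            Ew (T u) (cz (aw b u) (c u) r) (p u.castSucc) (p 3)) * y 3 := by
    intro y hy
    refine fderiv_of_line (differentiableAt_Fs hA h0 hp) ?_
    refine (hasDerivAt_Gv v y hy).congr_of_eventuallyEq ?_
    filter_upwards [ev_line (y := y) hev] with ε hε
    exact hε (hcoord y hy ε)
  by_contra hcon
  have eu : ∀ u, u ≠ v → M * dP b p u + ((1 - s : ℝ) : ℂ) *
      Ev (T u) (cz (aw b u) (c u) r) (p u.castSucc) (p 3) = 0 := by
    intro u hu
    by_contra hne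
    apply hcon
    refine onto_coord u.castSucc (fun z hz' => ?_) β
    rw [key _ (by rw [Pi.single_apply, if_neg fun h => hu (Fin.castSucc_injective _ h).symm])]
    have h3 : (Pi.single u.castSucc z : E4) 3 = 0 := by
      rw [Pi.single_apply, if_neg]
      exact (Fin.castSucc_lt_last u).ne'
    have h4 : ∑ i, dP b p i * (Pi.single u.castSucc z : E4) i.castSucc = dP b p u * z := by
      rw [Finset.sum_eq_single u]
      · rw [Pi.single_eq_same]
      · intro i _ hi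
        rw [Pi.single_apply, if_neg fun h => hi (Fin.castSucc_injective _ h), mul_zero]
      · exact fun h => absurd (Finset.mem_univ u) h
    have h5 : ∑ i ∈ univ.erase v, Ev (T i) (cz (aw b i) (c i) r) (p i.castSucc) (p 3) *
        (Pi.single u.castSucc z : E4) i.castSucc =
        Ev (T u) (cz (aw b u) (c u) r) (p u.castSucc) (p 3) * z := by
      rw [Finset.sum_eq_single u]
      · rw [Pi.single_eq_same]
      · intro i _ hi
        rw [Pi.single_apply, if_neg fun h => hi (Fin.castSucc_injective _ h), mul_zero]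
      · exact fun h => absurd (Finset.mem_erase.2 ⟨hu, Finset.mem_univ u⟩) h
    rw [h3, h4, h5, mul_zero, add_zero]
    have e : M * (dP b p u * z) + ((1 - s : ℝ) : ℂ) *
        (Ev (T u) (cz (aw b u) (c u) r) (p u.castSucc) (p 3) * z) =
        (M * dP b p u + ((1 - s : ℝ) : ℂ) *
          Ev (T u) (cz (aw b u) (c u) r) (p u.castSucc) (p 3)) * z := by ring
    rw [e]
    exact mul_ne_zero hne hz'
  have ew0 : 15 * p 3 ^ 14 + Ew (T v) (cz (aw b v) (c v) r) (p v.castSucc) (p 3) +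
      ((1 - s : ℝ) : ℂ) * ∑ u ∈ univ.erase v,
        Ew (T u) (cz (aw b u) (c u) r) (p u.castSucc) (p 3) = 0 := by
    by_contra hne
    apply hcon
    refine onto_coord 3 (fun z hz' => ?_) β
    have h3 : ∀ u : Fin 3, (Pi.single 3 z : E4) u.castSucc = 0 := by
      intro u
      rw [Pi.single_apply, if_neg]
      exact (Fin.castSucc_lt_last u).ne
    rw [key _ (h3 v)]
    simp only [h3, mul_zero, Finset.sum_const_zero, zero_add, Pi.single_eq_same]
    exact mul_ne_zero hne hz'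
  have ew : (15 * p 3 ^ 15 + p 3 * Ew (T v) (cz (aw b v) (c v) r) (p v.castSucc) (p 3)) +
      ((1 - s : ℝ) : ℂ) * ∑ u ∈ univ.erase v,
        p 3 * Ew (T u) (cz (aw b u) (c u) r) (p u.castSucc) (p 3) = 0 := by
    rw [← Finset.mul_sum]
    linear_combination p 3 * ew0
  have e0 : M * P b (p 0) (p 1 * p 2) +
      (p 3 ^ 15 + E (T v) (cz (aw b v) (c v) r) (p v.castSucc) (p 3)) +
      ((1 - s : ℝ) : ℂ) * ∑ u ∈ univ.erase v,
        E (T u) (cz (aw b u) (c u) r) (p u.castSucc) (p 3) = 0 := by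
    have h1 := hev.self_of_nhds hpv
    rw [hz] at h1
    unfold Gv Co at h1
    linear_combination -h1
  obtain ⟨hPL, hpos⟩ := hpl v (p v.castSucc) (p 3) hpv
  obtain ⟨h1, h2⟩ := tube3 hd hκ hC hM hr0 hr1 (s := 1 - s)
    (by rw [abs_of_nonneg (by linarith)]; linarith) v hpv hsm eu ew (Or.inl e0) hPL
  have hP0 : P b (p 0) (p 1 * p 2) = 0 := by
    have ht : p 1 * p 2 = 0 := by
      fin_cases v
      · rw [show p 1 = 0 from h1 1 (by decide), zero_mul]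
      · rw [show p 2 = 0 from h1 2 (by decide), mul_zero]
      · rw [show p 1 = 0 from h1 1 (by decide), zero_mul]
    rw [ht]
    unfold P
    cases b <;> simp
  have hE0 : ∑ u ∈ univ.erase v, E (T u) (cz (aw b u) (c u) r) (p u.castSucc) (p 3) = 0 := by
    refine Finset.sum_eq_zero fun u hu => ?_
    rw [h1 u (Finset.mem_erase.1 hu).1]
    exact E_zero (hd u).adm _ _
  have hK : p 3 ^ 15 + E (T v) (cz (aw b v) (c v) r) (p v.castSucc) (p 3) = 0 := by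
    rw [hP0, hE0] at e0
    linear_combination e0
  have hKw : 15 * p 3 ^ 15 + p 3 * Ew (T v) (cz (aw b v) (c v) r) (p v.castSucc) (p 3) = 0 := by
    rw [h2]; ring
  rw [hK, hKw] at hpos
  simp at hpos

/-! ### the middle -/

/-- the compact part of the hub. -/
def Km (b : Bool) (W1 : ℝ) : Set E4 :=
  {p | 1 ≤ N b p ∧ N b p ≤ 4 / 3 ∧ (∀ v, g b v p ≤ t1 * N b p) ∧ ‖p 3‖ ≤ W1}

theorem isCompact_Km (b : Bool) (W1 : ℝ) : IsCompact (Km b W1) := by
  have hcl : IsClosed (Km b W1) := by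
    refine (isClosed_le continuous_const (continuous_N b)).inter
      ((isClosed_le (continuous_N b) continuous_const).inter (IsClosed.inter ?_ ?_))
    · have : {p : E4 | ∀ v, g b v p ≤ t1 * N b p} = ⋂ v, {p | g b v p ≤ t1 * N b p} := by
        ext p; simp
      show IsClosed {p : E4 | ∀ v, g b v p ≤ t1 * N b p}
      rw [this]
      exact isClosed_iInter fun v =>
        isClosed_le (continuous_g b v) (continuous_const.mul (continuous_N b))
    · exact isClosed_le (by fun_prop : Continuous fun p : E4 => ‖p 3‖) continuous_const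
  refine Metric.isCompact_of_isClosed_isBounded hcl
    ((Metric.isBounded_closedBall (x := (0 : E4)) (r := max 2 W1)).subset ?_)
  rintro p ⟨-, h2, -, h4⟩
  rw [mem_closedBall_zero_iff, pi_norm_le_iff_of_nonneg (le_max_of_le_left (by norm_num))]
  intro i
  refine Fin.lastCases ?_ (fun v => ?_) i
  · exact h4.trans (le_max_right _ _)
  · exact (norm_le_two h2 v).trans (le_max_left _ _)

theorem dP_ne {p : E4} (hN : N b p ≠ 0) (hv : ∀ v, g b v p ≤ t1 * N b p) :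
    ∃ u, dP b p u ≠ 0 := by
  by_contra hc
  push Not at hc
  have hNp := N_pos hN
  have h0 : Ps b (p 0) (p 1 * p 2) = 0 := hc 0
  have h1 : Pt b (p 0) (p 1 * p 2) * p 2 = 0 := hc 1
  have h2 : Pt b (p 0) (p 1 * p 2) * p 1 = 0 := hc 2
  have hsum : g b 0 p + g b 1 p + g b 2 p = N b p := by
    unfold N; rw [Fin.sum_univ_three]
  have hlt : t1 * N b p < N b p := by nlinarith [t1_lt]
  have z : ∀ v : Fin 3, p v.castSucc = 0 → g b v p = 0 := fun v h => g_eq_zero.2 h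
  by_cases hPt : Pt b (p 0) (p 1 * p 2) = 0
  · have hs : p 0 = 0 ∧ p 1 * p 2 = 0 := by
      refine Amal_52.core_iso (b := b) (m := 1) (n := 1) one_ne_zero one_ne_zero ?_ ?_
      · rw [← h0]
        unfold Amal_52.P2s Ps
        cases b <;> simp
      · rw [← hPt]
        unfold Amal_52.P2t Pt
        cases b <;> simp <;> ring
    have g0 := z 0 hs.1
    rcases mul_eq_zero.1 hs.2 with h | h
    · have g1 := z 1 h
      have := hv 2
      linarith
    · have g2 := z 2 h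
      have := hv 1
      linarith
  · have e2 : p 2 = 0 := (mul_eq_zero.1 h1).resolve_left hPt
    have e1 : p 1 = 0 := (mul_eq_zero.1 h2).resolve_left hPt
    have g1 := z 1 e1
    have g2 := z 2 e2
    have := hv 0
    linarith

/-- the gauge of the hub. -/
def sQ (b : Bool) (q : E4) : ℝ := Qs b q ^ (-(1 / 60) : ℝ)

theorem contDiffAt_sQ (hN : N b p ≠ 0) : ContDiffAt ℝ ∞ (sQ b) p := by
  unfold sQ
  refine (contDiffAt_Qs hN).rpow_const_of_ne ?_
  have h1 := le_Qs b p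
  have h2 := N_pos hN
  exact (lt_of_lt_of_le (by positivity) h1).ne'

theorem exists_mid (hA : ∀ v, AcOK (aw b v) (T v) (c v) W) (W1 : ℝ) :
    ∃ C c0 : ℝ, 0 < c0 ∧ 0 ≤ C ∧ ∀ p ∈ Km b W1, (∃ u, c0 ≤ ‖dP b p u‖) ∧
      ∀ r ∈ Icc (0 : ℝ) 1, ∀ s ∈ Icc (0 : ℝ) 1, ∀ y : E4,
        ‖fderiv ℝ (fun x => Re b T c W (sQ b) (r, s, x)) p y‖ ≤ C * ‖y‖ := by
  have hK := isCompact_Km b W1
  have hKN : ∀ p ∈ Km b W1, N b p ≠ 0 := fun p hp => (zero_lt_one.trans_le hp.1).ne'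
  -- gradient of the core
  obtain ⟨C1, hC1⟩ : ∃ C1 : ℝ, ∀ p ∈ Km b W1, ‖(∑ u, ‖dP b p u‖)⁻¹‖ ≤ C1 := by
    refine hK.exists_bound_of_continuousOn (ContinuousOn.inv₀ ?_ ?_)
    · refine (continuous_finsetSum _ fun u _ => ?_).continuousOn
      refine Continuous.norm ?_
      have hs : Continuous fun p : E4 => Ps b (p 0) (p 1 * p 2) := by
        unfold Ps; cases b <;> simp only [cond_true, cond_false] <;> fun_prop
      have ht : Continuous fun p : E4 => Pt b (p 0) (p 1 * p 2) := by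
        unfold Pt; cases b <;> simp only [cond_true, cond_false] <;> fun_prop
      fin_cases u
      · exact hs
      · exact ht.mul (by fun_prop)
      · exact ht.mul (by fun_prop)
    · intro p hp
      obtain ⟨u, hu⟩ := dP_ne (hKN p hp) hp.2.2.1
      have : 0 < ∑ u, ‖dP b p u‖ :=
        Finset.sum_pos' (fun _ _ => norm_nonneg _) ⟨u, Finset.mem_univ u, norm_pos_iff.2 hu⟩
      exact this.ne'
  -- derivative of the rest
  set U : Set (ℝ × ℝ × E4) := {q | N b q.2.2 ≠ 0} with hU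
  have hUo : IsOpen U := by
    have : Continuous fun q : ℝ × ℝ × E4 => N b q.2.2 := (continuous_N b).comp (by fun_prop)
    exact isOpen_ne_fun this continuous_const
  have hN0 : N b (0 : E4) = 0 := N_eq_zero.2 fun v => rfl
  have hne : ∀ q : E4, N b q ≠ 0 → q ≠ 0 := by
    rintro q hq rfl
    exact hq hN0
  have hcd : ∀ q ∈ U, ContDiffAt ℝ 2 (Re b T c W (sQ b)) q := fun q hq =>
    contDiffAt_Re hA (hne _ hq) (contDiffAt_sQ hq)
  have hcont : ContinuousOn (fderiv ℝ (Re b T c W (sQ b))) U := by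
    have h1 : ContDiffOn ℝ 2 (Re b T c W (sQ b)) U := fun q hq => (hcd q hq).contDiffWithinAt
    exact h1.continuousOn_fderiv_of_isOpen hUo (by norm_num)
  have hK' : IsCompact (Icc (0 : ℝ) 1 ×ˢ Icc (0 : ℝ) 1 ×ˢ Km b W1) :=
    isCompact_Icc.prod (isCompact_Icc.prod hK)
  obtain ⟨C2, hC2⟩ := hK'.exists_bound_of_continuousOn
    (hcont.mono fun q hq => hKN _ hq.2.2)
  refine ⟨max C2 0, 1 / (3 * (max C1 0 + 1)), by positivity, le_max_right _ _, fun p hp => ⟨?_, ?_⟩⟩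
  · by_contra hn
    push Not at hn
    have h1 := hC1 p hp
    obtain ⟨u, hu⟩ := dP_ne (hKN p hp) hp.2.2.1
    have h2 : 0 < ∑ u, ‖dP b p u‖ :=
      Finset.sum_pos' (fun _ _ => norm_nonneg _) ⟨u, Finset.mem_univ u, norm_pos_iff.2 hu⟩
    have h3 : ∑ u, ‖dP b p u‖ < 3 * (1 / (3 * (max C1 0 + 1))) := by
      rw [Fin.sum_univ_three]
      linarith [hn 0, hn 1, hn 2]
    have h4 : 3 * (1 / (3 * (max C1 0 + 1))) = 1 / (max C1 0 + 1) := by
      field_simp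
    rw [h4] at h3
    rw [norm_inv, Real.norm_eq_abs, abs_of_pos h2] at h1
    have h5 : (max C1 0 + 1) < (∑ u, ‖dP b p u‖)⁻¹ := by
      rw [lt_inv_comm₀ (by positivity) h2, ← one_div]
      exact h3
    have h6 := le_max_left C1 0
    linarith
  · intro r hr s hs y
    have hq : (r, s, p) ∈ Icc (0 : ℝ) 1 ×ˢ Icc (0 : ℝ) 1 ×ˢ Km b W1 := ⟨hr, hs, hp⟩
    have h1 := hC2 _ hq
    have hda : DifferentiableAt ℝ (Re b T c W (sQ b)) (r, s, p) :=
      (hcd _ (hKN p hp)).differentiableAt (by norm_num)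
    have h2 : HasFDerivAt (fun x : E4 => ((r, s, x) : ℝ × ℝ × E4))
        ((ContinuousLinearMap.inr ℝ ℝ (ℝ × E4)).comp (ContinuousLinearMap.inr ℝ ℝ E4)) p :=
      (hasFDerivAt_prodMk_right r (s, p)).comp p (hasFDerivAt_prodMk_right s p)
    have h3 : HasFDerivAt (fun x => Re b T c W (sQ b) (r, s, x))
        ((fderiv ℝ (Re b T c W (sQ b)) (r, s, p)).comp
          ((ContinuousLinearMap.inr ℝ ℝ (ℝ × E4)).comp (ContinuousLinearMap.inr ℝ ℝ E4))) p :=
      HasFDerivAt.comp (g := Re b T c W (sQ b)) (f := fun x : E4 => ((r, s, x) : ℝ × ℝ × E4)) p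
        hda.hasFDerivAt h2
    rw [h3.fderiv]
    have h4 : ((fderiv ℝ (Re b T c W (sQ b)) (r, s, p)).comp
        ((ContinuousLinearMap.inr ℝ ℝ (ℝ × E4)).comp (ContinuousLinearMap.inr ℝ ℝ E4))) y =
        fderiv ℝ (Re b T c W (sQ b)) (r, s, p) (0, 0, y) := rfl
    rw [h4]
    refine ((fderiv ℝ (Re b T c W (sQ b)) (r, s, p)).le_opNorm _).trans ?_
    have h5 : ‖((0 : ℝ), ((0 : ℝ), y))‖ = ‖y‖ := by
      rw [Prod.norm_def, Prod.norm_def]
      simp
    rw [h5]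
    gcongr
    exact h1.trans (le_max_left _ _)

theorem norm_single (i : Fin 4) (z : ℂ) : ‖(Pi.single i z : E4)‖ ≤ ‖z‖ := by
  rw [pi_norm_le_iff_of_nonneg (norm_nonneg _)]
  intro j
  rw [Pi.single_apply]
  split_ifs
  · exact le_rfl
  · rw [norm_zero]; exact norm_nonneg _

/-- **(d)** the middle. -/
theorem reg_mid (hA : ∀ v, AcOK (aw b v) (T v) (c v) W) {W1 C c0 : ℝ}
    (hmid : ∀ p ∈ Km b W1, (∃ u, c0 ≤ ‖dP b p u‖) ∧
      ∀ r ∈ Icc (0 : ℝ) 1, ∀ s ∈ Icc (0 : ℝ) 1, ∀ y : E4,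
        ‖fderiv ℝ (fun x => Re b T c W (sQ b) (r, s, x)) p y‖ ≤ C * ‖y‖) (hC : 0 ≤ C)
    (hM0 : 0 < M) (hM : C < M * c0) (h0 : 0 < h) (hr : r ∈ Icc (0 : ℝ) 1) (hs : s ∈ Icc (0 : ℝ) 1)
    (hS : Ss b h p = 1) (hN : 2 * h * Ds b p < N b p) (hv : ∀ v, g b v p / N b p ≤ t1)
    (hw : ‖p 3‖ ≤ W1) (β : ℂ) :
    ∃ y, fderiv ℝ (Fs b T c M W h r s) p y = β := by
  have hp := ne_of_Ss h0 hS
  have hN0 : N b p ≠ 0 := by
    have := Ds_pos (b := b) hp
    have : 0 < 2 * h * Ds b p := by positivity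
    linarith [this]
  have hNp := N_pos hN0
  have hQ : Qs b p = 1 := by rw [← hS, (ev_Qs (b := b) h0 hp hN).self_of_nhds]
  have hK : p ∈ Km b W1 := by
    refine ⟨?_, N_le hS, fun v => ?_, hw⟩
    · have := Qs_le b p
      linarith
    · have := hv v
      rwa [div_le_iff₀ hNp] at this
  obtain ⟨⟨u, hu⟩, hb⟩ := hmid p hK
  refine onto_coord u.castSucc (fun z hz => ?_) β
  have hev : Fs b T c M W h r s =ᶠ[𝓝 p] fun q => Co b M q + Re b T c W (sQ b) (r, s, q) := by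
    filter_upwards [ev_sg (b := b) h0 hp hN] with q hq
    unfold Fs
    rw [Ff_eq]
    unfold Re sQ
    simp only [hq]
  have hCo : DifferentiableAt ℝ (Co b M) p :=
    (contDiff_Co b M).contDiffAt.differentiableAt (by simp)
  have hRe : DifferentiableAt ℝ (fun q => Re b T c W (sQ b) (r, s, q)) p := by
    have h1 : ContDiffAt ℝ 2 (Re b T c W (sQ b)) (r, s, p) :=
      contDiffAt_Re hA hp (contDiffAt_sQ hN0)
    exact (h1.differentiableAt (by norm_num)).comp (f := fun q : E4 => ((r, s, q) : ℝ × ℝ × E4)) p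
      (by fun_prop)
  rw [hev.fderiv_eq, fderiv_fun_add hCo hRe, _root_.add_apply]
  have h1 : fderiv ℝ (Co b M) p (Pi.single u.castSucc z) = M * (dP b p u * z) := by
    rw [fderiv_of_line hCo (hasDerivAt_Co b M p _)]
    have h3 : (Pi.single u.castSucc z : E4) 3 = 0 := by
      rw [Pi.single_apply, if_neg]
      exact (Fin.castSucc_lt_last u).ne'
    rw [h3, mul_zero, add_zero, Finset.sum_eq_single u]
    · rw [Pi.single_eq_same]
    · intro i _ hi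
      rw [Pi.single_apply, if_neg fun h => hi (Fin.castSucc_injective _ h), mul_zero]
    · exact fun h => absurd (Finset.mem_univ u) h
  rw [h1]
  intro hzero
  have h2 := hb r hr s hs (Pi.single u.castSucc z)
  have h3 : ‖(M : ℂ) * (dP b p u * z)‖ ≤ C * ‖z‖ := by
    have e : (M : ℂ) * (dP b p u * z) =
        -fderiv ℝ (fun x => Re b T c W (sQ b) (r, s, x)) p (Pi.single u.castSucc z) := by
      linear_combination hzero
    rw [e, norm_neg]
    refine h2.trans ?_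
    gcongr
    exact norm_single _ _
  rw [norm_mul, norm_mul, Complex.norm_real, Real.norm_eq_abs, abs_of_pos hM0] at h3
  have hz' : 0 < ‖z‖ := norm_pos_iff.2 hz
  have h4 : M * c0 * ‖z‖ ≤ M * (‖dP b p u‖ * ‖z‖) := by
    calc M * c0 * ‖z‖ = M * (c0 * ‖z‖) := by ring
      _ ≤ M * (‖dP b p u‖ * ‖z‖) := by gcongr
  have h5 : C * ‖z‖ < M * c0 * ‖z‖ := by gcongr
  linarith

end Crest.Agent.R267.NdI_484
end
end

-- ▼ part R267/EntB2_172
section

/-!
# S0406, T3N entrance, leaf ENT-B: the cut off arm (helper172)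

* `contDiff_Ac`, `Ac_hom`, `Ac_supp`, `Ac_zero`, `Ac_eq` : elementary properties of the cut off arm;
* `der_Ac` : derivative in the `w` direction, with a bound independent of `W`, `r`.
-/

set_option autoImplicit false
set_option linter.unusedSectionVars false

noncomputable section

open Set Filter Topology Finset
open scoped ContDiff
open Crest.Agent.R267.NdP_484 Crest.Agent.R267.NdR_484 Crest.Agent.R267.NdQ_484
open Crest.Agent.R267.NdS_484

namespace Crest.Agent.R267.EntB2_172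

variable {a : ℕ} {T : Finset (ℕ × ℕ)} {c : ℕ × ℕ → ℂ} {W r : ℝ}

/-! ### smoothness -/

theorem contDiff_ct (a : ℕ) (W : ℝ) :
    ContDiffOn ℝ 2 (fun q : ℝ × (ℂ × ℂ) => ct a W q.2.1 q.2.2)
      (univ ×ˢ {z : ℂ × ℂ | z.1 ≠ 0}) := by
  unfold ct
  by_cases hW : W = 0
  · subst hW
    simp only [ne_eq, OfNat.ofNat_ne_zero, not_false_eq_true, zero_pow, zero_mul, div_zero]
    exact contDiffOn_const
  · refine Real.smoothTransition.contDiff.comp_contDiffOn ?_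
    refine contDiffOn_const.sub (ContDiffOn.div ?_ ?_ ?_)
    · have : (fun q : ℝ × (ℂ × ℂ) => ‖q.2.2‖ ^ (2 * a)) =
          fun q : ℝ × (ℂ × ℂ) => (‖q.2.2‖ ^ 2) ^ a := by
        funext q; rw [pow_mul]
      rw [this]
      exact (((contDiff_snd.comp contDiff_snd).norm_sq ℝ).pow a).contDiffOn
    · exact (contDiff_const.mul ((contDiff_fst.comp contDiff_snd).norm_sq ℝ)).contDiffOn
    · rintro q ⟨-, hq⟩
      have h1 : 0 < ‖q.2.1‖ := norm_pos_iff.2 hq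
      have h2 : 0 < W ^ 2 := by positivity
      positivity

theorem contDiff_Ac (a : ℕ) (T : Finset (ℕ × ℕ)) (c : ℕ × ℕ → ℂ) (W : ℝ) :
    ContDiffOn ℝ 2 (fun q : ℝ × (ℂ × ℂ) => Ac a T c W q.1 q.2)
      (univ ×ˢ {z : ℂ × ℂ | z.1 ≠ 0}) := by
  unfold Ac
  have h1 : ContDiffOn ℝ 2 (fun q : ℝ × (ℂ × ℂ) => ((ct a W q.2.1 q.2.2 : ℝ) : ℂ))
      (univ ×ˢ {z : ℂ × ℂ | z.1 ≠ 0}) :=
    Complex.ofRealCLM.contDiff.comp_contDiffOn (contDiff_ct a W)
  refine h1.mul ?_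
  unfold E cz
  refine ContDiffOn.sum fun p hp => ?_
  have hz : ContDiffOn ℝ 2 (fun q : ℝ × (ℂ × ℂ) => q.1 * ‖q.2.1‖ ^ (-(1 / (a : ℝ))))
      (univ ×ˢ {z : ℂ × ℂ | z.1 ≠ 0}) := by
    refine contDiffOn_fst.mul ?_
    rintro q ⟨-, hq⟩
    have h3 : ContDiffAt ℝ 2 (fun q : ℝ × (ℂ × ℂ) => ‖q.2.1‖) q :=
      (contDiffAt_fst.comp q contDiffAt_snd).norm ℝ hq
    exact (h3.rpow_const_of_ne (norm_ne_zero_iff.2 hq)).contDiffWithinAt
  have hz' : ContDiffOn ℝ 2 (fun q : ℝ × (ℂ × ℂ) =>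
      ((q.1 * ‖q.2.1‖ ^ (-(1 / (a : ℝ))) : ℝ) : ℂ)) (univ ×ˢ {z : ℂ × ℂ | z.1 ≠ 0}) :=
    Complex.ofRealCLM.contDiff.comp_contDiffOn hz
  refine (contDiffOn_const.mul (hz'.pow _)).mul (ContDiffOn.mul ?_ ?_)
  · exact ((contDiff_fst.comp contDiff_snd).pow _).contDiffOn
  · exact ((contDiff_snd.comp contDiff_snd).pow _).contDiffOn

/-! ### values -/

theorem Ac_zero (hT : Adm a T) (w : ℂ) : Ac a T c W r (0, w) = 0 := by
  unfold Ac E
  simp only
  rw [Finset.sum_eq_zero, mul_zero]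
  intro p hp
  obtain ⟨h1, -, -⟩ := hT p hp
  rw [zero_pow (by omega), zero_mul, mul_zero]

theorem Ac_supp (hW : 0 < W) {u w : ℂ} (h : 2 * W ^ 2 * ‖u‖ ^ 2 ≤ ‖w‖ ^ (2 * a)) (hu : u ≠ 0) :
    Ac a T c W r (u, w) = 0 := by
  unfold Ac ct
  simp only
  have h1 : 0 < ‖u‖ := norm_pos_iff.2 hu
  have h2 : 2 - ‖w‖ ^ (2 * a) / (W ^ 2 * ‖u‖ ^ 2) ≤ 0 := by
    rw [sub_nonpos, le_div_iff₀ (by positivity)]
    linarith
  rw [Real.smoothTransition.zero_of_nonpos h2, Complex.ofReal_zero, zero_mul]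

theorem Ac_eq {v w : ℂ} (hv : ‖v‖ = 1) (hw : ‖w‖ ^ a ≤ W) :
    Ac a T c W r (v, w) = E T (cz a c r) v w := by
  unfold Ac ct
  simp only
  rw [hv, Real.one_rpow, mul_one, one_pow, mul_one]
  have h0 : 0 ≤ ‖w‖ ^ a := by positivity
  have h1 : 1 ≤ 2 - ‖w‖ ^ (2 * a) / W ^ 2 := by
    have : ‖w‖ ^ (2 * a) / W ^ 2 ≤ 1 := by
      refine div_le_one_of_le₀ ?_ (by positivity)
      calc ‖w‖ ^ (2 * a) = (‖w‖ ^ a) ^ 2 := by rw [← pow_mul, mul_comm]
        _ ≤ W ^ 2 := by gcongr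
    linarith
  rw [Real.smoothTransition.one_of_one_le h1, Complex.ofReal_one, one_mul]

theorem ct_hom {l : ℝ} (hl : 0 < l) (u w : ℂ) :
    ct a W ((l : ℂ) ^ a * u) ((l : ℂ) * w) = ct a W u w := by
  unfold ct
  congr 2
  rw [norm_mul, norm_mul, norm_pow, Complex.norm_real, Real.norm_eq_abs, abs_of_pos hl, mul_pow,
    mul_pow, ← pow_mul, mul_comm a 2]
  have h1 : l ^ (2 * a) ≠ 0 := by positivity
  rw [mul_left_comm, mul_div_mul_left _ _ h1]

theorem cz_hom (ha : 1 ≤ a) {l : ℝ} (hl : 0 < l) (u : ℂ) :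
    r * ‖(l : ℂ) ^ a * u‖ ^ (-(1 / (a : ℝ))) = (r * ‖u‖ ^ (-(1 / (a : ℝ)))) / l := by
  rw [norm_mul, norm_pow, Complex.norm_real, Real.norm_eq_abs, abs_of_pos hl,
    Real.mul_rpow (by positivity) (norm_nonneg _), ← Real.rpow_natCast l a,
    ← Real.rpow_mul hl.le]
  have ha' : (a : ℝ) ≠ 0 := by positivity
  have : (a : ℝ) * -(1 / (a : ℝ)) = -1 := by field_simp
  rw [this, Real.rpow_neg_one]
  ring

theorem Ac_hom (ha : 1 ≤ a) (hT : Adm a T) {l : ℝ} (hl : 0 < l) (u w : ℂ) :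
    Ac a T c W r ((l : ℂ) ^ a * u, (l : ℂ) * w) = (l : ℂ) ^ 15 * Ac a T c W r (u, w) := by
  unfold Ac
  simp only
  rw [ct_hom hl, cz_hom ha hl, mul_left_comm]
  congr 1
  unfold E cz
  rw [Finset.mul_sum]
  refine Finset.sum_congr rfl fun p hp => ?_
  obtain ⟨h1, h2, h3⟩ := hT p hp
  have hl' : (l : ℂ) ≠ 0 := by exact_mod_cast hl.ne'
  have e1 : (l : ℂ) ^ (a * p.1) * (l : ℂ) ^ p.2 = (l : ℂ) ^ 15 * (l : ℂ) ^ ex a p := by
    rw [← pow_add, ← pow_add]; congr 1; unfold ex; omega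
  rw [Complex.ofReal_div, div_pow, mul_pow, mul_pow, ← pow_mul]
  field_simp
  calc _ = c p * ((r * ‖u‖ ^ (-(1 / (a : ℝ))) : ℝ) : ℂ) ^ ex a p * u ^ p.1 * w ^ p.2 *
        ((l : ℂ) ^ (a * p.1) * (l : ℂ) ^ p.2) := by ring
    _ = _ := by rw [e1]; ring

/-! ### derivative in `w` -/

/-- `x ↦ x · smoothTransition' (2 - x)` is bounded on `[0, ∞)`. -/
theorem bound_st : ∃ C0 : ℝ, 0 < C0 ∧ ∀ x : ℝ, 0 ≤ x →
    |x * deriv Real.smoothTransition (2 - x)| ≤ C0 := by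
  have hc : Continuous (deriv Real.smoothTransition) :=
    (Real.smoothTransition.contDiff (n := 1)).continuous_deriv le_rfl
  have hG : Continuous fun x : ℝ => x * deriv Real.smoothTransition (2 - x) := by fun_prop
  obtain ⟨C, hC⟩ := isCompact_Icc.exists_bound_of_continuousOn (s := Icc (0 : ℝ) 2)
    hG.continuousOn
  refine ⟨max C 1, by positivity, fun x hx => ?_⟩
  by_cases h : x ≤ 2
  · exact (hC x ⟨hx, h⟩).trans (le_max_left _ _)
  · push Not at h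
    have h0 : deriv Real.smoothTransition (2 - x) = 0 := by
      have : Real.smoothTransition =ᶠ[𝓝 (2 - x)] fun _ => (0 : ℝ) := by
        filter_upwards [gt_mem_nhds (show (2 - x) < 0 by linarith)] with y hy
        exact Real.smoothTransition.zero_of_nonpos hy.le
      rw [this.deriv_eq, deriv_const]
    rw [h0, mul_zero, abs_zero]
    positivity

/-- the constant of the arm. -/
def K0 (T : Finset (ℕ × ℕ)) (c : ℕ × ℕ → ℂ) : ℝ := 2 ^ 15 * Kc T c

/-- size of one scaled monomial. -/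
theorem term_le (ha : 1 ≤ a) {p : ℕ × ℕ} (h2 : p.2 ≤ 14) (h3 : 15 ≤ a * p.1 + p.2)
    (hr : 0 < r) (hr1 : r ≤ 1) {v : ℂ} (hv : v ≠ 0) (hv2 : ‖v‖ ≤ 2) :
    ‖cz a c (r * ‖v‖ ^ (-(1 / (a : ℝ)))) p‖ * ‖v‖ ^ p.1 ≤ ‖c p‖ * 2 ^ 15 := by
  have hv0 : 0 < ‖v‖ := norm_pos_iff.2 hv
  have ha' : (a : ℝ) ≠ 0 := by positivity
  have ha1 : (1 : ℝ) ≤ a := by exact_mod_cast ha
  set n : ℝ := ‖v‖ ^ (1 / (a : ℝ)) with hn
  have hn0 : 0 < n := Real.rpow_pos_of_pos hv0 _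
  have hnv : ‖v‖ = n ^ a := by
    rw [hn, one_div, Real.rpow_inv_natCast_pow hv0.le (by omega)]
  have hn2 : n ≤ 2 := by
    calc n ≤ 2 ^ (1 / (a : ℝ)) := Real.rpow_le_rpow hv0.le hv2 (by positivity)
      _ ≤ 2 ^ (1 : ℝ) := by
          refine Real.rpow_le_rpow_of_exponent_le (by norm_num) ?_
          rw [div_le_one (by positivity)]; exact ha1
      _ = 2 := Real.rpow_one 2
  have hneg : ‖v‖ ^ (-(1 / (a : ℝ))) = n⁻¹ := by rw [Real.rpow_neg hv0.le]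
  unfold cz
  rw [hneg, norm_mul, norm_pow, Complex.norm_real, Real.norm_eq_abs,
    abs_of_pos (by positivity), mul_assoc]
  refine mul_le_mul_of_nonneg_left ?_ (norm_nonneg _)
  rw [hnv, ← pow_mul, mul_pow]
  have e1 : n⁻¹ ^ ex a p * n ^ (a * p.1) = n ^ (15 - p.2) := by
    have : a * p.1 = ex a p + (15 - p.2) := by unfold ex; omega
    rw [this, pow_add, ← mul_assoc, ← mul_pow, inv_mul_cancel₀ hn0.ne', one_pow, one_mul]
  calc r ^ ex a p * n⁻¹ ^ ex a p * n ^ (a * p.1) = r ^ ex a p * n ^ (15 - p.2) := by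
        rw [mul_assoc, e1]
    _ ≤ 1 * 2 ^ (15 - p.2) := by
        refine mul_le_mul (pow_le_one₀ hr.le hr1) (by gcongr) (by positivity) zero_le_one
    _ ≤ 2 ^ 15 := by
        rw [one_mul]
        exact pow_le_pow_right₀ (by norm_num) (by omega)

theorem E_bd (ha : 1 ≤ a) (hT : Adm a T) (hr : 0 < r) (hr1 : r ≤ 1) {v w : ℂ} (hv : v ≠ 0)
    (hv2 : ‖v‖ ≤ 2) (hw : 1 ≤ ‖w‖) :
    ‖E T (cz a c (r * ‖v‖ ^ (-(1 / (a : ℝ))))) v w‖ ≤ K0 T c * ‖w‖ ^ 14 := by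
  unfold E K0 Kc
  rw [Finset.mul_sum, Finset.sum_mul]
  refine (norm_sum_le _ _).trans (Finset.sum_le_sum fun p hp => ?_)
  obtain ⟨h1, h2, h3⟩ := hT p hp
  have h := term_le (c := c) ha h2 h3 hr hr1 hv hv2
  rw [norm_mul, norm_mul, norm_pow, norm_pow, ← mul_assoc]
  calc _ ≤ ‖c p‖ * 2 ^ 15 * ‖w‖ ^ 14 := by
        refine mul_le_mul h (pow_le_pow_right₀ hw h2) (by positivity) (by positivity)
    _ ≤ _ := by
        refine mul_le_mul_of_nonneg_right ?_ (by positivity)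
        have : 0 ≤ ((p.1 : ℝ) + p.2) * ‖c p‖ := by positivity
        nlinarith

theorem Ew_bd (ha : 1 ≤ a) (hT : Adm a T) (hr : 0 < r) (hr1 : r ≤ 1) {v w : ℂ} (hv : v ≠ 0)
    (hv2 : ‖v‖ ≤ 2) (hw : 1 ≤ ‖w‖) :
    ‖Ew T (cz a c (r * ‖v‖ ^ (-(1 / (a : ℝ))))) v w‖ ≤ K0 T c * ‖w‖ ^ 13 := by
  unfold Ew K0 Kc
  rw [Finset.mul_sum, Finset.sum_mul]
  refine (norm_sum_le _ _).trans (Finset.sum_le_sum fun p hp => ?_)
  obtain ⟨h1, h2, h3⟩ := hT p hp
  have h := term_le (c := c) ha h2 h3 hr hr1 hv hv2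
  rw [norm_mul, norm_mul, norm_mul, norm_pow, norm_pow, Complex.norm_natCast, ← mul_assoc]
  calc _ ≤ ‖c p‖ * 2 ^ 15 * ((p.2 : ℝ) * ‖w‖ ^ 13) := by
        refine mul_le_mul h ?_ (by positivity) (by positivity)
        refine mul_le_mul_of_nonneg_left (pow_le_pow_right₀ hw (by omega)) (by positivity)
    _ ≤ _ := by
        have e : ‖c p‖ * 2 ^ 15 * ((p.2 : ℝ) * ‖w‖ ^ 13) =
          (2 ^ 15 * ((p.2 : ℝ) * ‖c p‖)) * ‖w‖ ^ 13 := by ring
        rw [e]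
        refine mul_le_mul_of_nonneg_right ?_ (by positivity)
        have : 0 ≤ ((p.1 : ℝ) + 1) * ‖c p‖ := by positivity
        nlinarith

/-- derivative of `E` along a real line. -/
theorem hasDerivAt_E (T : Finset (ℕ × ℕ)) (c : ℕ × ℕ → ℂ) (v w h : ℂ) :
    HasDerivAt (fun ε : ℝ => E T c v (w + (ε : ℂ) * h)) (Ew T c v w * h) 0 := by
  have h0 : HasDerivAt (fun ε : ℝ => w + (ε : ℂ) * h) h 0 := by
    have := ((Complex.ofRealCLM.hasDerivAt (x := (0 : ℝ))).mul_const h).const_add w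
    simpa using this
  unfold E Ew
  rw [Finset.sum_mul]
  refine HasDerivAt.fun_sum fun p _ => ?_
  have h1 := (((h0.pow p.2).const_mul (v ^ p.1)).const_mul (c p))
  refine h1.congr_deriv ?_
  simp only [Complex.ofReal_zero, zero_mul, add_zero]
  ring

/-- derivative of the cut off along a real line. -/
theorem hasDerivAt_ct {v w : ℂ} (hv : v ≠ 0) (hW : 0 < W) (hw : w ≠ 0) (ha : 1 ≤ a) (h : ℂ) :
    ∃ d : ℝ, HasDerivAt (fun ε : ℝ => ct a W v (w + (ε : ℂ) * h)) d 0 ∧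
      |d| ≤ 2 * a * |(‖w‖ ^ (2 * a) / (W ^ 2 * ‖v‖ ^ 2)) *
        deriv Real.smoothTransition (2 - ‖w‖ ^ (2 * a) / (W ^ 2 * ‖v‖ ^ 2))| * (‖h‖ / ‖w‖) := by
  have hv0 : 0 < ‖v‖ := norm_pos_iff.2 hv
  have hw0 : 0 < ‖w‖ := norm_pos_iff.2 hw
  have h0 : HasDerivAt (fun ε : ℝ => w + (ε : ℂ) * h) h 0 := by
    have := ((Complex.ofRealCLM.hasDerivAt (x := (0 : ℝ))).mul_const h).const_add w
    simpa using this
  have h1 : HasDerivAt (fun ε : ℝ => ‖w + (ε : ℂ) * h‖ ^ 2) (2 * inner ℝ w h) 0 := by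
    have := h0.norm_sq
    simpa using this
  have h2 := ((h1.pow a).div_const (W ^ 2 * ‖v‖ ^ 2)).const_sub 2
  have h3 : HasDerivAt Real.smoothTransition
      (deriv Real.smoothTransition (2 - ‖w‖ ^ (2 * a) / (W ^ 2 * ‖v‖ ^ 2)))
      (2 - ‖w‖ ^ (2 * a) / (W ^ 2 * ‖v‖ ^ 2)) :=
    ((Real.smoothTransition.contDiff (n := 1)).differentiable (by norm_num)).differentiableAt.hasDerivAt
  have h4 := HasDerivAt.comp_of_eq (0 : ℝ) h3 h2 (by simp [pow_mul])
  refine ⟨_, h4.congr_of_eventuallyEq (Eventually.of_forall fun ε => ?_), ?_⟩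
  · simp only [ct, Function.comp, Pi.pow_apply, pow_mul]
  · have hi : |inner ℝ w h| ≤ ‖w‖ * ‖h‖ := abs_real_inner_le_norm w h
    simp only [Complex.ofReal_zero, zero_mul, add_zero]
    have e1 : (‖w‖ ^ 2) ^ (a - 1) * ‖w‖ ^ 2 = ‖w‖ ^ (2 * a) := by
      rw [← pow_succ, Nat.sub_add_cancel ha, pow_mul]
    set D := deriv Real.smoothTransition (2 - ‖w‖ ^ (2 * a) / (W ^ 2 * ‖v‖ ^ 2)) with hD
    have hden : 0 < W ^ 2 * ‖v‖ ^ 2 := by positivity
    rw [abs_mul, abs_neg, abs_div, abs_mul, abs_mul, abs_mul, abs_of_pos hden, Nat.abs_cast,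
      abs_of_nonneg (by positivity : (0:ℝ) ≤ (‖w‖ ^ 2) ^ (a - 1)), abs_two,
      abs_mul _ D, abs_of_nonneg (by positivity : 0 ≤ ‖w‖ ^ (2 * a) / (W ^ 2 * ‖v‖ ^ 2))]
    calc |D| * ((a : ℝ) * (‖w‖ ^ 2) ^ (a - 1) * (2 * |inner ℝ w h|) / (W ^ 2 * ‖v‖ ^ 2))
        ≤ |D| * ((a : ℝ) * (‖w‖ ^ 2) ^ (a - 1) * (2 * (‖w‖ * ‖h‖)) / (W ^ 2 * ‖v‖ ^ 2)) := by
          gcongr
      _ = 2 * a * ((((‖w‖ ^ 2) ^ (a - 1) * ‖w‖ ^ 2) / (W ^ 2 * ‖v‖ ^ 2)) * |D|) *
          (‖h‖ / ‖w‖) := by field_simp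
      _ = _ := by rw [e1]

/-- **(B2)** derivative of the cut off arm. -/
theorem der_Ac (ha : 1 ≤ a) (hT : Adm a T) : ∃ C : ℝ, 0 < C ∧ ∃ W1 : ℝ, 1 < W1 ∧
    ∀ W ≥ W1, ∀ r : ℝ, 0 < r → r ≤ 1 → ∀ v w : ℂ, v ≠ 0 → ‖v‖ ≤ 2 → 1 ≤ ‖w‖ → ∀ h : ℂ,
      ∃ d : ℂ, HasDerivAt (fun ε : ℝ => Ac a T c W r (v, w + (ε : ℂ) * h)) d 0 ∧
        ‖d‖ ≤ C * ‖w‖ ^ 13 * ‖h‖ := by
  obtain ⟨C0, hC0, hst⟩ := bound_st
  have hK : 0 ≤ K0 T c := by unfold K0; have := Kc_nonneg T c; positivity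
  refine ⟨(2 * a * C0 + 1) * K0 T c + 1, by positivity, 2, by norm_num,
    fun W hW r hr hr1 v w hv hv2 hw h => ?_⟩
  have hw0 : w ≠ 0 := by rintro rfl; rw [norm_zero] at hw; linarith
  obtain ⟨d, hd, hdle⟩ := hasDerivAt_ct (a := a) (W := W) hv (by linarith) hw0 ha h
  have hE := hasDerivAt_E T (cz a c (r * ‖v‖ ^ (-(1 / (a : ℝ))))) v w h
  have hm := hd.ofReal_comp.mul hE
  refine ⟨_, hm, ?_⟩
  simp only [Complex.ofReal_zero, zero_mul, add_zero]
  have b1 := E_bd (c := c) ha hT hr hr1 hv hv2 hw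
  have b2 := Ew_bd (c := c) ha hT hr hr1 hv hv2 hw
  have b3 : |d| ≤ 2 * a * C0 * (‖h‖ / ‖w‖) :=
    hdle.trans (by gcongr; exact hst _ (by positivity))
  have b4 : ‖((ct a W v w : ℝ) : ℂ)‖ ≤ 1 := by
    rw [Complex.norm_real, Real.norm_eq_abs]
    unfold ct
    rw [abs_of_nonneg (Real.smoothTransition.nonneg _)]
    exact Real.smoothTransition.le_one _
  calc _ ≤ |d| * ‖E T (cz a c (r * ‖v‖ ^ (-(1 / (a : ℝ))))) v w‖ +
        ‖((ct a W v w : ℝ) : ℂ)‖ * (‖Ew T (cz a c (r * ‖v‖ ^ (-(1 / (a : ℝ))))) v w‖ * ‖h‖) := by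
        refine (norm_add_le _ _).trans ?_
        rw [norm_mul, norm_mul, norm_mul, Complex.norm_real, Real.norm_eq_abs]
    _ ≤ (2 * a * C0 * (‖h‖ / ‖w‖)) * (K0 T c * ‖w‖ ^ 14) +
        1 * ((K0 T c * ‖w‖ ^ 13) * ‖h‖) := by
        gcongr
    _ = ((2 * a * C0 + 1) * K0 T c) * ‖w‖ ^ 13 * ‖h‖ := by
        have : ‖w‖ ≠ 0 := by positivity
        field_simp
    _ ≤ _ := by gcongr; linarith

end Crest.Agent.R267.EntB2_172
end
end

-- ▼ part R267/EntB3_172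
section

/-!
# S0406, T3N entrance, leaf ENT-B: every cut off arm is an arm (helper172)

`PlArm a T c` is the first half of the planar inequality (B1); `arm_of` : (B3) from it.
-/

set_option autoImplicit false
set_option linter.unusedSectionVars false

noncomputable section

open Set Filter Topology Finset
open scoped ContDiff
open Crest.Agent.R267.NdP_484 Crest.Agent.R267.NdR_484 Crest.Agent.R267.NdQ_484
open Crest.Agent.R267.NdS_484 Crest.Agent.R267.EntB2_172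

namespace Crest.Agent.R267.EntB3_172

variable {a : ℕ} {T : Finset (ℕ × ℕ)} {c : ℕ × ℕ → ℂ} {W r : ℝ}

/-- the constant path. -/
def Acp (a : ℕ) (T : Finset (ℕ × ℕ)) (c : ℕ × ℕ → ℂ) (W r : ℝ) (q : ℝ × (ℂ × ℂ)) : ℂ :=
  Ac a T c W r q.2

theorem contDiff_Acp : ContDiffOn ℝ 2 (Acp a T c W r)
    ((univ : Set ℝ) ×ˢ {z : ℂ × ℂ | z.1 ≠ 0}) := by
  have h := contDiff_Ac a T c W
  have h2 : ContDiff ℝ 2 (fun q : ℝ × (ℂ × ℂ) => ((r, q.2) : ℝ × (ℂ × ℂ))) :=
    contDiff_const.prodMk contDiff_snd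
  exact h.comp h2.contDiffOn fun q hq => ⟨trivial, hq.2⟩

theorem isOpen_S : IsOpen ((univ : Set ℝ) ×ˢ {z : ℂ × ℂ | z.1 ≠ 0}) :=
  isOpen_univ.prod (isOpen_ne.preimage continuous_fst)

theorem diffAt_Acp (t : ℝ) {u : ℂ} (w : ℂ) (hu : u ≠ 0) :
    DifferentiableAt ℝ (Acp a T c W r) (t, (u, w)) :=
  ((contDiff_Acp (a := a) (T := T) (c := c) (W := W) (r := r)).contDiffAt
    (isOpen_S.mem_nhds (show ((t, (u, w)) : ℝ × (ℂ × ℂ)) ∈
      (univ : Set ℝ) ×ˢ {z : ℂ × ℂ | z.1 ≠ 0} from ⟨trivial, hu⟩))).differentiableAt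
        (by norm_num)

/-- the derivative in the direction `(0, (0, h))`. -/
theorem fderiv_w (t : ℝ) {u : ℂ} (w : ℂ) (hu : u ≠ 0) (h d : ℂ)
    (hd : HasDerivAt (fun ε : ℝ => Ac a T c W r (u, w + (ε : ℂ) * h)) d 0) :
    fderiv ℝ (Acp a T c W r) (t, (u, w)) (0, ((0 : ℂ), h)) = d := by
  have h1 : HasDerivAt (fun ε : ℝ => ((t, (u, w + (ε : ℂ) * h)) : ℝ × (ℂ × ℂ)))
      (0, ((0 : ℂ), h)) 0 := by
    have h0 : HasDerivAt (fun ε : ℝ => w + (ε : ℂ) * h) h 0 := by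
      have := ((Complex.ofRealCLM.hasDerivAt (x := (0 : ℝ))).mul_const h).const_add w
      simpa using this
    exact (hasDerivAt_const _ _).prodMk ((hasDerivAt_const _ _).prodMk h0)
  have h2 := (diffAt_Acp (a := a) (T := T) (c := c) (W := W) (r := r) t w hu).hasFDerivAt
  have h3 := h2.comp_hasDerivAt_of_eq (0 : ℝ) h1 (by simp)
  exact h3.unique hd

/-- regularity in unit points. -/
theorem reg_one (ha : 1 ≤ a) {C : ℝ}
    (hder : ∀ v w : ℂ, v ≠ 0 → ‖v‖ ≤ 2 → 1 ≤ ‖w‖ → ∀ h : ℂ,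
      ∃ d : ℂ, HasDerivAt (fun ε : ℝ => Ac a T c W r (v, w + (ε : ℂ) * h)) d 0 ∧
        ‖d‖ ≤ C * ‖w‖ ^ 13 * ‖h‖) (hC : 0 < C) (hW : (C + 2) ^ a ≤ W)
    (hpos : ∀ v w : ℂ, ‖v‖ = 1 → 0 < max ‖w ^ 15 + E T (cz a c r) v w‖
      ‖15 * w ^ 15 + w * Ew T (cz a c r) v w‖) (t : ℝ) {u w : ℂ} (hu : ‖u‖ = 1)
    (h0 : w ^ 15 + Ac a T c W r (u, w) = 0) (e : ℂ) :
    ∃ h : ℂ, 15 * w ^ 14 * h + fderiv ℝ (Acp a T c W r) (t, (u, w)) (0, ((0 : ℂ), h)) = e := by
  have hu0 : u ≠ 0 := by rintro rfl; rw [norm_zero] at hu; norm_num at hu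
  by_cases hw : ‖w‖ ^ a < W
  · have hev : ∀ᶠ w' in 𝓝 w, Ac a T c W r (u, w') = E T (cz a c r) u w' := by
      have : ∀ᶠ w' in 𝓝 w, ‖w'‖ ^ a < W :=
        (continuous_norm.pow a).continuousAt.eventually_lt continuousAt_const hw
      filter_upwards [this] with w' hw'
      exact Ac_eq hu hw'.le
    have hE : w ^ 15 + E T (cz a c r) u w = 0 := by rw [← hev.self_of_nhds]; exact h0
    have hp := hpos u w hu
    rw [hE, norm_zero] at hp
    have hne : 15 * w ^ 15 + w * Ew T (cz a c r) u w ≠ 0 := by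
      intro h
      rw [h, norm_zero, max_self] at hp
      exact lt_irrefl _ hp
    have hne' : 15 * w ^ 14 + Ew T (cz a c r) u w ≠ 0 := by
      intro h
      apply hne
      linear_combination w * h
    refine ⟨e / (15 * w ^ 14 + Ew T (cz a c r) u w), ?_⟩
    have hk : ∀ k : ℂ, fderiv ℝ (Acp a T c W r) (t, (u, w)) (0, ((0 : ℂ), k)) =
        Ew T (cz a c r) u w * k := by
      intro k
      refine fderiv_w t w hu0 k _ ?_
      refine (hasDerivAt_E T (cz a c r) u w k).congr_of_eventuallyEq ?_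
      have hc : Tendsto (fun ε : ℝ => w + (ε : ℂ) * k) (𝓝 0) (𝓝 w) := by
        have : Continuous fun ε : ℝ => w + (ε : ℂ) * k := by fun_prop
        have h2 := this.tendsto 0
        simpa using h2
      exact hc.eventually hev
    rw [hk]
    field_simp
  · push Not at hw
    have hw1 : C + 2 ≤ ‖w‖ := by
      by_contra hcon
      push Not at hcon
      have : ‖w‖ ^ a < (C + 2) ^ a := pow_lt_pow_left₀ hcon (norm_nonneg _) (by omega)
      linarith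
    -- the linear map
    let L : ℂ →ₗ[ℝ] ℂ :=
      { toFun := fun h => 15 * w ^ 14 * h +
          fderiv ℝ (Acp a T c W r) (t, (u, w)) (0, ((0 : ℂ), h))
        map_add' := fun x y => by
          have : ((0 : ℝ), ((0 : ℂ), x + y)) = (0, ((0 : ℂ), x)) + (0, ((0 : ℂ), y)) := by simp
          rw [this, map_add]; ring
        map_smul' := fun s x => by
          have : ((0 : ℝ), ((0 : ℂ), s • x)) = s • ((0 : ℝ), ((0 : ℂ), x)) := by simp
          rw [this, map_smul, RingHom.id_apply, smul_add]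
          congr 1
          rw [mul_smul_comm] }
    have hinj : Function.Injective L := by
      rw [injective_iff_map_eq_zero]
      intro h hh
      by_contra hne
      obtain ⟨d, hd, hdle⟩ := hder u w hu0 (by linarith) (by linarith) h
      have h1 : 15 * w ^ 14 * h + d = 0 := by
        rw [← fderiv_w t w hu0 h d hd]; exact hh
      have h2 : ‖15 * w ^ 14 * h‖ = ‖d‖ := by
        rw [eq_neg_of_add_eq_zero_left h1, norm_neg]
      rw [norm_mul, norm_mul, norm_pow, Complex.norm_ofNat] at h2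
      have h3 : 0 < ‖h‖ := norm_pos_iff.2 hne
      have h4 : 0 < ‖w‖ := by linarith
      have h5 : C * ‖w‖ ^ 13 * ‖h‖ < 15 * ‖w‖ ^ 14 * ‖h‖ := by
        have : C < 15 * ‖w‖ := by linarith
        calc C * ‖w‖ ^ 13 * ‖h‖ < (15 * ‖w‖) * ‖w‖ ^ 13 * ‖h‖ := by gcongr
          _ = _ := by ring
      linarith
    obtain ⟨h, hh⟩ := (LinearMap.injective_iff_surjective.1 hinj) e
    exact ⟨h, hh⟩

/-- scaling of the derivative. -/
theorem fderiv_hom (ha : 1 ≤ a) (hT : Adm a T) {l : ℝ} (hl : 0 < l) (t : ℝ) {u : ℂ} (w : ℂ)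
    (hu : u ≠ 0) (y : ℂ × ℂ) :
    fderiv ℝ (Acp a T c W r) (t, ((l : ℂ) ^ a * u, (l : ℂ) * w))
      (0, ((l : ℂ) ^ a * y.1, (l : ℂ) * y.2)) =
    (l : ℂ) ^ 15 * fderiv ℝ (Acp a T c W r) (t, (u, w)) (0, y) := by
  have hl' : (l : ℂ) ≠ 0 := by exact_mod_cast hl.ne'
  -- the curve `ε ↦ (t, (u, w) + ε y)`
  have hy1 : HasDerivAt (fun ε : ℝ => u + (ε : ℂ) * y.1) y.1 0 := by
    have := ((Complex.ofRealCLM.hasDerivAt (x := (0 : ℝ))).mul_const y.1).const_add u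
    simpa using this
  have hy2 : HasDerivAt (fun ε : ℝ => w + (ε : ℂ) * y.2) y.2 0 := by
    have := ((Complex.ofRealCLM.hasDerivAt (x := (0 : ℝ))).mul_const y.2).const_add w
    simpa using this
  have k1 : HasDerivAt (fun ε : ℝ => ((t, (u + (ε : ℂ) * y.1, w + (ε : ℂ) * y.2)) :
      ℝ × (ℂ × ℂ))) (0, y) 0 :=
    (hasDerivAt_const _ _).prodMk (hy1.prodMk hy2)
  have k2 : HasDerivAt (fun ε : ℝ => ((t, ((l : ℂ) ^ a * (u + (ε : ℂ) * y.1),
      (l : ℂ) * (w + (ε : ℂ) * y.2))) : ℝ × (ℂ × ℂ)))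
      (0, ((l : ℂ) ^ a * y.1, (l : ℂ) * y.2)) 0 :=
    (hasDerivAt_const _ _).prodMk ((hy1.const_mul _).prodMk (hy2.const_mul _))
  have d1 := (diffAt_Acp (a := a) (T := T) (c := c) (W := W) (r := r) t w hu).hasFDerivAt
  have d2 := (diffAt_Acp (a := a) (T := T) (c := c) (W := W) (r := r) t ((l : ℂ) * w)
    (mul_ne_zero (pow_ne_zero a hl') hu)).hasFDerivAt
  have e1 := (d1.comp_hasDerivAt_of_eq (0 : ℝ) k1 (by simp)).const_mul ((l : ℂ) ^ 15)
  have e2 := d2.comp_hasDerivAt_of_eq (0 : ℝ) k2 (by simp)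
  refine e2.unique (e1.congr_of_eventuallyEq (Eventually.of_forall fun ε => ?_))
  simp only [Function.comp]
  exact Ac_hom ha hT hl _ _

/-- **(B3)** from the positivity part of (B1). -/
theorem arm_of (b : Bool) (v : Fin 3) (hT : Adm (aw b v) T)
    (h1 : ∃ r1 : ℝ, 0 < r1 ∧ ∀ r : ℝ, 0 < r → r ≤ r1 → ∀ v' w : ℂ, ‖v'‖ = 1 →
      0 < max ‖w ^ 15 + E T (cz (aw b v) c r) v' w‖
        ‖15 * w ^ 15 + w * Ew T (cz (aw b v) c r) v' w‖) :
    ∃ r1 : ℝ, 0 < r1 ∧ ∃ W1 : ℝ, 1 < W1 ∧ ∀ r : ℝ, 0 < r → r ≤ r1 → ∀ W ≥ W1,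
      Arm b v (Ac (aw b v) T c W r) := by
  have ha : 1 ≤ aw b v := by cases b <;> fin_cases v <;> simp [aw]
  set a := aw b v with haw
  obtain ⟨r1, hr1, hpos⟩ := h1
  obtain ⟨C, hC, W1, hW1, hder⟩ := der_Ac (c := c) ha hT
  refine ⟨min r1 1, by positivity, max W1 ((C + 2) ^ a), lt_max_of_lt_left hW1,
    fun r hr hr' W hW => ?_⟩
  have hWW1 : W1 ≤ W := (le_max_left _ _).trans hW
  have hWC : (C + 2) ^ a ≤ W := (le_max_right _ _).trans hW
  have hWpos : 0 < W := by linarith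
  have hrr : r ≤ 1 := hr'.trans (min_le_right _ _)
  refine ⟨⟨univ, isOpen_univ, subset_univ _, contDiff_Acp⟩, ?_, ⟨2 * W, by positivity, ?_⟩, ?_, ?_⟩
  · intro t _ l u w hl
    rw [← haw]
    exact Ac_hom ha hT hl u w
  · intro t u w h
    by_cases hu : u = 0
    · rw [hu]; exact Ac_zero hT w
    · refine Ac_supp hWpos ?_ hu
      rw [← haw] at h
      have h2 : (2 * W * ‖u‖) ^ 2 ≤ (‖w‖ ^ a) ^ 2 := by gcongr
      have h3 : ‖w‖ ^ (2 * a) = (‖w‖ ^ a) ^ 2 := by rw [← pow_mul, mul_comm]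
      rw [h3]
      have h4 : 0 ≤ W ^ 2 * ‖u‖ ^ 2 := by positivity
      nlinarith
  · intro t w
    exact Ac_zero hT w
  · intro t _ u w hu h0 e
    have hu0 : 0 < ‖u‖ := norm_pos_iff.2 hu
    set l : ℝ := ‖u‖ ^ (-(1 / (a : ℝ))) with hl
    have hlpos : 0 < l := Real.rpow_pos_of_pos hu0 _
    have hl' : (l : ℂ) ≠ 0 := by exact_mod_cast hlpos.ne'
    have hla : l ^ a = ‖u‖⁻¹ := by
      rw [hl, ← Real.rpow_natCast, ← Real.rpow_mul hu0.le]
      have ha' : (a : ℝ) ≠ 0 := by positivity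
      have : -(1 / (a : ℝ)) * (a : ℝ) = -1 := by field_simp
      rw [this, Real.rpow_neg_one]
    have hn : ‖(l : ℂ) ^ a * u‖ = 1 := by
      rw [norm_mul, norm_pow, Complex.norm_real, Real.norm_eq_abs, abs_of_pos hlpos, hla,
        inv_mul_cancel₀ hu0.ne']
    have hz : ((l : ℂ) * w) ^ 15 + Ac a T c W r ((l : ℂ) ^ a * u, (l : ℂ) * w) = 0 := by
      rw [Ac_hom ha hT hlpos, mul_pow, ← mul_add, h0, mul_zero]
    obtain ⟨h, hh⟩ := reg_one ha (hder W hWW1 r hr hrr) hC hWC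
      (hpos r hr (hr'.trans (min_le_left _ _))) t hn hz ((l : ℂ) ^ 15 * e)
    refine ⟨(0, h / (l : ℂ)), ?_⟩
    have hf := fderiv_hom (c := c) (W := W) (r := r) ha hT hlpos t w hu (0, h / (l : ℂ))
    simp only [mul_zero] at hf
    rw [mul_div_cancel₀ _ hl'] at hf
    rw [hf] at hh
    have hl15 : (l : ℂ) ^ 15 ≠ 0 := pow_ne_zero _ hl'
    apply mul_left_cancel₀ hl15
    change (l : ℂ) ^ 15 * (15 * w ^ 14 * (h / (l : ℂ)) +
      fderiv ℝ (Acp a T c W r) (t, (u, w)) (0, (0, h / (l : ℂ)))) = (l : ℂ) ^ 15 * e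
    rw [← hh]
    field_simp
    try ring

end Crest.Agent.R267.EntB3_172
end
end

-- ▼ part R267/EntB_172
section

/-!
# S0406, T3N entrance, leaf ENT-B: planar inequality in unit points (helper172)

`pl_arm` = (B1), `arm_Ac` = (B3).
-/

set_option autoImplicit false
set_option linter.unusedSectionVars false

noncomputable section

open Set Filter Topology Finset
open scoped ContDiff
open Crest.Agent.R267.NdP_484 Crest.Agent.R267.NdR_484 Crest.Agent.R267.NdQ_484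
open Crest.Agent.R267.NdS_484 Crest.Agent.R267.EntB2_172 Crest.Agent.R267.EntB3_172

namespace Crest.Agent.R267.EntB_172

variable {a : ℕ} {T : Finset (ℕ × ℕ)} {c : ℕ × ℕ → ℂ} {W r : ℝ}

/-- coefficients with `w ^ 15`. -/
def c1 (c : ℕ × ℕ → ℂ) (q : ℕ × ℕ) : ℂ := if q = (0, 15) then 1 else c q

theorem not_mem (hT : Adm a T) : ((0, 15) : ℕ × ℕ) ∉ T := by
  intro h
  have := (hT _ h).1
  simp at this

theorem ne_of_mem (hT : Adm a T) {q : ℕ × ℕ} (hq : q ∈ T) : q ≠ (0, 15) := by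
  rintro rfl
  exact not_mem hT hq

theorem ws_insert (hT : Adm a T) (la : ℕ × ℕ → ℂ) (V W : ℂ) :
    ws (insert (0, 15) T) (c1 c) la V W =
      la (0, 15) * W ^ 15 + ∑ q ∈ T, la q * (c q * (V ^ q.1 * W ^ q.2)) := by
  unfold ws
  rw [Finset.sum_insert (not_mem hT)]
  congr 1
  · unfold c1 mon; simp
  · refine Finset.sum_congr rfl fun q hq => ?_
    unfold c1 mon
    rw [if_neg (ne_of_mem hT hq)]

theorem pow_term (hT : Adm a T) {q : ℕ × ℕ} (hq : q ∈ T) (c : ℕ × ℕ → ℂ) (r : ℝ) (v w : ℂ) :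
    c q * (((r : ℂ) ^ a * v) ^ q.1 * ((r : ℂ) * w) ^ q.2) =
      (r : ℂ) ^ 15 * (cz a c r q * (v ^ q.1 * w ^ q.2)) := by
  obtain ⟨h1, h2, h3⟩ := hT q hq
  have e1 : (r : ℂ) ^ (a * q.1) * (r : ℂ) ^ q.2 = (r : ℂ) ^ 15 * (r : ℂ) ^ ex a q := by
    rw [← pow_add, ← pow_add]; congr 1; unfold ex; omega
  unfold cz
  rw [mul_pow, mul_pow, ← pow_mul]
  calc _ = c q * v ^ q.1 * w ^ q.2 * ((r : ℂ) ^ (a * q.1) * (r : ℂ) ^ q.2) := by ring
    _ = _ := by rw [e1]; ring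

theorem ws_scale (hT : Adm a T) (la : ℕ × ℕ → ℂ) (r : ℝ) (v w : ℂ) :
    ws (insert (0, 15) T) (c1 c) la ((r : ℂ) ^ a * v) ((r : ℂ) * w) =
      (r : ℂ) ^ 15 * (la (0, 15) * w ^ 15 +
        ∑ q ∈ T, la q * (cz a c r q * (v ^ q.1 * w ^ q.2))) := by
  rw [ws_insert hT, mul_add, Finset.mul_sum]
  congr 1
  · ring
  · refine Finset.sum_congr rfl fun q hq => ?_
    rw [pow_term hT hq]; ring


theorem sum_w (T : Finset (ℕ × ℕ)) (d : ℕ × ℕ → ℂ) (v w : ℂ) :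
    ∑ q ∈ T, (q.2 : ℂ) * (d q * (v ^ q.1 * w ^ q.2)) = w * Ew T d v w := by
  unfold Ew
  rw [Finset.mul_sum]
  refine Finset.sum_congr rfl fun q _ => ?_
  rcases Nat.eq_zero_or_pos q.2 with h0 | h0
  · rw [h0]; simp
  · have : w ^ q.2 = w ^ (q.2 - 1) * w := by rw [← pow_succ, Nat.sub_add_cancel h0]
    rw [this]; ring

theorem sum_v (T : Finset (ℕ × ℕ)) (d : ℕ × ℕ → ℂ) (v w : ℂ) :
    ∑ q ∈ T, (q.1 : ℂ) * (d q * (v ^ q.1 * w ^ q.2)) = v * Ev T d v w := by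
  unfold Ev
  rw [Finset.mul_sum]
  refine Finset.sum_congr rfl fun q _ => ?_
  rcases Nat.eq_zero_or_pos q.1 with h0 | h0
  · rw [h0]; simp
  · have : v ^ q.1 = v ^ (q.1 - 1) * v := by rw [← pow_succ, Nat.sub_add_cancel h0]
    rw [this]; ring

/-- strict monotonicity of a convex polygon. -/
theorem conv_lt {S : Finset (ℕ × ℕ)} (h : Conv S) {p q : ℕ × ℕ} (hp : p ∈ S) (hq : q ∈ S)
    (hne : p ≠ q) : (p.1 < q.1 ∧ q.2 < p.2) ∨ (q.1 < p.1 ∧ p.2 < q.2) := by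
  rcases lt_trichotomy p.1 q.1 with h1 | h1 | h1
  · exact Or.inl ⟨h1, h.mono _ hp _ hq h1⟩
  · exact absurd (h.inj _ hp _ hq h1) hne
  · exact Or.inr ⟨h1, h.mono _ hq _ hp h1⟩

/-- one half of (B1), for general weights. -/
theorem half (ha : 1 ≤ a) (hd : ArmDat a T c) {la mu : ℕ × ℕ → ℂ}
    (h1 : ∀ p ∈ insert (0, 15) T, la p ≠ 0 ∨ mu p ≠ 0)
    (h2 : ∀ p ∈ insert (0, 15) T, ∀ q ∈ insert (0, 15) T, p ≠ q → la p * mu q ≠ la q * mu p) :
    ∃ κ : ℝ, 0 < κ ∧ ∃ r1 : ℝ, 0 < r1 ∧ ∀ r : ℝ, 0 < r → r ≤ r1 → ∀ v w : ℂ, ‖v‖ = 1 →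
      κ * ‖w‖ ^ 15 ≤ max
        ‖la (0, 15) * w ^ 15 + ∑ q ∈ T, la q * (cz a c r q * (v ^ q.1 * w ^ q.2))‖
        ‖mu (0, 15) * w ^ 15 + ∑ q ∈ T, mu q * (cz a c r q * (v ^ q.1 * w ^ q.2))‖ ∧
      0 < max
        ‖la (0, 15) * w ^ 15 + ∑ q ∈ T, la q * (cz a c r q * (v ^ q.1 * w ^ q.2))‖
        ‖mu (0, 15) * w ^ 15 + ∑ q ∈ T, mu q * (cz a c r q * (v ^ q.1 * w ^ q.2))‖ := by
  have hc : ∀ p ∈ insert (0, 15) T, c1 c p ≠ 0 := by
    intro p hp
    unfold c1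
    rcases Finset.mem_insert.1 hp with h | h
    · rw [if_pos h]; exact one_ne_zero
    · rw [if_neg (ne_of_mem hd.adm h)]; exact hd.ne p h
  obtain ⟨κ, hκ, δ, hδ, H⟩ := pl hd.conv hc h1 h2
  refine ⟨κ, hκ, min (δ / 2) 1, by positivity, fun r hr hr1 v w hv => ?_⟩
  have hrδ : r ≤ δ / 2 := hr1.trans (min_le_left _ _)
  have hr1' : r ≤ 1 := hr1.trans (min_le_right _ _)
  have hv0 : v ≠ 0 := by rintro rfl; rw [norm_zero] at hv; norm_num at hv
  have hr' : (r : ℂ) ≠ 0 := by exact_mod_cast hr.ne'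
  have hV : (r : ℂ) ^ a * v ≠ 0 := mul_ne_zero (pow_ne_zero _ hr') hv0
  have hVn : ‖(r : ℂ) ^ a * v‖ = r ^ a := by
    rw [norm_mul, hv, mul_one, norm_pow, Complex.norm_real, Real.norm_eq_abs, abs_of_pos hr]
  have hVδ : ‖(r : ℂ) ^ a * v‖ < δ := by
    rw [hVn]
    calc r ^ a ≤ r ^ 1 := pow_le_pow_of_le_one hr.le hr1' ha
      _ = r := pow_one r
      _ < δ := by linarith
  have key := H ((r : ℂ) ^ a * v) ((r : ℂ) * w) hV hVδ
  rw [ws_scale hd.adm, ws_scale hd.adm, norm_mul, norm_mul] at key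
  set X := ‖la (0, 15) * w ^ 15 + ∑ q ∈ T, la q * (cz a c r q * (v ^ q.1 * w ^ q.2))‖ with hX
  set Y := ‖mu (0, 15) * w ^ 15 + ∑ q ∈ T, mu q * (cz a c r q * (v ^ q.1 * w ^ q.2))‖ with hY
  have hr15 : ‖(r : ℂ) ^ 15‖ = r ^ 15 := by
    rw [norm_pow, Complex.norm_real, Real.norm_eq_abs, abs_of_pos hr]
  rw [hr15, ← mul_max_of_nonneg _ _ (by positivity : (0:ℝ) ≤ r ^ 15)] at key
  constructor
  · have h := key (0, 15) (Finset.mem_insert_self _ _)
    unfold mon at h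
    simp only [pow_zero, one_mul] at h
    rw [norm_pow, norm_mul, Complex.norm_real, Real.norm_eq_abs, abs_of_pos hr, mul_pow,
      mul_left_comm] at h
    exact le_of_mul_le_mul_left h (by positivity)
  · obtain ⟨p, hp, hp0⟩ := hd.conv.bot
    have h := key p hp
    unfold mon at h
    rw [hp0, pow_zero, mul_one, norm_pow, hVn] at h
    have h3 : 0 < r ^ 15 * max X Y := lt_of_lt_of_le (by positivity) h
    exact (pos_iff_pos_of_mul_pos h3).1 (by positivity)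

/-- **(B1)** -/
theorem pl_arm (ha : 1 ≤ a) (hd : ArmDat a T c) :
    ∃ κ : ℝ, 0 < κ ∧ ∃ r1 : ℝ, 0 < r1 ∧ r1 ≤ 1 / 2 ∧ ∀ r : ℝ, 0 < r → r ≤ r1 →
      ∀ v w : ℂ, ‖v‖ = 1 →
      (κ * ‖w‖ ^ 15 ≤ max ‖w ^ 15 + E T (cz a c r) v w‖
          ‖15 * w ^ 15 + w * Ew T (cz a c r) v w‖ ∧
        0 < max ‖w ^ 15 + E T (cz a c r) v w‖ ‖15 * w ^ 15 + w * Ew T (cz a c r) v w‖) ∧
      (κ * ‖w‖ ^ 15 ≤ max ‖v * Ev T (cz a c r) v w‖
          ‖15 * w ^ 15 + w * Ew T (cz a c r) v w‖ ∧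
        0 < max ‖v * Ev T (cz a c r) v w‖ ‖15 * w ^ 15 + w * Ew T (cz a c r) v w‖) := by
  obtain ⟨κ1, hκ1, r1, hr1, H1⟩ := half ha hd (la := fun _ => 1) (mu := fun q => (q.2 : ℂ))
    (fun p _ => Or.inl one_ne_zero) (fun p hp q hq hne => by
      rw [one_mul, one_mul]
      have := conv_lt hd.conv hp hq hne
      have h3 : q.2 ≠ p.2 := by omega
      exact_mod_cast h3)
  obtain ⟨κ2, hκ2, r2, hr2, H2⟩ := half ha hd (la := fun q => (q.1 : ℂ))
    (mu := fun q => (q.2 : ℂ))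
    (fun p hp => by
      rcases Finset.mem_insert.1 hp with h | h
      · right; rw [h]; norm_num
      · left
        have := (hd.adm p h).1
        have h3 : p.1 ≠ 0 := by omega
        exact_mod_cast h3)
    (fun p hp q hq hne => by
      have h3 : p.1 * q.2 ≠ q.1 * p.2 := by
        rcases conv_lt hd.conv hp hq hne with ⟨h4, h5⟩ | ⟨h4, h5⟩
        · have : p.1 * q.2 < q.1 * p.2 := by
            calc p.1 * q.2 ≤ p.1 * p.2 := Nat.mul_le_mul_left _ h5.le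
              _ < q.1 * p.2 := Nat.mul_lt_mul_of_pos_right h4 (by omega)
          omega
        · have : q.1 * p.2 < p.1 * q.2 := by
            calc q.1 * p.2 ≤ q.1 * q.2 := Nat.mul_le_mul_left _ h5.le
              _ < p.1 * q.2 := Nat.mul_lt_mul_of_pos_right h4 (by omega)
          omega
      exact_mod_cast h3)
  refine ⟨min κ1 κ2, by positivity, min (min r1 r2) (1 / 2), by positivity, min_le_right _ _,
    fun r hr hrr v w hv => ?_⟩
  have hA : r ≤ r1 := hrr.trans ((min_le_left _ _).trans (min_le_left _ _))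
  have hB : r ≤ r2 := hrr.trans ((min_le_left _ _).trans (min_le_right _ _))
  have k1 := H1 r hr hA v w hv
  have k2 := H2 r hr hB v w hv
  simp only [sum_w, sum_v, one_mul, Nat.cast_zero, zero_mul, zero_add,
    Nat.cast_ofNat] at k1 k2
  have h15 : 0 ≤ ‖w‖ ^ 15 := by positivity
  exact ⟨⟨(mul_le_mul_of_nonneg_right (min_le_left _ _) h15).trans k1.1, k1.2⟩,
    ⟨(mul_le_mul_of_nonneg_right (min_le_right _ _) h15).trans k2.1, k2.2⟩⟩

/-- **(B3)** -/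
theorem arm_Ac (b : Bool) (v : Fin 3) (hd : ArmDat (aw b v) T c) :
    ∃ r1 : ℝ, 0 < r1 ∧ ∃ W1 : ℝ, 1 < W1 ∧ ∀ r : ℝ, 0 < r → r ≤ r1 → ∀ W ≥ W1,
      Arm b v (Ac (aw b v) T c W r) := by
  have ha : 1 ≤ aw b v := by cases b <;> fin_cases v <;> simp [aw]
  obtain ⟨κ, hκ, r1, hr1, -, H⟩ := pl_arm ha hd
  exact arm_of b v hd.adm ⟨r1, hr1, fun r hr hrr v' w hv' => (H r hr hrr v' w hv').1.2⟩

end Crest.Agent.R267.EntB_172
end
end

-- ▼ part R267/NdJ_484
section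

/-!
# S0406, T3N entrance: the family `F_{r,s}` is regular (helper484)

* `reg_sph` : regularity on the star sphere, `reg_all` : everywhere;
* `zeq_am` : `F_{r,0} ~ am b M (Arms b T c W r)`;
* `con_pf` : the germ of `f_M` is described by `F_{r,0}`.
-/

set_option autoImplicit false
set_option linter.unusedSectionVars false

noncomputable section

open Set Filter Topology Finset
open scoped ContDiff
open Crest.Agent.R267.Cone_808 Crest.Agent.R267.Hm_951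
open Crest.Agent.R267.NdP_484 Crest.Agent.R267.NdR_484 Crest.Agent.R267.NdQ_484
open Crest.Agent.R267.NdS_484 Crest.Agent.R267.NdSt_484 Crest.Agent.R267.NdF_484
open Crest.Agent.R267.NdG_484 Crest.Agent.R267.NdH_484 Crest.Agent.R267.NdI_484
open Crest.Agent.R267.Amal_52 (g_nonneg N_nonneg bw_pos aw_pos g_eq_zero g_le_N N_eq_zero t1_lt
  lt_t1 th_zero th_one contDiff_th contDiff_g contDiff_N continuous_g continuous_N act_coord
  act_three g_act N_act wt_pos continuousAt_quot)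

namespace Crest.Agent.R267.NdJ_484

variable {b : Bool} {T : Fin 3 → Finset (ℕ × ℕ)} {c : Fin 3 → ℕ × ℕ → ℂ} {M W h r s : ℝ} {p : E4}

theorem acOK {a : ℕ} {S : Finset (ℕ × ℕ)} {d : ℕ × ℕ → ℂ} (ha : 1 ≤ a) (hS : Adm a S)
    (hW : 0 < W) : AcOK a S d W where
  smooth := EntB2_172.contDiff_Ac a S d W
  hom r l u w hl := EntB2_172.Ac_hom ha hS hl u w
  supp r u w hu := by
    by_cases h : u = 0
    · rw [h]; exact EntB2_172.Ac_zero hS w
    · exact EntB2_172.Ac_supp hW hu h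

theorem aw_le (b : Bool) (v : Fin 3) : aw b v ≤ 6 := by
  unfold aw; cases b <;> fin_cases v <;> simp

/-- **regularity on the star sphere.** -/
theorem reg_sph (hd : ∀ v, ArmDat (aw b v) (T v) (c v)) :
    ∃ r1 : ℝ, 0 < r1 ∧ r1 ≤ 1 / 2 ∧ ∃ W0 : ℝ, 1 ≤ W0 ∧ ∀ W ≥ W0, ∃ M1 : ℝ, 1 ≤ M1 ∧ ∀ M ≥ M1,
      ∃ h : ℝ, 0 < h ∧ ∀ r, 0 < r → r ≤ r1 → ∀ s ∈ Icc (0 : ℝ) 1, ∀ p : E4, Ss b h p = 1 →
        Fs b T c M W h r s p = 0 → ∀ β : ℂ, ∃ y, fderiv ℝ (Fs b T c M W h r s) p y = β := by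
  have hadm := fun v => (hd v).adm
  choose κ hκ ρ1 hρ1 hρ2 hpl using fun v => EntB_172.pl_arm (aw_pos b v) (hd v)
  choose C' hC' W' hW' hder using fun v => EntB2_172.der_Ac (c := c v) (aw_pos b v) (hadm v)
  set C0 : ℝ := ∑ v, Kc (T v) (c v) with hC0d
  have hC0 : ∀ v, Kc (T v) (c v) ≤ C0 := fun v =>
    Finset.single_le_sum (f := fun v => Kc (T v) (c v)) (fun v _ => Kc_nonneg _ _)
      (Finset.mem_univ v)
  have hC0n : 0 ≤ C0 := (Kc_nonneg _ _).trans (hC0 0)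
  set C2 : ℝ := ∑ v, C' v with hC2d
  have hC2 : ∀ v, C' v ≤ C2 := fun v =>
    Finset.single_le_sum (f := C') (fun v _ => (hC' v).le) (Finset.mem_univ v)
  have hC2n : 0 ≤ C2 := (hC' 0).le.trans (hC2 0)
  set W2 : ℝ := ∑ v, W' v with hW2d
  have hW2 : ∀ v, W' v ≤ W2 := fun v =>
    Finset.single_le_sum (f := W') (fun v _ => by have := hW' v; linarith) (Finset.mem_univ v)
  have hW2n : 0 ≤ W2 := by have := hW' 0; have := hW2 0; linarith
  set W1 : ℝ := (3 * (2 ^ 15 * C0) + 3 * C2) / 15 + 1 with hW1d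
  have hW1 : 1 ≤ W1 := by
    rw [hW1d]
    have : 0 ≤ (3 * (2 ^ 15 * C0) + 3 * C2) / 15 := by positivity
    linarith
  have hW1' : 3 * (2 ^ 15 * C0) + 3 * C2 < 15 * W1 := by rw [hW1d]; linarith
  obtain ⟨κ0, hκ0, hκ0'⟩ : ∃ κ0 : ℝ, 0 < κ0 ∧ ∀ v, κ0 ≤ κ v := by
    obtain ⟨v0, hv0⟩ := Finite.exists_min κ
    exact ⟨κ v0, hκ v0, hv0⟩
  obtain ⟨r1, hr1, hr1', hr12⟩ : ∃ r1 : ℝ, 0 < r1 ∧ (∀ v, r1 ≤ ρ1 v) ∧ r1 ≤ 1 / 2 := by
    obtain ⟨v0, hv0⟩ := Finite.exists_min ρ1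
    exact ⟨ρ1 v0, hρ1 v0, hv0, hρ2 v0⟩
  refine ⟨r1, hr1, hr12, W2 + (W1 + 1) ^ 6, ?_, fun W hW => ?_⟩
  · have : (1 : ℝ) ≤ (W1 + 1) ^ 6 := one_le_pow₀ (by linarith)
    linarith
  have hpow1 : (1 : ℝ) ≤ (W1 + 1) ^ 6 := one_le_pow₀ (by linarith)
  have hWW2 : W2 ≤ W := by linarith
  have hW0 : 0 < W := by linarith
  have hA : ∀ v, AcOK (aw b v) (T v) (c v) W := fun v => acOK (aw_pos b v) (hadm v) hW0
  have hDer : Der b T c W C2 := by
    intro v r hr hr1 u w hu hu2 hw z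
    obtain ⟨d, h1, h2⟩ := hder v W ((hW2 v).trans hWW2) r hr hr1 u w hu hu2 hw z
    refine ⟨d, h1, h2.trans ?_⟩
    have := hC2 v
    gcongr
  have heq : AcEq b T c W := fun v r u w hu hw => EntB2_172.Ac_eq hu hw
  obtain ⟨C, c0, hc0, hC, hmid⟩ := exists_mid hA W1
  set eta : ℝ := min 1 (κ0 / (100 * (C0 + 1))) with heta
  have heta0 : 0 < eta := by rw [heta]; positivity
  have heta1 : eta ≤ 1 := min_le_left _ _
  have heta2 : 100 * (C0 + 1) * eta ≤ κ0 := by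
    have h1 : eta ≤ κ0 / (100 * (C0 + 1)) := min_le_right _ _
    rw [le_div_iff₀ (by positivity)] at h1
    linarith
  refine ⟨16 * (C0 + 1) * (1 / eta) ^ 14 + C / c0 + 1, ?_, fun M hM => ?_⟩
  · have h1 : 0 ≤ 16 * (C0 + 1) * (1 / eta) ^ 14 := by positivity
    have h2 : 0 ≤ C / c0 := by positivity
    linarith
  have hk1 : 0 ≤ 16 * (C0 + 1) * (1 / eta) ^ 14 := by positivity
  have hk2 : 0 ≤ C / c0 := by positivity
  have hM0 : 0 < M := by linarith
  have hMa : 16 * (C0 + 1) * (1 / eta) ^ 14 < M := by linarith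
  have hMc : C < M * c0 := by
    have h1 : C / c0 < M := by linarith
    rwa [div_lt_iff₀ hc0] at h1
  set eps : ℝ := 1 / (4 * M + 3 * C0 + 2 * W + 2) with heps
  have hden : 0 < 4 * M + 3 * C0 + 2 * W + 2 := by positivity
  have he0 : 0 < eps := by rw [heps]; positivity
  have he2 : eps ≤ 1 / 2 := by
    rw [heps]
    exact one_div_le_one_div_of_le (by norm_num) (by linarith)
  have heM : (4 * M + 3 * C0) * eps < 1 := by
    rw [heps, mul_one_div, div_lt_one hden]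
    linarith
  have heW : 2 * W ^ 2 * eps ^ 2 ≤ 1 := by
    have h1 : W * eps ≤ 1 / 2 := by
      rw [heps, mul_one_div, div_le_div_iff₀ hden (by norm_num)]
      linarith
    have h2 : 0 ≤ W * eps := by positivity
    nlinarith
  refine ⟨eps ^ 60 / 4, by positivity, fun r hr hrr s hs p hS hz β => ?_⟩
  have h0 : 0 < eps ^ 60 / 4 := by positivity
  set h := eps ^ 60 / 4 with hh
  have hp := ne_of_Ss h0 hS
  have hDp := Ds_pos (b := b) hp
  by_cases hN : N b p ≤ 3 * h * Ds b p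
  · exact absurd hz (no_zero hadm hA hC0 he0 he2 hM0.le heM heW hr.le (hrr.trans hr12) hs.1 hs.2 hh
      hS hN)
  · push Not at hN
    have hN' : 2 * h * Ds b p < N b p := by
      have : 0 < h * Ds b p := mul_pos h0 hDp
      nlinarith
    by_cases hw : W1 ≤ ‖p 3‖
    · exact reg_far hadm hA hC0 hC2n hDer hW1 hW1' h0 hr (hrr.trans hr12) hs.1 hs.2 hS hN' hw β
    · push Not at hw
      have hwa : ∀ v, ‖p 3‖ ^ aw b v < W := by
        intro v
        calc ‖p 3‖ ^ aw b v ≤ (W1 + 1) ^ aw b v := by gcongr; linarith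
          _ ≤ (W1 + 1) ^ 6 := pow_le_pow_right₀ (by linarith) (aw_le b v)
          _ < W := by
            have := hW' 0
            have := hW2 0
            linarith
      by_cases hv : ∃ v, t1 < g b v p / N b p
      · obtain ⟨v, hv⟩ := hv
        refine reg_tube hd hA heq hκ0 hC0 (fun v u w hu => ?_) ⟨eta, heta0, heta1, heta2, hMa⟩ h0
          hr.le (by linarith) hs.1 hs.2 hS hN' hv (hwa v) hz β
        obtain ⟨⟨h1, h2⟩, -⟩ := hpl v r hr (hrr.trans (hr1' v)) u w hu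
        refine ⟨le_trans ?_ h1, h2⟩
        have := hκ0' v
        gcongr
      · push Not at hv
        exact reg_mid hA hmid hC hM0 hMc h0 ⟨hr.le, by linarith⟩ hs hS hN' hv hw.le β

/-- `act` is additive. -/
theorem act_line (w : Fin 4 → ℝ) (t : ℝ) (p y : E4) (ε : ℝ) :
    act w t (p + ε • y) = act w t p + ε • act w t y := by
  funext i
  simp only [act, Pi.add_apply, Pi.smul_apply, Complex.real_smul]
  ring

/-- regularity at all points, by homogeneity. -/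
theorem reg_of_sph (hd : ∀ v, Adm (aw b v) (T v)) (hA : ∀ v, AcOK (aw b v) (T v) (c v) W)
    (h0 : 0 < h)
    (hreg : ∀ p : E4, Ss b h p = 1 → Fs b T c M W h r s p = 0 →
      ∀ β : ℂ, ∃ y, fderiv ℝ (Fs b T c M W h r s) p y = β) {p : E4} (hp : p ≠ 0)
    (hz : Fs b T c M W h r s p = 0) (β : ℂ) :
    ∃ y, fderiv ℝ (Fs b T c M W h r s) p y = β := by
  have hS := Ss_pos (b := b) h0 hp
  set t : ℝ := -(1 / 4) * Real.log (Ss b h p) with ht
  set p' := act (wt b) t p with hp'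
  have hp0 : p' ≠ 0 := act_ne_zero hp
  have hS' : Ss b h p' = 1 := by
    rw [hp', Ss_act, ht]
    have : 4 * (-(1 / 4) * Real.log (Ss b h p)) = -Real.log (Ss b h p) := by ring
    rw [this, Real.exp_neg, Real.exp_log hS, inv_mul_cancel₀ hS.ne']
  have hz' : Fs b T c M W h r s p' = 0 := by rw [hp', Fs_act hd hA h0 t hp, hz, mul_zero]
  obtain ⟨y, hy⟩ := hreg p' hS' hz' (((Real.exp t : ℝ) : ℂ) * β)
  refine ⟨act (wt b) (-t) y, ?_⟩
  have hda := differentiableAt_Fs (M := M) (r := r) (s := s) hA h0 hp0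
  have h1 : HasDerivAt (fun ε : ℝ => Fs b T c M W h r s (p' + ε • y))
      (((Real.exp t : ℝ) : ℂ) * β) 0 := by
    have h2 : HasDerivAt (fun ε : ℝ => p' + ε • y) y 0 := by
      simpa using ((hasDerivAt_id (0 : ℝ)).smul_const y).const_add p'
    have h3 : HasFDerivAt (Fs b T c M W h r s) (fderiv ℝ (Fs b T c M W h r s) p')
        (p' + (0 : ℝ) • y) := by
      rw [zero_smul, add_zero]; exact hda.hasFDerivAt
    have h4 := h3.comp_hasDerivAt 0 h2
    rw [hy] at h4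
    exact h4
  refine fderiv_of_line (differentiableAt_Fs hA h0 hp) ?_
  have h5 := h1.const_mul (((Real.exp t : ℝ) : ℂ)⁻¹)
  have hne : ((Real.exp t : ℝ) : ℂ) ≠ 0 := by exact_mod_cast (Real.exp_pos t).ne'
  rw [inv_mul_cancel_left₀ hne] at h5
  refine h5.congr_of_eventuallyEq ?_
  have hev : ∀ᶠ q in 𝓝 p, q ≠ 0 := continuousAt_id.eventually_ne hp
  filter_upwards [ev_line (y := act (wt b) (-t) y) hev] with ε hε
  have e : p' + ε • y = act (wt b) t (p + ε • act (wt b) (-t) y) := by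
    rw [act_line, act_act_neg]
  rw [e, Fs_act hd hA h0 t hε, inv_mul_cancel_left₀ hne]

theorem Fs_s1 : Fs b T c M W h r 1 = am b M (Arms b T c W r) := by
  funext p
  unfold Fs Ff am
  simp only [sub_self, Complex.ofReal_zero, zero_mul, zero_add, one_mul]

/-- **the cut off homotopy.** -/
theorem zeq_am (hd : ∀ v, Adm (aw b v) (T v)) (hA : ∀ v, AcOK (aw b v) (T v) (c v) W)
    (h0 : 0 < h)
    (hreg : ∀ s ∈ Icc (0 : ℝ) 1, ∀ p : E4, Ss b h p = 1 → Fs b T c M W h r s p = 0 →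
      ∀ β : ℂ, ∃ y, fderiv ℝ (Fs b T c M W h r s) p y = β) :
    ZEq (Fs b T c M W h r 0) (am b M (Arms b T c W r)) := by
  have hsm : ∀ q : ℝ × E4, q.2 ≠ 0 →
      ContDiffAt ℝ 2 (fun q : ℝ × E4 => Fs b T c M W h r q.1 q.2) q := by
    intro q hq
    exact (contDiffAt_Ff (M := M) hA h0 (q := (r, q.1, q.2)) hq).comp
      (f := fun q : ℝ × E4 => ((r, q.1, q.2) : ℝ × ℝ × E4)) q (by fun_prop)
  have hP : HPath0 (fun q : ℝ × E4 => Fs b T c M W h r q.1 q.2) := by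
    refine ⟨⟨univ, isOpen_univ, subset_univ _, fun q hq => (hsm q hq.2).contDiffWithinAt⟩,
      fun t _ => ⟨wt b, wt_pos b, fun s x => ?_⟩, fun t ht x hx hz β => ?_⟩
    · exact Fs_smul hd hA h0 s x (Fs_zero hd hA)
    · obtain ⟨y, hy⟩ := reg_of_sph hd hA h0 (hreg t ht) hx hz β
      refine ⟨y, ?_⟩
      rw [← hy]
      have hda : DifferentiableAt ℝ (fun q : ℝ × E4 => Fs b T c M W h r q.1 q.2) (t, x) :=
        (hsm (t, x) hx).differentiableAt (by norm_num)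
      exact (Amal_52.fderiv_part hda y).symm
  have h1 := hP.link
  have e : (fun x : E4 => Fs b T c M W h r 1 x) = am b M (Arms b T c W r) := Fs_s1
  simp only at h1
  rw [e] at h1
  exact h1

/-! ### the germ of `f_M` -/

theorem cz_one (a : ℕ) (d : ℕ × ℕ → ℂ) : cz a d 1 = d := by
  funext q
  simp [cz]

/-- the function `f_M` along the weighted dilations. -/
theorem pf_act (hd : ∀ v, Adm (aw b v) (T v)) (t : ℝ) (p : E4) :
    pf b T c M (act (wt b) t p) = ((Real.exp t : ℝ) : ℂ) * (Co b M p +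
      ∑ v, E (T v) (cz (aw b v) (c v) (Real.exp (t / 15))) (p v.castSucc) (p 3)) := by
  have e : pf b T c M (act (wt b) t p) = Co b M (act (wt b) t p) +
      ∑ v, E (T v) (c v) (act (wt b) t p v.castSucc) (act (wt b) t p 3) := rfl
  rw [e, Co_act, mul_add, Finset.mul_sum]
  congr 1
  refine Finset.sum_congr rfl fun v _ => ?_
  have hl : 0 < Real.exp (t / 15) := Real.exp_pos _
  have h1 := E_act (d := c v) (hd v) (ζ := Real.exp (t / 15)) hl (p v.castSucc) (p 3)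
  rw [mul_inv_cancel₀ hl.ne', cz_one] at h1
  rw [act_coord, act_three, h1, exp15]

/-- logarithm of the gauge. -/
def rho (b : Bool) (h : ℝ) (p : E4) : ℝ := (1 / 4) * Real.log (Ss b h p)

theorem sg_eq (h0 : 0 < h) (hp : p ≠ 0) : sg b h p = Real.exp (-(rho b h p / 15)) := by
  unfold sg rho
  rw [Real.rpow_def_of_pos (Ss_pos h0 hp)]
  congr 1
  ring

theorem con_pf (hd : ∀ v, Adm (aw b v) (T v)) (hA : ∀ v, AcOK (aw b v) (T v) (c v) W)
    (h0 : 0 < h) {r1 : ℝ} (hr1 : 0 < r1)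
    (hreg : ∀ r, 0 < r → r ≤ r1 → ∀ p : E4, Ss b h p = 1 → Fs b T c M W h r 0 p = 0 →
      ∀ β : ℂ, ∃ y, fderiv ℝ (Fs b T c M W h r 0) p y = β) :
    Con (wt b) (pf b T c M) (rho b h) (fun q => Fs b T c M W h (Real.exp (q.1 / 15)) 0 q.2)
      (15 * Real.log r1) := by
  have hle : ∀ t, t ≤ 15 * Real.log r1 → Real.exp (t / 15) ≤ r1 := by
    intro t ht
    calc Real.exp (t / 15) ≤ Real.exp (Real.log r1) := Real.exp_le_exp.2 (by linarith)
      _ = r1 := Real.exp_log hr1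
  have hsm : ∀ q : ℝ × E4, q.2 ≠ 0 →
      ContDiffAt ℝ 2 (fun q : ℝ × E4 => Fs b T c M W h (Real.exp (q.1 / 15)) 0 q.2) q := by
    intro q hq
    exact (contDiffAt_Ff (M := M) hA h0 (q := (Real.exp (q.1 / 15), 0, q.2)) hq).comp
      (f := fun q : ℝ × E4 => ((Real.exp (q.1 / 15), 0, q.2) : ℝ × ℝ × E4)) q (by fun_prop)
  refine ⟨wt_pos b, ?_, ?_, ?_, ?_, ?_, ?_⟩
  · have h1 := pf_act (c := c) (M := M) hd 0 (0 : E4)
    rw [act_zero] at h1
    rw [h1, Real.exp_zero]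
    have h2 : Co b M (0 : E4) = 0 := by
      unfold Co P
      cases b <;> simp
    have h3 : ∀ v : Fin 3, E (T v) (cz (aw b v) (c v) (Real.exp (0 / 15)))
        ((0 : E4) v.castSucc) ((0 : E4) 3) = 0 := fun v => E_zero (hd v) _ _
    rw [h2, Finset.sum_eq_zero fun v _ => h3 v]
    simp
  · rw [continuous_iff_continuousAt]
    intro u
    have hu : (u : E4) ≠ 0 := u.ne_zero
    have h1 : ContinuousAt (rho b h) (u : E4) := by
      unfold rho
      exact continuousAt_const.mul ((contDiffAt_Ss h0 hu).continuousAt.log (Ss_pos h0 hu).ne')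
    exact h1.comp continuousAt_subtype_val
  · intro t u _
    have hu : (u : E4) ≠ 0 := u.ne_zero
    rw [pf_act hd]
    have hne : ((Real.exp (t - rho b h u) : ℝ) : ℂ) ≠ 0 := by
      exact_mod_cast (Real.exp_pos _).ne'
    have e : Real.exp ((t - rho b h u) / 15) = Real.exp (t / 15) * sg b h u := by
      rw [sg_eq h0 hu, ← Real.exp_add]
      congr 1
      ring
    have e2 : Fs b T c M W h (Real.exp (t / 15)) 0 (u : E4) = Co b M u +
        ∑ v, E (T v) (cz (aw b v) (c v) (Real.exp (t / 15) * sg b h u)) ((u : E4) v.castSucc)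
          ((u : E4) 3) := by
      unfold Fs
      rw [Ff_eq]
      unfold Re
      simp only [sub_zero, Complex.ofReal_one, one_mul, zero_mul, Complex.ofReal_zero, add_zero]
    simp only
    rw [e, e2, mul_eq_zero, or_iff_right hne]
  · exact fun q hq => (hsm q hq.2).contDiffWithinAt
  · intro t _ s x
    exact Fs_smul hd hA h0 s x (Fs_zero hd hA)
  · intro t ht x hx hz β
    obtain ⟨y, hy⟩ := reg_of_sph hd hA h0
      (hreg (Real.exp (t / 15)) (Real.exp_pos _) (hle t ht)) hx hz β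
    refine ⟨y, ?_⟩
    rw [← hy]
    have hda : DifferentiableAt ℝ
        (fun q : ℝ × E4 => Fs b T c M W h (Real.exp (q.1 / 15)) 0 q.2) (t, x) :=
      (hsm (t, x) hx).differentiableAt (by norm_num)
    exact (Amal_52.fderiv_part hda y).symm

/-- **the entrance**, one function. -/
theorem entrance (hd : ∀ v, ArmDat (aw b v) (T v) (c v)) :
    ∃ r1 : ℝ, 0 < r1 ∧ ∃ W0 : ℝ, 1 ≤ W0 ∧ ∀ W ≥ W0, ∃ M1 : ℝ, 1 ≤ M1 ∧ ∀ M ≥ M1,
      ∀ r, 0 < r → r ≤ r1 → ∃ (ρ : E4 → ℝ) (H : ℝ × E4 → ℂ) (t0 : ℝ),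
        Con (wt b) (pf b T c M) ρ H t0 ∧
          ZEq (fun x => H (t0, x)) (am b M (Arms b T c W r)) := by
  have hadm := fun v => (hd v).adm
  obtain ⟨r1, hr1, -, W0, hW0, H⟩ := reg_sph hd
  refine ⟨r1, hr1, W0, hW0, fun W hW => ?_⟩
  obtain ⟨M1, hM1, H1⟩ := H W hW
  refine ⟨M1, hM1, fun M hM r hr hrr => ?_⟩
  obtain ⟨h, h0, hreg⟩ := H1 M hM
  have hWp : 0 < W := by linarith
  have hA : ∀ v, AcOK (aw b v) (T v) (c v) W := fun v => acOK (aw_pos b v) (hadm v) hWp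
  refine ⟨rho b h, fun q => Fs b T c M W h (Real.exp (q.1 / 15)) 0 q.2, 15 * Real.log r,
    con_pf hadm hA h0 hr fun r' hr' hrr' => hreg r' hr' (hrr'.trans hrr) 0 (by simp), ?_⟩
  have h1 := zeq_am (M := M) hadm hA h0 fun s hs => hreg r hr hrr s hs
  have e : Real.exp (15 * Real.log r / 15) = r := by
    rw [mul_div_cancel_left₀ _ (by norm_num : (15 : ℝ) ≠ 0), Real.exp_log hr]
  simp only [e]
  exact h1

end Crest.Agent.R267.NdJ_484
end
end

-- ▼ part R267/NdA_484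
section

/-!
# S0406, package T4N: conic structure, gluing of isotopies (helper484)

* `glue`: a sequence of isotopies of `X` gives a homeomorphism of `X × ℝ` over `ℝ`.
-/

set_option autoImplicit false
set_option linter.unusedSectionVars false

noncomputable section

open Set Filter Topology

namespace Crest.Agent.R267.NdA_484

section Glue

variable {X : Type*} [TopologicalSpace X]

/-- clamp into the unit interval. -/
def cl (s : ℝ) : Icc (0 : ℝ) 1 := projIcc 0 1 zero_le_one s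

theorem cl_eq {s : ℝ} (h : s ∈ Icc (0 : ℝ) 1) : cl s = ⟨s, h⟩ := projIcc_of_mem _ h

theorem continuous_cl : Continuous cl := continuous_projIcc (h := zero_le_one)

/-- the composition of the first `k` time-one maps. -/
def comp (Φ : ℕ → Icc (0 : ℝ) 1 → (X ≃ₜ X)) : ℕ → (X ≃ₜ X)
  | 0 => Homeomorph.refl X
  | k + 1 => (comp Φ k).trans (Φ k ⟨1, by simp⟩)

/-- the map at time `τ ≥ 0`. -/
def run (Φ : ℕ → Icc (0 : ℝ) 1 → (X ≃ₜ X)) (τ : ℝ) : X ≃ₜ X :=
  (comp Φ ⌊τ⌋₊).trans (Φ ⌊τ⌋₊ (cl (τ - ⌊τ⌋₊)))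

variable {Φ : ℕ → Icc (0 : ℝ) 1 → (X ≃ₜ X)}

theorem run_eq (h0 : ∀ k x, Φ k ⟨0, by simp⟩ x = x) (k : ℕ) {τ : ℝ} (h1 : (k : ℝ) ≤ τ)
    (h2 : τ ≤ k + 1) (x : X) : run Φ τ x = Φ k (cl (τ - k)) (comp Φ k x) := by
  rcases lt_or_eq_of_le h2 with h | h
  · have h3 : ⌊τ⌋₊ = k := (Nat.floor_eq_iff ((Nat.cast_nonneg k).trans h1)).2 ⟨h1, h⟩
    unfold run
    rw [h3]
    rfl
  · have h3 : ⌊τ⌋₊ = k + 1 := by
      rw [h]
      exact_mod_cast Nat.floor_natCast (R := ℝ) (k + 1)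
    unfold run
    rw [h3]
    have e1 : τ - ((k + 1 : ℕ) : ℝ) = 0 := by rw [h]; push_cast; ring
    have e2 : τ - (k : ℝ) = 1 := by rw [h]; ring
    rw [e1, e2, cl_eq (by simp), cl_eq (by simp)]
    rw [Homeomorph.trans_apply, h0]
    rfl

theorem run_symm_eq (h0 : ∀ k x, Φ k ⟨0, by simp⟩ x = x) (k : ℕ) {τ : ℝ} (h1 : (k : ℝ) ≤ τ)
    (h2 : τ ≤ k + 1) (x : X) :
    (run Φ τ).symm x = (comp Φ k).symm ((Φ k (cl (τ - k))).symm x) := by
  rw [Homeomorph.symm_apply_eq, run_eq h0 k h1 h2]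
  simp

/-- strips. -/
def strip (k : ℕ) : Set ℝ := {t : ℝ | (k : ℝ) ≤ max (-t) 0 ∧ max (-t) 0 ≤ k + 1}

theorem isClosed_strip (k : ℕ) : IsClosed (strip k) := by
  have hc : Continuous fun t : ℝ => max (-t) 0 := by fun_prop
  exact (isClosed_le continuous_const hc).inter (isClosed_le hc continuous_const)

theorem strip_cover (t : ℝ) : ∃ k, t ∈ strip k := by
  refine ⟨⌊max (-t) 0⌋₊, Nat.floor_le (le_max_right _ _), ?_⟩
  exact (Nat.lt_floor_add_one _).le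

theorem strip_locallyFinite : LocallyFinite (fun k : ℕ => {p : X × ℝ | p.2 ∈ strip k}) := by
  intro p
  refine ⟨{q : X × ℝ | q.2 ∈ Ioo (p.2 - 1) (p.2 + 1)},
    (isOpen_Ioo.preimage continuous_snd).mem_nhds ⟨by simp, by simp⟩, ?_⟩
  refine (Set.finite_Iic (⌈max (-(p.2 - 1)) 0⌉₊)).subset ?_
  rintro k ⟨q, hq1, hq2⟩
  rw [mem_Iic]
  have h1 : (k : ℝ) ≤ max (-q.2) 0 := hq1.1
  have h2 : p.2 - 1 < q.2 := hq2.1
  have h3 : max (-q.2) 0 ≤ max (-(p.2 - 1)) 0 := max_le_max (by linarith) le_rfl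
  have h4 : (k : ℝ) ≤ ⌈max (-(p.2 - 1)) 0⌉₊ := (h1.trans h3).trans (Nat.le_ceil _)
  exact_mod_cast h4

theorem continuous_of_strips {g : X × ℝ → X}
    (h : ∀ k : ℕ, ContinuousOn g {p : X × ℝ | p.2 ∈ strip k}) : Continuous g := by
  refine strip_locallyFinite.continuous ?_ (fun k => (isClosed_strip k).preimage continuous_snd) h
  rw [eq_univ_iff_forall]
  intro p
  obtain ⟨k, hk⟩ := strip_cover p.2
  exact mem_iUnion.2 ⟨k, hk⟩

/-- **gluing**. -/
theorem glue (hc : ∀ k, Continuous fun p : Icc (0 : ℝ) 1 × X => Φ k p.1 p.2)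
    (hc' : ∀ k, Continuous fun p : Icc (0 : ℝ) 1 × X => (Φ k p.1).symm p.2)
    (h0 : ∀ k x, Φ k ⟨0, by simp⟩ x = x) :
    ∃ G : X × ℝ ≃ₜ X × ℝ, ∀ p, G p = (run Φ (max (-p.2) 0) p.1, p.2) := by
  have c1 : Continuous fun p : X × ℝ => run Φ (max (-p.2) 0) p.1 := by
    refine continuous_of_strips fun k => ?_
    have h1 : Continuous fun p : X × ℝ => Φ k (cl (max (-p.2) 0 - k)) (comp Φ k p.1) := by
      refine (hc k).comp (Continuous.prodMk (continuous_cl.comp (by fun_prop)) ?_)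
      exact (comp Φ k).continuous.comp continuous_fst
    refine h1.continuousOn.congr fun p hp => ?_
    exact run_eq h0 k hp.1 hp.2 p.1
  have c2 : Continuous fun p : X × ℝ => (run Φ (max (-p.2) 0)).symm p.1 := by
    refine continuous_of_strips fun k => ?_
    have h1 : Continuous fun p : X × ℝ =>
        (comp Φ k).symm ((Φ k (cl (max (-p.2) 0 - k))).symm p.1) := by
      refine (comp Φ k).symm.continuous.comp ?_
      exact (hc' k).comp (Continuous.prodMk (continuous_cl.comp (by fun_prop)) continuous_fst)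
    refine h1.continuousOn.congr fun p hp => ?_
    exact run_symm_eq h0 k hp.1 hp.2 p.1
  refine ⟨{ toFun := fun p => (run Φ (max (-p.2) 0) p.1, p.2)
            invFun := fun p => ((run Φ (max (-p.2) 0)).symm p.1, p.2)
            left_inv := fun p => by simp
            right_inv := fun p => by simp
            continuous_toFun := c1.prodMk continuous_snd
            continuous_invFun := c2.prodMk continuous_snd }, fun p => rfl⟩

/-- the glued homeomorphism carries a family of subsets. -/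
theorem run_mem {P : ℝ → X → Prop} (h0 : ∀ k x, Φ k ⟨0, by simp⟩ x = x)
    (hP : ∀ (k : ℕ) (s : Icc (0 : ℝ) 1) (x : X), P (k + s) (Φ k s x) ↔ P k x) {τ : ℝ}
    (hτ : 0 ≤ τ) (x : X) : P τ (run Φ τ x) ↔ P 0 x := by
  have hcomp : ∀ (k : ℕ) (x : X), P k (comp Φ k x) ↔ P 0 x := by
    intro k
    induction k with
    | zero => intro x; simp [comp]
    | succ k ih =>
      intro x
      have h1 := hP k ⟨1, by simp⟩ (comp Φ k x)
      rw [ih] at h1
      have h2 : ((k + 1 : ℕ) : ℝ) = (k : ℝ) + ((⟨1, by simp⟩ : Icc (0 : ℝ) 1) : ℝ) := by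
        push_cast; ring
      rw [h2]
      exact h1
  have hfl : (⌊τ⌋₊ : ℝ) ≤ τ := Nat.floor_le hτ
  have hfl2 : τ ≤ ⌊τ⌋₊ + 1 := (Nat.lt_floor_add_one τ).le
  have hmem : τ - ⌊τ⌋₊ ∈ Icc (0 : ℝ) 1 := ⟨by linarith, by linarith⟩
  rw [run_eq h0 ⌊τ⌋₊ hfl hfl2, cl_eq hmem, ← hcomp ⌊τ⌋₊ x,
    ← hP ⌊τ⌋₊ ⟨τ - ⌊τ⌋₊, hmem⟩ (comp Φ ⌊τ⌋₊ x)]
  have h3 : (⌊τ⌋₊ : ℝ) + ((⟨τ - ⌊τ⌋₊, hmem⟩ : Icc (0 : ℝ) 1) : ℝ) = τ := by
    simp
  rw [h3]

end Glue

end Crest.Agent.R267.NdA_484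
end
private theorem rz_74c12d7952 : type_of% @_root_.Crest.Agent.R267.NdA_484.comp.eq_def := @_root_.Crest.Agent.R267.NdA_484.comp.eq_def -- L31
private theorem rz_60e49f1c19 : type_of% @_root_.Crest.Agent.R267.NdA_484.comp.eq_1 := @_root_.Crest.Agent.R267.NdA_484.comp.eq_1 -- L31
end

-- ▼ part R267/NdB_484
section

/-!
# S0406, package T4N: conic structure (helper484)

* `RegAt F d`: `0` is a regular value of `u ↦ F (d u)` on the unit sphere (`d` positive diagonal);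
* `cone`: if this holds along `e^{t w}`, `t ≤ T`, the zero set is a cone;
* `germ_of_link`: a homeomorphism of links gives a homeomorphism of germs;
* `link_congr`: the link does not depend on `d`.
-/

set_option autoImplicit false
set_option linter.unusedSectionVars false

noncomputable section

open Set Filter Topology
open Crest.Agent.R267.Cone_808 Crest.Agent.R267.SphReg_808 Crest.Agent.R267.NdA_484

namespace Crest.Agent.R267.NdB_484

variable {ι : Type*} [Fintype ι]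

/-- diagonal dilation. -/
def dil (d : ι → ℝ) (x : ι → ℂ) : ι → ℂ := fun i => (d i : ℂ) * x i

/-- dilation along the weights `w`. -/
def ex (w : ι → ℝ) (t : ℝ) : ι → ℝ := fun i => Real.exp (t * w i)

theorem act_eq (w : ι → ℝ) (t : ℝ) (x : ι → ℂ) : act w t x = dil (ex w t) x := rfl

/-- `0` is a regular value of `u ↦ F (d u)` on the unit sphere. -/
def RegAt (F : (ι → ℂ) → ℂ) (d : ι → ℝ) : Prop :=
  ∀ u : ι → ℂ, nsq u = 1 → F (dil d u) = 0 →
    ∀ b : ℂ, ∃ y : ι → ℂ, ip u y = 0 ∧ fderiv ℝ F (dil d u) (dil d y) = b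

/-- the dilation as a continuous linear map. -/
def dilL (d : ι → ℝ) : (ι → ℂ) →L[ℝ] (ι → ℂ) :=
  ContinuousLinearMap.pi fun i =>
    ((d i : ℝ) • (ContinuousLinearMap.id ℝ ℂ)).comp
      (ContinuousLinearMap.proj (R := ℝ) (φ := fun _ : ι => ℂ) i)

theorem dilL_apply (d : ι → ℝ) (x : ι → ℂ) : dilL d x = dil d x := by
  funext i
  simp [dilL, dil]

/-- along a `C²` path of diagonals. -/
theorem contDiff_path {F : (ι → ℂ) → ℂ} (hF : ContDiff ℝ 2 F) {D : ℝ → ι → ℝ}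
    (hD : ∀ i, ContDiff ℝ 2 fun t => D t i) :
    ContDiff ℝ 2 fun p : ℝ × (ι → ℂ) => F (dil (D p.1) p.2) := by
  refine hF.comp ?_
  rw [contDiff_pi]
  intro i
  unfold dil
  have h1 : ContDiff ℝ 2 fun p : ℝ × (ι → ℂ) => ((D p.1 i : ℝ) : ℂ) :=
    Complex.ofRealCLM.contDiff.comp ((hD i).comp contDiff_fst)
  have h2 : ContDiff ℝ 2 fun p : ℝ × (ι → ℂ) => p.2 i :=
    (contDiff_apply ℝ ℂ i).comp contDiff_snd
  exact h1.mul h2

theorem fderiv_path {F : (ι → ℂ) → ℂ} (hF : ContDiff ℝ 2 F) {D : ℝ → ι → ℝ}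
    (hD : ∀ i, ContDiff ℝ 2 fun t => D t i) (t : ℝ) (u y : ι → ℂ) :
    fderiv ℝ (fun p : ℝ × (ι → ℂ) => F (dil (D p.1) p.2)) (t, u) (0, y) =
      fderiv ℝ F (dil (D t) u) (dil (D t) y) := by
  have hd : Differentiable ℝ fun p : ℝ × (ι → ℂ) => F (dil (D p.1) p.2) :=
    (contDiff_path hF hD).differentiable (by norm_num)
  have hFd : Differentiable ℝ F := hF.differentiable (by norm_num)
  have h1 : HasFDerivAt (fun v : ι → ℂ => ((t, v) : ℝ × (ι → ℂ)))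
      (ContinuousLinearMap.inr ℝ ℝ (ι → ℂ)) u := hasFDerivAt_prodMk_right t u
  have h2 := (hd (t, u)).hasFDerivAt.comp u h1
  have h3 : HasFDerivAt (fun v : ι → ℂ => dilL (D t) v) (dilL (D t)) u :=
    (dilL (D t)).hasFDerivAt
  have h4 : HasFDerivAt F (fderiv ℝ F (dilL (D t) u)) (dilL (D t) u) :=
    (hFd _).hasFDerivAt
  have h5 := h4.comp u h3
  have h6 : ((fun p : ℝ × (ι → ℂ) => F (dil (D p.1) p.2)) ∘ fun v : ι → ℂ => (t, v)) =
      F ∘ fun v : ι → ℂ => dilL (D t) v := by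
    funext v
    simp only [Function.comp, dilL_apply]
  rw [h6] at h2
  have h7 := congrArg (fun L : (ι → ℂ) →L[ℝ] ℂ => L y) (h2.unique h5)
  simp only [ContinuousLinearMap.comp_apply, ContinuousLinearMap.inr_apply, dilL_apply] at h7
  exact h7

/-- isotopy along a path of regular diagonals. -/
theorem isotopy {F : (ι → ℂ) → ℂ} (hF : ContDiff ℝ 2 F) {D : ℝ → ι → ℝ}
    (hD : ∀ i, ContDiff ℝ 2 fun t => D t i) (hreg : ∀ t ∈ Icc (0 : ℝ) 1, RegAt F (D t)) :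
    ∃ Φ : Icc (0 : ℝ) 1 → (Sph ι ≃ₜ Sph ι),
      (Continuous fun p : Icc (0 : ℝ) 1 × Sph ι => Φ p.1 p.2) ∧
      (Continuous fun p : Icc (0 : ℝ) 1 × Sph ι => (Φ p.1).symm p.2) ∧
      (∀ x, Φ ⟨0, by simp⟩ x = x) ∧
      ∀ (s : Icc (0 : ℝ) 1) (x : Sph ι), F (dil (D s) (Φ s x)) = 0 ↔ F (dil (D 0) x) = 0 := by
  obtain ⟨Φ, δ, hδ, h1, h2, h3, h4, -⟩ := ehresmann_sphere (ι := ι) (U := univ) isOpen_univ
    (fun _ _ _ _ => mem_univ _) (contDiff_path hF hD).contDiffOn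
    (fun t ht x hx h0 b => by
      obtain ⟨y, hy, hy'⟩ := hreg t ht x hx h0 b
      exact ⟨y, hy, by rw [fderiv_path hF hD]; exact hy'⟩)
  refine ⟨Φ, h1, h2, h3, fun s x => ⟨fun h => ?_, fun h => ?_⟩⟩
  · have h5 := h4 x s ⟨0, by simp⟩ (by
      have : F (dil (D s) (Φ s x)) = 0 := h
      simp only [this, norm_zero]; exact hδ)
    rw [h3] at h5
    exact h5.trans h
  · have h5 := h4 x ⟨0, by simp⟩ s (by
      rw [h3]
      have : F (dil (D 0) x) = 0 := h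
      simp only [this, norm_zero]; exact hδ)
    rw [h3] at h5
    exact h5.trans h


/-- **conic structure.** -/
theorem cone {F : (ι → ℂ) → ℂ} (hF : ContDiff ℝ 2 F) (w : ι → ℝ) {T : ℝ}
    (hreg : ∀ t ≤ T, RegAt F (ex w t)) :
    ∃ G : Sph ι × ℝ ≃ₜ Sph ι × ℝ, (∀ p, (G p).2 = p.2) ∧
      ∀ p, p.2 ≤ 0 → (F (act w (T + p.2) (G p).1) = 0 ↔ F (act w T p.1) = 0) := by
  have key : ∀ k : ℕ, ∃ Φ : Icc (0 : ℝ) 1 → (Sph ι ≃ₜ Sph ι),
      (Continuous fun p : Icc (0 : ℝ) 1 × Sph ι => Φ p.1 p.2) ∧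
      (Continuous fun p : Icc (0 : ℝ) 1 × Sph ι => (Φ p.1).symm p.2) ∧
      (∀ x, Φ ⟨0, by simp⟩ x = x) ∧
      ∀ (s : Icc (0 : ℝ) 1) (x : Sph ι),
        F (act w (T - (k + s)) (Φ s x)) = 0 ↔ F (act w (T - k) x) = 0 := by
    intro k
    obtain ⟨Φ, h1, h2, h3, h4⟩ := isotopy hF (D := fun s => ex w (T - (k + s)))
      (fun i => by unfold ex; fun_prop)
      (fun t ht => hreg _ (by
        have := ht.1
        have hk : (0 : ℝ) ≤ k := Nat.cast_nonneg k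
        linarith))
    refine ⟨Φ, h1, h2, h3, fun s x => ?_⟩
    rw [act_eq, act_eq, h4 s x]
    simp
  choose Φ h1 h2 h3 h4 using key
  obtain ⟨G, hG⟩ := glue h1 h2 h3
  refine ⟨G, fun p => by rw [hG], fun p hp => ?_⟩
  rw [hG]
  have h5 : max (-p.2) 0 = -p.2 := max_eq_left (by linarith)
  have h6 := run_mem (P := fun (τ : ℝ) (x : Sph ι) => F (act w (T - τ) x) = 0) h3
    (fun k s x => h4 k s x) (τ := max (-p.2) 0) (le_max_right _ _) p.1
  simp only [sub_zero] at h6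
  rw [← h6]
  have h7 : T - max (-p.2) 0 = T + p.2 := by rw [h5]; ring
  simp only [h7]

/-- shift of the real coordinate. -/
def sh (X : Type*) [TopologicalSpace X] (a : ℝ) : X × ℝ ≃ₜ X × ℝ :=
  (Homeomorph.refl X).prodCongr (Homeomorph.addRight a)



end Crest.Agent.R267.NdB_484
end
end

-- ▼ part R267/EntA_125
section

/-!
# S0406, entrance, ENT-A (helper125): conic structure for star-shaped gauges

* `isotopy`: isotopy of the spheres along a `0`-regular path;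
* `cone`: the family `H (T + t, ·)`, `t ≤ 0`, has constant zero set on the sphere;
* `germ_of_con`: two germs described by families (`Con`) with homeomorphic zero sets on the spheres
  have homeomorphic zero sets.
-/

set_option autoImplicit false
set_option linter.unusedSectionVars false

noncomputable section

open Set Filter Topology
open scoped ContDiff
open Crest.Agent.R267.Cone_808 Crest.Agent.R267.SphReg_808 Crest.Agent.R267.Hm_951
open Crest.Agent.R267.NdA_484 Crest.Agent.R267.NdS_484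

namespace Crest.Agent.R267.EntA_125

variable {ι : Type} [Fintype ι]

theorem isOpen_dom : IsOpen ((univ : Set ℝ) ×ˢ ({0}ᶜ : Set (ι → ℂ))) :=
  isOpen_univ.prod isOpen_compl_singleton

/-- regularity on the sphere. -/
theorem reg_sph {w : ι → ℝ} {f : (ι → ℂ) → ℂ} {ρ : (ι → ℂ) → ℝ} {H : ℝ × (ι → ℂ) → ℂ} {T : ℝ}
    (hf : Con w f ρ H T) {t : ℝ} (ht : t ≤ T) {x : ι → ℂ} (hx : nsq x = 1) (h0 : H (t, x) = 0)
    (b : ℂ) : ∃ y : ι → ℂ, ip x y = 0 ∧ fderiv ℝ H (t, x) (0, y) = b := by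
  have hx0 : x ≠ 0 := by
    rintro rfl
    rw [nsq_eq_zero.2 rfl] at hx
    exact zero_ne_one hx
  have hmem : (t, x) ∈ (univ : Set ℝ) ×ˢ ({0}ᶜ : Set (ι → ℂ)) := ⟨mem_univ _, hx0⟩
  have hd : DifferentiableAt ℝ H (t, x) :=
    ((hf.smooth _ hmem).contDiffAt (isOpen_dom.mem_nhds hmem)).differentiableAt (by norm_num)
  have heul := euler (hf.wh t ht) hd
  rw [h0] at heul
  obtain ⟨y, hy1, hy2⟩ := regular_of_euler hf.wpos hx0
    (L := (fderiv ℝ H (t, x)).comp (ContinuousLinearMap.inr ℝ ℝ (ι → ℂ)))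
    (by simpa using heul) (fun b => by
      obtain ⟨y, hy⟩ := hf.reg t ht x hx0 h0 b
      exact ⟨y, by simpa using hy⟩) b
  exact ⟨y, hy1, by simpa using hy2⟩

/-- isotopy of the spheres. -/
theorem isotopy {w : ι → ℝ} {f : (ι → ℂ) → ℂ} {ρ : (ι → ℂ) → ℝ} {H : ℝ × (ι → ℂ) → ℂ} {T : ℝ}
    (hf : Con w f ρ H T) (k : ℕ) :
    ∃ Φ : Icc (0 : ℝ) 1 → (Sph ι ≃ₜ Sph ι),
      (Continuous fun p : Icc (0 : ℝ) 1 × Sph ι => Φ p.1 p.2) ∧
      (Continuous fun p : Icc (0 : ℝ) 1 × Sph ι => (Φ p.1).symm p.2) ∧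
      (∀ x, Φ ⟨0, by simp⟩ x = x) ∧
      ∀ (s : Icc (0 : ℝ) 1) (x : Sph ι), H (T - (k + s), Φ s x) = 0 ↔ H (T - k, x) = 0 := by
  set H' : ℝ × (ι → ℂ) → ℂ := fun p => H (T - (k + p.1), p.2) with hH'
  have hmaps : ContDiff ℝ 2 fun p : ℝ × (ι → ℂ) => (T - ((k : ℝ) + p.1), p.2) := by fun_prop
  have hsm : ContDiffOn ℝ 2 H' ((univ : Set ℝ) ×ˢ ({0}ᶜ : Set (ι → ℂ))) :=
    hf.smooth.comp hmaps.contDiffOn fun p hp => ⟨mem_univ _, hp.2⟩
  have hder : ∀ (s : ℝ) (x : ι → ℂ), x ≠ 0 → ∀ y : ι → ℂ,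
      fderiv ℝ H' (s, x) (0, y) = fderiv ℝ H (T - (k + s), x) (0, y) := by
    intro s x hx y
    have hm1 : (s, x) ∈ (univ : Set ℝ) ×ˢ ({0}ᶜ : Set (ι → ℂ)) := ⟨mem_univ _, hx⟩
    have hm2 : (T - (k + s), x) ∈ (univ : Set ℝ) ×ˢ ({0}ᶜ : Set (ι → ℂ)) := ⟨mem_univ _, hx⟩
    have hd1 : DifferentiableAt ℝ H' (s, x) :=
      ((hsm _ hm1).contDiffAt (isOpen_dom.mem_nhds hm1)).differentiableAt (by norm_num)
    have hd2 : DifferentiableAt ℝ H (T - (k + s), x) :=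
      ((hf.smooth _ hm2).contDiffAt (isOpen_dom.mem_nhds hm2)).differentiableAt (by norm_num)
    have h1 := hd1.hasFDerivAt.comp x (hasFDerivAt_prodMk_right s x)
    have h2 := hd2.hasFDerivAt.comp x (hasFDerivAt_prodMk_right (T - (k + s)) x)
    have h3 := congrArg (fun L : (ι → ℂ) →L[ℝ] ℂ => L y) (h1.unique h2)
    simpa using h3
  obtain ⟨Φ, δ, hδ, h1, h2, h3, h4, -⟩ := ehresmann_sphere (ι := ι) isOpen_dom
    (fun t _ x hx => ⟨mem_univ _, fun h => by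
      have h' : x = 0 := h
      rw [h', nsq_eq_zero.2 rfl] at hx
      exact zero_ne_one hx⟩) hsm
    (fun t ht x hx h0 b => by
      have hk : (0 : ℝ) ≤ k := Nat.cast_nonneg k
      have ht' : T - (k + t) ≤ T := by linarith [ht.1]
      obtain ⟨y, hy, hy'⟩ := reg_sph hf ht' hx h0 b
      refine ⟨y, hy, ?_⟩
      rw [hder t x (fun h => by
        rw [h, nsq_eq_zero.2 rfl] at hx
        exact zero_ne_one hx)]
      exact hy')
  refine ⟨Φ, h1, h2, h3, fun s x => ⟨fun h => ?_, fun h => ?_⟩⟩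
  · have h5 := h4 x s ⟨0, by simp⟩ (by
      have : H' (s, Φ s x) = 0 := h
      rw [this, norm_zero]; exact hδ)
    rw [h3] at h5
    have h6 : H' (((⟨0, by simp⟩ : Icc (0 : ℝ) 1) : ℝ), x) = 0 := h5.trans h
    simpa [hH'] using h6
  · have h0 : H' (((⟨0, by simp⟩ : Icc (0 : ℝ) 1) : ℝ), x) = 0 := by simpa [hH'] using h
    have h5 := h4 x ⟨0, by simp⟩ s (by
      rw [h3, h0, norm_zero]; exact hδ)
    rw [h3] at h5
    exact h5.trans h0

/-- **conic structure.** -/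
theorem cone {w : ι → ℝ} {f : (ι → ℂ) → ℂ} {ρ : (ι → ℂ) → ℝ} {H : ℝ × (ι → ℂ) → ℂ} {T : ℝ}
    (hf : Con w f ρ H T) :
    ∃ G : Sph ι × ℝ ≃ₜ Sph ι × ℝ, (∀ p, (G p).2 = p.2) ∧
      ∀ p, p.2 ≤ 0 → (H (T + p.2, (G p).1) = 0 ↔ H (T, p.1) = 0) := by
  choose Φ h1 h2 h3 h4 using isotopy hf
  obtain ⟨G, hG⟩ := glue h1 h2 h3
  refine ⟨G, fun p => by rw [hG], fun p hp => ?_⟩
  rw [hG]
  have h5 : max (-p.2) 0 = -p.2 := max_eq_left (by linarith)
  have h6 := run_mem (P := fun (τ : ℝ) (x : Sph ι) => H (T - τ, x) = 0) h3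
    (fun k s x => h4 k s x) (τ := max (-p.2) 0) (le_max_right _ _) p.1
  simp only [sub_zero] at h6
  rw [← h6]
  have h7 : T - max (-p.2) 0 = T + p.2 := by rw [h5]; ring
  simp only [h7]

/-- shift by a function. -/
def shf (r : Sph ι → ℝ) (hr : Continuous r) : Sph ι × ℝ ≃ₜ Sph ι × ℝ where
  toFun p := (p.1, p.2 + r p.1)
  invFun p := (p.1, p.2 - r p.1)
  left_inv p := by simp
  right_inv p := by simp
  continuous_toFun := continuous_fst.prodMk (continuous_snd.add (hr.comp continuous_fst))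
  continuous_invFun := continuous_fst.prodMk (continuous_snd.sub (hr.comp continuous_fst))



theorem exists_bound {r : Sph ι → ℝ} (hr : Continuous r) : ∃ R, ∀ u, |r u| ≤ R := by
  have : CompactSpace (Sph ι) := isCompact_iff_compactSpace.1 isCompact_sph
  obtain ⟨R, hR⟩ := (isCompact_univ (X := Sph ι)).exists_bound_of_continuousOn hr.continuousOn
  exact ⟨R, fun u => by simpa using hR u (mem_univ u)⟩

/-- **germs described by families with homeomorphic zero sets on the spheres.** -/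
theorem germ_of_con {f g : (ι → ℂ) → ℂ} {w w' : ι → ℝ}
    {ρ ρ' : (ι → ℂ) → ℝ} {H H' : ℝ × (ι → ℂ) → ℂ} {T T' : ℝ}
    (hf : Con w f ρ H T) (hg : Con w' g ρ' H' T')
    (h : ZEq (fun u => H (T, u)) (fun u => H' (T', u))) :
    ∃ φ : OpenPartialHomeomorph (ι → ℂ) (ι → ℂ),
      (0 : ι → ℂ) ∈ φ.source ∧ φ 0 = 0 ∧ ∀ x ∈ φ.source, (f x = 0 ↔ g (φ x) = 0) := by
  obtain ⟨k₀, hk₀⟩ := h
  obtain ⟨A, hA1, hA2⟩ := cone hf
  obtain ⟨B, hB1, hB2⟩ := cone hg
  have hw := hf.wpos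
  have hw' := hg.wpos
  obtain ⟨R, hR⟩ := exists_bound hf.cont
  obtain ⟨R', hR'⟩ := exists_bound hg.cont
  set S : Sph ι × ℝ ≃ₜ Sph ι × ℝ := shf (fun u => ρ u) hf.cont with hS
  set S' : Sph ι × ℝ ≃ₜ Sph ι × ℝ := shf (fun u => ρ' u) hg.cont with hS'
  let L : Sph ι × ℝ ≃ₜ Sph ι × ℝ :=
    ((((S.trans (NdB_484.sh (Sph ι) (-T))).trans A.symm).trans
      (k₀.prodCongr (Homeomorph.refl ℝ))).trans (B.trans (NdB_484.sh (Sph ι) T'))).trans S'.symm
  have hAs : ∀ p, (A.symm p).2 = p.2 := fun p => by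
    have := hA1 (A.symm p)
    rw [A.apply_symm_apply] at this
    exact this.symm
  have hLdef : ∀ p : Sph ι × ℝ, ∃ q : Sph ι × ℝ, A q = (p.1, p.2 + ρ p.1 + -T) ∧
      q.2 = p.2 + ρ p.1 + -T ∧ (L p).1 = (B (k₀ q.1, q.2)).1 ∧
      (L p).2 = q.2 + T' - ρ' (L p).1 := by
    intro p
    refine ⟨A.symm (p.1, p.2 + ρ p.1 + -T), A.apply_symm_apply _, hAs _, rfl, ?_⟩
    have : (L p).2 = (B (k₀ (A.symm (p.1, p.2 + ρ p.1 + -T)).1,
      (A.symm (p.1, p.2 + ρ p.1 + -T)).2)).2 + T' - ρ' (L p).1 := rfl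
    rw [this, hB1]
  have hL2 : ∀ p, (L p).2 = p.2 + ρ p.1 - T + T' - ρ' (L p).1 := by
    intro p
    obtain ⟨q, -, hq2, -, hq4⟩ := hLdef p
    rw [hq4, hq2]
    ring
  have hL2s : ∀ p, (L.symm p).2 = p.2 - ρ (L.symm p).1 + T - T' + ρ' p.1 := by
    intro p
    have := hL2 (L.symm p)
    rw [L.apply_symm_apply] at this
    linarith
  have hL : ∀ p : Sph ι × ℝ, p.2 + ρ p.1 ≤ T →
      (f (act w p.2 p.1) = 0 ↔ g (act w' (L p).2 (L p).1) = 0) := by
    intro p hp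
    obtain ⟨q, hAq, hq2, hq3, hq4⟩ := hLdef p
    have e1 := hA2 q (by rw [hq2]; linarith)
    have e0 : T + q.2 = p.2 + ρ p.1 := by rw [hq2]; ring
    rw [hAq, e0] at e1
    have e2 := hf.link (p.2 + ρ p.1) p.1 hp
    rw [add_sub_cancel_right] at e2
    have e3 := hB2 (k₀ q.1, q.2) (by rw [hq2]; linarith)
    simp only at e3
    have e4 := hg.link (T' + q.2) (L p).1 (by rw [hq2]; linarith)
    have e5 : T' + q.2 - ρ' (L p).1 = (L p).2 := by rw [hq4]; ring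
    rw [e5] at e4
    rw [e4, hq3, e3, e2, e1]
    exact hk₀ q.1
  let k : {x : ι → ℂ // x ≠ 0} ≃ₜ {x : ι → ℂ // x ≠ 0} :=
    ((polar hw).trans L).trans (polar hw').symm
  have key : ∀ {v v' : ι → ℝ} (hv : ∀ i, 0 < v i) (hv' : ∀ i, 0 < v' i)
      (g : Sph ι × ℝ ≃ₜ Sph ι × ℝ), (∀ M, ∃ M', ∀ p : Sph ι × ℝ, p.2 < M' → (g p).2 < M) →
      ∀ U ∈ 𝓝 (0 : ι → ℂ), ∀ᶠ x in 𝓝 (0 : ι → ℂ), ∀ hx : x ≠ 0,
        ((polar hv').symm (g (polar hv ⟨x, hx⟩)) : ι → ℂ) ∈ U := by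
    intro v v' hv hv' g hg U hU
    obtain ⟨M, hM⟩ := exists_time_small hv' hU
    obtain ⟨M', hM'⟩ := hg M
    filter_upwards [tau_tendsto hv M'] with x hx hx0
    rw [polar_symm_apply]
    exact hM _ _ (hM' _ (by rw [polar_apply_snd]; exact hx hx0))
  obtain ⟨Ψ, hΨ0, hΨ⟩ := extend_homeo k
    (key hw hw' L fun M => ⟨M + T - T' - R - R', fun p hp => by
      rw [hL2]
      have h1 := abs_le.1 (hR p.1)
      have h2 := abs_le.1 (hR' (L p).1)
      linarith [h1.2, h2.1]⟩)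
    (key hw' hw L.symm fun M => ⟨M - T + T' - R - R', fun p hp => by
      rw [hL2s]
      have h1 := abs_le.1 (hR (L.symm p).1)
      have h2 := abs_le.1 (hR' p.1)
      linarith [h1.1, h2.2]⟩)
  let O : Set (ι → ℂ) := {x | nsq (act w (-(T - R)) x) < 1}
  have hO : IsOpen O := isOpen_lt (continuous_nsq.comp ((continuous_act w).comp
    (by fun_prop : Continuous fun x : ι → ℂ => (-(T - R), x)))) continuous_const
  refine ⟨Ψ.toOpenPartialHomeomorph.restrOpen O hO, ?_, ?_, ?_⟩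
  · rw [OpenPartialHomeomorph.restrOpen_source]
    refine ⟨by simp, ?_⟩
    change nsq (act w (-(T - R)) 0) < 1
    simp [nsq]
  · exact hΨ0
  · intro x hx
    rw [OpenPartialHomeomorph.restrOpen_source] at hx
    have hx2 : nsq (act w (-(T - R)) x) < 1 := hx.2
    change f x = 0 ↔ g (Ψ x) = 0
    by_cases hx0 : x = 0
    · rw [hx0, hΨ0, hf.zero, hg.zero]
    · rw [hΨ x hx0]
      have h1 : ((k ⟨x, hx0⟩ : {x : ι → ℂ // x ≠ 0}) : ι → ℂ) =
          act w' (L (polar hw ⟨x, hx0⟩)).2 (L (polar hw ⟨x, hx0⟩)).1 := rfl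
      have h2 : (polar hw ⟨x, hx0⟩).2 + ρ (polar hw ⟨x, hx0⟩).1 ≤ T := by
        rw [polar_apply_snd]
        have h3 := (tau_lt_iff hw ⟨x, hx0⟩ (T - R)).2 hx2
        have h4 := (abs_le.1 (hR (polar hw ⟨x, hx0⟩).1)).2
        linarith
      have h3 : act w (polar hw ⟨x, hx0⟩).2 (polar hw ⟨x, hx0⟩).1 = x := by
        have := congrArg Subtype.val ((polar hw).symm_apply_apply ⟨x, hx0⟩)
        rw [polar_symm_apply] at this
        exact this
      rw [h1, ← hL _ h2, h3]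

end Crest.Agent.R267.EntA_125
end
end

-- ▼ part R267/EntC_610
section

/-!
# S0406, T3N entrance, leaf ENT-C: isolated critical point of `f_M`, `M` large (helper610)

* `iso_crit_of` : for `M ≥ M1` the polynomial function `pf b T c M` has an isolated critical point
  at `0` (the arm inequality `pl_arm` is a hypothesis).
-/

set_option autoImplicit false
set_option linter.unusedSectionVars false

noncomputable section

open Set Filter Topology Finset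
open Crest.Agent.R267.NdP_484 Crest.Agent.R267.NdR_484 Crest.Agent.R267.NdQ_484
open Crest.Agent.R267.NdS_484

namespace Crest.Agent.R267.EntC_610

/-! ### scaling -/

/-- weighted dilation. -/
def sc (b : Bool) (ρ : ℝ) (p : E4) : E4 :=
  ![(ρ : ℂ) ^ aw b 0 * p 0, (ρ : ℂ) ^ aw b 1 * p 1, (ρ : ℂ) ^ aw b 2 * p 2, (ρ : ℂ) * p 3]

theorem sc_c (b : Bool) (ρ : ℝ) (p : E4) (v : Fin 3) :
    sc b ρ p v.castSucc = (ρ : ℂ) ^ aw b v * p v.castSucc := by
  fin_cases v <;> rfl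

theorem sc_3 (b : Bool) (ρ : ℝ) (p : E4) : sc b ρ p 3 = (ρ : ℂ) * p 3 := rfl

theorem aw_le (b : Bool) (v : Fin 3) : aw b v ≤ 15 := by
  unfold aw; cases b <;> fin_cases v <;> simp

theorem aw_bw (b : Bool) (v : Fin 3) : aw b v * (2 * bw b v) = 60 := by
  unfold aw bw; cases b <;> fin_cases v <;> simp

theorem g_sc (b : Bool) (v : Fin 3) {ρ : ℝ} (hρ : 0 ≤ ρ) (p : E4) :
    g b v (sc b ρ p) = ρ ^ 60 * g b v p := by
  unfold g
  rw [sc_c, norm_mul, mul_pow, norm_pow, Complex.norm_real, Real.norm_eq_abs, abs_of_nonneg hρ,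
    ← pow_mul, aw_bw]

theorem N_sc (b : Bool) {ρ : ℝ} (hρ : 0 ≤ ρ) (p : E4) : N b (sc b ρ p) = ρ ^ 60 * N b p := by
  unfold N
  rw [Finset.mul_sum]
  exact Finset.sum_congr rfl fun v _ => g_sc b v hρ p

theorem sc_inv (b : Bool) {ρ : ℝ} (hρ : 0 < ρ) (p : E4) : sc b ρ (sc b ρ⁻¹ p) = p := by
  have h : (ρ : ℂ) ≠ 0 := Complex.ofReal_ne_zero.2 hρ.ne'
  funext i
  refine Fin.lastCases ?_ (fun v => ?_) i
  · change sc b ρ (sc b ρ⁻¹ p) 3 = p 3
    rw [sc_3, sc_3, ← mul_assoc]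
    push_cast
    rw [mul_inv_cancel₀ h, one_mul]
  · rw [sc_c, sc_c, ← mul_assoc, ← mul_pow]
    push_cast
    rw [mul_inv_cancel₀ h, one_pow, one_mul]

theorem Ev_scale {a : ℕ} {T : Finset (ℕ × ℕ)} {c : ℕ × ℕ → ℂ} (hT : Adm a T) (ha : a ≤ 15)
    (ρ : ℝ) (v w : ℂ) :
    Ev T c ((ρ : ℂ) ^ a * v) ((ρ : ℂ) * w) = (ρ : ℂ) ^ (15 - a) * Ev T (cz a c ρ) v w := by
  unfold Ev
  rw [Finset.mul_sum]
  refine Finset.sum_congr rfl fun p hp => ?_
  obtain ⟨h1, -, h3⟩ := hT p hp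
  unfold cz
  have e : a * (p.1 - 1) + p.2 = (15 - a) + ex a p := by
    unfold ex
    obtain ⟨k, hk⟩ := Nat.exists_eq_add_of_le h1
    rw [hk] at h3 ⊢
    have : a * (1 + k) = a + a * k := by ring
    rw [this] at h3 ⊢
    have : 1 + k - 1 = k := by omega
    rw [this]
    omega
  calc c p * ((p.1 : ℂ) * ((ρ : ℂ) ^ a * v) ^ (p.1 - 1) * ((ρ : ℂ) * w) ^ p.2)
      = (ρ : ℂ) ^ (a * (p.1 - 1) + p.2) * (c p * ((p.1 : ℂ) * v ^ (p.1 - 1) * w ^ p.2)) := by
        rw [mul_pow, mul_pow, ← pow_mul, pow_add]; ring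
    _ = _ := by rw [e, pow_add]; ring

theorem Ew_scale {a : ℕ} {T : Finset (ℕ × ℕ)} {c : ℕ × ℕ → ℂ} (hT : Adm a T)
    (ρ : ℝ) (v w : ℂ) :
    Ew T c ((ρ : ℂ) ^ a * v) ((ρ : ℂ) * w) = (ρ : ℂ) ^ 14 * Ew T (cz a c ρ) v w := by
  unfold Ew
  rw [Finset.mul_sum]
  refine Finset.sum_congr rfl fun p hp => ?_
  obtain ⟨-, -, h3⟩ := hT p hp
  unfold cz
  rcases Nat.eq_zero_or_pos p.2 with h0 | h0
  · rw [h0]; simp
  · have e : a * p.1 + (p.2 - 1) = 14 + ex a p := by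
      unfold ex
      omega
    calc c p * (((ρ : ℂ) ^ a * v) ^ p.1 * ((p.2 : ℂ) * ((ρ : ℂ) * w) ^ (p.2 - 1)))
        = (ρ : ℂ) ^ (a * p.1 + (p.2 - 1)) * (c p * (v ^ p.1 * ((p.2 : ℂ) * w ^ (p.2 - 1)))) := by
          rw [mul_pow, mul_pow, ← pow_mul, pow_add]; ring
      _ = _ := by rw [e, pow_add]; ring

theorem dP_scale (b : Bool) (ρ : ℝ) (p : E4) (v : Fin 3) :
    dP b (sc b ρ p) v = (ρ : ℂ) ^ (15 - aw b v) * dP b p v := by
  have h0 : sc b ρ p 0 = (ρ : ℂ) ^ aw b 0 * p 0 := rfl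
  have h1 : sc b ρ p 1 = (ρ : ℂ) ^ aw b 1 * p 1 := rfl
  have h2 : sc b ρ p 2 = (ρ : ℂ) ^ aw b 2 * p 2 := rfl
  unfold dP
  rw [h0, h1, h2]
  unfold Ps Pt aw
  cases b <;> fin_cases v <;> simp <;> ring

variable {b : Bool} {T : Fin 3 → Finset (ℕ × ℕ)} {c : Fin 3 → ℕ × ℕ → ℂ}

theorem crit_scale (hd : ∀ v, ArmDat (aw b v) (T v) (c v)) {M ρ : ℝ} (hρ : 0 < ρ) {p : E4}
    (h : ∀ v, dpf b T c M (sc b ρ p) v = 0) (hw : dpw T c (sc b ρ p) = 0) :
    (∀ v, M * dP b p v + Ev (T v) (cz (aw b v) (c v) ρ) (p v.castSucc) (p 3) = 0) ∧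
      15 * p 3 ^ 14 + ∑ v, Ew (T v) (cz (aw b v) (c v) ρ) (p v.castSucc) (p 3) = 0 := by
  have hρ' : (ρ : ℂ) ≠ 0 := Complex.ofReal_ne_zero.2 hρ.ne'
  constructor
  · intro v
    have h1 := h v
    unfold dpf at h1
    rw [dP_scale, sc_c, sc_3, Ev_scale (hd v).adm (aw_le b v)] at h1
    have h2 : (ρ : ℂ) ^ (15 - aw b v) *
        (M * dP b p v + Ev (T v) (cz (aw b v) (c v) ρ) (p v.castSucc) (p 3)) = 0 := by
      rw [← h1]; ring
    exact (mul_eq_zero.1 h2).resolve_left (pow_ne_zero _ hρ')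
  · unfold dpw at hw
    have h1 : ∑ v, Ew (T v) (c v) (sc b ρ p v.castSucc) (sc b ρ p 3) =
        (ρ : ℂ) ^ 14 * ∑ v, Ew (T v) (cz (aw b v) (c v) ρ) (p v.castSucc) (p 3) := by
      rw [Finset.mul_sum]
      refine Finset.sum_congr rfl fun v _ => ?_
      rw [sc_c, sc_3, Ew_scale (hd v).adm]
    rw [h1, sc_3] at hw
    have h2 : (ρ : ℂ) ^ 14 *
        (15 * p 3 ^ 14 + ∑ v, Ew (T v) (cz (aw b v) (c v) ρ) (p v.castSucc) (p 3)) = 0 := by
      rw [← hw]; ring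
    exact (mul_eq_zero.1 h2).resolve_left (pow_ne_zero _ hρ')

/-! ### the core outside the tubes -/

theorem D_one (b : Bool) (p : E4) : Amal_52.D b 1 1 p = dP b p := by
  have h1 : ∀ s t, Amal_52.P2s b 1 1 s t = Ps b s t := by
    intro s t
    unfold Amal_52.P2s Ps
    cases b <;> simp only [cond_true, cond_false] <;> ring
  have h2 : ∀ s t, Amal_52.P2t b 1 1 s t = Pt b s t := by
    intro s t
    unfold Amal_52.P2t Pt
    cases b <;> simp only [cond_true, cond_false] <;> ring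
  unfold Amal_52.D dP
  rw [h1, h2]

theorem continuous_dP (b : Bool) (i : Fin 3) : Continuous fun p : E4 => dP b p i := by
  unfold dP Ps Pt
  cases b <;> fin_cases i <;> simp <;> fun_prop

theorem core_low (b : Bool) : ∃ c0 : ℝ, 0 < c0 ∧ ∀ p : E4, N b p = 1 → (∀ v, g b v p ≤ t1) →
    ∃ i, c0 ≤ ‖dP b p i‖ := by
  set K : Set E4 := {p | N b p = 1 ∧ (∀ v, g b v p ≤ t1) ∧ p 3 = 0} with hK
  have hKc : IsCompact K := by
    refine Metric.isCompact_of_isClosed_isBounded ?_ ?_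
    · have h1 : IsClosed {p : E4 | N b p = 1} :=
        isClosed_eq (Amal_52.continuous_N b) continuous_const
      have h2 : IsClosed {p : E4 | ∀ v, g b v p ≤ t1} := by
        simp only [Set.ofPred_forall]
        exact isClosed_iInter fun v => isClosed_le (Amal_52.continuous_g b v) continuous_const
      have h3 : IsClosed {p : E4 | p 3 = 0} := isClosed_eq (continuous_apply 3) continuous_const
      exact h1.inter (h2.inter h3)
    · refine (Metric.isBounded_closedBall (x := (0 : E4)) (r := 1)).subset ?_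
      intro p hp
      rw [mem_closedBall_zero_iff, pi_norm_le_iff_of_nonneg zero_le_one]
      intro i
      refine Fin.lastCases ?_ (fun v => ?_) i
      · change ‖p 3‖ ≤ 1
        rw [hp.2.2, norm_zero]; exact zero_le_one
      · exact Amal_52.norm_le_one hp.1 v
  have hcont : Continuous fun p : E4 => ∑ i, ‖dP b p i‖ :=
    continuous_finsetSum _ fun i _ => (continuous_dP b i).norm
  have hpos : ∀ p ∈ K, 0 < ∑ i, ‖dP b p i‖ := by
    intro p hp
    obtain ⟨i, hi⟩ := Amal_52.outside (b := b) one_ne_zero one_ne_zero hp.1 hp.2.1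
    rw [D_one] at hi
    exact Finset.sum_pos' (fun i _ => norm_nonneg _) ⟨i, Finset.mem_univ i, norm_pos_iff.2 hi⟩
  obtain ⟨m, hm, hmK⟩ : ∃ m : ℝ, 0 < m ∧ ∀ p ∈ K, m ≤ ∑ i, ‖dP b p i‖ := by
    rcases K.eq_empty_or_nonempty with h | h
    · exact ⟨1, one_pos, fun p hp => by rw [h] at hp; exact absurd hp (notMem_empty _)⟩
    · obtain ⟨q, hq, hq'⟩ := hKc.exists_isMinOn h hcont.continuousOn
      exact ⟨_, hpos q hq, fun p hp => hq' hp⟩
  refine ⟨m / 3, by positivity, fun p hN hg => ?_⟩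
  have hu : ∀ v : Fin 3, Function.update p 3 0 v.castSucc = p v.castSucc := by
    intro v
    refine Function.update_of_ne ?_ _ _
    fin_cases v <;> decide
  have hgu : ∀ v, g b v (Function.update p 3 0) = g b v p := fun v => by unfold g; rw [hu]
  have hNu : N b (Function.update p 3 0) = 1 := by
    rw [← hN]; unfold N; exact Finset.sum_congr rfl fun v _ => hgu v
  have hdu : dP b (Function.update p 3 0) = dP b p := by
    unfold dP
    have e0 := hu 0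
    have e1 := hu 1
    have e2 := hu 2
    change Function.update p 3 0 0 = p 0 at e0
    change Function.update p 3 0 1 = p 1 at e1
    change Function.update p 3 0 2 = p 2 at e2
    rw [e0, e1, e2]
  have hmem : Function.update p 3 0 ∈ K :=
    ⟨hNu, fun v => by rw [hgu]; exact hg v, Function.update_self _ _ _⟩
  have h1 := hmK _ hmem
  rw [hdu] at h1
  by_contra hc
  push Not at hc
  have h2 : ∑ i, ‖dP b p i‖ < ∑ _i : Fin 3, m / 3 :=
    Finset.sum_lt_sum_of_nonempty Finset.univ_nonempty fun i _ => hc i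
  rw [Finset.sum_const, Finset.card_univ, Fintype.card_fin, nsmul_eq_mul] at h2
  have h3 : ((3 : ℕ) : ℝ) * (m / 3) = m := by push_cast; ring
  linarith

/-! ### crude bounds of the arms -/

theorem cz_le {a : ℕ} {c : ℕ × ℕ → ℂ} {r : ℝ} (h0 : 0 ≤ r) (h1 : r ≤ 1) (q : ℕ × ℕ) :
    ‖cz a c r q‖ ≤ ‖c q‖ := by
  unfold cz
  rw [norm_mul, norm_pow, Complex.norm_real, Real.norm_eq_abs, abs_of_nonneg h0]
  exact mul_le_of_le_one_right (norm_nonneg _) (pow_le_one₀ h0 h1)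

theorem Ev_crude {a : ℕ} {T : Finset (ℕ × ℕ)} {c : ℕ × ℕ → ℂ} (hT : Adm a T) {r : ℝ}
    (h0 : 0 ≤ r) (h1 : r ≤ 1) {v w : ℂ} (hv : ‖v‖ ≤ 1) :
    ‖Ev T (cz a c r) v w‖ ≤ Kc T c * (1 + ‖w‖) ^ 14 := by
  unfold Ev Kc
  rw [Finset.sum_mul]
  refine (norm_sum_le _ _).trans (Finset.sum_le_sum fun p hp => ?_)
  obtain ⟨-, h2, -⟩ := hT p hp
  rw [norm_mul, norm_mul, norm_mul, norm_pow, norm_pow, Complex.norm_natCast]
  have hw := norm_nonneg w
  have k1 : ‖v‖ ^ (p.1 - 1) ≤ 1 := pow_le_one₀ (norm_nonneg _) hv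
  have k2 : ‖w‖ ^ p.2 ≤ (1 + ‖w‖) ^ 14 := by
    calc ‖w‖ ^ p.2 ≤ (1 + ‖w‖) ^ p.2 := by gcongr; linarith
      _ ≤ (1 + ‖w‖) ^ 14 := pow_le_pow_right₀ (by linarith) h2
  have k3 := cz_le (a := a) (c := c) h0 h1 p
  calc ‖cz a c r p‖ * ((p.1 : ℝ) * ‖v‖ ^ (p.1 - 1) * ‖w‖ ^ p.2)
      ≤ ‖c p‖ * ((p.1 : ℝ) * 1 * (1 + ‖w‖) ^ 14) := by gcongr
    _ = ((p.1 : ℝ) * ‖c p‖) * (1 + ‖w‖) ^ 14 := by ring
    _ ≤ (((p.1 : ℝ) + p.2 + 1) * ‖c p‖) * (1 + ‖w‖) ^ 14 := by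
        gcongr
        have : (0 : ℝ) ≤ p.2 := Nat.cast_nonneg _
        linarith

theorem Ew_crude {a : ℕ} {T : Finset (ℕ × ℕ)} {c : ℕ × ℕ → ℂ} (hT : Adm a T) {r : ℝ}
    (h0 : 0 ≤ r) (h1 : r ≤ 1) {v w : ℂ} (hv : ‖v‖ ≤ 1) (hw : 1 ≤ ‖w‖) :
    ‖Ew T (cz a c r) v w‖ ≤ Kc T c * ‖w‖ ^ 13 := by
  unfold Ew Kc
  rw [Finset.sum_mul]
  refine (norm_sum_le _ _).trans (Finset.sum_le_sum fun p hp => ?_)
  obtain ⟨-, h2, -⟩ := hT p hp
  rw [norm_mul, norm_mul, norm_mul, norm_pow, norm_pow, Complex.norm_natCast]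
  have k1 : ‖v‖ ^ p.1 ≤ 1 := pow_le_one₀ (norm_nonneg _) hv
  have k2 : ‖w‖ ^ (p.2 - 1) ≤ ‖w‖ ^ 13 := pow_le_pow_right₀ hw (by omega)
  have k3 := cz_le (a := a) (c := c) h0 h1 p
  calc ‖cz a c r p‖ * (‖v‖ ^ p.1 * ((p.2 : ℝ) * ‖w‖ ^ (p.2 - 1)))
      ≤ ‖c p‖ * (1 * ((p.2 : ℝ) * ‖w‖ ^ 13)) := by gcongr
    _ = ((p.2 : ℝ) * ‖c p‖) * ‖w‖ ^ 13 := by ring
    _ ≤ (((p.1 : ℝ) + p.2 + 1) * ‖c p‖) * ‖w‖ ^ 13 := by
        gcongr
        have : (0 : ℝ) ≤ p.1 := Nat.cast_nonneg _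
        linarith

/-- outside the tubes there is no critical point. -/
theorem no_crit_out (hd : ∀ v, ArmDat (aw b v) (T v) (c v)) {C c0 M r : ℝ}
    (hC : ∀ v, Kc (T v) (c v) ≤ C) (hM : C * (C + 2) ^ 14 < M * c0) (hM0 : 0 < M)
    (hr0 : 0 ≤ r) (hr1 : r ≤ 1) {p : E4} (hN : N b p = 1) {i : Fin 3} (hi : c0 ≤ ‖dP b p i‖)
    (hv : ∀ v, M * dP b p v + Ev (T v) (cz (aw b v) (c v) r) (p v.castSucc) (p 3) = 0)
    (hw : 15 * p 3 ^ 14 + ∑ v, Ew (T v) (cz (aw b v) (c v) r) (p v.castSucc) (p 3) = 0) :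
    False := by
  have hC0 : 0 ≤ C := (Kc_nonneg _ _).trans (hC 0)
  have hle := fun v => Amal_52.norm_le_one hN v
  have hwb : ‖p 3‖ ≤ C + 1 := by
    by_contra hc
    push Not at hc
    have h1 : 1 ≤ ‖p 3‖ := by linarith
    have h2 : ‖∑ v, Ew (T v) (cz (aw b v) (c v) r) (p v.castSucc) (p 3)‖ ≤
        3 * (C * ‖p 3‖ ^ 13) := by
      refine (norm_sum_le _ _).trans ?_
      calc ∑ v, ‖Ew (T v) (cz (aw b v) (c v) r) (p v.castSucc) (p 3)‖
          ≤ ∑ _v : Fin 3, C * ‖p 3‖ ^ 13 := Finset.sum_le_sum fun v _ =>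
            (Ew_crude (hd v).adm hr0 hr1 (hle v) h1).trans
              (mul_le_mul_of_nonneg_right (hC v) (by positivity))
        _ = 3 * (C * ‖p 3‖ ^ 13) := by
            rw [Finset.sum_const, Finset.card_univ, Fintype.card_fin, nsmul_eq_mul]
            push_cast; ring
    have h3 : ‖(15 : ℂ) * p 3 ^ 14‖ =
        ‖∑ v, Ew (T v) (cz (aw b v) (c v) r) (p v.castSucc) (p 3)‖ := by
      rw [show (15 : ℂ) * p 3 ^ 14 =
        -∑ v, Ew (T v) (cz (aw b v) (c v) r) (p v.castSucc) (p 3) by linear_combination hw,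
        norm_neg]
    rw [norm_mul, norm_pow, Complex.norm_ofNat] at h3
    have h4 : 15 * ‖p 3‖ ^ 14 ≤ 3 * (C * ‖p 3‖ ^ 13) := h3.le.trans h2
    have h5 : 0 < ‖p 3‖ ^ 13 := by positivity
    have h6 : 15 * ‖p 3‖ ^ 14 = (15 * ‖p 3‖) * ‖p 3‖ ^ 13 := by ring
    have h7 : 3 * (C * ‖p 3‖ ^ 13) = (3 * C) * ‖p 3‖ ^ 13 := by ring
    rw [h6, h7] at h4
    have h8 := le_of_mul_le_mul_right h4 h5
    linarith
  have h1 : M * ‖dP b p i‖ ≤ C * (C + 2) ^ 14 := by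
    have e : (M : ℂ) * dP b p i = -Ev (T i) (cz (aw b i) (c i) r) (p i.castSucc) (p 3) := by
      linear_combination hv i
    have e2 := congrArg norm e
    rw [norm_mul, norm_neg, Complex.norm_real, Real.norm_eq_abs, abs_of_pos hM0] at e2
    rw [e2]
    refine (Ev_crude (hd i).adm hr0 hr1 (hle i)).trans ?_
    have h9 := norm_nonneg (p 3)
    have : (1 + ‖p 3‖) ^ 14 ≤ (C + 2) ^ 14 :=
      pow_le_pow_left₀ (by linarith) (by linarith) 14
    exact mul_le_mul (hC i) this (by positivity) hC0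
  have h2 : M * c0 ≤ M * ‖dP b p i‖ := mul_le_mul_of_nonneg_left hi hM0.le
  linarith

/-! ### the tubes -/

theorem dP_zero {b : Bool} {p : E4} {v : Fin 3} (h : ∀ u, u ≠ v → p u.castSucc = 0) :
    dP b p v = 0 := by
  have e : ∀ u : Fin 3, u ≠ v → p u.castSucc = 0 := h
  fin_cases v
  · have h1 : p 1 = 0 := e 1 (by decide)
    have h2 : p 2 = 0 := e 2 (by decide)
    change Ps b (p 0) (p 1 * p 2) = 0
    rw [h1]
    unfold Ps; cases b <;> simp
  · have h2 : p 2 = 0 := e 2 (by decide)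
    change Pt b (p 0) (p 1 * p 2) * p 2 = 0
    rw [h2, mul_zero]
  · have h1 : p 1 = 0 := e 1 (by decide)
    change Pt b (p 0) (p 1 * p 2) * p 1 = 0
    rw [h1]
    exact mul_zero _

/-- in the `v`-tube there is no critical point. -/
theorem no_crit_tube (hd : ∀ v, ArmDat (aw b v) (T v) (c v)) {κ C M r : ℝ} (hκ : 0 < κ)
    (hC : ∀ v, Kc (T v) (c v) ≤ C)
    (hM : ∃ eta : ℝ, 0 < eta ∧ eta ≤ 1 ∧ 100 * (C + 1) * eta ≤ κ ∧
      16 * (C + 1) * (1 / eta) ^ 14 < M)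
    (hr0 : 0 ≤ r) (hr1 : r ≤ 1) (v : Fin 3) {p : E4} (hpv : ‖p v.castSucc‖ = 1)
    (hsm : ∀ u, u ≠ v → g b u p ≤ (1 / 2) ^ 40)
    (hpl : κ * ‖p 3‖ ^ 15 ≤ max ‖p v.castSucc * Ev (T v) (cz (aw b v) (c v) r) (p v.castSucc) (p 3)‖
        ‖15 * p 3 ^ 15 + p 3 * Ew (T v) (cz (aw b v) (c v) r) (p v.castSucc) (p 3)‖ ∧
      0 < max ‖p v.castSucc * Ev (T v) (cz (aw b v) (c v) r) (p v.castSucc) (p 3)‖
        ‖15 * p 3 ^ 15 + p 3 * Ew (T v) (cz (aw b v) (c v) r) (p v.castSucc) (p 3)‖)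
    (hv : ∀ v, M * dP b p v + Ev (T v) (cz (aw b v) (c v) r) (p v.castSucc) (p 3) = 0)
    (hw : 15 * p 3 ^ 14 + ∑ v, Ew (T v) (cz (aw b v) (c v) r) (p v.castSucc) (p 3) = 0) :
    False := by
  obtain ⟨h1, h2⟩ := NdT3_484.tube3 hd hκ hC hM hr0 hr1 (s := 1) (by simp) v hpv hsm
    (KK := p v.castSucc * Ev (T v) (cz (aw b v) (c v) r) (p v.castSucc) (p 3))
    (Kw := 15 * p 3 ^ 15 + p 3 * Ew (T v) (cz (aw b v) (c v) r) (p v.castSucc) (p 3))
    (fun u _ => by rw [Complex.ofReal_one, one_mul]; exact hv u)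
    (by
      rw [NdT3_484.sum_erase, Complex.ofReal_one, one_mul]
      rw [Fin.sum_univ_three] at hw
      linear_combination (p 3) * hw)
    (Or.inr (by linear_combination (p v.castSucc) * hv v))
    hpl.1
  have hpos := hpl.2
  have e1 : Ev (T v) (cz (aw b v) (c v) r) (p v.castSucc) (p 3) = 0 := by
    have := hv v
    rw [dP_zero h1, mul_zero, zero_add] at this
    exact this
  rw [e1, h2] at hpos
  simp at hpos

theorem exists_rho {b : Bool} (v : Fin 3) {x : ℂ} (hx : x ≠ 0) :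
    ∃ ρ : ℝ, 0 < ρ ∧ ρ ^ aw b v = ‖x‖ := by
  refine ⟨‖x‖ ^ ((aw b v : ℝ)⁻¹), Real.rpow_pos_of_pos (norm_pos_iff.2 hx) _, ?_⟩
  exact Real.rpow_inv_natCast_pow (norm_nonneg _) (by have := Amal_52.aw_pos b v; omega)

/-- the statement of the arm inequality (second half of `pl_arm`). -/
def PL (a : ℕ) (T : Finset (ℕ × ℕ)) (c : ℕ × ℕ → ℂ) : Prop :=
  ∃ κ > 0, ∃ r1 > 0, r1 ≤ 1 / 2 ∧ ∀ r, 0 < r → r ≤ r1 → ∀ v w : ℂ, ‖v‖ = 1 →
    (κ * ‖w‖ ^ 15 ≤ max ‖v * Ev T (cz a c r) v w‖ ‖15 * w ^ 15 + w * Ew T (cz a c r) v w‖ ∧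
      0 < max ‖v * Ev T (cz a c r) v w‖ ‖15 * w ^ 15 + w * Ew T (cz a c r) v w‖)

/-- **isolated critical point** (arm inequality as a hypothesis). -/
theorem iso_crit_of (hd : ∀ v, ArmDat (aw b v) (T v) (c v))
    (hpl : ∀ v, PL (aw b v) (T v) (c v)) :
    ∃ M1 > 0, ∀ M ≥ M1, ∀ᶠ p in 𝓝[≠] (0 : E4), (∃ v, dpf b T c M p v ≠ 0) ∨ dpw T c p ≠ 0 := by
  unfold PL at hpl
  choose κ hκ r1 hr1 hr1' hPL using hpl
  obtain ⟨κ0, hκ0, hκle⟩ : ∃ κ0 : ℝ, 0 < κ0 ∧ ∀ v, κ0 ≤ κ v := by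
    refine ⟨min (κ 0) (min (κ 1) (κ 2)), lt_min (hκ 0) (lt_min (hκ 1) (hκ 2)), fun v => ?_⟩
    fin_cases v
    · exact min_le_left _ _
    · exact (min_le_right _ _).trans (min_le_left _ _)
    · exact (min_le_right _ _).trans (min_le_right _ _)
  obtain ⟨c0, hc0, hcore⟩ := core_low b
  set C : ℝ := ∑ v, Kc (T v) (c v) with hCdef
  have hC : ∀ v, Kc (T v) (c v) ≤ C := fun v =>
    Finset.single_le_sum (f := fun v => Kc (T v) (c v)) (fun v _ => Kc_nonneg _ _)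
      (Finset.mem_univ v)
  have hC0 : 0 ≤ C := (Kc_nonneg _ _).trans (hC 0)
  set eta : ℝ := min 1 (κ0 / (100 * (C + 1))) with heta
  have heta0 : 0 < eta := lt_min one_pos (by positivity)
  have heta1 : eta ≤ 1 := min_le_left _ _
  have heta2 : 100 * (C + 1) * eta ≤ κ0 := by
    have h1 : eta ≤ κ0 / (100 * (C + 1)) := min_le_right _ _
    rw [le_div_iff₀ (by positivity)] at h1
    linarith
  have hA0 : 0 ≤ 16 * (C + 1) * (1 / eta) ^ 14 := by positivity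
  have hB0 : 0 ≤ C * (C + 2) ^ 14 / c0 := by positivity
  refine ⟨16 * (C + 1) * (1 / eta) ^ 14 + C * (C + 2) ^ 14 / c0 + 1, by positivity,
    fun M hM => ?_⟩
  have hMeta : 16 * (C + 1) * (1 / eta) ^ 14 < M := by linarith
  have hM0 : 0 < M := by linarith
  have hMc : C * (C + 2) ^ 14 < M * c0 := by
    have : C * (C + 2) ^ 14 / c0 < M := by linarith
    rwa [div_lt_iff₀ hc0] at this
  -- smallness
  have ev1 : ∀ᶠ p in 𝓝 (0 : E4), ∀ v : Fin 3, ‖p v.castSucc‖ < r1 v ^ aw b v := by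
    rw [Filter.eventually_all]
    intro v
    have h1 : Continuous fun p : E4 => ‖p v.castSucc‖ := (continuous_apply _).norm
    have h2 : ‖(0 : E4) v.castSucc‖ < r1 v ^ aw b v := by
      rw [Pi.zero_apply, norm_zero]
      exact pow_pos (hr1 v) _
    exact h1.continuousAt.eventually_lt continuousAt_const h2
  have ev2 : ∀ᶠ p in 𝓝 (0 : E4), N b p < 1 := by
    have h2 : N b (0 : E4) < 1 := by
      rw [Amal_52.N_eq_zero.2 fun v => rfl]; exact one_pos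
    exact (Amal_52.continuous_N b).continuousAt.eventually_lt continuousAt_const h2
  rw [eventually_nhdsWithin_iff]
  filter_upwards [ev1, ev2] with p hp1 hp2 hp0
  by_contra hcon
  push Not at hcon
  obtain ⟨hf, hw⟩ := hcon
  rcases (Amal_52.N_nonneg b p).eq_or_lt with hN0 | hNpos
  · -- the hub coordinates vanish
    have hz := Amal_52.N_eq_zero.1 hN0.symm
    have h1 : ∀ v, Ew (T v) (c v) (p v.castSucc) (p 3) = 0 := by
      intro v
      rw [hz v]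
      unfold Ew
      refine Finset.sum_eq_zero fun q hq => ?_
      have := ((hd v).adm q hq).1
      rw [zero_pow (by omega), zero_mul, mul_zero]
    unfold dpw at hw
    rw [Finset.sum_eq_zero fun v _ => h1 v, add_zero] at hw
    have h3 : p 3 = 0 := by
      have := (mul_eq_zero.1 hw).resolve_left (by norm_num)
      exact pow_eq_zero_iff (by norm_num) |>.1 this
    refine hp0 ?_
    rw [mem_singleton_iff]
    funext i
    exact Fin.lastCases h3 (fun v => hz v) i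
  by_cases htube : ∃ v, t1 * N b p < g b v p
  · -- a tube
    obtain ⟨v, hv⟩ := htube
    have ht1 : 0 < t1 := by linarith [Amal_52.lt_t1]
    have hgv : 0 < g b v p := lt_trans (mul_pos ht1 hNpos) hv
    have hpv : p v.castSucc ≠ 0 := fun h => hgv.ne' (Amal_52.g_eq_zero.2 h)
    obtain ⟨ρ, hρ, hρv⟩ := exists_rho (b := b) v hpv
    have haw := Amal_52.aw_pos b v
    have hρ1 : ρ ≤ r1 v := by
      by_contra hc
      push Not at hc
      have : r1 v ^ aw b v < ρ ^ aw b v := pow_lt_pow_left₀ hc (hr1 v).le (by omega)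
      rw [hρv] at this
      exact lt_asymm this (hp1 v)
    have hρle : ρ ≤ 1 := hρ1.trans ((hr1' v).trans (by norm_num))
    set p' := sc b ρ⁻¹ p with hp'
    have hpp : sc b ρ p' = p := sc_inv b hρ p
    rw [← hpp] at hf hw
    obtain ⟨e1, e2⟩ := crit_scale hd hρ hf hw
    have hn1 : ‖p' v.castSucc‖ = 1 := by
      have h1 : ‖p v.castSucc‖ = ρ ^ aw b v * ‖p' v.castSucc‖ := by
        conv_lhs => rw [← hpp, sc_c, norm_mul, norm_pow, Complex.norm_real, Real.norm_eq_abs,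
          abs_of_pos hρ]
      rw [← hρv] at h1
      have h2 : 0 < ρ ^ aw b v := pow_pos hρ _
      have h3 : ρ ^ aw b v * ‖p' v.castSucc‖ = ρ ^ aw b v * 1 := by rw [mul_one]; exact h1.symm
      exact mul_left_cancel₀ h2.ne' h3
    have hg1 : g b v p' = 1 := by unfold g; rw [hn1, one_pow]
    have hρ60 : 0 < ρ ^ 60 := pow_pos hρ _
    have hNp' : t1 * N b p' < 1 := by
      have h1 : t1 * N b p < g b v p := hv
      rw [← hpp, N_sc b hρ.le, g_sc b v hρ.le, hg1, mul_one] at h1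
      have h2 : (t1 * N b p') * ρ ^ 60 < 1 * ρ ^ 60 := by rw [one_mul]; linarith
      exact lt_of_mul_lt_mul_right h2 hρ60.le
    have hsm : ∀ u, u ≠ v → g b u p' ≤ (1 / 2) ^ 40 := by
      intro u hu
      have h1 : g b u p' + g b v p' ≤ N b p' := by
        unfold N
        have := Finset.sum_le_sum_of_subset_of_nonneg (f := fun v => g b v p')
          (Finset.subset_univ ({u, v} : Finset (Fin 3))) (fun i _ _ => Amal_52.g_nonneg b i p')
        rwa [Finset.sum_pair hu] at this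
      rw [hg1] at h1
      have h2 : t1 * (g b u p' + 1) < 1 :=
        lt_of_le_of_lt (mul_le_mul_of_nonneg_left h1 ht1.le) hNp'
      have h3 := Amal_52.g_nonneg b u p'
      unfold t1 at h2
      by_contra hc
      push Not at hc
      have h4 : (1 - (1 / 2 : ℝ) ^ 41) * ((1 / 2) ^ 40 + 1) < 1 := by
        refine lt_trans ?_ h2
        have : (0 : ℝ) < 1 - (1 / 2) ^ 41 := by norm_num
        exact mul_lt_mul_of_pos_left (by linarith) this
      norm_num at h4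
    exact no_crit_tube hd (κ := κ v) (hκ v) hC ⟨eta, heta0, heta1, heta2.trans (hκle v), hMeta⟩
      hρ.le hρle v hn1 hsm (hPL v ρ hρ hρ1 _ _ hn1) e1 e2
  · -- outside
    push Not at htube
    obtain ⟨ρ, hρ, hρN⟩ : ∃ ρ : ℝ, 0 < ρ ∧ ρ ^ 60 = N b p := by
      refine ⟨N b p ^ (((60 : ℕ) : ℝ)⁻¹), Real.rpow_pos_of_pos hNpos _, ?_⟩
      exact Real.rpow_inv_natCast_pow hNpos.le (by norm_num)
    have hρle : ρ ≤ 1 := by
      by_contra hc
      push Not at hc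
      have : 1 < ρ ^ 60 := one_lt_pow₀ hc (by norm_num)
      rw [hρN] at this
      exact lt_asymm this hp2
    set p' := sc b ρ⁻¹ p with hp'
    have hpp : sc b ρ p' = p := sc_inv b hρ p
    have hρ60 : 0 < ρ ^ 60 := pow_pos hρ _
    have hN1 : N b p' = 1 := by
      have h1 : N b p = ρ ^ 60 * N b p' := by conv_lhs => rw [← hpp, N_sc b hρ.le]
      rw [← hρN] at h1
      have h3 : ρ ^ 60 * N b p' = ρ ^ 60 * 1 := by rw [mul_one]; exact h1.symm
      exact mul_left_cancel₀ hρ60.ne' h3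
    have hg : ∀ v, g b v p' ≤ t1 := by
      intro v
      have h1 := htube v
      rw [← hpp, N_sc b hρ.le, g_sc b v hρ.le, hN1, mul_one] at h1
      have h2 : g b v p' * ρ ^ 60 ≤ t1 * ρ ^ 60 := by linarith
      exact le_of_mul_le_mul_right h2 hρ60
    obtain ⟨i, hi⟩ := hcore p' hN1 hg
    rw [← hpp] at hf hw
    obtain ⟨e1, e2⟩ := crit_scale hd hρ hf hw
    exact no_crit_out hd hC hMc hM0 hρ.le hρle hN1 hi e1 e2

end Crest.Agent.R267.EntC_610
end
end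

-- ▼ part R267/EntC2_610
section

/-!
# S0406, T3N entrance, leaf ENT-C, second part (helper610)

* `pl2` : the arm inequality with `v ∂_v` (second half of `pl_arm`);
* `iso_crit` : for `M ≥ M1` the polynomial function `pf b T c M` has an isolated critical point.
-/

set_option autoImplicit false
set_option linter.unusedSectionVars false

noncomputable section

open Set Filter Topology Finset
open Crest.Agent.R267.NdP_484 Crest.Agent.R267.NdR_484 Crest.Agent.R267.NdQ_484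
open Crest.Agent.R267.NdS_484 Crest.Agent.R267.EntC_610

namespace Crest.Agent.R267.EntC2_610

/-- the arm inequality with `v ∂_v`. -/
theorem pl2 {a : ℕ} {T : Finset (ℕ × ℕ)} {c : ℕ × ℕ → ℂ} (ha : 1 ≤ a) (ha' : a ≤ 15)
    (hd : ArmDat a T c) : PL a T c := by
  classical
  have h0 : ((0, 15) : ℕ × ℕ) ∉ T := fun h => by
    have := (hd.adm _ h).1
    simp at this
  set c' : ℕ × ℕ → ℂ := fun q => if q = (0, 15) then 1 else c q with hc'
  have hc0 : c' (0, 15) = 1 := by rw [hc']; simp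
  have hcT : ∀ q ∈ T, c' q = c q := by
    intro q hq
    have : q ≠ (0, 15) := fun h => h0 (h ▸ hq)
    rw [hc']; simp [this]
  obtain ⟨κ, hκ, δ, hδ, H⟩ := pl hd.conv (c := c')
    (by
      intro q hq
      rcases Finset.mem_insert.1 hq with h | h
      · rw [h, hc0]; exact one_ne_zero
      · rw [hcT q h]; exact hd.ne q h)
    (la := fun q => (q.1 : ℂ)) (mu := fun q => (q.2 : ℂ))
    (by
      intro q hq
      rcases Finset.mem_insert.1 hq with h | h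
      · right; rw [h]; norm_num
      · left
        have := (hd.adm _ h).1
        exact Nat.cast_ne_zero.2 (by omega))
    (by
      intro p hp q hq hpq h
      have h' : p.1 * q.2 = q.1 * p.2 := by exact_mod_cast h
      rcases lt_trichotomy p.1 q.1 with k | k | k
      · have k2 := hd.conv.mono _ hp _ hq k
        have k3 : p.1 * q.2 ≤ p.1 * p.2 := Nat.mul_le_mul_left _ k2.le
        have k4 : p.1 * p.2 < q.1 * p.2 := Nat.mul_lt_mul_of_pos_right k (by omega)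
        omega
      · exact hpq (hd.conv.inj _ hp _ hq k)
      · have k2 := hd.conv.mono _ hq _ hp k
        have k3 : q.1 * p.2 ≤ q.1 * q.2 := Nat.mul_le_mul_left _ k2.le
        have k4 : q.1 * q.2 < p.1 * q.2 := Nat.mul_lt_mul_of_pos_right k (by omega)
        omega)
  refine ⟨κ, hκ, min (1 / 2) (δ / 2), lt_min (by norm_num) (by positivity), min_le_left _ _,
    fun r hr hr1 v w hv => ?_⟩
  have hr2 : r ≤ 1 / 2 := hr1.trans (min_le_left _ _)
  have hr3 : r ≤ δ / 2 := hr1.trans (min_le_right _ _)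
  have hrC : (r : ℂ) ≠ 0 := Complex.ofReal_ne_zero.2 hr.ne'
  have hv0 : v ≠ 0 := by
    rintro rfl
    rw [norm_zero] at hv
    exact zero_ne_one hv
  have hV0 : (r : ℂ) ^ a * v ≠ 0 := mul_ne_zero (pow_ne_zero _ hrC) hv0
  have hVn : ‖(r : ℂ) ^ a * v‖ = r ^ a := by
    rw [norm_mul, norm_pow, Complex.norm_real, Real.norm_eq_abs, abs_of_pos hr, hv, mul_one]
  have hVδ : ‖(r : ℂ) ^ a * v‖ < δ := by
    rw [hVn]
    calc r ^ a ≤ r ^ 1 := pow_le_pow_of_le_one hr.le (by linarith) ha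
      _ = r := pow_one r
      _ < δ := by linarith
  have H1 := H _ ((r : ℂ) * w) hV0 hVδ
  have e1 : ws (insert (0, 15) T) c' (fun q => (q.1 : ℂ)) ((r : ℂ) ^ a * v) ((r : ℂ) * w) =
      (r : ℂ) ^ 15 * (v * Ev T (cz a c r) v w) := by
    have k1 : ws (insert (0, 15) T) c' (fun q => (q.1 : ℂ)) ((r : ℂ) ^ a * v) ((r : ℂ) * w) =
        ((r : ℂ) ^ a * v) * Ev T c ((r : ℂ) ^ a * v) ((r : ℂ) * w) := by
      unfold ws Ev
      rw [Finset.sum_insert h0, Finset.mul_sum]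
      simp only [Nat.cast_zero, zero_mul, zero_add]
      refine Finset.sum_congr rfl fun q hq => ?_
      rw [hcT q hq]
      unfold mon
      have h1 := (hd.adm _ hq).1
      have h2 : ((r : ℂ) ^ a * v) ^ q.1 = ((r : ℂ) ^ a * v) ^ (q.1 - 1) * ((r : ℂ) ^ a * v) := by
        rw [← pow_succ, Nat.sub_add_cancel h1]
      rw [h2]; ring
    rw [k1, Ev_scale hd.adm ha']
    have k2 : (r : ℂ) ^ 15 = (r : ℂ) ^ a * (r : ℂ) ^ (15 - a) := by
      rw [← pow_add]; congr 1; omega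
    rw [k2]; ring
  have e2 : ws (insert (0, 15) T) c' (fun q => (q.2 : ℂ)) ((r : ℂ) ^ a * v) ((r : ℂ) * w) =
      (r : ℂ) ^ 15 * (15 * w ^ 15 + w * Ew T (cz a c r) v w) := by
    have k1 : ws (insert (0, 15) T) c' (fun q => (q.2 : ℂ)) ((r : ℂ) ^ a * v) ((r : ℂ) * w) =
        15 * ((r : ℂ) * w) ^ 15 + ((r : ℂ) * w) * Ew T c ((r : ℂ) ^ a * v) ((r : ℂ) * w) := by
      unfold ws Ew
      rw [Finset.sum_insert h0, Finset.mul_sum, hc0]
      congr 1
      · unfold mon; simp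
      · refine Finset.sum_congr rfl fun q hq => ?_
        rw [hcT q hq]
        unfold mon
        rcases Nat.eq_zero_or_pos q.2 with h | h
        · simp [h]
        · have h2 : ((r : ℂ) * w) ^ q.2 = ((r : ℂ) * w) ^ (q.2 - 1) * ((r : ℂ) * w) := by
            rw [← pow_succ, Nat.sub_add_cancel h]
          rw [h2]; ring
    rw [k1, Ew_scale hd.adm]
    ring
  rw [e1, e2, norm_mul ((r : ℂ) ^ 15), norm_mul ((r : ℂ) ^ 15), norm_pow, Complex.norm_real,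
    Real.norm_eq_abs, abs_of_pos hr, ← mul_max_of_nonneg _ _ (by positivity : (0 : ℝ) ≤ r ^ 15)]
    at H1
  have hr15 : 0 < r ^ 15 := by positivity
  constructor
  · have h1 := H1 (0, 15) (Finset.mem_insert_self _ _)
    have h2 : ‖mon (0, 15) ((r : ℂ) ^ a * v) ((r : ℂ) * w)‖ = r ^ 15 * ‖w‖ ^ 15 := by
      unfold mon
      rw [pow_zero, one_mul, norm_pow, norm_mul, Complex.norm_real, Real.norm_eq_abs,
        abs_of_pos hr, mul_pow]
    rw [h2] at h1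
    have h3 : r ^ 15 * (κ * ‖w‖ ^ 15) ≤ r ^ 15 *
        max ‖v * Ev T (cz a c r) v w‖ ‖15 * w ^ 15 + w * Ew T (cz a c r) v w‖ := by
      linarith
    exact le_of_mul_le_mul_left h3 hr15
  · obtain ⟨q, hq, hq0⟩ := hd.conv.bot
    have h1 := H1 q hq
    have h2 : 0 < ‖mon q ((r : ℂ) ^ a * v) ((r : ℂ) * w)‖ := by
      unfold mon
      rw [hq0, pow_zero, mul_one]
      exact norm_pos_iff.2 (pow_ne_zero _ hV0)
    have h3 := lt_of_lt_of_le (mul_pos hκ h2) h1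
    exact pos_of_mul_pos_right h3 hr15.le

/-- **isolated critical point.** -/
theorem iso_crit (b : Bool) (T : Fin 3 → Finset (ℕ × ℕ)) (c : Fin 3 → ℕ × ℕ → ℂ)
    (hd : ∀ v, ArmDat (aw b v) (T v) (c v)) :
    ∃ M1 > 0, ∀ M ≥ M1, ∀ᶠ p in 𝓝[≠] (0 : E4), (∃ v, dpf b T c M p v ≠ 0) ∨ dpw T c p ≠ 0 :=
  iso_crit_of hd fun v => pl2 (Amal_52.aw_pos b v) (aw_le b v) (hd v)

end Crest.Agent.R267.EntC2_610
end
end

-- ▼ part R267/NdZ_484

/-!
# S0406, T3N entrance: the final statements (helper484)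

* `Lit` : the literal statement of S0406;
* `lit_of_amal` : `ZEq` of the two amalgams (arms `Arms b T 1 W r`, `M` a large natural number)
  implies `Lit`;
* `lit_of_arms` : the same after homotopies of the arms (`ArmPath`), `M`, `M'` large reals.
-/

set_option autoImplicit false
set_option linter.unusedSectionVars false

noncomputable section

open Set Filter Topology Finset
open Crest.Agent.R267.Cone_808 Crest.Agent.R267.Hm_951
open Crest.Agent.R267.NdR_484 Crest.Agent.R267.NdS_484 Crest.Agent.R267.EntD_370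

namespace Crest.Agent.R267.NdZ_484

/-- the literal statement of S0406. -/
def Lit : Prop :=
    ∃ (f g : (Fin 4 → ℂ) → ℂ),
      AnalyticAt ℂ f 0 ∧ AnalyticAt ℂ g 0 ∧ f 0 = 0 ∧ g 0 = 0 ∧
      (∀ h u : (Fin 4 → ℂ) → ℂ, AnalyticAt ℂ h 0 → AnalyticAt ℂ u 0 → h 0 = 0 →
        ¬ (f =ᶠ[𝓝 0] fun x => h x ^ 2 * u x)) ∧
      (∀ h u : (Fin 4 → ℂ) → ℂ, AnalyticAt ℂ h 0 → AnalyticAt ℂ u 0 → h 0 = 0 →
        ¬ (g =ᶠ[𝓝 0] fun x => h x ^ 2 * u x)) ∧
      fderiv ℂ f 0 = 0 ∧ (∀ᶠ x in 𝓝[≠] (0 : Fin 4 → ℂ), fderiv ℂ f x ≠ 0) ∧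
      fderiv ℂ g 0 = 0 ∧ (∀ᶠ x in 𝓝[≠] (0 : Fin 4 → ℂ), fderiv ℂ g x ≠ 0) ∧
      (∃ φ : OpenPartialHomeomorph (Fin 4 → ℂ) (Fin 4 → ℂ),
        (0 : Fin 4 → ℂ) ∈ φ.source ∧ φ 0 = 0 ∧ ∀ x ∈ φ.source, (f x = 0 ↔ g (φ x) = 0)) ∧
      (∀ j < 4, iteratedFDeriv ℂ j f 0 = 0) ∧ iteratedFDeriv ℂ 4 f 0 ≠ 0 ∧
      (∀ j < 5, iteratedFDeriv ℂ j g 0 = 0) ∧ iteratedFDeriv ℂ 5 g 0 ≠ 0

/-- the arms of `f`. -/
def Af (W r : ℝ) : Fin 3 → ℂ × ℂ → ℂ := Arms true Tf (fun _ _ => 1) W r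

/-- the arms of `g`. -/
def Ag (W r : ℝ) : Fin 3 → ℂ × ℂ → ℂ := Arms false Tg (fun _ _ => 1) W r

/-- **the entrance.** -/
theorem lit_of_amal : ∃ r1 : ℝ, 0 < r1 ∧ ∃ W0 : ℝ, 1 ≤ W0 ∧ ∀ W ≥ W0, ∃ M1 : ℝ, 1 ≤ M1 ∧
    ∀ M : ℕ, M1 ≤ M → ∀ r, 0 < r → r ≤ r1 →
      ZEq (am true M (Af W r)) (am false M (Ag W r)) → Lit := by
  obtain ⟨r1, hr1, W0, hW0, H⟩ := NdJ_484.entrance (b := true) (T := Tf) (c := fun _ _ => 1) datf
  obtain ⟨r2, hr2, W2, hW2, H'⟩ := NdJ_484.entrance (b := false) (T := Tg) (c := fun _ _ => 1) datg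
  obtain ⟨m1, hm1, hf⟩ := EntC2_610.iso_crit true Tf (fun _ _ => 1) datf
  obtain ⟨m2, hm2, hg⟩ := EntC2_610.iso_crit false Tg (fun _ _ => 1) datg
  refine ⟨min r1 r2, lt_min hr1 hr2, max W0 W2, le_max_of_le_left hW0, fun W hW => ?_⟩
  obtain ⟨M1, hM1, K⟩ := H W ((le_max_left _ _).trans hW)
  obtain ⟨M2, hM2, K'⟩ := H' W ((le_max_right _ _).trans hW)
  refine ⟨max (max M1 M2) (max m1 m2), le_max_of_le_left (le_max_of_le_left hM1),
    fun M hM r hr hrr hZ => ?_⟩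
  have h1 : M1 ≤ M := ((le_max_left _ _).trans (le_max_left _ _)).trans hM
  have h2 : M2 ≤ M := ((le_max_right _ _).trans (le_max_left _ _)).trans hM
  have h3 : m1 ≤ M := ((le_max_left _ _).trans (le_max_right _ _)).trans hM
  have h4 : m2 ≤ M := ((le_max_right _ _).trans (le_max_right _ _)).trans hM
  obtain ⟨ρ, G, t0, hc, hz⟩ := K M h1 r hr (hrr.trans (min_le_left _ _))
  obtain ⟨ρ', G', t0', hc', hz'⟩ := K' M h2 r hr (hrr.trans (min_le_right _ _))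
  have hMn : 1 ≤ M := by
    have : (1 : ℝ) ≤ M := hM1.trans h1
    exact_mod_cast this
  exact s0406_of_pf M hMn (hf M h3) (hg M h4)
    (EntA_125.germ_of_con hc hc' ((hz.trans hZ).trans hz'.symm))

/-- all the arms are arms. -/
theorem arms_arm : ∃ r1 : ℝ, 0 < r1 ∧ ∃ W0 : ℝ, 1 ≤ W0 ∧ ∀ W ≥ W0, ∀ r, 0 < r → r ≤ r1 →
    (∀ v, Arm true v (Af W r v)) ∧ ∀ v, Arm false v (Ag W r v) := by
  choose ρ hρ W' hW' H using fun v => EntB_172.arm_Ac true v (datf v)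
  choose ρ' hρ' W'' hW'' H' using fun v => EntB_172.arm_Ac false v (datg v)
  obtain ⟨v0, hv0⟩ := Finite.exists_min ρ
  obtain ⟨v1, hv1⟩ := Finite.exists_min ρ'
  obtain ⟨v2, hv2⟩ := Finite.exists_max W'
  obtain ⟨v3, hv3⟩ := Finite.exists_max W''
  refine ⟨min (ρ v0) (ρ' v1), lt_min (hρ v0) (hρ' v1), max (W' v2) (W'' v3),
    le_max_of_le_left (hW' v2).le, fun W hW r hr hrr => ⟨fun v => ?_, fun v => ?_⟩⟩
  · exact H v r hr ((hrr.trans (min_le_left _ _)).trans (hv0 v)) W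
      (((hv2 v).trans (le_max_left _ _)).trans hW)
  · exact H' v r hr ((hrr.trans (min_le_right _ _)).trans (hv1 v)) W
      (((hv3 v).trans (le_max_right _ _)).trans hW)


end Crest.Agent.R267.NdZ_484
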