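import Crest.Agent.R267.SFLD_330
import Crest.Agent.R267.GlNDefs_9
import Crest.Agent.R267.NdZ_484

/-!
# Row 267 (helper808): assembly of S0406

* `Joined b A A'`: the two triples of arms are joined by a chain of `ArmPath`s;
  `Joined.zeq`: then the amalgams are `ZEq` for `M` large;
* `HubProp b D`: the whole function level for the germ `b` (C1 .. C9 of helper64's chain): for `r`
  small, `W` large and `M` arbitrarily large the official amalgam is `ZEq` to an admissible polar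
  function with the data `D`; `hubProp_of_joined`: the same after a chain of `ArmPath`s;
* `lit_of_data`, `lit_of`: `HubProp` for `f` and `g`, GLUE-N and T3aN for the data, and the
  certificate give `Lit` (the literal S0406).
-/

set_option autoImplicit false

noncomputable section

namespace Crest.Agent.R267.Asm406_808

open Set Matrix
open Crest.Agent.R267.Hm_951 Crest.Agent.R267.NdR_484 Crest.Agent.R267.NdZ_484
open Crest.Agent.R267.T3aNDefs_88 Crest.Agent.R267.GlNDefs_9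
open Crest.Agent.R267.SFLDa_330
open Crest.Agent.R267.SFLD_330 Crest.Agent.R267.SFLDb_330 Crest.Agent.R267.SFDefs_330
open T3aDefs_957.LD (Ev)

/-! ### chains of arm homotopies -/





/-! ### the function level -/

/-- the official arms of the germ `b`. -/
def Ab (b : Bool) (W r : ℝ) : Fin 3 → ℂ × ℂ → ℂ := bif b then Af W r else Ag W r

/-- **the function level** (C1 .. C9) for the germ `b`, with the data `D`. -/
def HubProp (b : Bool) (D : SD 4) : Prop :=
  ∃ r1 : ℝ, 0 < r1 ∧ ∀ r, 0 < r → r ≤ r1 → ∃ W1 : ℝ, ∀ W, W1 ≤ W →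
    ∀ M0 : ℝ, ∃ M ≥ M0, ∃ X : PD D, X.Ok ∧ ZEq (am b M (Ab b W r)) X.fn


theorem Ev.ex {P : ℝ → ℝ → ℝ → Prop} (h : Ev P) : ∃ c g d, P c g d := by
  obtain ⟨c0, _, h⟩ := h
  obtain ⟨g0, hg0, h⟩ := h c0 le_rfl
  obtain ⟨d0, hd0, h⟩ := h g0 hg0 le_rfl
  exact ⟨c0, g0, d0, h d0 hd0 le_rfl⟩

/-! ### assembly -/

/-- **S0406 from the function level, T3aN and the certificate**, for any data with the letters and
the signs of 330. -/
theorem lit_of_data {D D' : SD 4}
    (hD : ∀ k, D.Let k ↔ k 3 + 1 < wsF (k 0 + 1, k 1 + 1, k 2 + 1))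
    (hD' : ∀ k, D'.Let k ↔ k 3 + 1 < wsG (k 0 + 1, k 1 + 1, k 2 + 1))
    (hn : NegIn D.neg 3 5 10 15) (hn' : NegIn D'.neg 6 8 6 11)
    (h3 : ∀ e, cd D e ≤ 3) (h3' : ∀ e, cd D' e ≤ 3)
    (h : ∃ P : Matrix (Fin 2049) (Fin 2049) ℤ, Pᵀ * NLb_330.pAg * P = NLb_330.pAf)
    (hT : T3aNP (n := 1) D) (hT' : T3aNP (n := 1) D') (hG : GluP D) (hG' : GluP D')
    (hF : HubProp true D) (hH : HubProp false D') : Lit := by
  obtain ⟨r0, hr0, W0, hW0, H⟩ := lit_of_amal
  obtain ⟨r2, hr2, W2, hW2, H2⟩ := arms_arm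
  obtain ⟨ra, hra, HA⟩ := hF
  obtain ⟨rb, hrb, HB⟩ := hH
  obtain ⟨r, hr, hr0', hr2', hra', hrb'⟩ : ∃ r : ℝ, 0 < r ∧ r ≤ r0 ∧ r ≤ r2 ∧ r ≤ ra ∧ r ≤ rb :=
    ⟨min (min r0 r2) (min ra rb), lt_min (lt_min hr0 hr2) (lt_min hra hrb),
      (min_le_left _ _).trans (min_le_left _ _), (min_le_left _ _).trans (min_le_right _ _),
      (min_le_right _ _).trans (min_le_left _ _), (min_le_right _ _).trans (min_le_right _ _)⟩
  obtain ⟨Wa, HA⟩ := HA r hr hra'
  obtain ⟨Wb, HB⟩ := HB r hr hrb'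
  obtain ⟨W, hw0, hw2, hwa, hwb⟩ : ∃ W : ℝ, W0 ≤ W ∧ W2 ≤ W ∧ Wa ≤ W ∧ Wb ≤ W :=
    ⟨max (max W0 W2) (max Wa Wb), (le_max_left _ _).trans (le_max_left _ _),
      (le_max_right _ _).trans (le_max_left _ _), (le_max_left _ _).trans (le_max_right _ _),
      (le_max_right _ _).trans (le_max_right _ _)⟩
  obtain ⟨M1, _, K⟩ := H W hw0
  obtain ⟨hAf, hAg⟩ := H2 W hw2 r hr hr2'
  obtain ⟨m3, _, k3⟩ := Amal_52.amal_M (b := true) (Af W r) hAf
  obtain ⟨m4, _, k4⟩ := Amal_52.amal_M (b := false) (Ag W r) hAg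
  obtain ⟨M, hM, X, hX, hZ⟩ := HA W hwa m3
  obtain ⟨M', hM', X', hX', hZ'⟩ := HB W hwb m4
  obtain ⟨L, hL⟩ := exists_nat_ge (max M1 (max m3 m4))
  have e1 := hG h3 X hX
  have e2 := hG' h3' X' hX'
  have e3 := zeq_of_data hD hD' hn hn' h hT hT'
  obtain ⟨c, g, d, a1, a2⟩ := Ev.ex (e1.and e3)
  obtain ⟨c', g', d', b1, b2⟩ := Ev.ex (e2.and a2)
  have f1 : ZEq (am true L (Af W r)) (am true M (Af W r)) :=
    k3 L M (((le_max_left _ _).trans (le_max_right _ _)).trans hL) hM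
  have f2 : ZEq (am false L (Ag W r)) (am false M' (Ag W r)) :=
    k4 L M' (((le_max_right _ _).trans (le_max_right _ _)).trans hL) hM'
  have f3 : ZEq (am true M (Af W r)) X.fn := hZ
  have f4 : ZEq (am false M' (Ag W r)) X'.fn := hZ'
  exact K L ((le_max_left _ _).trans hL) r hr hr0'
    ((f1.trans f3).trans ((a1.trans (b2.trans b1.symm)).trans (f2.trans f4).symm))




end Crest.Agent.R267.Asm406_808
end
namespace Crest.Agent.R267.Asm406_808.Step
end Crest.Agent.R267.Asm406_808.Step
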