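import Crest.Agent.R267.Carve_363
import Crest.Agent.R267.Smooth_957
import Crest.Agent.R267.EndH_864

-- ▼ part R267/Carve2_363
section

/-!
# Row 267 (helper363): the carve with plate and tubes, abstract data
-/

set_option autoImplicit false
set_option linter.unusedSectionVars false
set_option linter.unusedVariables false

noncomputable section

open Set Filter Topology Metric
open scoped NNReal ContDiff InnerProductSpace
open Crest.Agent.R267.Cone_808 Crest.Agent.R267.SphReg_808 Crest.Agent.R267.Hm_951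
open Crest.Agent.R267.FlowLine_363 Crest.Agent.R267.Carve_363
open Crest.Agent.R267.GS_808 Crest.Agent.R267.EndDef_864
open Crest.Agent.R267.T3aDefs_957.LD (vt vs)

namespace Crest.Agent.R267.Carve2_363

variable {n m : ℕ}

/-- real parts as a vector of `W n` -/
def sv : (Fin (n + 3) → ℂ) →L[ℝ] W n :=
  ((PiLp.continuousLinearEquiv 2 ℝ fun _ : Fin (n + 3) => ℝ).symm :
    (Fin (n + 3) → ℝ) →L[ℝ] W n).comp
    (ContinuousLinearMap.pi fun j => Complex.reCLM.comp (ContinuousLinearMap.proj j))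

/-- imaginary parts as a vector of `W n` -/
def tv : (Fin (n + 3) → ℂ) →L[ℝ] W n :=
  ((PiLp.continuousLinearEquiv 2 ℝ fun _ : Fin (n + 3) => ℝ).symm :
    (Fin (n + 3) → ℝ) →L[ℝ] W n).comp
    (ContinuousLinearMap.pi fun j => Complex.imCLM.comp (ContinuousLinearMap.proj j))

@[simp] theorem sv_apply (x : Fin (n + 3) → ℂ) (j : Fin (n + 3)) : sv x j = (x j).re := rfl

@[simp] theorem tv_apply (x : Fin (n + 3) → ℂ) (j : Fin (n + 3)) : tv x j = (x j).im := rfl

/-- `(1, …, 1)` -/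
def one (n : ℕ) : W n := vec fun _ => 1

@[simp] theorem one_apply (j : Fin (n + 3)) : one n j = 1 := rfl

theorem norm_sv (x : Fin (n + 3) → ℂ) : ‖sv x‖ ^ 2 = S2 x := by
  rw [norm_sq_def]; rfl

theorem norm_tv (x : Fin (n + 3) → ℂ) : nsq x = ‖sv x‖ ^ 2 + ‖tv x‖ ^ 2 := by
  rw [norm_sq_def, norm_sq_def, nsq, ← Finset.sum_add_distrib]
  refine Finset.sum_congr rfl fun j _ => ?_
  rw [← Complex.normSq_eq_norm_sq, Complex.normSq_apply, sv_apply, tv_apply]
  ring

theorem eq_zero_iff {x : Fin (n + 3) → ℂ} : x = 0 ↔ sv x = 0 ∧ tv x = 0 := by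
  constructor
  · rintro rfl
    exact ⟨map_zero _, map_zero _⟩
  · rintro ⟨h1, h2⟩
    funext j
    apply Complex.ext
    · exact congrArg (fun v : W n => v j) h1
    · exact congrArg (fun v : W n => v j) h2

@[simp] theorem sv_vs (b : ℝ) (Y : Fin (n + 3) → ℝ) : sv (vs b Y) = -b • one n := by
  ext j
  simp [vs]

@[simp] theorem tv_vs (b : ℝ) (Y : Fin (n + 3) → ℝ) : tv (vs b Y) = vec Y := by
  ext j
  simp [vs]

@[simp] theorem sv_vt (Y : Fin (n + 3) → ℝ) : sv (vt Y) = 0 := by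
  ext j
  simp [vt]

@[simp] theorem tv_vt (Y : Fin (n + 3) → ℝ) : tv (vt Y) = vec Y := by
  ext j
  simp [vt]

theorem vs_add (b : ℝ) (Y Z : Fin (n + 3) → ℝ) : vs b (Y + Z) = vs b Y + vt Z := by
  funext j
  simp only [vs, vt, Pi.add_apply]
  push_cast
  ring

theorem vt_smul (c : ℝ) (Z : Fin (n + 3) → ℝ) : vt (c • Z) = c • vt Z := by
  funext j
  simp only [vt, Pi.smul_apply, smul_eq_mul, Complex.real_smul]
  push_cast
  ring

theorem vs_smul (c b : ℝ) (Y : Fin (n + 3) → ℝ) : vs (c * b) (c • Y) = c • vs b Y := by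
  funext j
  simp only [vs, Pi.smul_apply, smul_eq_mul, Complex.real_smul]
  push_cast
  ring

theorem norm_vs_le (Y : Fin (n + 3) → ℝ) : ‖vs 1 Y‖ ≤ 1 + ‖Y‖ := by
  rw [pi_norm_le_iff_of_nonneg (by positivity)]
  intro j
  unfold vs
  refine (norm_add_le _ _).trans ?_
  rw [norm_neg, norm_mul, Complex.norm_I, one_mul, Complex.norm_real, Complex.norm_real,
    norm_one]
  exact add_le_add le_rfl (norm_le_pi_norm Y j)

theorem hor_add' (v w : W n) : hor (v + w) = hor v + hor w := by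
  unfold hor
  rw [inner_add_right, add_smul]
  abel

theorem hor_smul' (c : ℝ) (v : W n) : hor (c • v) = c • hor v := by
  unfold hor
  rw [inner_smul_right, smul_sub, smul_smul]

theorem continuous_hor' : Continuous (hor : W n → W n) := by
  unfold hor
  fun_prop

/-! ### cones -/

theorem cone_lower {f g : W n → ℝ} (cf : ContinuousOn f {0}ᶜ)
    (hf : ∀ (c : ℝ) s, 0 < c → f (c • s) = c * f s) (cg : ContinuousOn g {0}ᶜ)
    (hg : ∀ (c : ℝ) s, 0 < c → g (c • s) = c * g s) (pos : ∀ s, s ≠ 0 → g s ≤ 0 → 0 < f s) :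
    ∃ c > 0, ∀ s, s ≠ 0 → g s ≤ 0 → c * ‖s‖ ≤ f s := by
  have hsub : sphere (0 : W n) 1 ⊆ {0}ᶜ := by
    intro s hs h
    rw [mem_singleton_iff] at h
    rw [h, mem_sphere_iff_norm, sub_zero, norm_zero] at hs
    exact zero_ne_one hs
  have hne : (sphere (0 : W n) 1).Nonempty := ⟨u1 n, by
    rw [mem_sphere_iff_norm, sub_zero, norm_u1]⟩
  obtain ⟨s₀, hs₀, hmin⟩ := (isCompact_sphere (0 : W n) 1).exists_isMinOn hne
    ((cf.sup cg).mono hsub)
  have hp : 0 < max (f s₀) (g s₀) := by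
    by_contra h
    push Not at h
    have h1 := (le_max_left _ _).trans h
    exact absurd (pos s₀ (hsub hs₀) ((le_max_right _ _).trans h)) (not_lt.2 h1)
  refine ⟨_, hp, fun s hs h => ?_⟩
  have h2 : 0 < ‖s‖ := norm_pos_iff.2 hs
  have h3 : ‖s‖⁻¹ • s ∈ sphere (0 : W n) 1 := by
    rw [mem_sphere_iff_norm, sub_zero, norm_smul, norm_inv, norm_norm, inv_mul_cancel₀ h2.ne']
  have h4 : max (f s₀) (g s₀) ≤ max (f (‖s‖⁻¹ • s)) (g (‖s‖⁻¹ • s)) := hmin h3
  rw [hf _ _ (inv_pos.2 h2), hg _ _ (inv_pos.2 h2)] at h4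
  have h5 : ‖s‖⁻¹ * g s ≤ 0 := mul_nonpos_of_nonneg_of_nonpos (inv_pos.2 h2).le h
  rcases le_max_iff.1 h4 with h6 | h6
  · rw [mul_comm, ← le_div_iff₀' h2, div_eq_inv_mul]
    exact h6
  · exact absurd (hp.trans_le (h6.trans h5)) (lt_irrefl _)

theorem cone_upper {f : W n → ℝ} (cf : ContinuousOn f {0}ᶜ)
    (hf : ∀ (c : ℝ) s, 0 < c → f (c • s) = c * f s) :
    ∃ c > 0, ∀ s, s ≠ 0 → f s ≤ c * ‖s‖ := by
  obtain ⟨M, hM⟩ := (isCompact_sphere (0 : W n) 1).exists_bound_of_continuousOn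
    (f := f) (cf.mono fun y hy h => by
      rw [mem_singleton_iff] at h
      rw [h, mem_sphere_iff_norm, sub_zero, norm_zero] at hy
      exact zero_ne_one hy)
  refine ⟨|M| + 1, by positivity, fun s hs => ?_⟩
  have h2 : 0 < ‖s‖ := norm_pos_iff.2 hs
  have h3 := hM (‖s‖⁻¹ • s) (by
    rw [mem_sphere_iff_norm, sub_zero, norm_smul, norm_inv, norm_norm, inv_mul_cancel₀ h2.ne'])
  rw [hf _ _ (inv_pos.2 h2), norm_mul, norm_inv, norm_norm, inv_mul_le_iff₀ h2] at h3
  have h4 := le_abs_self (f s)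
  have h5 := le_abs_self M
  rw [Real.norm_eq_abs] at h3
  nlinarith

/-! ### derivatives along lines -/

theorem line_fderiv {f : (Fin (n + 3) → ℂ) → ℝ} {x y : Fin (n + 3) → ℂ} {d : ℝ}
    (hf : DifferentiableAt ℝ f x) (h : HasDerivAt (fun h : ℝ => f (x + h • y)) d 0) :
    fderiv ℝ f x y = d := by
  have h6 : HasFDerivAt f (fderiv ℝ f x) (x + (0 : ℝ) • y) := by
    rw [zero_smul, add_zero]
    exact hf.hasFDerivAt
  have h7 : HasDerivAt (fun τ : ℝ => x + τ • y) y 0 := by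
    simpa using ((hasDerivAt_id (0 : ℝ)).smul_const y).const_add x
  exact (h6.comp_hasDerivAt 0 h7).unique h

theorem hasDerivAt_norm_line {u v : W n} (hu : u ≠ 0) :
    HasDerivAt (fun h : ℝ => ‖u + h • v‖) (⟪u, v⟫_ℝ / ‖u‖) 0 := by
  have hu' : 0 < ‖u‖ := norm_pos_iff.2 hu
  have h1 : (fun h : ℝ => ‖u + h • v‖) =
      fun h => √(‖u‖ ^ 2 + h * (2 * ⟪u, v⟫_ℝ) + h ^ 2 * ‖v‖ ^ 2) := by
    funext h
    rw [← Real.sqrt_sq (norm_nonneg (u + h • v)), norm_add_sq_real, inner_smul_right, norm_smul,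
      mul_pow, Real.norm_eq_abs, sq_abs]
    congr 1
    ring
  rw [h1]
  have h2 : HasDerivAt (fun h : ℝ => ‖u‖ ^ 2 + h * (2 * ⟪u, v⟫_ℝ) + h ^ 2 * ‖v‖ ^ 2)
      (2 * ⟪u, v⟫_ℝ) 0 := by
    have h3 := ((hasDerivAt_id (0 : ℝ)).mul_const (2 * ⟪u, v⟫_ℝ)).const_add (‖u‖ ^ 2)
    have h4 := ((hasDerivAt_id (0 : ℝ)).fun_pow 2).mul_const (‖v‖ ^ 2)
    have h5 := h3.fun_add h4
    simpa using h5
  have h3 := h2.sqrt (by simp [hu'.ne'])
  have e : 2 * ⟪u, v⟫_ℝ / (2 * √(‖u‖ ^ 2 + 0 * (2 * ⟪u, v⟫_ℝ) + 0 ^ 2 * ‖v‖ ^ 2)) =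
      ⟪u, v⟫_ℝ / ‖u‖ := by
    have : ‖u‖ ^ 2 + 0 * (2 * ⟪u, v⟫_ℝ) + 0 ^ 2 * ‖v‖ ^ 2 = ‖u‖ ^ 2 := by ring
    rw [this, Real.sqrt_sq hu'.le]
    field_simp
  rw [e] at h3
  exact h3

/-! ### the data -/

/-- carve data: the function `G`, the gauge `ψ`, the tubes and the plate -/
structure CD (n m : ℕ) where
  G : (Fin (n + 3) → ℂ) → ℂ
  ψ : (Fin (n + 3) → ℂ) → ℝ
  eta : Fin m → W n → W n
  A : W n → W n → W n
  nrm : Fin m → W n → W n
  a00 : W n → ℝ
  ww : W n → W n → ℝ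
  κ2 : ℝ
  r2 : ℝ
  r3 : ℝ
  lA : ℝ
  c1 : ℝ
  sm : ContDiffOn ℝ 2 G {0}ᶜ
  hom : ∀ (r : ℝ) x, 0 < r → G (r • x) = r • G x
  S0 : ∀ x : Fin (n + 3) → ℂ, (∀ j, (x j).re = 0) → (G x).re = 0
  K1 : ∀ x, x ≠ 0 → (G x).im = 0 → 0 ≤ (G x).re →
    ∃ V : Fin (n + 3) → ℝ, (fderiv ℝ G x (vt V)).im ≠ 0
  K2 : ∀ x, x ≠ 0 → G x = 0 → ∃ (b : ℝ) (Y : Fin (n + 3) → ℝ), 0 ≤ b ∧
    (fderiv ℝ G x (vs b Y)).im = 0 ∧ 0 < (fderiv ℝ G x (vs b Y)).re
  c00 : ∀ h : ℝ, (G (vt fun _ => h)).im = 0 → h = 0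
  sψ : ContDiffOn ℝ 1 ψ {0}ᶜ
  ψ0 : ∀ x, x ≠ 0 → 0 < ψ x
  hψ : ∀ (r : ℝ) x, 0 < r → ψ (r • x) = r * ψ x
  low : ∀ x, sv x ≠ 0 → 0 ≤ a00 (sv x) → 0 < (G x).re
  hr2 : 0 < r2
  tube : ∀ k x, sv x ≠ 0 → ‖tv x - eta k (sv x)‖ ≤ r2 * ‖sv x‖ →
    (G x).im = ⟪nrm k (sv x), tv x - eta k (sv x)⟫_ℝ ∧ 0 < (G x).re
  hr3 : 0 < r3
  R4 : ∀ (l : ℝ) x, 0 < l → sv x = l • one n → (G x).im = 0 → 0 ≤ (G x).re →
    ∃ (k : Fin m) (Y : Fin (n + 3) → ℝ), (fderiv ℝ G x (vt Y)).im = 0 ∧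
      (fderiv ℝ G x (vt Y)).re ≤ 0 ∧ ((G x).re = 0 → (fderiv ℝ G x (vt Y)).re < 0) ∧
      (tv x ≠ eta k (sv x) → 0 < fderiv ℝ ψ x (vt Y) ∧ 0 < ⟪tv x - eta k (sv x), vec Y⟫_ℝ) ∧
      ∀ k', k' ≠ k → r3 * ‖sv x‖ ≤ ‖tv x - eta k' (sv x)‖
  ceta : ∀ k, ContDiffOn ℝ 1 (eta k) {0}ᶜ
  heta : ∀ k (c : ℝ) s, 0 < c → eta k (c • s) = c • eta k s
  cA : ∀ s v, s ≠ 0 → ContDiffAt ℝ 1 (fun p : W n × W n => A p.1 p.2) (s, v)
  hA : ∀ (c : ℝ) s v, 0 < c → A (c • s) v = A s v
  Aadd : ∀ s v w, A s (v + w) = A s v + A s w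
  Asmul : ∀ s (c : ℝ) v, A s (c • v) = c • A s v
  hlA : 0 < lA
  Alow : ∀ s v, lA * ‖v‖ ≤ ‖A s v‖
  A1 : ∀ (l : ℝ) v, 0 < l → A (l • one n) v = v
  ca00 : ContDiffOn ℝ 1 a00 {0}ᶜ
  h00 : ∀ (c : ℝ) s, 0 < c → a00 (c • s) = c * a00 s
  hc1 : 0 < c1
  m00 : ∀ s, s ≠ 0 → 0 ≤ a00 s → c1 ≤ fderiv ℝ a00 s (-one n)
  neg1 : 0 < a00 (-one n)
  pos1 : a00 (one n) < 0
  ww_nonneg : ∀ s t, 0 ≤ ww s t
  hww : ∀ (c : ℝ) s t, 0 < c → ww (c • s) (c • t) = c * ww s t
  cww : ∀ s t, s ≠ 0 → ContDiffAt ℝ 1 (fun p : W n × W n => ww p.1 p.2) (s, t)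
  lww : ∃ C : ℝ, ∀ p p' : W n × W n, |ww p.1 p.2 - ww p'.1 p'.2| ≤ C * ‖p - p'‖
  ww_c : Continuous fun p : W n × W n => ww p.1 p.2
  ww_zero : ∀ s t, ‖hor t‖ ≤ κ2 * ‖s‖ → ww s t = 0
  ww_pos : ∀ t, hor t ≠ 0 → 0 < ww 0 t
  T1 : ∀ k s, s ≠ 0 → ‖hor (eta k s)‖ < κ2 * ‖s‖
  dis : ∀ s, s ≠ 0 → a00 s ≤ 0 → ∀ k l, k ≠ l → eta k s ≠ eta l s

namespace CD

variable (P : CD n m)

/-- plate function -/
def a0 (ε : ℝ) (x : Fin (n + 3) → ℂ) : ℝ := P.a00 (sv x) - ε * P.ww (sv x) (tv x)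

/-- tube function -/
def ak (r : ℝ) (k : Fin m) (x : Fin (n + 3) → ℂ) : ℝ :=
  r * ‖sv x‖ - ‖P.A (sv x) (tv x - P.eta k (sv x))‖

/-- continuous tube function -/
def bk (r : ℝ) (k : Fin m) (x : Fin (n + 3) → ℂ) : ℝ := max (P.ak r k x) (-(P.lA / 4 * √(nsq x)))

/-- all functions -/
def af (r ε : ℝ) (i : Option (Fin m)) : (Fin (n + 3) → ℂ) → ℝ :=
  match i with
  | none => P.a0 ε
  | some k => P.bk r k


theorem a00_zero : P.a00 0 = 0 := by
  have := P.h00 2 0 two_pos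
  rw [smul_zero] at this
  linarith

theorem eta_zero (k : Fin m) : P.eta k 0 = 0 := by
  have h := P.heta k 2 0 two_pos
  rw [smul_zero, two_smul] at h
  exact left_eq_add.1 h

theorem exists_Ceta : ∃ C > 0, ∀ k s, ‖P.eta k s‖ ≤ C * ‖s‖ := by
  have h : ∀ k, ∃ C > 0, ∀ s, s ≠ 0 → ‖P.eta k s‖ ≤ C * ‖s‖ := fun k =>
    cone_upper (f := fun s => ‖P.eta k s‖) (P.ceta k).continuousOn.norm fun c s hc => by
      rw [P.heta k c s hc, norm_smul, Real.norm_of_nonneg hc.le]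
  choose C hC hC' using h
  refine ⟨1 + ∑ k, C k, by
    have : 0 ≤ ∑ k, C k := Finset.sum_nonneg fun k _ => (hC k).le
    linarith, fun k s => ?_⟩
  by_cases hs : s = 0
  · rw [hs, P.eta_zero, norm_zero, mul_zero]
  · refine (hC' k s hs).trans ?_
    have h1 : C k ≤ ∑ k, C k := Finset.single_le_sum (fun k _ => (hC k).le) (Finset.mem_univ k)
    exact mul_le_mul_of_nonneg_right (by linarith) (norm_nonneg _)

/-! ### regularity of the functions -/

theorem contDiffAt_ak {r : ℝ} {k : Fin m} {x : Fin (n + 3) → ℂ} (hs : sv x ≠ 0)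
    (h : P.A (sv x) (tv x - P.eta k (sv x)) ≠ 0) : ContDiffAt ℝ 1 (P.ak r k) x := by
  have hn : ({0}ᶜ : Set (W n)) ∈ 𝓝 (sv x) := isOpen_compl_singleton.mem_nhds hs
  have h1 : ContDiffAt ℝ 1 (fun x : Fin (n + 3) → ℂ => P.eta k (sv x)) x :=
    ((P.ceta k).contDiffAt hn).comp x sv.contDiff.contDiffAt
  have h2 : ContDiffAt ℝ 1 (fun x : Fin (n + 3) → ℂ => P.A (sv x) (tv x - P.eta k (sv x))) x :=
    ContDiffAt.comp (g := fun p : W n × W n => P.A p.1 p.2)
      (f := fun x : Fin (n + 3) → ℂ => (sv x, tv x - P.eta k (sv x))) x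
      (P.cA _ _ hs) (sv.contDiff.contDiffAt.prodMk (tv.contDiff.contDiffAt.sub h1))
  unfold ak
  exact (contDiffAt_const.mul (sv.contDiff.contDiffAt.norm ℝ hs)).sub (h2.norm ℝ h)

theorem continuousAt_ak {r : ℝ} {k : Fin m} {x : Fin (n + 3) → ℂ} (hs : sv x ≠ 0) :
    ContinuousAt (P.ak r k) x := by
  have hn : ({0}ᶜ : Set (W n)) ∈ 𝓝 (sv x) := isOpen_compl_singleton.mem_nhds hs
  have h1 : ContinuousAt (fun x : Fin (n + 3) → ℂ => P.eta k (sv x)) x :=
    ContinuousAt.comp (g := P.eta k) ((P.ceta k).contDiffAt hn).continuousAt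
      sv.continuous.continuousAt
  have h2 : ContinuousAt (fun x : Fin (n + 3) → ℂ => P.A (sv x) (tv x - P.eta k (sv x))) x :=
    ContinuousAt.comp (g := fun p : W n × W n => P.A p.1 p.2)
      (f := fun x : Fin (n + 3) → ℂ => (sv x, tv x - P.eta k (sv x)))
      (P.cA _ _ hs).continuousAt
      (sv.continuous.continuousAt.prodMk (tv.continuous.continuousAt.sub h1))
  unfold ak
  exact (continuousAt_const.mul sv.continuous.continuousAt.norm).sub h2.norm

theorem contDiffAt_a0 {ε : ℝ} {x : Fin (n + 3) → ℂ} (hs : sv x ≠ 0) :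
    ContDiffAt ℝ 1 (P.a0 ε) x := by
  have hn : ({0}ᶜ : Set (W n)) ∈ 𝓝 (sv x) := isOpen_compl_singleton.mem_nhds hs
  have h1 : ContDiffAt ℝ 1 (fun x : Fin (n + 3) → ℂ => P.a00 (sv x)) x :=
    (P.ca00.contDiffAt hn).comp x sv.contDiff.contDiffAt
  have h2 : ContDiffAt ℝ 1 (fun x : Fin (n + 3) → ℂ => P.ww (sv x) (tv x)) x :=
    ContDiffAt.comp (g := fun p : W n × W n => P.ww p.1 p.2)
      (f := fun x : Fin (n + 3) → ℂ => (sv x, tv x)) x
      (P.cww _ _ hs) (sv.contDiff.contDiffAt.prodMk tv.contDiff.contDiffAt)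
  exact h1.sub (contDiffAt_const.mul h2)

theorem continuous_a00 : Continuous P.a00 := by
  rw [continuous_iff_continuousAt]
  intro s
  by_cases hs : s = 0
  · obtain ⟨C, hC, h1⟩ := cone_upper P.ca00.continuousOn P.h00
    obtain ⟨C', hC', h2⟩ := cone_upper (f := fun s => -P.a00 s) P.ca00.continuousOn.neg
      fun c s hc => by rw [P.h00 c s hc]; ring
    have h3 : ∀ s, ‖P.a00 s‖ ≤ max C C' * ‖s‖ := by
      intro s
      by_cases hs : s = 0
      · rw [hs, P.a00_zero, norm_zero, norm_zero, mul_zero]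
      · rw [Real.norm_eq_abs, abs_le]
        have k1 := h1 s hs
        have k2 := h2 s hs
        have k3 := mul_le_mul_of_nonneg_right (le_max_left C C') (norm_nonneg s)
        have k4 := mul_le_mul_of_nonneg_right (le_max_right C C') (norm_nonneg s)
        constructor <;> linarith
    rw [hs, ContinuousAt, P.a00_zero]
    refine squeeze_zero_norm h3 ?_
    have : Tendsto (fun y : W n => max C C' * ‖y‖) (𝓝 0) (𝓝 (max C C' * ‖(0 : W n)‖)) :=
      (continuous_const.mul continuous_norm).continuousAt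
    rwa [norm_zero, mul_zero] at this
  · exact (P.ca00.contDiffAt (isOpen_compl_singleton.mem_nhds hs)).continuousAt

theorem continuous_a0 (ε : ℝ) : Continuous (P.a0 ε) := by
  unfold a0
  exact (P.continuous_a00.comp sv.continuous).sub (continuous_const.mul
    (P.ww_c.comp (sv.continuous.prodMk tv.continuous)))

theorem ak_le (r : ℝ) : ∃ C > 0, ∀ k x, P.ak r k x ≤ C * ‖sv x‖ - P.lA * ‖tv x‖ := by
  obtain ⟨C, hC, h⟩ := P.exists_Ceta
  refine ⟨|r| + P.lA * C, by have := P.hlA; positivity, fun k x => ?_⟩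
  unfold ak
  have h1 := P.Alow (sv x) (tv x - P.eta k (sv x))
  have h2 : ‖tv x‖ - ‖P.eta k (sv x)‖ ≤ ‖tv x - P.eta k (sv x)‖ := norm_sub_norm_le _ _
  have h3 := h k (sv x)
  have h4 := le_abs_self r
  have h5 := norm_nonneg (sv x)
  have h6 := P.hlA
  nlinarith [mul_le_mul_of_nonneg_left h2 h6.le, mul_le_mul_of_nonneg_left h3 h6.le,
    mul_le_mul_of_nonneg_right h4 h5]

theorem continuousOn_bk (r : ℝ) (k : Fin m) : ContinuousOn (P.bk r k) {0}ᶜ := by
  intro x hx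
  refine ContinuousAt.continuousWithinAt ?_
  have hnc : Continuous fun x : Fin (n + 3) → ℂ => -(P.lA / 4 * √(nsq x)) :=
    (continuous_const.mul continuous_nsq.sqrt).neg
  by_cases hs : sv x = 0
  · have ht : 0 < ‖tv x‖ := norm_pos_iff.2 fun h => hx (eq_zero_iff.2 ⟨hs, h⟩)
    obtain ⟨C, hC, hk⟩ := P.ak_le r
    have h1 : ∀ᶠ y in 𝓝 x, P.ak r k y ≤ -(P.lA / 4 * √(nsq y)) := by
      have h2 : ∀ᶠ y in 𝓝 x, C * ‖sv y‖ - P.lA * ‖tv y‖ < -(P.lA / 4 * √(nsq y)) := by
        refine ContinuousAt.eventually_lt (f := fun y : Fin (n + 3) → ℂ =>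
          C * ‖sv y‖ - P.lA * ‖tv y‖) ?_ hnc.continuousAt ?_
        · exact ((continuous_const.mul sv.continuous.norm).sub
            (continuous_const.mul tv.continuous.norm)).continuousAt
        · rw [norm_tv, hs, norm_zero, mul_zero]
          have : √((0 : ℝ) ^ 2 + ‖tv x‖ ^ 2) = ‖tv x‖ := by
            rw [zero_pow two_ne_zero, zero_add, Real.sqrt_sq ht.le]
          rw [this]
          nlinarith [P.hlA]
      filter_upwards [h2] with y hy
      exact (hk k y).trans hy.le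
    have h2 : P.bk r k =ᶠ[𝓝 x] fun y => -(P.lA / 4 * √(nsq y)) := by
      filter_upwards [h1] with y hy
      exact max_eq_right hy
    exact hnc.continuousAt.congr h2.symm
  · exact (P.continuousAt_ak hs).sup hnc.continuousAt

theorem continuousOn_af (r ε : ℝ) (i : Option (Fin m)) : ContinuousOn (P.af r ε i) {0}ᶜ := by
  rcases i with _ | k
  · exact (P.continuous_a0 ε).continuousOn
  · exact P.continuousOn_bk r k

theorem nsq_smul_sqrt {c : ℝ} (hc : 0 < c) (x : Fin (n + 3) → ℂ) :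
    √(nsq (c • x)) = c * √(nsq x) := by
  rw [nsq_smul, Real.sqrt_mul (sq_nonneg c), Real.sqrt_sq hc.le]

theorem hom_af (r ε : ℝ) (i : Option (Fin m)) (c : ℝ) (x : Fin (n + 3) → ℂ) (hc : 0 < c) :
    P.af r ε i (c • x) = c * P.af r ε i x := by
  rcases i with _ | k
  · show P.a0 ε (c • x) = c * P.a0 ε x
    unfold a0
    rw [map_smul, map_smul, P.h00 c _ hc, P.hww c _ _ hc]
    ring
  · show P.bk r k (c • x) = c * P.bk r k x
    unfold bk ak
    rw [map_smul, map_smul, P.heta k c _ hc, ← smul_sub, P.hA c _ _ hc, P.Asmul, norm_smul,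
      norm_smul, Real.norm_of_nonneg hc.le, nsq_smul_sqrt hc, mul_max_of_nonneg _ _ hc.le]
    congr 1 <;> ring

/-- near a point where a tube is active, its function is the smooth one -/
theorem bk_eventually {r : ℝ} {k : Fin m} {x : Fin (n + 3) → ℂ} (hs : sv x ≠ 0)
    (h : P.bk r k x = 0) : P.ak r k x = 0 ∧ P.bk r k =ᶠ[𝓝 x] P.ak r k := by
  have hx : x ≠ 0 := fun h => hs (by rw [h, map_zero])
  have hn : 0 < P.lA / 4 * √(nsq x) := mul_pos (by have := P.hlA; positivity)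
    (Real.sqrt_pos.2 (nsq_pos hx))
  have h1 : P.ak r k x = 0 := by
    unfold bk at h
    rcases max_choice (P.ak r k x) (-(P.lA / 4 * √(nsq x))) with h2 | h2
    · rw [← h2, h]
    · rw [h2] at h; linarith
  refine ⟨h1, ?_⟩
  have h2 : ∀ᶠ y in 𝓝 x, -(P.lA / 4 * √(nsq y)) < P.ak r k y := by
    refine ContinuousAt.eventually_lt (continuous_const.mul continuous_nsq.sqrt).neg.continuousAt
      (P.continuousAt_ak hs) ?_
    rw [h1]; linarith
  filter_upwards [h2] with y hy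
  exact max_eq_left hy.le

/-- vertical derivative of the tube function -/
theorem fderiv_ak {r : ℝ} {k : Fin m} {x : Fin (n + 3) → ℂ} (hs : sv x ≠ 0)
    (h : P.A (sv x) (tv x - P.eta k (sv x)) ≠ 0) (Z : Fin (n + 3) → ℝ) :
    fderiv ℝ (P.ak r k) x (vt Z) =
      -(⟪P.A (sv x) (tv x - P.eta k (sv x)), P.A (sv x) (vec Z)⟫_ℝ /
        ‖P.A (sv x) (tv x - P.eta k (sv x))‖) := by
  refine line_fderiv ((P.contDiffAt_ak hs h).differentiableAt one_ne_zero) ?_
  have h1 : (fun τ : ℝ => P.ak r k (x + τ • vt Z)) = fun τ => r * ‖sv x‖ -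
      ‖P.A (sv x) (tv x - P.eta k (sv x)) + τ • P.A (sv x) (vec Z)‖ := by
    funext τ
    unfold ak
    rw [map_add, map_add, map_smul, map_smul, sv_vt, tv_vt, smul_zero, add_zero, ← P.Asmul,
      ← P.Aadd]
    congr 3
    abel
  rw [h1]
  exact (hasDerivAt_norm_line h).const_sub _

/-! ### bounded vectors -/

theorem local_bd {x₀ : Fin (n + 3) → ℂ} (hx₀ : x₀ ≠ 0) {V Y : Fin (n + 3) → ℝ}
    (hV : (fderiv ℝ P.G x₀ (vt V)).im ≠ 0) :
    ∃ B > 0, ∀ᶠ x in 𝓝 x₀, ∃ Y' : Fin (n + 3) → ℝ, ‖Y'‖ ≤ B ∧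
      cor P.G 1 Y V x = vs 1 Y' ∧ (fderiv ℝ P.G x (vs 1 Y')).im = 0 := by
  have hn : ({0}ᶜ : Set (Fin (n + 3) → ℂ)) ∈ 𝓝 x₀ := isOpen_compl_singleton.mem_nhds hx₀
  have hG : ContDiffAt ℝ 1 P.G x₀ := (P.sm.contDiffAt hn).of_le one_le_two
  have h1 : ∀ y : Fin (n + 3) → ℂ, ContinuousAt (fun x => (fderiv ℝ P.G x y).im) x₀ := fun y =>
    Complex.continuous_im.continuousAt.comp ((continuousAt_fd hG).clm_apply continuousAt_const)
  have h2 : ContinuousAt (fun x => (fderiv ℝ P.G x (vs 1 Y)).im / (fderiv ℝ P.G x (vt V)).im) x₀ :=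
    (h1 _).div (h1 _) hV
  set l₀ := (fderiv ℝ P.G x₀ (vs 1 Y)).im / (fderiv ℝ P.G x₀ (vt V)).im with hl₀
  have h3 : ∀ᶠ x in 𝓝 x₀, |(fderiv ℝ P.G x (vs 1 Y)).im / (fderiv ℝ P.G x (vt V)).im| <
      |l₀| + 1 := h2.abs.eventually_lt continuousAt_const (by rw [← hl₀]; linarith)
  refine ⟨‖Y‖ + (|l₀| + 1) * ‖V‖ + 1, by positivity, ?_⟩
  filter_upwards [h3, (h1 (vt V)).eventually_ne hV] with x h4 h5
  refine ⟨Y - ((fderiv ℝ P.G x (vs 1 Y)).im / (fderiv ℝ P.G x (vt V)).im) • V, ?_, ?_, ?_⟩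
  · refine (norm_sub_le _ _).trans ?_
    rw [norm_smul, Real.norm_eq_abs]
    have := mul_le_mul_of_nonneg_right h4.le (norm_nonneg V)
    linarith
  · unfold cor
    rw [sub_eq_add_neg, sub_eq_add_neg, vs_add, ← neg_smul, ← neg_smul, vt_smul]
  · have e : vs 1 (Y - ((fderiv ℝ P.G x (vs 1 Y)).im / (fderiv ℝ P.G x (vt V)).im) • V) =
        cor P.G 1 Y V x := by
      unfold cor
      rw [sub_eq_add_neg, sub_eq_add_neg, vs_add, ← neg_smul, ← neg_smul, vt_smul]
    rw [e]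
    exact im_cor h5

theorem exists_bd : ∃ ρ > 0, ∃ B > 0, ∀ x : Fin (n + 3) → ℂ, nsq x = 1 → (P.G x).im = 0 →
    0 ≤ (P.G x).re →
    (∃ Y : Fin (n + 3) → ℝ, ‖Y‖ ≤ B ∧ (fderiv ℝ P.G x (vs 1 Y)).im = 0) ∧
    (S2 x ≤ ρ → ∃ Y : Fin (n + 3) → ℝ, ‖Y‖ ≤ B ∧ (fderiv ℝ P.G x (vs 1 Y)).im = 0 ∧
      0 < Dx P.G P.ψ x (vs 1 Y)) := by
  let pr : Set (Fin (n + 3) → ℂ) → Prop := fun s =>
    ∃ ρ > 0, ∃ B > 0, ∀ x ∈ s, nsq x = 1 → (P.G x).im = 0 → 0 ≤ (P.G x).re →
    (∃ Y : Fin (n + 3) → ℝ, ‖Y‖ ≤ B ∧ (fderiv ℝ P.G x (vs 1 Y)).im = 0) ∧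
    (S2 x ≤ ρ → ∃ Y : Fin (n + 3) → ℝ, ‖Y‖ ≤ B ∧ (fderiv ℝ P.G x (vs 1 Y)).im = 0 ∧
      0 < Dx P.G P.ψ x (vs 1 Y))
  have key : pr (nsq (ι := Fin (n + 3)) ⁻¹' {1}) := by
    refine IsCompact.induction_on (p := pr) isCompact_sph ?_ ?_ ?_ ?_
    · exact ⟨1, one_pos, 1, one_pos, fun x hx => absurd hx (by simp)⟩
    · rintro s t hst ⟨ρ, hρ, B, hB, h⟩
      exact ⟨ρ, hρ, B, hB, fun x hx => h x (hst hx)⟩
    · rintro s t ⟨ρ, hρ, B, hB, h⟩ ⟨ρ', hρ', B', hB', h'⟩
      refine ⟨min ρ ρ', lt_min hρ hρ', max B B', lt_max_of_lt_left hB, fun x hx h1 h2 h3 => ?_⟩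
      rcases hx with hx | hx
      · obtain ⟨⟨Y, k1, k2⟩, k3⟩ := h x hx h1 h2 h3
        refine ⟨⟨Y, k1.trans (le_max_left _ _), k2⟩, fun h4 => ?_⟩
        obtain ⟨Y', k4, k5⟩ := k3 (h4.trans (min_le_left _ _))
        exact ⟨Y', k4.trans (le_max_left _ _), k5⟩
      · obtain ⟨⟨Y, k1, k2⟩, k3⟩ := h' x hx h1 h2 h3
        refine ⟨⟨Y, k1.trans (le_max_right _ _), k2⟩, fun h4 => ?_⟩
        obtain ⟨Y', k4, k5⟩ := k3 (h4.trans (min_le_right _ _))
        exact ⟨Y', k4.trans (le_max_right _ _), k5⟩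
    · intro x₀ hx₀
      have hx₀' : nsq x₀ = 1 := hx₀
      have hx0 : x₀ ≠ 0 := fun h => by rw [h] at hx₀'; simp [nsq] at hx₀'
      have hn : ({0}ᶜ : Set (Fin (n + 3) → ℂ)) ∈ 𝓝 x₀ := isOpen_compl_singleton.mem_nhds hx0
      have hG : ContDiffAt ℝ 1 P.G x₀ := (P.sm.contDiffAt hn).of_le one_le_two
      have hψ : ContDiffAt ℝ 1 P.ψ x₀ := P.sψ.contDiffAt hn
      by_cases hK : C0 P.G (fun (_ : Unit) (_ : Fin (n + 3) → ℂ) => (0 : ℝ)) x₀
      · obtain ⟨V, hV⟩ := P.K1 x₀ hx0 hK.2.1 hK.2.2.1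
        rcases (S2_nonneg x₀).eq_or_lt with hS | hS
        · -- `s = 0`
          have hre : ∀ j, (x₀ j).re = 0 := by
            intro j
            have h1 := (Finset.sum_eq_zero_iff_of_nonneg
              (fun j _ => sq_nonneg ((x₀ j).re))).1 hS.symm j (Finset.mem_univ j)
            exact pow_eq_zero_iff (two_ne_zero) |>.1 h1
          have hG0 : P.G x₀ = 0 := Complex.ext (P.S0 x₀ hre) hK.2.1
          obtain ⟨b, Y, hb, h1, h2⟩ := P.K2 x₀ hx0 hG0
          have hvt : ∀ Z : Fin (n + 3) → ℝ, (fderiv ℝ P.G x₀ (vt Z)).re = 0 := by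
            intro Z
            rw [← fderiv_re (hG.differentiableAt one_ne_zero)]
            refine line_fderiv (f := fun x => (P.G x).re) ?_ ?_
            · exact Complex.reCLM.differentiableAt.comp x₀ (hG.differentiableAt one_ne_zero)
            · have : (fun h : ℝ => (P.G (x₀ + h • vt Z)).re) = fun _ => 0 := by
                funext h
                refine P.S0 _ fun j => ?_
                simp [vt, hre j]
              rw [this]
              exact hasDerivAt_const _ _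
          have hb0 : 0 < b := by
            rcases hb.eq_or_lt with h | h
            · exfalso
              have e : vs b Y = vt Y := by
                rw [← h]
                funext j
                simp [vs, vt]
              rw [e, hvt Y] at h2
              exact lt_irrefl _ h2
            · exact h
          have e : vs b Y = b • vs 1 (b⁻¹ • Y) := by
            rw [← vs_smul, mul_one, smul_smul, mul_inv_cancel₀ hb0.ne', one_smul]
          have h1' : (fderiv ℝ P.G x₀ (vs 1 (b⁻¹ • Y))).im = 0 := by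
            rw [e, map_smul, Complex.smul_im, smul_eq_mul] at h1
            exact (mul_eq_zero.1 h1).resolve_left hb0.ne'
          have h2' : 0 < (fderiv ℝ P.G x₀ (vs 1 (b⁻¹ • Y))).re := by
            rw [e, map_smul, Complex.smul_re, smul_eq_mul] at h2
            exact (pos_iff_pos_of_mul_pos h2).1 hb0
          obtain ⟨B, hB, h3⟩ := P.local_bd hx0 (Y := b⁻¹ • Y) hV
          have h4 : ∀ᶠ x in 𝓝 x₀, 0 < Dx P.G P.ψ x (cor P.G 1 (b⁻¹ • Y) V x) := by
            refine continuousAt_const.eventually_lt (continuousAt_Dx hG hψ hV) ?_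
            rw [cor_self h1']
            unfold Dx
            rw [hG0, Complex.zero_re, zero_mul, sub_zero]
            exact mul_pos (P.ψ0 x₀ hx0) h2'
          refine ⟨{x | (∃ Y' : Fin (n + 3) → ℝ, ‖Y'‖ ≤ B ∧
            cor P.G 1 (b⁻¹ • Y) V x = vs 1 Y' ∧ (fderiv ℝ P.G x (vs 1 Y')).im = 0) ∧
            0 < Dx P.G P.ψ x (cor P.G 1 (b⁻¹ • Y) V x)},
            mem_nhdsWithin_of_mem_nhds (h3.and h4), 1, one_pos, B, hB, ?_⟩
          rintro x ⟨⟨Y', k1, k2, k3⟩, k4⟩ _ _ _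
          rw [k2] at k4
          exact ⟨⟨Y', k1, k3⟩, fun _ => ⟨Y', k1, k3, k4⟩⟩
        · obtain ⟨B, hB, h3⟩ := P.local_bd hx0 (Y := 0) hV
          have h4 : ∀ᶠ x in 𝓝 x₀, S2 x₀ / 2 < S2 x :=
            continuousAt_const.eventually_lt (contDiff_S2 (n := 0)).continuous.continuousAt
              (by linarith)
          refine ⟨{x | (∃ Y' : Fin (n + 3) → ℝ, ‖Y'‖ ≤ B ∧
            cor P.G 1 0 V x = vs 1 Y' ∧ (fderiv ℝ P.G x (vs 1 Y')).im = 0) ∧ S2 x₀ / 2 < S2 x},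
            mem_nhdsWithin_of_mem_nhds (h3.and h4), S2 x₀ / 2, by positivity, B, hB, ?_⟩
          rintro x ⟨⟨Y', k1, k2, k3⟩, k4⟩ _ _ _
          exact ⟨⟨Y', k1, k3⟩, fun h => absurd h (not_le.2 k4)⟩
      · have h1 := isClosed_C0 P.sm
          (a := fun (_ : Unit) (_ : Fin (n + 3) → ℂ) => (0 : ℝ))
          (fun _ => continuousOn_const) hx₀' hK
        refine ⟨{x | ¬ C0 P.G (fun (_ : Unit) (_ : Fin (n + 3) → ℂ) => (0 : ℝ)) x},
          mem_nhdsWithin_of_mem_nhds h1, 1, one_pos, 1, one_pos, ?_⟩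
        intro x hx h2 h3 h4
        exact absurd ⟨h2, h3, h4, fun _ => le_rfl⟩ hx
  obtain ⟨ρ, hρ, B, hB, h⟩ := key
  exact ⟨ρ, hρ, B, hB, fun x hx => h x hx hx⟩

/-! ### the compact set `{nsq = 1, Im G = 0, Re G ≥ 0}` -/


theorem hor_ne {x : Fin (n + 3) → ℂ} (hx : x ≠ 0) (hc : (P.G x).im = 0) (hs : sv x = 0) :
    hor (tv x) ≠ 0 := by
  intro h
  have h1 : tv x = (⟪u1 n, tv x⟫_ℝ * (1 / √(n + 3 : ℝ))) • one n := by
    have h2 : tv x = ⟪u1 n, tv x⟫_ℝ • u1 n := by
      rw [hor, sub_eq_zero] at h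
      exact h
    conv_lhs => rw [h2]
    ext j
    simp [u1]
  have h2 : x = vt fun _ => ⟪u1 n, tv x⟫_ℝ * (1 / √(n + 3 : ℝ)) := by
    funext j
    apply Complex.ext
    · have : (sv x) j = 0 := by rw [hs]; rfl
      simpa [vt] using this
    · have h3 := congrArg (fun v : W n => v j) h1
      simp only [tv_apply, PiLp.smul_apply, one_apply, smul_eq_mul, mul_one] at h3
      rw [h3]
      simp [vt]
  rw [h2] at hc
  have h3 := P.c00 _ hc
  rw [h3] at h2
  apply hx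
  rw [h2]
  funext j
  simp [vt]

/-- bounds for the plate correction -/
theorem exists_Cw : ∃ C > 0, ∀ x : Fin (n + 3) → ℂ, nsq x = 1 → P.ww (sv x) (tv x) ≤ C ∧
    (sv x ≠ 0 → ContDiffAt ℝ 1 (fun x => P.ww (sv x) (tv x)) x ∧
    ‖fderiv ℝ (fun x : Fin (n + 3) → ℂ => P.ww (sv x) (tv x)) x‖ ≤ C) := by
  obtain ⟨C1, h1⟩ := (isCompact_sph (ι := Fin (n + 3))).exists_bound_of_continuousOn
    (f := fun x => P.ww (sv x) (tv x)) (P.ww_c.comp (f := fun x : Fin (n + 3) → ℂ => (sv x, tv x))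
      (sv.continuous.prodMk tv.continuous)).continuousOn
  obtain ⟨L, hL⟩ := P.lww
  have hL0 : 0 ≤ |L| * (‖(sv (n := n)).prod tv‖) := by positivity
  have h2 : ∀ x y : Fin (n + 3) → ℂ, ‖P.ww (sv y) (tv y) - P.ww (sv x) (tv x)‖ ≤
      |L| * (‖(sv (n := n)).prod tv‖) * ‖y - x‖ := by
    intro x y
    rw [Real.norm_eq_abs]
    refine (hL (sv y, tv y) (sv x, tv x)).trans ?_
    have e : ((sv y, tv y) : W n × W n) - (sv x, tv x) = ((sv (n := n)).prod tv) (y - x) := by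
      rw [map_sub]; rfl
    rw [e]
    have h3 := ((sv (n := n)).prod tv).le_opNorm (y - x)
    have h4 := le_abs_self L
    have h5 := norm_nonneg (((sv (n := n)).prod tv) (y - x))
    calc L * ‖((sv (n := n)).prod tv) (y - x)‖ ≤ |L| * ‖((sv (n := n)).prod tv) (y - x)‖ :=
          mul_le_mul_of_nonneg_right h4 h5
      _ ≤ |L| * (‖(sv (n := n)).prod tv‖ * ‖y - x‖) := mul_le_mul_of_nonneg_left h3 (abs_nonneg L)
      _ = _ := by ring
  refine ⟨|C1| + |L| * (‖(sv (n := n)).prod tv‖) + 1, by positivity, fun x hx => ⟨?_, fun hs => ⟨?_, ?_⟩⟩⟩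
  · have := h1 x hx
    have h3 := le_abs_self (P.ww (sv x) (tv x))
    have h4 := le_abs_self C1
    rw [Real.norm_eq_abs] at this
    linarith
  · exact ContDiffAt.comp (g := fun p : W n × W n => P.ww p.1 p.2)
      (f := fun x : Fin (n + 3) → ℂ => (sv x, tv x)) x
      (P.cww _ _ hs) (sv.contDiff.contDiffAt.prodMk tv.contDiff.contDiffAt)
  · have h5 := abs_nonneg C1
    refine (norm_fderiv_le_of_lip' ℝ hL0 (Eventually.of_forall fun y => h2 x y)).trans ?_
    linarith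

/-! ### the main theorem -/

theorem norm_hor_le (v : W n) : ‖hor v‖ ≤ ‖v‖ := by
  have h1 : ‖v‖ ^ 2 = ‖hor v‖ ^ 2 + ⟪u1 n, v⟫_ℝ ^ 2 := by
    have h2 : ‖hor v‖ ^ 2 = ‖v‖ ^ 2 - ⟪u1 n, v⟫_ℝ ^ 2 := by
      unfold hor
      rw [norm_sub_sq_real, inner_smul_right, norm_smul, norm_u1, mul_one, real_inner_comm v,
        Real.norm_eq_abs, sq_abs]
      ring
    linarith
  refine abs_le_of_sq_le_sq' ?_ (norm_nonneg v) |>.2
  nlinarith [sq_nonneg ⟪u1 n, v⟫_ℝ]

theorem parallel {x : Fin (n + 3) → ℂ} (h : ¬ re1 x ^ 2 < (n + 3 : ℕ) * S2 x) :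
    sv x = (re1 x / (n + 3 : ℕ)) • one n := by
  have hN : (0 : ℝ) < (n + 3 : ℕ) := by positivity
  have h1 : ∑ j, ((x j).re - re1 x / (n + 3 : ℕ)) ^ 2 ≤ 0 := by
    have h2 : ∑ j, ((x j).re - re1 x / (n + 3 : ℕ)) ^ 2 = S2 x - re1 x ^ 2 / (n + 3 : ℕ) := by
      have h3 : ∀ j, ((x j).re - re1 x / (n + 3 : ℕ)) ^ 2 = (x j).re ^ 2 -
          2 * (re1 x / (n + 3 : ℕ)) * (x j).re + (re1 x / (n + 3 : ℕ)) ^ 2 := fun j => by ring
      simp_rw [h3]
      rw [Finset.sum_add_distrib, Finset.sum_sub_distrib, ← Finset.mul_sum, Finset.sum_const,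
        Finset.card_univ, Fintype.card_fin, nsmul_eq_mul]
      have h4 : ∑ j, (x j).re = re1 x := rfl
      have h5 : ∑ j, (x j).re ^ 2 = S2 x := rfl
      rw [h4, h5]
      field_simp
      ring
    rw [h2]
    push Not at h
    rw [sub_nonpos, le_div_iff₀ hN]
    linarith
  have h2 := (Finset.sum_eq_zero_iff_of_nonneg (fun j _ => sq_nonneg _)).1
    (le_antisymm h1 (Finset.sum_nonneg fun j _ => sq_nonneg _))
  ext j
  have h3 := pow_eq_zero_iff (two_ne_zero) |>.1 (h2 j (Finset.mem_univ j))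
  simp only [sv_apply, PiLp.smul_apply, one_apply, smul_eq_mul, mul_one]
  linarith

/-- constants for the tubes -/
theorem exists_r : ∃ r0 > 0, r0 ≤ P.lA * P.r2 ∧ r0 ≤ P.r3 ∧
    (∀ k s t, s ≠ 0 → ∀ r, r < r0 → ‖P.A s (t - P.eta k s)‖ ≤ r * ‖s‖ → ‖hor t‖ < P.κ2 * ‖s‖) ∧
    (∀ k l s t, s ≠ 0 → k ≠ l → P.a00 s ≤ 0 → ∀ r, r < r0 → ‖P.A s (t - P.eta k s)‖ ≤ r * ‖s‖ →
      ‖P.A s (t - P.eta l s)‖ ≤ r * ‖s‖ → False) := by
  have hlA := P.hlA
  have cn : ContinuousOn (fun s : W n => ‖s‖) {0}ᶜ := continuous_norm.continuousOn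
  have h1 : ∀ k, ∃ c > 0, ∀ s, s ≠ 0 → (0 : ℝ) ≤ 0 → c * ‖s‖ ≤ P.κ2 * ‖s‖ - ‖hor (P.eta k s)‖ := by
    intro k
    have hh : Continuous (hor : W n → W n) := continuous_hor'
    refine cone_lower (f := fun s => P.κ2 * ‖s‖ - ‖hor (P.eta k s)‖) (g := fun _ => 0)
      ((continuousOn_const.mul cn).sub ((hh.comp_continuousOn (P.ceta k).continuousOn).norm)) ?_
      continuousOn_const (fun c s _ => (mul_zero c).symm) ?_
    · intro c s hc
      rw [P.heta k c s hc, hor_smul', norm_smul, norm_smul, Real.norm_of_nonneg hc.le]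
      ring
    · intro s hs _
      have := P.T1 k s hs
      linarith
  choose c hc hc' using h1
  have h2 : ∀ k l, ∃ c > 0, k ≠ l → ∀ s, s ≠ 0 → P.a00 s ≤ 0 →
      c * ‖s‖ ≤ ‖P.eta k s - P.eta l s‖ := by
    intro k l
    by_cases hkl : k = l
    · exact ⟨1, one_pos, fun h => absurd hkl h⟩
    · obtain ⟨c, hc, h⟩ := cone_lower (f := fun s => ‖P.eta k s - P.eta l s‖) (g := P.a00)
        ((P.ceta k).continuousOn.sub (P.ceta l).continuousOn).norm (fun c s hc => by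
          rw [P.heta k c s hc, P.heta l c s hc, ← smul_sub, norm_smul,
            Real.norm_of_nonneg hc.le]) P.ca00.continuousOn P.h00
        (fun s hs h => norm_pos_iff.2 (sub_ne_zero.2 (P.dis s hs h k l hkl)))
      exact ⟨c, hc, fun _ => h⟩
  choose d hd hd' using h2
  obtain ⟨δ1, hδ1, h1⟩ := exists_min_weight hc
  obtain ⟨δ2, hδ2, h2⟩ := exists_min_weight (w := fun p : Fin m × Fin m => d p.1 p.2)
    fun p => hd p.1 p.2
  have key : ∀ k s t r, ‖P.A s (t - P.eta k s)‖ ≤ r * ‖s‖ →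
      P.lA * ‖t - P.eta k s‖ ≤ r * ‖s‖ := fun k s t r h => (P.Alow _ _).trans h
  refine ⟨min (min (P.lA * P.r2) P.r3) (min (P.lA * δ1) (P.lA * δ2 / 2)), ?_, ?_, ?_, ?_, ?_⟩
  · have := P.hr2
    have := P.hr3
    refine lt_min (lt_min (by positivity) this) (lt_min (by positivity) (by positivity))
  · exact (min_le_left _ _).trans (min_le_left _ _)
  · exact (min_le_left _ _).trans (min_le_right _ _)
  · intro k s t hs r hr h
    have hr' : r < P.lA * δ1 := hr.trans_le ((min_le_right _ _).trans (min_le_left _ _))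
    have hns : 0 < ‖s‖ := norm_pos_iff.2 hs
    have k1 := key k s t r h
    have k2 : ‖t - P.eta k s‖ < δ1 * ‖s‖ := by
      have : P.lA * ‖t - P.eta k s‖ < P.lA * (δ1 * ‖s‖) := by
        refine k1.trans_lt ?_
        rw [← mul_assoc]
        exact mul_lt_mul_of_pos_right hr' hns
      exact lt_of_mul_lt_mul_left this hlA.le
    have k3 := hc' k s hs le_rfl
    have k4 : hor t = hor (t - P.eta k s) + hor (P.eta k s) := by
      rw [← hor_add', sub_add_cancel]
    have k5 := norm_add_le (hor (t - P.eta k s)) (hor (P.eta k s))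
    rw [← k4] at k5
    have k6 := norm_hor_le (t - P.eta k s)
    have k7 := mul_le_mul_of_nonneg_right (h1 k) hns.le
    linarith
  · intro k l s t hs hkl h0 r hr h h'
    have hr' : r < P.lA * δ2 / 2 := hr.trans_le ((min_le_right _ _).trans (min_le_right _ _))
    have hns : 0 < ‖s‖ := norm_pos_iff.2 hs
    have k1 := key k s t r h
    have k2 := key l s t r h'
    have k3 := hd' k l hkl s hs h0
    have k4 := mul_le_mul_of_nonneg_right (h2 (k, l)) hns.le
    have k5 : ‖P.eta k s - P.eta l s‖ ≤ ‖t - P.eta l s‖ + ‖t - P.eta k s‖ := by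
      have : P.eta k s - P.eta l s = (t - P.eta l s) - (t - P.eta k s) := by abel
      rw [this]
      exact norm_sub_le _ _
    have k6 : P.lA * (δ2 * ‖s‖) ≤ 2 * (r * ‖s‖) := by
      calc P.lA * (δ2 * ‖s‖) ≤ P.lA * (‖t - P.eta l s‖ + ‖t - P.eta k s‖) :=
            mul_le_mul_of_nonneg_left (by simp only at k4; linarith) hlA.le
        _ ≤ 2 * (r * ‖s‖) := by rw [mul_add]; linarith
    have k7 : P.lA * δ2 ≤ 2 * r := by
      by_contra h9
      push Not at h9
      have := mul_lt_mul_of_pos_right h9 hns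
      linarith
    linarith

theorem fderiv_a0 {ε : ℝ} {x : Fin (n + 3) → ℂ} (hs : sv x ≠ 0)
    (hw : ContDiffAt ℝ 1 (fun x => P.ww (sv x) (tv x)) x) (v : Fin (n + 3) → ℂ) :
    fderiv ℝ (P.a0 ε) x v = fderiv ℝ P.a00 (sv x) (sv v) -
      ε * fderiv ℝ (fun x => P.ww (sv x) (tv x)) x v := by
  have hn : ({0}ᶜ : Set (W n)) ∈ 𝓝 (sv x) := isOpen_compl_singleton.mem_nhds hs
  have h1 : HasFDerivAt (fun x : Fin (n + 3) → ℂ => P.a00 (sv x))
      ((fderiv ℝ P.a00 (sv x)).comp sv) x :=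
    ((P.ca00.contDiffAt hn).differentiableAt one_ne_zero).hasFDerivAt.comp x sv.hasFDerivAt
  have h2 := (hw.differentiableAt one_ne_zero).hasFDerivAt.const_mul ε
  have h3 := (h1.fun_sub h2).fderiv
  have h4 : fderiv ℝ (P.a0 ε) x = _ := h3
  rw [h4]
  rfl

/-- constants for the plate correction -/
theorem exists_eps : ∃ ε0 > 0, ∀ ε, 0 < ε → ε ≤ ε0 →
    (∀ x : Fin (n + 3) → ℂ, nsq x = 1 → (P.G x).im = 0 → 0 ≤ (P.G x).re → sv x ≠ 0 →
      (∃ Y : Fin (n + 3) → ℝ, (fderiv ℝ P.G x (vs 1 Y)).im = 0 ∧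
        (P.a0 ε x = 0 → 0 < fderiv ℝ (P.a0 ε) x (vs 1 Y)))) ∧
    (∀ (x : Fin (n + 3) → ℂ) (l : ℝ), nsq x = 1 → (P.G x).im = 0 → 0 ≤ (P.G x).re → 0 < l →
      sv x = l • (-one n) → P.a0 ε x ≤ 0 →
      (∃ Y : Fin (n + 3) → ℝ, (fderiv ℝ P.G x (vs 1 Y)).im = 0 ∧
        0 < Dx P.G P.ψ x (vs 1 Y) ∧
        (P.a0 ε x = 0 → 0 < fderiv ℝ (P.a0 ε) x (vs 1 Y)))) := by
  obtain ⟨ρ, hρ, B, hB, hbd⟩ := P.exists_bd
  obtain ⟨C, hC, hw⟩ := P.exists_Cw
  have hc1 := P.hc1
  have hneg := P.neg1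
  have hN : (0 : ℝ) < (n + 3 : ℕ) := by positivity
  refine ⟨min (c1 P / (2 * C * (1 + B))) (P.a00 (-one n) * √(ρ / (n + 3 : ℕ)) / C),
    lt_min (by positivity) (by positivity), ?_⟩
  intro ε hε hle
  have e1 : ε * C * (1 + B) < P.c1 := by
    have h1 := hle.trans (min_le_left _ _)
    rw [le_div_iff₀ (by positivity)] at h1
    nlinarith
  have e2 : ε * C ≤ P.a00 (-one n) * √(ρ / (n + 3 : ℕ)) := by
    have h1 := hle.trans (min_le_right _ _)
    rwa [le_div_iff₀ hC] at h1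
  -- derivative of the plate function
  have key : ∀ (x : Fin (n + 3) → ℂ) (Y : Fin (n + 3) → ℝ), nsq x = 1 → (P.G x).im = 0 →
      sv x ≠ 0 → ‖Y‖ ≤ B → P.a0 ε x = 0 → 0 < fderiv ℝ (P.a0 ε) x (vs 1 Y) := by
    intro x Y hx hc hs hY h0
    obtain ⟨w1, w2'⟩ := hw x hx
    have w2 := (w2' hs).1
    have w3 := (w2' hs).2
    rw [P.fderiv_a0 hs w2, sv_vs, neg_smul, one_smul]
    have h1 : 0 ≤ P.a00 (sv x) := by
      unfold a0 at h0
      have := mul_nonneg hε.le (P.ww_nonneg (sv x) (tv x))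
      linarith
    have h2 := P.m00 (sv x) hs h1
    have h3 : fderiv ℝ (fun x : Fin (n + 3) → ℂ => P.ww (sv x) (tv x)) x (vs 1 Y) ≤
        C * (1 + B) := by
      refine (le_abs_self _).trans ?_
      rw [← Real.norm_eq_abs]
      refine ((fderiv ℝ _ x).le_opNorm _).trans ?_
      refine mul_le_mul w3 ((norm_vs_le Y).trans (by linarith)) (norm_nonneg _) hC.le
    have h4 := mul_le_mul_of_nonneg_left h3 hε.le
    nlinarith
  constructor
  · intro x hx hc hg hs
    obtain ⟨⟨Y, k1, k2⟩, -⟩ := hbd x hx hc hg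
    exact ⟨Y, k2, fun h0 => key x Y hx hc hs k1 h0⟩
  · intro x l hx hc hg hl hsl h0
    have hs : sv x ≠ 0 := by
      rw [hsl]
      refine smul_ne_zero hl.ne' ?_
      rw [neg_ne_zero]
      intro h
      have := congrArg (fun v : W n => v 0) h
      simp at this
    have h1 : l * P.a00 (-one n) ≤ ε * C := by
      unfold a0 at h0
      rw [hsl, P.h00 l _ hl, ← hsl] at h0
      have := mul_le_mul_of_nonneg_left (hw x hx).1 hε.le
      linarith
    have h2 : l ≤ √(ρ / (n + 3 : ℕ)) := by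
      have h3 : P.a00 (-one n) * l ≤ P.a00 (-one n) * √(ρ / (n + 3 : ℕ)) := by
        rw [mul_comm]; exact h1.trans e2
      exact le_of_mul_le_mul_left h3 hneg
    have h3 : S2 x ≤ ρ := by
      have h4 : S2 x = l ^ 2 * (n + 3 : ℕ) := by
        rw [← norm_sv, hsl, norm_sq_def]
        simp
        ring
      have h5 : l ^ 2 ≤ ρ / (n + 3 : ℕ) := by
        have := pow_le_pow_left₀ hl.le h2 2
        rwa [Real.sq_sqrt (by positivity)] at this
      rw [h4]
      rwa [le_div_iff₀ hN] at h5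
    obtain ⟨-, h4⟩ := hbd x hx hc hg
    obtain ⟨Y, k1, k2, k3⟩ := h4 h3
    exact ⟨Y, k2, k3, fun h0 => key x Y hx hc hs k1 h0⟩

/-- **THE CARVE.** -/
theorem flout : ∃ r0 > 0, ∀ r, 0 < r → r < r0 → ∃ ε0 > 0, ∀ ε, 0 < ε → ε ≤ ε0 →
    ∃ F : Sph (Fin (n + 3)) ≃ₜ Sph (Fin (n + 3)),
      (∀ x : Sph (Fin (n + 3)), (P.G (F x)).im = (P.G x).im) ∧
      ∀ x : Sph (Fin (n + 3)), P.G x = 0 ↔
        ((P.G (F x)).im = 0 ∧ P.a0 ε (F x) ≤ 0 ∧ (∀ k, P.ak r k (F x) ≤ 0) ∧
          (P.a0 ε (F x) = 0 ∨ ∃ k, P.ak r k (F x) = 0)) := by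
  classical
  obtain ⟨r0, hr0, ra, rb, rc, rd⟩ := P.exists_r
  obtain ⟨ε0, hε0, heps⟩ := P.exists_eps
  refine ⟨r0, hr0, fun r hr hrr => ⟨ε0, hε0, fun ε hε hεε => ?_⟩⟩
  obtain ⟨he1, he2⟩ := heps ε hε hεε
  have hlA := P.hlA
  have hne : ∀ x : Fin (n + 3) → ℂ, nsq x = 1 → x ≠ 0 := fun x hx h => by
    rw [h] at hx; simp [nsq] at hx
  have hneg : ∀ x : Fin (n + 3) → ℂ, nsq x = 1 → -(P.lA / 4 * √(nsq x)) < 0 := by
    intro x hx
    rw [hx, Real.sqrt_one]
    linarith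
  -- a tube point
  have hball : ∀ k (x : Fin (n + 3) → ℂ), sv x ≠ 0 → 0 ≤ P.ak r k x →
      ‖P.A (sv x) (tv x - P.eta k (sv x))‖ ≤ r * ‖sv x‖ ∧
      ‖tv x - P.eta k (sv x)‖ < P.r2 * ‖sv x‖ := by
    intro k x hs h
    have h1 : ‖P.A (sv x) (tv x - P.eta k (sv x))‖ ≤ r * ‖sv x‖ := by
      unfold ak at h; linarith
    refine ⟨h1, ?_⟩
    have h2 := (P.Alow _ _).trans h1
    have h3 : 0 < ‖sv x‖ := norm_pos_iff.2 hs
    have h4 : P.lA * ‖tv x - P.eta k (sv x)‖ < P.lA * (P.r2 * ‖sv x‖) := by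
      refine h2.trans_lt ?_
      rw [← mul_assoc]
      exact mul_lt_mul_of_pos_right (hrr.trans_le ra) h3
    exact lt_of_mul_lt_mul_left h4 hlA.le
  have hs0 : ∀ k (x : Fin (n + 3) → ℂ), nsq x = 1 → 0 ≤ P.ak r k x → sv x ≠ 0 := by
    intro k x hx h hs
    unfold ak at h
    rw [hs, norm_zero, mul_zero, P.eta_zero, sub_zero] at h
    have h1 := P.Alow 0 (tv x)
    have h2 : 0 < ‖tv x‖ := norm_pos_iff.2 fun h => hne x hx (eq_zero_iff.2 ⟨hs, h⟩)
    have := mul_pos hlA h2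
    linarith
  have hbk : ∀ k (x : Fin (n + 3) → ℂ), nsq x = 1 → 0 ≤ P.bk r k x → 0 ≤ P.ak r k x := by
    intro k x hx h
    unfold bk at h
    rcases le_max_iff.1 h with h1 | h1
    · exact h1
    · exact absurd h1 (not_le.2 (hneg x hx))
  have H1 : ∀ i (x : Fin (n + 3) → ℂ), nsq x = 1 → (P.G x).im = 0 → 0 ≤ P.af r ε i x →
      0 < (P.G x).re := by
    intro i x hx hc h
    rcases i with _ | k
    · have h' : 0 ≤ P.a0 ε x := h
      unfold a0 at h'
      by_cases hs : sv x = 0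
      · exfalso
        have h1 := P.ww_pos (tv x) (P.hor_ne (hne x hx) hc hs)
        rw [hs, P.a00_zero] at h'
        have := mul_pos hε h1
        linarith
      · refine P.low x hs ?_
        have := mul_nonneg hε.le (P.ww_nonneg (sv x) (tv x))
        linarith
    · have h1 := hbk k x hx h
      have hs := hs0 k x hx h1
      exact (P.tube k x hs (hball k x hs h1).2.le).2
  have hww : ∀ k (x : Fin (n + 3) → ℂ), sv x ≠ 0 → 0 ≤ P.ak r k x →
      ‖hor (tv x)‖ < P.κ2 * ‖sv x‖ := fun k x hs h => rc k _ _ hs r hrr (hball k x hs h).1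
  -- the pointwise condition
  have hp : ∀ x : Fin (n + 3) → ℂ, nsq x = 1 → (P.G x).im = 0 → 0 ≤ (P.G x).re →
      (∀ i, P.af r ε i x ≤ 0) →
      (∃ (b : ℝ) (Y : Fin (n + 3) → ℝ), 0 ≤ b ∧ (fderiv ℝ P.G x (vs b Y)).im = 0 ∧
        0 < P.ψ x * (fderiv ℝ P.G x (vs b Y)).re - (P.G x).re * fderiv ℝ P.ψ x (vs b Y) ∧
        ∀ i, P.af r ε i x = 0 → ContDiffAt ℝ 1 (P.af r ε i) x ∧
          0 < fderiv ℝ (P.af r ε i) x (vs b Y)) ∨
      (0 < (P.G x).re ∧ re1 x ^ 2 < (n + 3 : ℕ) * S2 x ∧ ∃ Y : Fin (n + 3) → ℝ,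
        (fderiv ℝ P.G x (vs 1 Y)).im = 0 ∧
        ∀ i, P.af r ε i x = 0 → ContDiffAt ℝ 1 (P.af r ε i) x ∧
          0 < fderiv ℝ (P.af r ε i) x (vs 1 Y)) := by
    intro x hx hc hg hai
    have hx0 := hne x hx
    rcases hg.eq_or_lt with hg0 | hg0
    · -- zeros of `G`
      left
      obtain ⟨b, Y, k1, k2, k3⟩ := P.K2 x hx0 (Complex.ext hg0.symm hc)
      refine ⟨b, Y, k1, k2, ?_, fun i hi => ?_⟩
      · rw [← hg0, zero_mul, sub_zero]
        exact mul_pos (P.ψ0 x hx0) k3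
      · exact absurd (H1 i x hx hc hi.ge) (by rw [← hg0]; exact lt_irrefl _)
    · have hs : sv x ≠ 0 := by
        intro h
        have : (P.G x).re = 0 := P.S0 x fun j => by
          have := congrArg (fun v : W n => v j) h
          exact this
        linarith
      have hns : 0 < ‖sv x‖ := norm_pos_iff.2 hs
      have hGd : DifferentiableAt ℝ P.G x :=
        (P.sm.contDiffAt (isOpen_compl_singleton.mem_nhds hx0)).differentiableAt two_ne_zero
      -- smoothness of the active functions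
      have hsm : ∀ i, P.af r ε i x = 0 → ContDiffAt ℝ 1 (P.af r ε i) x := by
        intro i hi
        rcases i with _ | k
        · exact P.contDiffAt_a0 hs
        · obtain ⟨h1, h2⟩ := P.bk_eventually (r := r) (k := k) hs hi
          refine ContDiffAt.congr_of_eventuallyEq (P.contDiffAt_ak hs ?_) h2
          intro h3
          unfold ak at h1
          rw [h3, norm_zero, sub_zero] at h1
          have := mul_pos hr hns
          linarith
      by_cases hpar : re1 x ^ 2 < (n + 3 : ℕ) * S2 x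
      · right
        refine ⟨hg0, hpar, ?_⟩
        obtain ⟨Y0, y1, y2⟩ := he1 x hx hc hg hs
        by_cases htube : ∃ k, P.bk r k x = 0
        · obtain ⟨k, hk⟩ := htube
          obtain ⟨t1, t2⟩ := P.bk_eventually hs hk
          obtain ⟨b1, b2⟩ := hball k x hs t1.ge
          have hnA : ‖P.A (sv x) (tv x - P.eta k (sv x))‖ = r * ‖sv x‖ := by
            unfold ak at t1; linarith
          have hA0 : P.A (sv x) (tv x - P.eta k (sv x)) ≠ 0 := by
            intro h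
            rw [h, norm_zero] at hnA
            have := mul_pos hr hns
            linarith
          have hwz := hww k x hs t1.ge
          have hw0 : P.ww (sv x) (tv x) = 0 := P.ww_zero _ _ hwz.le
          have ha00 : P.a00 (sv x) ≤ 0 := by
            have h1 : P.a0 ε x ≤ 0 := hai none
            unfold a0 at h1
            rw [hw0, mul_zero, sub_zero] at h1
            exact h1
          set Z : Fin (n + 3) → ℝ := fun j => -((tv x - P.eta k (sv x)) j) with hZ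
          have hvZ : vec Z = -(tv x - P.eta k (sv x)) := by
            ext j
            rfl
          -- `vt Z` kills the derivative of `Im G`
          have hcZ : (fderiv ℝ P.G x (vt Z)).im = 0 := by
            rw [← fderiv_im hGd]
            refine line_fderiv (f := fun x => (P.G x).im) (Complex.imCLM.differentiableAt.comp x hGd)
              ?_
            have h1 : ∀ᶠ h : ℝ in 𝓝 0, ‖(1 - h) • (tv x - P.eta k (sv x))‖ < P.r2 * ‖sv x‖ := by
              have : ContinuousAt (fun h : ℝ => ‖(1 - h) • (tv x - P.eta k (sv x))‖) 0 := by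
                fun_prop
              refine this.eventually_lt continuousAt_const ?_
              rw [sub_zero, one_smul]
              exact b2
            have h2 : (fun h : ℝ => (P.G (x + h • vt Z)).im) =ᶠ[𝓝 0] fun _ => 0 := by
              filter_upwards [h1] with h hh
              have e1 : sv (x + h • vt Z) = sv x := by
                rw [map_add, map_smul, sv_vt, smul_zero, add_zero]
              have e2 : tv (x + h • vt Z) - P.eta k (sv x) = (1 - h) • (tv x - P.eta k (sv x)) := by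
                rw [map_add, map_smul, tv_vt, hvZ, sub_smul, one_smul, smul_neg]
                abel
              have h3 := (P.tube k (x + h • vt Z) (by rw [e1]; exact hs) (by
                rw [e1, e2]; exact hh.le)).1
              rw [h3, e1, e2, inner_smul_right, ← (P.tube k x hs b2.le).1, hc, mul_zero]
            exact (hasDerivAt_const (0 : ℝ) (0 : ℝ)).congr_of_eventuallyEq h2
          have hkZ : fderiv ℝ (P.ak r k) x (vt Z) = r * ‖sv x‖ := by
            have hAn : P.A (sv x) (-(tv x - P.eta k (sv x))) =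
                -P.A (sv x) (tv x - P.eta k (sv x)) := by
              have := P.Asmul (sv x) (-1) (tv x - P.eta k (sv x))
              rwa [neg_one_smul, neg_one_smul] at this
            rw [P.fderiv_ak hs hA0, hvZ, hAn, inner_neg_right, neg_div, neg_neg,
              real_inner_self_eq_norm_sq, hnA]
            have := (mul_pos hr hns).ne'
            field_simp
          set μ : ℝ := (|fderiv ℝ (P.ak r k) x (vs 1 Y0)| + 1) / (r * ‖sv x‖) with hμ
          refine ⟨Y0 + μ • Z, ?_, fun i hi => ⟨hsm i hi, ?_⟩⟩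
          · rw [vs_add, vt_smul, map_add, map_smul, Complex.add_im, Complex.smul_im, y1, hcZ,
              smul_zero, add_zero]
          · rcases i with _ | l
            · have hi' : P.a0 ε x = 0 := hi
              show 0 < fderiv ℝ (P.a0 ε) x (vs 1 (Y0 + μ • Z))
              have h1 : P.a0 ε =ᶠ[𝓝 x] fun x => P.a00 (sv x) := by
                have h2 : ∀ᶠ y in 𝓝 x, ‖hor (tv y)‖ < P.κ2 * ‖sv y‖ :=
                  ContinuousAt.eventually_lt
                    ((continuous_hor'.comp tv.continuous).norm.continuousAt)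
                    (continuous_const.mul sv.continuous.norm).continuousAt hwz
                filter_upwards [h2] with y hy
                unfold a0
                rw [P.ww_zero _ _ hy.le, mul_zero, sub_zero]
              rw [h1.fderiv_eq]
              have hn : ({0}ᶜ : Set (W n)) ∈ 𝓝 (sv x) := isOpen_compl_singleton.mem_nhds hs
              have h3 : HasFDerivAt (fun x : Fin (n + 3) → ℂ => P.a00 (sv x))
                  ((fderiv ℝ P.a00 (sv x)).comp sv) x :=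
                ((P.ca00.contDiffAt hn).differentiableAt one_ne_zero).hasFDerivAt.comp x
                  sv.hasFDerivAt
              rw [h3.fderiv, ContinuousLinearMap.comp_apply, sv_vs, neg_smul, one_smul]
              refine P.hc1.trans_le (P.m00 _ hs ?_)
              unfold a0 at hi'
              rw [hw0, mul_zero, sub_zero] at hi'
              exact hi'.ge
            · have hi' : P.bk r l x = 0 := hi
              obtain ⟨l1, l2⟩ := P.bk_eventually hs hi'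
              by_cases hlk : k = l
              · subst hlk
                show 0 < fderiv ℝ (P.bk r k) x (vs 1 (Y0 + μ • Z))
                rw [l2.fderiv_eq, vs_add, vt_smul, map_add, map_smul, hkZ, smul_eq_mul, hμ,
                  div_mul_cancel₀ _ (mul_pos hr hns).ne']
                have := neg_abs_le (fderiv ℝ (P.ak r k) x (vs 1 Y0))
                linarith
              · exact absurd (hball l x hs l1.ge).1 fun h =>
                  rd k l _ _ hs hlk ha00 r hrr b1 h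
        · refine ⟨Y0, y1, fun i hi => ⟨hsm i hi, ?_⟩⟩
          rcases i with _ | k
          · exact y2 hi
          · exact absurd ⟨k, hi⟩ htube
      · left
        have hsp := parallel hpar
        set lam := re1 x / (n + 3 : ℕ) with hlam
        rcases lt_trichotomy lam 0 with hl | hl | hl
        · -- `s = -l (1,…,1)`
          have hsl : sv x = (-lam) • (-one n) := by rw [hsp, smul_neg, neg_smul, neg_neg]
          have ha0 : P.a0 ε x ≤ 0 := hai none
          obtain ⟨Y, y1, y2, y3⟩ := he2 x (-lam) hx hc hg (by linarith) hsl ha0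
          refine ⟨1, Y, zero_le_one, y1, y2, fun i hi => ⟨hsm i hi, ?_⟩⟩
          rcases i with _ | k
          · exact y3 hi
          · exfalso
            obtain ⟨t1, t2⟩ := P.bk_eventually (r := r) (k := k) hs hi
            have hw0 : P.ww (sv x) (tv x) = 0 := P.ww_zero _ _ (hww k x hs t1.ge).le
            unfold a0 at ha0
            rw [hw0, mul_zero, sub_zero, hsl, P.h00 _ _ (by linarith)] at ha0
            have := mul_pos (show 0 < -lam by linarith) P.neg1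
            linarith
        · exact absurd (by rw [hsp, hl, zero_smul]) hs
        · -- `s = l (1,…,1)`
          obtain ⟨k, Y, y1, y2, y3, y4, y5⟩ := P.R4 lam x hl hsp hc hg
          have hk0 : P.bk r k x ≤ 0 := hai (some k)
          have hk1 : P.ak r k x ≤ 0 := (le_max_left _ _).trans hk0
          have hAid : ∀ v, P.A (sv x) v = v := fun v => by rw [hsp]; exact P.A1 lam v hl
          have hd0 : tv x - P.eta k (sv x) ≠ 0 := by
            intro h
            unfold ak at hk1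
            rw [hAid, h, norm_zero, sub_zero] at hk1
            have := mul_pos hr hns
            linarith
          obtain ⟨y6, y7⟩ := y4 (sub_ne_zero.1 hd0)
          have e : vs 0 (-Y) = -vt Y := by
            funext j
            simp [vs, vt]
          refine ⟨0, -Y, le_rfl, ?_, ?_, fun i hi => ⟨hsm i hi, ?_⟩⟩
          · rw [e, map_neg, Complex.neg_im, y1, neg_zero]
          · rw [e, map_neg, map_neg, Complex.neg_re]
            have h1 := mul_pos hg0 y6
            have h2 := mul_nonneg (P.ψ0 x hx0).le (neg_nonneg.2 y2)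
            linarith
          · rcases i with _ | l
            · exfalso
              have hi' : P.a0 ε x = 0 := hi
              unfold a0 at hi'
              rw [hsp, P.h00 _ _ hl] at hi'
              have h1 := mul_pos_of_neg_of_neg (neg_lt_zero.2 hl) P.pos1
              have h2 := mul_nonneg hε.le (P.ww_nonneg (lam • one n) (tv x))
              linarith
            · have hi' : P.bk r l x = 0 := hi
              obtain ⟨l1, l2⟩ := P.bk_eventually hs hi'
              have h1 : ‖tv x - P.eta l (sv x)‖ = r * ‖sv x‖ := by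
                unfold ak at l1
                rw [hAid] at l1
                linarith
              by_cases hlk : l = k
              · subst hlk
                show 0 < fderiv ℝ (P.bk r l) x (vs 0 (-Y))
                rw [l2.fderiv_eq, e, map_neg, P.fderiv_ak hs (by rw [hAid]; exact hd0), neg_neg,
                  hAid, hAid]
                exact div_pos y7 (norm_pos_iff.2 hd0)
              · exfalso
                have h2 := y5 l hlk
                rw [h1] at h2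
                have h3 := mul_lt_mul_of_pos_right (hrr.trans_le rb) hns
                linarith
  obtain ⟨F, hF1, hF2⟩ := carve (κ := Option (Fin m)) (a := P.af r ε) P.sm P.hom P.S0
    (fun x hx hc hg => P.K1 x (hne x hx) hc hg) P.sψ P.ψ0 P.hψ (P.continuousOn_af r ε)
    (fun i c x hc => P.hom_af r ε i c x hc) H1 hp
  refine ⟨F, hF1, fun x => ⟨fun h => ?_, fun h => ?_⟩⟩
  · have hc : (P.G x).im = 0 := by rw [h]; rfl
    have hg : (P.G x).re = 0 := by rw [h]; rfl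
    have h1 := ((hF2 x hc).2).2 hg
    have h2 : ∀ i, P.af r ε i (F x) ≤ 0 := mx_le_iff.1 h1.le
    obtain ⟨i, hi⟩ := exists_mx (P.af r ε) (F x : Fin (n + 3) → ℂ)
    rw [h1] at hi
    refine ⟨by rw [hF1, hc], h2 none, fun k => (le_max_left _ _).trans (h2 (some k)), ?_⟩
    rcases i with _ | k
    · exact Or.inl hi.symm
    · right
      refine ⟨k, ?_⟩
      have h3 := hbk k (F x) (F x).2 (show 0 ≤ P.bk r k (F x) from hi.le)
      exact le_antisymm ((le_max_left _ _).trans (h2 (some k))) h3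
  · obtain ⟨hc, h0, hk, hor'⟩ := h
    have hc' : (P.G x).im = 0 := by rw [← hF1]; exact hc
    have h2 : ∀ i, P.af r ε i (F x) ≤ 0 := by
      intro i
      rcases i with _ | k
      · exact h0
      · exact max_le (hk k) (hneg _ (F x).2).le
    have h3 : mx (P.af r ε) (F x : Fin (n + 3) → ℂ) = 0 := by
      refine le_antisymm (mx_le_iff.2 h2) ?_
      rcases hor' with h4 | ⟨k, h4⟩
      · rw [← h4]; exact le_mx (P.af r ε) _ none
      · have h5 : P.bk r k (F x) = 0 := by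
          unfold bk
          rw [h4]
          exact max_eq_left (hneg _ (F x).2).le
        rw [← h5]; exact le_mx (P.af r ε) _ (some k)
    exact Complex.ext (((hF2 x hc').2).1 h3) hc'

end CD

end Crest.Agent.R267.Carve2_363
end
end

-- ▼ part R267/CarvePsi_363
section

/-!
# Row 267 (helper363): the radial gauge `ψ` of the carve

`ψ = NN K + (∑ j |s j|³ (1 + cos (π t j / (p s j)))) / NN K ²`.
-/

set_option autoImplicit false
set_option linter.unusedSectionVars false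
set_option linter.unusedVariables false

noncomputable section

open Set Filter Topology Metric
open scoped ContDiff
open Crest.Agent.R267.T3aDefs_957 Crest.Agent.R267.Calc3_957
open Crest.Agent.R267.T3aDefs_957.LD (vt vs)

namespace Crest.Agent.R267.CarvePsi_363

/-- the angle -/
def thz (p : ℝ) (z : ℂ) : ℝ := Real.pi / p * (z.im * (z.re)⁻¹)

/-- `|s|³ (1 + cos (π t / (p s)))` -/
def rad (p : ℝ) (z : ℂ) : ℝ := |z.re| ^ 3 * (1 + Real.cos (thz p z))

/-- its partial derivatives -/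
def rads (p : ℝ) (z : ℂ) : ℝ :=
  3 * z.re * |z.re| * (1 + Real.cos (thz p z)) +
    Real.pi / p * |z.re| * z.im * Real.sin (thz p z)

def radt (p : ℝ) (z : ℂ) : ℝ := -(Real.pi / p * z.re * |z.re| * Real.sin (thz p z))

def radL (p : ℝ) (z : ℂ) : ℂ →L[ℝ] ℝ := rads p z • Complex.reCLM + radt p z • Complex.imCLM

theorem rad_nonneg (p : ℝ) (z : ℂ) : 0 ≤ rad p z := by
  have := Real.neg_one_le_cos (thz p z)
  exact mul_nonneg (by positivity) (by linarith)

theorem thz_smul (p : ℝ) {r : ℝ} (hr : 0 < r) (z : ℂ) : thz p (r • z) = thz p z := by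
  unfold thz
  rw [Complex.smul_re, Complex.smul_im, smul_eq_mul, smul_eq_mul, mul_inv]
  field_simp

theorem rad_smul (p : ℝ) {r : ℝ} (hr : 0 < r) (z : ℂ) : rad p (r • z) = r ^ 3 * rad p z := by
  unfold rad
  rw [thz_smul p hr, Complex.smul_re, smul_eq_mul, abs_mul, abs_of_pos hr]
  ring

theorem hasFDerivAt_re (z : ℂ) : HasFDerivAt (fun z : ℂ => z.re) Complex.reCLM z :=
  Complex.reCLM.hasFDerivAt

theorem hasFDerivAt_im (z : ℂ) : HasFDerivAt (fun z : ℂ => z.im) Complex.imCLM z :=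
  Complex.imCLM.hasFDerivAt

theorem hasFDerivAt_rad_ne {p : ℝ} {z : ℂ} (hz : z.re ≠ 0) :
    HasFDerivAt (rad p) (radL p z) z := by
  have hinv : HasFDerivAt (fun z : ℂ => (z.re)⁻¹) ((-(z.re ^ 2)⁻¹) • Complex.reCLM) z :=
    (hasDerivAt_inv hz).comp_hasFDerivAt z (hasFDerivAt_re z)
  have h1 : HasFDerivAt (thz p) _ z := ((hasFDerivAt_im z).mul hinv).const_mul (Real.pi / p)
  have h3 := h1.cos.const_add 1
  have key : ∀ σ : ℝ, (σ = 1 ∨ σ = -1) → |z.re| = σ * z.re →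
      (fun z : ℂ => |z.re|) =ᶠ[𝓝 z] (fun z => σ * z.re) → HasFDerivAt (rad p) (radL p z) z := by
    intro σ hσ h4 h5
    have h6 : rad p =ᶠ[𝓝 z] fun z => (σ * z.re) ^ 3 * (1 + Real.cos (thz p z)) := by
      filter_upwards [h5] with w hw
      unfold rad
      rw [hw]
    refine HasFDerivAt.congr_of_eventuallyEq ?_ h6
    have h8 : HasFDerivAt (fun z : ℂ => (σ * z.re) ^ 3)
        ((3 * (σ * z.re) ^ 2 * σ) • Complex.reCLM) z := by
      have h9 : HasDerivAt (fun x : ℝ => (σ * x) ^ 3) (3 * (σ * z.re) ^ 2 * σ) z.re := by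
        have h10 := ((hasDerivAt_id z.re).const_mul σ).fun_pow 3
        simpa using h10
      exact h9.comp_hasFDerivAt z (hasFDerivAt_re z)
    have h7 := h8.mul h3
    refine h7.congr_fderiv ?_
    ext w
    simp only [radL, rads, radt, _root_.add_apply, _root_.smul_apply,
      Complex.reCLM_apply, Complex.imCLM_apply, smul_eq_mul, h4]
    rcases hσ with rfl | rfl <;> field_simp <;> ring
  rcases lt_or_gt_of_ne hz with h | h
  · refine key (-1) (Or.inr rfl) (by rw [abs_of_neg h]; ring) ?_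
    have : ∀ᶠ w : ℂ in 𝓝 z, w.re < 0 :=
      Complex.continuous_re.continuousAt.eventually_lt continuousAt_const h
    filter_upwards [this] with w hw
    rw [abs_of_neg hw]; ring
  · refine key 1 (Or.inl rfl) (by rw [abs_of_pos h]; ring) ?_
    have : ∀ᶠ w : ℂ in 𝓝 z, 0 < w.re :=
      continuousAt_const.eventually_lt Complex.continuous_re.continuousAt h
    filter_upwards [this] with w hw
    rw [abs_of_pos hw]; ring

theorem hasFDerivAt_rad (p : ℝ) (z : ℂ) : HasFDerivAt (rad p) (radL p z) z := by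
  by_cases hz : z.re = 0
  · have h1 : radL p z = 0 := by
      unfold radL rads radt
      rw [hz]
      simp
    rw [h1]
    refine Asymptotics.IsBigO.hasFDerivAt (n := 3) ?_ (by norm_num)
    refine Asymptotics.IsBigO.of_bound 2 (Eventually.of_forall fun w => ?_)
    have h2 : |w.re| ≤ ‖w - z‖ := by
      have := Complex.abs_re_le_norm (w - z)
      rwa [Complex.sub_re, hz, sub_zero] at this
    have h3 := Real.cos_le_one (thz p w)
    have h4 := Real.neg_one_le_cos (thz p w)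
    rw [Real.norm_of_nonneg (rad_nonneg p w), norm_pow, norm_norm]
    unfold rad
    have h5 : |w.re| ^ 3 ≤ ‖w - z‖ ^ 3 := pow_le_pow_left₀ (abs_nonneg _) h2 3
    have h6 : 0 ≤ |w.re| ^ 3 := by positivity
    nlinarith
  · exact hasFDerivAt_rad_ne hz

theorem continuous_rads (p : ℝ) : Continuous (rads p) := by
  rw [continuous_iff_continuousAt]
  intro z
  by_cases hz : z.re = 0
  · have h0 : rads p z = 0 := by unfold rads; rw [hz]; simp
    rw [ContinuousAt, h0]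
    refine squeeze_zero_norm (a := fun w : ℂ => 6 * |w.re| ^ 2 + |Real.pi / p| * |w.re| * |w.im|)
      (fun w => ?_) ?_
    · unfold rads
      refine (norm_add_le _ _).trans (add_le_add ?_ ?_)
      · rw [Real.norm_eq_abs, abs_mul, abs_mul, abs_mul, abs_abs]
        have h3 := Real.cos_le_one (thz p w)
        have h4 := Real.neg_one_le_cos (thz p w)
        have h5 : |1 + Real.cos (thz p w)| ≤ 2 := by rw [abs_le]; constructor <;> linarith
        have h6 := mul_le_mul_of_nonneg_left h5 (sq_nonneg |w.re|)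
        rw [abs_of_pos (by norm_num : (0 : ℝ) < 3)]
        nlinarith
      · rw [Real.norm_eq_abs, abs_mul, abs_mul, abs_mul, abs_abs]
        exact mul_le_of_le_one_right (by positivity) (Real.abs_sin_le_one _)
    · have h1 : Continuous fun w : ℂ => 6 * |w.re| ^ 2 + |Real.pi / p| * |w.re| * |w.im| :=
        (continuous_const.mul (Complex.continuous_re.abs.pow 2)).add
          ((continuous_const.mul Complex.continuous_re.abs).mul Complex.continuous_im.abs)
      have h2 := h1.tendsto z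
      rw [hz] at h2
      simpa using h2
  · have h1 : ContinuousAt (thz p) z :=
      continuousAt_const.mul (Complex.continuous_im.continuousAt.mul
        (Complex.continuous_re.continuousAt.inv₀ hz))
    unfold rads
    exact (((continuousAt_const.mul Complex.continuous_re.continuousAt).mul
      Complex.continuous_re.continuousAt.abs).mul (continuousAt_const.add
        (Real.continuous_cos.continuousAt.comp h1))).add
      (((continuousAt_const.mul Complex.continuous_re.continuousAt.abs).mul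
      Complex.continuous_im.continuousAt).mul (Real.continuous_sin.continuousAt.comp h1))

theorem continuous_radt (p : ℝ) : Continuous (radt p) := by
  rw [continuous_iff_continuousAt]
  intro z
  by_cases hz : z.re = 0
  · have h0 : radt p z = 0 := by unfold radt; rw [hz]; simp
    rw [ContinuousAt, h0]
    refine squeeze_zero_norm (a := fun w : ℂ => |Real.pi / p| * |w.re| * |w.re|) (fun w => ?_) ?_
    · unfold radt
      rw [norm_neg, Real.norm_eq_abs, abs_mul, abs_mul, abs_mul, abs_abs]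
      exact mul_le_of_le_one_right (by positivity) (Real.abs_sin_le_one _)
    · have h1 : Continuous fun w : ℂ => |Real.pi / p| * |w.re| * |w.re| :=
        (continuous_const.mul Complex.continuous_re.abs).mul Complex.continuous_re.abs
      have h2 := h1.tendsto z
      rw [hz] at h2
      simpa using h2
  · have h1 : ContinuousAt (thz p) z :=
      continuousAt_const.mul (Complex.continuous_im.continuousAt.mul
        (Complex.continuous_re.continuousAt.inv₀ hz))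
    unfold radt
    exact (((continuousAt_const.mul Complex.continuous_re.continuousAt).mul
      Complex.continuous_re.continuousAt.abs).mul
      (Real.continuous_sin.continuousAt.comp h1)).neg

theorem contDiff_rad (p : ℝ) : ContDiff ℝ 1 (rad p) := by
  rw [contDiff_one_iff_hasFDerivAt]
  refine ⟨radL p, ?_, hasFDerivAt_rad p⟩
  exact ((continuous_rads p).smul continuous_const).add ((continuous_radt p).smul continuous_const)

/-! ### the gauge -/

variable {N : ℕ}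

/-- the gauge -/
def psi (p K : ℝ) (x : Fin N → ℂ) : ℝ := NN K x + (∑ j, rad p (x j)) / NN K x ^ 2

theorem psi_pos (p K : ℝ) {x : Fin N → ℂ} (hx : x ≠ 0) : 0 < psi p K x := by
  have h1 : 0 < NN K x := NN_pos hx
  have h2 : 0 ≤ ∑ j, rad p (x j) := Finset.sum_nonneg fun j _ => rad_nonneg p _
  unfold psi
  have := div_nonneg h2 (sq_nonneg (NN K x))
  linarith

theorem gq_smul (K : ℝ) {r : ℝ} (hr : 0 < r) (A B : ℝ) :
    gq K (r ^ 2 * A) (r ^ 2 * B) = r ^ 2 * gq K A B := by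
  unfold gq
  have h1 : max 0 (r ^ 2 * B - K ^ 2 * (r ^ 2 * A)) = r ^ 2 * max 0 (B - K ^ 2 * A) := by
    rw [mul_max_of_nonneg _ _ (sq_nonneg r), mul_zero]
    congr 1
    ring
  rw [h1]
  have h2 : (r ^ 2 * max 0 (B - K ^ 2 * A)) ^ 3 / ((3 * K ^ 2 + 3) * (r ^ 2 * A + r ^ 2 * B) ^ 2) =
      r ^ 2 * (max 0 (B - K ^ 2 * A) ^ 3 / ((3 * K ^ 2 + 3) * (A + B) ^ 2)) := by
    rw [show (r ^ 2 * max 0 (B - K ^ 2 * A)) ^ 3 =
      r ^ 4 * (r ^ 2 * max 0 (B - K ^ 2 * A) ^ 3) by ring,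
      show (3 * K ^ 2 + 3) * (r ^ 2 * A + r ^ 2 * B) ^ 2 =
      r ^ 4 * ((3 * K ^ 2 + 3) * (A + B) ^ 2) by ring,
      mul_div_mul_left _ _ (pow_pos hr 4).ne', mul_div_assoc]
  rw [h2]
  ring

theorem NN_smul (K : ℝ) {r : ℝ} (hr : 0 < r) (x : Fin N → ℂ) : NN K (r • x) = r * NN K x := by
  have e1 : ∑ j, ((r • x) j).re ^ 2 = r ^ 2 * ∑ j, (x j).re ^ 2 := by
    rw [Finset.mul_sum]
    exact Finset.sum_congr rfl fun j _ => by simp [mul_pow]
  have e2 : ∑ j, ((r • x) j).im ^ 2 = r ^ 2 * ∑ j, (x j).im ^ 2 := by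
    rw [Finset.mul_sum]
    exact Finset.sum_congr rfl fun j _ => by simp [mul_pow]
  unfold NN
  rw [e1, e2, gq_smul K hr, Real.sqrt_mul (sq_nonneg r), Real.sqrt_sq hr.le]

theorem psi_smul (p K : ℝ) {r : ℝ} (hr : 0 < r) (x : Fin N → ℂ) :
    psi p K (r • x) = r * psi p K x := by
  have e1 : ∑ j, rad p ((r • x) j) = r ^ 3 * ∑ j, rad p (x j) := by
    rw [Finset.mul_sum]
    exact Finset.sum_congr rfl fun j _ => by rw [Pi.smul_apply, rad_smul p hr]
  unfold psi
  rw [NN_smul K hr, e1, show r ^ 3 * (∑ j, rad p (x j)) = r ^ 2 * (r * ∑ j, rad p (x j)) by ring,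
    mul_pow, mul_div_mul_left _ _ (pow_pos hr 2).ne', mul_div_assoc]
  ring

theorem contDiffOn_psi (p K : ℝ) : ContDiffOn ℝ 1 (psi (N := N) p K) {0}ᶜ := by
  intro x hx
  refine ContDiffAt.contDiffWithinAt ?_
  have h1 : ContDiffAt ℝ 1 (NN (N := N) K) x :=
    (Smooth_957.contDiffAt_NN K hx).of_le one_le_two
  have h2 : ContDiffAt ℝ 1 (fun x : Fin N → ℂ => ∑ j, rad p (x j)) x :=
    ContDiffAt.sum fun j _ => ((contDiff_rad p).comp (contDiff_apply ℝ ℂ j)).contDiffAt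
  unfold psi
  exact h1.add (h2.div (h1.pow 2) (pow_ne_zero 2 (NN_pos hx).ne'))

/-- vertical derivative of `ψ` over the ray `s = l (1, …, 1)` -/
theorem fderiv_psi {p K l : ℝ} {x : Fin N → ℂ} (hx : x ≠ 0) (hl : 0 < l)
    (hs : ∀ j, (x j).re = l) (hK : BB x < K ^ 2 * AA x) (Y : Fin N → ℝ) :
    fderiv ℝ (psi p K) x (vt Y) = (∑ j, radt p (x j) * Y j) / AA x := by
  have h1 : HasFDerivAt (psi p K) (fderiv ℝ (psi p K) x) x :=
    (((contDiffOn_psi p K).contDiffAt (isOpen_compl_singleton.mem_nhds hx)).differentiableAt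
      one_ne_zero).hasFDerivAt
  have h2 : HasFDerivAt (NN K) (dNN K x) x := hasFDerivAt_NN K hx
  have h3 : HasFDerivAt (fun x : Fin N → ℂ => ∑ j, rad p (x j))
      (∑ j, (radL p (x j)).comp (ContinuousLinearMap.proj (R := ℝ) (φ := fun _ : Fin N => ℂ) j))
      x := by
    refine HasFDerivAt.fun_sum fun j _ => ?_
    exact (hasFDerivAt_rad p (x j)).comp x (hasFDerivAt_apply (𝕜 := ℝ) j x)
  have hNN : NN K x = √(AA x) := NN_of_le hK.le
  have hd : dNN K x (vt Y) = 0 := by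
    rw [dNN_of_le hK.le, sr_apply]
    have : ∑ j, (x j).re * (vt Y j).re = 0 := Finset.sum_eq_zero fun j _ => by simp [vt]
    rw [this, zero_div]
  have hpos : 0 < NN K x := NN_pos hx
  -- along the line
  have hline : HasDerivAt (fun h : ℝ => x + h • vt Y) (vt Y) 0 := by
    simpa using ((hasDerivAt_id (0 : ℝ)).smul_const (vt Y)).const_add x
  have hat : ∀ {f : (Fin N → ℂ) → ℝ} {f' : (Fin N → ℂ) →L[ℝ] ℝ}, HasFDerivAt f f' x →
      HasDerivAt (fun h : ℝ => f (x + h • vt Y)) (f' (vt Y)) 0 := by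
    intro f f' hf
    have h6 : HasFDerivAt f f' (x + (0 : ℝ) • vt Y) := by
      rw [zero_smul, add_zero]
      exact hf
    exact h6.comp_hasDerivAt 0 hline
  have k1 := hat h1
  have k2 := hat h2
  have k3 := hat h3
  rw [hd] at k2
  have e3 : (∑ j, (radL p (x j)).comp
      (ContinuousLinearMap.proj (R := ℝ) (φ := fun _ : Fin N => ℂ) j)) (vt Y) =
      ∑ j, radt p (x j) * Y j := by
    simp only [_root_.sum_apply, ContinuousLinearMap.comp_apply,
      ContinuousLinearMap.proj_apply, radL, _root_.add_apply,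
      _root_.smul_apply, Complex.reCLM_apply, Complex.imCLM_apply, smul_eq_mul]
    refine Finset.sum_congr rfl fun j _ => ?_
    simp [vt]
  rw [e3] at k3
  have k4 := k2.fun_add (k3.fun_div (k2.fun_pow 2) (by
    simp only [zero_smul, add_zero]
    exact pow_ne_zero 2 hpos.ne'))
  have k5 := k1.unique k4
  rw [k5]
  simp only [zero_smul, add_zero, mul_zero, sub_zero, zero_add]
  rw [hNN, Real.sq_sqrt (by unfold AA; exact Finset.sum_nonneg fun _ _ => sq_nonneg _)]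
  have hAA : AA x ≠ 0 := by
    intro h
    rw [hNN, h, Real.sqrt_zero] at hpos
    exact lt_irrefl _ hpos
  field_simp

/-- sign of the vertical derivative of `rad` near the ray `t = σ s`, `σ ∈ p (2ℤ + 1)` -/
theorem radt_mul {p l σ : ℝ} (hp : 2 < p) (hl : 0 < l) {a : ℕ} (hσ : σ = p * (2 * a + 1)) {z : ℂ}
    (hz : z.re = l) (hv : |z.im - σ * l| < 2 * l) {y : ℝ}
    (hy : (z.im - σ * l) ^ 2 ≤ (z.im - σ * l) * y) :
    0 ≤ radt p z * y ∧ (z.im - σ * l ≠ 0 → 0 < radt p z * y) := by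
  set v := z.im - σ * l with hvdef
  have hp0 : 0 < p := by linarith
  have e1 : thz p z = Real.pi / p * (v / l) + Real.pi + a * (2 * Real.pi) := by
    unfold thz
    have : z.im = v + σ * l := by rw [hvdef]; ring
    rw [hz, this, hσ]
    field_simp
    ring
  have e2 : Real.sin (thz p z) = -Real.sin (Real.pi / p * (v / l)) := by
    rw [e1, Real.sin_add_nat_mul_two_pi, Real.sin_add_pi]
  have e3 : radt p z * y = Real.pi / p * l * l * (Real.sin (Real.pi / p * (v / l)) * y) := by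
    unfold radt
    rw [e2, hz, abs_of_pos hl]
    ring
  rw [e3]
  have hc : 0 < Real.pi / p * l * l := by have := Real.pi_pos; positivity
  have hlt : |Real.pi / p * (v / l)| < Real.pi := by
    rw [abs_mul, abs_div v l, abs_of_pos hl, abs_of_pos (div_pos Real.pi_pos hp0)]
    have h1 : |v| / l < p := by
      rw [div_lt_iff₀ hl]
      nlinarith
    calc Real.pi / p * (|v| / l) < Real.pi / p * p :=
          mul_lt_mul_of_pos_left h1 (div_pos Real.pi_pos hp0)
      _ = Real.pi := by field_simp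
  rw [abs_lt] at hlt
  have key : v ≠ 0 → 0 < Real.sin (Real.pi / p * (v / l)) * y := by
    intro hv0
    rcases lt_or_gt_of_ne hv0 with h | h
    · have hy' : y < 0 := by
        by_contra hy'
        push Not at hy'
        have h1 : v * y ≤ 0 := mul_nonpos_of_nonpos_of_nonneg h.le hy'
        have h2 : 0 < v ^ 2 := by positivity
        linarith
      refine mul_pos_of_neg_of_neg (Real.sin_neg_of_neg_of_neg_pi_lt ?_ hlt.1) hy'
      exact mul_neg_of_pos_of_neg (div_pos Real.pi_pos hp0) (div_neg_of_neg_of_pos h hl)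
    · have hy' : 0 < y := by
        by_contra hy'
        push Not at hy'
        have h1 : v * y ≤ 0 := mul_nonpos_of_nonneg_of_nonpos h.le hy'
        have h2 : 0 < v ^ 2 := by positivity
        linarith
      refine mul_pos (Real.sin_pos_of_pos_of_lt_pi ?_ hlt.2) hy'
      exact mul_pos (div_pos Real.pi_pos hp0) (div_pos h hl)
  refine ⟨?_, fun h => mul_pos hc (key h)⟩
  by_cases hv0 : v = 0
  · rw [hv0, zero_div, mul_zero, Real.sin_zero, zero_mul, mul_zero]
  · exact (mul_pos hc (key hv0)).le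

end Crest.Agent.R267.CarvePsi_363
end
end

-- ▼ part R267/Carve3_363

/-!
# Row 267 (helper363): the carve for the literal plate, tubes and cut-offs of `EndG_864`
-/

set_option autoImplicit false
set_option linter.unusedSectionVars false
set_option linter.unusedVariables false

noncomputable section

open Set Filter Topology Metric
open scoped NNReal ContDiff RealInnerProductSpace
open Crest.Agent.R267.Cone_808 Crest.Agent.R267.SphReg_808 Crest.Agent.R267.Carve2_363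
open Crest.Agent.R267.GS_808 Crest.Agent.R267.EndDef_864 Crest.Agent.R267.EndBas_864
  Crest.Agent.R267.EndG_864 Crest.Agent.R267.Calc_957
open Crest.Agent.R267.T3aDefs_957 (st chi)
open Crest.Agent.R267.T3aDefs_957.LD (vt vs)
open Crest.Agent.R267.CarvePsi_363 (psi)
open Crest.Agent.R267.EndH_864 (zc FLOut Bd)

namespace Crest.Agent.R267.Carve3_363

variable {n m : ℕ}

/-! ### regularity of the literal data -/

theorem cd_coord (j : Fin (n + 3)) {k : WithTop ℕ∞} : ContDiff ℝ k fun s : W n => s j :=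
  (EuclideanSpace.proj (𝕜 := ℝ) j).contDiff

theorem cd_norm {s : W n} (hs : s ≠ 0) {k : WithTop ℕ∞} : ContDiffAt ℝ k (fun s : W n => ‖s‖) s :=
  contDiffAt_norm ℝ hs

theorem cd_rat (j : Fin (n + 3)) {s : W n} (hs : s ≠ 0) {k : WithTop ℕ∞} :
    ContDiffAt ℝ k (fun s : W n => s j / ‖s‖) s :=
  (cd_coord j).contDiffAt.div (cd_norm hs) (norm_ne_zero_iff.2 hs)

theorem cd_st {E : Type*} [NormedAddCommGroup E] [NormedSpace ℝ E] {f : E → ℝ} {x : E}
    (hf : ContDiffAt ℝ 1 f x) : ContDiffAt ℝ 1 (fun x => st (f x)) x :=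
  ContDiffAt.comp (g := st) x ((contDiff_st.of_le one_le_two).contDiffAt) hf

theorem cd_chi (d : ℝ) {E : Type*} [NormedAddCommGroup E] [NormedSpace ℝ E] {f : E → ℝ} {x : E}
    (hf : ContDiffAt ℝ 1 f x) : ContDiffAt ℝ 1 (fun x => chi d (f x)) x :=
  cd_st ((hf.sub contDiffAt_const).div_const d)

theorem cd_vec {E : Type*} [NormedAddCommGroup E] [NormedSpace ℝ E] {f : E → Fin (n + 3) → ℝ}
    {x : E} (hf : ∀ j, ContDiffAt ℝ 1 (fun x => f x j) x) :
    ContDiffAt ℝ 1 (fun x => (vec (f x) : W n)) x :=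
  contDiffAt_euclidean.2 hf

section lit

variable (L : LS n m) (Q : Par n) (hsm : ∀ k l j, L.sg k j ≠ L.sg l j →
    Q.ep * (‖vec (n := n) (L.V k)‖ + ‖vec (n := n) (L.V l)‖) < Q.d * |L.sg k j - L.sg l j|)

theorem cd_nz {s : W n} (hs : s ≠ 0) : ContDiffAt ℝ 1 (hd L Q hsm).nz s := by
  refine cd_vec fun j => ?_
  show ContDiffAt ℝ 1 (fun s : W n => chi Q.d (s j / ‖s‖) - chi Q.d (-(s j / ‖s‖))) s
  exact (cd_chi _ (cd_rat j hs)).sub (cd_chi _ (cd_rat j hs).neg)

theorem cd_nrm (k : Fin m) {s : W n} (hs : s ≠ 0) : ContDiffAt ℝ 1 ((hd L Q hsm).nrm k) s := by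
  refine cd_vec fun j => ?_
  have h1 := cd_chi Q.d (cd_rat j hs)
  have h2 := cd_chi Q.d (cd_rat (n := n) j hs).neg
  cases h : L.neg k j
  · have e : (fun s : W n => if (hd L Q hsm).neg k j then (hd L Q hsm).Ym (s j / ‖s‖) else
        (hd L Q hsm).Yp (s j / ‖s‖)) = fun s => chi Q.d (s j / ‖s‖) - chi Q.d (-(s j / ‖s‖)) := by
      funext s
      have : (hd L Q hsm).neg k j = false := h
      rw [this]
      rfl
    rw [e]
    exact h1.sub h2
  · have e : (fun s : W n => if (hd L Q hsm).neg k j then (hd L Q hsm).Ym (s j / ‖s‖) else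
        (hd L Q hsm).Yp (s j / ‖s‖)) = fun s => -chi Q.d (s j / ‖s‖) - chi Q.d (-(s j / ‖s‖)) := by
      funext s
      have : (hd L Q hsm).neg k j = true := h
      rw [this]
      rfl
    rw [e]
    exact h1.neg.sub h2

theorem cd_inner {E : Type*} [NormedAddCommGroup E] [NormedSpace ℝ E] {f g : E → W n} {x : E}
    (hf : ContDiffAt ℝ 1 f x) (hg : ContDiffAt ℝ 1 g x) :
    ContDiffAt ℝ 1 (fun x => (⟪f x, g x⟫ : ℝ)) x := hf.inner ℝ hg

theorem ppf_nonneg {d : ℝ} (hd : 0 < d) (x : ℝ) : 0 ≤ ppf d x := by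
  unfold ppf
  rcases le_total x 0 with h | h
  · rw [st_of_le (div_nonpos_of_nonpos_of_nonneg h hd.le), mul_zero]
  · exact mul_nonneg h (st_nonneg _)

theorem cd_eta (k : Fin m) {s : W n} (hs : s ≠ 0) : ContDiffAt ℝ 1 ((hd L Q hsm).eta k) s := by
  have h1 : ContDiffAt ℝ 1 (fun s : W n =>
      (vec (fun j => max ((hd L Q hsm).hs s j) 0 * (hd L Q hsm).sg k j) : W n)) s := by
    refine cd_vec fun j => ?_
    have e : (fun s : W n => max ((hd L Q hsm).hs s j) 0 * (hd L Q hsm).sg k j) =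
        fun s => ‖s‖ * ((s j / ‖s‖) * st ((s j / ‖s‖) / Q.d)) * L.sg k j := by
      funext s
      have e1 : (hd L Q hsm).hs s j = ‖s‖ * ppf Q.d (s j / ‖s‖) := rfl
      rw [e1, max_eq_left (mul_nonneg (norm_nonneg _) (ppf_nonneg Q.hd _))]
      rfl
    rw [e]
    exact ((cd_norm hs).mul ((cd_rat j hs).mul (cd_st ((cd_rat j hs).div_const _)))).mul
      contDiffAt_const
  have h2 : ContDiffAt ℝ 1 (fun s : W n => thf Q.ω s) s := by
    unfold thf
    refine cd_st (((contDiffAt_const.sub ((cd_inner contDiffAt_const contDiffAt_id).div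
      (cd_norm hs) (norm_ne_zero_iff.2 hs))).div_const _).sub contDiffAt_const)
  have h3 := cd_nrm L Q hsm k hs
  have h4 : ContDiffAt ℝ 1 (fun s : W n => proj ((hd L Q hsm).nrm k s) (vec (L.V k))) s := by
    unfold proj
    have h5 : (hd L Q hsm).nrm k s ≠ 0 := nrm_ne _ hs
    refine contDiffAt_const.sub (((cd_inner h3 contDiffAt_const).div ((h3.norm ℝ h5).pow 2)
      (pow_ne_zero 2 (norm_ne_zero_iff.2 h5))).smul h3)
  exact h1.add (((contDiffAt_const.mul (cd_norm hs)).mul h2).smul h4)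

theorem cd_ka {s : W n} (hs : s ≠ 0) : ContDiffAt ℝ 1 (fun s : W n => kaf Q.e s) s := by
  unfold kaf
  refine contDiffAt_prod fun j _ => contDiffAt_const.sub (cd_st ?_)
  exact ((cd_coord j).contDiffAt.div (contDiffAt_const.mul (cd_norm hs))
    (mul_ne_zero Q.he.ne' (norm_ne_zero_iff.2 hs))).add contDiffAt_const

theorem cd_hor {E : Type*} [NormedAddCommGroup E] [NormedSpace ℝ E] {f : E → W n} {x : E}
    (hf : ContDiffAt ℝ 1 f x) : ContDiffAt ℝ 1 (fun x => hor (f x)) x := by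
  unfold hor
  exact hf.sub ((cd_inner contDiffAt_const hf).smul contDiffAt_const)

theorem cd_A {s v : W n} (hs : s ≠ 0) :
    ContDiffAt ℝ 1 (fun p : W n × W n => (hd L Q hsm).A p.1 p.2) (s, v) := by
  by_cases h : ∀ j, s j ≤ Q.d * ‖s‖
  · have h1 := inner_nz_u1_neg (hd L Q hsm) hs h
    have k1 : ContDiffAt ℝ 1 (fun p : W n × W n => (hd L Q hsm).nz p.1) (s, v) :=
      ContDiffAt.comp (g := (hd L Q hsm).nz) (s, v) (cd_nz L Q hsm hs) contDiffAt_fst
    have k2 : ContDiffAt ℝ 1 (fun p : W n × W n => (hd L Q hsm).ka p.1) (s, v) :=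
      ContDiffAt.comp (g := fun s : W n => kaf Q.e s) (s, v) (cd_ka Q hs) contDiffAt_fst
    unfold HD.A
    exact contDiffAt_snd.add ((k2.mul ((cd_inner k1 (cd_hor contDiffAt_snd)).div
      (cd_inner k1 contDiffAt_const) h1.ne)).smul contDiffAt_const)
  · push Not at h
    obtain ⟨j, hj⟩ := h
    have c1 : Continuous fun p : W n × W n => Q.d * ‖p.1‖ := continuous_const.mul continuous_fst.norm
    have c2 : Continuous fun p : W n × W n => p.1 j := (apply_continuous j).comp continuous_fst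
    have h2 : {p : W n × W n | Q.d * ‖p.1‖ < p.1 j} ∈ 𝓝 (s, v) := (isOpen_lt c1 c2).mem_nhds hj
    have h3 : (fun p : W n × W n => (hd L Q hsm).A p.1 p.2) =ᶠ[𝓝 (s, v)] fun p => p.2 := by
      filter_upwards [h2] with p hp
      have hp : Q.d * ‖p.1‖ < p.1 j := hp
      have hp0 : p.1 ≠ 0 := by
        intro h
        rw [h, norm_zero, mul_zero] at hp
        exact lt_irrefl _ hp
      have : (hd L Q hsm).ka p.1 = 0 := by
        by_contra hk
        exact absurd ((hd L Q hsm).kap p.1 hp0 hk j) (not_lt.2 hp.le)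
      rw [HD.A, this, zero_mul, zero_smul, add_zero]
    exact contDiffAt_snd.congr_of_eventuallyEq h3

theorem exists_lA : ∃ c > 0, ∀ s v, c * ‖v‖ ≤ ‖(hd L Q hsm).A s v‖ := by
  set D := hd L Q hsm with hD
  obtain ⟨C, hC, hb⟩ := cone_upper (f := fun s : W n => ‖s‖ * (|q D s| * ‖D.nz s‖))
    (continuous_norm.continuousOn.mul ((q_continuousOn D).abs.mul (nz_continuousOn D).norm))
    (fun c s hc => by
      have e1 : q D (c • s) = q D s := by
        unfold q
        rw [D.kah c s hc, nz_smul D hc]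
      rw [e1, nz_smul D hc, norm_smul, Real.norm_of_nonneg hc.le]
      ring)
  have hb' : ∀ s, |q D s| * ‖D.nz s‖ ≤ C := by
    intro s
    by_cases hs : s = 0
    · have : D.nz s = 0 := by
        rw [hs]
        ext j
        rw [nz_apply]
        simp only [PiLp.zero_apply, norm_zero, div_zero]
        exact D.Yp0 0 (by rw [abs_zero]; exact D.hd.le)
      rw [this, norm_zero, mul_zero]
      exact hC.le
    · have h1 : 0 < ‖s‖ := norm_pos_iff.2 hs
      have h2 : ‖s‖ * (|q D s| * ‖D.nz s‖) ≤ C * ‖s‖ := hb s hs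
      rw [mul_comm C] at h2
      exact le_of_mul_le_mul_left h2 h1
  refine ⟨(2 + C)⁻¹, by positivity, fun s v => ?_⟩
  rw [inv_mul_le_iff₀ (by positivity)]
  have h1 : hor (D.A s v) = hor v := hor_A D s v
  have h2 := inner_u1_A D s v
  have h3 : v = hor (D.A s v) + (⟪u1 n, D.A s v⟫ - q D s * ⟪D.nz s, hor (D.A s v)⟫) • u1 n := by
    rw [h1, h2, add_sub_cancel_right, hor_add_u1]
  have h4 : ‖hor (D.A s v)‖ ≤ ‖D.A s v‖ := CD.norm_hor_le _
  have h5 : |⟪u1 n, D.A s v⟫| ≤ ‖D.A s v‖ := by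
    have := abs_real_inner_le_norm (u1 n) (D.A s v)
    rwa [norm_u1, one_mul] at this
  have h6 : |q D s * ⟪D.nz s, hor (D.A s v)⟫| ≤ C * ‖D.A s v‖ := by
    rw [abs_mul]
    calc |q D s| * |⟪D.nz s, hor (D.A s v)⟫| ≤ |q D s| * (‖D.nz s‖ * ‖hor (D.A s v)‖) :=
          mul_le_mul_of_nonneg_left (abs_real_inner_le_norm _ _) (abs_nonneg _)
      _ = (|q D s| * ‖D.nz s‖) * ‖hor (D.A s v)‖ := by ring
      _ ≤ C * ‖D.A s v‖ := mul_le_mul (hb' s) h4 (norm_nonneg _) hC.le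
  calc ‖v‖ = ‖hor (D.A s v) + (⟪u1 n, D.A s v⟫ - q D s * ⟪D.nz s, hor (D.A s v)⟫) • u1 n‖ := by
        rw [← h3]
    _ ≤ ‖hor (D.A s v)‖ + ‖(⟪u1 n, D.A s v⟫ - q D s * ⟪D.nz s, hor (D.A s v)⟫) • u1 n‖ :=
        norm_add_le _ _
    _ ≤ ‖D.A s v‖ + (‖D.A s v‖ + C * ‖D.A s v‖) := by
        refine add_le_add h4 ?_
        rw [norm_smul, norm_u1, mul_one, Real.norm_eq_abs]
        exact (abs_sub _ _).trans (add_le_add h5 h6)
    _ = (2 + C) * ‖D.A s v‖ := by ring

end lit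

/-! ### the plate function -/

theorem cd_a00 (e : ℝ) {s : W n} (hs : s ≠ 0) : ContDiffAt ℝ 1 (a00 e : W n → ℝ) s := by
  unfold a00
  have h1 : ContDiff ℝ 1 (tp 3) := contDiff_tp 1 3 (by norm_num)
  refine (contDiffAt_const.mul (cd_norm hs)).sub (ContDiffAt.div ?_ ((cd_norm hs).pow 2)
    (pow_ne_zero 2 (norm_ne_zero_iff.2 hs)))
  refine ContDiffAt.sum fun j _ => ?_
  exact ContDiffAt.comp (g := tp 3) s h1.contDiffAt
    ((cd_coord j).contDiffAt.add (contDiffAt_const.mul (cd_norm hs)))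

theorem one_eq : one n = √(n + 3 : ℝ) • u1 n := by
  ext j
  have := sqrt_pos n
  simp [u1, one, this.ne']

theorem norm_one' : ‖one n‖ = √(n + 3 : ℝ) := by
  rw [one_eq, norm_smul, norm_u1, mul_one, Real.norm_of_nonneg (Real.sqrt_nonneg _)]

theorem one_ne : one n ≠ 0 := by
  intro h
  have h1 := norm_one' (n := n)
  rw [h, norm_zero] at h1
  exact (sqrt_pos n).ne h1

/-- quantitative monotonicity -/
theorem a00_ge {e : ℝ} (he : 0 < e) (heN : 2 * e * √(n + 3 : ℝ) < 1) {s : W n} (hs : s ≠ 0)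
    (h : 0 ≤ a00 e s) {l : ℝ} (hl : 0 < l) :
    a00 e s + e ^ 3 * (‖s - l • u1 n‖ - ‖s‖) ≤ a00 e (s - l • u1 n) := by
  have hN := sqrt_pos n
  have he2 : 2 * e < 1 / √(n + 3 : ℝ) := by rwa [lt_div_iff₀ hN]
  have h0 : 0 < ‖s‖ := norm_pos_iff.2 hs
  have hu := inner_u1_neg fun j => neg_of_a00 he hs h j
  have h1 := norm_lt_sub hl hu.le
  have h2 := norm_sub_le' s hl
  set s' := s - l • u1 n with hs'
  have h3 : ∀ j, tp 3 (s' j + 2 * e * ‖s'‖) ≤ tp 3 (s j + 2 * e * ‖s‖) := by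
    intro j
    refine tp3_mono ?_
    rw [hs', PiLp.sub_apply, PiLp.smul_apply, u1_apply, smul_eq_mul, ← hs']
    nlinarith
  have h4 : ∑ j, tp 3 (s' j + 2 * e * ‖s'‖) ≤ ∑ j, tp 3 (s j + 2 * e * ‖s‖) :=
    Finset.sum_le_sum fun j _ => h3 j
  have h5 : 0 ≤ ∑ j, tp 3 (s j + 2 * e * ‖s‖) := Finset.sum_nonneg fun j _ => tp3_nonneg _
  have h6 : (∑ j, tp 3 (s' j + 2 * e * ‖s'‖)) / ‖s'‖ ^ 2 ≤
      (∑ j, tp 3 (s j + 2 * e * ‖s‖)) / ‖s‖ ^ 2 := by
    gcongr
  rw [a00, a00]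
  linarith

theorem nonneg_of_right {F : ℝ → ℝ} {d : ℝ} (hF : HasDerivAt F d 0) (h : ∀ l, 0 < l → F 0 ≤ F l) :
    0 ≤ d := by
  have h1 := hF.tendsto_slope
  have h2 : Tendsto (slope F 0) (𝓝[>] 0) (𝓝 d) :=
    h1.mono_left (nhdsWithin_mono 0 (fun l (hl : 0 < l) => hl.ne'))
  refine ge_of_tendsto h2 ?_
  filter_upwards [self_mem_nhdsWithin] with l hl
  rw [slope_def_field, sub_zero]
  exact div_nonneg (sub_nonneg.2 (h l hl)) (le_of_lt hl)

theorem fderiv_a00 {e : ℝ} (he : 0 < e) (heN : 2 * e * √(n + 3 : ℝ) < 1) {s : W n} (hs : s ≠ 0)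
    (h : 0 ≤ a00 e s) : e ^ 3 ≤ fderiv ℝ (a00 e) s (-one n) := by
  have hN := sqrt_pos n
  have hNsq : √(n + 3 : ℝ) ^ 2 = n + 3 := Real.sq_sqrt (by positivity)
  have h0 : 0 < ‖s‖ := norm_pos_iff.2 hs
  have hneg : ∀ j, s j < 0 := fun j => neg_of_a00 he hs h j
  -- derivative along the line `l ↦ s - l • u1`
  have hline : HasDerivAt (fun l : ℝ => s - l • u1 n) (-u1 n) 0 := by
    have := ((hasDerivAt_id (0 : ℝ)).smul_const (u1 n)).const_sub s
    simpa using this
  have h1 : HasDerivAt (fun l : ℝ => a00 e (s - l • u1 n)) (fderiv ℝ (a00 e) s (-u1 n)) 0 := by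
    have h6 : HasFDerivAt (a00 e) (fderiv ℝ (a00 e) s) (s - (0 : ℝ) • u1 n) := by
      rw [zero_smul, sub_zero]
      exact ((cd_a00 e hs).differentiableAt one_ne_zero).hasFDerivAt
    exact h6.comp_hasDerivAt 0 hline
  have h2 : HasDerivAt (fun l : ℝ => ‖s - l • u1 n‖) (-(⟪s, u1 n⟫ / ‖s‖)) 0 := by
    have h3 := hasDerivAt_norm_line (u := s) (v := -u1 n) hs
    have e1 : (fun l : ℝ => ‖s + l • -u1 n‖) = fun l => ‖s - l • u1 n‖ := by
      funext l
      rw [smul_neg, ← sub_eq_add_neg]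
    rw [e1, inner_neg_right, neg_div] at h3
    exact h3
  have h3 : HasDerivAt (fun l : ℝ => a00 e (s - l • u1 n) - e ^ 3 * ‖s - l • u1 n‖)
      (fderiv ℝ (a00 e) s (-u1 n) - e ^ 3 * (-(⟪s, u1 n⟫ / ‖s‖))) 0 :=
    h1.sub (h2.const_mul (e ^ 3))
  have h4 := nonneg_of_right h3 (by
    intro l hl
    simp only [zero_smul, sub_zero]
    have := a00_ge he heN hs h hl
    linarith)
  -- lower bound of `-⟪s, u1⟫ / ‖s‖`
  have h5 : ‖s‖ ≤ -(√(n + 3 : ℝ) * ⟪s, u1 n⟫) := by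
    have h6 : √(n + 3 : ℝ) * ⟪s, u1 n⟫ = ∑ j, s j := by
      rw [real_inner_comm, inner_u1]
      field_simp
    rw [h6, ← Finset.sum_neg_distrib]
    have h7 : ‖s‖ ^ 2 ≤ (∑ j, -s j) ^ 2 := by
      rw [norm_sq_def]
      have h8 : ∑ j, s j ^ 2 = ∑ j, (-s j) ^ 2 := Finset.sum_congr rfl fun j _ => by ring
      rw [h8]
      exact Finset.sum_sq_le_sq_sum_of_nonneg fun j _ => (neg_pos.2 (hneg j)).le
    exact le_of_sq_le_sq h7 (Finset.sum_nonneg fun j _ => (neg_pos.2 (hneg j)).le)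
  have h6 : fderiv ℝ (a00 e) s (-one n) = √(n + 3 : ℝ) * fderiv ℝ (a00 e) s (-u1 n) := by
    rw [one_eq, ← smul_neg, map_smul, smul_eq_mul]
  rw [h6]
  have h7 : 1 ≤ √(n + 3 : ℝ) * (-(⟪s, u1 n⟫ / ‖s‖)) := by
    rw [show √(n + 3 : ℝ) * (-(⟪s, u1 n⟫ / ‖s‖)) = -(√(n + 3 : ℝ) * ⟪s, u1 n⟫) / ‖s‖ by ring,
      one_le_div h0]
    exact h5
  have h8 : 0 < e ^ 3 := pow_pos he 3
  nlinarith [mul_le_mul_of_nonneg_left h4 hN.le, mul_le_mul_of_nonneg_left h7 h8.le]

/-! ### the penalty -/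

theorem lip_aux {u u' ρ ρ' : ℝ} (hu : 0 ≤ u) (hu' : 0 ≤ u') (h : u ≤ ρ) (h' : u' ≤ ρ')
    (hρ : 0 < ρ) (hρ' : 0 < ρ') : |u ^ 2 / ρ - u' ^ 2 / ρ'| ≤ 2 * |u - u'| + |ρ - ρ'| := by
  wlog hle : ρ' ≤ ρ generalizing u u' ρ ρ'
  · have := this hu' hu h' h hρ' hρ (le_of_lt (not_le.1 hle))
    rw [abs_sub_comm, abs_sub_comm u u', abs_sub_comm ρ ρ']
    exact this
  have e : u ^ 2 / ρ - u' ^ 2 / ρ' = (u - u') * ((u + u') / ρ) - u' ^ 2 / (ρ * ρ') * (ρ - ρ') := by
    field_simp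
    ring
  rw [e]
  refine (abs_sub _ _).trans (add_le_add ?_ ?_)
  · rw [abs_mul, mul_comm]
    refine mul_le_mul_of_nonneg_right ?_ (abs_nonneg _)
    rw [abs_of_nonneg (by positivity), div_le_iff₀ hρ]
    linarith
  · rw [abs_mul]
    refine mul_le_of_le_one_left (abs_nonneg _) ?_
    rw [abs_of_nonneg (by positivity), div_le_one (by positivity)]
    nlinarith

theorem sqrt_lip (a b a' b' : ℝ) : |√(a ^ 2 + b ^ 2) - √(a' ^ 2 + b' ^ 2)| ≤ |a - a'| + |b - b'| := by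
  have key : ∀ a b a' b' : ℝ, √(a ^ 2 + b ^ 2) ≤ √(a' ^ 2 + b' ^ 2) + (|a - a'| + |b - b'|) := by
    intro a b a' b'
    have h0 : 0 ≤ √(a' ^ 2 + b' ^ 2) := Real.sqrt_nonneg _
    have h1 : |a'| ≤ √(a' ^ 2 + b' ^ 2) := Real.abs_le_sqrt (by nlinarith [sq_nonneg b'])
    have h2 : |b'| ≤ √(a' ^ 2 + b' ^ 2) := Real.abs_le_sqrt (by nlinarith [sq_nonneg a'])
    have h3 : √(a' ^ 2 + b' ^ 2) ^ 2 = a' ^ 2 + b' ^ 2 := Real.sq_sqrt (by positivity)
    have h4 := abs_nonneg (a - a')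
    have h5 := abs_nonneg (b - b')
    rw [Real.sqrt_le_left (by positivity)]
    have h6 : a ^ 2 ≤ (|a'| + |a - a'|) ^ 2 := by
      rw [← sq_abs a]
      refine pow_le_pow_left₀ (abs_nonneg a) ?_ 2
      have := abs_add_le a' (a - a')
      rwa [add_sub_cancel] at this
    have h7 : b ^ 2 ≤ (|b'| + |b - b'|) ^ 2 := by
      rw [← sq_abs b]
      refine pow_le_pow_left₀ (abs_nonneg b) ?_ 2
      have := abs_add_le b' (b - b')
      rwa [add_sub_cancel] at this
    have h8 := sq_abs a'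
    have h9 := sq_abs b'
    nlinarith [mul_le_mul_of_nonneg_right h1 h4, mul_le_mul_of_nonneg_right h2 h5,
      mul_nonneg h4 h5]
  rw [abs_le]
  have h1 := key a b a' b'
  have h2 := key a' b' a b
  rw [abs_sub_comm a' a, abs_sub_comm b' b] at h2
  constructor <;> linarith

theorem pen_lip {κ : ℝ} (hκ : 0 ≤ κ) (p p' : W n × W n) :
    |pen κ p - pen κ p'| ≤ (4 + 2 * κ) * ‖p - p'‖ := by
  have a1 : |‖p.1‖ - ‖p'.1‖| ≤ ‖p - p'‖ :=
    (abs_norm_sub_norm_le _ _).trans (norm_fst_le (p - p'))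
  have a2 : |‖p.2‖ - ‖p'.2‖| ≤ ‖p - p'‖ :=
    (abs_norm_sub_norm_le _ _).trans (norm_snd_le (p - p'))
  have hu : ∀ p : W n × W n, max (‖p.2‖ - κ * ‖p.1‖) 0 ≤ √(‖p.1‖ ^ 2 + ‖p.2‖ ^ 2) := by
    intro p
    refine max_le ?_ (Real.sqrt_nonneg _)
    have h1 : ‖p.2‖ ≤ √(‖p.1‖ ^ 2 + ‖p.2‖ ^ 2) := by
      refine Real.le_sqrt_of_sq_le ?_
      nlinarith [sq_nonneg ‖p.1‖]
    have h2 := mul_nonneg hκ (norm_nonneg p.1)
    linarith
  by_cases hp : p = 0
  · rw [hp]
    have h1 : pen κ (0 : W n × W n) = 0 := by unfold pen; simp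
    rw [h1, zero_sub, abs_neg, zero_sub, norm_neg, abs_of_nonneg (pen_nonneg κ p')]
    by_cases hp' : p' = 0
    · rw [hp', h1, norm_zero, mul_zero]
    · have h2 := hu p'
      have h3 : 0 < √(‖p'.1‖ ^ 2 + ‖p'.2‖ ^ 2) := Real.sqrt_pos.2 (sq_pos_of_ne hp')
      have h4 : pen κ p' ≤ √(‖p'.1‖ ^ 2 + ‖p'.2‖ ^ 2) := by
        unfold pen
        rw [div_le_iff₀ h3]
        have h5 : 0 ≤ max (‖p'.2‖ - κ * ‖p'.1‖) 0 := le_max_right _ _
        nlinarith
      have h5 := sqrt_lip ‖p'.1‖ ‖p'.2‖ 0 0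
      simp only [ne_eq, OfNat.ofNat_ne_zero, not_false_eq_true, zero_pow, add_zero, Real.sqrt_zero,
        sub_zero, abs_norm] at h5
      rw [abs_of_pos h3] at h5
      have h6 := norm_fst_le p'
      have h7 := norm_snd_le p'
      have h8 := norm_nonneg p'
      nlinarith [mul_nonneg hκ h8]
  · by_cases hp' : p' = 0
    · rw [hp']
      have h1 : pen κ (0 : W n × W n) = 0 := by unfold pen; simp
      rw [h1, sub_zero, sub_zero, abs_of_nonneg (pen_nonneg κ p)]
      have h2 := hu p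
      have h3 : 0 < √(‖p.1‖ ^ 2 + ‖p.2‖ ^ 2) := Real.sqrt_pos.2 (sq_pos_of_ne hp)
      have h4 : pen κ p ≤ √(‖p.1‖ ^ 2 + ‖p.2‖ ^ 2) := by
        unfold pen
        rw [div_le_iff₀ h3]
        have h5 : 0 ≤ max (‖p.2‖ - κ * ‖p.1‖) 0 := le_max_right _ _
        nlinarith
      have h5 := sqrt_lip ‖p.1‖ ‖p.2‖ 0 0
      simp only [ne_eq, OfNat.ofNat_ne_zero, not_false_eq_true, zero_pow, add_zero, Real.sqrt_zero,
        sub_zero, abs_norm] at h5
      rw [abs_of_pos h3] at h5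
      have h6 := norm_fst_le p
      have h7 := norm_snd_le p
      have h8 := norm_nonneg p
      nlinarith [mul_nonneg hκ h8]
    · have h3 : 0 < √(‖p.1‖ ^ 2 + ‖p.2‖ ^ 2) := Real.sqrt_pos.2 (sq_pos_of_ne hp)
      have h3' : 0 < √(‖p'.1‖ ^ 2 + ‖p'.2‖ ^ 2) := Real.sqrt_pos.2 (sq_pos_of_ne hp')
      have h4 := lip_aux (le_max_right (‖p.2‖ - κ * ‖p.1‖) 0)
        (le_max_right (‖p'.2‖ - κ * ‖p'.1‖) 0) (hu p) (hu p') h3 h3'
      have h5 := sqrt_lip ‖p.1‖ ‖p.2‖ ‖p'.1‖ ‖p'.2‖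
      have h6 : |max (‖p.2‖ - κ * ‖p.1‖) 0 - max (‖p'.2‖ - κ * ‖p'.1‖) 0| ≤
          (1 + κ) * ‖p - p'‖ := by
        refine (abs_max_sub_max_le_abs _ _ _).trans ?_
        have e : ‖p.2‖ - κ * ‖p.1‖ - (‖p'.2‖ - κ * ‖p'.1‖) =
            (‖p.2‖ - ‖p'.2‖) - κ * (‖p.1‖ - ‖p'.1‖) := by ring
        rw [e]
        refine (abs_sub _ _).trans ?_
        rw [abs_mul, abs_of_nonneg hκ]
        have := mul_le_mul_of_nonneg_left a1 hκ
        linarith
      unfold pen
      linarith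

theorem cd_pen {κ : ℝ} (hκ : 0 < κ) {s y : W n} (hs : s ≠ 0) :
    ContDiffAt ℝ 1 (pen κ : W n × W n → ℝ) (s, y) := by
  have hns : 0 < ‖s‖ := norm_pos_iff.2 hs
  have h1 : ContDiffAt ℝ 1 (fun p : W n × W n => ‖p.1‖) (s, y) :=
    ContDiffAt.comp (g := fun s : W n => ‖s‖) (s, y) (cd_norm hs) contDiffAt_fst
  rcases lt_or_ge ‖y‖ (κ * ‖s‖) with h | h
  · have c1 : Continuous fun p : W n × W n => κ * ‖p.1‖ := continuous_const.mul continuous_fst.norm
    have c2 : Continuous fun p : W n × W n => ‖p.2‖ := continuous_snd.norm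
    have h2 : {p : W n × W n | ‖p.2‖ < κ * ‖p.1‖} ∈ 𝓝 (s, y) := (isOpen_lt c2 c1).mem_nhds h
    have h3 : (pen κ : W n × W n → ℝ) =ᶠ[𝓝 (s, y)] fun _ => 0 := by
      filter_upwards [h2] with p hp
      exact pen_of_le (le_of_lt hp)
    exact contDiffAt_const.congr_of_eventuallyEq h3
  · have hy : y ≠ 0 := by
      intro hy
      rw [hy, norm_zero] at h
      have := mul_pos hκ hns
      linarith
    have h2 : ContDiffAt ℝ 1 (fun p : W n × W n => ‖p.2‖) (s, y) :=
      ContDiffAt.comp (g := fun s : W n => ‖s‖) (s, y) (cd_norm hy) contDiffAt_snd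
    have h3 : ContDiff ℝ 1 (tp 2) := contDiff_tp 1 2 (by norm_num)
    have h4 : ContDiffAt ℝ 1 (fun p : W n × W n => tp 2 (‖p.2‖ - κ * ‖p.1‖)) (s, y) :=
      ContDiffAt.comp (g := tp 2) (s, y) h3.contDiffAt (h2.sub (contDiffAt_const.mul h1))
    have h5 : (pen κ : W n × W n → ℝ) = fun p => tp 2 (‖p.2‖ - κ * ‖p.1‖) /
        √(‖p.1‖ ^ 2 + ‖p.2‖ ^ 2) := by
      funext p
      unfold pen tp
      rw [max_comm]
    rw [h5]
    have h6 : 0 < ‖s‖ ^ 2 + ‖y‖ ^ 2 := by positivity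
    refine h4.div (((h1.pow 2).add (h2.pow 2)).sqrt ?_) ?_
    · exact h6.ne'
    · exact (Real.sqrt_pos.2 h6).ne'

theorem pen_pos {κ : ℝ} {y : W n} (hy : y ≠ 0) : 0 < pen κ ((0 : W n), y) := by
  have h0 : 0 < ‖y‖ := norm_pos_iff.2 hy
  unfold pen
  simp only [norm_zero, mul_zero, sub_zero]
  rw [max_eq_left h0.le]
  positivity

/-! ### over the ray `s = l (1, …, 1)` -/

section ray

variable (L : LS n m) (Q : Par n) (hsm : ∀ k l j, L.sg k j ≠ L.sg l j →
    Q.ep * (‖vec (n := n) (L.V k)‖ + ‖vec (n := n) (L.V l)‖) < Q.d * |L.sg k j - L.sg l j|)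

theorem dN (Q : Par n) : Q.d * √(n + 3 : ℝ) < 1 := by
  have hN := sqrt_pos n
  have hNsq : √(n + 3 : ℝ) ^ 2 = n + 3 := Real.sq_sqrt (by positivity)
  have h1 := Q.hdN
  have h3 : (Q.d * √(n + 3 : ℝ)) ^ 2 < 1 ^ 2 := by
    rw [mul_pow, hNsq]
    linarith
  exact lt_of_pow_lt_pow_left₀ 2 zero_le_one h3

theorem norm_ray {l : ℝ} (hl : 0 < l) : ‖l • one n‖ = l * √(n + 3 : ℝ) := by
  rw [norm_smul, norm_one', Real.norm_of_nonneg hl.le]

theorem thf_ray {l : ℝ} (hl : 0 < l) : thf Q.ω (l • one n) = 0 := by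
  have hN := sqrt_pos n
  have h1 : ⟪u1 n, l • one n⟫ / ‖l • one n‖ = 1 := by
    rw [norm_ray hl, one_eq, inner_smul_right, inner_smul_right, inner_u1_u1, mul_one]
    exact div_self (mul_pos hl hN).ne'
  unfold thf
  rw [h1, sub_self, zero_div, zero_sub]
  exact st_of_le (by norm_num)

theorem eta_ray (k : Fin m) {l : ℝ} (hl : 0 < l) :
    (hd L Q hsm).eta k (l • one n) = vec fun j => L.sg k j * l := by
  have hN := sqrt_pos n
  have h0 : l • one n ≠ 0 := smul_ne_zero hl.ne' one_ne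
  ext j
  rw [eta_apply]
  have h1 : (hd L Q hsm).th (l • one n) = 0 := thf_ray Q hl
  have h2 : (hd L Q hsm).hs (l • one n) j = (l • one n) j := by
    refine hs_of_large _ h0 ?_
    have h3 := dN Q
    show Q.d * ‖l • one n‖ ≤ (l • one n) j
    rw [norm_ray hl, PiLp.smul_apply, one_apply, smul_eq_mul, mul_one]
    nlinarith
  rw [h1, h2, PiLp.smul_apply, one_apply, smul_eq_mul, mul_one, max_eq_left hl.le, vec_apply]
  show l * L.sg k j + _ = _
  ring

theorem A_ray {l : ℝ} (hl : 0 < l) (v : W n) : (hd L Q hsm).A (l • one n) v = v := by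
  have h0 : l • one n ≠ 0 := smul_ne_zero hl.ne' one_ne
  have h1 : (hd L Q hsm).ka (l • one n) = 0 := by
    by_contra h
    have := neg_of_kaf Q.he h0 h 0
    rw [PiLp.smul_apply, one_apply, smul_eq_mul, mul_one] at this
    linarith
  rw [HD.A, h1, zero_mul, zero_smul, add_zero]

end ray

/-! ### the facts about `G` -/

/-- everything the carve needs from the function `G` (`p` = half distance of the rays) -/
structure CF (L : LS n m) (Q : Par n) (hsm : ∀ k l j, L.sg k j ≠ L.sg l j →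
    Q.ep * (‖vec (n := n) (L.V k)‖ + ‖vec (n := n) (L.V l)‖) < Q.d * |L.sg k j - L.sg l j|)
    (p r2 κ2 : ℝ) (G : (Fin (n + 3) → ℂ) → ℂ) : Prop where
  hp : 2 < p
  rays : ∀ k j, ∃ a : ℕ, L.sg k j = p * (2 * a + 1)
  hr2 : 0 < r2
  hκ2 : 0 < κ2
  T1 : ∀ k s, s ≠ 0 → ‖hor ((hd L Q hsm).eta k s)‖ < κ2 * ‖s‖
  sm : ContDiffOn ℝ 2 G {0}ᶜ
  hom : ∀ (r : ℝ) x, 0 < r → G (r • x) = r • G x
  S0 : ∀ x : Fin (n + 3) → ℂ, (∀ j, (x j).re = 0) → (G x).re = 0
  K1 : ∀ x, x ≠ 0 → (G x).im = 0 → 0 ≤ (G x).re →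
    ∃ V : Fin (n + 3) → ℝ, (fderiv ℝ G x (vt V)).im ≠ 0
  K2 : ∀ x, x ≠ 0 → G x = 0 → ∃ (b : ℝ) (Y : Fin (n + 3) → ℝ), 0 ≤ b ∧
    (fderiv ℝ G x (vs b Y)).im = 0 ∧ 0 < (fderiv ℝ G x (vs b Y)).re
  c00 : ∀ h : ℝ, (G fun _ => Complex.I * (h : ℂ)).im = 0 → h = 0
  low : ∀ x : Fin (n + 3) → ℂ, (∀ j, (x j).re < 0) → 0 < (G x).re
  tube : ∀ (s t : W n) k, s ≠ 0 → ‖t - (hd L Q hsm).eta k s‖ ≤ r2 * ‖s‖ →
    (G (zc s t)).im = ⟪(hd L Q hsm).nrm k s, t - (hd L Q hsm).eta k s⟫ ∧ 0 < (G (zc s t)).re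
  R4 : ∀ (l : ℝ) x, 0 < l → (∀ j, (x j).re = l) → (G x).im = 0 → 0 ≤ (G x).re →
    ∃ (k : Fin m) (Y : Fin (n + 3) → ℝ), (fderiv ℝ G x (vt Y)).im = 0 ∧
      (fderiv ℝ G x (vt Y)).re ≤ 0 ∧ ((G x).re = 0 → (fderiv ℝ G x (vt Y)).re < 0) ∧
      ∀ j, ((x j).im - L.sg k j * l) ^ 2 ≤ ((x j).im - L.sg k j * l) * Y j ∧
        |(x j).im - L.sg k j * l| < 2 * l

theorem sv_of_re {x : Fin (n + 3) → ℂ} {l : ℝ} (h : sv x = l • one n) (j : Fin (n + 3)) :
    (x j).re = l := by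
  have := congrArg (fun v : W n => v j) h
  simpa using this

variable {L : LS n m} {Q : Par n} {hsm : ∀ k l j, L.sg k j ≠ L.sg l j →
    Q.ep * (‖vec (n := n) (L.V k)‖ + ‖vec (n := n) (L.V l)‖) < Q.d * |L.sg k j - L.sg l j|}
    {p r2 κ2 : ℝ} {G : (Fin (n + 3) → ℂ) → ℂ}

/-- a sufficient condition for `T1` -/
theorem T1_of (L : LS n m) (Q : Par n) (hsm : ∀ k l j, L.sg k j ≠ L.sg l j →
    Q.ep * (‖vec (n := n) (L.V k)‖ + ‖vec (n := n) (L.V l)‖) < Q.d * |L.sg k j - L.sg l j|)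
    {Sg Vm κ2 : ℝ} (hSg : ∀ k j, |L.sg k j| ≤ Sg) (hVm : ∀ k, ‖vec (n := n) (L.V k)‖ ≤ Vm)
    (hSg0 : 0 ≤ Sg) (h : Sg + Q.ep * Vm < κ2) (k : Fin m) (s : W n) (hs : s ≠ 0) :
    ‖hor ((hd L Q hsm).eta k s)‖ < κ2 * ‖s‖ :=
  ((CD.norm_hor_le _).trans (EndH_864.norm_eta_le L Q hsm hSg hVm hSg0 k s)).trans_lt
    (mul_lt_mul_of_pos_right h (norm_pos_iff.2 hs))

/-- the slope of the gauge `ψ` -/
theorem exists_K (L : LS n m) : ∃ K : ℝ, ∀ k j, |L.sg k j| + 2 ≤ K := by
  refine ⟨(∑ k, ∑ j, |L.sg k j|) + 2, fun k j => ?_⟩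
  have h1 : |L.sg k j| ≤ ∑ j, |L.sg k j| :=
    Finset.single_le_sum (f := fun j => |L.sg k j|) (fun j _ => abs_nonneg _) (Finset.mem_univ j)
  have h2 : ∑ j, |L.sg k j| ≤ ∑ k, ∑ j, |L.sg k j| :=
    Finset.single_le_sum (f := fun k => ∑ j, |L.sg k j|)
      (fun k _ => Finset.sum_nonneg fun j _ => abs_nonneg _) (Finset.mem_univ k)
  linarith

/-- the property over the ray in the form of `CD` -/
theorem R4' (H : CF L Q hsm p r2 κ2 G) {K : ℝ} (hK : ∀ k j, |L.sg k j| + 2 ≤ K) (l : ℝ)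
    (x : Fin (n + 3) → ℂ) (hl : 0 < l) (hs : sv x = l • one n) (hc : (G x).im = 0)
    (hg : 0 ≤ (G x).re) :
    ∃ (k : Fin m) (Y : Fin (n + 3) → ℝ), (fderiv ℝ G x (vt Y)).im = 0 ∧
      (fderiv ℝ G x (vt Y)).re ≤ 0 ∧ ((G x).re = 0 → (fderiv ℝ G x (vt Y)).re < 0) ∧
      (tv x ≠ (hd L Q hsm).eta k (sv x) → 0 < fderiv ℝ (psi p K) x (vt Y) ∧
        0 < (⟪tv x - (hd L Q hsm).eta k (sv x), vec Y⟫ : ℝ)) ∧
      ∀ k', k' ≠ k → 1 / √(n + 3 : ℝ) * ‖sv x‖ ≤ ‖tv x - (hd L Q hsm).eta k' (sv x)‖ := by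
  have hN := sqrt_pos n
  have hre := sv_of_re hs
  obtain ⟨k, Y, h1, h2, h3, h4⟩ := H.R4 l x hl hre hc hg
  have hx0 : x ≠ 0 := by
    intro h
    have := hre 0
    rw [h] at this
    simp at this
    exact hl.ne this
  have hp := H.hp
  have hv : ∀ j, (tv x - (hd L Q hsm).eta k (sv x)) j = (x j).im - L.sg k j * l := by
    intro j
    rw [hs, eta_ray L Q hsm k hl]
    rfl
  refine ⟨k, Y, h1, h2, h3, fun hne => ?_, fun k' hk' => ?_⟩
  · obtain ⟨i, hi⟩ : ∃ i, (x i).im - L.sg k i * l ≠ 0 := by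
      by_contra h
      push Not at h
      apply hne
      rw [← sub_eq_zero]
      ext j
      rw [hv j, h j]
      rfl
    constructor
    · have hBB : Calc3_957.BB x < K ^ 2 * Calc3_957.AA x := by
        unfold Calc3_957.BB Calc3_957.AA
        rw [Finset.mul_sum]
        refine Finset.sum_lt_sum_of_nonempty ⟨0, Finset.mem_univ _⟩ fun j _ => ?_
        rw [hre j, ← mul_pow]
        have h5 : |(x j).im| < K * l := by
          have h6 : (x j).im = ((x j).im - L.sg k j * l) + L.sg k j * l := by ring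
          rw [h6]
          refine (abs_add_le _ _).trans_lt ?_
          rw [abs_mul, abs_of_pos hl]
          have h7 := (h4 j).2
          have h8 := mul_le_mul_of_nonneg_right (hK k j) hl.le
          nlinarith
        have := pow_lt_pow_left₀ h5 (abs_nonneg _) two_ne_zero
        rwa [sq_abs] at this
      rw [CarvePsi_363.fderiv_psi hx0 hl hre hBB]
      have hAA : 0 < Calc3_957.AA x := by
        unfold Calc3_957.AA
        refine Finset.sum_pos (fun j _ => ?_) ⟨0, Finset.mem_univ _⟩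
        rw [hre j]
        exact pow_pos hl 2
      refine div_pos (Finset.sum_pos' (fun j _ => ?_) ⟨i, Finset.mem_univ _, ?_⟩) hAA
      · obtain ⟨a, ha⟩ := H.rays k j
        exact (CarvePsi_363.radt_mul hp hl ha (hre j) (h4 j).2 (h4 j).1).1
      · obtain ⟨a, ha⟩ := H.rays k i
        exact (CarvePsi_363.radt_mul hp hl ha (hre i) (h4 i).2 (h4 i).1).2 hi
    · rw [inner_def]
      refine Finset.sum_pos' (fun j _ => ?_) ⟨i, Finset.mem_univ _, ?_⟩
      · rw [hv j, vec_apply]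
        exact (sq_nonneg _).trans (h4 j).1
      · rw [hv i, vec_apply]
        exact lt_of_lt_of_le (by positivity) (h4 i).1
  · obtain ⟨i, hi⟩ := exists_sg_ne (hd L Q hsm) hk'
    have hi' : L.sg k' i ≠ L.sg k i := hi
    obtain ⟨a, ha⟩ := H.rays k' i
    obtain ⟨b, hb⟩ := H.rays k i
    have hab : (a : ℤ) ≠ b := by
      intro h
      apply hi'
      have : a = b := by exact_mod_cast h
      rw [ha, hb, this]
    have hab' : (1 : ℝ) ≤ |(a : ℝ) - b| := by
      have h5 : (1 : ℤ) ≤ |(a : ℤ) - b| := Int.one_le_abs (sub_ne_zero.2 hab)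
      exact_mod_cast h5
    have h5 : 2 * p ≤ |L.sg k' i - L.sg k i| := by
      rw [ha, hb, show p * (2 * (a : ℝ) + 1) - p * (2 * b + 1) = 2 * p * (a - b) by ring, abs_mul,
        abs_of_pos (by linarith : 0 < 2 * p)]
      nlinarith
    have hv' : (tv x - (hd L Q hsm).eta k' (sv x)) i = (x i).im - L.sg k' i * l := by
      rw [hs, eta_ray L Q hsm k' hl]
      rfl
    have h6 : l ≤ |(tv x - (hd L Q hsm).eta k' (sv x)) i| := by
      rw [hv']
      have h7 : (L.sg k' i - L.sg k i) * l =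
          ((x i).im - L.sg k i * l) - ((x i).im - L.sg k' i * l) := by ring
      have h8 : |(L.sg k' i - L.sg k i) * l| ≤
          |(x i).im - L.sg k i * l| + |(x i).im - L.sg k' i * l| := by
        rw [h7]
        exact abs_sub _ _
      rw [abs_mul, abs_of_pos hl] at h8
      have h9 := (h4 i).2
      nlinarith
    rw [hs, norm_ray hl, ← hs]
    refine le_trans ?_ (h6.trans (abs_apply_le _ i))
    rw [one_div, mul_comm l, inv_mul_cancel_left₀ hN.ne']

/-- **THE CARVE FOR THE LITERAL DATA** -/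
theorem carve3 (H : CF L Q hsm p r2 κ2 G) :
    ∃ r0 > 0, ∀ r, 0 < r → r < r0 → ∃ ε0 > 0, ∀ ε, 0 < ε → ε ≤ ε0 →
      FLOut G (hd L Q hsm) Q.e κ2 ε r := by
  obtain ⟨K, hK⟩ := exists_K L
  obtain ⟨c, hc, hcA⟩ := exists_lA L Q hsm
  have hN := sqrt_pos n
  have hne : -one n ≠ 0 := neg_ne_zero.2 one_ne
  let P : CD n m :=
    { G := G
      ψ := psi p K
      eta := (hd L Q hsm).eta
      A := (hd L Q hsm).A
      nrm := (hd L Q hsm).nrm
      a00 := a00 Q.e
      ww := fun s t => pen κ2 (s, hor t)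
      κ2 := κ2
      r2 := r2
      r3 := 1 / √(n + 3 : ℝ)
      lA := c
      c1 := Q.e ^ 3
      sm := H.sm
      hom := H.hom
      S0 := H.S0
      K1 := H.K1
      K2 := H.K2
      c00 := H.c00
      sψ := CarvePsi_363.contDiffOn_psi p K
      ψ0 := fun x hx => CarvePsi_363.psi_pos p K hx
      hψ := fun r x hr => CarvePsi_363.psi_smul p K hr x
      low := fun x hx h => H.low x fun j => neg_of_a00 Q.he hx h j
      hr2 := H.hr2
      tube := fun k x hx h => H.tube (sv x) (tv x) k hx h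
      hr3 := one_div_pos.2 hN
      R4 := R4' H hK
      ceta := fun k s hs => (cd_eta L Q hsm k hs).contDiffWithinAt
      heta := fun k c s hc => eta_smul _ hc k s
      cA := fun s v hs => cd_A L Q hsm hs
      hA := fun c s v hc => A_homog _ hc s v
      Aadd := A_add _
      Asmul := A_smul _
      hlA := hc
      Alow := hcA
      A1 := fun l v hl => A_ray L Q hsm hl v
      ca00 := fun s hs => (cd_a00 Q.e hs).contDiffWithinAt
      h00 := fun c s hc => a00_smul Q.e hc s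
      hc1 := pow_pos Q.he 3
      m00 := fun s hs h => fderiv_a00 Q.he Q.heN hs h
      neg1 := a00_pos Q.he hne fun j => by
        rw [norm_neg, norm_one', PiLp.neg_apply, one_apply]
        have := Q.heN
        linarith
      pos1 := by
        by_contra h
        push Not at h
        have := neg_of_a00 Q.he one_ne h 0
        rw [one_apply] at this
        linarith
      ww_nonneg := fun s t => pen_nonneg _ _
      hww := fun c s t hc => by
        have h1 : ((c • s, hor (c • t)) : W n × W n) = c • (s, hor t) := by rw [hor_smul]; rfl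
        show pen κ2 (c • s, hor (c • t)) = _
        rw [h1, pen_smul κ2 hc]
      cww := fun s t hs => ContDiffAt.comp (g := (pen κ2 : W n × W n → ℝ))
        (f := fun p : W n × W n => (p.1, hor p.2)) (s, t) (cd_pen H.hκ2 hs)
        (contDiffAt_fst.prodMk (cd_hor contDiffAt_snd))
      lww := by
        refine ⟨4 + 2 * κ2, fun q q' => ?_⟩
        refine (pen_lip H.hκ2.le (q.1, hor q.2) (q'.1, hor q'.2)).trans ?_
        refine mul_le_mul_of_nonneg_left ?_ (by have := H.hκ2; positivity)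
        have e : ((q.1, hor q.2) : W n × W n) - (q'.1, hor q'.2) =
            (q.1 - q'.1, hor (q.2 - q'.2)) := by rw [hor_sub]; rfl
        rw [e]
        refine max_le (norm_fst_le (q - q')) ?_
        exact (CD.norm_hor_le _).trans (norm_snd_le (q - q'))
      ww_c := (pen_continuous κ2).comp (f := fun p : W n × W n => (p.1, hor p.2))
        (continuous_fst.prodMk (continuous_hor.comp continuous_snd))
      ww_zero := fun s t h => pen_of_le (p := (s, hor t)) h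
      ww_pos := fun t h => pen_pos h
      T1 := H.T1
      dis := fun s hs h k l hkl => by
        refine eta_ne _ hkl hs ?_
        by_contra hh
        push Not at hh
        refine absurd h (not_le.2 (a00_pos Q.he hs fun j => ?_))
        have h1 := (hh j).le
        have h2 := Q.hed
        have h3 := norm_nonneg s
        have h4 : s j ≤ -(Q.d * ‖s‖) := h1
        nlinarith }
  obtain ⟨r0, hr0, h⟩ := P.flout
  refine ⟨r0, hr0, fun r hr hrr => ?_⟩
  obtain ⟨ε0, hε0, h'⟩ := h r hr hrr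
  refine ⟨ε0, hε0, fun ε hε hεε => ?_⟩
  obtain ⟨F, hF1, hF2⟩ := h' ε hε hεε
  refine ⟨F, hF1, fun x hx => ?_⟩
  have h1 := hF2 x
  have h2 : G x = 0 ↔ (G x).re = 0 := ⟨fun h => by rw [h]; rfl, fun h => Complex.ext h hx⟩
  rw [← h2]
  refine h1.trans ?_
  have h3 : (G (F x)).im = 0 := by
    have := hF1 x
    rw [show (G (F x)).im = (G x).im from this, hx]
  exact ⟨fun h => h.2, fun h => ⟨h3, h⟩⟩

end Crest.Agent.R267.Carve3_363
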