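import Crest.Agent.R267.LDs_667
import Crest.Agent.R267.LDp_667
import Crest.Agent.R267.LDy_667
import Crest.Agent.R267.LDq_667
import Crest.Agent.R267.LDz_667

-- ▼ part R267/LCy_667
section

set_option autoImplicit false
set_option maxRecDepth 100000

namespace Crest.Agent.R267.LCy_667

open LightG_667 LightK_667 LightE_667 LightF_667

theorem a0 : cells 0 (rel LDs_667.m LDp_667.p LDy_667.y 0) = true := by decide +kernel

theorem a1 : cells 1 (rel LDs_667.m LDp_667.p LDy_667.y 1) = true := by decide +kernel

theorem a2 : cells 2 (rel LDs_667.m LDp_667.p LDy_667.y 2) = true := by decide +kernel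

theorem a3 : cells 3 (rel LDs_667.m LDp_667.p LDy_667.y 3) = true := by decide +kernel

theorem a4 : cells 4 (rel LDs_667.m LDp_667.p LDy_667.y 4) = true := by decide +kernel

theorem a5 : cells 5 (rel LDs_667.m LDp_667.p LDy_667.y 5) = true := by decide +kernel

theorem a6 : cells 6 (rel LDs_667.m LDp_667.p LDy_667.y 6) = true := by decide +kernel

theorem a7 : cells 7 (rel LDs_667.m LDp_667.p LDy_667.y 7) = true := by decide +kernel

theorem a8 : cells 8 (rel LDs_667.m LDp_667.p LDy_667.y 8) = true := by decide +kernel

theorem a9 : cells 9 (rel LDs_667.m LDp_667.p LDy_667.y 9) = true := by decide +kernel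

theorem a10 : cells 10 (rel LDs_667.m LDp_667.p LDy_667.y 10) = true := by decide +kernel

theorem a11 : cells 11 (rel LDs_667.m LDp_667.p LDy_667.y 11) = true := by decide +kernel

theorem a12 : cells 12 (rel LDs_667.m LDp_667.p LDy_667.y 12) = true := by decide +kernel

theorem a : ∀ c < 13, cells c (rel LDs_667.m LDp_667.p LDy_667.y c) = true := by
  intro c hc
  interval_cases c
  · exact a0
  · exact a1
  · exact a2
  · exact a3
  · exact a4
  · exact a5
  · exact a6
  · exact a7
  · exact a8
  · exact a9
  · exact a10
  · exact a11
  · exact a12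

theorem sh : shp LDy_667.y = true := by decide +kernel


end Crest.Agent.R267.LCy_667
end

-- ▼ part R267/LCz_667

set_option autoImplicit false
set_option maxRecDepth 100000

namespace Crest.Agent.R267.LCz_667

open LightG_667 LightK_667 LightE_667 LightF_667

theorem a0 : cells 0 (relT LDs_667.m LDq_667.q LDz_667.z 0) = true := by decide +kernel

theorem a1 : cells 1 (relT LDs_667.m LDq_667.q LDz_667.z 1) = true := by decide +kernel

theorem a2 : cells 2 (relT LDs_667.m LDq_667.q LDz_667.z 2) = true := by decide +kernel

theorem a3 : cells 3 (relT LDs_667.m LDq_667.q LDz_667.z 3) = true := by decide +kernel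

theorem a4 : cells 4 (relT LDs_667.m LDq_667.q LDz_667.z 4) = true := by decide +kernel

theorem a5 : cells 5 (relT LDs_667.m LDq_667.q LDz_667.z 5) = true := by decide +kernel

theorem a6 : cells 6 (relT LDs_667.m LDq_667.q LDz_667.z 6) = true := by decide +kernel

theorem a7 : cells 7 (relT LDs_667.m LDq_667.q LDz_667.z 7) = true := by decide +kernel

theorem a8 : cells 8 (relT LDs_667.m LDq_667.q LDz_667.z 8) = true := by decide +kernel

theorem a9 : cells 9 (relT LDs_667.m LDq_667.q LDz_667.z 9) = true := by decide +kernel

theorem a10 : cells 10 (relT LDs_667.m LDq_667.q LDz_667.z 10) = true := by decide +kernel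

theorem a11 : cells 11 (relT LDs_667.m LDq_667.q LDz_667.z 11) = true := by decide +kernel

theorem a12 : cells 12 (relT LDs_667.m LDq_667.q LDz_667.z 12) = true := by decide +kernel

theorem a : ∀ c < 13, cells c (relT LDs_667.m LDq_667.q LDz_667.z c) = true := by
  intro c hc
  interval_cases c
  · exact a0
  · exact a1
  · exact a2
  · exact a3
  · exact a4
  · exact a5
  · exact a6
  · exact a7
  · exact a8
  · exact a9
  · exact a10
  · exact a11
  · exact a12


end Crest.Agent.R267.LCz_667
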