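import Crest.Agent.R267.LCp_667
import Crest.Agent.R267.LCq_667
import Crest.Agent.R267.LCz_667_Mg
import Crest.Agent.R267.LCx0_667
import Crest.Agent.R267.LCx1_667
import Crest.Agent.R267.LCx2_667
import Crest.Agent.R267.LCx3_667
import Crest.Agent.R267.LCn_667
import Crest.Agent.R267.LCc_667

/-!
# Light certificate: `Uᵀ Bg U = Bf` (row 267, P3.4)
-/

set_option autoImplicit false

namespace Crest.Agent.R267.LightZ_667

open Matrix NL_330 LightA_667 LightB_667 LightG_667 LightK_667 LightE_667 LightF_667 LightH_667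

/-- the data. -/
def D : Dat where
  m := LDs_667.m
  B := LDs_667.B
  m3 := LDs_667.m3
  B3 := LDs_667.B3
  rows := LDs_667.rows
  p := LDp_667.p
  p' := LDq_667.q
  z := LDy_667.y
  z' := LDz_667.z
  nr := LDs_667.nr
  nhr := LDs_667.nhr
  n3 := LDs_667.n3
  z3 := LDs_667.w3
  bL := LDs_667.bL
  b1 := LDs_667.b1
  b2 := LDs_667.b2
  r1 := LDs_667.r1
  rl := LDs_667.rl
  hL := LDs_667.hL
  t := LDs_667.t
  s := LDs_667.s
  b3 := LDs_667.b3
  cg := LDs_667.cg
  cf := LDs_667.cf
  c0 := LDs_667.c0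
  c0' := LDs_667.c0q
  c3 := LDs_667.c3
  c3h := LDs_667.c3h
  g1 := LDs_667.g1
  gq := LDs_667.gq
  g3 := LDs_667.g3

theorem hx_all : ∀ x < 84,
    eqm LDs_667.m (nth 0 LDs_667.hL x) (hx LDs_667.rows LDs_667.cg LDy_667.y x) = true := by
  have h : ∀ x ∈ ([0, 1, 2, 3, 4, 5, 6] ++ [7, 8, 9, 10, 11, 12, 13] ++ [14, 15, 16, 17, 18, 19, 20] ++
      [21, 22, 23, 24, 25, 26, 27] ++ [28, 29, 30, 31, 32, 33, 34] ++ [35, 36, 37, 38, 39, 40, 41] ++
      [42, 43, 44, 45, 46, 47, 48] ++ [49, 50, 51, 52, 53, 54, 55] ++ [56, 57, 58, 59, 60, 61, 62] ++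
      [63, 64, 65, 66, 67, 68, 69] ++ [70, 71, 72, 73, 74, 75, 76] ++ [77, 78, 79, 80, 81, 82, 83] :
        List ℕ),
      eqm LDs_667.m (nth 0 LDs_667.hL x) (hx LDs_667.rows LDs_667.cg LDy_667.y x) = true := by
    intro x hx
    rcases List.mem_append.1 hx with hx | hx
    · rcases List.mem_append.1 hx with hx | hx
      · rcases List.mem_append.1 hx with hx | hx
        · rcases List.mem_append.1 hx with hx | hx
          · rcases List.mem_append.1 hx with hx | hx
            · rcases List.mem_append.1 hx with hx | hx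
              · rcases List.mem_append.1 hx with hx | hx
                · rcases List.mem_append.1 hx with hx | hx
                  · rcases List.mem_append.1 hx with hx | hx
                    · rcases List.mem_append.1 hx with hx | hx
                      · rcases List.mem_append.1 hx with hx | hx
                        · exact allL_iff _ _ LCx0_667.a0 x hx
                        · exact allL_iff _ _ LCx0_667.a1 x hx
                      · exact allL_iff _ _ LCx0_667.a2 x hx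
                    · exact allL_iff _ _ LCx1_667.a0 x hx
                  · exact allL_iff _ _ LCx1_667.a1 x hx
                · exact allL_iff _ _ LCx1_667.a2 x hx
              · exact allL_iff _ _ LCx2_667.a0 x hx
            · exact allL_iff _ _ LCx2_667.a1 x hx
          · exact allL_iff _ _ LCx2_667.a2 x hx
        · exact allL_iff _ _ LCx3_667.a0 x hx
      · exact allL_iff _ _ LCx3_667.a1 x hx
    · exact allL_iff _ _ LCx3_667.a2 x hx
  intro x hx
  refine h x ?_
  have h2 : ∀ x < 84, x ∈ ([0, 1, 2, 3, 4, 5, 6] ++ [7, 8, 9, 10, 11, 12, 13] ++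
      [14, 15, 16, 17, 18, 19, 20] ++
      [21, 22, 23, 24, 25, 26, 27] ++ [28, 29, 30, 31, 32, 33, 34] ++ [35, 36, 37, 38, 39, 40, 41] ++
      [42, 43, 44, 45, 46, 47, 48] ++ [49, 50, 51, 52, 53, 54, 55] ++ [56, 57, 58, 59, 60, 61, 62] ++
      [63, 64, 65, 66, 67, 68, 69] ++ [70, 71, 72, 73, 74, 75, 76] ++ [77, 78, 79, 80, 81, 82, 83] :
        List ℕ) := by decide +kernel
  exact h2 x hx

theorem ok : D.Ok where
  hB := (by decide +kernel : 2 ^ 61 < LDs_667.B)
  hm := LCc_667.hm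
  hB3 := (by decide +kernel : 2 ^ 28 < LDs_667.B3)
  hm3 := (by decide +kernel : LDs_667.B3 ^ 3 ≤ LDs_667.m3)
  l1 := (by decide +kernel : len LDs_667.bL = 84)
  l2 := (by decide +kernel : len LDs_667.b2 = 84)
  l3 := (by decide +kernel : len LDs_667.b3 = 3)
  l4 := (by decide +kernel : len LDs_667.s = 3)
  k1a := LCc_667.k1a
  k1b := LCc_667.k1b
  k2 := LCc_667.k2
  k3 := LCc_667.k3
  k4 := LCc_667.k4
  k4' := LCc_667.k4'
  k5 := LCp_667.a
  k5' := LCq_667.a
  k6s := LCy_667.sh
  k6 := LCy_667.a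
  k7 := LCz_667.a
  k8 := LCc_667.k8
  k9 := LCc_667.k9
  k10 := LCc_667.k10
  k10' := by
    intro j hj
    interval_cases j
    · exact LCc_667.k100
    · exact LCc_667.k101
    · exact LCc_667.k102
  k11a := LCc_667.k11a
  k11b := LCc_667.k11b
  k11c := LCc_667.k11c
  k12 := LCc_667.a
  k13 := LCc_667.k13
  k14 := LCc_667.k14
  k14' := hx_all
  k15 := LCc_667.k15
  k16a := (by decide +kernel : eqm LDs_667.m3 (nth 0 LDs_667.b3 0) 1 = true)
  k16b := (by decide +kernel : eqm LDs_667.m3 (nth 0 LDs_667.b3 1) LDs_667.B3 = true)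
  k16c := (by decide +kernel :
    eqm LDs_667.m3 (nth 0 LDs_667.b3 2) (Nat.mul LDs_667.B3 LDs_667.B3) = true)
  k17 := (by decide +kernel :
    eqm LDs_667.m3 (Nat.add LDs_667.c3 (Nat.mul 4 (ls3 LDs_667.b3))) 0 = true)
  k17h := (by decide +kernel :
    eqm LDs_667.m3 (Nat.add LDs_667.c3h (Nat.mul 8 (ls3 LDs_667.b3))) 0 = true)
  k18 := LCn_667.a
  k18h := LCn_667.b
  k19s := LCn_667.sh
  k19 := LCn_667.c
  k19' := LCn_667.d
  k20 := LCn_667.k20
  k20a := LCn_667.k20a
  k20b := LCn_667.k20b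
  k20c := LCn_667.k20c

/-- **the padded matrices are congruent.** -/
theorem cert : ∃ U : Matrix ((X ⊕ X) ⊕ V) ((X ⊕ X) ⊕ V) ℤ, Uᵀ * Bg * U = Bf := ok.cert

end Crest.Agent.R267.LightZ_667
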