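import Crest.Agent.R267.LightB_667
import Crest.Agent.R267.LightZ_667

-- ▼ part R267/LightR_330
section

/-!
# Light certificate: the reindexing (row 267, P3.4)

`cert_of`: an isometry of the padded block matrices `Bg`, `Bf` of `LightB_667` gives an isometry
of the positional nested-level matrices of `NLb_330`.
-/

set_option autoImplicit false

namespace Crest.Agent.R267.LightR_330

open Matrix NL_330 LightA_667 LightB_667

theorem lv_le {k l : ℕ} (h1 : 2 ≤ k) (h2 : k ≤ 15) (h3 : 2 ≤ l) (h4 : l ≤ 15) :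
    lv k ≤ lv l ↔ k ≤ l := by
  rw [Fin.le_def, lv_val h1 h2, lv_val h3 h4]
  omega

theorem li_le {k l : ℕ} (h1 : 1 ≤ k) (h2 : k ≤ 14) (h3 : 1 ≤ l) (h4 : l ≤ 14) :
    li k ≤ li l ↔ k ≤ l := by
  rw [Fin.le_def, li_val h1 h2, li_val h3 h4]
  omega

theorem lv_inj {k l : ℕ} (h1 : 2 ≤ k) (h2 : k ≤ 15) (h3 : 2 ≤ l) (h4 : l ≤ 15)
    (h : lv k = lv l) : k = l := by
  have := congrArg Fin.val h
  rw [lv_val h1 h2, lv_val h3 h4] at this
  omega

theorem li_inj {k l : ℕ} (h1 : 1 ≤ k) (h2 : k ≤ 14) (h3 : 1 ≤ l) (h4 : l ≤ 14)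
    (h : li k = li l) : k = l := by
  have := congrArg Fin.val h
  rw [li_val h1 h2, li_val h3 h4] at this
  omega

/-! ### masks -/

theorem wid_1 {c : ℕ} (h0 : c ≠ 0) (h7 : c < 7) (k : ℕ) : wid c k = wid 1 k := by
  unfold wid
  rw [if_neg h0, if_pos h7, if_neg (by norm_num), if_pos (by norm_num)]

theorem wid_7 {c : ℕ} (h7 : ¬ c < 7) (k : ℕ) : wid c k = 14 := by
  unfold wid
  rw [if_neg (by omega), if_neg h7]

theorem lF : ∀ k : Fin 14, at1 NLb_330.rowsF.p (k.val + 2) ≤ 15 ∧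
    at1 NLb_330.rowsF.q (k.val + 2) ≤ 15 ∧ at1 NLb_330.rowsF.r (k.val + 2) = 15 := by decide

theorem lG : ∀ k : Fin 14, at1 NLb_330.rowsG.p (k.val + 2) ≤ 15 ∧
    at1 NLb_330.rowsG.q (k.val + 2) ≤ 15 ∧ at1 NLb_330.rowsG.r (k.val + 2) = 15 := by decide

theorem lFk {k : ℕ} (h1 : 2 ≤ k) (h2 : k ≤ 15) : at1 NLb_330.rowsF.p k ≤ 15 ∧
    at1 NLb_330.rowsF.q k ≤ 15 ∧ at1 NLb_330.rowsF.r k = 15 := by
  have := lF (lv k)
  rwa [lv_val h1 h2, Nat.sub_add_cancel h1] at this

theorem lGk {k : ℕ} (h1 : 2 ≤ k) (h2 : k ≤ 15) : at1 NLb_330.rowsG.p k ≤ 15 ∧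
    at1 NLb_330.rowsG.q k ≤ 15 ∧ at1 NLb_330.rowsG.r k = 15 := by
  have := lG (lv k)
  rwa [lv_val h1 h2, Nat.sub_add_cancel h1] at this

/-- the row of the mask, `f`. -/
theorem mskF0 {k i : ℕ} (h1 : 2 ≤ k) (h2 : k ≤ 15) (h3 : 1 ≤ i) (h4 : i ≤ 14) :
    Msk (0, lv k, li i) ↔ i < at1 NLb_330.rowsF.p k := by
  have := stF0 (lv k)
  rw [lv_val h1 h2, Nat.sub_add_cancel h1] at this
  show (li i).val < wid (0 : Fin 13).val (lv k).val ↔ _
  rw [li_val h3 h4, lv_val h1 h2]
  show i - 1 < wid 0 (k - 2) ↔ _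
  omega

theorem mskF1 {c : Fin 13} (h0 : c.val ≠ 0) (h7 : c.val < 7) {k i : ℕ} (h1 : 2 ≤ k) (h2 : k ≤ 15)
    (h3 : 1 ≤ i) (h4 : i ≤ 14) : Msk (c, lv k, li i) ↔ i < at1 NLb_330.rowsF.q k := by
  have := stF1 (lv k)
  rw [lv_val h1 h2, Nat.sub_add_cancel h1] at this
  show (li i).val < wid c.val (lv k).val ↔ _
  rw [li_val h3 h4, lv_val h1 h2, wid_1 h0 h7]
  omega

theorem msk7 {c : Fin 13} (h7 : ¬ c.val < 7) (a b : Fin 14) : Msk (c, a, b) := by
  show b.val < wid c.val a.val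
  rw [wid_7 h7]
  exact b.isLt

theorem mskG0 {k i : ℕ} (h1 : 2 ≤ k) (h2 : k ≤ 15) (h3 : 1 ≤ i) (h4 : i ≤ 14) :
    Msk (0, li i, lv k) ↔ i < at1 NLb_330.rowsG.p k := by
  have := stG0 (li i) (lv k)
  rw [lv_val h1 h2, Nat.sub_add_cancel h1, li_val h3 h4, Nat.sub_add_cancel h3] at this
  show (lv k).val < wid (0 : Fin 13).val (li i).val ↔ _
  rw [li_val h3 h4, lv_val h1 h2]
  exact this

theorem mskG1 {c : Fin 13} (h0 : c.val ≠ 0) (h7 : c.val < 7) {k i : ℕ} (h1 : 2 ≤ k) (h2 : k ≤ 15)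
    (h3 : 1 ≤ i) (h4 : i ≤ 14) : Msk (c, li i, lv k) ↔ i < at1 NLb_330.rowsG.q k := by
  have := stG1 (li i) (lv k)
  rw [lv_val h1 h2, Nat.sub_add_cancel h1, li_val h3 h4, Nat.sub_add_cancel h3] at this
  show (lv k).val < wid c.val (li i).val ↔ _
  rw [li_val h3 h4, lv_val h1 h2, wid_1 h0 h7]
  exact this

/-! ### components -/

theorem cl_Y (a : Fin 6) (h : a.val + 1 < 13) : cl ⟨a.val + 1, h⟩ = a := by
  apply Fin.ext
  show (a.val + 1 + 5) % 6 = a.val
  omega

theorem cl_Z (a : Fin 6) (h : a.val + 7 < 13) : cl ⟨a.val + 7, h⟩ = a := by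
  apply Fin.ext
  show (a.val + 7 + 5) % 6 = a.val
  omega

theorem Lam_YY (a b : Fin 6) (h : a.val + 1 < 13) (h' : b.val + 1 < 13) :
    Lam ⟨a.val + 1, h⟩ ⟨b.val + 1, h'⟩ = LP a b := by
  unfold Lam
  rw [if_neg (by simp), if_pos (by simp; omega), cl_Y, cl_Y]

theorem Lam_ZZ (a b : Fin 6) (h : a.val + 7 < 13) (h' : b.val + 7 < 13) :
    Lam ⟨a.val + 7, h⟩ ⟨b.val + 7, h'⟩ = LP a b := by
  unfold Lam
  rw [if_neg (by simp), if_pos (by simp), cl_Z, cl_Z]

theorem Lam_YZ (a b : Fin 6) (h : a.val + 1 < 13) (h' : b.val + 7 < 13) :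
    Lam ⟨a.val + 1, h⟩ ⟨b.val + 7, h'⟩ = 0 := by
  unfold Lam
  rw [if_neg (by simp), if_neg (by simp)]

theorem Lam_ZY (a b : Fin 6) (h : a.val + 7 < 13) (h' : b.val + 1 < 13) :
    Lam ⟨a.val + 7, h⟩ ⟨b.val + 1, h'⟩ = 0 := by
  unfold Lam
  rw [if_neg (by simp), if_neg (by simp)]

theorem Lam_00 : Lam 0 0 = 1 := by simp [Lam]

theorem Lam_0n (c : Fin 13) (h : c.val ≠ 0) : Lam 0 c = 0 := by
  revert c
  decide

theorem Lam_n0 (c : Fin 13) (h : c.val ≠ 0) : Lam c 0 = 0 := by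
  revert c
  decide

theorem Gam_0 (C : Core) (b : Fin 6) : Gam C 0 b = ∑ e, LP b e * C.g e := by
  unfold Gam
  rw [if_pos]
  rfl

theorem Gam_Y (C : Core) (a b : Fin 6) (h : a.val + 1 < 13) :
    Gam C ⟨a.val + 1, h⟩ b = LP a b := by
  unfold Gam
  rw [if_neg (by simp), cl_Y]

theorem Gam_Z (C : Core) (a b : Fin 6) (h : a.val + 7 < 13) :
    Gam C ⟨a.val + 7, h⟩ b = LP a b := by
  unfold Gam
  rw [if_neg (by simp), cl_Z]

/-! ### entries -/

theorem LV_in {u w : V} (hu : Msk u) (hw : Msk w) :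
    LVm u w = if u.2.1 ≤ w.2.1 ∧ u.2.2 ≤ w.2.2 then Lam u.1 w.1 else 0 := by
  unfold LVm
  simp only [hu, hw, true_and]

theorem and_if {p q : Prop} [Decidable p] [Decidable q] (x : ℤ) :
    (if p ∧ q then x else 0) = if p then (if q then x else 0) else 0 := by
  by_cases hp : p <;> by_cases hq : q <;> simp [hp, hq]

theorem and_if' {p q : Prop} [Decidable p] [Decidable q] (x : ℤ) :
    (if p ∧ q then x else 0) = if q then (if p then x else 0) else 0 := by
  by_cases hp : p <;> by_cases hq : q <;> simp [hp, hq]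

/-- **entries of `f`**. -/
theorem ent_f {x y : ℕ × Lt} (hx : Mem NLb_330.rowsF 15 x) (hy : Mem NLb_330.rowsF 15 y) :
    Bf (jf x) (jf y) = ent coreF x y := by
  obtain ⟨k, u⟩ := x
  obtain ⟨l, v⟩ := y
  obtain ⟨hk, hk', hu⟩ := hx
  obtain ⟨hl, hl', hv⟩ := hy
  simp only at hk hk' hl hl' hu hv
  have bk := lFk hk hk'
  have bl := lFk hl hl'
  have e1 : lv k ≤ lv l ↔ k ≤ l := lv_le hk hk' hl hl'
  unfold ent
  cases u with
  | S a => cases v with
    | S b => simp [Bf, blk, jf, L0]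
    | O b =>
      show -(LXm (a, lv k) (b, lv l)) = _
      by_cases h : k ≤ l
      · simp [LXm, e1, h, L0]
      · simp [LXm, e1, h]
    | X j => simp [Bf, blk, jf, L0]
    | Y b j => simp [Bf, blk, jf, L0]
    | Z b j => simp [Bf, blk, jf, L0]
  | O a => cases v with
    | S b => simp [Bf, blk, jf, L0, LXm, e1]
    | O b => simp [Bf, blk, jf, L0, Dm, e1]
    | X j => simp [Bf, blk, jf, L0]
    | Y b j => simp [Bf, blk, jf, L0]
    | Z b j => simp [Bf, blk, jf, L0]
  | X i =>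
    have hu' : 1 ≤ i ∧ i < at1 NLb_330.rowsF.p k := hu
    have m : Msk (0, lv k, li i) := (mskF0 hk hk' hu'.1 (by omega)).2 hu'.2
    cases v with
    | S b => simp [Bf, blk, jf, L0]
    | O b => simp [Bf, blk, jf, L0, Cfm, e1, m, Gam_0]
    | X j =>
      have hv' : 1 ≤ j ∧ j < at1 NLb_330.rowsF.p l := hv
      have m' : Msk (0, lv l, li j) := (mskF0 hl hl' hv'.1 (by omega)).2 hv'.2
      have e2 : li i ≤ li j ↔ i ≤ j := li_le hu'.1 (by omega) hv'.1 (by omega)
      show LVm _ _ = _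
      rw [LV_in m m', and_if]
      simp only [e1, e2, L0, Lam_00]
    | Y b j =>
      have hv' : 1 ≤ j ∧ j < at1 NLb_330.rowsF.q l := hv
      have m' : Msk (⟨b.val + 1, by omega⟩, lv l, li j) :=
        (mskF1 (by simp) (by simp; omega) hl hl' hv'.1 (by omega)).2 hv'.2
      show LVm _ _ = _
      rw [LV_in m m', Lam_0n _ (by simp)]
      simp [L0]
    | Z b j =>
      have m' : Msk (⟨b.val + 7, by omega⟩, lv l, li j) := msk7 (by simp) _ _
      show LVm _ _ = _
      rw [LV_in m m', Lam_0n _ (by simp)]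
      simp [L0]
  | Y a i =>
    have hu' : 1 ≤ i ∧ i < at1 NLb_330.rowsF.q k := hu
    have m : Msk (⟨a.val + 1, by omega⟩, lv k, li i) :=
      (mskF1 (by simp) (by simp; omega) hk hk' hu'.1 (by omega)).2 hu'.2
    cases v with
    | S b => simp [Bf, blk, jf, L0]
    | O b => simp [Bf, blk, jf, L0, Cfm, e1, m, Gam_Y]
    | X j =>
      have hv' : 1 ≤ j ∧ j < at1 NLb_330.rowsF.p l := hv
      have m' : Msk (0, lv l, li j) := (mskF0 hl hl' hv'.1 (by omega)).2 hv'.2
      show LVm _ _ = _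
      rw [LV_in m m', Lam_n0 _ (by simp)]
      simp [L0]
    | Y b j =>
      have hv' : 1 ≤ j ∧ j < at1 NLb_330.rowsF.q l := hv
      have m' : Msk (⟨b.val + 1, by omega⟩, lv l, li j) :=
        (mskF1 (by simp) (by simp; omega) hl hl' hv'.1 (by omega)).2 hv'.2
      have e2 : li i ≤ li j ↔ i ≤ j := li_le hu'.1 (by omega) hv'.1 (by omega)
      show LVm _ _ = _
      rw [LV_in m m', and_if, Lam_YY]
      simp only [e1, e2, L0]
    | Z b j =>
      have m' : Msk (⟨b.val + 7, by omega⟩, lv l, li j) := msk7 (by simp) _ _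
      show LVm _ _ = _
      rw [LV_in m m', Lam_YZ]
      simp [L0]
  | Z a i =>
    have hu' : 1 ≤ i ∧ i < at1 NLb_330.rowsF.r k := hu
    have m : Msk (⟨a.val + 7, by omega⟩, lv k, li i) := msk7 (by simp) _ _
    cases v with
    | S b => simp [Bf, blk, jf, L0]
    | O b => simp [Bf, blk, jf, L0, Cfm, e1, m, Gam_Z]
    | X j =>
      have hv' : 1 ≤ j ∧ j < at1 NLb_330.rowsF.p l := hv
      have m' : Msk (0, lv l, li j) := (mskF0 hl hl' hv'.1 (by omega)).2 hv'.2
      show LVm _ _ = _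
      rw [LV_in m m', Lam_n0 _ (by simp)]
      simp [L0]
    | Y b j =>
      have hv' : 1 ≤ j ∧ j < at1 NLb_330.rowsF.q l := hv
      have m' : Msk (⟨b.val + 1, by omega⟩, lv l, li j) :=
        (mskF1 (by simp) (by simp; omega) hl hl' hv'.1 (by omega)).2 hv'.2
      show LVm _ _ = _
      rw [LV_in m m', Lam_ZY]
      simp [L0]
    | Z b j =>
      have hv' : 1 ≤ j ∧ j < at1 NLb_330.rowsF.r l := hv
      have m' : Msk (⟨b.val + 7, by omega⟩, lv l, li j) := msk7 (by simp) _ _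
      have e2 : li i ≤ li j ↔ i ≤ j := li_le hu'.1 (by omega) hv'.1 (by omega)
      show LVm _ _ = _
      rw [LV_in m m', and_if, Lam_ZZ]
      simp only [e1, e2, L0]

/-- **entries of `g`**. -/
theorem ent_g {x y : ℕ × Lt} (hx : Mem NLb_330.rowsG 15 x) (hy : Mem NLb_330.rowsG 15 y) :
    Bg (jg x) (jg y) = ent coreG x y := by
  obtain ⟨k, u⟩ := x
  obtain ⟨l, v⟩ := y
  obtain ⟨hk, hk', hu⟩ := hx
  obtain ⟨hl, hl', hv⟩ := hy
  simp only at hk hk' hl hl' hu hv
  have bk := lGk hk hk'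
  have bl := lGk hl hl'
  have e1 : lv k ≤ lv l ↔ k ≤ l := lv_le hk hk' hl hl'
  unfold ent
  cases u with
  | S a => cases v with
    | S b => simp [Bg, blk, jg, L0]
    | O b =>
      show -(LXm (a, lv k) (b, lv l)) = _
      by_cases h : k ≤ l
      · simp [LXm, e1, h, L0]
      · simp [LXm, e1, h]
    | X j => simp [Bg, blk, jg, L0]
    | Y b j => simp [Bg, blk, jg, L0]
    | Z b j => simp [Bg, blk, jg, L0]
  | O a => cases v with
    | S b => simp [Bg, blk, jg, L0, LXm, e1]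
    | O b => simp [Bg, blk, jg, L0, Dm, e1]
    | X j => simp [Bg, blk, jg, L0]
    | Y b j => simp [Bg, blk, jg, L0]
    | Z b j => simp [Bg, blk, jg, L0]
  | X i =>
    have hu' : 1 ≤ i ∧ i < at1 NLb_330.rowsG.p k := hu
    have m : Msk (0, li i, lv k) := (mskG0 hk hk' hu'.1 (by omega)).2 hu'.2
    cases v with
    | S b => simp [Bg, blk, jg, L0]
    | O b => simp [Bg, blk, jg, L0, Cgm, e1, m, Gam_0]
    | X j =>
      have hv' : 1 ≤ j ∧ j < at1 NLb_330.rowsG.p l := hv
      have m' : Msk (0, li j, lv l) := (mskG0 hl hl' hv'.1 (by omega)).2 hv'.2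
      have e2 : li i ≤ li j ↔ i ≤ j := li_le hu'.1 (by omega) hv'.1 (by omega)
      show LVm _ _ = _
      rw [LV_in m m', and_if']
      simp only [e1, e2, L0, Lam_00]
    | Y b j =>
      have hv' : 1 ≤ j ∧ j < at1 NLb_330.rowsG.q l := hv
      have m' : Msk (⟨b.val + 1, by omega⟩, li j, lv l) :=
        (mskG1 (by simp) (by simp; omega) hl hl' hv'.1 (by omega)).2 hv'.2
      show LVm _ _ = _
      rw [LV_in m m', Lam_0n _ (by simp)]
      simp [L0]
    | Z b j =>
      have m' : Msk (⟨b.val + 7, by omega⟩, lv l, li j) := msk7 (by simp) _ _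
      show LVm _ _ = _
      rw [LV_in m m', Lam_0n _ (by simp)]
      simp [L0]
  | Y a i =>
    have hu' : 1 ≤ i ∧ i < at1 NLb_330.rowsG.q k := hu
    have m : Msk (⟨a.val + 1, by omega⟩, li i, lv k) :=
      (mskG1 (by simp) (by simp; omega) hk hk' hu'.1 (by omega)).2 hu'.2
    cases v with
    | S b => simp [Bg, blk, jg, L0]
    | O b =>
      have ha : a.val + 1 < 7 := by omega
      simp [Bg, blk, jg, L0, Cgm, e1, m, Gam_Y, ha]
    | X j =>
      have hv' : 1 ≤ j ∧ j < at1 NLb_330.rowsG.p l := hv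
      have m' : Msk (0, li j, lv l) := (mskG0 hl hl' hv'.1 (by omega)).2 hv'.2
      show LVm _ _ = _
      rw [LV_in m m', Lam_n0 _ (by simp)]
      simp [L0]
    | Y b j =>
      have hv' : 1 ≤ j ∧ j < at1 NLb_330.rowsG.q l := hv
      have m' : Msk (⟨b.val + 1, by omega⟩, li j, lv l) :=
        (mskG1 (by simp) (by simp; omega) hl hl' hv'.1 (by omega)).2 hv'.2
      have e2 : li i ≤ li j ↔ i ≤ j := li_le hu'.1 (by omega) hv'.1 (by omega)
      show LVm _ _ = _
      rw [LV_in m m', and_if', Lam_YY]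
      simp only [e1, e2, L0]
    | Z b j =>
      have m' : Msk (⟨b.val + 7, by omega⟩, lv l, li j) := msk7 (by simp) _ _
      show LVm _ _ = _
      rw [LV_in m m', Lam_YZ]
      simp [L0]
  | Z a i =>
    have hu' : 1 ≤ i ∧ i < at1 NLb_330.rowsG.r k := hu
    have m : Msk (⟨a.val + 7, by omega⟩, lv k, li i) := msk7 (by simp) _ _
    cases v with
    | S b => simp [Bg, blk, jg, L0]
    | O b => simp [Bg, blk, jg, L0, Cgm, e1, m, Gam_Z]
    | X j =>
      have hv' : 1 ≤ j ∧ j < at1 NLb_330.rowsG.p l := hv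
      have m' : Msk (0, li j, lv l) := (mskG0 hl hl' hv'.1 (by omega)).2 hv'.2
      show LVm _ _ = _
      rw [LV_in m m', Lam_n0 _ (by simp)]
      simp [L0]
    | Y b j =>
      have hv' : 1 ≤ j ∧ j < at1 NLb_330.rowsG.q l := hv
      have m' : Msk (⟨b.val + 1, by omega⟩, li j, lv l) :=
        (mskG1 (by simp) (by simp; omega) hl hl' hv'.1 (by omega)).2 hv'.2
      show LVm _ _ = _
      rw [LV_in m m', Lam_ZY]
      simp [L0]
    | Z b j =>
      have hv' : 1 ≤ j ∧ j < at1 NLb_330.rowsG.r l := hv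
      have m' : Msk (⟨b.val + 7, by omega⟩, lv l, li j) := msk7 (by simp) _ _
      have e2 : li i ≤ li j ↔ i ≤ j := li_le hu'.1 (by omega) hv'.1 (by omega)
      show LVm _ _ = _
      rw [LV_in m m', and_if, Lam_ZZ]
      simp only [e1, e2, L0]

/-! ### injectivity -/

theorem jg_inj {x y : ℕ × Lt} (hx : Mem NLb_330.rowsG 15 x) (hy : Mem NLb_330.rowsG 15 y)
    (h : jg x = jg y) : x = y := by
  obtain ⟨k, u⟩ := x
  obtain ⟨l, v⟩ := y
  obtain ⟨hk, hk', hu⟩ := hx
  obtain ⟨hl, hl', hv⟩ := hy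
  simp only at hk hk' hl hl' hu hv
  have bk := lGk hk hk'
  have bl := lGk hl hl'
  have A : lv k = lv l → k = l := lv_inj hk hk' hl hl'
  cases u with
  | S a => cases v with
    | S b =>
      simp only [jg, Sum.inl.injEq, Sum.inr.injEq, Prod.mk.injEq] at h
      rw [A h.2, h.1]
    | O b => simp [jg] at h
    | X j => simp [jg] at h
    | Y b j => simp [jg] at h
    | Z b j => simp [jg] at h
  | O a => cases v with
    | S b => simp [jg] at h
    | O b =>
      simp only [jg, Sum.inl.injEq, Prod.mk.injEq] at h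
      rw [A h.2, h.1]
    | X j => simp [jg] at h
    | Y b j => simp [jg] at h
    | Z b j => simp [jg] at h
  | X i =>
    have hu' : 1 ≤ i ∧ i < at1 NLb_330.rowsG.p k := hu
    cases v with
    | S b => simp [jg] at h
    | O b => simp [jg] at h
    | X j =>
      have hv' : 1 ≤ j ∧ j < at1 NLb_330.rowsG.p l := hv
      simp only [jg, Sum.inr.injEq, Prod.mk.injEq, true_and] at h
      rw [A h.2, li_inj hu'.1 (by omega) hv'.1 (by omega) h.1]
    | Y b j =>
      simp only [jg, Sum.inr.injEq, Prod.mk.injEq] at h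
      exact absurd (congrArg Fin.val h.1) (by simp)
    | Z b j =>
      simp only [jg, Sum.inr.injEq, Prod.mk.injEq] at h
      exact absurd (congrArg Fin.val h.1) (by simp)
  | Y a i =>
    have hu' : 1 ≤ i ∧ i < at1 NLb_330.rowsG.q k := hu
    cases v with
    | S b => simp [jg] at h
    | O b => simp [jg] at h
    | X j =>
      simp only [jg, Sum.inr.injEq, Prod.mk.injEq] at h
      exact absurd (congrArg Fin.val h.1) (by simp)
    | Y b j =>
      have hv' : 1 ≤ j ∧ j < at1 NLb_330.rowsG.q l := hv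
      simp only [jg, Sum.inr.injEq, Prod.mk.injEq] at h
      have h1 := congrArg Fin.val h.1
      simp only [Nat.add_right_cancel_iff] at h1
      rw [A h.2.2, li_inj hu'.1 (by omega) hv'.1 (by omega) h.2.1, Fin.ext h1]
    | Z b j =>
      simp only [jg, Sum.inr.injEq, Prod.mk.injEq] at h
      have h1 := congrArg Fin.val h.1
      simp only at h1
      omega
  | Z a i =>
    have hu' : 1 ≤ i ∧ i < at1 NLb_330.rowsG.r k := hu
    cases v with
    | S b => simp [jg] at h
    | O b => simp [jg] at h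
    | X j =>
      simp only [jg, Sum.inr.injEq, Prod.mk.injEq] at h
      exact absurd (congrArg Fin.val h.1) (by simp)
    | Y b j =>
      simp only [jg, Sum.inr.injEq, Prod.mk.injEq] at h
      have h1 := congrArg Fin.val h.1
      simp only at h1
      omega
    | Z b j =>
      have hv' : 1 ≤ j ∧ j < at1 NLb_330.rowsG.r l := hv
      simp only [jg, Sum.inr.injEq, Prod.mk.injEq] at h
      have h1 := congrArg Fin.val h.1
      simp only [Nat.add_right_cancel_iff] at h1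
      rw [A h.2.1, li_inj hu'.1 (by omega) hv'.1 (by omega) h.2.2, Fin.ext h1]

/-! ### the range -/

theorem lv_surj (a : Fin 14) : lv (a.val + 2) = a := by
  apply Fin.ext
  rw [lv_val (by omega) (by omega)]
  omega

theorem li_surj (a : Fin 14) : li (a.val + 1) = a := by
  apply Fin.ext
  rw [li_val (by omega) (by omega)]
  omega

theorem range_g (z : (X ⊕ X) ⊕ V) (hz : ∀ u : V, z = .inr u → Msk u) :
    ∃ x, Mem NLb_330.rowsG 15 x ∧ jg x = z := by
  rcases z with (⟨a, k⟩ | ⟨a, k⟩) | ⟨c, s, t⟩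
  · refine ⟨(k.val + 2, .O a), ⟨by simp, by simp; omega, trivial⟩, ?_⟩
    show Sum.inl (Sum.inl (a, lv (k.val + 2))) = _
    rw [lv_surj]
  · refine ⟨(k.val + 2, .S a), ⟨by simp, by simp; omega, trivial⟩, ?_⟩
    show Sum.inl (Sum.inr (a, lv (k.val + 2))) = _
    rw [lv_surj]
  · have hm := hz _ rfl
    by_cases h0 : c.val = 0
    · obtain rfl : c = 0 := Fin.ext h0
      refine ⟨(t.val + 2, .X (s.val + 1)), ⟨by simp, by simp; omega, ⟨by omega, ?_⟩⟩, ?_⟩
      · have := (mskG0 (k := t.val + 2) (i := s.val + 1) (by omega) (by omega) (by omega)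
          (by omega)).1
        rw [lv_surj, li_surj] at this
        exact this hm
      · show Sum.inr ((0 : Fin 13), li (s.val + 1), lv (t.val + 2)) = _
        rw [lv_surj, li_surj]
    · by_cases h7 : c.val < 7
      · have hc : (⟨c.val - 1 + 1, by omega⟩ : Fin 13) = c := Fin.ext (by simp; omega)
        refine ⟨(t.val + 2, .Y ⟨c.val - 1, by omega⟩ (s.val + 1)),
          ⟨by simp, by simp; omega, ⟨by omega, ?_⟩⟩, ?_⟩
        · have := (mskG1 h0 h7 (k := t.val + 2) (i := s.val + 1) (by omega) (by omega) (by omega)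
            (by omega)).1
          rw [lv_surj, li_surj] at this
          exact this hm
        · show Sum.inr ((⟨c.val - 1 + 1, by omega⟩ : Fin 13), li (s.val + 1), lv (t.val + 2)) = _
          rw [lv_surj, li_surj, hc]
      · have hc : (⟨c.val - 7 + 7, by omega⟩ : Fin 13) = c := Fin.ext (by simp; omega)
        refine ⟨(s.val + 2, .Z ⟨c.val - 7, by omega⟩ (t.val + 1)),
          ⟨by simp, by simp; omega, ⟨by omega, ?_⟩⟩, ?_⟩
        · show t.val + 1 < at1 NLb_330.rowsG.r (s.val + 2)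
          have := (lG s).2.2
          rw [this]
          omega
        · show Sum.inr ((⟨c.val - 7 + 7, by omega⟩ : Fin 13), lv (s.val + 2), li (t.val + 1)) = _
          rw [lv_surj, li_surj, hc]

theorem zero_g {u : V} (hu : ¬ Msk u) (z : (X ⊕ X) ⊕ V) :
    Bg (.inr u) z = 0 ∧ Bg z (.inr u) = 0 := by
  rcases z with (p | p) | w
  · refine ⟨?_, rfl⟩
    show Cgm u p = 0
    simp [Cgm, hu]
  · exact ⟨rfl, rfl⟩
  · constructor
    · show LVm u w = 0
      simp [LVm, hu]
    · show LVm w u = 0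
      simp [LVm, hu]

/-! ### the certificate -/

/-- the letter at a position. -/
def lt (R : Rows) (h : (idx R 15).length = 2049) (i : Fin 2049) : ℕ × Lt :=
  (idx R 15).get (i.cast h.symm)

theorem lt_mem (R : Rows) (h : (idx R 15).length = 2049) (i : Fin 2049) :
    Mem R 15 (lt R h i) := (mem_idx R 15 _).1 (List.get_mem _ _)

theorem lt_inj (R : Rows) (h : (idx R 15).length = 2049) : Function.Injective (lt R h) := by
  intro i j hij
  have := (List.Nodup.injective_get (nodup_idx R 15)) hij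
  exact Fin.cast_injective _ this

theorem lt_surj (R : Rows) (h : (idx R 15).length = 2049) {x : ℕ × Lt} (hx : Mem R 15 x) :
    ∃ i, lt R h i = x := by
  obtain ⟨i, hi⟩ := List.get_of_mem ((mem_idx R 15 x).2 hx)
  exact ⟨i.cast h, hi⟩

/-- **the reindexing**. -/
theorem cert_of (h : ∃ U : Matrix ((X ⊕ X) ⊕ V) ((X ⊕ X) ⊕ V) ℤ, Uᵀ * Bg * U = Bf) :
    ∃ P : Matrix (Fin 2049) (Fin 2049) ℤ, Pᵀ * NLb_330.pAg * P = NLb_330.pAf := by
  obtain ⟨U, hU⟩ := h
  have r := restrict Bg Bf U (fun i => jg (lt NLb_330.rowsG NLb_330.length_idxG i))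
    (fun i => jf (lt NLb_330.rowsF NLb_330.length_idxF i))
    (fun i j hij => lt_inj _ _ (jg_inj (lt_mem _ _ _) (lt_mem _ _ _) hij)) ?_ hU
  · have e1 : Bg.submatrix (fun i => jg (lt NLb_330.rowsG NLb_330.length_idxG i))
        (fun i => jg (lt NLb_330.rowsG NLb_330.length_idxG i)) = NLb_330.pAg := by
      ext i j
      exact ent_g (lt_mem _ _ i) (lt_mem _ _ j)
    have e2 : Bf.submatrix (fun i => jf (lt NLb_330.rowsF NLb_330.length_idxF i))
        (fun i => jf (lt NLb_330.rowsF NLb_330.length_idxF i)) = NLb_330.pAf := by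
      ext i j
      exact ent_f (lt_mem _ _ i) (lt_mem _ _ j)
    rw [e1, e2] at r
    exact ⟨_, r⟩
  · intro z hz z'
    rcases z with z | u
    · exfalso
      obtain ⟨x, hx, hxz⟩ := range_g (.inl z) (by simp)
      obtain ⟨i, hi⟩ := lt_surj _ NLb_330.length_idxG hx
      exact hz ⟨i, (congrArg jg hi).trans hxz⟩
    · by_cases hm : Msk u
      · exfalso
        obtain ⟨x, hx, hxz⟩ := range_g (.inr u) (by
          intro w hw
          rw [← Sum.inr.inj hw]
          exact hm)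
        obtain ⟨i, hi⟩ := lt_surj _ NLb_330.length_idxG hx
        exact hz ⟨i, (congrArg jg hi).trans hxz⟩
      · exact zero_g hm z'

end Crest.Agent.R267.LightR_330
end

-- ▼ part R267/Cert_330

/-!
# The certificate for the nested-level matrices of the S0406 pair (row 267, P3.4)

helper667's isometry of the padded block matrices and the reindexing.
-/

set_option autoImplicit false

namespace Crest.Agent.R267.Cert_330

open Matrix

/-- **the certificate**: `Pᵀ A_g P = A_f` for the positional nested-level matrices. -/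
theorem cert : ∃ P : Matrix (Fin 2049) (Fin 2049) ℤ, Pᵀ * NLb_330.pAg * P = NLb_330.pAf :=
  LightR_330.cert_of LightZ_667.cert


end Crest.Agent.R267.Cert_330
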