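import Crest.Agent.R267.T3aNDefs_88
import Crest.Agent.R267.Calc2_957
import Crest.Agent.R267.Curve_867

/-!
# Row 267, T3aN: one variable calculus for the signed planar function and the windows
-/

set_option autoImplicit false

noncomputable section

namespace Crest.Agent.R267.CalcN_88

open Finset
open Crest.Agent.R267.T3aDefs_957 (c01 st Af Bf)
open Crest.Agent.R267.T3aNDefs_88 Crest.Agent.R267.Calc_957 Crest.Agent.R267.Calc2_957
open Crest.Agent.R267.Curve_867 (Af_le_one neg_one_le_Af)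

/-! ### the height of a cell -/

/-- derivative of `ww`. -/
def wwd (v : ℝ) : ℝ := std (-v - 6) - std (v - 6)

/-- derivative of `yc e`. -/
def ycd (e v : ℝ) : ℝ :=
  e * (Bfd v * ww v + Bf v * wwd v) - (st (-v - 6) - (v + 8) * std (-v - 6)) -
    (st (v - 6) + (v - 8) * std (v - 6))

theorem hasDerivAt_stn (v : ℝ) : HasDerivAt (fun v => st (-v - 6)) (-std (-v - 6)) v := by
  have h1 : HasDerivAt (fun v : ℝ => -v - 6) (-1) v := (hasDerivAt_neg v).sub_const 6
  refine ((hasDerivAt_st (-v - 6)).comp v h1).congr_deriv ?_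
  ring

theorem hasDerivAt_stp (v : ℝ) : HasDerivAt (fun v => st (v - 6)) (std (v - 6)) v :=
  HasDerivAt.comp_sub_const v 6 (hasDerivAt_st (v - 6))

theorem hasDerivAt_ww (v : ℝ) : HasDerivAt ww (wwd v) v := by
  have h := ((hasDerivAt_stn v).const_sub 1).sub (hasDerivAt_stp v)
  refine h.congr_deriv ?_
  unfold wwd
  ring

theorem hasDerivAt_yc (e v : ℝ) : HasDerivAt (yc e) (ycd e v) v := by
  have h1 : HasDerivAt (fun v => e * Bf v * ww v) ((e * Bfd v) * ww v + (e * Bf v) * wwd v) v :=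
    ((hasDerivAt_Bf v).const_mul e).mul (hasDerivAt_ww v)
  have h2 : HasDerivAt (fun v => (v + 8) * st (-v - 6))
      (1 * st (-v - 6) + (v + 8) * -std (-v - 6)) v :=
    ((hasDerivAt_id v).add_const 8).mul (hasDerivAt_stn v)
  have h3 : HasDerivAt (fun v => (v - 8) * st (v - 6))
      (1 * st (v - 6) + (v - 8) * std (v - 6)) v :=
    ((hasDerivAt_id v).sub_const 8).mul (hasDerivAt_stp v)
  refine ((h1.sub h2).sub h3).congr_deriv ?_
  unfold ycd
  ring

theorem contDiff_ww : ContDiff ℝ 2 ww := by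
  unfold ww
  exact (contDiff_const.sub (contDiff_st.comp (contDiff_neg.sub contDiff_const))).sub
    (contDiff_st.comp (contDiff_id.sub contDiff_const))

theorem contDiff_yc (e : ℝ) : ContDiff ℝ 2 (yc e) := by
  unfold yc
  refine (((contDiff_const.mul contDiff_Bf).mul contDiff_ww).sub ?_).sub ?_
  · exact (contDiff_id.add contDiff_const).mul
      (contDiff_st.comp (contDiff_neg.sub contDiff_const))
  · exact (contDiff_id.sub contDiff_const).mul
      (contDiff_st.comp (contDiff_id.sub contDiff_const))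

theorem ww_in {v : ℝ} (h : |v| ≤ 6) : ww v = 1 ∧ wwd v = 0 := by
  rw [abs_le] at h
  unfold ww wwd
  rw [st_of_le (by linarith : -v - 6 ≤ 0), st_of_le (by linarith : v - 6 ≤ 0),
    std_of_le (by linarith : -v - 6 ≤ 0), std_of_le (by linarith : v - 6 ≤ 0)]
  norm_num

/-- `|v| ≤ 6`: the lobe and its ends. -/
theorem yc_in {e v : ℝ} (h : |v| ≤ 6) : yc e v = e * Bf v ∧ ycd e v = e * Bfd v := by
  obtain ⟨h1, h2⟩ := ww_in h
  rw [abs_le] at h
  unfold yc ycd
  rw [h1, h2, st_of_le (by linarith : -v - 6 ≤ 0), st_of_le (by linarith : v - 6 ≤ 0),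
    std_of_le (by linarith : -v - 6 ≤ 0), std_of_le (by linarith : v - 6 ≤ 0)]
  constructor <;> ring

/-- `v ≤ -7`: before the cell. -/
theorem yc_low {e v : ℝ} (h : v ≤ -7) : yc e v = -(v + 8) ∧ ycd e v = -1 := by
  unfold yc ycd ww wwd
  rw [st_of_ge (by linarith : 1 ≤ -v - 6), st_of_le (by linarith : v - 6 ≤ 0),
    std_of_ge (by linarith : 1 ≤ -v - 6), std_of_le (by linarith : v - 6 ≤ 0)]
  constructor <;> ring

/-- `v ≥ 7`: after the cell. -/
theorem yc_high {e v : ℝ} (h : 7 ≤ v) : yc e v = -(v - 8) ∧ ycd e v = -1 := by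
  unfold yc ycd ww wwd
  rw [st_of_le (by linarith : -v - 6 ≤ 0), st_of_ge (by linarith : 1 ≤ v - 6),
    std_of_le (by linarith : -v - 6 ≤ 0), std_of_ge (by linarith : 1 ≤ v - 6)]
  constructor <;> ring

/-- off the lobe (`3 ≤ |v| ≤ 7`) the height is bounded by `3`. -/
theorem abs_yc_le {e v : ℝ} (he : |e| = 1) (h : 3 ≤ |v|) (h1 : |v| ≤ 7) : |yc e v| ≤ 3 := by
  rcases le_total |v| 6 with h2 | h2
  · rw [(yc_in h2).1, abs_mul, he, one_mul]
    rcases le_abs.1 h with h3 | h3
    · rw [Bf_of_ge h3]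
      rw [abs_of_nonneg (by linarith : 0 ≤ v)] at h2
      rw [abs_le]
      constructor <;> linarith
    · rw [Bf_of_le (by linarith)]
      rw [abs_of_nonpos (by linarith : v ≤ 0)] at h2
      rw [abs_le]
      constructor <;> linarith
  · have hb : ∀ a b s : ℝ, 0 ≤ s → s ≤ 1 → |a| ≤ 3 → |b| ≤ 3 → |a * (1 - s) + b * s| ≤ 3 := by
      intro a b s h0 h1 ha hb
      rw [abs_le] at ha hb ⊢
      constructor
      · nlinarith [mul_nonneg (by linarith : 0 ≤ 3 + a) (by linarith : 0 ≤ 1 - s),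
          mul_nonneg (by linarith : 0 ≤ 3 + b) h0]
      · nlinarith [mul_nonneg (by linarith : 0 ≤ 3 - a) (by linarith : 0 ≤ 1 - s),
          mul_nonneg (by linarith : 0 ≤ 3 - b) h0]
    rcases le_abs.1 (by linarith : (3 : ℝ) ≤ |v|) with h3 | h3
    · rw [abs_of_nonneg (by linarith : 0 ≤ v)] at h1 h2
      unfold yc ww
      rw [st_of_le (by linarith : -v - 6 ≤ 0)]
      have e1 : e * Bf v * (1 - 0 - st (v - 6)) - (v + 8) * 0 - (v - 8) * st (v - 6) =
          (e * Bf v) * (1 - st (v - 6)) + (8 - v) * st (v - 6) := by ring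
      rw [e1]
      refine hb _ _ _ (st_nonneg _) (st_le_one _) ?_ ?_
      · rw [abs_mul, he, one_mul, Bf_of_ge h3, abs_le]
        constructor <;> linarith
      · rw [abs_le]
        constructor <;> linarith
    · rw [abs_of_nonpos (by linarith : v ≤ 0)] at h1 h2
      unfold yc ww
      rw [st_of_le (by linarith : v - 6 ≤ 0)]
      have e1 : e * Bf v * (1 - st (-v - 6) - 0) - (v + 8) * st (-v - 6) - (v - 8) * 0 =
          (e * Bf v) * (1 - st (-v - 6)) + (-(v + 8)) * st (-v - 6) := by ring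
      rw [e1]
      refine hb _ _ _ (st_nonneg _) (st_le_one _) ?_ ?_
      · rw [abs_mul, he, one_mul, Bf_of_le (by linarith), abs_le]
        constructor <;> linarith
      · rw [abs_le]
        constructor <;> linarith

/-! ### the loops -/

/-- derivative of `FlN`. -/
def FldN (e : ℕ → ℝ) (M : ℕ) (τ : ℝ) : ℂ :=
  (∑ l ∈ range M, ((Afd (τ - sgN l) : ℝ) : ℂ)) +
    Complex.I * (((∑ l ∈ range M, (1 + ycd (e l) (τ - sgN l)) : ℝ) -
      16 * M * std (τ - 16 * M) : ℝ) : ℂ)

theorem hasDerivAt_FlN (e : ℕ → ℝ) (M : ℕ) (τ : ℝ) : HasDerivAt (FlN e M) (FldN e M τ) τ := by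
  unfold FlN FldN
  refine HasDerivAt.add ?_ (HasDerivAt.const_mul _ (HasDerivAt.ofReal_comp ?_))
  · refine HasDerivAt.fun_sum fun l _ => HasDerivAt.ofReal_comp ?_
    exact (HasDerivAt.comp_sub_const τ (sgN l) (hasDerivAt_Af (τ - sgN l))).const_add 1
  · refine HasDerivAt.sub ?_ (HasDerivAt.const_mul _ ?_)
    · refine HasDerivAt.fun_sum fun l _ => ?_
      exact (((hasDerivAt_id τ).sub_const (sgN l)).const_add 8).add
        (HasDerivAt.comp_sub_const τ (sgN l) (hasDerivAt_yc (e l) (τ - sgN l)))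
    · exact HasDerivAt.comp_sub_const τ (16 * M : ℝ) (hasDerivAt_st (τ - 16 * M))

theorem contDiff_FlN (e : ℕ → ℝ) (M : ℕ) : ContDiff ℝ 2 (FlN e M) := by
  unfold FlN
  refine ContDiff.add (ContDiff.sum fun l _ => ?_) (contDiff_const.mul ?_)
  · exact Complex.ofRealCLM.contDiff.comp
      (contDiff_const.add (contDiff_Af.comp (contDiff_id.sub contDiff_const)))
  · refine Complex.ofRealCLM.contDiff.comp ?_
    refine ContDiff.sub (ContDiff.sum fun l _ => ?_) (contDiff_const.mul ?_)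
    · exact (contDiff_const.add (contDiff_id.sub contDiff_const)).add
        ((contDiff_yc (e l)).comp (contDiff_id.sub contDiff_const))
    · exact contDiff_st.comp (contDiff_id.sub contDiff_const)

/-- one summand of `FlN`, before its cell. -/
theorem cellN_low {e v : ℝ} (h : v ≤ -7) : 1 + Af v = 0 ∧ 8 + v + yc e v = 0 ∧ Afd v = 0 ∧
    1 + ycd e v = 0 := by
  obtain ⟨h1, h2⟩ := yc_low (e := e) h
  refine ⟨?_, ?_, Afd_of_le (by linarith), ?_⟩
  · rw [Af_of_ge (by rw [abs_of_nonpos (by linarith)]; linarith)]; ring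
  · rw [h1]; ring
  · rw [h2]; ring

/-- one summand of `FlN`, after its cell. -/
theorem cellN_high {e v : ℝ} (h : 7 ≤ v) : 1 + Af v = 0 ∧ 8 + v + yc e v = 16 ∧ Afd v = 0 ∧
    1 + ycd e v = 0 := by
  obtain ⟨h1, h2⟩ := yc_high (e := e) h
  refine ⟨?_, ?_, Afd_of_ge (by linarith), ?_⟩
  · rw [Af_of_ge (by rw [abs_of_nonneg (by linarith)]; linarith)]; ring
  · rw [h1]; ring
  · rw [h2]; ring

theorem sgN_add {l l' : ℕ} (h : l < l') : sgN l + 16 ≤ sgN l' := by
  unfold sgN
  have : ((l : ℝ) + 1) ≤ l' := by exact_mod_cast h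
  linarith

/-- in the cell `l`, `p = -(1-ga) + Af v + i yc v`. -/
theorem pvN_cell {ga : ℝ} {e : ℕ → ℝ} {M l : ℕ} (hl : l < M) {τ : ℝ} (h : |τ - sgN l| ≤ 8) :
    pvN ga e M τ = ((-(1 - ga) + Af (τ - sgN l) : ℝ) : ℂ) +
      Complex.I * ((yc (e l) (τ - sgN l) : ℝ) : ℂ) := by
  rw [abs_le] at h
  have hA : ∑ i ∈ range M, (1 + Af (τ - sgN i)) = 1 + Af (τ - sgN l) := by
    refine sum_eq_single l (fun i _ hi => ?_) (fun h' => absurd (mem_range.2 hl) h')
    rcases lt_or_gt_of_ne hi with h1 | h1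
    · exact (cellN_high (e := 0) (by have := sgN_add h1; linarith)).1
    · exact (cellN_low (e := 0) (by have := sgN_add h1; linarith)).1
  have hB : ∑ i ∈ range M, (8 + (τ - sgN i) + yc (e i) (τ - sgN i)) =
      16 * l + (8 + (τ - sgN l) + yc (e l) (τ - sgN l)) := by
    have h1 : ∀ i ∈ range M, 8 + (τ - sgN i) + yc (e i) (τ - sgN i) =
        (if i < l then 16 else 0) +
          (if i = l then (8 + (τ - sgN l) + yc (e l) (τ - sgN l)) else 0) := by
      intro i _
      rcases lt_trichotomy i l with h1 | h1 | h1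
      · rw [(cellN_high (by have := sgN_add h1; linarith)).2.1, if_pos h1, if_neg h1.ne, add_zero]
      · subst h1
        simp
      · rw [(cellN_low (by have := sgN_add h1; linarith)).2.1, if_neg (by omega), if_neg h1.ne',
          add_zero]
    rw [sum_congr rfl h1, sum_add_distrib, sum_ite_eq' (range M) l, if_pos (mem_range.2 hl)]
    congr 1
    rw [← sum_filter, sum_const, nsmul_eq_mul]
    have : (range M).filter (fun i => i < l) = range l := by
      ext i
      simp only [mem_filter, mem_range]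
      omega
    rw [this, card_range]
    ring
  have hS : st (τ - 16 * M) = 0 := by
    refine st_of_le ?_
    have : (l : ℝ) + 1 ≤ M := by exact_mod_cast hl
    unfold sgN at h
    linarith
  unfold pvN FlN
  rw [hB, hS, ← Complex.ofReal_sum, hA]
  apply Complex.ext
  · simp
    ring
  · simp [sgN]
    ring

/-- derivative of `pvN`. -/
def pvdN (e : ℕ → ℝ) (M : ℕ) (τ : ℝ) : ℂ := -Complex.I + FldN e M τ

theorem hasDerivAt_pvN (ga : ℝ) (e : ℕ → ℝ) (M : ℕ) (τ : ℝ) :
    HasDerivAt (pvN ga e M) (pvdN e M τ) τ := by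
  unfold pvN pvdN
  have h1 : HasDerivAt (fun τ : ℝ => -((2 - ga : ℝ) : ℂ) - Complex.I * (τ : ℂ))
      (-Complex.I) τ := by
    have h2 : HasDerivAt (fun τ : ℝ => (τ : ℂ)) 1 τ := by
      simpa using (hasDerivAt_id τ).ofReal_comp
    have := (h2.const_mul Complex.I).const_sub (-((2 - ga : ℝ) : ℂ))
    simpa using this
  exact h1.add (hasDerivAt_FlN e M τ)

theorem contDiff_pvN (ga : ℝ) (e : ℕ → ℝ) (M : ℕ) : ContDiff ℝ 2 (pvN ga e M) := by
  unfold pvN
  exact (contDiff_const.sub (contDiff_const.mul Complex.ofRealCLM.contDiff)).add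
    (contDiff_FlN e M)

theorem pvdN_cell {e : ℕ → ℝ} {M l : ℕ} (hl : l < M) {τ : ℝ} (h : |τ - sgN l| ≤ 8) :
    pvdN e M τ = ((Afd (τ - sgN l) : ℝ) : ℂ) +
      Complex.I * ((ycd (e l) (τ - sgN l) : ℝ) : ℂ) := by
  rw [abs_le] at h
  have hA : ∑ i ∈ range M, Afd (τ - sgN i) = Afd (τ - sgN l) := by
    refine sum_eq_single l (fun i _ hi => ?_) (fun h' => absurd (mem_range.2 hl) h')
    rcases lt_or_gt_of_ne hi with h1 | h1
    · exact (cellN_high (e := 0) (by have := sgN_add h1; linarith)).2.2.1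
    · exact (cellN_low (e := 0) (by have := sgN_add h1; linarith)).2.2.1
  have hB : ∑ i ∈ range M, (1 + ycd (e i) (τ - sgN i)) = 1 + ycd (e l) (τ - sgN l) := by
    refine sum_eq_single l (fun i _ hi => ?_) (fun h' => absurd (mem_range.2 hl) h')
    rcases lt_or_gt_of_ne hi with h1 | h1
    · exact (cellN_high (by have := sgN_add h1; linarith)).2.2.2
    · exact (cellN_low (by have := sgN_add h1; linarith)).2.2.2
  have hS : std (τ - 16 * M) = 0 := by
    refine std_of_le ?_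
    have : (l : ℝ) + 1 ≤ M := by exact_mod_cast hl
    unfold sgN at h
    linarith
  unfold pvdN FldN
  rw [hB, hS, ← Complex.ofReal_sum, hA]
  apply Complex.ext
  · simp
  · simp

theorem FlN_low {e : ℕ → ℝ} {M : ℕ} {τ : ℝ} (h : τ ≤ 1) : FlN e M τ = 0 := by
  have h1 : ∀ i : ℕ, τ - sgN i ≤ -7 := fun i => by
    unfold sgN
    have : (0 : ℝ) ≤ i := i.cast_nonneg
    linarith
  have h2 : 16 * (M : ℝ) * st (τ - 16 * M) = 0 := by
    rcases Nat.eq_zero_or_pos M with h0 | h0
    · rw [h0]; simp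
    · have : (1 : ℝ) ≤ M := by exact_mod_cast h0
      rw [st_of_le (by linarith), mul_zero]
  unfold FlN
  rw [h2, sum_eq_zero fun i _ => by rw [(cellN_low (e := 0) (h1 i)).1, Complex.ofReal_zero],
    sum_eq_zero fun i _ => (cellN_low (h1 i)).2.1]
  simp

theorem FldN_low {e : ℕ → ℝ} {M : ℕ} {τ : ℝ} (h : τ ≤ 1) : FldN e M τ = 0 := by
  have h1 : ∀ i : ℕ, τ - sgN i ≤ -7 := fun i => by
    unfold sgN
    have : (0 : ℝ) ≤ i := i.cast_nonneg
    linarith
  have h2 : 16 * (M : ℝ) * std (τ - 16 * M) = 0 := by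
    rcases Nat.eq_zero_or_pos M with h0 | h0
    · rw [h0]; simp
    · have : (1 : ℝ) ≤ M := by exact_mod_cast h0
      rw [std_of_le (by linarith), mul_zero]
  unfold FldN
  rw [h2, sum_eq_zero fun i _ => by
      rw [(cellN_low (e := 0) (h1 i)).2.2.1, Complex.ofReal_zero],
    sum_eq_zero fun i _ => (cellN_low (h1 i)).2.2.2]
  simp

/-- on the last line `p = -(2-ga) - i (τ - 16M + 16M st (τ - 16M))`. -/
theorem pvN_high {ga : ℝ} {e : ℕ → ℝ} {M : ℕ} {τ : ℝ} (h : 16 * M - 1 ≤ τ) :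
    pvN ga e M τ = ((-(2 - ga) : ℝ) : ℂ) -
      Complex.I * ((τ - 16 * M + 16 * M * st (τ - 16 * M) : ℝ) : ℂ) := by
  have h1 : ∀ i ∈ range M, 7 ≤ τ - sgN i := fun i hi => by
    have : (i : ℝ) + 1 ≤ M := by exact_mod_cast mem_range.1 hi
    unfold sgN
    linarith
  unfold pvN FlN
  rw [sum_eq_zero fun i hi => by
      rw [(cellN_high (e := 0) (h1 i hi)).1, Complex.ofReal_zero],
    sum_congr rfl fun i hi => (cellN_high (h1 i hi)).2.1, sum_const, card_range, nsmul_eq_mul]
  apply Complex.ext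
  · simp
  · simp
    ring

theorem pvdN_high {e : ℕ → ℝ} {M : ℕ} {τ : ℝ} (h : 16 * M - 1 ≤ τ) :
    pvdN e M τ = -Complex.I * ((1 + 16 * M * std (τ - 16 * M) : ℝ) : ℂ) := by
  have h1 : ∀ i ∈ range M, 7 ≤ τ - sgN i := fun i hi => by
    have : (i : ℝ) + 1 ≤ M := by exact_mod_cast mem_range.1 hi
    unfold sgN
    linarith
  unfold pvdN FldN
  rw [sum_eq_zero fun i hi => by
      rw [(cellN_high (e := 0) (h1 i hi)).2.2.1, Complex.ofReal_zero],
    sum_eq_zero fun i hi => (cellN_high (h1 i hi)).2.2.2]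
  apply Complex.ext
  · simp
  · simp
    ring

theorem pvN_low {ga : ℝ} {e : ℕ → ℝ} {M : ℕ} {τ : ℝ} (h : τ ≤ 1) :
    pvN ga e M τ = -((2 - ga : ℝ) : ℂ) - Complex.I * (τ : ℂ) := by
  unfold pvN
  rw [FlN_low h, add_zero]

theorem pvdN_low {e : ℕ → ℝ} {M : ℕ} {τ : ℝ} (h : τ ≤ 1) : pvdN e M τ = -Complex.I := by
  unfold pvdN
  rw [FldN_low h, add_zero]

theorem FlN_high {e : ℕ → ℝ} {M : ℕ} {τ : ℝ} (h : 16 * M + 1 ≤ τ) : FlN e M τ = 0 := by
  have h1 : ∀ i ∈ range M, 7 ≤ τ - sgN i := fun i hi => by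
    have : (i : ℝ) + 1 ≤ M := by exact_mod_cast mem_range.1 hi
    unfold sgN
    linarith
  unfold FlN
  rw [sum_eq_zero fun i hi => by
      rw [(cellN_high (e := 0) (h1 i hi)).1, Complex.ofReal_zero],
    sum_congr rfl fun i hi => (cellN_high (h1 i hi)).2.1, sum_const, card_range, nsmul_eq_mul,
    st_of_ge (by linarith)]
  apply Complex.ext
  · simp
  · simp
    ring

/-- trichotomy: first line, a cell, last line. -/
theorem casesN_tau (M : ℕ) (τ : ℝ) :
    τ ≤ 0 ∨ (∃ l < M, |τ - sgN l| ≤ 8) ∨ 16 * (M : ℝ) ≤ τ := by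
  rcases le_total τ 0 with h | h
  · exact Or.inl h
  · rcases le_or_gt (16 * (M : ℝ)) τ with h1 | h1
    · exact Or.inr (Or.inr h1)
    · refine Or.inr (Or.inl ⟨⌊τ / 16⌋₊, ?_, ?_⟩)
      · rw [Nat.floor_lt (by positivity)]
        linarith
      · have h2 := Nat.floor_le (by positivity : 0 ≤ τ / 16)
        have h3 := Nat.lt_floor_add_one (τ / 16)
        unfold sgN
        rw [abs_le]
        constructor <;> linarith

/-! ### the planar function -/

theorem plN_of_pos {ga : ℝ} {e : ℕ → ℝ} {M : ℕ} {z : ℂ} (h : 0 < z.re) :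
    plN ga e M z = (z.re : ℂ) * pvN ga e M (z.im / z.re) := by
  unfold plN pvN
  rw [if_pos h]
  have h1 : (z.im : ℂ) = (z.re : ℂ) * ((z.im / z.re : ℝ) : ℂ) := by
    rw [← Complex.ofReal_mul, mul_div_cancel₀ _ h.ne']
  rw [h1]
  ring

theorem plN_of_nonpos {ga : ℝ} {e : ℕ → ℝ} {M : ℕ} {z : ℂ} (h : z.re ≤ 0) :
    plN ga e M z = -((2 - ga : ℝ) : ℂ) * z.re - Complex.I * z.im := by
  unfold plN
  rw [if_neg (not_lt.2 h), add_zero]

/-- outside the cone of the loops the planar function is linear. -/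
theorem plN_of_far {ga : ℝ} {e : ℕ → ℝ} {M : ℕ} {z : ℂ}
    (h : (16 * M + 1) * z.re ≤ |z.im| ∨ z.im ≤ z.re) :
    plN ga e M z = -((2 - ga : ℝ) : ℂ) * z.re - Complex.I * z.im := by
  rcases le_or_gt z.re 0 with h0 | h0
  · exact plN_of_nonpos h0
  · unfold plN
    rw [if_pos h0]
    have h1 : FlN e M (z.im / z.re) = 0 := by
      rcases h with h | h
      · rcases le_total 0 z.im with h2 | h2
        · refine FlN_high ?_
          rwa [le_div_iff₀ h0, ← abs_of_nonneg h2]
        · exact FlN_low ((div_nonpos_of_nonpos_of_nonneg h2 h0.le).trans zero_le_one)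
      · exact FlN_low (by rwa [div_le_one h0])
    rw [h1, mul_zero, add_zero]

/-- `∂_s` of the planar function. -/
def paN (ga : ℝ) (e : ℕ → ℝ) (M : ℕ) (z : ℂ) : ℂ :=
  if 0 < z.re then pvN ga e M (z.im / z.re) -
    ((z.im / z.re : ℝ) : ℂ) * pvdN e M (z.im / z.re)
  else -((2 - ga : ℝ) : ℂ)

/-- `∂_t` of the planar function. -/
def pbN (e : ℕ → ℝ) (M : ℕ) (z : ℂ) : ℂ :=
  if 0 < z.re then pvdN e M (z.im / z.re) else -Complex.I

theorem farN_nhds {M : ℕ} {z : ℂ} (h0 : z.re ≤ 0) (hz : z ≠ 0) :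
    ∀ᶠ w in nhds z, (16 * (M : ℝ) + 1) * w.re ≤ |w.im| := by
  have h := far_nhds (M := 2 * M) h0 hz
  filter_upwards [h] with w hw
  push_cast at hw
  linarith

theorem hasFDerivAt_plN (ga : ℝ) (e : ℕ → ℝ) (M : ℕ) {z : ℂ} (hz : z ≠ 0) :
    HasFDerivAt (plN ga e M) (Complex.reCLM.smulRight (paN ga e M z) +
      Complex.imCLM.smulRight (pbN e M z)) z := by
  rcases le_or_gt z.re 0 with h0 | h0
  · have h1 : plN ga e M =ᶠ[nhds z] fun w : ℂ => -((2 - ga : ℝ) : ℂ) * (w.re : ℂ) +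
        (-Complex.I) * (w.im : ℂ) := by
      filter_upwards [farN_nhds h0 hz] with w hw
      rw [plN_of_far (Or.inl hw)]
      ring
    have h2 : paN ga e M z = -((2 - ga : ℝ) : ℂ) := if_neg (not_lt.2 h0)
    have h3 : pbN e M z = -Complex.I := if_neg (not_lt.2 h0)
    rw [h2, h3]
    exact (hasFDerivAt_lin _ _ z).congr_of_eventuallyEq h1
  · have h1 : plN ga e M =ᶠ[nhds z] fun w : ℂ => (w.re : ℂ) * pvN ga e M (w.im / w.re) := by
      have : ∀ᶠ w : ℂ in nhds z, 0 < w.re :=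
        Complex.continuous_re.continuousAt.eventually (lt_mem_nhds h0)
      filter_upwards [this] with w hw
      exact plN_of_pos hw
    have h2 : paN ga e M z = pvN ga e M (z.im / z.re) -
        ((z.im / z.re : ℝ) : ℂ) * pvdN e M (z.im / z.re) := if_pos h0
    have h3 : pbN e M z = pvdN e M (z.im / z.re) := if_pos h0
    rw [h2, h3]
    have h4 : HasFDerivAt (fun w : ℂ => pvN ga e M (w.im / w.re))
        (((1 / z.re) • Complex.imCLM - (z.im / z.re ^ 2) • Complex.reCLM).smulRight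
          (pvdN e M (z.im / z.re))) z := by
      have := (hasDerivAt_pvN ga e M (z.im / z.re)).hasFDerivAt.comp z (hasFDerivAt_tau h0.ne')
      refine this.congr_fderiv ?_
      ext w
      simp
      ring
    have h5 : HasFDerivAt (fun w : ℂ => (w.re : ℂ)) (Complex.reCLM.smulRight (1 : ℂ)) z := by
      have : (fun w : ℂ => (w.re : ℂ)) = ⇑(Complex.reCLM.smulRight (1 : ℂ)) := by
        funext w
        simp
      rw [this]
      exact (Complex.reCLM.smulRight (1 : ℂ)).hasFDerivAt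
    refine ((h5.mul h4).congr_fderiv ?_).congr_of_eventuallyEq h1
    ext w
    simp
    have h6 : (z.re : ℂ) ≠ 0 := by exact_mod_cast h0.ne'
    field_simp
    ring

/-! ### windows -/

/-- derivative of a window. -/
def wdN (m m' : ℕ) (τ : ℝ) : ℝ :=
  std ((τ - (16 * m - 1)) / 2) / 2 * (1 - st ((τ - (16 * m' - 1)) / 2)) -
    st ((τ - (16 * m - 1)) / 2) * (std ((τ - (16 * m' - 1)) / 2) / 2)

theorem hasDerivAt_winN (m m' : ℕ) (τ : ℝ) : HasDerivAt (winN m m') (wdN m m' τ) τ := by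
  have e : ∀ a : ℝ, HasDerivAt (fun τ => st ((τ - a) / 2)) (std ((τ - a) / 2) / 2) τ := by
    intro a
    have h1 : HasDerivAt (fun τ : ℝ => (τ - a) / 2) (1 / 2) τ :=
      ((hasDerivAt_id τ).sub_const a).div_const 2
    have h2 := (hasDerivAt_st ((τ - a) / 2)).comp τ h1
    refine h2.congr_deriv ?_
    ring
  have := (e (16 * m - 1)).mul ((e (16 * m' - 1)).const_sub 1)
  refine this.congr_deriv ?_
  unfold wdN
  ring

theorem contDiff_winN (m m' : ℕ) : ContDiff ℝ 2 (winN m m') := by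
  unfold winN
  exact (contDiff_st.comp ((contDiff_id.sub contDiff_const).div_const 2)).mul
    (contDiff_const.sub (contDiff_st.comp ((contDiff_id.sub contDiff_const).div_const 2)))

theorem winN_nonneg (m m' : ℕ) (τ : ℝ) : 0 ≤ winN m m' τ := by
  unfold winN
  exact mul_nonneg (st_nonneg _) (by linarith [st_le_one ((τ - (16 * m' - 1)) / 2)])

theorem winN_le_one (m m' : ℕ) (τ : ℝ) : winN m m' τ ≤ 1 := by
  unfold winN
  have h1 := st_nonneg ((τ - (16 * m - 1)) / 2)
  have h2 := st_le_one ((τ - (16 * m - 1)) / 2)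
  have h3 := st_nonneg ((τ - (16 * m' - 1)) / 2)
  have h4 := st_le_one ((τ - (16 * m' - 1)) / 2)
  exact mul_le_one₀ h2 (by linarith) (by linarith)


/-- off the two transition zones the window is `0` or `1`. -/
theorem winN_const {m m' : ℕ} {τ : ℝ} (h1 : 1 ≤ |τ - 16 * m|) (h2 : 1 ≤ |τ - 16 * m'|) :
    (winN m m' τ = 0 ∨ winN m m' τ = 1) ∧ wdN m m' τ = 0 := by
  unfold winN wdN
  rcases le_abs.1 h1 with h3 | h3
  · rw [st_of_ge (by linarith : 1 ≤ (τ - (16 * m - 1)) / 2),
      std_of_ge (by linarith : 1 ≤ (τ - (16 * m - 1)) / 2)]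
    rcases le_abs.1 h2 with h4 | h4
    · rw [st_of_ge (by linarith : 1 ≤ (τ - (16 * m' - 1)) / 2),
        std_of_ge (by linarith : 1 ≤ (τ - (16 * m' - 1)) / 2)]
      norm_num
    · rw [st_of_le (by linarith : (τ - (16 * m' - 1)) / 2 ≤ 0),
        std_of_le (by linarith : (τ - (16 * m' - 1)) / 2 ≤ 0)]
      norm_num
  · rw [st_of_le (by linarith : (τ - (16 * m - 1)) / 2 ≤ 0),
      std_of_le (by linarith : (τ - (16 * m - 1)) / 2 ≤ 0)]
    norm_num

/-- in a cell, off the junctions, all windows are constant; explicit value. -/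
theorem winN_cell {m m' l : ℕ} {τ : ℝ} (h : |τ - sgN l| ≤ 7) :
    winN m m' τ = (if m ≤ l ∧ l < m' then 1 else 0) ∧ wdN m m' τ = 0 := by
  rw [abs_le] at h
  unfold sgN at h
  unfold winN wdN
  rcases le_or_gt m l with h1 | h1
  · have c1 : (m : ℝ) ≤ l := by exact_mod_cast h1
    rw [st_of_ge (by linarith : 1 ≤ (τ - (16 * m - 1)) / 2),
      std_of_ge (by linarith : 1 ≤ (τ - (16 * m - 1)) / 2)]
    rcases le_or_gt m' l with h2 | h2
    · have c2 : (m' : ℝ) ≤ l := by exact_mod_cast h2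
      rw [st_of_ge (by linarith : 1 ≤ (τ - (16 * m' - 1)) / 2),
        std_of_ge (by linarith : 1 ≤ (τ - (16 * m' - 1)) / 2),
        if_neg (by omega)]
      norm_num
    · have c2 : (l : ℝ) + 1 ≤ m' := by exact_mod_cast h2
      rw [st_of_le (by linarith : (τ - (16 * m' - 1)) / 2 ≤ 0),
        std_of_le (by linarith : (τ - (16 * m' - 1)) / 2 ≤ 0), if_pos ⟨h1, h2⟩]
      norm_num
  · have c1 : (l : ℝ) + 1 ≤ m := by exact_mod_cast h1
    rw [st_of_le (by linarith : (τ - (16 * m - 1)) / 2 ≤ 0),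
      std_of_le (by linarith : (τ - (16 * m - 1)) / 2 ≤ 0), if_neg (by omega)]
    norm_num

/-- in a cell, off the junctions, the windows are constant. -/
theorem winN_const_of_cell {m m' l : ℕ} {τ : ℝ} (h : |τ - sgN l| ≤ 7) :
    (winN m m' τ = 0 ∨ winN m m' τ = 1) ∧ wdN m m' τ = 0 := by
  obtain ⟨h1, h2⟩ := winN_cell (m := m) (m' := m') h
  refine ⟨?_, h2⟩
  rw [h1]
  split_ifs
  · exact Or.inr rfl
  · exact Or.inl rfl

/-- the window vanishes far away. -/
theorem winN_far {m m' : ℕ} {τ : ℝ} (h : 16 * (m' : ℝ) + 1 ≤ |τ|) : winN m m' τ = 0 := by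
  unfold winN
  rcases le_abs.1 h with h1 | h1
  · rw [st_of_ge (by linarith : 1 ≤ (τ - (16 * m' - 1)) / 2)]
    ring
  · have h2 : (0 : ℝ) ≤ m := m.cast_nonneg
    have h3 : (0 : ℝ) ≤ m' := m'.cast_nonneg
    rw [st_of_le (by linarith : (τ - (16 * m - 1)) / 2 ≤ 0)]
    ring

/-- where a window moves. -/
theorem wdN_ne {m m' : ℕ} {τ : ℝ} (h : wdN m m' τ ≠ 0) :
    (m < m' ∧ |τ - 16 * m| < 1) ∨ |τ - 16 * m'| < 1 := by
  by_contra h0
  push Not at h0
  obtain ⟨h1, h2⟩ := h0
  rcases lt_or_ge m m' with h3 | h3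
  · exact h (winN_const (h1 h3) h2).2
  · have h4 : (m' : ℝ) ≤ m := by exact_mod_cast h3
    rcases le_or_gt 1 |τ - 16 * m| with h5 | h5
    · exact h (winN_const h5 h2).2
    · rw [abs_lt] at h5
      refine h ?_
      unfold wdN
      have h6 : 1 ≤ (τ - (16 * m' - 1)) / 2 := by
        rcases le_abs.1 h2 with h6 | h6
        · linarith
        · linarith
      rw [st_of_ge h6, std_of_ge h6]
      ring

/-! ### types of points of the planar function (`s > 0`) -/

/-- a junction: the vertical line, running down through height `0` with speed `1`. -/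
theorem pvN_junction {M m : ℕ} (hm : m < M) {τ : ℝ} (h : |τ - 16 * m| ≤ 1) (ga : ℝ)
    (e : ℕ → ℝ) : pvN ga e M τ = ((-(2 - ga) : ℝ) : ℂ) -
      Complex.I * ((τ - 16 * m : ℝ) : ℂ) ∧ pvdN e M τ = -Complex.I := by
  rw [abs_le] at h
  rcases Nat.eq_zero_or_pos m with h0 | h0
  · subst h0
    rw [pvN_low (by push_cast at h; linarith), pvdN_low (by push_cast at h; linarith)]
    simp
  · rcases le_total τ (16 * m) with h3 | h3
    · have h4 : |τ - sgN (m - 1)| ≤ 8 := by
        unfold sgN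
        rw [Nat.cast_sub h0, abs_le]
        push_cast
        constructor <;> linarith
      have h5 : 7 ≤ τ - sgN (m - 1) := by
        unfold sgN
        rw [Nat.cast_sub h0]
        push_cast
        linarith
      rw [pvN_cell (by omega : m - 1 < M) h4, pvdN_cell (by omega : m - 1 < M) h4,
        (yc_high h5).1, (yc_high h5).2, Af_of_ge (by rw [abs_of_nonneg (by linarith)]; linarith),
        Afd_of_ge (by linarith)]
      constructor
      · apply Complex.ext
        · simp; ring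
        · unfold sgN
          rw [Nat.cast_sub h0]
          simp
          ring
      · simp
    · have h4 : |τ - sgN m| ≤ 8 := by
        unfold sgN
        rw [abs_le]
        constructor <;> linarith
      have h5 : τ - sgN m ≤ -7 := by
        unfold sgN
        linarith
      rw [pvN_cell hm h4, pvdN_cell hm h4,
        (yc_low h5).1, (yc_low h5).2, Af_of_ge (by rw [abs_of_nonpos (by linarith)]; linarith),
        Afd_of_le (by linarith)]
      constructor
      · apply Complex.ext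
        · simp; ring
        · unfold sgN
          simp
          ring
      · simp

/-- off the lobes: on the vertical line; either running down with speed at least `1`, or
(type `U`) height at most `3` and all windows constant. -/
theorem pvN_vert {e : ℕ → ℝ} (he : ∀ l, |e l| = 1) {M : ℕ} {τ : ℝ}
    (h : ∀ l < M, 3 ≤ |τ - sgN l|) :
    (∀ ga : ℝ, (pvN ga e M τ).re = -(2 - ga)) ∧
      ∃ κ : ℝ, pvdN e M τ = -Complex.I * (κ : ℂ) ∧
        (1 ≤ κ ∨ (∀ ga : ℝ, |(pvN ga e M τ).im| ≤ 3) ∧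
          ∀ m m' : ℕ, (winN m m' τ = 0 ∨ winN m m' τ = 1) ∧ wdN m m' τ = 0) := by
  rcases casesN_tau M τ with h1 | ⟨l, hl, h1⟩ | h1
  · refine ⟨fun ga => ?_, 1, ?_, Or.inl le_rfl⟩
    · rw [pvN_low (by linarith)]
      simp
    · rw [pvdN_low (by linarith)]
      simp
  · have h2 := h l hl
    have hA : Afd (τ - sgN l) = 0 := by
      rcases le_abs.1 h2 with h3 | h3
      · exact Afd_of_ge h3
      · exact Afd_of_le (by linarith)
    have hre : ∀ ga : ℝ, (pvN ga e M τ).re = -(2 - ga) := by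
      intro ga
      rw [pvN_cell hl h1, Af_of_ge h2]
      simp
      ring
    refine ⟨hre, -ycd (e l) (τ - sgN l), ?_, ?_⟩
    · rw [pvdN_cell hl h1, hA]
      simp
    · rcases le_or_gt |τ - sgN l| 7 with h4 | h4
      · refine Or.inr ⟨fun ga => ?_, fun m m' => winN_const_of_cell h4⟩
        rw [pvN_cell hl h1]
        simpa using abs_yc_le (he l) h2 h4
      · left
        rcases lt_abs.1 h4 with h5 | h5
        · rw [(yc_high h5.le).2]; norm_num
        · rw [(yc_low (by linarith)).2]; norm_num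
  · refine ⟨fun ga => ?_, 1 + 16 * M * std (τ - 16 * M), ?_, Or.inl ?_⟩
    · rw [pvN_high (by linarith)]
      simp
    · rw [pvdN_high (by linarith)]
    · have := mul_nonneg (by positivity : (0 : ℝ) ≤ 16 * M) (std_nonneg (τ - 16 * M))
      linarith


/-- inside a lobe. -/
theorem pvN_lobe {ga : ℝ} {e : ℕ → ℝ} {M l : ℕ} (hl : l < M) {τ : ℝ} (h : |τ - sgN l| ≤ 6) :
    (pvN ga e M τ).re = -(1 - ga) + Af (τ - sgN l) ∧ (pvN ga e M τ).im = e l * Bf (τ - sgN l) ∧
      (pvdN e M τ).re = Afd (τ - sgN l) ∧ (pvdN e M τ).im = e l * Bfd (τ - sgN l) := by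
  have h4 : |τ - sgN l| ≤ 8 := by linarith
  obtain ⟨h1, h2⟩ := yc_in (e := e l) h
  rw [pvN_cell hl h4, pvdN_cell hl h4, h1, h2]
  refine ⟨?_, ?_, ?_, ?_⟩ <;> simp

/-- the signs of `SD`. -/
theorem abs_sn {N : ℕ} (D : SD N) (j : Fin N) (l : ℕ) : |D.sn j l| = 1 := by
  unfold SD.sn
  split_ifs <;> simp

theorem sn_eq {N : ℕ} (D : SD N) (j : Fin N) (l : ℕ) : D.sn j l = 1 ∨ D.sn j l = -1 := by
  unfold SD.sn
  split_ifs <;> simp

end Crest.Agent.R267.CalcN_88
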