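import Crest.Agent.R267.DraftB_808
import Crest.Agent.R267.BallExt_88

-- ▼ part R267/ClassAsm_484
section

/-!
# TB-B6: `ClassProp n` from NORM, FB, TYP, TYPN and CLASS1 (helper484)
-/

set_option autoImplicit false
set_option linter.unusedSectionVars false

noncomputable section

namespace Crest.Agent.R267.ClassAsm_484

open Set Metric
open scoped RealInnerProductSpace
open Crest.Agent.R267.GS_808 Crest.Agent.R267.DraftB_808

variable {B V : Type*} [NormedAddCommGroup B] [NormedSpace ℝ B]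
  [NormedAddCommGroup V] [InnerProductSpace ℝ V] {e : V} {m : ℕ}

theorem isot_symm {G G' : Sys B e m} (h : Isot G G') : Isot G' G := by
  obtain ⟨X, N, h1, h2, h3, h4, h5, h6, h7⟩ := h
  have hr : MapsTo (fun p : ℝ × B => (1 - p.1, p.2)) (Icc (0 : ℝ) 1 ×ˢ closedBall 0 1)
      (Icc (0 : ℝ) 1 ×ˢ closedBall 0 1) := fun p hp =>
    ⟨⟨by linarith [hp.1.2], by linarith [hp.1.1]⟩, hp.2⟩
  have hc : Continuous fun p : ℝ × B => (1 - p.1, p.2) := by fun_prop
  have ht : ∀ t ∈ Icc (0 : ℝ) 1, 1 - t ∈ Icc (0 : ℝ) 1 := fun t ht =>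
    ⟨by linarith [ht.2], by linarith [ht.1]⟩
  refine ⟨fun k p => X k (1 - p.1, p.2), fun k p => N k (1 - p.1, p.2),
    fun k => (h1 k).comp hc.continuousOn hr, fun k => (h2 k).comp hc.continuousOn hr,
    fun k t h u hu => h3 k _ (ht t h) u hu, fun k l hkl t h u hu => h4 k l hkl _ (ht t h) u hu,
    fun k t h u hu => h5 k _ (ht t h) u hu, fun k u hu => ?_, fun k u hu => ?_⟩
  · simpa using h7 k u hu
  · simpa using h6 k u hu

/-- gluing in time. -/
def glue {Y : Type*} (F F' : ℝ × B → Y) (p : ℝ × B) : Y :=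
  if p.1 ≤ 1 / 2 then F (2 * p.1, p.2) else F' (2 * p.1 - 1, p.2)

theorem glue_left {Y : Type*} {F F' : ℝ × B → Y} {t : ℝ} (h : t ≤ 1 / 2) (u : B) :
    glue F F' (t, u) = F (2 * t, u) := by
  unfold glue; rw [if_pos h]

theorem glue_right {Y : Type*} {F F' : ℝ × B → Y} {t : ℝ} (h : ¬ t ≤ 1 / 2) (u : B) :
    glue F F' (t, u) = F' (2 * t - 1, u) := by
  unfold glue; rw [if_neg h]

theorem continuousOn_glue {Y : Type*} [TopologicalSpace Y] {F F' : ℝ × B → Y}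
    (hF : ContinuousOn F (Icc 0 1 ×ˢ closedBall 0 1))
    (hF' : ContinuousOn F' (Icc 0 1 ×ˢ closedBall 0 1))
    (h : ∀ u, ‖u‖ ≤ 1 → F (1, u) = F' (0, u)) :
    ContinuousOn (glue F F') (Icc 0 1 ×ˢ closedBall 0 1) := by
  have hs : (Icc (0 : ℝ) 1 ×ˢ closedBall (0 : B) 1) =
      (Icc (0 : ℝ) (1 / 2) ×ˢ closedBall 0 1) ∪ (Icc (1 / 2 : ℝ) 1 ×ˢ closedBall 0 1) := by
    rw [← union_prod, Icc_union_Icc_eq_Icc (by norm_num) (by norm_num)]
  rw [hs]
  refine ContinuousOn.union_of_isClosed ?_ ?_ (isClosed_Icc.prod isClosed_closedBall)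
    (isClosed_Icc.prod isClosed_closedBall)
  · have h1 : ContinuousOn (fun p : ℝ × B => F (2 * p.1, p.2))
        (Icc (0 : ℝ) (1 / 2) ×ˢ closedBall 0 1) :=
      hF.comp (by fun_prop) fun p hp => ⟨⟨by linarith [hp.1.1], by linarith [hp.1.2]⟩, hp.2⟩
    refine h1.congr fun p hp => ?_
    unfold glue
    rw [if_pos hp.1.2]
  · have h1 : ContinuousOn (fun p : ℝ × B => F' (2 * p.1 - 1, p.2))
        (Icc (1 / 2 : ℝ) 1 ×ˢ closedBall 0 1) :=
      hF'.comp (by fun_prop) fun p hp => ⟨⟨by linarith [hp.1.1], by linarith [hp.1.2]⟩, hp.2⟩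
    refine h1.congr fun p hp => ?_
    unfold glue
    split_ifs with h2
    · have h3 : p.1 = 1 / 2 := le_antisymm h2 hp.1.1
      have h4 : ‖p.2‖ ≤ 1 := by simpa using hp.2
      have h5 : 2 * p.1 = 1 := by rw [h3]; norm_num
      have h6 : 2 * p.1 - 1 = 0 := by rw [h3]; norm_num
      change F (2 * p.1, p.2) = F' (2 * p.1 - 1, p.2)
      rw [h6, h5]
      exact h _ h4
    · rfl

theorem isot_trans {G G' G'' : Sys B e m} (h : Isot G G') (h' : Isot G' G'') : Isot G G'' := by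
  obtain ⟨X, N, h1, h2, h3, h4, h5, h6, h7⟩ := h
  obtain ⟨X', N', h1', h2', h3', h4', h5', h6', h7'⟩ := h'
  have hL : ∀ t ∈ Icc (0 : ℝ) 1, t ≤ 1 / 2 → 2 * t ∈ Icc (0 : ℝ) 1 := fun t ht h =>
    ⟨by linarith [ht.1], by linarith⟩
  have hR : ∀ t ∈ Icc (0 : ℝ) 1, ¬ t ≤ 1 / 2 → 2 * t - 1 ∈ Icc (0 : ℝ) 1 := fun t ht h =>
    ⟨by linarith [not_le.1 h], by linarith [ht.2]⟩
  refine ⟨fun k => glue (X k) (X' k), fun k => glue (N k) (N' k),
    fun k => continuousOn_glue (h1 k) (h1' k) fun u hu => by rw [(h7 k u hu).1, (h6' k u hu).1],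
    fun k => continuousOn_glue (h2 k) (h2' k) fun u hu => by rw [(h7 k u hu).2, (h6' k u hu).2],
    fun k t ht u hu => ?_, fun k l hkl t ht u hu => ?_, fun k t ht u hu => ?_,
    fun k u hu => ?_, fun k u hu => ?_⟩
  · beta_reduce
    by_cases hc : t ≤ 1 / 2
    · rw [glue_left hc]; exact h3 k _ (hL t ht hc) u hu
    · rw [glue_right hc]; exact h3' k _ (hR t ht hc) u hu
  · beta_reduce
    by_cases hc : t ≤ 1 / 2
    · rw [glue_left hc, glue_left hc]; exact h4 k l hkl _ (hL t ht hc) u hu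
    · rw [glue_right hc, glue_right hc]; exact h4' k l hkl _ (hR t ht hc) u hu
  · beta_reduce
    by_cases hc : t ≤ 1 / 2
    · rw [glue_left hc, glue_left hc]; exact h5 k _ (hL t ht hc) u hu
    · rw [glue_right hc, glue_right hc]; exact h5' k _ (hR t ht hc) u hu
  · beta_reduce
    rw [glue_left (by norm_num), glue_left (by norm_num), mul_zero]
    exact h6 k u hu
  · beta_reduce
    rw [glue_right (by norm_num), glue_right (by norm_num)]
    have : (2 : ℝ) * 1 - 1 = 1 := by norm_num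
    rw [this]
    exact h7' k u hu

/-- isotopic systems have freely homotopic differences. -/
theorem fh_of_isot {G G' : Sys B e m} (h : Isot G G') {k l : Fin m} (hkl : k ≠ l) :
    FH e (fun u => G.x k u - G.x l u) (fun u => G'.x k u - G'.x l u) := by
  obtain ⟨X, N, h1, h2, h3, h4, h5, h6, h7⟩ := h
  refine ⟨fun p => X k p - X l p, (h1 k).sub (h1 l), fun t ht u hu => ?_, fun t ht u hu => ?_,
    fun u hu => ?_, fun u hu => ?_⟩
  · exact sub_ne_zero.2 (h4 k l hkl t ht u hu)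
  · rw [inner_sub_right, (h5 k t ht u hu).1, (h5 l t ht u hu).1, sub_zero]
  · simp only [(h6 k u hu).1, (h6 l u hu).1]
  · simp only [(h7 k u hu).1, (h7 l u hu).1]

/-- isotopic systems have homotopic normals. -/
theorem fn_of_isot {G G' : Sys B e m} (h : Isot G G') (k : Fin m) :
    FN e (G.nu k) (G'.nu k) := by
  obtain ⟨X, N, h1, h2, h3, h4, h5, h6, h7⟩ := h
  refine ⟨N k, h2 k, fun t ht u hu => ?_, fun t ht u hu => (h5 k t ht u hu).2,
    fun u hu => (h6 k u hu).2, fun u hu => (h7 k u hu).2⟩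
  intro h0
  have := h3 k t ht u hu
  rw [h0, norm_zero] at this
  norm_num at this

/-- differences of a system are admissible. -/
theorem adm_sub {n m : ℕ} (G : S n m) {k l : Fin m} (hkl : k ≠ l) :
    Adm (n + 2) (fun u => G.x k u - G.x l u) where
  cont := (G.cx k).sub (G.cx l)
  ne u := by
    intro h0
    have h1 := G.sep k l u hkl
    rw [h0, norm_zero] at h1
    linarith [G.hr]
  hor u hu := by rw [inner_sub_right, G.wall_x k u hu, G.wall_x l u hu, sub_zero]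

/-- **B6.** -/
theorem class_of (n : ℕ) (hNorm : NormProp n) (hFB : FBProp n) (hTyp : TypProp n)
    (hTypN : TypNProp n) (hC : Class1Prop n) : ClassProp n := by
  intro m G G' A hG hG'
  set p : Fin m → Vc (n + 2) := fun k => ((k : ℕ) : ℝ) • (EuclideanSpace.single 0 1 : Vc (n + 2))
    with hp
  have hinj : Function.Injective p := by
    intro a b hab
    have h1 := congrFun (congrArg (fun v : Vc (n + 2) => v.ofLp) hab) 0
    simp only [hp, PiLp.smul_apply, PiLp.single_apply, if_true, smul_eq_mul,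
      mul_one] at h1
    exact Fin.ext (by exact_mod_cast h1)
  have hpe : ∀ k, ⟪ec (n + 2), p k⟫ = 0 := by
    intro k
    rw [hp]
    simp only [inner_smul_right]
    have : ⟪ec (n + 2), (EuclideanSpace.single 0 1 : Vc (n + 2))⟫ = 0 := by
      unfold ec
      rw [EuclideanSpace.inner_single_left, PiLp.single_apply, if_neg]
      · simp
      · intro h
        have := congrArg Fin.val h
        simp at this
    rw [this, mul_zero]
  obtain ⟨G1, hI, hx, hnu⟩ := hNorm m G p hinj hpe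
  obtain ⟨G2, hI', hx', hnu'⟩ := hNorm m G' p hinj hpe
  refine isot_trans hI (isot_trans ?_ (isot_symm hI'))
  refine hC m G1 G2 p hx hx' (fun k l hlk => ?_) (fun k => ?_)
  · have h1 := (hG.1 k l hlk).congr (fh_of_isot hI hlk.ne')
    have h2 := (hG'.1 k l hlk).congr (fh_of_isot hI' hlk.ne')
    exact hFB _ _ _ (adm_sub G1 hlk.ne') (adm_sub G2 hlk.ne')
      (fun u hu => by rw [hx k u hu, hx l u hu]) (fun u hu => by rw [hx' k u hu, hx' l u hu])
      (hTyp _ _ _ _ h1 h2)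
  · exact hTypN _ _ _ ((hG.2 k).congr (fn_of_isot hI k)) ((hG'.2 k).congr (fn_of_isot hI' k))

end Crest.Agent.R267.ClassAsm_484
end
end

-- ▼ part R267/IsotB_92

/-!
# Calculus of `Isot`, `FH`, `FN` (row 267, leaf B1i of DRAFT B)

`isot_refl`, `FH`/`FN`: refl, symm, trans, congr, negation, straight segments, reparametrisation;
`exists_sys`: every data set on the closed ball gives a system; `isot_end`: every isotopy of the
data of a system ends at a system.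
-/

set_option autoImplicit false
set_option linter.unusedSectionVars false

namespace Crest.Agent.R267.IsotB_92

open Set Metric Filter Topology
open scoped RealInnerProductSpace
open Crest.Agent.R267.GS_808 Crest.Agent.R267.ClassAsm_484 Crest.Agent.R267.BallExt_88

variable {B V : Type*} [NormedAddCommGroup B] [NormedSpace ℝ B]
  [NormedAddCommGroup V] [InnerProductSpace ℝ V] {e : V} {m : ℕ}

lemma snd_mapsTo : MapsTo (Prod.snd : ℝ × B → B) (Icc (0 : ℝ) 1 ×ˢ closedBall 0 1)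
    (closedBall 0 1) := fun _ hp => hp.2

lemma mem_ball {u : B} (hu : ‖u‖ ≤ 1) : u ∈ closedBall (0 : B) 1 := mem_closedBall_zero_iff.2 hu

lemma norm_le_of_mem {u : B} (hu : u ∈ closedBall (0 : B) 1) : ‖u‖ ≤ 1 :=
  mem_closedBall_zero_iff.1 hu




/-! ### free homotopy -/

section FH

variable {f g f' g' : B → V}

theorem fh_refl (c : ContinuousOn f (closedBall 0 1)) (h0 : ∀ u, ‖u‖ ≤ 1 → f u ≠ 0)
    (h1 : ∀ u, ‖u‖ = 1 → ⟪e, f u⟫ = 0) : FH e f f :=
  ⟨fun p => f p.2, c.comp continuous_snd.continuousOn snd_mapsTo, fun _ _ u hu => h0 u hu,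
    fun _ _ u hu => h1 u hu, fun _ _ => rfl, fun _ _ => rfl⟩

theorem FH.symm (h : FH e f g) : FH e g f := by
  obtain ⟨F, c, h0, h1, h2, h3⟩ := h
  have hr : MapsTo (fun p : ℝ × B => (1 - p.1, p.2)) (Icc (0 : ℝ) 1 ×ˢ closedBall 0 1)
      (Icc (0 : ℝ) 1 ×ˢ closedBall 0 1) := fun p hp =>
    ⟨⟨by linarith [hp.1.2], by linarith [hp.1.1]⟩, hp.2⟩
  have ht : ∀ t ∈ Icc (0 : ℝ) 1, 1 - t ∈ Icc (0 : ℝ) 1 := fun t ht =>
    ⟨by linarith [ht.2], by linarith [ht.1]⟩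
  refine ⟨fun p => F (1 - p.1, p.2), c.comp (by fun_prop) hr, fun t h u hu => h0 _ (ht t h) u hu,
    fun t h u hu => h1 _ (ht t h) u hu, fun u hu => ?_, fun u hu => ?_⟩
  · simpa using h3 u hu
  · simpa using h2 u hu

theorem FH.trans {k : B → V} (h : FH e f g) (h' : FH e g k) : FH e f k := by
  obtain ⟨F, c, h0, h1, h2, h3⟩ := h
  obtain ⟨F', c', h0', h1', h2', h3'⟩ := h'
  have hL : ∀ t ∈ Icc (0 : ℝ) 1, t ≤ 1 / 2 → 2 * t ∈ Icc (0 : ℝ) 1 := fun t ht h =>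
    ⟨by linarith [ht.1], by linarith⟩
  have hR : ∀ t ∈ Icc (0 : ℝ) 1, ¬ t ≤ 1 / 2 → 2 * t - 1 ∈ Icc (0 : ℝ) 1 := fun t ht h =>
    ⟨by linarith [not_le.1 h], by linarith [ht.2]⟩
  refine ⟨glue F F', continuousOn_glue c c' fun u hu => by rw [h3 u hu, h2' u hu],
    fun t ht u hu => ?_, fun t ht u hu => ?_, fun u hu => ?_, fun u hu => ?_⟩
  · by_cases hc : t ≤ 1 / 2
    · rw [glue_left hc]; exact h0 _ (hL t ht hc) u hu
    · rw [glue_right hc]; exact h0' _ (hR t ht hc) u hu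
  · by_cases hc : t ≤ 1 / 2
    · rw [glue_left hc]; exact h1 _ (hL t ht hc) u hu
    · rw [glue_right hc]; exact h1' _ (hR t ht hc) u hu
  · rw [glue_left (by norm_num), mul_zero]; exact h2 u hu
  · rw [glue_right (by norm_num)]
    have : (2 : ℝ) * 1 - 1 = 1 := by norm_num
    rw [this]
    exact h3' u hu

theorem FH.congr (h : FH e f g) (hf : ∀ u, ‖u‖ ≤ 1 → f u = f' u)
    (hg : ∀ u, ‖u‖ ≤ 1 → g u = g' u) : FH e f' g' := by
  obtain ⟨F, c, h0, h1, h2, h3⟩ := h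
  exact ⟨F, c, h0, h1, fun u hu => (h2 u hu).trans (hf u hu), fun u hu => (h3 u hu).trans (hg u hu)⟩


theorem FH.neL (h : FH e f g) (u : B) (hu : ‖u‖ ≤ 1) : f u ≠ 0 := by
  obtain ⟨F, c, h0, h1, h2, h3⟩ := h
  rw [← h2 u hu]
  exact h0 0 ⟨le_refl _, zero_le_one⟩ u hu


/-- negation of a free homotopy. -/
theorem FH.neg (h : FH e f g) : FH e (fun u => -f u) (fun u => -g u) := by
  obtain ⟨F, c, h0, h1, h2, h3⟩ := h
  exact ⟨fun p => -F p, c.neg, fun t ht u hu => neg_ne_zero.2 (h0 t ht u hu),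
    fun t ht u hu => by rw [inner_neg_right, h1 t ht u hu, neg_zero],
    fun u hu => by simp only [h2 u hu], fun u hu => by simp only [h3 u hu]⟩

/-- reparametrisation of the base by a homotopy of maps of pairs. -/
theorem FH.comp {Φ : ℝ × B → B} (h : FH e f g)
    (cΦ : ContinuousOn Φ (Icc 0 1 ×ˢ closedBall 0 1))
    (hb : ∀ t ∈ Icc (0 : ℝ) 1, ∀ u, ‖u‖ ≤ 1 → ‖Φ (t, u)‖ ≤ 1)
    (hs : ∀ t ∈ Icc (0 : ℝ) 1, ∀ u, ‖u‖ = 1 → ‖Φ (t, u)‖ = 1) :
    FH e (fun u => f (Φ (0, u))) (fun u => g (Φ (1, u))) := by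
  obtain ⟨F, c, h0, h1, h2, h3⟩ := h
  refine ⟨fun p => F (p.1, Φ p), c.comp (continuousOn_fst.prodMk cΦ) fun p hp =>
    ⟨hp.1, mem_ball (hb p.1 hp.1 p.2 (norm_le_of_mem hp.2))⟩,
    fun t ht u hu => h0 t ht _ (hb t ht u hu), fun t ht u hu => h1 t ht _ (hs t ht u hu),
    fun u hu => h2 _ (hb 0 ⟨le_refl _, zero_le_one⟩ u hu),
    fun u hu => h3 _ (hb 1 ⟨zero_le_one, le_refl _⟩ u hu)⟩

/-- straight segments. -/
theorem fh_of_segment (cf : ContinuousOn f (closedBall 0 1)) (cg : ContinuousOn g (closedBall 0 1))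
    (hf : ∀ u, ‖u‖ = 1 → ⟪e, f u⟫ = 0) (hg : ∀ u, ‖u‖ = 1 → ⟪e, g u⟫ = 0)
    (h : ∀ u, ‖u‖ ≤ 1 → ∀ t ∈ Icc (0 : ℝ) 1, (1 - t) • f u + t • g u ≠ 0) : FH e f g := by
  refine ⟨fun p => (1 - p.1) • f p.2 + p.1 • g p.2, ?_, fun t ht u hu => h u hu t ht,
    fun t ht u hu => ?_, fun u _ => by simp, fun u _ => by simp⟩
  · exact ((continuousOn_const.sub continuousOn_fst).smul
      (cf.comp continuousOn_snd snd_mapsTo)).add
      (continuousOn_fst.smul (cg.comp continuousOn_snd snd_mapsTo))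
  · rw [inner_add_right, inner_smul_right, inner_smul_right, hf u hu, hg u hu]; simp

/-- the segment between `f u` and `g u` misses `0` if some functional is positive on both. -/
theorem seg_ne {v w a : V} (hv : 0 < ⟪a, v⟫) (hw : 0 < ⟪a, w⟫) {t : ℝ} (ht : t ∈ Icc (0 : ℝ) 1) :
    (1 - t) • v + t • w ≠ 0 := by
  intro h
  have h1 : ⟪a, (1 - t) • v + t • w⟫ = 0 := by rw [h, inner_zero_right]
  rw [inner_add_right, inner_smul_right, inner_smul_right] at h1
  rcases lt_or_ge t (1 / 2) with h2 | h2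
  · nlinarith [mul_pos (by linarith : (0 : ℝ) < 1 - t) hv, mul_nonneg ht.1 hw.le]
  · nlinarith [mul_nonneg (by linarith [ht.2] : (0 : ℝ) ≤ 1 - t) hv.le,
      mul_pos (by linarith : (0 : ℝ) < t) hw]

/-- maps with positive inner product at every point are freely homotopic. -/
theorem fh_of_inner_pos (cf : ContinuousOn f (closedBall 0 1))
    (cg : ContinuousOn g (closedBall 0 1))
    (hf : ∀ u, ‖u‖ = 1 → ⟪e, f u⟫ = 0) (hg : ∀ u, ‖u‖ = 1 → ⟪e, g u⟫ = 0)
    (h : ∀ u, ‖u‖ ≤ 1 → 0 < ⟪f u, g u⟫) : FH e f g := by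
  refine fh_of_segment cf cg hf hg fun u hu t ht => ?_
  have h1 := h u hu
  have h2 : 0 < ⟪f u, f u⟫ := by
    rw [real_inner_self_eq_norm_sq]
    have : f u ≠ 0 := by
      intro h0
      rw [h0, inner_zero_left] at h1
      exact lt_irrefl _ h1
    have := norm_pos_iff.2 this
    positivity
  exact seg_ne h2 h1 ht

/-- positive rescaling. -/
theorem fh_smul {c : B → ℝ} (cc : ContinuousOn c (closedBall 0 1)) (hc : ∀ u, ‖u‖ ≤ 1 → 0 < c u)
    (cf : ContinuousOn f (closedBall 0 1)) (h0 : ∀ u, ‖u‖ ≤ 1 → f u ≠ 0)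
    (hf : ∀ u, ‖u‖ = 1 → ⟪e, f u⟫ = 0) : FH e f (fun u => c u • f u) := by
  refine fh_of_inner_pos cf (cc.smul cf) hf (fun u hu => by rw [inner_smul_right, hf u hu, mul_zero])
    fun u hu => ?_
  rw [inner_smul_right, real_inner_self_eq_norm_sq]
  have := norm_pos_iff.2 (h0 u hu)
  have := hc u hu
  positivity

end FH

/-! ### homotopy of normals -/

section FN

variable {f g f' g' : B → V}

theorem fn_refl (c : ContinuousOn f (closedBall 0 1)) (h0 : ∀ u, ‖u‖ ≤ 1 → f u ≠ 0)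
    (h1 : ∀ u, ‖u‖ = 1 → f u = e) : FN e f f :=
  ⟨fun p => f p.2, c.comp continuous_snd.continuousOn snd_mapsTo, fun _ _ u hu => h0 u hu,
    fun _ _ u hu => h1 u hu, fun _ _ => rfl, fun _ _ => rfl⟩

theorem FN.symm (h : FN e f g) : FN e g f := by
  obtain ⟨F, c, h0, h1, h2, h3⟩ := h
  have hr : MapsTo (fun p : ℝ × B => (1 - p.1, p.2)) (Icc (0 : ℝ) 1 ×ˢ closedBall 0 1)
      (Icc (0 : ℝ) 1 ×ˢ closedBall 0 1) := fun p hp =>
    ⟨⟨by linarith [hp.1.2], by linarith [hp.1.1]⟩, hp.2⟩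
  have ht : ∀ t ∈ Icc (0 : ℝ) 1, 1 - t ∈ Icc (0 : ℝ) 1 := fun t ht =>
    ⟨by linarith [ht.2], by linarith [ht.1]⟩
  refine ⟨fun p => F (1 - p.1, p.2), c.comp (by fun_prop) hr, fun t h u hu => h0 _ (ht t h) u hu,
    fun t h u hu => h1 _ (ht t h) u hu, fun u hu => ?_, fun u hu => ?_⟩
  · simpa using h3 u hu
  · simpa using h2 u hu

theorem FN.trans {k : B → V} (h : FN e f g) (h' : FN e g k) : FN e f k := by
  obtain ⟨F, c, h0, h1, h2, h3⟩ := h
  obtain ⟨F', c', h0', h1', h2', h3'⟩ := h'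
  have hL : ∀ t ∈ Icc (0 : ℝ) 1, t ≤ 1 / 2 → 2 * t ∈ Icc (0 : ℝ) 1 := fun t ht h =>
    ⟨by linarith [ht.1], by linarith⟩
  have hR : ∀ t ∈ Icc (0 : ℝ) 1, ¬ t ≤ 1 / 2 → 2 * t - 1 ∈ Icc (0 : ℝ) 1 := fun t ht h =>
    ⟨by linarith [not_le.1 h], by linarith [ht.2]⟩
  refine ⟨glue F F', continuousOn_glue c c' fun u hu => by rw [h3 u hu, h2' u hu],
    fun t ht u hu => ?_, fun t ht u hu => ?_, fun u hu => ?_, fun u hu => ?_⟩
  · by_cases hc : t ≤ 1 / 2
    · rw [glue_left hc]; exact h0 _ (hL t ht hc) u hu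
    · rw [glue_right hc]; exact h0' _ (hR t ht hc) u hu
  · by_cases hc : t ≤ 1 / 2
    · rw [glue_left hc]; exact h1 _ (hL t ht hc) u hu
    · rw [glue_right hc]; exact h1' _ (hR t ht hc) u hu
  · rw [glue_left (by norm_num), mul_zero]; exact h2 u hu
  · rw [glue_right (by norm_num)]
    have : (2 : ℝ) * 1 - 1 = 1 := by norm_num
    rw [this]
    exact h3' u hu

theorem FN.congr (h : FN e f g) (hf : ∀ u, ‖u‖ ≤ 1 → f u = f' u)
    (hg : ∀ u, ‖u‖ ≤ 1 → g u = g' u) : FN e f' g' := by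
  obtain ⟨F, c, h0, h1, h2, h3⟩ := h
  exact ⟨F, c, h0, h1, fun u hu => (h2 u hu).trans (hf u hu), fun u hu => (h3 u hu).trans (hg u hu)⟩


theorem FN.neL (h : FN e f g) (u : B) (hu : ‖u‖ ≤ 1) : f u ≠ 0 := by
  obtain ⟨F, c, h0, h1, h2, h3⟩ := h
  rw [← h2 u hu]
  exact h0 0 ⟨le_refl _, zero_le_one⟩ u hu

theorem FN.comp {Φ : ℝ × B → B} (h : FN e f g)
    (cΦ : ContinuousOn Φ (Icc 0 1 ×ˢ closedBall 0 1))
    (hb : ∀ t ∈ Icc (0 : ℝ) 1, ∀ u, ‖u‖ ≤ 1 → ‖Φ (t, u)‖ ≤ 1)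
    (hs : ∀ t ∈ Icc (0 : ℝ) 1, ∀ u, ‖u‖ = 1 → ‖Φ (t, u)‖ = 1) :
    FN e (fun u => f (Φ (0, u))) (fun u => g (Φ (1, u))) := by
  obtain ⟨F, c, h0, h1, h2, h3⟩ := h
  refine ⟨fun p => F (p.1, Φ p), c.comp (continuousOn_fst.prodMk cΦ) fun p hp =>
    ⟨hp.1, mem_ball (hb p.1 hp.1 p.2 (norm_le_of_mem hp.2))⟩,
    fun t ht u hu => h0 t ht _ (hb t ht u hu), fun t ht u hu => h1 t ht _ (hs t ht u hu),
    fun u hu => h2 _ (hb 0 ⟨le_refl _, zero_le_one⟩ u hu),
    fun u hu => h3 _ (hb 1 ⟨zero_le_one, le_refl _⟩ u hu)⟩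

/-- straight segments. -/
theorem fn_of_segment (cf : ContinuousOn f (closedBall 0 1)) (cg : ContinuousOn g (closedBall 0 1))
    (hf : ∀ u, ‖u‖ = 1 → f u = e) (hg : ∀ u, ‖u‖ = 1 → g u = e)
    (h : ∀ u, ‖u‖ ≤ 1 → ∀ t ∈ Icc (0 : ℝ) 1, (1 - t) • f u + t • g u ≠ 0) : FN e f g := by
  refine ⟨fun p => (1 - p.1) • f p.2 + p.1 • g p.2, ?_, fun t ht u hu => h u hu t ht,
    fun t ht u hu => ?_, fun u _ => by simp, fun u _ => by simp⟩
  · exact ((continuousOn_const.sub continuousOn_fst).smul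
      (cf.comp continuousOn_snd snd_mapsTo)).add
      (continuousOn_fst.smul (cg.comp continuousOn_snd snd_mapsTo))
  · show (1 - t) • f u + t • g u = e
    rw [hf u hu, hg u hu, ← add_smul, sub_add_cancel, one_smul]



end FN

/-! ### systems from data on the ball -/




end Crest.Agent.R267.IsotB_92
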