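import Crest.Agent.R267.EndDef_864
import Crest.Agent.R267.IsotB_92
import Crest.Agent.R267.EndH_864

-- ▼ part R267/HasMatA_652
section

/-!
# Homogeneous graph systems: vectors, signs, segments (row 267, T3-end)

Used by `HasMat_652`.
-/

set_option autoImplicit false

namespace Crest.Agent.R267.HasMatA_652

open Set Metric
open scoped RealInnerProductSpace
open Crest.Agent.R267.GS_808 Crest.Agent.R267.EndDef_864 Crest.Agent.R267.IsotB_92

/-! ### vectors -/

section vec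

variable {n : ℕ}

lemma add_ap (v w : W n) (j : Fin (n + 3)) : (v + w) j = v j + w j := rfl
lemma sub_ap (v w : W n) (j : Fin (n + 3)) : (v - w) j = v j - w j := rfl
lemma smul_ap (c : ℝ) (v : W n) (j : Fin (n + 3)) : (c • v) j = c * v j := rfl
lemma zero_ap (j : Fin (n + 3)) : (0 : W n) j = 0 := rfl

lemma vec_sub (f g : Fin (n + 3) → ℝ) : vec (fun j => f j - g j) = vec f - vec g := rfl

lemma proj_add (a v w : W n) : proj a (v + w) = proj a v + proj a w := by
  simp only [proj, inner_add_right, add_div, add_smul]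
  abel

lemma proj_sub (a v w : W n) : proj a (v - w) = proj a v - proj a w := by
  simp only [proj, inner_sub_right, sub_div, sub_smul]
  abel

lemma proj_smul (a v : W n) (c : ℝ) : proj a (c • v) = c • proj a v := by
  simp only [proj, inner_smul_right, smul_sub, smul_smul, mul_div_assoc]

lemma inner_proj {a : W n} (ha : a ≠ 0) (v : W n) : ⟪a, proj a v⟫ = 0 := by
  have h : ‖a‖ ^ 2 ≠ 0 := by
    have := norm_pos_iff.2 ha
    positivity
  rw [proj, inner_sub_right, inner_smul_right, real_inner_self_eq_norm_sq, div_mul_cancel₀ _ h,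
    sub_self]

lemma norm_proj_le (a v : W n) : ‖proj a v‖ ≤ ‖v‖ := by
  by_cases ha : a = 0
  · simp [proj, ha]
  have h := norm_pos_iff.2 ha
  have h1 : ‖proj a v‖ ^ 2 = ‖v‖ ^ 2 - ⟪a, v⟫ ^ 2 / ‖a‖ ^ 2 := by
    rw [← real_inner_self_eq_norm_sq, ← real_inner_self_eq_norm_sq v]
    simp only [proj, inner_sub_left, inner_sub_right, inner_smul_left, inner_smul_right,
      real_inner_self_eq_norm_sq, real_inner_comm a v]
    have h2 : ‖a‖ ≠ 0 := h.ne'
    simp only [conj_trivial]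
    field_simp
    ring
  have h3 : 0 ≤ ⟪a, v⟫ ^ 2 / ‖a‖ ^ 2 := by positivity
  exact abs_le_of_sq_le_sq' (by linarith) (norm_nonneg v) |>.2

lemma abs_ap_le (v : W n) (j : Fin (n + 3)) : |v j| ≤ ‖v‖ := by
  have h : v j ^ 2 ≤ ‖v‖ ^ 2 := by
    rw [norm_sq_def]
    exact Finset.single_le_sum (f := fun j => v j ^ 2) (fun i _ => sq_nonneg _) (Finset.mem_univ j)
  exact abs_le_of_sq_le_sq h (norm_nonneg v)

/-- the model vector. -/
noncomputable def gv (s a : W n) (c : ℝ) (Δ w : Fin (n + 3) → ℝ) : W n :=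
  vec (fun j => max (s j) 0 * Δ j) + c • proj a (vec w)

lemma gv_ap (s a : W n) (c : ℝ) (Δ w : Fin (n + 3) → ℝ) (p : Fin (n + 3)) :
    gv s a c Δ w p = max (s p) 0 * Δ p + c * (w p - ⟪a, vec w⟫ / ‖a‖ ^ 2 * a p) := rfl

lemma gv_seg (s a : W n) (c : ℝ) (Δ w Δ' w' : Fin (n + 3) → ℝ) (t : ℝ) :
    (1 - t) • gv s a c Δ w + t • gv s a c Δ' w' =
      gv s a c (fun j => (1 - t) * Δ j + t * Δ' j) (fun j => (1 - t) * w j + t * w' j) := by
  have h : vec (n := n) (fun j => (1 - t) * w j + t * w' j) = (1 - t) • vec w + t • vec w' := rfl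
  rw [gv, gv, gv, h, proj_add, proj_smul, proj_smul]
  ext p
  simp only [add_ap, smul_ap, vec_apply]
  ring

lemma inner_gv {s a : W n} (ha : a ≠ 0) (c : ℝ) (Δ w : Fin (n + 3) → ℝ) :
    ⟪a, gv s a c Δ w⟫ = ∑ j, a j * (max (s j) 0 * Δ j) := by
  rw [gv, inner_add_right, inner_smul_right, inner_proj ha, mul_zero, add_zero, inner_def]
  rfl

/-- sign conditions for a conormal `a` at `s` without negative rays. -/
lemma gv_ne_A {s a : W n} {c : ℝ} {Δ w : Fin (n + 3) → ℝ} (ha : a ≠ 0)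
    (hp : ∀ j, 0 < a j → 0 < s j) (hn : ∀ j, a j < 0 → s j ≤ 0) (hc : 0 ≤ c)
    (hc0 : c = 0 → ∀ j, 0 < s j) (hΔ : ∀ j, 0 ≤ Δ j) (hw : ∀ j, 0 < w j) (hi : ∃ i, 0 < Δ i)
    (hout : ∃ j, 0 ≤ a j) : gv s a c Δ w ≠ 0 := by
  intro h
  obtain ⟨i, hi⟩ := hi
  have hc' : ∀ p, max (s p) 0 * Δ p + c * (w p - ⟪a, vec w⟫ / ‖a‖ ^ 2 * a p) = 0 := fun p => by
    rw [← gv_ap, h, zero_ap]
  set μ := ⟪a, vec w⟫ / ‖a‖ ^ 2 with hμ
  have hsum : ∑ j, a j * (max (s j) 0 * Δ j) = 0 := by
    rw [← inner_gv ha, h, inner_zero_right]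
  rcases hc.eq_or_lt with hc1 | hc1
  · have h1 := hc0 hc1.symm i
    have h2 := hc' i
    rw [← hc1, zero_mul, add_zero, max_eq_left h1.le] at h2
    exact absurd h2 (mul_pos h1 hi).ne'
  have hmx : ∀ p, 0 ≤ max (s p) 0 * Δ p := fun p => mul_nonneg (le_max_right _ _) (hΔ p)
  have h0 : ∀ p, a p ≠ 0 := fun p hp0 => by
    have h1 := hc' p
    rw [hp0, mul_zero, sub_zero] at h1
    have := mul_pos hc1 (hw p)
    linarith [hmx p]
  have hneg : ∀ p, a p < 0 → μ < 0 := fun p hap => by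
    have h1 := hc' p
    rw [max_eq_right (hn p hap), zero_mul, zero_add, mul_eq_zero] at h1
    have h2 := h1.resolve_left hc1.ne'
    have h3 := hw p
    by_contra h4
    have := mul_nonpos_of_nonneg_of_nonpos (not_lt.1 h4) hap.le
    linarith
  have hpos : ∀ p, 0 < a p → 0 < μ := fun p hap => by
    have h1 := hc' p
    by_contra h4
    have h5 := mul_nonpos_of_nonpos_of_nonneg (not_lt.1 h4) hap.le
    have h6 : 0 < c * (w p - μ * a p) := mul_pos hc1 (by linarith [hw p])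
    linarith [hmx p]
  obtain ⟨q, hq⟩ := hout
  have hq' : 0 < a q := lt_of_le_of_ne hq (h0 q).symm
  have hμ0 := hpos q hq'
  have hall : ∀ p, 0 < a p := fun p => by
    rcases lt_or_gt_of_ne (h0 p) with h1 | h1
    · exact absurd (hneg p h1) (not_lt.2 hμ0.le)
    · exact h1
  have h7 := (Finset.sum_eq_zero_iff_of_nonneg (fun p _ =>
    mul_nonneg (hall p).le (hmx p))).1 hsum i (Finset.mem_univ i)
  have h8 := hp i (hall i)
  rw [max_eq_left h8.le] at h7
  exact absurd h7 (mul_pos (hall i) (mul_pos h8 hi)).ne'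

/-- the same for incomparable data. -/
lemma gv_ne_B {s a : W n} {c : ℝ} {Δ w : Fin (n + 3) → ℝ} (ha : a ≠ 0)
    (hp : ∀ j, 0 < a j → 0 < s j) (hn : ∀ j, a j < 0 → s j ≤ 0) (hc : 0 ≤ c)
    (hc0 : c = 0 → ∀ j, 0 < s j) (hw : ∀ j, Δ j ≠ 0 → 0 < Δ j * w j)
    {i j : Fin (n + 3)} (hi : 0 < Δ i) (hj : Δ j < 0) : gv s a c Δ w ≠ 0 := by
  intro h
  have hc' : ∀ p, max (s p) 0 * Δ p + c * (w p - ⟪a, vec w⟫ / ‖a‖ ^ 2 * a p) = 0 := fun p => by
    rw [← gv_ap, h, zero_ap]
  set μ := ⟪a, vec w⟫ / ‖a‖ ^ 2 with hμ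
  have hsum : ∑ j, a j * (max (s j) 0 * Δ j) = 0 := by
    rw [← inner_gv ha, h, inner_zero_right]
  rcases hc.eq_or_lt with hc1 | hc1
  · have h1 := hc0 hc1.symm i
    have h2 := hc' i
    rw [← hc1, zero_mul, add_zero, max_eq_left h1.le] at h2
    exact absurd h2 (mul_pos h1 hi).ne'
  have hwi : 0 < w i := (mul_pos_iff_of_pos_left hi).1 (hw i hi.ne')
  have hwj : w j < 0 := by
    have := hw j hj.ne
    by_contra h1
    linarith [mul_nonpos_of_nonpos_of_nonneg hj.le (not_lt.1 h1)]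
  have hi1 : 0 < μ * a i := by
    have h1 := hc' i
    have h2 : 0 ≤ max (s i) 0 * Δ i := mul_nonneg (le_max_right _ _) hi.le
    by_contra h4
    have h6 : 0 < c * (w i - μ * a i) := mul_pos hc1 (by linarith)
    linarith
  have hj1 : μ * a j < 0 := by
    have h1 := hc' j
    have h2 : max (s j) 0 * Δ j ≤ 0 := mul_nonpos_of_nonneg_of_nonpos (le_max_right _ _) hj.le
    by_contra h4
    have h6 : c * (w j - μ * a j) < 0 := mul_neg_of_pos_of_neg hc1 (by linarith)
    linarith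
  rcases lt_trichotomy μ 0 with hm | hm | hm
  · have hai : a i < 0 := by
      by_contra h1
      linarith [mul_nonpos_of_nonpos_of_nonneg hm.le (not_lt.1 h1)]
    have haj : 0 < a j := by
      by_contra h1
      linarith [mul_nonneg_of_nonpos_of_nonpos hm.le (not_lt.1 h1)]
    have hle : ∀ p ∈ Finset.univ, a p * (max (s p) 0 * Δ p) ≤ 0 := fun p _ => by
      rcases lt_trichotomy (a p) 0 with h1 | h1 | h1
      · rw [max_eq_right (hn p h1)]; simp
      · rw [h1]; simp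
      · have h2 := hp p h1
        rw [max_eq_left h2.le]
        have h3 : Δ p ≤ 0 := by
          by_contra h4
          have h5 := (mul_pos_iff_of_pos_left (not_le.1 h4)).1 (hw p (not_le.1 h4).ne')
          have h6 := hc' p
          rw [max_eq_left h2.le] at h6
          have h7 := mul_pos h2 (not_le.1 h4)
          have h8 : 0 < c * (w p - μ * a p) :=
            mul_pos hc1 (by linarith [mul_neg_of_neg_of_pos hm h1])
          linarith
        exact mul_nonpos_of_nonneg_of_nonpos h1.le (mul_nonpos_of_nonneg_of_nonpos h2.le h3)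
    have h7 := (Finset.sum_eq_zero_iff_of_nonpos hle).1 hsum j (Finset.mem_univ j)
    have h8 := hp j haj
    rw [max_eq_left h8.le] at h7
    exact absurd h7 (mul_neg_of_pos_of_neg haj (mul_neg_of_pos_of_neg h8 hj)).ne
  · rw [hm, zero_mul] at hi1
    exact lt_irrefl _ hi1
  · have hai : 0 < a i := (mul_pos_iff_of_pos_left hm).1 hi1
    have hge : ∀ p ∈ Finset.univ, 0 ≤ a p * (max (s p) 0 * Δ p) := fun p _ => by
      rcases lt_trichotomy (a p) 0 with h1 | h1 | h1
      · rw [max_eq_right (hn p h1)]; simp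
      · rw [h1]; simp
      · have h2 := hp p h1
        rw [max_eq_left h2.le]
        have h3 : 0 ≤ Δ p := by
          by_contra h4
          have h4' := not_le.1 h4
          have h5 : w p < 0 := by
            have := hw p h4'.ne
            by_contra h1'
            linarith [mul_nonpos_of_nonpos_of_nonneg h4'.le (not_lt.1 h1')]
          have h6 := hc' p
          rw [max_eq_left h2.le] at h6
          have h7 := mul_neg_of_pos_of_neg h2 h4'
          have h8 : c * (w p - μ * a p) < 0 :=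
            mul_neg_of_pos_of_neg hc1 (by linarith [mul_pos hm h1])
          linarith
        exact mul_nonneg h1.le (mul_nonneg h2.le h3)
    have h7 := (Finset.sum_eq_zero_iff_of_nonneg hge).1 hsum i (Finset.mem_univ i)
    have h8 := hp i hai
    rw [max_eq_left h8.le] at h7
    exact absurd h7 (mul_pos hai (mul_pos h8 hi)).ne'

/-- comparable data with a common negative ray `j`. -/
lemma gv_ne_C {s a : W n} {c : ℝ} {Δ w : Fin (n + 3) → ℝ} (ha : a ≠ 0)
    (hp : ∀ j, 0 < a j → 0 < s j) (hc : 0 ≤ c)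
    (hc0 : c = 0 → ∀ j, 0 < s j) (hw : ∀ j, Δ j ≠ 0 → 0 < Δ j * w j) (hΔ : ∀ j, 0 ≤ Δ j)
    {i j : Fin (n + 3)} (hi : 0 < Δ i) (hj : Δ j = 0) (hwj : w j < 0) (haj : a j ≤ 0) :
    gv s a c Δ w ≠ 0 := by
  intro h
  have hc' : ∀ p, max (s p) 0 * Δ p + c * (w p - ⟪a, vec w⟫ / ‖a‖ ^ 2 * a p) = 0 := fun p => by
    rw [← gv_ap, h, zero_ap]
  set μ := ⟪a, vec w⟫ / ‖a‖ ^ 2 with hμ
  have hsum : ∑ j, a j * (max (s j) 0 * Δ j) = 0 := by
    rw [← inner_gv ha, h, inner_zero_right]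
  rcases hc.eq_or_lt with hc1 | hc1
  · have h1 := hc0 hc1.symm i
    have h2 := hc' i
    rw [← hc1, zero_mul, add_zero, max_eq_left h1.le] at h2
    exact absurd h2 (mul_pos h1 hi).ne'
  have hm : 0 < μ := by
    have h1 := hc' j
    rw [hj, mul_zero, zero_add, mul_eq_zero] at h1
    have h2 := h1.resolve_left hc1.ne'
    by_contra h3
    linarith [mul_nonneg_of_nonpos_of_nonpos (not_lt.1 h3) haj]
  have hwi : ∀ p, 0 < Δ p → 0 < w p := fun p h1 => (mul_pos_iff_of_pos_left h1).1 (hw p h1.ne')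
  have hap : ∀ p, 0 < Δ p → 0 < a p := fun p h1 => by
    have h2 := hc' p
    have h3 : 0 ≤ max (s p) 0 * Δ p := mul_nonneg (le_max_right _ _) h1.le
    by_contra h4
    have h5 := mul_nonpos_of_nonneg_of_nonpos hm.le (not_lt.1 h4)
    have h6 : 0 < c * (w p - μ * a p) := mul_pos hc1 (by linarith [hwi p h1])
    linarith
  have hge : ∀ p ∈ Finset.univ, 0 ≤ a p * (max (s p) 0 * Δ p) := fun p _ => by
    rcases (hΔ p).eq_or_lt with h1 | h1
    · rw [← h1]; simp
    · exact mul_nonneg (hap p h1).le (mul_nonneg (le_max_right _ _) h1.le)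
  have h7 := (Finset.sum_eq_zero_iff_of_nonneg hge).1 hsum i (Finset.mem_univ i)
  have h8 := hp i (hap i hi)
  rw [max_eq_left h8.le] at h7
  exact absurd h7 (mul_pos (hap i hi) (mul_pos h8 hi)).ne'

end vec

/-! ### standard maps -/

section std

variable {n : ℕ}

lemma pt_last (u : Bc n) (z : ℝ) : pt u z (Fin.last n) = z := by simp [pt]

lemma pt_castSucc (u : Bc n) (z : ℝ) (i : Fin n) : pt u z i.castSucc = u i := by simp [pt]

lemma continuous_pt : Continuous fun p : Bc n × ℝ => pt p.1 p.2 := by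
  unfold pt
  refine (PiLp.continuous_toLp 2 _).comp ?_
  refine continuous_pi fun i => ?_
  refine Fin.lastCases ?_ (fun i => ?_) i
  · simpa using continuous_snd
  · have h : Continuous fun p : Bc n × ℝ => p.1 i := (continuous_apply i).comp continuous_fst
    simpa using h

lemma continuous_al : Continuous (al (n := n)) := by
  have h : Continuous fun u : Bc n => (u, 1 - ‖u‖) := by fun_prop
  exact continuous_pt.comp h

lemma continuous_ga : Continuous (ga (n := n)) := by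
  have h : Continuous fun u : Bc n => (-(4 * (1 - ‖u‖)) • u, 2 * ‖u‖ - 1) := by fun_prop
  exact continuous_pt.comp h

lemma inner_pt (u u' : Bc n) (z z' : ℝ) : ⟪pt u z, pt u' z'⟫ = (∑ i, u i * u' i) + z * z' := by
  have h : ⟪pt u z, pt u' z'⟫ = ∑ j, pt u z j * pt u' z' j := by
    rw [PiLp.inner_apply]
    exact Finset.sum_congr rfl fun j _ => by simp [mul_comm]
  rw [h, Fin.sum_univ_castSucc]
  simp only [pt_last, pt_castSucc]

lemma ec_eq : ec n = pt 0 1 := by
  ext i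
  refine Fin.lastCases ?_ (fun i => ?_) i
  · simp [pt, ec]
  · simp [pt, ec, (Fin.castSucc_lt_last i).ne]

lemma inner_ec_pt (u : Bc n) (z : ℝ) : ⟪ec n, pt u z⟫ = z := by
  rw [ec_eq, inner_pt]
  simp

lemma sum_sq_pos {u : Bc n} (hu : u ≠ 0) : 0 < ∑ i, u i * u i := by
  obtain ⟨i, hi⟩ := Function.ne_iff.1 hu
  exact Finset.sum_pos' (fun j _ => mul_self_nonneg _) ⟨i, Finset.mem_univ i, mul_self_pos.2 hi⟩


end std

/-! ### the data at a base point -/

section D

variable {n m : ℕ} (D : HD n m)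

lemma gt_of_div {s : W n} (hs : s ≠ 0) {j : Fin (n + 3)} (h : D.d < s j / ‖s‖) :
    D.d * ‖s‖ < s j := by
  rwa [lt_div_iff₀ (norm_pos_iff.2 hs)] at h

lemma lt_of_div {s : W n} (hs : s ≠ 0) {j : Fin (n + 3)} (h : s j / ‖s‖ < -D.d) :
    s j < -(D.d * ‖s‖) := by
  rw [div_lt_iff₀ (norm_pos_iff.2 hs)] at h
  linarith

lemma Yp_le {x : ℝ} (h : x ≤ D.d) : D.Yp x ≤ 0 := by
  rcases lt_or_ge x (-D.d) with h1 | h1
  · exact (D.Ypn x h1).le
  · exact (D.Yp0 x (abs_le.2 ⟨h1, h⟩)).le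

lemma Ym_le (x : ℝ) : D.Ym x ≤ 0 := by
  rcases lt_or_ge D.d x with h1 | h1
  · exact (D.Ymn x h1).le
  · rw [D.Ymp x h1]; exact Yp_le D h1

lemma nrm_pos {k : Fin m} {s : W n} (hs : s ≠ 0) {j : Fin (n + 3)} (h : 0 < D.nrm k s j) :
    D.d * ‖s‖ < s j := by
  refine gt_of_div D hs ?_
  by_contra h1
  have h2 : D.nrm k s j ≤ 0 := by
    show (if D.neg k j then D.Ym (s j / ‖s‖) else D.Yp (s j / ‖s‖)) ≤ 0
    split_ifs
    · exact Ym_le D _
    · exact Yp_le D (not_lt.1 h1)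
  linarith

lemma dpos {s : W n} (hs : s ≠ 0) : 0 < D.d * ‖s‖ := mul_pos D.hd (norm_pos_iff.2 hs)

lemma nz_pos {s : W n} (hs : s ≠ 0) {j : Fin (n + 3)} (h : 0 < D.nz s j) :
    D.d * ‖s‖ < s j := by
  refine gt_of_div D hs ?_
  by_contra h1
  have h2 : D.nz s j ≤ 0 := Yp_le D (not_lt.1 h1)
  linarith

lemma nz_neg {s : W n} (hs : s ≠ 0) {j : Fin (n + 3)} (h : D.nz s j < 0) :
    s j < -(D.d * ‖s‖) := by
  refine lt_of_div D hs ?_
  by_contra h1
  have h2 : 0 ≤ D.nz s j := by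
    show 0 ≤ D.Yp (s j / ‖s‖)
    rcases lt_or_ge D.d (s j / ‖s‖) with h3 | h3
    · exact (D.Ypp _ h3).le
    · exact (D.Yp0 _ (abs_le.2 ⟨not_lt.1 h1, h3⟩)).ge
  linarith

lemma nz_le {s : W n} (hs : s ≠ 0) {j : Fin (n + 3)} (h : s j ≤ D.d * ‖s‖) : D.nz s j ≤ 0 := by
  by_contra h1
  linarith [nz_pos D hs (not_le.1 h1)]


lemma nrm_neg_ray {k : Fin m} {j : Fin (n + 3)} (h : D.neg k j = true) (s : W n) :
    D.nrm k s j ≤ 0 := by
  show (if D.neg k j then D.Ym (s j / ‖s‖) else D.Yp (s j / ‖s‖)) ≤ 0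
  rw [if_pos h]
  exact Ym_le D _

lemma nrm_eq_nz {k : Fin m} {s : W n} (hs : s ≠ 0) {j : Fin (n + 3)} (h : s j ≤ D.d * ‖s‖) :
    D.nrm k s j = D.nz s j := by
  show (if D.neg k j then D.Ym (s j / ‖s‖) else D.Yp (s j / ‖s‖)) = D.Yp (s j / ‖s‖)
  split_ifs
  · exact D.Ymp _ ((div_le_iff₀ (norm_pos_iff.2 hs)).2 h)
  · rfl

lemma nrm_eq_nz' {k : Fin m} {s : W n} {j : Fin (n + 3)} (h : D.neg k j = false) :
    D.nrm k s j = D.nz s j := by
  show (if D.neg k j then D.Ym (s j / ‖s‖) else D.Yp (s j / ‖s‖)) = D.Yp (s j / ‖s‖)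
  rw [h]
  rfl

lemma nrm_eq_nrm {k l : Fin m} {s : W n} {j : Fin (n + 3)} (h : D.neg k j = D.neg l j) :
    D.nrm k s j = D.nrm l s j := by
  show (if D.neg k j then D.Ym (s j / ‖s‖) else D.Yp (s j / ‖s‖)) =
    (if D.neg l j then D.Ym (s j / ‖s‖) else D.Yp (s j / ‖s‖))
  rw [h]

/-- some coordinate is large. -/
lemma exists_big {s : W n} (hs : s ≠ 0) : ∃ j, D.d * ‖s‖ < |s j| := by
  by_contra h
  push Not at h
  have h1 : ‖s‖ ^ 2 ≤ ∑ _j : Fin (n + 3), (D.d * ‖s‖) ^ 2 := by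
    rw [norm_sq_def]
    refine Finset.sum_le_sum fun j _ => ?_
    rw [← sq_abs]
    exact pow_le_pow_left₀ (abs_nonneg _) (h j) 2
  rw [Finset.sum_const, Finset.card_univ, Fintype.card_fin, nsmul_eq_mul] at h1
  push_cast at h1
  have h2 : 0 < ‖s‖ ^ 2 := by
    have := norm_pos_iff.2 hs
    positivity
  have h3 := D.hdN
  nlinarith

lemma nrm_ne {k : Fin m} {s : W n} (hs : s ≠ 0) : D.nrm k s ≠ 0 := by
  obtain ⟨j, hj⟩ := exists_big D hs
  intro h
  have h1 : D.nrm k s j = 0 := by rw [h]; rfl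
  have h0 := norm_pos_iff.2 hs
  have h2 : (if D.neg k j then D.Ym (s j / ‖s‖) else D.Yp (s j / ‖s‖)) = 0 := h1
  rcases lt_abs.1 hj with h3 | h3
  · have h4 : D.d < s j / ‖s‖ := (lt_div_iff₀ h0).2 h3
    split_ifs at h2
    · exact absurd h2 (D.Ymn _ h4).ne
    · exact absurd h2 (D.Ypp _ h4).ne'
  · have h4 : s j / ‖s‖ < -D.d := (div_lt_iff₀ h0).2 (by linarith)
    have h5 := D.Ypn _ h4
    split_ifs at h2
    · rw [D.Ymp _ (by linarith [D.hd])] at h2
      exact absurd h2 h5.ne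
    · exact absurd h2 h5.ne

lemma nz_ne {s : W n} (hs : s ≠ 0) : D.nz s ≠ 0 := by
  obtain ⟨j, hj⟩ := exists_big D hs
  intro h
  have h1 : D.nz s j = 0 := by rw [h]; rfl
  have h0 := norm_pos_iff.2 hs
  have h2 : D.Yp (s j / ‖s‖) = 0 := h1
  rcases lt_abs.1 hj with h3 | h3
  · exact absurd h2 (D.Ypp _ ((lt_div_iff₀ h0).2 h3)).ne'
  · exact absurd h2 (D.Ypn _ ((div_lt_iff₀ h0).2 (by linarith))).ne

lemma hsP {s : W n} {j : Fin (n + 3)} (h : 0 < s j) : 0 < D.hs s j := by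
  have h0 : 0 < ‖s‖ := norm_pos_iff.2 fun h1 => by rw [h1] at h; exact lt_irrefl _ h
  exact mul_pos h0 (D.ppp _ (div_pos h h0))

lemma hsN {s : W n} {j : Fin (n + 3)} (h : s j ≤ 0) : D.hs s j ≤ 0 :=
  mul_nonpos_of_nonneg_of_nonpos (norm_nonneg _)
    (D.ppn _ (div_nonpos_of_nonpos_of_nonneg h (norm_nonneg _)))

lemma hs_big {s : W n} (hs : s ≠ 0) {j : Fin (n + 3)} (h : D.d * ‖s‖ < s j) : D.hs s j = s j := by
  have h0 : 0 < ‖s‖ := norm_pos_iff.2 hs
  show ‖s‖ * D.pp (s j / ‖s‖) = s j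
  rw [D.ppd _ (by rw [le_div_iff₀ h0]; exact h.le), mul_div_cancel₀ _ h0.ne']

/-- the coefficient of the displacement. -/
noncomputable def cf (s : W n) : ℝ := D.ep * ‖s‖ * D.th s

lemma cf_nonneg (s : W n) : 0 ≤ cf D s :=
  mul_nonneg (mul_nonneg D.hep.le (norm_nonneg _)) (D.th0 s)

lemma cf_le (s : W n) : cf D s ≤ D.ep * ‖s‖ :=
  mul_le_of_le_one_right (mul_nonneg D.hep.le (norm_nonneg _)) (D.th1 s)

lemma cf_zero {s : W n} (hs : s ≠ 0) (h : cf D s = 0) (j : Fin (n + 3)) : 0 < s j := by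
  refine D.thp s hs ?_ j
  have h1 : D.ep * ‖s‖ ≠ 0 := mul_ne_zero D.hep.ne' (norm_ne_zero_iff.2 hs)
  exact (mul_eq_zero.1 h).resolve_left h1

lemma eta_eq (k : Fin m) (s : W n) :
    D.eta k s = gv (D.hs s) (D.nrm k s) (cf D s) (D.sg k) (D.V k) := rfl

lemma gv_sub (s a : W n) (c : ℝ) (Δ w Δ' w' : Fin (n + 3) → ℝ) :
    gv s a c Δ w - gv s a c Δ' w' =
      gv s a c (fun j => Δ j - Δ' j) (fun j => w j - w' j) := by
  rw [gv, gv, gv, vec_sub w w', proj_sub]
  ext p
  simp only [add_ap, sub_ap, smul_ap, vec_apply]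
  ring

/-- perturbations of size `ep ‖s‖ (‖V k‖ + ‖V l‖)` do not change signs of big coordinates. -/
lemma sign_big {s : W n} (hs : s ≠ 0) {k l : Fin m} {j : Fin (n + 3)}
    (hj : D.sg k j ≠ D.sg l j) (hd : D.d * ‖s‖ < s j) {r : ℝ}
    (hr : |r| ≤ D.ep * ‖s‖ * (‖vec (n := n) (D.V k)‖ + ‖vec (n := n) (D.V l)‖)) :
    0 < (D.sg k j - D.sg l j) * (max (D.hs s j) 0 * (D.sg k j - D.sg l j) + r) := by
  have h0 := norm_pos_iff.2 hs
  have hsj : 0 < s j := (dpos D hs).trans hd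
  have hΔ : 0 < |D.sg k j - D.sg l j| := abs_pos.2 (sub_ne_zero.2 hj)
  have h1 := D.small k l j hj
  have h2 : |r| < s j * |D.sg k j - D.sg l j| := by
    calc |r| ≤ ‖s‖ * (D.ep * (‖vec (n := n) (D.V k)‖ + ‖vec (n := n) (D.V l)‖)) := by
          linarith
      _ < ‖s‖ * (D.d * |D.sg k j - D.sg l j|) := mul_lt_mul_of_pos_left h1 h0
      _ = (D.d * ‖s‖) * |D.sg k j - D.sg l j| := by ring
      _ < s j * |D.sg k j - D.sg l j| := mul_lt_mul_of_pos_right hd hΔ
  rw [hs_big D hs hd, max_eq_left hsj.le]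
  have h3 : (D.sg k j - D.sg l j) * (s j * (D.sg k j - D.sg l j) + r) =
      s j * |D.sg k j - D.sg l j| ^ 2 + (D.sg k j - D.sg l j) * r := by
    rw [sq_abs]; ring
  have h4 : -(|D.sg k j - D.sg l j| * |r|) ≤ (D.sg k j - D.sg l j) * r := by
    rw [← abs_mul]
    exact neg_abs_le _
  rw [h3]
  nlinarith [mul_lt_mul_of_pos_left h2 hΔ]

/-- the difference of two cores before the linear map. -/
noncomputable def df (k l : Fin m) (s : W n) : W n := D.eta k s - D.eta l s

/-- the model with conormal `a`. -/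
noncomputable def gm (k l : Fin m) (s a : W n) : W n :=
  gv (D.hs s) a (cf D s) (fun j => D.sg k j - D.sg l j) (fun j => D.V k j - D.V l j)

lemma df_big {s : W n} (hs : s ≠ 0) {k l : Fin m} {j : Fin (n + 3)}
    (hj : D.sg k j ≠ D.sg l j) (hd : D.d * ‖s‖ < s j) :
    0 < (D.sg k j - D.sg l j) * df D k l s j := by
  have h : df D k l s j = max (D.hs s j) 0 * (D.sg k j - D.sg l j) +
      (cf D s * proj (D.nrm k s) (vec (D.V k)) j - cf D s * proj (D.nrm l s) (vec (D.V l)) j) := by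
    show D.eta k s j - D.eta l s j = _
    rw [eta_eq, eta_eq]
    show (max (D.hs s j) 0 * D.sg k j + cf D s * proj (D.nrm k s) (vec (D.V k)) j) -
      (max (D.hs s j) 0 * D.sg l j + cf D s * proj (D.nrm l s) (vec (D.V l)) j) = _
    ring
  rw [h]
  refine sign_big D hs hj hd ?_
  have h1 := (abs_ap_le (proj (D.nrm k s) (vec (D.V k))) j).trans (norm_proj_le _ _)
  have h2 := (abs_ap_le (proj (D.nrm l s) (vec (D.V l))) j).trans (norm_proj_le _ _)
  have h3 := cf_nonneg D s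
  have h4 := cf_le D s
  have h5 : |cf D s * proj (D.nrm k s) (vec (D.V k)) j - cf D s * proj (D.nrm l s) (vec (D.V l)) j|
      ≤ cf D s * ‖vec (n := n) (D.V k)‖ + cf D s * ‖vec (n := n) (D.V l)‖ := by
    refine (abs_sub _ _).trans (add_le_add ?_ ?_)
    · rw [abs_mul, abs_of_nonneg h3]
      exact mul_le_mul_of_nonneg_left h1 h3
    · rw [abs_mul, abs_of_nonneg h3]
      exact mul_le_mul_of_nonneg_left h2 h3
  have h6 : 0 ≤ ‖vec (n := n) (D.V k)‖ + ‖vec (n := n) (D.V l)‖ := by positivity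
  nlinarith

lemma gm_big {s : W n} (hs : s ≠ 0) (a : W n) {k l : Fin m} {j : Fin (n + 3)}
    (hj : D.sg k j ≠ D.sg l j) (hd : D.d * ‖s‖ < s j) :
    0 < (D.sg k j - D.sg l j) * gm D k l s a j := by
  have h : gm D k l s a j = max (D.hs s j) 0 * (D.sg k j - D.sg l j) +
      cf D s * proj a (vec fun j => D.V k j - D.V l j) j := rfl
  rw [h]
  refine sign_big D hs hj hd ?_
  have h1 := (abs_ap_le (proj a (vec fun j => D.V k j - D.V l j)) j).trans (norm_proj_le _ _)
  have h2 : ‖vec (n := n) fun j => D.V k j - D.V l j‖ ≤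
      ‖vec (n := n) (D.V k)‖ + ‖vec (n := n) (D.V l)‖ := by
    rw [vec_sub]
    exact norm_sub_le _ _
  have h3 := cf_nonneg D s
  have h4 := cf_le D s
  rw [abs_mul, abs_of_nonneg h3]
  exact mul_le_mul h4 (h1.trans h2) (abs_nonneg _) (mul_nonneg D.hep.le (norm_nonneg _))

lemma seg_ne_of_coord {v w : W n} {x : ℝ} {j : Fin (n + 3)} (hv : 0 < x * v j) (hw : 0 < x * w j)
    {t : ℝ} (ht : t ∈ Icc (0 : ℝ) 1) : (1 - t) • v + t • w ≠ 0 := by
  intro h
  have h1 : (1 - t) * v j + t * w j = 0 := by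
    have : ((1 - t) • v + t • w) j = 0 := by rw [h]; rfl
    simpa [add_ap, smul_ap] using this
  have h2 : (1 - t) * (x * v j) + t * (x * w j) = 0 := by
    calc _ = x * ((1 - t) * v j + t * w j) := by ring
      _ = 0 := by rw [h1, mul_zero]
  rcases lt_or_ge t (1 / 2) with h3 | h3
  · nlinarith [mul_pos (by linarith : (0 : ℝ) < 1 - t) hv, mul_nonneg ht.1 hw.le]
  · nlinarith [mul_nonneg (by linarith [ht.2] : (0 : ℝ) ≤ 1 - t) hv.le,
      mul_pos (by linarith : (0 : ℝ) < t) hw]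

/-- if no big coordinate separates the strands then their conormals agree. -/
lemma nrm_common {s : W n} (hs : s ≠ 0) {k l : Fin m}
    (h : ∀ j, D.d * ‖s‖ < s j → D.sg k j = D.sg l j) : D.nrm k s = D.nrm l s := by
  ext j
  rcases lt_or_ge (D.d * ‖s‖) (s j) with h1 | h1
  · exact nrm_eq_nrm D (D.ray k l j (h j h1))
  · rw [nrm_eq_nz D hs h1, nrm_eq_nz D hs h1]

lemma df_common {s : W n} {k l : Fin m} (h : D.nrm k s = D.nrm l s) :
    df D k l s = gm D k l s (D.nrm k s) := by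
  rw [df, eta_eq, eta_eq, ← h, gv_sub]
  rfl

/-- comparable strands: the conormals may be replaced by `nz`. -/
lemma seg_pos {s : W n} (hs : s ≠ 0) (hout : ∃ j, -(D.d * ‖s‖) < s j) {k l : Fin m}
    (hkl : Pos D.sg D.V D.neg k l) {t : ℝ} (ht : t ∈ Icc (0 : ℝ) 1) :
    (1 - t) • df D k l s + t • gm D k l s (D.nz s) ≠ 0 := by
  by_cases h : ∃ j, D.d * ‖s‖ < s j ∧ D.sg k j ≠ D.sg l j
  · obtain ⟨j, h1, h2⟩ := h
    exact seg_ne_of_coord (df_big D hs h2 h1) (gm_big D hs _ h2 h1) ht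
  push Not at h
  have hc := nrm_common D hs h
  have hz : D.nrm k s = D.nz s := by
    ext j
    rcases lt_or_ge (D.d * ‖s‖) (s j) with h1 | h1
    · exact nrm_eq_nz' D (hkl.2.2.2 j (h j h1))
    · exact nrm_eq_nz D hs h1
  rw [df_common D hc, hz, ← add_smul, sub_add_cancel, one_smul]
  obtain ⟨j, hj⟩ := hout
  refine gv_ne_A (nz_ne D hs) (fun j h => hsP D ((dpos D hs).trans (nz_pos D hs h)))
    (fun j h => hsN D ((nz_neg D hs h).trans (neg_neg_of_pos (dpos D hs))).le) (cf_nonneg D s)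
    (fun h j => hsP D (cf_zero D hs h j)) (fun j => sub_nonneg.2 (hkl.1 j)) (fun j => sub_pos.2 (hkl.2.2.1 j))
    ?_ ⟨j, ?_⟩
  · obtain ⟨i, hi⟩ := hkl.2.1
    exact ⟨i, sub_pos.2 hi⟩
  · by_contra h1
    linarith [nz_neg D hs (not_le.1 h1)]

/-- second step for comparable strands. -/
lemma seg_pos' {s : W n} (hs : s ≠ 0) (hout : ∃ j, -(D.d * ‖s‖) < s j) {k l : Fin m}
    (hkl : Pos D.sg D.V D.neg k l) {t : ℝ} (ht : t ∈ Icc (0 : ℝ) 1) :
    (1 - t) • gm D k l s (D.nz s) + t • gv (D.hs s) (D.nz s) (cf D s) (fun _ => 1) (fun _ => 1) ≠ 0 := by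
  rw [gm, gv_seg]
  obtain ⟨j, hj⟩ := hout
  have h1t : 0 ≤ 1 - t := by linarith [ht.2]
  refine gv_ne_A (nz_ne D hs) (fun j h => hsP D ((dpos D hs).trans (nz_pos D hs h)))
    (fun j h => hsN D ((nz_neg D hs h).trans (neg_neg_of_pos (dpos D hs))).le) (cf_nonneg D s)
    (fun h j => hsP D (cf_zero D hs h j)) (fun j => ?_) (fun j => ?_) ?_ ⟨j, ?_⟩
  · have := mul_nonneg h1t (sub_nonneg.2 (hkl.1 j))
    linarith [ht.1]
  · have h2 := sub_pos.2 (hkl.2.2.1 j)
    rcases ht.1.eq_or_lt with h3 | h3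
    · rw [← h3]; simpa using h2
    · have := mul_nonneg h1t h2.le
      linarith
  · obtain ⟨i, hi⟩ := hkl.2.1
    refine ⟨i, ?_⟩
    have h2 := sub_pos.2 hi
    rcases ht.1.eq_or_lt with h3 | h3
    · rw [← h3]; simpa using h2
    · have := mul_nonneg h1t h2.le
      linarith
  · by_contra h1
    linarith [nz_neg D hs (not_le.1 h1)]

lemma hVΔ {k l : Fin m} (j : Fin (n + 3)) (h : D.sg k j - D.sg l j ≠ 0) :
    0 < (D.sg k j - D.sg l j) * (D.V k j - D.V l j) := D.hV k l j (sub_ne_zero.1 h)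

lemma hVpos {k l : Fin m} {j : Fin (n + 3)} (h : D.sg l j < D.sg k j) : D.V l j < D.V k j := by
  have h1 := D.hV k l j h.ne'
  have h2 := (mul_pos_iff_of_pos_left (sub_pos.2 h)).1 h1
  linarith

/-- incomparable strands, first step. -/
lemma seg_mix {s : W n} (hs : s ≠ 0) {k l : Fin m} {i j : Fin (n + 3)}
    (hi : D.sg l i < D.sg k i) (hj : D.sg k j < D.sg l j) {t : ℝ} (ht : t ∈ Icc (0 : ℝ) 1) :
    (1 - t) • df D k l s + t • gm D k l s (D.nz s) ≠ 0 := by
  by_cases h : ∃ j, D.d * ‖s‖ < s j ∧ D.sg k j ≠ D.sg l j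
  · obtain ⟨j, h1, h2⟩ := h
    exact seg_ne_of_coord (df_big D hs h2 h1) (gm_big D hs _ h2 h1) ht
  push Not at h
  rw [df_common D (nrm_common D hs h)]
  have hi1 : s i ≤ D.d * ‖s‖ := by
    by_contra h1
    exact hi.ne' (h i (not_le.1 h1))
  have hj1 : s j ≤ D.d * ‖s‖ := by
    by_contra h1
    exact hj.ne (h j (not_le.1 h1))
  intro h0
  have hc : ∀ p, max (D.hs s p) 0 * (D.sg k p - D.sg l p) + cf D s * ((D.V k p - D.V l p) -
      ((1 - t) * (⟪D.nrm k s, vec fun j => D.V k j - D.V l j⟫ / ‖D.nrm k s‖ ^ 2 * D.nrm k s p) +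
        t * (⟪D.nz s, vec fun j => D.V k j - D.V l j⟫ / ‖D.nz s‖ ^ 2 * D.nz s p))) = 0 := by
    intro p
    have h1 : ((1 - t) • gm D k l s (D.nrm k s) + t • gm D k l s (D.nz s)) p = 0 := by
      rw [h0]; rfl
    rw [add_ap, smul_ap, smul_ap, gm, gm, gv_ap, gv_ap] at h1
    linear_combination h1
  set μ1 := ⟪D.nrm k s, vec fun j => D.V k j - D.V l j⟫ / ‖D.nrm k s‖ ^ 2
  set μ2 := ⟪D.nz s, vec fun j => D.V k j - D.V l j⟫ / ‖D.nz s‖ ^ 2
  have hci := hc i
  have hcj := hc j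
  rw [nrm_eq_nz D hs hi1] at hci
  rw [nrm_eq_nz D hs hj1] at hcj
  have hzi := nz_le D hs hi1
  have hzj := nz_le D hs hj1
  have hΔi := sub_pos.2 hi
  have hΔj := sub_neg.2 hj
  have hwi := sub_pos.2 (hVpos D hi)
  have hwj := sub_neg.2 (hVpos D hj)
  have hmi : 0 ≤ max (D.hs s i) 0 := le_max_right _ _
  have hmj : 0 ≤ max (D.hs s j) 0 := le_max_right _ _
  rcases (cf_nonneg D s).eq_or_lt with hc1 | hc1
  · have h2 := hsP D (cf_zero D hs hc1.symm i)
    rw [← hc1, zero_mul, add_zero, max_eq_left h2.le] at hci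
    exact absurd hci (mul_pos h2 hΔi).ne'
  have e1 : 0 < ((1 - t) * μ1 + t * μ2) * D.nz s i := by
    by_contra h4
    have h6 : 0 < cf D s * ((D.V k i - D.V l i) -
      ((1 - t) * (μ1 * D.nz s i) + t * (μ2 * D.nz s i))) := mul_pos hc1 (by
        have : (1 - t) * (μ1 * D.nz s i) + t * (μ2 * D.nz s i) =
          ((1 - t) * μ1 + t * μ2) * D.nz s i := by ring
        rw [this]; linarith)
    linarith [mul_nonneg hmi hΔi.le]
  have e2 : ((1 - t) * μ1 + t * μ2) * D.nz s j < 0 := by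
    by_contra h4
    have h6 : cf D s * ((D.V k j - D.V l j) -
      ((1 - t) * (μ1 * D.nz s j) + t * (μ2 * D.nz s j))) < 0 := mul_neg_of_pos_of_neg hc1 (by
        have : (1 - t) * (μ1 * D.nz s j) + t * (μ2 * D.nz s j) =
          ((1 - t) * μ1 + t * μ2) * D.nz s j := by ring
        rw [this]; linarith)
    linarith [mul_nonpos_of_nonneg_of_nonpos hmj hΔj.le]
  rcases le_or_gt 0 ((1 - t) * μ1 + t * μ2) with h7 | h7
  · linarith [mul_nonpos_of_nonneg_of_nonpos h7 hzi]
  · linarith [mul_nonneg_of_nonpos_of_nonpos h7.le hzj]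

/-- the vector `e_i - e_j` (as a function). -/
def ee (i j : Fin (n + 3)) : Fin (n + 3) → ℝ := fun p => (if p = i then 1 else 0) - if p = j then 1 else 0

lemma ee_i {i j : Fin (n + 3)} (h : i ≠ j) : ee i j i = 1 := by simp [ee, h]
lemma ee_j {i j : Fin (n + 3)} (h : i ≠ j) : ee i j j = -1 := by simp [ee, h.symm]
lemma ee_o {i j p : Fin (n + 3)} (h1 : p ≠ i) (h2 : p ≠ j) : ee i j p = 0 := by simp [ee, h1, h2]

/-- incomparable strands, second step. -/
lemma seg_mix' {s : W n} (hs : s ≠ 0) {k l : Fin m} {i j : Fin (n + 3)}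
    (hi : D.sg l i < D.sg k i) (hj : D.sg k j < D.sg l j) {t : ℝ} (ht : t ∈ Icc (0 : ℝ) 1) :
    (1 - t) • gm D k l s (D.nz s) + t • gv (D.hs s) (D.nz s) (cf D s) (ee i j) (ee i j) ≠ 0 := by
  have hij : i ≠ j := by
    rintro rfl
    exact lt_asymm hi hj
  have h1t : 0 ≤ 1 - t := by linarith [ht.2]
  have pos : ∀ x : ℝ, 0 < x → 0 < (1 - t) * x + t * 1 := fun x hx => by
    rcases ht.1.eq_or_lt with h3 | h3
    · rw [← h3]; simpa using hx
    · have := mul_nonneg h1t hx.le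
      linarith
  rw [gm, gv_seg]
  refine gv_ne_B (i := i) (j := j) (nz_ne D hs) (fun j h => hsP D ((dpos D hs).trans (nz_pos D hs h)))
    (fun j h => hsN D ((nz_neg D hs h).trans (neg_neg_of_pos (dpos D hs))).le) (cf_nonneg D s)
    (fun h j => hsP D (cf_zero D hs h j)) (fun p hp => ?_) ?_ ?_
  · by_cases h1 : p = i
    · rw [h1, ee_i hij]
      exact mul_pos (pos _ (sub_pos.2 hi)) (pos _ (sub_pos.2 (hVpos D hi)))
    by_cases h2 : p = j
    · rw [h2, ee_j hij]
      have a1 := pos _ (sub_pos.2 hj)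
      have a2 := pos _ (sub_pos.2 (hVpos D hj))
      nlinarith [mul_pos a1 a2]
    · rw [ee_o h1 h2, mul_zero, add_zero] at hp ⊢
      have h3 : 0 < 1 - t := lt_of_le_of_ne h1t fun h => hp (by rw [← h, zero_mul])
      have h4 : D.sg k p - D.sg l p ≠ 0 := fun h => hp (by rw [h, mul_zero])
      have h5 := hVΔ D p h4
      rw [add_zero]
      have : (1 - t) * (D.sg k p - D.sg l p) * ((1 - t) * (D.V k p - D.V l p)) =
        ((1 - t) * (1 - t)) * ((D.sg k p - D.sg l p) * (D.V k p - D.V l p)) := by ring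
      rw [this]
      positivity
  · show 0 < (1 - t) * (D.sg k i - D.sg l i) + t * ee i j i
    rw [ee_i hij]
    exact pos _ (sub_pos.2 hi)
  · show (1 - t) * (D.sg k j - D.sg l j) + t * ee i j j < 0
    rw [ee_j hij]
    have a1 := pos _ (sub_pos.2 hj)
    linarith

/-- comparable strands with a common negative ray, first step. -/
lemma seg_neg {s : W n} (hs : s ≠ 0) {k l : Fin m} (hle : ∀ p, D.sg l p ≤ D.sg k p)
    {i j : Fin (n + 3)} (hi : D.sg l i < D.sg k i) (hj : D.sg k j = D.sg l j)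
    (hv : D.V k j < D.V l j) (hn : D.neg k j = true) {t : ℝ} (ht : t ∈ Icc (0 : ℝ) 1) :
    (1 - t) • df D k l s + t • gm D k l s (D.nrm k s) ≠ 0 := by
  by_cases h : ∃ j, D.d * ‖s‖ < s j ∧ D.sg k j ≠ D.sg l j
  · obtain ⟨j, h1, h2⟩ := h
    exact seg_ne_of_coord (df_big D hs h2 h1) (gm_big D hs _ h2 h1) ht
  push Not at h
  rw [df_common D (nrm_common D hs h), ← add_smul, sub_add_cancel, one_smul]
  exact gv_ne_C (i := i) (j := j) (nrm_ne D hs) (fun j h => hsP D ((dpos D hs).trans (nrm_pos D hs h)))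
    (cf_nonneg D s) (fun h j => hsP D (cf_zero D hs h j)) (fun p hp => hVΔ D p hp)
    (fun p => sub_nonneg.2 (hle p)) (sub_pos.2 hi) (sub_eq_zero.2 hj) (sub_neg.2 hv)
    (nrm_neg_ray D hn s)

/-- second step. -/
lemma seg_neg' {s : W n} (hs : s ≠ 0) {k l : Fin m} (hle : ∀ p, D.sg l p ≤ D.sg k p)
    {i j : Fin (n + 3)} (hi : D.sg l i < D.sg k i) (hj : D.sg k j = D.sg l j)
    (hv : D.V k j < D.V l j) (hn : D.neg k j = true) {t : ℝ} (ht : t ∈ Icc (0 : ℝ) 1) :
    (1 - t) • gm D k l s (D.nrm k s) +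
      t • gv (D.hs s) (D.nrm k s) (cf D s) (fun p => if p = i then 1 else 0) (ee i j) ≠ 0 := by
  have hij : i ≠ j := by
    rintro rfl
    exact hi.ne' hj
  have h1t : 0 ≤ 1 - t := by linarith [ht.2]
  have pos : ∀ x : ℝ, 0 < x → 0 < (1 - t) * x + t * 1 := fun x hx => by
    rcases ht.1.eq_or_lt with h3 | h3
    · rw [← h3]; simpa using hx
    · have := mul_nonneg h1t hx.le
      linarith
  rw [gm, gv_seg]
  refine gv_ne_C (i := i) (j := j) (nrm_ne D hs) (fun j h => hsP D ((dpos D hs).trans (nrm_pos D hs h)))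
    (cf_nonneg D s) (fun h j => hsP D (cf_zero D hs h j)) (fun p hp => ?_) (fun p => ?_) ?_ ?_ ?_
    (nrm_neg_ray D hn s)
  · by_cases h1 : p = i
    · rw [h1, ee_i hij, if_pos rfl]
      exact mul_pos (pos _ (sub_pos.2 hi)) (pos _ (sub_pos.2 (hVpos D hi)))
    rw [if_neg h1, mul_zero, add_zero] at hp ⊢
    have h2 : p ≠ j := by
      rintro rfl
      exact hp (by rw [hj, sub_self, mul_zero])
    rw [ee_o h1 h2, mul_zero, add_zero]
    have h3 : 0 < 1 - t := lt_of_le_of_ne h1t fun h => hp (by rw [← h, zero_mul])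
    have h4 : D.sg k p - D.sg l p ≠ 0 := fun h => hp (by rw [h, mul_zero])
    have h5 := hVΔ D p h4
    have : (1 - t) * (D.sg k p - D.sg l p) * ((1 - t) * (D.V k p - D.V l p)) =
      ((1 - t) * (1 - t)) * ((D.sg k p - D.sg l p) * (D.V k p - D.V l p)) := by ring
    rw [this]
    positivity
  · have h3 := mul_nonneg h1t (sub_nonneg.2 (hle p))
    have h4 : 0 ≤ t * (if p = i then (1 : ℝ) else 0) := by
      split_ifs
      · linarith [ht.1]
      · simp
    exact add_nonneg h3 h4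
  · rw [if_pos rfl]
    exact pos _ (sub_pos.2 hi)
  · rw [if_neg hij.symm, hj, sub_self, mul_zero, mul_zero, add_zero]
  · show (1 - t) * (D.V k j - D.V l j) + t * ee i j j < 0
    rw [ee_j hij]
    have a1 := pos _ (sub_pos.2 hv)
    linarith

/-- coordinate difference of the final model, positive. -/
lemma diff_pos {s a : W n} {c : ℝ} {i j : Fin (n + 3)} (hij : i ≠ j) (ha : a ≠ 0)
    (hp : ∀ p, 0 < a p → 0 < s p) (hc : 0 ≤ c) (hc0 : c = 0 → ∀ p, 0 < s p)
    (Δ : Fin (n + 3) → ℝ) (hi : Δ i = 1) (hj : Δ j ≤ 0)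
    (hj' : Δ j < 0 ∨ a j ≤ 0) :
    0 < gv s a c Δ (ee i j) i - gv s a c Δ (ee i j) j := by
  have hna : 0 < ‖a‖ ^ 2 := by
    have := norm_pos_iff.2 ha
    positivity
  have hin : ⟪a, vec (ee i j)⟫ = a i - a j := by
    rw [inner_def]
    simp only [vec_apply, ee, mul_sub, mul_ite, mul_one, mul_zero, Finset.sum_sub_distrib,
      Finset.sum_ite_eq', Finset.mem_univ, if_true]
  have hsq : a i ^ 2 + a j ^ 2 ≤ ‖a‖ ^ 2 := by
    rw [norm_sq_def]
    have := Finset.sum_le_sum_of_subset_of_nonneg (s := {i, j}) (t := Finset.univ)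
      (f := fun p => a p ^ 2) (Finset.subset_univ _) (fun p _ _ => sq_nonneg _)
    rwa [Finset.sum_pair hij] at this
  rw [gv_ap, gv_ap, hin, ee_i hij, ee_j hij, hi]
  have hmi : 0 ≤ max (s i) 0 := le_max_right _ _
  have hmj : 0 ≤ max (s j) 0 := le_max_right _ _
  have h1 : max (s i) 0 * 1 + c * (1 - (a i - a j) / ‖a‖ ^ 2 * a i) -
      (max (s j) 0 * Δ j + c * (-1 - (a i - a j) / ‖a‖ ^ 2 * a j)) =
      max (s i) 0 + max (s j) 0 * (-Δ j) + c * (2 - (a i - a j) ^ 2 / ‖a‖ ^ 2) := by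
    ring
  rw [h1]
  have h2 : (a i - a j) ^ 2 / ‖a‖ ^ 2 ≤ 2 := by
    rw [div_le_iff₀ hna]
    nlinarith [sq_nonneg (a i + a j)]
  have h3 : 0 ≤ max (s j) 0 * (-Δ j) := mul_nonneg hmj (by linarith)
  rcases hc.eq_or_lt with hc1 | hc1
  · have h4 := hc0 hc1.symm i
    rw [← hc1, zero_mul, add_zero, max_eq_left h4.le]
    linarith
  rcases h2.eq_or_lt with h4 | h4
  · -- then a i = - a j, nonzero
    rw [div_eq_iff hna.ne'] at h4
    have h5 : a i + a j = 0 := by
      have : (a i + a j) ^ 2 ≤ 0 := by nlinarith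
      exact pow_eq_zero_iff two_ne_zero |>.1 (le_antisymm this (sq_nonneg _))
    have h6 : 0 ≤ c * (2 - (a i - a j) ^ 2 / ‖a‖ ^ 2) := mul_nonneg hc1.le (by
      rw [h4]
      field_simp
      norm_num)
    have h7 : a i ≠ 0 := by
      intro h7
      have h8 : a j = 0 := by linarith
      rw [h7, h8] at h4
      nlinarith
    rcases lt_or_gt_of_ne h7 with h8 | h8
    · have h9 : 0 < a j := by linarith
      have h10 := hp j h9
      rcases hj' with h11 | h11
      · have : 0 < max (s j) 0 * (-Δ j) := mul_pos (lt_max_of_lt_left h10) (by linarith)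
        linarith
      · linarith
    · have h10 := hp i h8
      have : 0 < max (s i) 0 := lt_max_of_lt_left h10
      linarith
  · have : 0 < c * (2 - (a i - a j) ^ 2 / ‖a‖ ^ 2) := mul_pos hc1 (by linarith)
    linarith

/-! #### the linear map -/

/-- `(1/‖s‖) L A(s)`. -/
noncomputable def T (s v : W n) : W n := (1 / ‖s‖) • L n (D.A s v)

lemma hor_add (v w : W n) : hor (v + w) = hor v + hor w := by
  simp only [hor, inner_add_right, add_smul]
  abel

lemma hor_smul (c : ℝ) (v : W n) : hor (c • v) = c • hor v := by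
  simp only [hor, inner_smul_right, smul_sub, smul_smul]

lemma inner_u1_self : ⟪u1 n, u1 n⟫ = 1 := by
  rw [real_inner_self_eq_norm_sq, norm_u1, one_pow]

lemma inner_u1_hor (v : W n) : ⟪u1 n, hor v⟫ = 0 := by
  rw [hor, inner_sub_right, inner_smul_right, inner_u1_self, mul_one, sub_self]

lemma A_add (s v w : W n) : D.A s (v + w) = D.A s v + D.A s w := by
  simp only [HD.A, hor_add, inner_add_right, add_div, mul_add, add_smul]
  abel

lemma A_smul (s v : W n) (c : ℝ) : D.A s (c • v) = c • D.A s v := by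
  simp only [HD.A, hor_smul, inner_smul_right, smul_add, smul_smul]
  congr 2
  ring

lemma T_add (s v w : W n) : T D s (v + w) = T D s v + T D s w := by
  rw [T, A_add, map_add, smul_add]; rfl

lemma T_smul (s v : W n) (c : ℝ) : T D s (c • v) = c • T D s v := by
  rw [T, A_smul, map_smul, smul_comm]; rfl

lemma T_sub (s v w : W n) : T D s (v - w) = T D s v - T D s w := by
  rw [sub_eq_add_neg, T_add, ← neg_one_smul ℝ w, T_smul, neg_one_smul, ← sub_eq_add_neg]

lemma T_ne {s v : W n} (hs : s ≠ 0) (hv : v ≠ 0) : T D s v ≠ 0 := by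
  intro h
  have h1 : D.A s v = 0 := by
    have h2 := (smul_eq_zero.1 h).resolve_left (one_div_ne_zero (norm_ne_zero_iff.2 hs))
    exact (map_eq_zero_iff (L n) (L n).injective).1 h2
  have h3 : hor (D.A s v) = hor v := by
    rw [HD.A, hor_add, hor_smul]
    have : hor (u1 n) = 0 := by rw [hor, inner_u1_self, one_smul, sub_self]
    rw [this, smul_zero, add_zero]
  have h4 : hor v = 0 := by
    rw [← h3, h1, hor, inner_zero_right, zero_smul, sub_zero]
  rw [HD.A, h4, inner_zero_right, zero_div, mul_zero, zero_smul, add_zero] at h1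
  exact hv h1

/-- height of `T s v`. -/
lemma inner_ec_T (s v : W n) : ⟪ec (n + 2), T D s v⟫ = (1 / ‖s‖) *
    (⟪u1 n, v⟫ + D.ka s * (⟪D.nz s, hor v⟫ / ⟪D.nz s, u1 n⟫)) := by
  rw [T, inner_smul_right, inner_ec_L, HD.A, inner_add_right, inner_smul_right, inner_u1_self,
    mul_one]

lemma inner_nz_hor {s : W n} (v : W n) : ⟪D.nz s, hor v⟫ =
    ⟪D.nz s, v⟫ - ⟪u1 n, v⟫ * ⟪D.nz s, u1 n⟫ := by
  rw [hor, inner_sub_right, inner_smul_right]

/-- height for `v ⊥ nz s`. -/
lemma inner_ec_T' {s v : W n} (h : ⟪D.nz s, v⟫ = 0) (h' : ⟪D.nz s, u1 n⟫ ≠ 0) :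
    ⟪ec (n + 2), T D s v⟫ = (1 / ‖s‖) * ((1 - D.ka s) * ⟪u1 n, v⟫) := by
  rw [inner_ec_T, inner_nz_hor, h]
  field_simp
  ring

/-- horizontal products. -/
lemma inner_L_T {s v w : W n} (h : ⟪u1 n, w⟫ = 0) : ⟪L n w, T D s v⟫ = (1 / ‖s‖) * ⟪w, v⟫ := by
  rw [T, inner_smul_right, inner_L, HD.A, inner_add_right, inner_smul_right,
    real_inner_comm (u1 n) w, h, mul_zero, add_zero]

/-! #### base points -/

/-- base point over a point of the closed cube. -/
noncomputable def sB (u : Bc (n + 2)) : W n := bp u (1 - ‖u‖ - D.m0 u)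

lemma ret_eq {u : Bc (n + 2)} (hu : ‖u‖ ≤ 1) : ret u = u := by
  rw [ret, max_eq_left hu, div_one, one_smul]

lemma sb_eq {u : Bc (n + 2)} (hu : ‖u‖ ≤ 1) : D.sb u = sB D u := by
  rw [HD.sb, ret_eq hu]; rfl

lemma sB_ne {u : Bc (n + 2)} (hu : ‖u‖ ≤ 1) : sB D u ≠ 0 := by
  obtain ⟨j, hj⟩ := D.out u hu
  intro h
  have h1 : bp (n := n) u (1 - ‖u‖ - D.m0 u) = 0 := h
  rw [h1, norm_zero, mul_zero, neg_zero] at hj
  exact lt_irrefl _ hj

lemma sB_out {u : Bc (n + 2)} (hu : ‖u‖ ≤ 1) : ∃ j, -(D.d * ‖sB D u‖) < sB D u j := D.out u hu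

lemma sB_wall {u : Bc (n + 2)} (hu : ‖u‖ = 1) : D.ka (sB D u) = 1 ∧ ∀ j, sB D u j < 0 := by
  have h : sB D u = bp u (-D.m0 u) := by rw [sB, hu]; congr 1; ring
  rw [h]
  exact D.wall u hu

lemma L_sB (u : Bc (n + 2)) : L n (sB D u) = pt u (1 - ‖u‖ - D.m0 u) := by
  rw [sB, bp, L_L]

lemma L_hor_sB (u : Bc (n + 2)) : L n (hor (sB D u)) = pt u 0 := by
  rw [hor, map_sub, map_smul, L_u1, L_sB, ← inner_ec_L, L_sB, inner_ec_pt]
  ext i
  refine Fin.lastCases ?_ (fun i => ?_) i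
  · show pt u _ (Fin.last _) - _ * ec (n + 2) (Fin.last _) = pt u 0 (Fin.last _)
    rw [pt_last, pt_last, ec_eq, pt_last]
    ring
  · show pt u _ i.castSucc - _ * ec (n + 2) i.castSucc = pt u 0 i.castSucc
    rw [pt_castSucc, pt_castSucc, ec_eq, pt_castSucc]
    simp

lemma continuous_sB : Continuous (sB D) := by
  have h : Continuous fun u : Bc (n + 2) => (u, 1 - ‖u‖ - D.m0 u) := by
    have := D.cm0
    fun_prop
  exact (L n).continuous.comp (continuous_pt.comp h)

lemma sB_mem {u : Bc (n + 2)} (hu : u ∈ closedBall (0 : Bc (n + 2)) 1) : sB D u ∈ ({0}ᶜ : Set (W n)) :=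
  sB_ne D (norm_le_of_mem hu)

lemma cont_ap (j : Fin (n + 3)) : Continuous fun s : W n => s j :=
  (EuclideanSpace.proj (𝕜 := ℝ) j : W n →L[ℝ] ℝ).continuous

lemma cont_vec {X : Type*} [TopologicalSpace X] {S : Set X} {f : X → Fin (n + 3) → ℝ}
    (h : ∀ j, ContinuousOn (fun x => f x j) S) : ContinuousOn (fun x => vec (n := n) (f x)) S :=
  (PiLp.continuous_toLp 2 _).comp_continuousOn (continuousOn_pi.2 h)

lemma cont_quot (j : Fin (n + 3)) :
    ContinuousOn (fun u => sB D u j / ‖sB D u‖) (closedBall 0 1) := by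
  refine ContinuousOn.div ?_ ?_ fun u hu => norm_ne_zero_iff.2 (sB_mem D hu)
  · exact ((cont_ap j).comp (continuous_sB D)).continuousOn
  · exact (continuous_sB D).norm.continuousOn

lemma cont_nrm (k : Fin m) : ContinuousOn (fun u => D.nrm k (sB D u)) (closedBall 0 1) := by
  refine cont_vec fun j => ?_
  by_cases h : D.neg k j
  · simp only [h, if_true]
    exact D.cYm.comp_continuousOn (cont_quot D j)
  · simp only [h]
    exact D.cYp.comp_continuousOn (cont_quot D j)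

lemma cont_nz : ContinuousOn (fun u => D.nz (sB D u)) (closedBall 0 1) :=
  cont_vec fun j => D.cYp.comp_continuousOn (cont_quot D j)

lemma cont_cf : ContinuousOn (fun u => cf D (sB D u)) (closedBall 0 1) := by
  have h : ContinuousOn (fun u => D.th (sB D u)) (closedBall 0 1) :=
    D.cth.comp (continuous_sB D).continuousOn fun u hu => sB_mem D hu
  exact ((continuousOn_const (c := D.ep)).mul (continuous_sB D).norm.continuousOn).mul h

lemma cont_gv {a : Bc (n + 2) → W n} (ca : ContinuousOn a (closedBall 0 1))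
    (ha : ∀ u, ‖u‖ ≤ 1 → a u ≠ 0) (Δ w : Fin (n + 3) → ℝ) :
    ContinuousOn (fun u => gv (D.hs (sB D u)) (a u) (cf D (sB D u)) Δ w) (closedBall 0 1) := by
  have h1 : ContinuousOn (fun u => vec (n := n) fun j => max (D.hs (sB D u) j) 0 * Δ j)
      (closedBall 0 1) := by
    refine cont_vec fun j => ?_
    have h : ContinuousOn (fun u => ‖sB D u‖ * D.pp (sB D u j / ‖sB D u‖)) (closedBall 0 1) :=
      (continuous_sB D).norm.continuousOn.mul (D.cpp.comp_continuousOn (cont_quot D j))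
    have h' : Continuous fun x : ℝ => max x 0 * Δ j := by fun_prop
    exact h'.comp_continuousOn h
  have h2 : ContinuousOn (fun u => proj (a u) (vec w)) (closedBall 0 1) := by
    have h3 : ContinuousOn (fun u => ⟪a u, vec w⟫ / ‖a u‖ ^ 2) (closedBall 0 1) := by
      refine ContinuousOn.div ?_ ?_ ?_
      · exact ca.inner continuousOn_const
      · exact ca.norm.pow 2
      · intro u hu
        have := norm_pos_iff.2 (ha u (norm_le_of_mem hu))
        positivity
    exact continuousOn_const.sub (h3.smul ca)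
  exact h1.add ((cont_cf D).smul h2)

lemma nz_u1_neg {s : W n} (hs : s ≠ 0) (h : ∀ j, s j ≤ D.d * ‖s‖) : ⟪D.nz s, u1 n⟫ < 0 := by
  rw [real_inner_comm, inner_u1]
  refine div_neg_of_neg_of_pos ?_ (sqrt_pos n)
  have h1 : ∀ j, D.nz s j ≤ 0 := fun j => nz_le D hs (h j)
  refine lt_of_le_of_ne (Finset.sum_nonpos fun j _ => h1 j) fun h2 => ?_
  have h3 := (Finset.sum_eq_zero_iff_of_nonpos (fun j _ => h1 j)).1 h2
  exact nz_ne D hs (by ext j; exact h3 j (Finset.mem_univ j))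

lemma nz_u1_ka {s : W n} (hs : s ≠ 0) (h : D.ka s ≠ 0) : ⟪D.nz s, u1 n⟫ < 0 :=
  nz_u1_neg D hs fun j => (D.kap s hs h j).le

lemma cont_T {f : Bc (n + 2) → W n} (cf' : ContinuousOn f (closedBall 0 1)) :
    ContinuousOn (fun u => T D (sB D u) (f u)) (closedBall 0 1) := by
  have hsB := continuous_sB D
  have hhor : ContinuousOn (fun u => hor (f u)) (closedBall 0 1) := by
    have hc : Continuous fun v : W n => hor v := by
      unfold hor
      fun_prop
    exact hc.comp_continuousOn cf'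
  have hka : ContinuousOn (fun u => D.ka (sB D u)) (closedBall 0 1) :=
    D.cka.comp hsB.continuousOn fun u hu => sB_mem D hu
  have hsum : ContinuousOn (fun u => D.A (sB D u) (f u)) (closedBall 0 1) := by
    intro u0 hu0
    by_cases h : ∀ j, sB D u0 j ≤ D.d * ‖sB D u0‖
    · have h1 := nz_u1_neg D (sB_mem D hu0) h
      have c1 : ContinuousWithinAt (fun u => ⟪D.nz (sB D u), hor (f u)⟫) (closedBall 0 1) u0 :=
        ((cont_nz D).inner hhor) u0 hu0
      have c2 : ContinuousWithinAt (fun u => ⟪D.nz (sB D u), u1 n⟫) (closedBall 0 1) u0 :=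
        ((cont_nz D).inner continuousOn_const) u0 hu0
      exact (cf' u0 hu0).add (((hka u0 hu0).mul (c1.div c2 h1.ne)).smul
        continuousWithinAt_const)
    · push Not at h
      obtain ⟨j, hj⟩ := h
      have hopen : IsOpen {u : Bc (n + 2) | D.d * ‖sB D u‖ < sB D u j} :=
        isOpen_lt (continuous_const.mul hsB.norm) ((cont_ap j).comp hsB)
      have hev : ∀ᶠ u in nhdsWithin u0 (closedBall 0 1), D.A (sB D u) (f u) = f u := by
        filter_upwards [mem_nhdsWithin_of_mem_nhds (hopen.mem_nhds hj), self_mem_nhdsWithin]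
          with u hu hu1
        have h2 : D.ka (sB D u) = 0 := by
          by_contra h3
          exact lt_asymm hu (D.kap _ (sB_mem D hu1) h3 j)
        rw [HD.A, h2, zero_mul, zero_smul, add_zero]
      refine (cf' u0 hu0).congr_of_eventuallyEq hev ?_
      have h2 : D.ka (sB D u0) = 0 := by
        by_contra h3
        exact lt_asymm hj (D.kap _ (sB_mem D hu0) h3 j)
      rw [HD.A, h2, zero_mul, zero_smul, add_zero]
  have h1 : ContinuousOn (fun u => 1 / ‖sB D u‖) (closedBall 0 1) :=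
    continuousOn_const.div hsB.norm.continuousOn fun u hu => norm_ne_zero_iff.2 (sB_mem D hu)
  exact h1.smul ((L n).continuous.comp_continuousOn hsum)

/-- horizontality at the wall. -/
lemma hor_T {u : Bc (n + 2)} (hu : ‖u‖ = 1) {v : W n} (h : ⟪D.nz (sB D u), v⟫ = 0) :
    ⟪ec (n + 2), T D (sB D u) v⟫ = 0 := by
  obtain ⟨h1, h2⟩ := sB_wall D hu
  have hs := sB_ne D hu.le
  have h3 := nz_u1_ka D hs (by rw [h1]; exact one_ne_zero)
  rw [inner_ec_T' D h h3.ne, h1, sub_self, zero_mul, mul_zero]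

/-- at the wall `gv` is orthogonal to the conormal. -/
lemma wall_gv {u : Bc (n + 2)} (hu : ‖u‖ = 1) {a : W n} (ha : a = D.nz (sB D u))
    (Δ w : Fin (n + 3) → ℝ) : ⟪D.nz (sB D u), gv (D.hs (sB D u)) a (cf D (sB D u)) Δ w⟫ = 0 := by
  obtain ⟨h1, h2⟩ := sB_wall D hu
  rw [ha, inner_gv (nz_ne D (sB_ne D hu.le))]
  refine Finset.sum_eq_zero fun j _ => ?_
  rw [max_eq_right (hsN D (h2 j).le), zero_mul, mul_zero]

lemma wall_nrm {u : Bc (n + 2)} (hu : ‖u‖ = 1) (k : Fin m) :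
    D.nrm k (sB D u) = D.nz (sB D u) := by
  obtain ⟨h1, h2⟩ := sB_wall D hu
  have hs := sB_ne D hu.le
  ext j
  exact nrm_eq_nz D hs ((h2 j).le.trans (dpos D hs).le)

lemma wall_df {u : Bc (n + 2)} (hu : ‖u‖ = 1) (k l : Fin m) :
    ⟪D.nz (sB D u), df D k l (sB D u)⟫ = 0 := by
  rw [df_common D ((wall_nrm D hu k).trans (wall_nrm D hu l).symm), gm]
  exact wall_gv D hu (wall_nrm D hu k) _ _

/-- straight segments before `T`. -/
lemma fhT {f g : Bc (n + 2) → W n} (cf' : ContinuousOn f (closedBall 0 1))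
    (cg : ContinuousOn g (closedBall 0 1))
    (wf : ∀ u, ‖u‖ = 1 → ⟪D.nz (sB D u), f u⟫ = 0)
    (wg : ∀ u, ‖u‖ = 1 → ⟪D.nz (sB D u), g u⟫ = 0)
    (h : ∀ u, ‖u‖ ≤ 1 → ∀ t ∈ Icc (0 : ℝ) 1, (1 - t) • f u + t • g u ≠ 0) :
    FH (ec (n + 2)) (fun u => T D (sB D u) (f u)) (fun u => T D (sB D u) (g u)) := by
  refine fh_of_segment (cont_T D cf') (cont_T D cg) (fun u hu => hor_T D hu (wf u hu))
    (fun u hu => hor_T D hu (wg u hu)) fun u hu t ht => ?_
  rw [← T_smul, ← T_smul, ← T_add]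
  exact T_ne D (sB_ne D hu) (h u hu t ht)

lemma cont_eta (k : Fin m) : ContinuousOn (fun u => D.eta k (sB D u)) (closedBall 0 1) :=
  cont_gv D (cont_nrm D k) (fun u hu => nrm_ne D (sB_ne D hu)) _ _

lemma cont_df (k l : Fin m) : ContinuousOn (fun u => df D k l (sB D u)) (closedBall 0 1) :=
  (cont_eta D k).sub (cont_eta D l)

lemma cont_gm (k l : Fin m) {a : Bc (n + 2) → W n} (ca : ContinuousOn a (closedBall 0 1))
    (ha : ∀ u, ‖u‖ ≤ 1 → a u ≠ 0) :
    ContinuousOn (fun u => gm D k l (sB D u) (a u)) (closedBall 0 1) := cont_gv D ca ha _ _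

/-- Chebyshev. -/
lemma cheb (s : W n) : 0 ≤ ⟪hor s, D.nz s⟫ := by
  have h1 : Monovary (fun j => D.nz s j) (fun j => s j) := fun i j hij =>
    D.mYp (div_le_div_of_nonneg_right hij.le (norm_nonneg s))
  have h2 := h1.sum_mul_sum_le_card_mul_sum
  rw [Fintype.card_fin] at h2
  push_cast at h2
  have h3 : ⟪hor s, D.nz s⟫ = (∑ j, D.nz s j * s j) -
      (∑ j, D.nz s j) * (∑ j, s j) / (n + 3 : ℝ) := by
    rw [hor, inner_sub_left, inner_smul_left, inner_u1, inner_u1, inner_def]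
    simp only [conj_trivial]
    have h4 : √(n + 3 : ℝ) * √(n + 3 : ℝ) = n + 3 := Real.mul_self_sqrt (by positivity)
    have h5 := (sqrt_pos n).ne'
    have h6 : (∑ j, s j) / √(n + 3 : ℝ) * ((∑ j, D.nz s j) / √(n + 3 : ℝ)) =
        (∑ j, D.nz s j) * (∑ j, s j) / (n + 3 : ℝ) := by
      rw [div_mul_div_comm, h4]
      ring
    rw [h6]
    congr 1
    exact Finset.sum_congr rfl fun j _ => mul_comm _ _
  rw [h3]
  have h7 : (0 : ℝ) < n + 3 := by positivity
  rw [sub_nonneg, div_le_iff₀ h7]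
  linarith

end D

end Crest.Agent.R267.HasMatA_652
end

-- ▼ part R267/HasMat_652
section

/-!
# The matrix of a homogeneous graph system (row 267, T3-end)

`hasMat`: a system over the cube whose cores and normals are those of a homogeneous graph system
`D : HD n m` (EndDef_864) has the matrix `D.mat`. All homotopies are straight lines.
-/

set_option autoImplicit false

namespace Crest.Agent.R267.HasMat_652

open Set Metric
open scoped RealInnerProductSpace
open Crest.Agent.R267.GS_808 Crest.Agent.R267.EndDef_864 Crest.Agent.R267.IsotB_92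
open Crest.Agent.R267.HasMatA_652

section D

variable {n m : ℕ} {D : HD n m}

/-! #### differences -/


/-- comparable strands: class `α`. -/
theorem fh_pos {k l : Fin m} (hkl : Pos D.sg D.V D.neg k l) :
    FH (ec (n + 2)) al (fun u => T D (sB D u) (df D k l (sB D u))) := by
  have cz := cont_nz D
  have hz : ∀ u : Bc (n + 2), ‖u‖ ≤ 1 → D.nz (sB D u) ≠ 0 := fun u hu => nz_ne D (sB_ne D hu)
  have F1 := fhT D (cont_df D k l) (cont_gm D k l cz hz) (fun u hu => wall_df D hu k l)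
    (fun u hu => wall_gv D hu rfl _ _)
    fun u hu t ht => seg_pos D (sB_ne D hu) (sB_out D hu) hkl ht
  have F2 := fhT D (cont_gm D k l cz hz)
    (cont_gv D cz hz (fun _ => 1) (fun _ => 1)) (fun u hu => wall_gv D hu rfl _ _)
    (fun u hu => wall_gv D hu rfl _ _)
    fun u hu t ht => seg_pos' D (sB_ne D hu) (sB_out D hu) hkl ht
  refine FH.symm (FH.trans F1 (FH.trans F2 ?_))
  have hg1 : ∀ u : Bc (n + 2), ‖u‖ ≤ 1 →
      gv (D.hs (sB D u)) (D.nz (sB D u)) (cf D (sB D u)) (fun _ => 1) (fun _ => 1) ≠ 0 := by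
    intro u hu
    have := seg_pos' D (sB_ne D hu) (sB_out D hu) hkl (t := 1) ⟨zero_le_one, le_rfl⟩
    simpa using this
  refine fh_of_segment (cont_T D (cont_gv D cz hz _ _)) continuous_al.continuousOn
    (fun u hu => hor_T D hu (wall_gv D hu rfl _ _)) (fun u hu => ?_) fun u hu t ht => ?_
  · rw [al, inner_ec_pt, hu, sub_self]
  have hs := sB_ne D hu
  rcases ht.1.eq_or_lt with h0 | h0
  · rw [← h0, sub_zero, one_smul, zero_smul, add_zero]
    exact T_ne D hs (hg1 u hu)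
  intro h
  set s := sB D u with hsdef
  set g := gv (D.hs s) (D.nz s) (cf D s) (fun _ => 1) (fun _ => 1) with hgdef
  have hin : ⟪D.nz s, g⟫ = ∑ j, D.nz s j * (max (D.hs s j) 0 * 1) := inner_gv (hz u hu) _ _ _
  have h1t : 0 ≤ 1 - t := by linarith [ht.2]
  have hu1 : 0 ≤ ⟪u1 n, g⟫ := by
    have e1 : ⟪u1 n, g⟫ = (∑ j, max (D.hs s j) 0 * 1) / √(n + 3 : ℝ) +
        cf D s * ⟪u1 n, proj (D.nz s) (vec fun _ => 1)⟫ := by
      rw [hgdef, gv, inner_add_right, inner_smul_right, inner_u1]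
      rfl
    have e2 : (vec fun _ => 1 : W n) = √(n + 3 : ℝ) • u1 n := by
      ext j
      show (1 : ℝ) = √(n + 3 : ℝ) * (1 / √(n + 3 : ℝ))
      rw [mul_one_div_cancel (sqrt_pos n).ne']
    have e3 : 0 ≤ ⟪u1 n, proj (D.nz s) (vec fun _ => 1)⟫ := by
      rw [e2, proj_smul, inner_smul_right]
      refine mul_nonneg (sqrt_pos n).le ?_
      rw [proj, inner_sub_right, inner_smul_right, inner_u1_self, real_inner_comm (D.nz s) (u1 n)]
      have h3 : 0 < ‖D.nz s‖ ^ 2 := by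
        have := norm_pos_iff.2 (hz u hu)
        positivity
      have h4 : ⟪D.nz s, u1 n⟫ ^ 2 ≤ ‖D.nz s‖ ^ 2 := by
        have h5 := abs_real_inner_le_norm (D.nz s) (u1 n)
        rw [norm_u1, mul_one] at h5
        rw [← sq_abs]
        exact pow_le_pow_left₀ (abs_nonneg _) h5 2
      have h6 : ⟪D.nz s, u1 n⟫ / ‖D.nz s‖ ^ 2 * ⟪D.nz s, u1 n⟫ ≤ 1 := by
        rw [div_mul_eq_mul_div, div_le_one h3, ← sq]
        exact h4
      linarith
    rw [e1]
    refine add_nonneg (div_nonneg (Finset.sum_nonneg fun j _ => ?_) (sqrt_pos n).le)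
      (mul_nonneg (cf_nonneg D s) e3)
    rw [mul_one]
    exact le_max_right _ _
  have hh : 0 ≤ ⟪ec (n + 2), T D s g⟫ := by
    by_cases hka : D.ka s = 0
    · rw [inner_ec_T, hka, zero_mul, add_zero]
      positivity
    · have h7 := D.kap s hs hka
      have h8 : ⟪D.nz s, g⟫ = 0 := by
        rw [hin]
        refine Finset.sum_eq_zero fun j _ => ?_
        rcases (nz_le D hs (h7 j).le).eq_or_lt with h9 | h9
        · rw [h9, zero_mul]
        · rw [max_eq_right (hsN D ((nz_neg D hs h9).trans (neg_neg_of_pos (dpos D hs))).le),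
            zero_mul, mul_zero]
      rw [inner_ec_T' D h8 (nz_u1_ka D hs hka).ne]
      have := D.ka1 s
      have h9 : 0 ≤ 1 - D.ka s := by linarith
      positivity
  have e4 : (1 - t) * ⟪ec (n + 2), T D s g⟫ + t * (1 - ‖u‖) = 0 := by
    have := congrArg (fun v => ⟪ec (n + 2), v⟫) h
    simp only [inner_add_right, inner_smul_right, inner_zero_right, al, inner_ec_pt] at this
    exact this
  have e5 : ‖u‖ = 1 := by
    have h9 := mul_nonneg h1t hh
    have h10 : t * (1 - ‖u‖) ≤ 0 := by linarith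
    have h11 : 1 - ‖u‖ ≤ 0 := by
      by_contra h12
      linarith [mul_pos h0 (not_le.1 h12)]
    linarith
  have hu0 : u ≠ 0 := by
    rintro rfl
    rw [norm_zero] at e5
    exact zero_ne_one e5
  obtain ⟨w1, w2⟩ := sB_wall D e5
  have e6 : ⟪L n (hor s), T D s g⟫ = (1 / ‖s‖) * ⟪hor s, g⟫ := inner_L_T D (inner_u1_hor s)
  have e7 : 0 ≤ ⟪hor s, g⟫ := by
    have e8 : g = (cf D s) • proj (D.nz s) (vec fun _ => 1) := by
      rw [hgdef, gv]
      have : (vec fun j => max (D.hs s j) 0 * 1 : W n) = 0 := by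
        ext j
        show max (D.hs s j) 0 * 1 = 0
        rw [max_eq_right (hsN D (w2 j).le), zero_mul]
      rw [this, zero_add]
    have e2 : (vec fun _ => 1 : W n) = √(n + 3 : ℝ) • u1 n := by
      ext j
      show (1 : ℝ) = √(n + 3 : ℝ) * (1 / √(n + 3 : ℝ))
      rw [mul_one_div_cancel (sqrt_pos n).ne']
    rw [e8, inner_smul_right, e2, proj_smul, inner_smul_right]
    refine mul_nonneg (cf_nonneg D s) (mul_nonneg (sqrt_pos n).le ?_)
    rw [proj, inner_sub_right, inner_smul_right, real_inner_comm (u1 n) (hor s), inner_u1_hor,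
      zero_sub, ← neg_mul]
    refine mul_nonneg ?_ (cheb D s)
    rw [neg_nonneg]
    exact div_nonpos_of_nonpos_of_nonneg
      (nz_u1_ka D hs (by rw [w1]; exact one_ne_zero)).le (by positivity)
  have e9 : ⟪L n (hor s), (1 - t) • T D s g + t • al u⟫ = 0 := by rw [h, inner_zero_right]
  rw [inner_add_right, inner_smul_right, inner_smul_right, e6, hsdef, L_hor_sB, al, inner_pt,
    zero_mul, add_zero, ← hsdef] at e9
  have e10 := sum_sq_pos hu0
  have e11 : 0 ≤ (1 - t) * (1 / ‖s‖ * ⟪hor s, g⟫) := by positivity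
  linarith [mul_pos h0 e10]

/-- constant horizontal maps. -/
lemma fh_const {v w : W n} (hv : ⟪ec (n + 2), v⟫ = 0) (hw : ⟪ec (n + 2), w⟫ = 0)
    (h : ∀ t ∈ Icc (0 : ℝ) 1, (1 - t) • v + t • w ≠ 0) :
    FH (ec (n + 2)) (fun _ : Bc (n + 2) => v) (fun _ => w) :=
  fh_of_segment continuousOn_const continuousOn_const (fun _ _ => hv) (fun _ _ => hw)
    fun _ _ => h

lemma inner_ec_single {i : Fin (n + 3)} (hi : i ≠ Fin.last (n + 2)) (c : ℝ) :
    ⟪ec (n + 2), (EuclideanSpace.single i c : W n)⟫ = 0 := by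
  rw [ec, EuclideanSpace.inner_single_left]
  simp [hi.symm]

lemma typ_const {v : W n} (hv : v ≠ 0) (h : ⟪ec (n + 2), v⟫ = 0) :
    Typ n (fun _ => v) 0 0 := by
  have i0 : (0 : Fin (n + 3)) ≠ Fin.last (n + 2) := by
    intro h0
    have := congrArg Fin.val h0
    simp at this
  have i1 : (1 : Fin (n + 3)) ≠ Fin.last (n + 2) := by
    intro h0
    have := congrArg Fin.val h0
    simp at this
  have i01 : (0 : Fin (n + 3)) ≠ 1 := by
    intro h0
    have := congrArg Fin.val h0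
    simp at this
  have hh : ⟪ec (n + 2), hc (n + 1)⟫ = 0 := inner_ec_single i0 1
  refine Typ.congr Typ.zero ?_
  by_cases hs : ∀ t ∈ Icc (0 : ℝ) 1, (1 - t) • hc (n + 1) + t • v ≠ 0
  · exact fh_const hh h hs
  push Not at hs
  obtain ⟨t0, ht0, he⟩ := hs
  have a0 : (hc (n + 1) : W n) 0 = 1 := by simp [hc]
  have a1 : (hc (n + 1) : W n) 1 = 0 := by simp [hc, i01.symm]
  have b0 : (EuclideanSpace.single 1 1 : W n) 0 = 0 := by simp [i01]
  have b1 : (EuclideanSpace.single 1 1 : W n) 1 = 1 := by simp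
  have hv1 : v 1 = 0 := by
    have e1 : (1 - t0) * (hc (n + 1) : W n) 1 + t0 * v 1 = 0 := congrArg (fun w : W n => w 1) he
    have e0 : (1 - t0) * (hc (n + 1) : W n) 0 + t0 * v 0 = 0 := congrArg (fun w : W n => w 0) he
    rw [a1, mul_zero, zero_add] at e1
    rcases mul_eq_zero.1 e1 with h1 | h1
    · rw [h1, a0] at e0
      norm_num at e0
    · exact h1
  refine FH.trans (g := fun _ => (EuclideanSpace.single 1 1 : W n))
    (fh_const hh (inner_ec_single i1 1) fun t ht hz => ?_)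
    (fh_const (inner_ec_single i1 1) h fun t ht hz => ?_)
  · have e1 : (1 - t) * (hc (n + 1) : W n) 1 + t * (EuclideanSpace.single 1 1 : W n) 1 = 0 :=
      congrArg (fun w : W n => w 1) hz
    have e0 : (1 - t) * (hc (n + 1) : W n) 0 + t * (EuclideanSpace.single 1 1 : W n) 0 = 0 :=
      congrArg (fun w : W n => w 0) hz
    rw [a1, b1] at e1
    rw [a0, b0] at e0
    linarith
  · have e1 : (1 - t) * (EuclideanSpace.single 1 1 : W n) 1 + t * v 1 = 0 :=
      congrArg (fun w : W n => w 1) hz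
    rw [b1, hv1] at e1
    have e2 : t = 1 := by linarith
    rw [e2, sub_self, zero_smul, one_smul, zero_add] at hz
    exact hv hz

lemma vec_ee_ne {i j : Fin (n + 3)} (hij : i ≠ j) : vec (ee i j) ≠ (0 : W n) := by
  intro h
  have : ee i j i = 0 := by
    have h1 : (vec (ee i j) : W n) i = 0 := by rw [h]; rfl
    exact h1
  rw [ee_i hij] at this
  exact one_ne_zero this

lemma sum_ee {i j : Fin (n + 3)} : ∑ p, ee i j p = 0 := by
  simp [ee, Finset.sum_sub_distrib]

lemma inner_u1_ee {i j : Fin (n + 3)} : ⟪u1 n, vec (ee i j)⟫ = 0 := by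
  rw [inner_u1]
  simp only [vec_apply, sum_ee, zero_div]

lemma inner_ee (v : W n) (i j : Fin (n + 3)) : ⟪vec (ee i j), v⟫ = v i - v j := by
  rw [inner_def]
  simp only [vec_apply, ee, sub_mul, ite_mul, one_mul, zero_mul, Finset.sum_sub_distrib,
    Finset.sum_ite_eq', Finset.mem_univ, if_true]

/-- maps on which `e_i - e_j` is positive are homotopic to a constant. -/
lemma fh_ee {f : Bc (n + 2) → W n} {i j : Fin (n + 3)}
    (cf' : ContinuousOn f (closedBall 0 1))
    (wf : ∀ u, ‖u‖ = 1 → ⟪D.nz (sB D u), f u⟫ = 0) (h : ∀ u, ‖u‖ ≤ 1 → 0 < f u i - f u j) :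
    FH (ec (n + 2)) (fun _ => L n (vec (ee i j))) (fun u => T D (sB D u) (f u)) := by
  refine fh_of_inner_pos continuousOn_const (cont_T D cf') (fun u hu => ?_)
    (fun u hu => hor_T D hu (wf u hu)) fun u hu => ?_
  · rw [inner_ec_L, inner_u1_ee]
  · rw [inner_L_T D inner_u1_ee, inner_ee]
    have := norm_pos_iff.2 (sB_ne D hu)
    have := h u hu
    positivity

/-- mixed strands: class `0`. -/
theorem fh_mix {k l : Fin m} (hkl : Mix D.sg D.V D.neg k l) :
    ∃ v : W n, v ≠ 0 ∧ ⟪ec (n + 2), v⟫ = 0 ∧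
      FH (ec (n + 2)) (fun _ => v) (fun u => T D (sB D u) (df D k l (sB D u))) := by
  have cz := cont_nz D
  have hz : ∀ u : Bc (n + 2), ‖u‖ ≤ 1 → D.nz (sB D u) ≠ 0 := fun u hu => nz_ne D (sB_ne D hu)
  rcases hkl with ⟨i, j, hi, hj⟩ | ⟨hle, i, j, hi, hj, hv, hn⟩
  · have hij : i ≠ j := by
      rintro rfl
      exact lt_asymm hi hj
    refine ⟨L n (vec (ee i j)), fun h => vec_ee_ne hij
      ((map_eq_zero_iff (L n) (L n).injective).1 h), by rw [inner_ec_L, inner_u1_ee], ?_⟩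
    have F1 := fhT D (cont_df D k l) (cont_gm D k l cz hz) (fun u hu => wall_df D hu k l)
      (fun u hu => wall_gv D hu rfl _ _)
      fun u hu t ht => seg_mix D (sB_ne D hu) hi hj ht
    have F2 := fhT D (cont_gm D k l cz hz)
      (cont_gv D cz hz (ee i j) (ee i j)) (fun u hu => wall_gv D hu rfl _ _)
      (fun u hu => wall_gv D hu rfl _ _)
      fun u hu t ht => seg_mix' D (sB_ne D hu) hi hj ht
    refine FH.trans (fh_ee (D := D) (cont_gv D cz hz (ee i j) (ee i j))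
      (fun u hu => wall_gv D hu rfl _ _) fun u hu => ?_) (FH.symm (FH.trans F1 F2))
    have hs := sB_ne D hu
    exact diff_pos hij (hz u hu) (fun p hp => hsP D ((dpos D hs).trans (nz_pos D hs hp)))
      (cf_nonneg D _) (fun h p => hsP D (cf_zero D hs h p)) _ (ee_i hij) (by rw [ee_j hij]; norm_num)
      (Or.inl (by rw [ee_j hij]; norm_num))
  · have hij : i ≠ j := by
      rintro rfl
      exact hi.ne' hj
    have cn := cont_nrm D k
    have hnn : ∀ u : Bc (n + 2), ‖u‖ ≤ 1 → D.nrm k (sB D u) ≠ 0 :=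
      fun u hu => nrm_ne D (sB_ne D hu)
    refine ⟨L n (vec (ee i j)), fun h => vec_ee_ne hij
      ((map_eq_zero_iff (L n) (L n).injective).1 h), by rw [inner_ec_L, inner_u1_ee], ?_⟩
    have F1 := fhT D (cont_df D k l) (cont_gm D k l cn hnn) (fun u hu => wall_df D hu k l)
      (fun u hu => wall_gv D hu (wall_nrm D hu k) _ _)
      fun u hu t ht => seg_neg D (sB_ne D hu) hle hi hj hv hn ht
    have F2 := fhT D (cont_gm D k l cn hnn)
      (cont_gv D cn hnn (fun p => if p = i then 1 else 0) (ee i j))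
      (fun u hu => wall_gv D hu (wall_nrm D hu k) _ _)
      (fun u hu => wall_gv D hu (wall_nrm D hu k) _ _)
      fun u hu t ht => seg_neg' D (sB_ne D hu) hle hi hj hv hn ht
    refine FH.trans (fh_ee (D := D) (cont_gv D cn hnn _ (ee i j))
      (fun u hu => wall_gv D hu (wall_nrm D hu k) _ _)
      fun u hu => ?_) (FH.symm (FH.trans F1 F2))
    have hs := sB_ne D hu
    exact diff_pos hij (hnn u hu) (fun p hp => hsP D ((dpos D hs).trans (nrm_pos D hs hp)))
      (cf_nonneg D _) (fun h p => hsP D (cf_zero D hs h p)) _ (if_pos rfl) (by rw [if_neg hij.symm])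
      (Or.inr (nrm_neg_ray D hn _))

/-! #### the matrix: cores -/

lemma core_eq (k : Fin m) {u : Bc (n + 2)} (hu : ‖u‖ ≤ 1) :
    D.core k u = T D (sB D u) (D.eta k (sB D u)) := by
  rw [HD.core, sb_eq D hu]; rfl

lemma core_sub (k l : Fin m) {u : Bc (n + 2)} (hu : ‖u‖ ≤ 1) :
    D.core k u - D.core l u = T D (sB D u) (df D k l (sB D u)) := by
  rw [core_eq k hu, core_eq l hu, df, T_sub]

lemma not_pos_swap {k l : Fin m} (h : Pos D.sg D.V D.neg k l) : ¬ Pos D.sg D.V D.neg l k := by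
  intro h'
  obtain ⟨j, hj⟩ := h.2.1
  exact absurd (h'.1 j) (not_le.2 hj)

lemma not_pos_mix {k l : Fin m} (h : Mix D.sg D.V D.neg k l) : ¬ Pos D.sg D.V D.neg k l := by
  intro h'
  rcases h with ⟨i, j, hi, hj⟩ | ⟨hle, i, j, hi, hj, hv, hn⟩
  · exact absurd (h'.1 j) (not_le.2 hj)
  · rw [h'.2.2.2 j hj] at hn
    exact Bool.noConfusion hn

lemma not_pos_mix' {k l : Fin m} (h : Mix D.sg D.V D.neg k l) : ¬ Pos D.sg D.V D.neg l k := by
  intro h'
  rcases h with ⟨i, j, hi, hj⟩ | ⟨hle, i, j, hi, hj, hv, hn⟩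
  · exact absurd (h'.1 i) (not_le.2 hi)
  · exact absurd (h'.1 i) (not_le.2 hi)

lemma mat_pos {k l : Fin m} (hne : k ≠ l) (h : Pos D.sg D.V D.neg k l) : D.mat k l = 1 := by
  rw [HD.mat, if_neg hne, if_pos h]

lemma mat_neg {k l : Fin m} (hne : k ≠ l) (h : ¬ Pos D.sg D.V D.neg k l) : D.mat k l = 0 := by
  rw [HD.mat, if_neg hne, if_neg h]

lemma neg_df (k l : Fin m) (s : W n) : -(T D s (df D k l s)) = T D s (df D l k s) := by
  rw [df, df, T_sub, T_sub, neg_sub]

theorem typ_core {k l : Fin m} (hne : k ≠ l) :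
    Typ n (fun u => T D (sB D u) (df D k l (sB D u))) (D.mat k l) (D.mat l k) := by
  rcases D.trich k l hne with h | h | h | h
  · rw [mat_pos hne h, mat_neg hne.symm (not_pos_swap h)]
    exact Typ.congr Typ.al (fh_pos h)
  · rw [mat_pos hne.symm h, mat_neg hne (not_pos_swap h)]
    refine Typ.congr Typ.be (FH.congr (FH.neg (fh_pos h)) (fun _ _ => rfl) fun u _ => ?_)
    exact neg_df l k _
  · rw [mat_neg hne (not_pos_mix h), mat_neg hne.symm (not_pos_mix' h)]
    obtain ⟨v, hv, hv', hf⟩ := fh_mix h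
    exact Typ.congr (typ_const hv hv') hf
  · rw [mat_neg hne (not_pos_mix' h), mat_neg hne.symm (not_pos_mix h)]
    obtain ⟨v, hv, hv', hf⟩ := fh_mix h
    refine Typ.congr (typ_const (neg_ne_zero.2 hv) (by rw [inner_neg_right, hv', neg_zero]))
      (FH.congr (FH.neg hf) (fun _ _ => rfl) fun u _ => ?_)
    exact neg_df l k _

/-- the cores are pairwise different. -/
theorem core_ne {k l : Fin m} (hne : k ≠ l) {u : Bc (n + 2)} (hu : ‖u‖ ≤ 1) :
    D.core k u ≠ D.core l u := by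
  rw [← sub_ne_zero, core_sub k l hu]
  rcases D.trich k l hne with h | h | h | h
  · exact FH.neL (FH.symm (fh_pos h)) u hu
  · rw [← neg_df l k]
    exact neg_ne_zero.2 (FH.neL (FH.symm (fh_pos h)) u hu)
  · obtain ⟨v, hv, hv', hf⟩ := fh_mix h
    exact FH.neL (FH.symm hf) u hu
  · obtain ⟨v, hv, hv', hf⟩ := fh_mix h
    rw [← neg_df l k]
    exact neg_ne_zero.2 (FH.neL (FH.symm hf) u hu)



/-! #### the matrix: normals -/

lemma nrm_eq_nz_ka {k : Fin m} {s : W n} (hs : s ≠ 0) (h : D.ka s ≠ 0) : D.nrm k s = D.nz s := by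
  ext j
  exact nrm_eq_nz D hs (D.kap s hs h j).le

lemma hor_add_u1 (v : W n) : hor v + ⟪u1 n, v⟫ • u1 n = v := sub_add_cancel _ _

lemma inner_hor_hor (v w : W n) : ⟪hor v, hor w⟫ = ⟪hor v, w⟫ := by
  have h : hor w = w - ⟪u1 n, w⟫ • u1 n := rfl
  rw [h, inner_sub_right, inner_smul_right, real_inner_comm (u1 n) (hor v), inner_u1_hor,
    mul_zero, sub_zero]

lemma inner_u1_nA (k : Fin m) (s : W n) : ⟪u1 n, D.nA k s⟫ = ⟪u1 n, D.nrm k s⟫ := by
  rw [HD.nA, inner_add_right, inner_smul_right, inner_smul_right, inner_u1_hor, inner_u1_self,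
    mul_zero, zero_add, mul_one]

lemma u1_nrm_neg {k : Fin m} {s : W n} (hs : s ≠ 0) (h : D.ka s ≠ 0) :
    ⟪u1 n, D.nrm k s⟫ < 0 := by
  rw [nrm_eq_nz_ka hs h, real_inner_comm]
  exact nz_u1_ka D hs h

lemma nA_ka0 {k : Fin m} {s : W n} (h : D.ka s = 0) : D.nA k s = D.nrm k s := by
  rw [HD.nA, h, sub_zero, one_smul, hor_add_u1]

theorem nA_ne {k : Fin m} {s : W n} (hs : s ≠ 0) : D.nA k s ≠ 0 := by
  by_cases h : D.ka s = 0
  · rw [nA_ka0 h]
    exact nrm_ne D hs
  · intro h1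
    have h2 := u1_nrm_neg (k := k) hs h
    rw [← inner_u1_nA, h1, inner_zero_right] at h2
    exact lt_irrefl _ h2

/-- the normal is `ec` at the wall. -/
theorem nuc_wall (k : Fin m) {u : Bc (n + 2)} (hu : ‖u‖ = 1) : D.nuc k u = ec (n + 2) := by
  obtain ⟨h1, h2⟩ := sB_wall D hu
  have hs := sB_ne D hu.le
  have h3 := u1_nrm_neg (k := k) hs (by rw [h1]; exact one_ne_zero)
  have h4 : D.nA k (sB D u) = ⟪u1 n, D.nrm k (sB D u)⟫ • u1 n := by
    rw [HD.nA, h1, sub_self, zero_smul, zero_add]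
  rw [HD.nuc, sb_eq D hu.le, h4, map_smul, L_u1, norm_smul, norm_u1, mul_one, Real.norm_eq_abs,
    abs_of_neg h3, smul_smul, ← neg_smul]
  have h5 : -(1 / -⟪u1 n, D.nrm k (sB D u)⟫ * ⟪u1 n, D.nrm k (sB D u)⟫) = 1 := by
    rw [div_neg, neg_mul, neg_neg, one_div, inv_mul_cancel₀ h3.ne]
  rw [h5, one_smul]

theorem norm_nuc (k : Fin m) {u : Bc (n + 2)} (hu : ‖u‖ ≤ 1) : ‖D.nuc k u‖ = 1 := by
  have h1 := norm_ne_zero_iff.2 (nA_ne (D := D) (k := k) (sB_ne D hu))
  rw [HD.nuc, sb_eq D hu, norm_neg, norm_smul, LinearIsometryEquiv.norm_map, norm_div, norm_one,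
    norm_norm, one_div, inv_mul_cancel₀ h1]

theorem cont_nA (k : Fin m) : ContinuousOn (fun u => D.nA k (sB D u)) (closedBall 0 1) := by
  have hka : ContinuousOn (fun u => D.ka (sB D u)) (closedBall 0 1) :=
    D.cka.comp (continuous_sB D).continuousOn fun u hu => sB_mem D hu
  have hc : Continuous fun v : W n => hor v := by
    unfold hor
    fun_prop
  have h1 : ContinuousOn (fun u => ⟪u1 n, D.nrm k (sB D u)⟫) (closedBall 0 1) :=
    continuousOn_const.inner (cont_nrm D k)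
  have h2 : ContinuousOn (fun u => (1 - D.ka (sB D u)) • hor (D.nrm k (sB D u)))
      (closedBall 0 1) := (continuousOn_const.sub hka).smul (hc.comp_continuousOn (cont_nrm D k))
  have h3 : ContinuousOn (fun u => ⟪u1 n, D.nrm k (sB D u)⟫ • u1 n) (closedBall 0 1) :=
    h1.smul continuousOn_const
  exact h2.add h3

theorem cont_nuc (k : Fin m) : ContinuousOn (D.nuc k) (closedBall 0 1) := by
  have h1 : ContinuousOn (fun u => 1 / ‖D.nA k (sB D u)‖) (closedBall 0 1) :=
    continuousOn_const.div (cont_nA k).norm fun u hu =>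
      norm_ne_zero_iff.2 (nA_ne (D := D) (k := k) (sB_ne D (norm_le_of_mem hu)))
  have h2 : ContinuousOn (fun u => L n (D.nA k (sB D u))) (closedBall 0 1) :=
    (L n).continuous.comp_continuousOn (cont_nA k)
  refine (h1.smul h2).neg.congr fun u hu => ?_
  rw [HD.nuc, sb_eq D (norm_le_of_mem hu)]
  rfl

lemma sB_zero : sB D 0 = u1 n := by
  rw [sB, bp, norm_zero, D.m00, sub_zero, sub_zero, ← ec_eq, L_ec]

theorem typN_nuc (k : Fin m) : TypN n (D.nuc k) (D.mat k k) := by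
  have hmat : D.mat k k = if ∀ j, D.neg k j = false then 1 else 0 := by
    rw [HD.mat, if_pos rfl]
  rw [hmat]
  split_ifs with hneg
  · -- no negative ray
    refine TypN.congr TypN.ga (fn_of_segment continuous_ga.continuousOn (cont_nuc k)
      (fun u hu => ?_) (fun u hu => nuc_wall k hu) fun u hu t ht h => ?_)
    · rw [ga, hu, ec_eq]
      norm_num
    have hs := sB_ne D hu
    have hnn : D.nrm k (sB D u) = D.nz (sB D u) := by
      ext j
      exact nrm_eq_nz' D (hneg j)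
    have hA := norm_pos_iff.2 (nA_ne (D := D) (k := k) hs)
    have hn1 := norm_nuc (D := D) k hu
    rcases ht.2.eq_or_lt with h1 | h1
    · rw [h1, sub_self, zero_smul, one_smul, zero_add] at h
      rw [h, norm_zero] at hn1
      exact zero_ne_one hn1
    rcases hu.eq_or_lt with h2 | h2
    · rw [nuc_wall k h2, ga, h2] at h
      have : ⟪ec (n + 2), (1 - t) • pt (-(4 * (1 - (1 : ℝ))) • u) (2 * 1 - 1) + t • ec (n + 2)⟫ = 0 := by
        rw [h, inner_zero_right]
      rw [inner_add_right, inner_smul_right, inner_smul_right, inner_ec_pt, ec_eq, inner_pt] at this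
      simp at this
      linarith
    by_cases h3 : u = 0
    · have h4 := congrArg (fun v => ⟪ec (n + 2), v⟫) h
      simp only [inner_add_right, inner_smul_right, inner_zero_right, ga, inner_ec_pt] at h4
      rw [HD.nuc, sb_eq D hu, inner_neg_right, inner_smul_right, inner_ec_L, inner_u1_nA, hnn, h3,
        sB_zero, norm_zero] at h4
      have h5 : 0 < ⟪u1 n, D.nz (u1 n)⟫ := by
        rw [inner_def]
        refine Finset.sum_pos (fun j _ => ?_) Finset.univ_nonempty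
        have h6 : (u1 n) j = 1 / √(n + 3 : ℝ) := rfl
        have h7 : D.nz (u1 n) j = D.Yp ((u1 n) j / ‖u1 n‖) := rfl
        rw [h7, norm_u1, div_one, h6]
        have h8 : 0 < 1 / √(n + 3 : ℝ) := one_div_pos.2 (sqrt_pos n)
        refine mul_pos h8 (D.Ypp _ ?_)
        rw [lt_div_iff₀ (sqrt_pos n)]
        have h9 : (D.d * √(n + 3 : ℝ)) ^ 2 < 1 ^ 2 := by
          rw [mul_pow, Real.sq_sqrt (by positivity), one_pow]
          exact D.hdN
        exact lt_of_pow_lt_pow_left₀ 2 zero_le_one h9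
      have hA' := norm_pos_iff.2 (nA_ne (D := D) (k := k) (s := u1 n) (by
        rw [← norm_ne_zero_iff, norm_u1]; exact one_ne_zero))
      have h10 : 0 ≤ t * (1 / ‖D.nA k (u1 n)‖ * ⟪u1 n, D.nz (u1 n)⟫) := by
        have := ht.1
        positivity
      linarith
    · have h4 : ⟪L n (hor (sB D u)), (1 - t) • ga u + t • D.nuc k u⟫ = 0 := by
        rw [h, inner_zero_right]
      have h5 : ⟪L n (hor (sB D u)), D.nuc k u⟫ =
          -(1 / ‖D.nA k (sB D u)‖ * ((1 - D.ka (sB D u)) * ⟪hor (sB D u), D.nz (sB D u)⟫)) := by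
        rw [HD.nuc, sb_eq D hu, inner_neg_right, inner_smul_right, inner_L, HD.nA, hnn,
          inner_add_right, inner_smul_right, inner_smul_right,
          real_inner_comm (u1 n) (hor (sB D u)), inner_u1_hor, mul_zero, add_zero]
        rw [inner_hor_hor]
      rw [inner_add_right, inner_smul_right, inner_smul_right, h5, L_hor_sB, ga, inner_pt,
        zero_mul, add_zero] at h4
      have h6 : ∑ i, u i * (-(4 * (1 - ‖u‖)) • u) i = -(4 * (1 - ‖u‖)) * ∑ i, u i * u i := by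
        rw [Finset.mul_sum]
        refine Finset.sum_congr rfl fun i _ => ?_
        simp only [Pi.smul_apply, smul_eq_mul]
        ring
      rw [h6] at h4
      have h7 := sum_sq_pos h3
      have h8 := cheb D (sB D u)
      have h9 : 0 ≤ 1 - D.ka (sB D u) := by linarith [D.ka1 (sB D u)]
      have h10 : 0 < 1 - t := by linarith
      have h11 : 0 < 1 - ‖u‖ := by linarith
      have h12 : 0 < (1 - t) * (4 * (1 - ‖u‖) * ∑ i, u i * u i) := by positivity
      have h13 : 0 ≤ t * (1 / ‖D.nA k (sB D u)‖ * ((1 - D.ka (sB D u)) *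
          ⟪hor (sB D u), D.nz (sB D u)⟫)) := by
        have := ht.1
        positivity
      linarith
  · -- a negative ray
    push Not at hneg
    obtain ⟨j0, hj0⟩ := hneg
    have hj : D.neg k j0 = true := by
      cases h : D.neg k j0
      · exact absurd h hj0
      · rfl
    refine TypN.congr TypN.zero (fn_of_segment continuousOn_const (cont_nuc k)
      (fun u hu => rfl) (fun u hu => nuc_wall k hu) fun u hu t ht h => ?_)
    have hs := sB_ne D hu
    have hA := norm_pos_iff.2 (nA_ne (D := D) (k := k) hs)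
    have hn1 := norm_nuc (D := D) k hu
    have h1 : (1 - t) • u1 n - (t * (1 / ‖D.nA k (sB D u)‖)) • D.nA k (sB D u) = 0 := by
      have h2 := congrArg (L n) h
      rw [map_add, map_smul, map_smul, L_ec, HD.nuc, sb_eq D hu, map_neg, map_smul, L_L,
        map_zero, smul_neg, smul_smul, ← sub_eq_add_neg] at h2
      exact h2
    have ht1 : t ≠ 1 := by
      intro h2
      rw [h2, sub_self, zero_smul, one_smul, zero_add] at h
      rw [h, norm_zero] at hn1
      exact zero_ne_one hn1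
    have ht2 : 0 < 1 - t := by
      have := lt_of_le_of_ne ht.2 ht1
      linarith
    by_cases hka : D.ka (sB D u) = 0
    · have h2 : (1 - t) * (u1 n) j0 - (t * (1 / ‖D.nA k (sB D u)‖)) * D.nA k (sB D u) j0 = 0 :=
        congrArg (fun w : W n => w j0) h1
      rw [nA_ka0 hka] at h2 hA
      have h3 := nrm_neg_ray D hj (sB D u)
      have h6 : (u1 n) j0 = 1 / √(n + 3 : ℝ) := rfl
      have h8 : 0 < 1 / √(n + 3 : ℝ) := one_div_pos.2 (sqrt_pos n)
      rw [h6] at h2
      have h9 : 0 ≤ t * (1 / ‖D.nrm k (sB D u)‖) := by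
        have := ht.1
        positivity
      have h10 := mul_pos ht2 h8
      have h11 := mul_nonneg h9 (neg_nonneg.2 h3)
      linarith
    · have h2 := congrArg (fun w => ⟪u1 n, w⟫) h1
      simp only [inner_sub_right, inner_smul_right, inner_u1_self, inner_zero_right,
        inner_u1_nA] at h2
      have h3 := u1_nrm_neg (k := k) hs hka
      have h9 : 0 ≤ t * (1 / ‖D.nA k (sB D u)‖) := by
        have := ht.1
        positivity
      have h11 := mul_nonneg h9 (neg_nonneg.2 h3.le)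
      linarith

/-- **HASMAT**: the matrix of a homogeneous graph system. -/
theorem hasMat (D : HD n m) (G : Sys (Bc (n + 2)) (ec (n + 2)) m)
    (hx : ∀ k u, ‖u‖ ≤ 1 → G.x k u = D.core k u)
    (hn : ∀ k u, ‖u‖ ≤ 1 → G.nu k u = D.nuc k u) : HasMat G D.mat := by
  refine ⟨fun k l hlk => ?_, fun k => ?_⟩
  · refine Typ.congr (typ_core hlk.ne') (FH.congr (fh_refl ?_ ?_ ?_) (fun _ _ => rfl)
      fun u hu => ?_)
    · exact cont_T D (cont_df D k l)
    · intro u hu
      rw [← core_sub k l hu, sub_ne_zero]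
      exact core_ne hlk.ne' hu
    · exact fun u hu => hor_T D hu (wall_df D hu k l)
    · rw [hx k u hu, hx l u hu, core_sub k l hu]
  · refine TypN.congr (typN_nuc k) (FN.congr (fn_refl (cont_nuc k) ?_ ?_) (fun _ _ => rfl)
      fun u hu => (hn k u hu).symm)
    · intro u hu h
      have := norm_nuc (D := D) k hu
      rw [h, norm_zero] at this
      exact zero_ne_one this
    · exact fun u hu => nuc_wall k hu


end D

end Crest.Agent.R267.HasMat_652
end

-- ▼ part R267/EndI_864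

/-!
# Row 267, T3-end: choice of the constants

`exists_par` : parameters for given letters and `d`; `final` : facts + flow-line output give a graph
system with the matrix of the letters whose link is `{G = 0}`.
-/

set_option autoImplicit false

namespace Crest.Agent.R267.EndI_864

open Set Metric Filter Topology
open scoped RealInnerProductSpace
open Crest.Agent.R267.GS_808 Crest.Agent.R267.EndDef_864 Crest.Agent.R267.EndBas_864
  Crest.Agent.R267.EndSys_864 Crest.Agent.R267.EndG_864 Crest.Agent.R267.EndH_864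
  Crest.Agent.R267.TopAsm_808 Crest.Agent.R267.DraftB_808 Crest.Agent.R267.Cone_808

variable {n m : ℕ}

/-- **parameters**. -/
theorem exists_par (L : LS n m) {Vm : ℝ} (hVm : ∀ k, ‖vec (n := n) (L.V k)‖ ≤ Vm)
    (hgap : ∀ k l j, L.sg k j ≠ L.sg l j → 1 ≤ |L.sg k j - L.sg l j|) {d η : ℝ} (hd : 0 < d)
    (hdN : d ^ 2 * (n + 3) < 1) (hη : 0 < η) :
    ∃ Q : Par n, Q.d = d ∧ Q.e = d / 2 ∧ Q.ep ≤ η ∧ ∀ k l j, L.sg k j ≠ L.sg l j →
      Q.ep * (‖vec (n := n) (L.V k)‖ + ‖vec (n := n) (L.V l)‖) < Q.d * |L.sg k j - L.sg l j| := by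
  have hV0 : 0 ≤ |Vm| := abs_nonneg _
  have h1 : 0 < min η (d / (2 * |Vm| + 1)) := lt_min hη (by positivity)
  refine ⟨⟨d, d / 2, 1 / (8 * (n + 3)), min η (d / (2 * |Vm| + 1)), hd, hdN, by positivity,
    by linarith, by positivity, ?_, h1⟩, rfl, rfl, min_le_left _ _, ?_⟩
  · rw [one_div, inv_mul_cancel₀ (by positivity)]
  · intro k l j hj
    show min η (d / (2 * |Vm| + 1)) * _ < d * _
    have h2 := hgap k l j hj
    have h3 : ‖vec (n := n) (L.V k)‖ + ‖vec (n := n) (L.V l)‖ ≤ 2 * |Vm| := by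
      have := hVm k
      have := hVm l
      have := le_abs_self Vm
      linarith
    calc min η (d / (2 * |Vm| + 1)) * (‖vec (n := n) (L.V k)‖ + ‖vec (n := n) (L.V l)‖)
        ≤ d / (2 * |Vm| + 1) * (2 * |Vm|) :=
          mul_le_mul (min_le_right _ _) h3 (by positivity) (by positivity)
      _ < d := by
          rw [div_mul_eq_mul_div, div_lt_iff₀ (by positivity)]
          nlinarith
      _ ≤ d * |L.sg k j - L.sg l j| := le_mul_of_one_le_right hd.le h2

/-- **facts and flow-line output give the graph link**. -/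
theorem final (L : LS n m) (Q : Par n) (hsm : ∀ k l j, L.sg k j ≠ L.sg l j →
    Q.ep * (‖vec (n := n) (L.V k)‖ + ‖vec (n := n) (L.V l)‖) < Q.d * |L.sg k j - L.sg l j|)
    {G : (Fin (n + 3) → ℂ) → ℂ} {r2 κ1 κ2 Sg Vm : ℝ} (F : Facts G (hd L Q hsm) r2 κ1)
    (hr2 : 0 < r2) (hκ1 : (1 + √(n + 3 : ℝ)) * (Q.ep * Vm) < κ1) (hκ2 : Sg + Q.ep * Vm < κ2)
    (hκ21 : 1 ≤ κ2) (hSg : ∀ k j, |L.sg k j| ≤ Sg) (hVm : ∀ k, ‖vec (n := n) (L.V k)‖ ≤ Vm)
    (hSg0 : 0 ≤ Sg) (hVm0 : 0 ≤ Vm)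
    (hFL : ∃ r0 : ℝ, 0 < r0 ∧ ∀ r, 0 < r → r < r0 → ∃ ε : ℝ, 0 < ε ∧
      FLOut G (hd L Q hsm) Q.e κ2 ε r) :
    ∃ S : S n m, HasMat S (hd L Q hsm).mat ∧ IsLink {z : Sph (Fin (n + 3)) | G z = 0} S := by
  have hN := sqrt_pos n
  obtain ⟨r0, hr0, hfl⟩ := hFL
  obtain ⟨r1, hr1, hsep⟩ := exists_sep (hd L Q hsm)
  obtain ⟨R0, hbd⟩ := exists_bd (hd L Q hsm)
  have hN1 : 0 < 1 + √(n + 3 : ℝ) := by positivity
  have hk1 : 0 < κ1 / (1 + √(n + 3 : ℝ)) - Q.ep * Vm := by
    rw [sub_pos, lt_div_iff₀ hN1]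
    linarith
  obtain ⟨r, h0, h1⟩ : ∃ r : ℝ, 0 < r ∧ r < min (min r0 (r1 / 2)) (min (r2 / (1 + √(n + 3 : ℝ)))
      (min (κ1 / (1 + √(n + 3 : ℝ)) - Q.ep * Vm) (κ2 - (Sg + Q.ep * Vm)))) := by
    refine exists_between (lt_min (lt_min hr0 (by positivity)) (lt_min (by positivity)
      (lt_min hk1 (by linarith))))
  simp only [lt_min_iff] at h1
  obtain ⟨⟨h2, h3⟩, h4, h5, h6⟩ := h1
  rw [lt_div_iff₀ hN1] at h4
  have h5' : r + Q.ep * Vm < κ1 / (1 + √(n + 3 : ℝ)) := by linarith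
  rw [lt_div_iff₀ hN1] at h5'
  obtain ⟨ε, hε, hF⟩ := hfl r h0 h2
  have hsep' : ∀ k l b, k ≠ l → 2 * r < ‖(hd L Q hsm).core k b - (hd L Q hsm).core l b‖ :=
    fun k l b h => lt_of_lt_of_le (by linarith) (hsep k l b h)
  have hbd' : ∀ k b, ‖(hd L Q hsm).core k b‖ + r < max (R0 + r + 1) 1 :=
    fun k b => lt_max_of_lt_left (by linarith [hbd k b])
  refine ⟨_, ?_, isLink_of_fl L Q hsm F h0 (by linarith) hε hSg hVm hSg0 hVm0 (by linarith) hκ21
    (by linarith) hsep' hbd' (lt_max_of_lt_right one_pos) hF⟩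
  exact HasMat_652.hasMat (hd L Q hsm) _ (fun _ _ _ => rfl) (fun _ _ _ => rfl)

end Crest.Agent.R267.EndI_864
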