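import Crest.Agent.R267.HmC2_957

/-!
# Row 267, T3aN: the signed function `G` is `C²` off `0`
-/

set_option autoImplicit false

noncomputable section

namespace Crest.Agent.R267.SmoothN_957

open Finset Calc_957 Calc2_957 Smooth_957 HmC2_957 T3aNDefs_88
open Calc3_957 (rej imj AA_add_BB_ne AA_nonneg BB_nonneg NN_pos re_pos_nhds pg_le_norm
  hasFDerivAt_NN)
open T3aDefs_957 (st Af Bf pg NN chi)

/-! ### one variable -/

theorem contDiff_ww : ContDiff ℝ 2 ww := by
  unfold ww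
  exact (contDiff_const.sub (contDiff_st.comp (contDiff_neg.sub contDiff_const))).sub
    (contDiff_st.comp (contDiff_id.sub contDiff_const))

theorem contDiff_yc (e : ℝ) : ContDiff ℝ 2 (yc e) := by
  unfold yc
  exact (((contDiff_const.mul contDiff_Bf).mul contDiff_ww).sub
    ((contDiff_id.add contDiff_const).mul
      (contDiff_st.comp (contDiff_neg.sub contDiff_const)))).sub
    ((contDiff_id.sub contDiff_const).mul (contDiff_st.comp (contDiff_id.sub contDiff_const)))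

theorem contDiff_FlN (e : ℕ → ℝ) (M : ℕ) : ContDiff ℝ 2 (FlN e M) := by
  unfold FlN
  refine ContDiff.add (ContDiff.sum fun l _ => ?_) (contDiff_const.mul ?_)
  · exact Complex.ofRealCLM.contDiff.comp
      (contDiff_const.add (contDiff_Af.comp (contDiff_id.sub contDiff_const)))
  · refine Complex.ofRealCLM.contDiff.comp (ContDiff.sub (ContDiff.sum fun l _ => ?_) ?_)
    · exact (contDiff_const.add (contDiff_id.sub contDiff_const)).add
        ((contDiff_yc (e l)).comp (contDiff_id.sub contDiff_const))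
    · exact contDiff_const.mul (contDiff_st.comp (contDiff_id.sub contDiff_const))

theorem contDiff_pvN (ga : ℝ) (e : ℕ → ℝ) (M : ℕ) : ContDiff ℝ 2 (pvN ga e M) := by
  unfold pvN
  exact (contDiff_const.sub (contDiff_const.mul Complex.ofRealCLM.contDiff)).add
    (contDiff_FlN e M)

theorem cellN_low {e v : ℝ} (h : v ≤ -7) : 1 + Af v = 0 ∧ 8 + v + yc e v = 0 := by
  refine ⟨?_, ?_⟩
  · rw [Af_of_ge (by rw [abs_of_nonpos (by linarith)]; linarith)]; ring
  · unfold yc ww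
    rw [st_of_ge (by linarith : 1 ≤ -v - 6), st_of_le (by linarith : v - 6 ≤ 0)]
    ring

theorem cellN_high {e v : ℝ} (h : 7 ≤ v) : 1 + Af v = 0 ∧ 8 + v + yc e v = 16 := by
  refine ⟨?_, ?_⟩
  · rw [Af_of_ge (by rw [abs_of_nonneg (by linarith)]; linarith)]; ring
  · unfold yc ww
    rw [st_of_le (by linarith : -v - 6 ≤ 0), st_of_ge (by linarith : 1 ≤ v - 6)]
    ring

theorem FlN_low {e : ℕ → ℝ} {M : ℕ} {τ : ℝ} (h : τ ≤ 1) : FlN e M τ = 0 := by
  have h1 : ∀ i : ℕ, τ - sgN i ≤ -7 := fun i => by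
    unfold sgN
    have : (0 : ℝ) ≤ i := i.cast_nonneg
    linarith
  unfold FlN
  have h2 : ∑ l ∈ range M, ((1 + Af (τ - sgN l) : ℝ) : ℂ) = 0 :=
    sum_eq_zero fun i _ => by rw [(cellN_low (e := 0) (h1 i)).1, Complex.ofReal_zero]
  have h3 : ∑ l ∈ range M, (8 + (τ - sgN l) + yc (e l) (τ - sgN l)) = 0 :=
    sum_eq_zero fun i _ => (cellN_low (h1 i)).2
  have h4 : 16 * (M : ℝ) * st (τ - 16 * M) = 0 := by
    rcases Nat.eq_zero_or_pos M with h0 | h0
    · rw [h0]; simp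
    · have : (1 : ℝ) ≤ M := by exact_mod_cast h0
      rw [st_of_le (by linarith), mul_zero]
  rw [h2, h3, h4]
  simp

theorem FlN_high {e : ℕ → ℝ} {M : ℕ} {τ : ℝ} (h : 16 * M + 1 ≤ τ) : FlN e M τ = 0 := by
  have h1 : ∀ i ∈ range M, 7 ≤ τ - sgN i := fun i hi => by
    have : (i : ℝ) + 1 ≤ M := by exact_mod_cast mem_range.1 hi
    unfold sgN
    linarith
  unfold FlN
  have h2 : ∑ l ∈ range M, ((1 + Af (τ - sgN l) : ℝ) : ℂ) = 0 :=
    sum_eq_zero fun i hi => by rw [(cellN_high (e := 0) (h1 i hi)).1, Complex.ofReal_zero]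
  have h3 : ∑ l ∈ range M, (8 + (τ - sgN l) + yc (e l) (τ - sgN l)) = 16 * M := by
    rw [sum_congr rfl fun i hi => (cellN_high (e := e i) (h1 i hi)).2, sum_const, card_range,
      nsmul_eq_mul]
    ring
  rw [h2, h3, st_of_ge (by linarith : 1 ≤ τ - 16 * M)]
  simp

theorem plN_of_pos {ga : ℝ} {e : ℕ → ℝ} {M : ℕ} {z : ℂ} (h : 0 < z.re) :
    plN ga e M z = (z.re : ℂ) * pvN ga e M (z.im / z.re) := by
  unfold plN pvN
  rw [if_pos h]
  have h1 : (z.im : ℂ) = (z.re : ℂ) * ((z.im / z.re : ℝ) : ℂ) := by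
    rw [← Complex.ofReal_mul]
    congr 1
    field_simp
  rw [h1]
  push_cast
  ring

theorem plN_of_nonpos {ga : ℝ} {e : ℕ → ℝ} {M : ℕ} {z : ℂ} (h : z.re ≤ 0) :
    plN ga e M z = -((2 - ga : ℝ) : ℂ) * z.re - Complex.I * z.im := by
  unfold plN
  rw [if_neg (not_lt.2 h), add_zero]

/-- steep: `P` is linear. -/
theorem plN_of_far {ga : ℝ} {e : ℕ → ℝ} {M : ℕ} {z : ℂ}
    (h : (16 * M + 1) * z.re ≤ |z.im| ∨ z.im ≤ z.re) :
    plN ga e M z = -((2 - ga : ℝ) : ℂ) * z.re - Complex.I * z.im := by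
  rcases le_or_gt z.re 0 with h0 | h0
  · exact plN_of_nonpos h0
  · unfold plN
    rw [if_pos h0]
    have hM : (0 : ℝ) ≤ M := Nat.cast_nonneg _
    have key : FlN e M (z.im / z.re) = 0 := by
      rcases h with h | h
      · rcases le_total 0 z.im with h1 | h1
        · rw [abs_of_nonneg h1] at h
          exact FlN_high (by rwa [le_div_iff₀ h0])
        · refine FlN_low ?_
          rw [div_le_iff₀ h0]
          linarith
      · refine FlN_low ?_
        rw [div_le_iff₀ h0]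
        linarith
    rw [key, mul_zero, add_zero]

theorem farN_nhds {M : ℕ} {z : ℂ} (h0 : z.re ≤ 0) (hz : z ≠ 0) :
    ∀ᶠ w in nhds z, (16 * (M : ℝ) + 1) * w.re ≤ |w.im| := by
  have h := far_nhds (M := 2 * M) h0 hz
  filter_upwards [h] with w hw
  push_cast at hw
  have e : 8 * (2 * (M : ℝ)) + 1 = 16 * M + 1 := by ring
  rwa [e] at hw

theorem contDiffAt_plN (ga : ℝ) (e : ℕ → ℝ) (M : ℕ) {z : ℂ} (hz : z ≠ 0) :
    ContDiffAt ℝ 2 (plN ga e M) z := by
  have hre : ContDiffAt ℝ 2 (fun w : ℂ => w.re) z := Complex.reCLM.contDiff.contDiffAt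
  have him : ContDiffAt ℝ 2 (fun w : ℂ => w.im) z := Complex.imCLM.contDiff.contDiffAt
  have hreC : ContDiffAt ℝ 2 (fun w : ℂ => (w.re : ℂ)) z :=
    Complex.ofRealCLM.contDiff.contDiffAt.comp z hre
  have himC : ContDiffAt ℝ 2 (fun w : ℂ => (w.im : ℂ)) z :=
    Complex.ofRealCLM.contDiff.contDiffAt.comp z him
  rcases le_or_gt z.re 0 with h0 | h0
  · have h1 : plN ga e M =ᶠ[nhds z] fun w : ℂ => -((2 - ga : ℝ) : ℂ) * (w.re : ℂ) -
        Complex.I * (w.im : ℂ) := by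
      filter_upwards [farN_nhds h0 hz] with w hw
      exact plN_of_far (Or.inl hw)
    exact ((contDiffAt_const.mul hreC).sub (contDiffAt_const.mul himC)).congr_of_eventuallyEq h1
  · have h1 : plN ga e M =ᶠ[nhds z] fun w : ℂ => (w.re : ℂ) * pvN ga e M (w.im / w.re) := by
      have : ∀ᶠ w : ℂ in nhds z, 0 < w.re :=
        Complex.continuous_re.continuousAt.eventually (lt_mem_nhds h0)
      filter_upwards [this] with w hw
      exact plN_of_pos hw
    refine ContDiffAt.congr_of_eventuallyEq ?_ h1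
    exact hreC.mul (ContDiffAt.comp z (g := pvN ga e M) (contDiff_pvN ga e M).contDiffAt
      (him.div hre h0.ne'))

/-! ### windows -/

theorem contDiff_winN (m m' : ℕ) : ContDiff ℝ 2 (winN m m') := by
  unfold winN
  exact (contDiff_st.comp ((contDiff_id.sub contDiff_const).div_const 2)).mul
    (contDiff_const.sub (contDiff_st.comp ((contDiff_id.sub contDiff_const).div_const 2)))

theorem winN_low {m m' : ℕ} {τ : ℝ} (h : τ ≤ 16 * m - 1) : winN m m' τ = 0 := by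
  unfold winN
  rw [st_of_le (by linarith : (τ - (16 * m - 1)) / 2 ≤ 0), zero_mul]

theorem winN_high {m m' : ℕ} {τ : ℝ} (h : 16 * m' + 1 ≤ τ) : winN m m' τ = 0 := by
  unfold winN
  rw [st_of_ge (by linarith : 1 ≤ (τ - (16 * m' - 1)) / 2), sub_self, mul_zero]

/-- steep variables are outside of all windows. -/
theorem winN_far {m m' M : ℕ} (hm : m' ≤ M) {w : ℂ} (h0 : 0 < w.re)
    (h : (16 * (M : ℝ) + 1) * w.re ≤ |w.im|) : winN m m' (w.im / w.re) = 0 := by
  have hM : (0 : ℝ) ≤ M := Nat.cast_nonneg _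
  have hm0 : (0 : ℝ) ≤ m := Nat.cast_nonneg _
  have hmM : (m' : ℝ) ≤ M := by exact_mod_cast hm
  rcases le_total 0 w.im with h1 | h1
  · rw [abs_of_nonneg h1] at h
    have h2 : 16 * (M : ℝ) + 1 ≤ w.im / w.re := by rwa [le_div_iff₀ h0]
    exact winN_high (by linarith)
  · rw [abs_of_nonpos h1] at h
    refine winN_low ?_
    rw [div_le_iff₀ h0]
    nlinarith

/-! ### the function -/

variable {N : ℕ} (D : SD N)

theorem contDiffAt_xr {z : Fin N → ℂ} (hz : z ≠ 0) {j : Fin N} (hj : z j ≠ 0) :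
    ContDiffAt ℝ 2 (fun w => D.xr w j) z :=
  (ContDiffAt.comp z (g := pg D.K) (contDiffAt_pg D.K hj) (Smooth_957.contDiffAt_coord z j)).div
    (contDiffAt_NN D.K1 hz) (NN_pos hz).ne'


theorem xr_nhds {z : Fin N → ℂ} (hz : z ≠ 0) {j : Fin N} (hj : z j = 0) {d : ℝ} (hd : 0 < d) :
    ∀ᶠ w in nhds z, D.xr w j < d := by
  have h1 : ContinuousAt (fun w : Fin N → ℂ => ‖w j‖ - d * NN D.K1 w) z := by
    refine ContinuousAt.sub ?_ (ContinuousAt.mul continuousAt_const
      (hasFDerivAt_NN D.K1 hz).continuousAt)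
    exact (continuous_apply j).norm.continuousAt
  have h2 : ‖z j‖ - d * NN D.K1 z < 0 := by
    rw [hj, norm_zero, zero_sub, neg_lt_zero]
    exact mul_pos hd (NN_pos hz)
  have h3 : ∀ᶠ w : Fin N → ℂ in nhds z, 0 < NN D.K1 w :=
    (hasFDerivAt_NN D.K1 hz).continuousAt.eventually (lt_mem_nhds (NN_pos hz))
  filter_upwards [h1.eventually (gt_mem_nhds h2), h3] with w hw hw3
  unfold SD.xr
  rw [div_lt_iff₀ hw3]
  have := pg_le_norm D.K (w j)
  linarith

theorem ch_zero_nhds {d : ℝ} (hd : 0 < d) {z : Fin N → ℂ} (hz : z ≠ 0) {j : Fin N}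
    (hj : z j = 0) : ∀ᶠ w in nhds z, D.ch d w j = 0 := by
  filter_upwards [xr_nhds D hz hj hd] with w hw
  exact Calc3_957.chi_of_le hd hw.le

theorem contDiffAt_ch {d : ℝ} (hd : 0 < d) {z : Fin N → ℂ} (hz : z ≠ 0) (j : Fin N) :
    ContDiffAt ℝ 2 (fun w => D.ch d w j) z := by
  by_cases hj : z j = 0
  · exact (contDiffAt_const (c := (0 : ℝ))).congr_of_eventuallyEq (ch_zero_nhds D hd hz hj)
  · exact ContDiffAt.comp z (g := st) contDiff_st.contDiffAt
      (((contDiffAt_xr D hz hj).sub contDiffAt_const).div_const d)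

theorem contDiffAt_T (ga : ℝ) {d : ℝ} (hd : 0 < d) {z : Fin N → ℂ} (hz : z ≠ 0) (j : Fin N) :
    ContDiffAt ℝ 2 (fun w => (D.ch d w j : ℂ) * plN ga (D.sn j) (D.M j) (w j)) z := by
  by_cases hj : z j = 0
  · refine (contDiffAt_const (c := (0 : ℂ))).congr_of_eventuallyEq ?_
    filter_upwards [ch_zero_nhds D hd hz hj] with w hw
    rw [hw]
    simp
  · exact (Complex.ofRealCLM.contDiff.contDiffAt.comp z (contDiffAt_ch D hd hz j)).mul
      (ContDiffAt.comp z (g := plN ga (D.sn j) (D.M j)) (contDiffAt_plN ga (D.sn j) (D.M j) hj)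
        (Smooth_957.contDiffAt_coord z j))

theorem cubeAt_R {d : ℝ} {z : Fin N → ℂ} (hz : z ≠ 0) {j : Fin N}
    (hj : 0 < (z j).re) : CubeAt (fun w => D.R d w j) z := by
  have hj0 : z j ≠ 0 := fun h => by rw [h] at hj; simp at hj
  obtain ⟨q, hq, he⟩ := cubeAt_st (((contDiffAt_xr D hz hj0).sub contDiffAt_const).div_const d)
    (contDiffAt_re z j) hj
  refine ⟨q, hq, ?_⟩
  filter_upwards [he, re_pos_nhds hj] with w hw hw'
  rw [← hw]
  unfold SD.R
  rw [max_eq_right hw'.le]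
  rfl

theorem Be_nhds {d : ℝ} (hd : 0 < d) {z : Fin N → ℂ} (hz : z ≠ 0) {e : Fin D.nb} {j : Fin N}
    (hj : j ∈ (D.bx e).S) (h0 : (z j).re ≤ 0) : ∀ᶠ w in nhds z, D.Be d e w = 0 := by
  by_cases h : z j = 0
  · filter_upwards [ch_zero_nhds D hd hz h] with w hw
    unfold SD.Be
    rw [Hm_of_nonpos hj (by unfold SD.R; rw [hw, zero_mul]), zero_mul]
  · have h1 : ∀ᶠ w : Fin N → ℂ in nhds z, (16 * (D.M j : ℝ) + 1) * (w j).re ≤ |(w j).im| :=
      (continuous_apply j).continuousAt.eventually (farN_nhds h0 h)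
    filter_upwards [h1] with w hw
    unfold SD.Be
    rcases le_or_gt (w j).re 0 with h2 | h2
    · rw [Hm_of_nonpos hj (by unfold SD.R; rw [max_eq_left h2, mul_zero]), zero_mul]
    · rw [prod_eq_zero hj (winN_far (D.hhi e j hj) h2 hw), mul_zero]

theorem contDiffAt_Be {d : ℝ} (hd : 0 < d) {z : Fin N → ℂ} (hz : z ≠ 0) (e : Fin D.nb) :
    ContDiffAt ℝ 2 (D.Be d e) z := by
  by_cases h : ∀ j ∈ (D.bx e).S, 0 < (z j).re
  · have a1 : ContDiffAt ℝ 2 (fun w => Hm (D.bx e).S (D.R d w)) z :=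
      contDiffAt_Hm fun j hj => cubeAt_R D hz (h j hj)
    have a2 : ContDiffAt ℝ 2 (fun w : Fin N → ℂ => ∏ j ∈ (D.bx e).S,
        winN ((D.bx e).lo j) ((D.bx e).hi j) ((w j).im / (w j).re)) z :=
      contDiffAt_prod fun j hj => ContDiffAt.comp z (g := winN ((D.bx e).lo j) ((D.bx e).hi j))
        (contDiff_winN _ _).contDiffAt ((contDiffAt_im z j).div (contDiffAt_re z j) (h j hj).ne')
    exact a1.mul a2
  · simp only [not_forall, not_lt] at h
    obtain ⟨j, hj, hj0⟩ := h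
    exact (contDiffAt_const (c := (0 : ℝ))).congr_of_eventuallyEq (Be_nhds D hd hz hj hj0)

theorem contDiffAt_G (cB ga : ℝ) {d : ℝ} (hd : 0 < d) {z : Fin N → ℂ} (hz : z ≠ 0) :
    ContDiffAt ℝ 2 (D.G cB ga d) z := by
  have a1 : ContDiffAt ℝ 2 (fun w : Fin N → ℂ =>
      ∑ j, (D.ch d w j : ℂ) * plN ga (D.sn j) (D.M j) (w j)) z :=
    ContDiffAt.sum fun j _ => contDiffAt_T D ga hd hz j
  have a2 : ContDiffAt ℝ 2 (fun w : Fin N → ℂ => cB * ga * ∑ e, D.Be d e w) z :=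
    contDiffAt_const.mul (ContDiffAt.sum fun e _ => contDiffAt_Be D hd hz e)
  exact a1.sub (Complex.ofRealCLM.contDiff.contDiffAt.comp z a2)

theorem contDiffOn_G (cB ga : ℝ) {d : ℝ} (hd : 0 < d) :
    ContDiffOn ℝ 2 (D.G cB ga d) {0}ᶜ := fun _ hz =>
  (contDiffAt_G D cB ga hd hz).contDiffWithinAt

/-- **smoothness** (for every choice of the parameters). -/
theorem smoothN : D.Smooth :=
  ⟨1, one_pos, fun c _ => ⟨1, one_pos, fun g _ _ => ⟨1, one_pos, fun _ hd _ =>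
    contDiffOn_G D c g hd⟩⟩⟩

end Crest.Agent.R267.SmoothN_957
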