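import Crest.Agent.R267.T3aNBas_277
import Crest.Agent.R267.EndG_864
import Crest.Agent.R267.T3aNDefs_88
import Crest.Agent.R267.EndH_864
import Crest.Agent.R267.CalcN_88
import Crest.Agent.R267.SmoothN_957
import Crest.Agent.R267.EndI_864

-- ▼ part R267/EndN1_277
section

/-!
# Row 267, T3aN end instance (helper277), part 1: the gauges

* `exists_large` : some relative size is at least `cl N K > 0`;
* `phi_strictMono` : `∑ χ_j t_j` is strictly increasing in the direction `(1, …, 1)` (`LD`);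
* `cmp D` : the unsigned data with the same gauges as the signed data `D : SD N`.
-/

set_option autoImplicit false

noncomputable section

namespace Crest.Agent.R267.EndN1_277

open Finset
open Crest.Agent.R267.T3aDefs_957 Crest.Agent.R267.Calc_957 Crest.Agent.R267.Calc2_957
  Crest.Agent.R267.Calc3_957

variable {N : ℕ}

/-! ### sizes -/

/-- lower bound of the largest relative size. -/
def cl (N : ℕ) (K : ℝ) : ℝ := √(1 / ((N : ℝ) * (96 * K ^ 2 + 98)))

theorem cl_pos {N : ℕ} (hN : 0 < N) (K : ℝ) : 0 < cl N K := by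
  unfold cl
  have : (0 : ℝ) < N := by exact_mod_cast hN
  refine Real.sqrt_pos.2 ?_
  positivity

theorem exists_large (K K1 : ℝ) {z : Fin N → ℂ} (hz : z ≠ 0) :
    ∃ j, cl N K ≤ pg K (z j) / NN K1 z := by
  by_contra hcon
  push Not at hcon
  have hN0 : 0 < N := by
    rcases Nat.eq_zero_or_pos N with h | h
    · subst h
      exact absurd (Subsingleton.elim z 0) hz
    · exact h
  have hN : (0 : ℝ) < N := by exact_mod_cast hN0
  have hNN : 0 < NN K1 z := NN_pos hz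
  have hq : (0 : ℝ) < 96 * K ^ 2 + 98 := by positivity
  have h1 : ∀ j, (z j).re ^ 2 + (z j).im ^ 2 ≤
      (96 * K ^ 2 + 97) * (1 / ((N : ℝ) * (96 * K ^ 2 + 98))) * NN K1 z ^ 2 := by
    intro j
    refine (T3aNBas_277.pg_sq_ge K (z j)).trans ?_
    have h2 : pg K (z j) = (pg K (z j) / NN K1 z) * NN K1 z := by
      rw [div_mul_cancel₀ _ hNN.ne']
    have h3 : 0 ≤ pg K (z j) / NN K1 z := div_nonneg (pg_nonneg _ _) hNN.le
    have h4 : (pg K (z j) / NN K1 z) ^ 2 ≤ 1 / ((N : ℝ) * (96 * K ^ 2 + 98)) := by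
      have h5 : (pg K (z j) / NN K1 z) ^ 2 ≤ (cl N K) ^ 2 := pow_le_pow_left₀ h3 (hcon j).le 2
      rwa [cl, Real.sq_sqrt (by positivity)] at h5
    rw [h2, mul_pow, mul_assoc]
    refine mul_le_mul_of_nonneg_left ?_ (by positivity)
    exact mul_le_mul_of_nonneg_right h4 (by positivity)
  have h2 := T3aNBas_277.NN_sq_le K1 z
  have h3 : ∑ j, ((z j).re ^ 2 + (z j).im ^ 2) ≤
      N * ((96 * K ^ 2 + 97) * (1 / ((N : ℝ) * (96 * K ^ 2 + 98))) * NN K1 z ^ 2) := by
    refine (Finset.sum_le_sum fun j _ => h1 j).trans ?_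
    rw [Finset.sum_const, Finset.card_univ, Fintype.card_fin, nsmul_eq_mul]
  have h4 : (N : ℝ) * ((96 * K ^ 2 + 97) * (1 / ((N : ℝ) * (96 * K ^ 2 + 98))) *
      NN K1 z ^ 2) < NN K1 z ^ 2 := by
    have h5 : (N : ℝ) * ((96 * K ^ 2 + 97) * (1 / ((N : ℝ) * (96 * K ^ 2 + 98))) *
        NN K1 z ^ 2) = (96 * K ^ 2 + 97) / (96 * K ^ 2 + 98) * NN K1 z ^ 2 := by
      field_simp
    rw [h5]
    have h6 : (96 * K ^ 2 + 97) / (96 * K ^ 2 + 98) < 1 := by
      rw [div_lt_one hq]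
      linarith
    have h7 : 0 < NN K1 z ^ 2 := by positivity
    nlinarith
  linarith

/-- `|t_j| ≤ C pg`. -/
theorem abs_im_le_pg (K : ℝ) (w : ℂ) : |w.im| ≤ √(96 * K ^ 2 + 96) * pg K w := by
  have h1 : w.im ^ 2 ≤ (96 * K ^ 2 + 96) * gq K (w.re ^ 2) (w.im ^ 2) :=
    le_gq' (sq_nonneg _) (sq_nonneg _)
  rw [← pg_sq] at h1
  rw [← Real.sqrt_sq_eq_abs, show √(96 * K ^ 2 + 96) * pg K w =
    √((96 * K ^ 2 + 96) * pg K w ^ 2) by
      rw [Real.sqrt_mul (by positivity), Real.sqrt_sq (pg_nonneg _ _)]]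
  exact Real.sqrt_le_sqrt h1

theorem abs_im_le_NN (K : ℝ) (z : Fin N → ℂ) (j : Fin N) :
    |(z j).im| ≤ √(96 * K ^ 2 + 96) * NN K z := by
  have h1 : BB z ≤ (96 * K ^ 2 + 96) * gq K (AA z) (BB z) := le_gq' (AA_nonneg z) (BB_nonneg z)
  rw [← NN_sq] at h1
  rw [← Real.sqrt_sq_eq_abs, show √(96 * K ^ 2 + 96) * NN K z =
    √((96 * K ^ 2 + 96) * NN K z ^ 2) by
      rw [Real.sqrt_mul (by positivity), Real.sqrt_sq (NN_nonneg _ _)]]
  exact Real.sqrt_le_sqrt ((im_sq_le_BB z j).trans h1)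

/-! ### monotonicity -/

/-- the point `z + i h (1, …, 1)`. -/
def up (z : Fin N → ℂ) (h : ℝ) : Fin N → ℂ := fun j => z j + Complex.I * (h : ℂ)

@[simp] theorem up_re (z : Fin N → ℂ) (h : ℝ) (j : Fin N) : (up z h j).re = (z j).re := by
  simp [up]

@[simp] theorem up_im (z : Fin N → ℂ) (h : ℝ) (j : Fin N) : (up z h j).im = (z j).im + h := by
  simp [up]

theorem up_ne {z : Fin N → ℂ} (hz : ∃ j, (z j).re ≠ 0) (h : ℝ) : up z h ≠ 0 := by
  obtain ⟨j, hj⟩ := hz
  intro h0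
  apply hj
  have := congrArg (fun w : Fin N → ℂ => (w j).re) h0
  simpa using this

theorem hasDerivAt_up (z : Fin N → ℂ) (h : ℝ) :
    HasDerivAt (fun h : ℝ => up z h) (fun _ => Complex.I) h := by
  refine hasDerivAt_pi.2 fun j => ?_
  have h1 : HasDerivAt (fun h : ℝ => (h : ℂ)) ((1 : ℝ) : ℂ) h := (hasDerivAt_id h).ofReal_comp
  have h2 := (h1.const_mul Complex.I).const_add (z j)
  simpa [up] using h2

section LD

variable (D : LD N)

theorem hasDerivAt_phi {d : ℝ} (hd : 0 < d) (z : Fin N → ℂ) (h : ℝ) (hz : up z h ≠ 0) :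
    HasDerivAt (fun h : ℝ => ∑ j, D.ch d (up z h) j * ((z j).im + h))
      (∑ j, (dch D d (up z h) j (fun _ => Complex.I) * ((z j).im + h) + D.ch d (up z h) j * 1))
      h := by
  refine HasDerivAt.fun_sum fun j _ => ?_
  have h1 := (hasFDerivAt_ch D hd hz j).comp_hasDerivAt h (hasDerivAt_up z h)
  have h2 : HasDerivAt (fun h : ℝ => (z j).im + h) 1 h := (hasDerivAt_id h).const_add _
  exact h1.mul h2

theorem dNN_I (K : ℝ) (z : Fin N → ℂ) : dNN K z (fun _ => Complex.I) =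
    gB K (AA z) (BB z) / NN K z * ∑ i, (z i).im := by
  unfold dNN sr si
  simp [Finset.mul_sum]

theorem abs_dNN_I (K : ℝ) {z : Fin N → ℂ} (hz : z ≠ 0) :
    |dNN K z (fun _ => Complex.I)| ≤ N * √(96 * K ^ 2 + 96) := by
  have hp : 0 < NN K z := NN_pos hz
  rw [dNN_I, abs_mul, abs_div, abs_of_pos hp,
    abs_of_nonneg (gB_nonneg (AA_nonneg z) (BB_nonneg z))]
  have h1 : |∑ i, (z i).im| ≤ N * (√(96 * K ^ 2 + 96) * NN K z) := by
    refine (Finset.abs_sum_le_sum_abs _ _).trans ?_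
    refine (Finset.sum_le_sum fun i _ => abs_im_le_NN K z i).trans ?_
    rw [Finset.sum_const, Finset.card_univ, Fintype.card_fin, nsmul_eq_mul]
  have h2 : gB K (AA z) (BB z) / NN K z ≤ 1 / NN K z :=
    div_le_div_of_nonneg_right (gB_le (AA_nonneg z) (BB_nonneg z)) hp.le
  calc gB K (AA z) (BB z) / NN K z * |∑ i, (z i).im| ≤
        1 / NN K z * (N * (√(96 * K ^ 2 + 96) * NN K z)) :=
        mul_le_mul h2 h1 (abs_nonneg _) (by positivity)
    _ = N * √(96 * K ^ 2 + 96) := by field_simp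

/-- constant of the bad term. -/
def Cb : ℝ := 15 / 2 * (N * √(96 * D.K1 ^ 2 + 96) * √(96 * D.K ^ 2 + 96))

theorem Cb_nonneg : 0 ≤ Cb D := by unfold Cb; positivity

theorem term_ge {d : ℝ} (hd : 0 < d) {w : Fin N → ℂ} (hw : w ≠ 0) (j : Fin N) :
    -(d * Cb D) ≤ dch D d w j (fun _ => Complex.I) * (w j).im := by
  have hp : 0 < NN D.K1 w := NN_pos hw
  set x := D.xr w j with hx
  have hx0 : 0 ≤ x := xr_nonneg D w j
  have h1 : dch D d w j (fun _ => Complex.I) = chid d x * (pt D.K (w j) / NN D.K1 w) -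
      chid d x * x / NN D.K1 w * dNN D.K1 w (fun _ => Complex.I) := by
    unfold dch dxr
    simp only [ContinuousLinearMap.smul_apply, ContinuousLinearMap.sub_apply,
      ContinuousLinearMap.add_apply, smul_eq_mul, rej_apply, imj_apply, Complex.I_re,
      Complex.I_im, ← hx]
    ring
  have h2 : 0 ≤ chid d x * (pt D.K (w j) / NN D.K1 w) * (w j).im := by
    have h3 := pt_mul_nonneg D.K (w j)
    have h4 : chid d x * (pt D.K (w j) / NN D.K1 w) * (w j).im =
        chid d x * (pt D.K (w j) * (w j).im) / NN D.K1 w := by ring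
    rw [h4]
    exact div_nonneg (mul_nonneg (chid_nonneg hd x) h3) hp.le
  have h3 : |chid d x * x / NN D.K1 w * dNN D.K1 w (fun _ => Complex.I) * (w j).im| ≤
      d * Cb D := by
    have h4 : |(w j).im| ≤ √(96 * D.K ^ 2 + 96) * (x * NN D.K1 w) := by
      have h5 : x * NN D.K1 w = pg D.K (w j) := div_mul_cancel₀ _ hp.ne'
      rw [h5]
      exact abs_im_le_pg D.K (w j)
    have h5 := abs_dNN_I D.K1 hw
    have h6 : chid d x * x * x ≤ 15 / 4 * (2 * d) := by
      rcases le_total (2 * d) x with h7 | h7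
      · rw [chid_of_ge hd h7, zero_mul, zero_mul]
        positivity
      · have h8 : x * chid d x ≤ 15 / 4 := mul_chid_le hd
        calc chid d x * x * x = (x * chid d x) * x := by ring
          _ ≤ 15 / 4 * (2 * d) := mul_le_mul h8 h7 hx0 (by norm_num)
    rw [abs_mul, abs_mul, abs_div, abs_of_pos hp,
      abs_of_nonneg (mul_nonneg (chid_nonneg hd x) hx0)]
    calc chid d x * x / NN D.K1 w * |dNN D.K1 w (fun _ => Complex.I)| * |(w j).im| ≤
          chid d x * x / NN D.K1 w * (N * √(96 * D.K1 ^ 2 + 96)) *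
            (√(96 * D.K ^ 2 + 96) * (x * NN D.K1 w)) := by
          have h9 : 0 ≤ chid d x * x / NN D.K1 w :=
            div_nonneg (mul_nonneg (chid_nonneg hd x) hx0) hp.le
          exact mul_le_mul (mul_le_mul_of_nonneg_left h5 h9) h4 (abs_nonneg _)
            (mul_nonneg h9 (by positivity))
      _ = (chid d x * x * x) * (N * √(96 * D.K1 ^ 2 + 96) * √(96 * D.K ^ 2 + 96)) := by
          field_simp
      _ ≤ (15 / 4 * (2 * d)) * (N * √(96 * D.K1 ^ 2 + 96) * √(96 * D.K ^ 2 + 96)) :=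
          mul_le_mul_of_nonneg_right h6 (by positivity)
      _ = d * Cb D := by unfold Cb; ring
  have h4 := (abs_le.1 h3).2
  rw [h1, sub_mul]
  linarith

/-- threshold. -/
def dm : ℝ := min (cl N D.K / 2) (1 / (N * Cb D + 1))

theorem dm_pos (hN : 0 < N) : 0 < dm D := by
  unfold dm
  have h1 := cl_pos hN D.K
  have h2 := Cb_nonneg D
  have h3 : (0 : ℝ) < N := by exact_mod_cast hN
  exact lt_min (by linarith) (by positivity)

/-- **monotonicity.** -/
theorem phi_strictMono {d : ℝ} (hd : 0 < d) (hd1 : d ≤ dm D) {z : Fin N → ℂ}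
    (hz : ∃ j, (z j).re ≠ 0) :
    StrictMono fun h : ℝ => ∑ j, D.ch d (up z h) j * ((z j).im + h) := by
  refine strictMono_of_deriv_pos fun h => ?_
  have hw := up_ne hz h
  rw [(hasDerivAt_phi D hd z h hw).deriv, Finset.sum_add_distrib]
  have h1 : -(N * (d * Cb D)) ≤ ∑ j, dch D d (up z h) j (fun _ => Complex.I) * ((z j).im + h) := by
    have h2 : ∑ _j : Fin N, -(d * Cb D) ≤
        ∑ j, dch D d (up z h) j (fun _ => Complex.I) * ((z j).im + h) := by
      refine Finset.sum_le_sum fun j _ => ?_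
      have h3 := term_ge D hd hw j
      rwa [up_im] at h3
    rw [Finset.sum_const, Finset.card_univ, Fintype.card_fin, nsmul_eq_mul] at h2
    linarith
  have h2 : 1 ≤ ∑ j, D.ch d (up z h) j * 1 := by
    obtain ⟨j, hj⟩ := exists_large D.K D.K1 hw
    have h3 : D.ch d (up z h) j = 1 := by
      refine chi_of_ge hd ?_
      have h4 : dm D ≤ cl N D.K / 2 := min_le_left _ _
      show 2 * d ≤ pg D.K (up z h j) / NN D.K1 (up z h)
      linarith
    calc (1 : ℝ) = D.ch d (up z h) j * 1 := by rw [h3, mul_one]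
      _ ≤ ∑ j, D.ch d (up z h) j * 1 :=
        Finset.single_le_sum (f := fun j => D.ch d (up z h) j * 1)
          (fun i _ => mul_nonneg (ch_nonneg D d _ i) zero_le_one) (mem_univ j)
  have h3 : N * (d * Cb D) < 1 := by
    have h4 : d ≤ 1 / (N * Cb D + 1) := hd1.trans (min_le_right _ _)
    have h5 := Cb_nonneg D
    have h6 : (0 : ℝ) ≤ N := Nat.cast_nonneg N
    have h7 : (0 : ℝ) < N * Cb D + 1 := by positivity
    rw [le_div_iff₀ h7] at h4
    nlinarith
  linarith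

/-- the derivative-free form. -/
theorem phi_lt {d : ℝ} (hd : 0 < d) (hd1 : d ≤ dm D) {z : Fin N → ℂ} (hz : ∃ j, (z j).re ≠ 0)
    {h h' : ℝ} (hh : h < h') : ∑ j, D.ch d (up z h) j * (up z h j).im <
      ∑ j, D.ch d (up z h') j * (up z h' j).im := by
  simp only [up_im]
  exact phi_strictMono D hd hd1 hz hh

end LD

/-! ### comparison of the signed and the unsigned data -/

section SD

open Crest.Agent.R267.T3aNDefs_88 (SD)

variable (D : SD N)

/-- the unsigned data with the same gauges. -/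
def cmp : LD N where
  M := fun j => 2 * D.M j
  hM := fun j => by have := D.hM j; omega
  C := ∅
  hC := fun e he => absurd he (Finset.notMem_empty e)

theorem cmp_K1 : (cmp D).K1 = D.K1 := by
  unfold LD.K1 SD.K1 LD.Mx SD.Mx
  have h1 : ∑ j, (cmp D).M j = 2 * ∑ j, D.M j := by
    rw [Finset.mul_sum]
    rfl
  rw [h1]
  push_cast
  ring

theorem cmp_K : (cmp D).K = D.K := by
  unfold LD.K SD.K
  rw [cmp_K1]

theorem cmp_ch (d : ℝ) (z : Fin N → ℂ) (j : Fin N) : (cmp D).ch d z j = D.ch d z j := by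
  unfold LD.ch SD.ch LD.xr SD.xr
  rw [cmp_K1, cmp_K]

/-- threshold. -/
def dN : ℝ := dm (cmp D)

theorem dN_pos (hN : 0 < N) : 0 < dN D := dm_pos (cmp D) hN

theorem chN_lt {d : ℝ} (hd : 0 < d) (hd1 : d ≤ dN D) {z : Fin N → ℂ} (hz : ∃ j, (z j).re ≠ 0)
    {h h' : ℝ} (hh : h < h') : ∑ j, D.ch d (up z h) j * (up z h j).im <
      ∑ j, D.ch d (up z h') j * (up z h' j).im := by
  have h1 := phi_lt (cmp D) hd hd1 hz hh
  simpa only [cmp_ch] using h1

theorem exists_ch_one {d : ℝ} (hd : 0 < d) (hd1 : d ≤ dN D) {z : Fin N → ℂ} (hz : z ≠ 0) :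
    ∃ j, D.ch d z j = 1 := by
  obtain ⟨j, hj⟩ := exists_large D.K D.K1 hz
  refine ⟨j, chi_of_ge hd ?_⟩
  have h1 : dN D ≤ cl N (cmp D).K / 2 := min_le_left _ _
  rw [cmp_K] at h1
  show 2 * d ≤ pg D.K (z j) / NN D.K1 z
  linarith

/-- **mono** of the signed function. -/
theorem G_im_lt {c g d : ℝ} (hd : 0 < d) (hd1 : d ≤ dN D) {z : Fin N → ℂ}
    (hz : ∃ j, (z j).re ≠ 0) (hneg : ∀ j, (z j).re ≤ 0) {h h' : ℝ} (hh : h < h') :
    (D.G c g d (up z h')).im < (D.G c g d (up z h)).im := by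
  rw [T3aNBas_277.G_im_of_nonpos D c g d fun j => by rw [up_re]; exact hneg j,
    T3aNBas_277.G_im_of_nonpos D c g d fun j => by rw [up_re]; exact hneg j]
  have h1 := chN_lt D hd hd1 hz hh
  simp only [mul_neg, Finset.sum_neg_distrib]
  linarith

/-- **sgp** of the signed function. -/
theorem G_im_pos {c g d : ℝ} (hd : 0 < d) (hd1 : d ≤ dN D) (hN : 0 < N) {z : Fin N → ℂ}
    (hneg : ∀ j, (z j).re ≤ 0) (ht : ∀ j, (z j).im < 0) : 0 < (D.G c g d z).im := by
  have hz : z ≠ 0 := by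
    intro h
    have := ht ⟨0, hN⟩
    rw [h] at this
    simp at this
  rw [T3aNBas_277.G_im_of_nonpos D c g d hneg]
  obtain ⟨j, hj⟩ := exists_ch_one D hd hd1 hz
  refine Finset.sum_pos' (fun i _ => mul_nonneg (T3aNBas_277.ch_nonneg D d z i)
    (by linarith [ht i])) ⟨j, mem_univ _, ?_⟩
  rw [hj, one_mul]
  linarith [ht j]

/-- **sgn** of the signed function. -/
theorem G_im_neg {c g d : ℝ} (hd : 0 < d) (hd1 : d ≤ dN D) (hN : 0 < N) {z : Fin N → ℂ}
    (hneg : ∀ j, (z j).re ≤ 0) (ht : ∀ j, 0 < (z j).im) : (D.G c g d z).im < 0 := by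
  have hz : z ≠ 0 := by
    intro h
    have := ht ⟨0, hN⟩
    rw [h] at this
    simp at this
  rw [T3aNBas_277.G_im_of_nonpos D c g d hneg]
  obtain ⟨j, hj⟩ := exists_ch_one D hd hd1 hz
  have h1 : 0 < ∑ i, D.ch d z i * (z i).im := by
    refine Finset.sum_pos' (fun i _ => mul_nonneg (T3aNBas_277.ch_nonneg D d z i) (ht i).le)
      ⟨j, mem_univ _, ?_⟩
    rw [hj, one_mul]
    exact ht j
  simp only [mul_neg, Finset.sum_neg_distrib]
  linarith

end SD

end Crest.Agent.R267.EndN1_277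
end
end

-- ▼ part R267/EndN2_277
section

/-!
# Row 267, T3aN end instance (helper277), part 2: the letters of a signed lobed function

`ls D e : LS n m`, `e : Fin m ≃ {k // D.Let k}`: slopes `sgN (k j)`, displacements
`sgN (k j) + sn * del * ∑ sgN (k i)`.
-/

set_option autoImplicit false

noncomputable section

namespace Crest.Agent.R267.EndN2_277

open Finset
open Crest.Agent.R267.T3aNDefs_88 Crest.Agent.R267.EndDef_864 Crest.Agent.R267.EndG_864

theorem sgN_nonneg (l : ℕ) : 0 ≤ sgN l := by unfold sgN; positivity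

theorem sgN_inj {l l' : ℕ} : sgN l = sgN l' ↔ l = l' := by
  unfold sgN
  constructor
  · intro h
    have : (l : ℝ) = l' := by linarith
    exact_mod_cast this
  · rintro rfl; rfl

theorem sgN_le {l l' : ℕ} : sgN l ≤ sgN l' ↔ l ≤ l' := by
  unfold sgN
  constructor
  · intro h
    have : (l : ℝ) ≤ l' := by linarith
    exact_mod_cast this
  · intro h
    have : (l : ℝ) ≤ l' := by exact_mod_cast h
    linarith

theorem sgN_lt {l l' : ℕ} : sgN l < sgN l' ↔ l < l' := by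
  rw [← not_le, sgN_le, not_le]

theorem sgN_sub {l l' : ℕ} (h : l < l') : 16 ≤ sgN l' - sgN l := by
  unfold sgN
  have : (l : ℝ) + 1 ≤ l' := by exact_mod_cast h
  linarith

/-- the letters are finitely many. -/
instance {N : ℕ} (D : SD N) : Finite {k : Fin N → ℕ // D.Let k} := by
  have : Finite (∀ j : Fin N, Fin (D.M j)) := inferInstance
  refine Finite.of_injective
    (fun k : {k : Fin N → ℕ // D.Let k} => fun j : Fin N => (⟨k.1 j, k.2.1 j⟩ : Fin (D.M j))) ?_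
  intro k l h
  refine Subtype.ext (funext fun j => ?_)
  exact congrArg Fin.val (congrFun h j)

theorem exists_enum {N : ℕ} (D : SD N) : ∃ m, Nonempty (Fin m ≃ {k : Fin N → ℕ // D.Let k}) :=
  ⟨_, ⟨(Finite.equivFin _).symm⟩⟩

variable {n m : ℕ} (D : SD (n + 3)) (e : Fin m ≃ {k : Fin (n + 3) → ℕ // D.Let k})

/-- slopes. -/
def sgl (a : Fin m) (j : Fin (n + 3)) : ℝ := sgN ((e a).1 j)

/-- sum of the slopes. -/
def Sl (a : Fin m) : ℝ := ∑ i, sgN ((e a).1 i)

/-- bound of the sums. -/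
def Bl : ℝ := ∑ i, sgN (D.M i)

/-- small number. -/
def del : ℝ := 1 / (1 + Bl D)

/-- displacements. -/
def Vl (a : Fin m) (j : Fin (n + 3)) : ℝ :=
  sgl D e a j + D.sn j ((e a).1 j) * (del D * Sl D e a)

/-- signs. -/
def ngl (a : Fin m) (j : Fin (n + 3)) : Bool := D.neg j ((e a).1 j)

theorem Bl_nonneg : 0 ≤ Bl D := Finset.sum_nonneg fun _ _ => sgN_nonneg _

theorem del_pos : 0 < del D := by
  unfold del
  have := Bl_nonneg D
  positivity

theorem Sl_nonneg (a : Fin m) : 0 ≤ Sl D e a := Finset.sum_nonneg fun _ _ => sgN_nonneg _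

theorem Sl_le (a : Fin m) : Sl D e a ≤ Bl D :=
  Finset.sum_le_sum fun i _ => sgN_le.2 ((e a).2.1 i).le

theorem del_Sl (a : Fin m) : 0 ≤ del D * Sl D e a ∧ del D * Sl D e a ≤ 1 := by
  have h1 := Bl_nonneg D
  have h2 := Sl_nonneg D e a
  have h3 := Sl_le D e a
  refine ⟨mul_nonneg (del_pos D).le h2, ?_⟩
  unfold del
  rw [one_div, inv_mul_le_iff₀ (by linarith)]
  linarith

theorem sgl_nonneg (a : Fin m) (j : Fin (n + 3)) : 0 ≤ sgl D e a j := sgN_nonneg _

theorem sgl_le (a : Fin m) (j : Fin (n + 3)) : sgl D e a j ≤ Bl D :=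
  (sgN_le.2 ((e a).2.1 j).le).trans
    (Finset.single_le_sum (f := fun i => sgN (D.M i)) (fun i _ => sgN_nonneg _) (mem_univ j))

theorem abs_sn (j : Fin (n + 3)) (l : ℕ) : |D.sn j l| = 1 := by
  unfold SD.sn
  split_ifs <;> simp

theorem abs_Vl_sub (a : Fin m) (j : Fin (n + 3)) : |Vl D e a j - sgl D e a j| ≤ 1 := by
  unfold Vl
  rw [add_sub_cancel_left, abs_mul, abs_sn, one_mul, abs_of_nonneg (del_Sl D e a).1]
  exact (del_Sl D e a).2

theorem Vl_lt_of_sgl_lt {a b : Fin m} {j : Fin (n + 3)} (h : sgl D e b j < sgl D e a j) :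
    Vl D e b j < Vl D e a j := by
  have h1 := sgN_sub (sgN_lt.1 h)
  have h2 := abs_le.1 (abs_Vl_sub D e a j)
  have h3 := abs_le.1 (abs_Vl_sub D e b j)
  have h4 : 16 ≤ sgl D e a j - sgl D e b j := h1
  linarith [h2.1, h3.2]

theorem Sl_lt {a b : Fin m} (hab : a ≠ b) (h : ∀ j, sgl D e b j ≤ sgl D e a j) :
    (∃ j, sgl D e b j < sgl D e a j) ∧ Sl D e b < Sl D e a := by
  have h1 : ∃ j, sgl D e b j < sgl D e a j := by
    by_contra hcon
    push Not at hcon
    apply hab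
    apply e.injective
    refine Subtype.ext (funext fun j => ?_)
    exact sgN_inj.1 (le_antisymm (hcon j) (h j))
  refine ⟨h1, ?_⟩
  obtain ⟨j, hj⟩ := h1
  exact Finset.sum_lt_sum (fun i _ => h i) ⟨j, mem_univ _, hj⟩

theorem sn_of_false {j : Fin (n + 3)} {l : ℕ} (h : D.neg j l = false) : D.sn j l = 1 := by
  unfold SD.sn
  rw [h]
  rfl

theorem sn_of_true {j : Fin (n + 3)} {l : ℕ} (h : D.neg j l = true) : D.sn j l = -1 := by
  unfold SD.sn
  rw [h]
  rfl

theorem pos_or_mix {a b : Fin m} (hab : a ≠ b) (h : ∀ j, sgl D e b j ≤ sgl D e a j) :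
    ((∀ j, sgl D e a j = sgl D e b j → ngl D e a j = false) ∧
      Pos (sgl D e) (Vl D e) (ngl D e) a b) ∨
    ((∃ j, sgl D e a j = sgl D e b j ∧ ngl D e a j = true) ∧
      Mix (sgl D e) (Vl D e) (ngl D e) a b) := by
  obtain ⟨h1, h2⟩ := Sl_lt D e hab h
  by_cases hc : ∀ j, sgl D e a j = sgl D e b j → ngl D e a j = false
  · refine Or.inl ⟨hc, h, h1, fun j => ?_, hc⟩
    rcases (h j).lt_or_eq with h3 | h3
    · exact Vl_lt_of_sgl_lt D e h3
    · have h4 : (e b).1 j = (e a).1 j := sgN_inj.1 h3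
      have h5 : D.sn j ((e a).1 j) = 1 := sn_of_false D (hc j h3.symm)
      unfold Vl
      rw [h3, h4, h5, one_mul, one_mul]
      have := mul_lt_mul_of_pos_left h2 (del_pos D)
      linarith
  · push Not at hc
    obtain ⟨j, hj1, hj2⟩ := hc
    have hj3 : ngl D e a j = true := by
      cases hh : ngl D e a j
      · exact absurd hh hj2
      · rfl
    obtain ⟨i, hi⟩ := h1
    refine Or.inr ⟨⟨j, hj1, hj3⟩, Or.inr ⟨h, i, j, hi, hj1, ?_, hj3⟩⟩
    have h4 : (e a).1 j = (e b).1 j := sgN_inj.1 hj1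
    have h5 : D.sn j ((e a).1 j) = -1 := sn_of_true D hj3
    unfold Vl
    rw [hj1, ← h4, h5]
    have := mul_lt_mul_of_pos_left h2 (del_pos D)
    linarith

/-- **the letters.** -/
def ls : LS n m where
  sg := sgl D e
  V := Vl D e
  neg := ngl D e
  ray := by
    intro k l j h
    have h1 : (e k).1 j = (e l).1 j := sgN_inj.1 h
    unfold ngl
    rw [h1]
  hV := by
    intro k l j h
    rcases lt_or_gt_of_ne h with h1 | h1
    · exact mul_pos_of_neg_of_neg (by linarith) (by linarith [Vl_lt_of_sgl_lt D e h1])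
    · exact mul_pos (by linarith) (by linarith [Vl_lt_of_sgl_lt D e h1])
  trich := by
    intro k l hkl
    by_cases h1 : ∀ j, sgl D e l j ≤ sgl D e k j
    · rcases pos_or_mix D e hkl h1 with h2 | h2
      · exact Or.inl h2.2
      · exact Or.inr (Or.inr (Or.inl h2.2))
    by_cases h2 : ∀ j, sgl D e k j ≤ sgl D e l j
    · rcases pos_or_mix D e (Ne.symm hkl) h2 with h3 | h3
      · exact Or.inr (Or.inl h3.2)
      · exact Or.inr (Or.inr (Or.inr h3.2))
    push Not at h1 h2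
    obtain ⟨j, hj⟩ := h1
    obtain ⟨i, hi⟩ := h2
    exact Or.inr (Or.inr (Or.inl (Or.inl ⟨i, j, hi, hj⟩)))

/-- `Pos` in terms of the letters. -/
theorem pos_iff {a b : Fin m} (hab : a ≠ b) : Pos (sgl D e) (Vl D e) (ngl D e) a b ↔
    (∀ j, (e b).1 j ≤ (e a).1 j) ∧ ∀ j, (e a).1 j = (e b).1 j → D.neg j ((e a).1 j) = false := by
  constructor
  · rintro ⟨h1, -, -, h4⟩
    exact ⟨fun j => sgN_le.1 (h1 j), fun j hj => h4 j (sgN_inj.2 hj)⟩
  · rintro ⟨h1, h2⟩
    rcases pos_or_mix D e hab fun j => sgN_le.2 (h1 j) with h3 | h3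
    · exact h3.2
    · obtain ⟨j, hj1, hj2⟩ := h3.1
      have h4 : ngl D e a j = false := h2 j (sgN_inj.1 hj1)
      rw [hj2] at h4
      exact absurd h4 (by decide)

open Classical in
/-- **the matrix of the letters**: `1` iff the letter `b` is `≤` the letter `a` and all common rays
are positive. -/
def matN : Matrix (Fin m) (Fin m) ℤ := Matrix.of fun a b =>
  if (∀ j, (e b).1 j ≤ (e a).1 j) ∧
    ∀ j, (e a).1 j = (e b).1 j → D.neg j ((e a).1 j) = false then 1 else 0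

theorem mat_eq (Q : Par n) (hsm : ∀ k l j, (ls D e).sg k j ≠ (ls D e).sg l j →
    Q.ep * (‖vec (n := n) ((ls D e).V k)‖ + ‖vec (n := n) ((ls D e).V l)‖) <
      Q.d * |(ls D e).sg k j - (ls D e).sg l j|) :
    (hd (ls D e) Q hsm).mat = matN D e := by
  classical
  ext a b
  unfold HD.mat matN
  rw [Matrix.of_apply]
  by_cases hab : a = b
  · subst hab
    rw [if_pos rfl]
    have h1 : (∀ j, (hd (ls D e) Q hsm).neg a j = false) ↔ ((∀ j, (e a).1 j ≤ (e a).1 j) ∧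
        ∀ j, (e a).1 j = (e a).1 j → D.neg j ((e a).1 j) = false) :=
      ⟨fun h => ⟨fun j => le_rfl, fun j _ => h j⟩, fun h j => h.2 j rfl⟩
    by_cases h2 : ∀ j, (hd (ls D e) Q hsm).neg a j = false
    · rw [if_pos h2, if_pos (h1.1 h2)]
    · rw [if_neg h2, if_neg fun h => h2 (h1.2 h)]
  · rw [if_neg hab]
    have h1 := pos_iff D e hab
    by_cases h2 : Pos (sgl D e) (Vl D e) (ngl D e) a b
    · rw [if_pos (h1.1 h2)]
      exact if_pos h2
    · rw [if_neg fun h => h2 (h1.2 h)]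
      exact if_neg h2

end Crest.Agent.R267.EndN2_277
end
end

-- ▼ part R267/EndN3_277
section

/-!
# Row 267, T3aN end instance (helper277), part 3: `Facts` and the tubes for the signed function

* `tube_im`, `tube_re` : near the strands `Im G = ⟪nrm k s, t - eta k s⟫`, `Re G > 0`;
* `lin` : near the plate `Im G = ⟪nz s, t⟫`;
* `facts` : `Facts (D.G c g d) (hd (ls D e) Q hsm) r2 κ1`.
-/

set_option autoImplicit false

noncomputable section

namespace Crest.Agent.R267.EndN3_277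

open Finset
open scoped RealInnerProductSpace
open Crest.Agent.R267.T3aDefs_957 (st pg NN chi Af Bf gq)
open Crest.Agent.R267.T3aNDefs_88 Crest.Agent.R267.EndDef_864 Crest.Agent.R267.EndBas_864
  Crest.Agent.R267.EndG_864 Crest.Agent.R267.EndH_864 Crest.Agent.R267.EndN1_277
  Crest.Agent.R267.EndN2_277
open Crest.Agent.R267.Calc_957 (st_of_ge st_of_le st_nonneg st_le_one Af_of_le Bf_of_abs_le)
open Crest.Agent.R267.Calc2_957 (pg_of_le pg_nonneg)
open Crest.Agent.R267.Calc3_957 (AA BB NN_of_le chi_nonneg chi_of_ge pg_le_norm)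

variable {n m : ℕ} (D : SD (n + 3))

/-! ### sizes -/

theorem AA_zc (s t : W n) : AA (zc s t) = ‖s‖ ^ 2 := by
  rw [norm_sq_def]; rfl

theorem BB_zc (s t : W n) : BB (zc s t) = ‖t‖ ^ 2 := by
  rw [norm_sq_def]; rfl

theorem K1_pos : 0 < D.K1 := by unfold SD.K1; positivity

theorem one_le_K1 : 1 ≤ D.K1 := by
  unfold SD.K1
  have h1 : (0 : ℝ) ≤ D.Mx := Nat.cast_nonneg _
  have h2 : (1 : ℝ) ≤ ((n + 3 : ℕ) : ℝ) := by exact_mod_cast (by omega : 1 ≤ n + 3)
  nlinarith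

theorem K1_le_K : D.K1 ≤ D.K := by
  unfold SD.K
  have h2 : (1 : ℝ) ≤ ((n + 3 : ℕ) : ℝ) := by exact_mod_cast (by omega : 1 ≤ n + 3)
  have h3 := K1_pos D
  nlinarith

theorem one_le_K : 1 ≤ D.K := (one_le_K1 D).trans (K1_le_K D)

theorem NN_zc {s t : W n} (h : ‖t‖ ≤ D.K1 * ‖s‖) : NN D.K1 (zc s t) = ‖s‖ := by
  rw [NN_of_le, AA_zc, Real.sqrt_sq (norm_nonneg _)]
  rw [AA_zc, BB_zc, ← mul_pow]
  exact pow_le_pow_left₀ (norm_nonneg _) h 2

/-- slopes are small compared with `K1`. -/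
theorem sgN_le_K1 {j : Fin (n + 3)} {l : ℕ} (hl : l < D.M j) : sgN l + 1 ≤ D.K1 := by
  have h1 : (l : ℝ) + 1 ≤ D.M j := by exact_mod_cast hl
  have h2 : (D.M j : ℝ) ≤ D.Mx := by
    exact_mod_cast Finset.single_le_sum (f := D.M) (fun _ _ => Nat.zero_le _) (mem_univ j)
  have h3 : (1 : ℝ) ≤ ((n + 3 : ℕ) : ℝ) := by exact_mod_cast (by omega : 1 ≤ n + 3)
  have h4 : (0 : ℝ) ≤ D.Mx := Nat.cast_nonneg _
  unfold sgN SD.K1
  nlinarith

theorem ch_of_le {d : ℝ} {s t : W n} (h : ‖t‖ ≤ D.K1 * ‖s‖) {j : Fin (n + 3)}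
    (hj : |t j| ≤ D.K * |s j|) : D.ch d (zc s t) j = chi d (|s j| / ‖s‖) := by
  unfold SD.ch SD.xr
  rw [NN_zc D h, pg_of_le ((zero_le_one).trans (one_le_K D)) (by exact hj)]
  rfl

theorem ch_zero {d : ℝ} (hd : 0 < d) {s t : W n} (hs : s ≠ 0) (h : ‖t‖ ≤ D.K1 * ‖s‖)
    {j : Fin (n + 3)} (hj : |s j| + |t j| ≤ d * ‖s‖) : D.ch d (zc s t) j = 0 := by
  have h0 : 0 < ‖s‖ := norm_pos_iff.2 hs
  unfold SD.ch SD.xr
  rw [NN_zc D h]
  refine chi_of_le hd ?_
  rw [div_le_iff₀ h0]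
  refine (pg_le_norm D.K (zc s t j)).trans (le_trans ?_ hj)
  exact Complex.norm_le_abs_re_add_abs_im _

/-! ### one coordinate near a strand -/

/-- the data of one coordinate: base value `b`. -/
theorem coord {d δ g : ℝ} (hd : 0 < d) (hδ0 : 0 ≤ δ) (hδ : (D.K + 1) * δ ≤ d)
    {s t : W n} (hs : s ≠ 0) (ht : ‖t‖ ≤ D.K1 * ‖s‖) {j : Fin (n + 3)} {l : ℕ}
    (hl : l < D.M j) (hg : 0 < g) (hg1 : g < 1)
    (h : |t j - max (‖s‖ * ppf d (s j / ‖s‖)) 0 * sgN l| ≤ δ * ‖s‖) :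
    D.ch d (zc s t) j * (plN g (D.sn j) (D.M j) (zc s t j)).im =
        (if D.neg j l then ymf d (s j / ‖s‖) else ypf d (s j / ‖s‖)) *
          (t j - max (‖s‖ * ppf d (s j / ‖s‖)) 0 * sgN l) ∧
      0 ≤ D.ch d (zc s t) j * (plN g (D.sn j) (D.M j) (zc s t j)).re ∧
      (2 * d * ‖s‖ ≤ |s j| → 0 < D.ch d (zc s t) j * (plN g (D.sn j) (D.M j) (zc s t j)).re) ∧
      (D.R d (zc s t) j = 0 ∨ |(zc s t j).im / (zc s t j).re - sgN l| ≤ 1) := by
  have h0 : 0 < ‖s‖ := norm_pos_iff.2 hs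
  have hK := one_le_K D
  have hδd : δ ≤ d := by nlinarith
  have hsg := sgN_le_K1 D hl
  have hsg0 := sgN_nonneg l
  have hKK := K1_le_K D
  have hre : (zc s t j).re = s j := rfl
  have him : (zc s t j).im = t j := rfl
  set x := s j / ‖s‖ with hx
  have hxs : s j = x * ‖s‖ := by rw [hx, div_mul_cancel₀ _ h0.ne']
  rcases lt_or_ge d x with h1 | h1
  · -- active, strand side
    have hsj : 0 < s j := by rw [hxs]; exact mul_pos (hd.trans h1) h0
    have hpp : ‖s‖ * ppf d x = s j := by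
      unfold ppf
      rw [st_of_ge ((one_le_div hd).2 h1.le), mul_one, hxs]
      ring
    rw [hpp, max_eq_left hsj.le] at h ⊢
    have h2 : δ * ‖s‖ ≤ s j := by
      rw [hxs]
      exact mul_le_mul_of_nonneg_right (hδd.trans h1.le) h0.le
    have h3 : |t j - s j * sgN l| ≤ s j := h.trans h2
    have h4 : |t j / s j - sgN l| ≤ 1 := by
      have h5 : t j / s j - sgN l = (t j - s j * sgN l) / s j := by
        field_simp
      rw [h5, abs_div, abs_of_pos hsj, div_le_one hsj]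
      exact h3
    have h5 : |t j| ≤ D.K * |s j| := by
      rw [abs_of_pos hsj]
      have h6 := abs_le.1 h3
      rw [abs_le]
      constructor <;> nlinarith
    have hch : D.ch d (zc s t) j = chi d x := by
      rw [ch_of_le D ht h5, abs_of_pos hsj]
    obtain ⟨p1, p2, -, -⟩ := CalcN_88.pvN_lobe (ga := g) (e := D.sn j) (M := D.M j) hl
      (τ := t j / s j) (by linarith)
    have hpl : plN g (D.sn j) (D.M j) (zc s t j) =
        ((s j : ℝ) : ℂ) * pvN g (D.sn j) (D.M j) (t j / s j) :=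
      CalcN_88.plN_of_pos (z := zc s t j) hsj
    have hRe : (plN g (D.sn j) (D.M j) (zc s t j)).re = s j * g := by
      rw [hpl, Complex.re_ofReal_mul, p1, Af_of_le h4]
      ring
    have hIm : (plN g (D.sn j) (D.M j) (zc s t j)).im = D.sn j l * (t j - s j * sgN l) := by
      rw [hpl, Complex.im_ofReal_mul, p2, Bf_of_abs_le h4]
      field_simp
    have hchi : 0 ≤ chi d x := chi_nonneg d x
    refine ⟨?_, ?_, ?_, Or.inr h4⟩
    · rw [hch, hIm]
      have h7 : chi d (-x) = 0 := chi_of_le hd (by linarith)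
      cases hh : D.neg j l
      · rw [sn_of_false D hh, if_neg (by simp), ypf, h7]
        ring
      · rw [sn_of_true D hh, if_pos rfl, ymf, h7]
        ring
    · rw [hch, hRe]
      positivity
    · intro _
      rw [hch, hRe]
      have := chi_pos hd h1
      positivity
  have hmax : max (‖s‖ * ppf d x) 0 ≤ |s j| ∧ 0 ≤ max (‖s‖ * ppf d x) 0 := by
    refine ⟨max_le ?_ (abs_nonneg _), le_max_right _ _⟩
    unfold ppf
    have h2 := st_nonneg (x / d)
    have h3 := st_le_one (x / d)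
    have h4 : ‖s‖ * (x * st (x / d)) = s j * st (x / d) := by rw [hxs]; ring
    rw [h4]
    refine (le_abs_self _).trans ?_
    rw [abs_mul, abs_of_nonneg h2]
    exact mul_le_of_le_one_right (abs_nonneg _) h3
  rcases lt_or_ge x (-d) with h2 | h2
  · -- active, plate side
    have hx0 : x < 0 := by linarith
    have hsj : s j < 0 := by rw [hxs]; exact mul_neg_of_neg_of_pos hx0 h0
    have hpp : max (‖s‖ * ppf d x) 0 = 0 := by
      refine max_eq_right ?_
      unfold ppf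
      rw [st_of_le (div_nonpos_of_nonpos_of_nonneg hx0.le hd.le), mul_zero, mul_zero]
    rw [hpp, zero_mul, sub_zero] at h ⊢
    have h3 : δ * ‖s‖ ≤ |s j| := by
      rw [abs_of_neg hsj, hxs]
      nlinarith
    have h4 : |t j| ≤ D.K * |s j| := by
      have := abs_nonneg (s j)
      nlinarith
    have hch : D.ch d (zc s t) j = chi d (-x) := by
      rw [ch_of_le D ht h4, abs_of_neg hsj, neg_div]
    have hRe := T3aNBas_277.plN_re_of_nonpos (ga := g) (e := D.sn j) (M := D.M j)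
      (z := zc s t j) hsj.le
    have hIm := T3aNBas_277.plN_im_of_nonpos (ga := g) (e := D.sn j) (M := D.M j)
      (z := zc s t j) hsj.le
    rw [hre] at hRe
    rw [him] at hIm
    have hchi : 0 ≤ chi d (-x) := chi_nonneg d (-x)
    have hpos : 0 < -(2 - g) * s j := by nlinarith
    have h7 : chi d x = 0 := chi_of_le hd (by linarith)
    refine ⟨?_, ?_, ?_, Or.inl ?_⟩
    · rw [hch, hIm]
      split_ifs
      · rw [ymf, h7]; ring
      · rw [ypf, h7]; ring
    · rw [hch, hRe]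
      exact mul_nonneg hchi hpos.le
    · intro _
      rw [hch, hRe]
      exact mul_pos (chi_pos hd (by linarith)) hpos
    · exact T3aNBas_277.R_of_nonpos D d hsj.le
  · -- inactive
    have hxa : |x| ≤ d := abs_le.2 ⟨h2, h1⟩
    have hsa : |s j| ≤ d * ‖s‖ := by
      rw [hxs, abs_mul, abs_of_pos h0]
      exact mul_le_mul_of_nonneg_right hxa h0.le
    have hch : D.ch d (zc s t) j = 0 := by
      rcases le_or_gt |t j| (D.K * |s j|) with h3 | h3
      · rw [ch_of_le D ht h3]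
        refine chi_of_le hd ?_
        rwa [div_le_iff₀ h0]
      · refine ch_zero D hd hs ht ?_
        have h4 : |t j| ≤ |s j| * sgN l + δ * ‖s‖ := by
          have h5 : |t j| ≤ |t j - max (‖s‖ * ppf d x) 0 * sgN l| +
              |max (‖s‖ * ppf d x) 0 * sgN l| := by
            have := abs_add_le (t j - max (‖s‖ * ppf d x) 0 * sgN l)
              (max (‖s‖ * ppf d x) 0 * sgN l)
            rwa [sub_add_cancel] at this
          have h6 : |max (‖s‖ * ppf d x) 0 * sgN l| ≤ |s j| * sgN l := by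
            rw [abs_of_nonneg (mul_nonneg hmax.2 hsg0)]
            exact mul_le_mul_of_nonneg_right hmax.1 hsg0
          linarith
        have h5 : |s j| ≤ δ * ‖s‖ := by
          have h6 : D.K * |s j| < |s j| * sgN l + δ * ‖s‖ := h3.trans_le h4
          have h7 : (sgN l + 1) * |s j| ≤ D.K * |s j| :=
            mul_le_mul_of_nonneg_right (hsg.trans hKK) (abs_nonneg _)
          linarith
        have h6 : |t j| ≤ D.K * (δ * ‖s‖) := by
          have h7 : |s j| * sgN l ≤ (δ * ‖s‖) * sgN l := mul_le_mul_of_nonneg_right h5 hsg0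
          have h8 : (sgN l + 1) * (δ * ‖s‖) ≤ D.K * (δ * ‖s‖) :=
            mul_le_mul_of_nonneg_right (hsg.trans hKK) (mul_nonneg hδ0 h0.le)
          linarith
        have h7 : (D.K + 1) * δ * ‖s‖ ≤ d * ‖s‖ := mul_le_mul_of_nonneg_right hδ h0.le
        linarith
    refine ⟨?_, ?_, ?_, Or.inl ?_⟩
    · rw [hch, zero_mul]
      have h3 : chi d x = 0 := chi_of_le hd h1
      have h4 : chi d (-x) = 0 := chi_of_le hd (by linarith)
      split_ifs
      · rw [ymf, h3, h4]; ring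
      · rw [ypf, h3, h4]; ring
    · rw [hch, zero_mul]
    · intro h3
      exfalso
      have h4 := mul_pos hd h0
      linarith
    · unfold SD.R
      rw [hch, zero_mul]

/-! ### near a strand -/

section strand

variable (e : Fin m ≃ {k : Fin (n + 3) → ℕ // D.Let k}) (Q : Par n)
  (hsm : ∀ k l j, (ls D e).sg k j ≠ (ls D e).sg l j →
    Q.ep * (‖vec (n := n) ((ls D e).V k)‖ + ‖vec (n := n) ((ls D e).V l)‖) <
      Q.d * |(ls D e).sg k j - (ls D e).sg l j|)

theorem vec_V_le (k : Fin m) : ‖vec (n := n) ((ls D e).V k)‖ ≤ (n + 3) * (Bl D + 1) := by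
  have hB := Bl_nonneg D
  have h1 : ∀ j, |(ls D e).V k j| ≤ Bl D + 1 := by
    intro j
    have h2 := abs_le.1 (abs_Vl_sub D e k j)
    have h3 := sgl_nonneg D e k j
    have h4 := sgl_le D e k j
    show |Vl D e k j| ≤ _
    rw [abs_le]
    constructor <;> linarith [h2.1, h2.2]
  refine le_of_sq_le_sq ?_ (by positivity)
  rw [norm_sq_def]
  calc ∑ j, vec (n := n) ((ls D e).V k) j ^ 2 ≤ ∑ _j : Fin (n + 3), (Bl D + 1) ^ 2 := by
        refine Finset.sum_le_sum fun j _ => ?_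
        rw [vec_apply]
        rw [← sq_abs]
        exact pow_le_pow_left₀ (abs_nonneg _) (h1 j) 2
    _ = (n + 3) * (Bl D + 1) ^ 2 := by
        rw [Finset.sum_const, Finset.card_univ, Fintype.card_fin, nsmul_eq_mul]
        push_cast
        ring
    _ ≤ ((n + 3) * (Bl D + 1)) ^ 2 := by
        rw [mul_pow]
        refine mul_le_mul_of_nonneg_right ?_ (sq_nonneg _)
        have : (0 : ℝ) ≤ n := Nat.cast_nonneg n
        nlinarith

/-- bound of the displacements. -/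
def Vm : ℝ := (n + 3) * (Bl D + 1)

theorem Vm_nonneg : 0 ≤ Vm D := by
  unfold Vm
  have := Bl_nonneg D
  positivity

/-- the base position of a strand. -/
def bs (k : Fin m) (s : W n) : W n :=
  vec fun j => max (‖s‖ * ppf Q.d (s j / ‖s‖)) 0 * (ls D e).sg k j

theorem eta_eq (k : Fin m) (s : W n) : (hd (ls D e) Q hsm).eta k s = bs D e Q k s +
    (Q.ep * ‖s‖ * thf Q.ω s) • proj ((hd (ls D e) Q hsm).nrm k s) (vec ((ls D e).V k)) := rfl

theorem norm_eta_sub (k : Fin m) (s : W n) :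
    ‖(hd (ls D e) Q hsm).eta k s - bs D e Q k s‖ ≤ Q.ep * Vm D * ‖s‖ := by
  have h3 : 0 ≤ Q.ep * ‖s‖ * thf Q.ω s :=
    mul_nonneg (mul_nonneg Q.hep.le (norm_nonneg _)) (st_nonneg _)
  rw [eta_eq, add_sub_cancel_left, norm_smul, Real.norm_of_nonneg h3]
  calc Q.ep * ‖s‖ * thf Q.ω s * ‖proj ((hd (ls D e) Q hsm).nrm k s) (vec ((ls D e).V k))‖
      ≤ Q.ep * ‖s‖ * 1 * Vm D := by
        refine mul_le_mul ?_ ((norm_proj_le _ _).trans (vec_V_le D e k)) (norm_nonneg _) ?_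
        · exact mul_le_mul_of_nonneg_left (st_le_one _) (mul_nonneg Q.hep.le (norm_nonneg _))
        · exact mul_nonneg (mul_nonneg Q.hep.le (norm_nonneg _)) zero_le_one
    _ = Q.ep * Vm D * ‖s‖ := by ring

theorem inner_nrm (k : Fin m) {s : W n} (hs : s ≠ 0) (t : W n) :
    ⟪(hd (ls D e) Q hsm).nrm k s, t - (hd (ls D e) Q hsm).eta k s⟫ =
      ∑ j, (if D.neg j ((e k).1 j) then ymf Q.d (s j / ‖s‖) else ypf Q.d (s j / ‖s‖)) *
        (t j - max (‖s‖ * ppf Q.d (s j / ‖s‖)) 0 * sgN ((e k).1 j)) := by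
  rw [eta_eq, ← sub_sub, inner_sub_right, inner_smul_right,
    inner_proj _ _ (nrm_ne (hd (ls D e) Q hsm) hs), mul_zero, sub_zero, inner_def]
  rfl

variable {D Q} {r2 c g : ℝ}

/-- conditions on the size `δ = r2 + ep Vm` of the tubes. -/
theorem near {s t : W n} (k : Fin m)
    (h : ‖t - (hd (ls D e) Q hsm).eta k s‖ ≤ r2 * ‖s‖) :
    ‖t - bs D e Q k s‖ ≤ (r2 + Q.ep * Vm D) * ‖s‖ := by
  have h1 := norm_eta_sub D e Q hsm k s
  calc ‖t - bs D e Q k s‖ = ‖(t - (hd (ls D e) Q hsm).eta k s) +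
        ((hd (ls D e) Q hsm).eta k s - bs D e Q k s)‖ := by congr 1; abel
    _ ≤ _ := norm_add_le _ _
    _ ≤ _ := by linarith

theorem bs_le (k : Fin m) (s : W n) : ‖bs D e Q k s‖ ≤ (D.K1 - 1) * ‖s‖ := by
  have hK := one_le_K1 D
  have hK' : 0 ≤ D.K1 - 1 := by linarith
  refine le_of_sq_le_sq ?_ (mul_nonneg hK' (norm_nonneg _))
  rw [norm_sq_def, mul_pow, norm_sq_def s, Finset.mul_sum]
  refine Finset.sum_le_sum fun j _ => ?_
  have h1 : |max (‖s‖ * ppf Q.d (s j / ‖s‖)) 0| ≤ |s j| := by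
    by_cases hs : s = 0
    · rw [hs, norm_zero, zero_mul, max_self, abs_zero]
      exact abs_nonneg _
    have h0 : 0 < ‖s‖ := norm_pos_iff.2 hs
    have h2 := st_nonneg (s j / ‖s‖ / Q.d)
    have h3 := st_le_one (s j / ‖s‖ / Q.d)
    have h4 : ‖s‖ * ppf Q.d (s j / ‖s‖) = s j * st (s j / ‖s‖ / Q.d) := by
      unfold ppf
      field_simp
    rw [abs_of_nonneg (le_max_right _ _), h4]
    refine max_le ?_ (abs_nonneg _)
    refine (le_abs_self _).trans ?_
    rw [abs_mul, abs_of_nonneg h2]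
    exact mul_le_of_le_one_right (abs_nonneg _) h3
  have h2 : |(ls D e).sg k j| ≤ D.K1 - 1 := by
    have h3 := sgN_le_K1 D ((e k).2.1 j)
    show |sgN ((e k).1 j)| ≤ _
    rw [abs_of_nonneg (sgN_nonneg _)]
    linarith
  have h3 : bs D e Q k s j = max (‖s‖ * ppf Q.d (s j / ‖s‖)) 0 * (ls D e).sg k j := rfl
  rw [h3, mul_pow, mul_comm ((D.K1 - 1) ^ 2), ← sq_abs (max _ _), ← sq_abs ((ls D e).sg k j),
    ← sq_abs (s j)]
  exact mul_le_mul (pow_le_pow_left₀ (abs_nonneg _) h1 2) (pow_le_pow_left₀ (abs_nonneg _) h2 2)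
    (sq_nonneg _) (sq_nonneg _)

theorem t_le (hr2 : 0 ≤ r2) (hδ : (D.K + 1) * (r2 + Q.ep * Vm D) ≤ Q.d) {s t : W n} (k : Fin m)
    (h : ‖t - (hd (ls D e) Q hsm).eta k s‖ ≤ r2 * ‖s‖) : ‖t‖ ≤ D.K1 * ‖s‖ := by
  have h1 := near e hsm k h
  have h2 := bs_le (Q := Q) e k s
  have hV := mul_nonneg Q.hep.le (Vm_nonneg D)
  have hK := one_le_K D
  have hd1 : Q.d ≤ 1 := by
    have h3 := Q.hdN
    have h4 := Q.hd
    have h5 : (0 : ℝ) ≤ n := Nat.cast_nonneg n
    by_contra h6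
    push Not at h6
    nlinarith
  have h3 : r2 + Q.ep * Vm D ≤ 1 := by nlinarith
  calc ‖t‖ = ‖(t - bs D e Q k s) + bs D e Q k s‖ := by congr 1; abel
    _ ≤ _ := norm_add_le _ _
    _ ≤ (r2 + Q.ep * Vm D) * ‖s‖ + (D.K1 - 1) * ‖s‖ := add_le_add h1 h2
    _ ≤ 1 * ‖s‖ + (D.K1 - 1) * ‖s‖ := by
        have := mul_le_mul_of_nonneg_right h3 (norm_nonneg s)
        linarith
    _ = D.K1 * ‖s‖ := by ring

/-- the four statements of `coord` near a strand. -/
theorem coord_near (hg : 0 < g) (hg1 : g < 1) (hr2 : 0 ≤ r2)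
    (hδ : (D.K + 1) * (r2 + Q.ep * Vm D) ≤ Q.d) {s t : W n} (hs : s ≠ 0) (k : Fin m)
    (h : ‖t - (hd (ls D e) Q hsm).eta k s‖ ≤ r2 * ‖s‖) (j : Fin (n + 3)) :
    D.ch Q.d (zc s t) j * (plN g (D.sn j) (D.M j) (zc s t j)).im =
        (if D.neg j ((e k).1 j) then ymf Q.d (s j / ‖s‖) else ypf Q.d (s j / ‖s‖)) *
          (t j - max (‖s‖ * ppf Q.d (s j / ‖s‖)) 0 * sgN ((e k).1 j)) ∧
      0 ≤ D.ch Q.d (zc s t) j * (plN g (D.sn j) (D.M j) (zc s t j)).re ∧
      (2 * Q.d * ‖s‖ ≤ |s j| →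
        0 < D.ch Q.d (zc s t) j * (plN g (D.sn j) (D.M j) (zc s t j)).re) ∧
      (D.R Q.d (zc s t) j = 0 ∨ |(zc s t j).im / (zc s t j).re - sgN ((e k).1 j)| ≤ 1) := by
  refine coord D (d := Q.d) (δ := r2 + Q.ep * Vm D) (g := g) Q.hd
    (add_nonneg hr2 (mul_nonneg Q.hep.le (Vm_nonneg D))) hδ hs (t_le e hsm hr2 hδ k h)
    ((e k).2.1 j) hg hg1 ?_
  have h1 := near e hsm k h
  exact (abs_apply_le (t - bs D e Q k s) j).trans h1

theorem G_im (c g d : ℝ) (z : Fin (n + 3) → ℂ) :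
    (D.G c g d z).im = ∑ j, D.ch d z j * (plN g (D.sn j) (D.M j) (z j)).im := by
  unfold SD.G
  rw [Complex.sub_im, Complex.ofReal_im, sub_zero, Complex.im_sum]
  exact Finset.sum_congr rfl fun j _ => by rw [Complex.im_ofReal_mul]

theorem G_re (c g d : ℝ) (z : Fin (n + 3) → ℂ) :
    (D.G c g d z).re = ∑ j, D.ch d z j * (plN g (D.sn j) (D.M j) (z j)).re -
      c * g * ∑ e, D.Be d e z := by
  unfold SD.G
  rw [Complex.sub_re, Complex.ofReal_re, Complex.re_sum]
  congr 1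
  exact Finset.sum_congr rfl fun j _ => by rw [Complex.re_ofReal_mul]

/-- **tube, imaginary part.** -/
theorem tube_im (hg : 0 < g) (hg1 : g < 1) (hr2 : 0 ≤ r2)
    (hδ : (D.K + 1) * (r2 + Q.ep * Vm D) ≤ Q.d) {s t : W n} (hs : s ≠ 0) (k : Fin m)
    (h : ‖t - (hd (ls D e) Q hsm).eta k s‖ ≤ r2 * ‖s‖) :
    (D.G c g Q.d (zc s t)).im =
      ⟪(hd (ls D e) Q hsm).nrm k s, t - (hd (ls D e) Q hsm).eta k s⟫ := by
  rw [inner_nrm D e Q hsm k hs, G_im]
  exact Finset.sum_congr rfl fun j _ => (coord_near e hsm hg hg1 hr2 hδ hs k h j).1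

theorem exists_coord_large {s : W n} (hs : s ≠ 0) : ∃ j, 2 * Q.d * ‖s‖ ≤ |s j| ∨
    ‖s‖ ^ 2 ≤ (n + 3) * |s j| ^ 2 := by
  by_contra hcon
  push Not at hcon
  have h1 : ‖s‖ ^ 2 = ∑ j, s j ^ 2 := norm_sq_def s
  have h2 : ∑ j, (n + 3) * s j ^ 2 < ∑ _j : Fin (n + 3), ‖s‖ ^ 2 := by
    refine Finset.sum_lt_sum_of_nonempty ⟨0, mem_univ _⟩ fun j _ => ?_
    have := (hcon j).2
    rwa [sq_abs] at this
  rw [← Finset.mul_sum, ← h1, Finset.sum_const, Finset.card_univ, Fintype.card_fin,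
    nsmul_eq_mul] at h2
  push_cast at h2
  exact lt_irrefl _ h2

/-- some coordinate is large (`4 d² (n+3) ≤ 1`). -/
theorem exists_big (hd2 : 4 * Q.d ^ 2 * (n + 3) ≤ 1) {s : W n} (hs : s ≠ 0) :
    ∃ j, 2 * Q.d * ‖s‖ ≤ |s j| := by
  obtain ⟨j, hj⟩ := exists_coord_large (Q := Q) hs
  refine ⟨j, ?_⟩
  rcases hj with hj | hj
  · exact hj
  · refine le_of_sq_le_sq ?_ (abs_nonneg _)
    have h1 : (0 : ℝ) < n + 3 := by positivity
    have h2 : 4 * Q.d ^ 2 * (n + 3) * |s j| ^ 2 ≤ 1 * |s j| ^ 2 :=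
      mul_le_mul_of_nonneg_right hd2 (sq_nonneg _)
    have h3 : 4 * Q.d ^ 2 * ‖s‖ ^ 2 ≤ 4 * Q.d ^ 2 * ((n + 3) * |s j| ^ 2) :=
      mul_le_mul_of_nonneg_left hj (by positivity)
    calc (2 * Q.d * ‖s‖) ^ 2 = 4 * Q.d ^ 2 * ‖s‖ ^ 2 := by ring
      _ ≤ 4 * Q.d ^ 2 * ((n + 3) * |s j| ^ 2) := h3
      _ = 4 * Q.d ^ 2 * (n + 3) * |s j| ^ 2 := by ring
      _ ≤ |s j| ^ 2 := by linarith

/-- **tube, real part.** -/
theorem tube_re (hg : 0 < g) (hg1 : g < 1) (hr2 : 0 ≤ r2)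
    (hδ : (D.K + 1) * (r2 + Q.ep * Vm D) ≤ Q.d) (hd2 : 4 * Q.d ^ 2 * (n + 3) ≤ 1)
    {s t : W n} (hs : s ≠ 0) (k : Fin m)
    (h : ‖t - (hd (ls D e) Q hsm).eta k s‖ ≤ r2 * ‖s‖) :
    0 < (D.G c g Q.d (zc s t)).re := by
  have hc := fun j => coord_near e hsm hg hg1 hr2 hδ hs k h j
  have hB : ∑ b, D.Be Q.d b (zc s t) = 0 := by
    refine Finset.sum_eq_zero fun b _ => ?_
    obtain ⟨j, hj, hj2⟩ := (e k).2.2 b
    unfold SD.Be
    rcases (hc j).2.2.2 with h1 | h1
    · rw [T3aNBas_277.Hm_eq_zero hj h1.le, zero_mul]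
    · rw [Finset.prod_eq_zero hj, mul_zero]
      have h2 := (CalcN_88.winN_cell (m := (D.bx b).lo j) (m' := (D.bx b).hi j)
        (l := (e k).1 j) (τ := (zc s t j).im / (zc s t j).re) (by linarith)).1
      rw [h2, if_neg hj2]
  rw [G_re, hB, mul_zero, sub_zero]
  obtain ⟨j, hj⟩ := exists_big hd2 hs
  exact Finset.sum_pos' (fun i _ => (hc i).2.1) ⟨j, mem_univ _, (hc j).2.2.1 hj⟩

/-- **lin.** -/
theorem lin {κ1 : ℝ} (hκ1 : 2 * κ1 ≤ Q.d) {s t : W n} (hs : s ≠ 0) (hneg : ∀ j, s j < 0)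
    (ht : ‖t‖ ≤ κ1 * ‖s‖) : (D.G c g Q.d (zc s t)).im = ⟪(hd (ls D e) Q hsm).nz s, t⟫ := by
  have h0 : 0 < ‖s‖ := norm_pos_iff.2 hs
  have hd1 : Q.d ≤ 1 := by
    have h3 := Q.hdN
    have h4 := Q.hd
    have h5 : (0 : ℝ) ≤ n := Nat.cast_nonneg n
    by_contra h6
    push Not at h6
    nlinarith
  have hK1 := one_le_K1 D
  have htK : ‖t‖ ≤ D.K1 * ‖s‖ := ht.trans (mul_le_mul_of_nonneg_right (by linarith) h0.le)
  rw [T3aNBas_277.G_im_of_nonpos D c g Q.d (z := zc s t) fun j => (hneg j).le, inner_def]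
  refine Finset.sum_congr rfl fun j _ => ?_
  show D.ch Q.d (zc s t) j * -(t j) = ypf Q.d (s j / ‖s‖) * t j
  have hsj := hneg j
  have h1 : chi Q.d (s j / ‖s‖) = 0 :=
    chi_of_le Q.hd ((div_nonpos_of_nonpos_of_nonneg hsj.le h0.le).trans Q.hd.le)
  have h2 : -(s j / ‖s‖) = |s j| / ‖s‖ := by rw [abs_of_neg hsj, neg_div]
  have h3 : D.ch Q.d (zc s t) j = chi Q.d (|s j| / ‖s‖) := by
    rcases le_or_gt |t j| (D.K * |s j|) with h4 | h4
    · exact ch_of_le D htK h4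
    · have h5 : |t j| ≤ κ1 * ‖s‖ := (abs_apply_le t j).trans ht
      have h6 : |s j| ≤ κ1 * ‖s‖ := by
        have h7 : 1 * |s j| ≤ D.K * |s j| :=
          mul_le_mul_of_nonneg_right (one_le_K D) (abs_nonneg _)
        linarith
      have h7 : 2 * κ1 * ‖s‖ ≤ Q.d * ‖s‖ := mul_le_mul_of_nonneg_right hκ1 h0.le
      rw [ch_zero D Q.hd hs htK (by linarith), chi_of_le Q.hd]
      rw [div_le_iff₀ h0]
      have := abs_nonneg (t j)
      linarith
  rw [h3, ypf, h1, h2]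
  ring

/-- **the facts of `EndH_864` for the signed function.** -/
theorem facts {κ1 : ℝ} (hcont : ContinuousOn (D.G c g Q.d) {0}ᶜ) (hg : 0 < g) (hg1 : g < 1)
    (hdm : Q.d ≤ dN D) (hr2 : 0 ≤ r2) (hδ : (D.K + 1) * (r2 + Q.ep * Vm D) ≤ Q.d)
    (hκ1 : 2 * κ1 ≤ Q.d) : Facts (D.G c g Q.d) (hd (ls D e) Q hsm) r2 κ1 where
  cG := hcont
  hom l z hl := by
    have h1 := T3aNBas_277.hom D c g Q.d l z hl
    have h2 : (l • z) = fun j => (l : ℂ) * z j := by
      funext j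
      rw [Pi.smul_apply, Complex.real_smul]
    rw [h2, h1, Complex.real_smul]
  mono s hs hneg t h h' hh := by
    have hN := sqrt_pos n
    have h1 : ∀ h : ℝ, zc s (t + h • u1 n) = up (zc s t) (h * (1 / √(n + 3 : ℝ))) := by
      intro h
      funext j
      refine Complex.ext ?_ ?_
      · rw [up_re]; rfl
      · rw [up_im]; rfl
    rw [h1, h1]
    refine G_im_lt D Q.hd hdm ?_ (fun j => hneg j) (by
      exact mul_lt_mul_of_pos_right hh (by positivity))
    by_contra hcon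
    push Not at hcon
    apply hs
    ext j
    exact hcon j
  sgp s t hneg ht := G_im_pos D Q.hd hdm (by omega) hneg ht
  sgn s t hneg ht := G_im_neg D Q.hd hdm (by omega) hneg ht
  lin s t hs hneg ht := lin e hsm hκ1 hs hneg ht
  tube s t k hs h := tube_im e hsm hg hg1 hr2 hδ hs k h

end strand

end Crest.Agent.R267.EndN3_277
end
end

-- ▼ part R267/EndN4_277
section

/-!
# Row 267, T3aN end instance (helper277), part 4: `T3aNP D` from the flow-line output

`t3aN_of`: if, for `cB` large, `ga` small, `d` small, the flow-line theorem holds for the literal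
combinatorial data `hd (ls D e) Q hsm`, then the link of `D.G` is the link of a graph system with
matrix `matN D e`.
-/

set_option autoImplicit false

noncomputable section

namespace Crest.Agent.R267.EndN4_277

open Finset
open scoped RealInnerProductSpace
open Crest.Agent.R267.T3aDefs_957 (st pg NN chi Af Bf gq)
open Crest.Agent.R267.T3aDefs_957.LD (Ev Cen vt vs)
open Crest.Agent.R267.T3aNDefs_88 Crest.Agent.R267.EndDef_864 Crest.Agent.R267.EndBas_864
  Crest.Agent.R267.EndG_864 Crest.Agent.R267.EndH_864 Crest.Agent.R267.EndN1_277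
  Crest.Agent.R267.EndN2_277 Crest.Agent.R267.EndN3_277
open Crest.Agent.R267.GS_808 Crest.Agent.R267.Cone_808 Crest.Agent.R267.TopAsm_808
  Crest.Agent.R267.DraftB_808

variable {n : ℕ} (D : SD (n + 3))

theorem Ev.of_small {P : ℝ → ℝ → ℝ → Prop} {d0 : ℝ} (h0 : 0 < d0)
    (h : ∀ c g d, 0 < c → 0 < g → g < 1 → 0 < d → d ≤ d0 → P c g d) : Ev P :=
  ⟨1, one_pos, fun c hc => ⟨1 / 2, by norm_num, fun g hg hg' => ⟨d0, h0, fun d hd hd' =>
    h c g d (by linarith) hg (by linarith) hd hd'⟩⟩⟩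

/-- threshold of `d`. -/
def d4 : ℝ := min (dN D) (1 / (4 * (n + 3)))

theorem d4_pos : 0 < d4 D := lt_min (dN_pos D (by omega)) (by positivity)

theorem d4_sq {d : ℝ} (hd : 0 < d) (h : d ≤ d4 D) : 4 * d ^ 2 * (n + 3) ≤ 1 := by
  have h1 : d ≤ 1 / (4 * (n + 3)) := h.trans (min_le_right _ _)
  have h2 : (0 : ℝ) < 4 * (n + 3) := by positivity
  rw [le_div_iff₀ h2] at h1
  have h3 : d ≤ 1 := by nlinarith
  nlinarith

theorem d4_one {d : ℝ} (h : d ≤ d4 D) : 12 * d ≤ 1 := by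
  have h1 : d ≤ 1 / (4 * (n + 3)) := h.trans (min_le_right _ _)
  have h2 : (0 : ℝ) < 4 * (n + 3) := by positivity
  have h3 : (1 : ℝ) / (4 * (n + 3)) ≤ 1 / 12 := by
    apply one_div_le_one_div_of_le (by norm_num)
    have : (0 : ℝ) ≤ n := Nat.cast_nonneg n
    linarith
  linarith

/-- smallness of `ep`. -/
def etaN (d : ℝ) : ℝ := d / (4 * (D.K + 1) * (1 + √(n + 3 : ℝ)) * (Vm D + 1))

theorem etaN_pos {d : ℝ} (hd : 0 < d) : 0 < etaN D d := by
  have h1 := one_le_K D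
  have h2 := Vm_nonneg D
  unfold etaN
  positivity

theorem etaN_mul {d ep : ℝ} (hd : 0 < d) (hep : ep ≤ etaN D d) :
    (D.K + 1) * ((1 + √(n + 3 : ℝ)) * (ep * Vm D)) ≤ d / 4 := by
  have h1 := one_le_K D
  have h2 := Vm_nonneg D
  have h3 : 0 ≤ √(n + 3 : ℝ) := Real.sqrt_nonneg _
  have h4 : ep * Vm D ≤ etaN D d * (Vm D + 1) := by
    have h5 := (etaN_pos D hd).le
    nlinarith
  calc (D.K + 1) * ((1 + √(n + 3 : ℝ)) * (ep * Vm D))
      ≤ (D.K + 1) * ((1 + √(n + 3 : ℝ)) * (etaN D d * (Vm D + 1))) := by gcongr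
    _ = d / 4 := by
        unfold etaN
        have h6 : (D.K + 1) ≠ 0 := by positivity
        have h7 : (1 + √(n + 3 : ℝ)) ≠ 0 := by positivity
        have h8 : Vm D + 1 ≠ 0 := by positivity
        field_simp

/-- **T3aN from the flow-line output.** -/
theorem t3aN_of (hFL : Ev fun c g d => ∀ (m : ℕ) (e : Fin m ≃ {k : Fin (n + 3) → ℕ // D.Let k})
      (Q : Par n) (hsm : ∀ k l j, (ls D e).sg k j ≠ (ls D e).sg l j →
        Q.ep * (‖vec (n := n) ((ls D e).V k)‖ + ‖vec (n := n) ((ls D e).V l)‖) <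
          Q.d * |(ls D e).sg k j - (ls D e).sg l j|),
      Q.d = d → Q.e = d / 2 → Q.ep ≤ etaN D d → ∃ r0 : ℝ, 0 < r0 ∧ ∀ r, 0 < r → r < r0 →
        ∃ ε : ℝ, 0 < ε ∧ FLOut (D.G c g d) (hd (ls D e) Q hsm) Q.e D.K1 ε r) :
    Ev fun c g d => ∃ (m : ℕ) (e : Fin m ≃ {k : Fin (n + 3) → ℕ // D.Let k}) (G : S n m),
      HasMat G (matN D e) ∧ IsLink {z : Sph (Fin (n + 3)) | D.G c g d z = 0} G := by
  have hS : Ev fun c g d => 0 < g ∧ g < 1 ∧ d ≤ d4 D ∧ 0 < d :=
    Ev.of_small (d4_pos D) fun c g d _ hg hg1 hd hdd => ⟨hg, hg1, hdd, hd⟩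
  refine ((SmoothN_957.smoothN D).and (hS.and hFL)).mono fun c g d _ _ _ h => ?_
  obtain ⟨hsmooth, ⟨hg, hg1, hdd, hd0⟩, hFL⟩ := h
  obtain ⟨m, ⟨e⟩⟩ := exists_enum D
  have hK := one_le_K D
  have hVm := Vm_nonneg D
  have hsq : 0 ≤ √(n + 3 : ℝ) := Real.sqrt_nonneg _
  have h12 := d4_one D hdd
  have hsg : ∀ k j, |(ls D e).sg k j| ≤ D.K1 - 1 := by
    intro k j
    have h1 : (ls D e).sg k j = sgN ((e k).1 j) := rfl
    have h2 := sgN_le_K1 D ((e k).2.1 j)
    have h3 := sgN_nonneg ((e k).1 j)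
    rw [h1, abs_of_nonneg h3]
    linarith
  have hgap : ∀ k l j, (ls D e).sg k j ≠ (ls D e).sg l j →
      1 ≤ |(ls D e).sg k j - (ls D e).sg l j| := by
    intro k l j hne
    have h1 : (ls D e).sg k j = sgN ((e k).1 j) := rfl
    have h2 : (ls D e).sg l j = sgN ((e l).1 j) := rfl
    rw [h1, h2] at hne ⊢
    have h3 : (e k).1 j ≠ (e l).1 j := fun h => hne (by rw [h])
    rcases lt_or_gt_of_ne h3 with h4 | h4
    · have h5 := sgN_sub h4
      rw [abs_sub_comm, abs_of_nonneg (by linarith)]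
      linarith
    · have h5 := sgN_sub h4
      rw [abs_of_nonneg (by linarith)]
      linarith
  obtain ⟨Q, hQd, hQe, hQep, hsm⟩ := EndI_864.exists_par (ls D e) (Vm := Vm D)
    (vec_V_le D e) hgap (d := d) (η := etaN D d) hd0 (by
      have := d4_sq D hd0 hdd
      nlinarith) (etaN_pos D hd0)
  have hep := Q.hep
  have hmul := etaN_mul D hd0 hQep
  have hepV : 0 ≤ Q.ep * Vm D := mul_nonneg hep.le hVm
  have hKep : (D.K + 1) * (Q.ep * Vm D) ≤ d / 4 := by
    refine le_trans ?_ hmul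
    have h1 : Q.ep * Vm D ≤ (1 + √(n + 3 : ℝ)) * (Q.ep * Vm D) := by nlinarith
    exact mul_le_mul_of_nonneg_left h1 (by linarith)
  have hr2 : 0 < d / (2 * (D.K + 1)) := by positivity
  have hF : Facts (D.G c g Q.d) (hd (ls D e) Q hsm) (d / (2 * (D.K + 1))) (d / 2) := by
    refine facts e hsm ?_ hg hg1 ?_ hr2.le ?_ ?_
    · rw [hQd]
      exact hsmooth.continuousOn
    · rw [hQd]
      exact hdd.trans (min_le_left _ _)
    · rw [hQd, mul_add]
      have h1 : (D.K + 1) * (d / (2 * (D.K + 1))) = d / 2 := by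
        have : D.K + 1 ≠ 0 := by positivity
        field_simp
      linarith
    · rw [hQd]
      linarith
  rw [hQd] at hF
  have h1 : (1 + √(n + 3 : ℝ)) * (Q.ep * Vm D) < d / 2 := by
    have h2 : 0 ≤ (1 + √(n + 3 : ℝ)) * (Q.ep * Vm D) := by positivity
    nlinarith
  obtain ⟨S, hS1, hS2⟩ := EndI_864.final (ls D e) Q hsm (Sg := D.K1 - 1) (Vm := Vm D)
    (κ2 := D.K1) hF hr2 h1 (by
      have h2 : Q.ep * Vm D ≤ (D.K + 1) * (Q.ep * Vm D) := by nlinarith
      linarith) (one_le_K1 D) hsg (vec_V_le D e) (by linarith [one_le_K1 D]) hVm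
    (hFL m e Q hsm hQd hQe hQep)
  exact ⟨m, e, S, by rw [← mat_eq D e Q hsm]; exact hS1, hS2⟩

end Crest.Agent.R267.EndN4_277
end
end

-- ▼ part R267/EndN5_277

/-!
# Row 267, T3aN end instance (helper277), part 5: pointwise facts of `D.G` for the carve
-/

set_option autoImplicit false
set_option maxHeartbeats 400000

noncomputable section

namespace Crest.Agent.R267.EndN5_277

open Finset
open scoped RealInnerProductSpace
open Crest.Agent.R267.T3aDefs_957 (st pg NN chi Af Bf gq)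
open Crest.Agent.R267.T3aDefs_957.LD (Ev Cen vt vs)
open Crest.Agent.R267.T3aNDefs_88 Crest.Agent.R267.EndDef_864 Crest.Agent.R267.EndBas_864
  Crest.Agent.R267.EndG_864 Crest.Agent.R267.EndH_864 Crest.Agent.R267.EndN1_277
  Crest.Agent.R267.EndN2_277 Crest.Agent.R267.EndN3_277 Crest.Agent.R267.EndN4_277

section pointwise

variable {N : ℕ} (D : SD N)

/-- `s = 0`: `Re G = 0` (every `c g d`). -/
theorem re_s0 (c g d : ℝ) {z : Fin N → ℂ} (hz : ∀ j, (z j).re = 0) : (D.G c g d z).re = 0 := by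
  rw [T3aNBas_277.G_re_of_nonpos D c g d fun j => (hz j).le]
  exact Finset.sum_eq_zero fun j _ => by rw [hz j, mul_zero, mul_zero]

/-- all `s_j < 0`: `Re G > 0`. -/
theorem re_pos {c g d : ℝ} (hd : 0 < d) (hd1 : d ≤ dN D) (hg1 : g < 1) (hN : 0 < N)
    {z : Fin N → ℂ} (hneg : ∀ j, (z j).re < 0) : 0 < (D.G c g d z).re := by
  have hz : z ≠ 0 := by
    intro h
    have := hneg ⟨0, hN⟩
    rw [h] at this
    simp at this
  rw [T3aNBas_277.G_re_of_nonpos D c g d fun j => (hneg j).le]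
  obtain ⟨j, hj⟩ := exists_ch_one D hd hd1 hz
  have hpos : ∀ i, 0 < -(2 - g) * (z i).re := fun i => by
    have := hneg i
    nlinarith
  refine Finset.sum_pos' (fun i _ => mul_nonneg (T3aNBas_277.ch_nonneg D d z i) (hpos i).le)
    ⟨j, mem_univ _, ?_⟩
  rw [hj, one_mul]
  exact hpos j

/-- the direction `i (1, …, 1)`. -/
theorem c00p {c g d : ℝ} (hd : 0 < d) (hd1 : d ≤ dN D) (hN : 0 < N) (h : ℝ)
    (hz : (D.G c g d fun _ => Complex.I * (h : ℂ)).im = 0) : h = 0 := by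
  have hre : ∀ j : Fin N, ((fun _ : Fin N => Complex.I * (h : ℂ)) j).re ≤ 0 := fun _ => by simp
  rcases lt_trichotomy h 0 with hh | hh | hh
  · have h1 := G_im_pos D (c := c) (g := g) hd hd1 hN hre (fun j => by
      show (Complex.I * (h : ℂ)).im < 0
      simpa using hh)
    exact absurd hz h1.ne'
  · exact hh
  · have h1 := G_im_neg D (c := c) (g := g) hd hd1 hN hre (fun j => by
      show 0 < (Complex.I * (h : ℂ)).im
      simpa using hh)
    exact absurd hz h1.ne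

/-- homogeneity with real scalars. -/
theorem hom_smul (c g d : ℝ) {l : ℝ} (hl : 0 < l) (z : Fin N → ℂ) :
    D.G c g d (l • z) = l • D.G c g d z := by
  have h1 := T3aNBas_277.hom D c g d l z hl
  have h2 : (l • z) = fun j => (l : ℂ) * z j := by
    funext j
    rw [Pi.smul_apply, Complex.real_smul]
  rw [h2, h1, Complex.real_smul]

end pointwise

section strand

variable {n m : ℕ} {D : SD (n + 3)} (e : Fin m ≃ {k : Fin (n + 3) → ℕ // D.Let k}) {Q : Par n}
  (hsm : ∀ k l j, (ls D e).sg k j ≠ (ls D e).sg l j →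
    Q.ep * (‖vec (n := n) ((ls D e).V k)‖ + ‖vec (n := n) ((ls D e).V l)‖) <
      Q.d * |(ls D e).sg k j - (ls D e).sg l j|) {c g : ℝ}

/-- radius of the tubes of the facts. -/
def r2N (D : SD (n + 3)) (d : ℝ) : ℝ := d / (2 * (D.K + 1))

theorem r2N_pos {d : ℝ} (hd : 0 < d) : 0 < r2N D d := by
  have := one_le_K D
  unfold r2N
  positivity

theorem r2N_ok (hep : Q.ep ≤ etaN D Q.d) : (D.K + 1) * (r2N D Q.d + Q.ep * Vm D) ≤ Q.d := by
  have hK := one_le_K D
  have hVm := Vm_nonneg D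
  have hmul := etaN_mul D Q.hd hep
  have hsq : 0 ≤ √(n + 3 : ℝ) := Real.sqrt_nonneg _
  have hepV : 0 ≤ Q.ep * Vm D := mul_nonneg Q.hep.le hVm
  have hKep : (D.K + 1) * (Q.ep * Vm D) ≤ Q.d / 4 := by
    refine le_trans ?_ hmul
    have h1 : Q.ep * Vm D ≤ (1 + √(n + 3 : ℝ)) * (Q.ep * Vm D) := by nlinarith
    exact mul_le_mul_of_nonneg_left h1 (by linarith)
  have h1 : (D.K + 1) * r2N D Q.d = Q.d / 2 := by
    unfold r2N
    have : D.K + 1 ≠ 0 := by positivity
    field_simp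
  have := Q.hd
  rw [mul_add]
  linarith

/-- **tube.** -/
theorem tube (hg : 0 < g) (hg1 : g < 1) (hdd : Q.d ≤ d4 D) (hep : Q.ep ≤ etaN D Q.d)
    {s t : W n} (hs : s ≠ 0) (k : Fin m)
    (h : ‖t - (hd (ls D e) Q hsm).eta k s‖ ≤ r2N D Q.d * ‖s‖) :
    (D.G c g Q.d (zc s t)).im =
      ⟪(hd (ls D e) Q hsm).nrm k s, t - (hd (ls D e) Q hsm).eta k s⟫ ∧
      0 < (D.G c g Q.d (zc s t)).re :=
  ⟨tube_im e hsm hg hg1 (r2N_pos Q.hd).le (r2N_ok hep) hs k h,
    tube_re e hsm hg hg1 (r2N_pos Q.hd).le (r2N_ok hep) (d4_sq D Q.hd hdd) hs k h⟩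

end strand

end Crest.Agent.R267.EndN5_277
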