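import Mathlib
import Crest.Agent.R267.HmD_951
import Crest.Agent.R267.LemL_951

/-!
# S0406, T3N: the general amalgam theorem (helper100)

Coordinates `p = (x, y, z, w) : Fin 4 → ℂ`, weights `w i > 0`.
`Core w T P Ps Pu` : a path `t ↦ P (t, s, u)` of holomorphic weighted homogeneous functions of
`(s, u)` with isolated critical point and `P (t, s, 0) = 0`; `s = x`, `u = y z`.
`Rem w T E` : an arbitrary `C²` weighted homogeneous remainder which is `0`-regular on the three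
planes `(x, w)`, `(y, w)`, `(z, w)`.

`gam` : for `M ≥ M0` the functions `M P (t; x, y z) + E (t; p)` form an `HPath0`;
`gamW` : the same with weights of `E` which depend on `t` (only `w x`, `w y + w z` are fixed).
-/

set_option autoImplicit false
set_option linter.unusedSectionVars false

noncomputable section

open Set Filter Topology Metric
open scoped ContDiff
open Crest.Agent.R267.Cone_808 Crest.Agent.R267.SphReg_808 Crest.Agent.R267.Hm_951
open Crest.Agent.R267.LemL_951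

namespace Crest.Agent.R267.Gam_100

/-- the ambient space. -/
abbrev E4 := Fin 4 → ℂ

/-- point of the plane of the hub variable `v` and `w`. -/
def pl (v : Fin 3) (u z : ℂ) : E4 := Pi.single v.castSucc u + Pi.single 3 z

/-- the core. -/
structure Core (w : Fin 4 → ℝ) (T : Set ℝ) (P Ps Pu : ℝ × ℂ × ℂ → ℂ) : Prop where
  smooth : ContDiffOn ℝ 2 P (T ×ˢ univ)
  cs : ContinuousOn Ps (T ×ˢ univ)
  cu : ContinuousOn Pu (T ×ˢ univ)
  der : ∀ t ∈ T, ∀ s u a b, fderiv ℝ P (t, (s, u)) (0, (a, b)) =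
    Ps (t, (s, u)) * a + Pu (t, (s, u)) * b
  hom : ∀ t ∈ Icc (0 : ℝ) 1, ∀ (r : ℝ) (s u : ℂ),
    P (t, ((Real.exp (r * w 0) : ℂ) * s, (Real.exp (r * w 1) * Real.exp (r * w 2) : ℂ) * u)) =
      Real.exp r • P (t, (s, u))
  eul : ∀ t ∈ Icc (0 : ℝ) 1, ∀ s u, (w 0 : ℂ) * (s * Ps (t, (s, u))) +
    ((w 1 + w 2 : ℝ) : ℂ) * (u * Pu (t, (s, u))) = P (t, (s, u))
  iso : ∀ t ∈ Icc (0 : ℝ) 1, ∀ s u, Ps (t, (s, u)) = 0 → Pu (t, (s, u)) = 0 → s = 0 ∧ u = 0
  van : ∀ t ∈ Icc (0 : ℝ) 1, ∀ s, P (t, (s, 0)) = 0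

/-- the remainder. -/
structure Rem (w : Fin 4 → ℝ) (T : Set ℝ) (E : ℝ × E4 → ℂ) : Prop where
  smooth : ContDiffOn ℝ 2 E (T ×ˢ {0}ᶜ)
  hom : ∀ t ∈ Icc (0 : ℝ) 1, ∀ (s : ℝ) (x : E4), E (t, act w s x) = Real.exp s • E (t, x)
  axis : ∀ t ∈ Icc (0 : ℝ) 1, ∀ z : ℂ, z ≠ 0 → E (t, Pi.single 3 z) ≠ 0
  reg : ∀ t ∈ Icc (0 : ℝ) 1, ∀ (v : Fin 3) (u z : ℂ), u ≠ 0 → E (t, pl v u z) = 0 →
    ∀ c : ℂ, ∃ y1 y2 : ℂ, fderiv ℝ E (t, pl v u z) (0, pl v y1 y2) = c

/-- the remainder, without homogeneity. -/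
structure Rem0 (T : Set ℝ) (E : ℝ × E4 → ℂ) : Prop where
  smooth : ContDiffOn ℝ 2 E (T ×ˢ {0}ᶜ)
  axis : ∀ t ∈ Icc (0 : ℝ) 1, ∀ z : ℂ, z ≠ 0 → E (t, Pi.single 3 z) ≠ 0
  reg : ∀ t ∈ Icc (0 : ℝ) 1, ∀ (v : Fin 3) (u z : ℂ), u ≠ 0 → E (t, pl v u z) = 0 →
    ∀ c : ℂ, ∃ y1 y2 : ℂ, fderiv ℝ E (t, pl v u z) (0, pl v y1 y2) = c

/-- the remainder, with weights which depend on the time. -/
structure RemW (w : ℝ → Fin 4 → ℝ) (T : Set ℝ) (E : ℝ × E4 → ℂ) : Prop extends Rem0 T E where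
  hom : ∀ t ∈ Icc (0 : ℝ) 1, ∀ (s : ℝ) (x : E4), E (t, act (w t) s x) = Real.exp s • E (t, x)

variable {w : Fin 4 → ℝ} {T : Set ℝ} {P Ps Pu : ℝ × ℂ × ℂ → ℂ} {E : ℝ × E4 → ℂ}

theorem Rem.remW (h : Rem w T E) : RemW (fun _ => w) T E :=
  { smooth := h.smooth, axis := h.axis, reg := h.reg, hom := h.hom }

/-- if all `c h + e h` are killed by the conormal `u`, `c` is bounded by the norm of `e`. -/
theorem le_of_kill {u c : ℂ} {K : ℝ} (hu : ‖u‖ = 1) (e : ℂ → ℂ) (he : ∀ h, ‖e h‖ ≤ K * ‖h‖)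
    (h : ∀ h, rf u (c * h + e h) = 0) : ‖c‖ ≤ K := by
  by_cases hc : c = 0
  · rw [hc, norm_zero]
    have := he 1
    rw [norm_one, mul_one] at this
    exact (norm_nonneg _).trans this
  have h1 := h (u * (starRingEnd ℂ) c)
  have h2 : rf u (c * (u * (starRingEnd ℂ) c)) = ‖c‖ ^ 2 := by
    rw [rf_eq]
    have e1 : (starRingEnd ℂ) u * (c * (u * (starRingEnd ℂ) c)) =
        ((starRingEnd ℂ) u * u) * ((starRingEnd ℂ) c * c) := by ring
    rw [e1, ← Complex.normSq_eq_conj_mul_self, ← Complex.normSq_eq_conj_mul_self,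
      Complex.normSq_eq_norm_sq, Complex.normSq_eq_norm_sq, hu]
    norm_cast
    simp
  have h3 : |rf u (e (u * (starRingEnd ℂ) c))| ≤ K * ‖c‖ := by
    rw [rf_eq]
    refine (Complex.abs_re_le_norm _).trans ?_
    rw [norm_mul, RCLike.norm_conj, hu, one_mul]
    refine (he _).trans ?_
    rw [norm_mul, RCLike.norm_conj, hu, one_mul]
  rw [rf_add, h2] at h1
  have h4 : ‖c‖ ^ 2 ≤ K * ‖c‖ := by
    have := (abs_le.1 h3).1
    linarith
  have h5 : 0 < ‖c‖ := norm_pos_iff.2 hc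
  nlinarith

/-- the core as a function of `(t, p)`. -/
def CF (M : ℝ → ℝ) (P : ℝ × ℂ × ℂ → ℂ) (q : ℝ × E4) : ℂ :=
  (M q.1 : ℂ) * P (q.1, (q.2 0, q.2 1 * q.2 2))

theorem contDiffOn_CF {M : ℝ → ℝ} (hM : ContDiff ℝ 2 M) (hP : Core w T P Ps Pu) :
    ContDiffOn ℝ 2 (CF M P) (T ×ˢ univ) := by
  unfold CF
  have h1 : ContDiff ℝ 2 fun q : ℝ × E4 => ((M q.1 : ℝ) : ℂ) :=
    Complex.ofRealCLM.contDiff.comp (hM.comp contDiff_fst)
  have hx : ∀ i, ContDiff ℝ 2 fun q : ℝ × E4 => q.2 i := fun i => by fun_prop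
  have h2 : ContDiff ℝ 2 fun q : ℝ × E4 => ((q.1, (q.2 0, q.2 1 * q.2 2)) : ℝ × ℂ × ℂ) :=
    contDiff_fst.prodMk ((hx 0).prodMk ((hx 1).mul (hx 2)))
  exact h1.contDiffOn.mul (hP.smooth.comp h2.contDiffOn fun q hq => ⟨hq.1, mem_univ _⟩)

theorem fderiv_CF {M : ℝ → ℝ} (hM : ContDiff ℝ 2 M) (hT : IsOpen T) (hP : Core w T P Ps Pu)
    {t : ℝ} (ht : t ∈ T) (x y : E4) : fderiv ℝ (CF M P) (t, x) (0, y) =
      (M t : ℂ) * (Ps (t, (x 0, x 1 * x 2)) * y 0 +
        Pu (t, (x 0, x 1 * x 2)) * (x 2 * y 1 + x 1 * y 2)) := by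
  have hPd : DifferentiableAt ℝ P (t, (x 0, x 1 * x 2)) :=
    ((hP.smooth _ ⟨ht, mem_univ _⟩).contDiffAt
      ((hT.prod isOpen_univ).mem_nhds ⟨ht, mem_univ _⟩)).differentiableAt (by norm_num)
  -- the curve `h ↦ (t, x + h y)`
  have hc : ∀ i, HasDerivAt (fun h : ℝ => (x + h • y) i) (y i) 0 := by
    intro i
    have h1 : HasDerivAt (fun h : ℝ => x i + (h : ℂ) * y i) (y i) 0 := by
      have h2 : HasDerivAt (fun h : ℝ => (h : ℂ)) 1 0 := Complex.ofRealCLM.hasDerivAt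
      simpa using (h2.mul_const (y i)).const_add (x i)
    refine h1.congr_of_eventuallyEq (Eventually.of_forall fun h => ?_)
    simp
  have h1 : HasDerivAt (fun h : ℝ => ((t, ((x + h • y) 0, (x + h • y) 1 * (x + h • y) 2)) :
      ℝ × ℂ × ℂ)) (0, (y 0, y 1 * x 2 + x 1 * y 2)) 0 := by
    have h2 := (hasDerivAt_const (0 : ℝ) t).prodMk ((hc 0).prodMk ((hc 1).mul (hc 2)))
    simpa using h2
  have h2 : HasDerivAt (fun h : ℝ => P (t, ((x + h • y) 0, (x + h • y) 1 * (x + h • y) 2)))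
      (fderiv ℝ P (t, (x 0, x 1 * x 2)) (0, (y 0, y 1 * x 2 + x 1 * y 2))) 0 := by
    have h3 : HasFDerivAt P (fderiv ℝ P (t, (x 0, x 1 * x 2)))
        ((fun h : ℝ => ((t, ((x + h • y) 0, (x + h • y) 1 * (x + h • y) 2)) :
          ℝ × ℂ × ℂ)) 0) := by
      simpa using hPd.hasFDerivAt
    exact h3.comp_hasDerivAt 0 h1
  have h3 : HasDerivAt (fun h : ℝ => CF M P (t, x + h • y)) ((M t : ℂ) *
      fderiv ℝ P (t, (x 0, x 1 * x 2)) (0, (y 0, y 1 * x 2 + x 1 * y 2))) 0 :=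
    h2.const_mul (M t : ℂ)
  have hd : DifferentiableAt ℝ (CF M P) (t, x) :=
    ((contDiffOn_CF hM hP _ ⟨ht, mem_univ _⟩).contDiffAt
      ((hT.prod isOpen_univ).mem_nhds ⟨ht, mem_univ _⟩)).differentiableAt (by norm_num)
  have h4 : HasDerivAt (fun h : ℝ => ((t, x + h • y) : ℝ × E4)) (0, y) 0 := by
    have h5 : HasDerivAt (fun h : ℝ => x + h • y) y 0 := by
      simpa using ((hasDerivAt_id (0 : ℝ)).smul_const y).const_add x
    exact (hasDerivAt_const (0 : ℝ) t).prodMk h5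
  have h5 : HasDerivAt (fun h : ℝ => CF M P (t, x + h • y))
      (fderiv ℝ (CF M P) (t, x) (0, y)) 0 := by
    have h6 : HasFDerivAt (CF M P) (fderiv ℝ (CF M P) (t, x))
        ((fun h : ℝ => ((t, x + h • y) : ℝ × E4)) 0) := by
      simpa using hd.hasFDerivAt
    exact h6.comp_hasDerivAt 0 h4
  rw [h5.unique h3, hP.der t ht]
  ring



theorem pl_zero (v : Fin 3) (z : ℂ) : pl v 0 z = Pi.single 3 z := by
  unfold pl; rw [Pi.single_zero, zero_add]


theorem rf_self {u : ℂ} (hu : ‖u‖ = 1) : rf u u = 1 := by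
  have := sq_of_norm hu
  unfold rf
  nlinarith

theorem continuous_rf : Continuous fun p : ℂ × ℂ => rf p.1 p.2 := by
  unfold rf; fun_prop

/-- a bounded sequence times a null sequence. -/
theorem tendsto_mul_zero {a b : ℕ → ℂ} {K : ℝ} (ha : Tendsto a atTop (𝓝 0))
    (hb : ∀ n, ‖b n‖ ≤ K) : Tendsto (fun n => a n * b n) atTop (𝓝 0) := by
  rw [tendsto_zero_iff_norm_tendsto_zero] at ha ⊢
  have h1 : Tendsto (fun n => ‖a n‖ * K) atTop (𝓝 0) := by
    simpa using ha.mul_const K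
  refine squeeze_zero (fun n => norm_nonneg _) (fun n => ?_) h1
  rw [norm_mul]
  exact mul_le_mul_of_nonneg_left (hb n) (norm_nonneg _)

/-- `M c_n` bounded and `M_n → ∞` forces `c_n → 0`. -/
theorem tendsto_of_mul {M : ℕ → ℝ} {c : ℕ → ℂ} {K : ℝ} (hM : Tendsto M atTop atTop)
    (h : ∀ n, ‖(M n : ℂ) * c n‖ ≤ K) : Tendsto c atTop (𝓝 0) := by
  rw [tendsto_zero_iff_norm_tendsto_zero]
  have h1 : Tendsto (fun n => K / M n) atTop (𝓝 0) := tendsto_const_nhds.div_atTop hM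
  refine squeeze_zero' (Eventually.of_forall fun n => norm_nonneg _) ?_ h1
  filter_upwards [hM.eventually_gt_atTop 0] with n hn
  rw [le_div_iff₀ hn]
  have := h n
  rw [norm_mul, Complex.norm_real, Real.norm_eq_abs, abs_of_pos hn] at this
  linarith

/-- bound for the core near `u = 0`. -/
theorem core_bound (hT : IsOpen T) (hI : Icc (0 : ℝ) 1 ⊆ T) (hP : Core w T P Ps Pu) :
    ∃ C : ℝ, 0 ≤ C ∧ ∀ t ∈ Icc (0 : ℝ) 1, ∀ s u : ℂ, ‖s‖ ≤ 1 → ‖u‖ ≤ 1 →
      ‖P (t, (s, u))‖ ≤ C * ‖u‖ := by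
  have hK : IsCompact (Icc (0 : ℝ) 1 ×ˢ (closedBall (0 : ℂ) 1 ×ˢ closedBall (0 : ℂ) 1)) :=
    isCompact_Icc.prod ((isCompact_closedBall _ _).prod (isCompact_closedBall _ _))
  obtain ⟨C, hC⟩ := hK.exists_bound_of_continuousOn
    (hP.cu.mono fun q hq => ⟨hI hq.1, mem_univ _⟩)
  refine ⟨max C 0, le_max_right _ _, fun t ht s u hs hu => ?_⟩
  have hPd : ∀ u' : ℂ, DifferentiableAt ℝ P (t, (s, u')) := fun u' =>
    ((hP.smooth _ ⟨hI ht, mem_univ _⟩).contDiffAt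
      ((hT.prod isOpen_univ).mem_nhds ⟨hI ht, mem_univ _⟩)).differentiableAt (by norm_num)
  have hd : ∀ r ∈ Icc (0 : ℝ) 1, HasDerivWithinAt (fun r : ℝ => P (t, (s, (r : ℂ) * u)))
      (Pu (t, (s, (r : ℂ) * u)) * u) (Icc 0 1) r := by
    intro r _
    have h1 : HasDerivAt (fun r : ℝ => ((t, (s, (r : ℂ) * u)) : ℝ × ℂ × ℂ)) (0, (0, u)) r := by
      have h2 : HasDerivAt (fun h : ℝ => (h : ℂ)) 1 r := Complex.ofRealCLM.hasDerivAt
      have h3 := (hasDerivAt_const r t).prodMk ((hasDerivAt_const r s).prodMk (h2.mul_const u))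
      simpa using h3
    have h2 := (hPd ((r : ℂ) * u)).hasFDerivAt.comp_hasDerivAt r h1
    rw [hP.der t (hI ht), mul_zero, zero_add] at h2
    exact h2.hasDerivWithinAt
  have hb : ∀ r ∈ Ico (0 : ℝ) 1, ‖Pu (t, (s, (r : ℂ) * u)) * u‖ ≤ max C 0 * ‖u‖ := by
    intro r hr
    rw [norm_mul]
    refine mul_le_mul_of_nonneg_right ((hC _ ⟨ht, ?_, ?_⟩).trans (le_max_left _ _))
      (norm_nonneg _)
    · simpa using hs
    · rw [mem_closedBall_zero_iff, norm_mul, Complex.norm_real, Real.norm_eq_abs,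
        abs_of_nonneg hr.1]
      nlinarith [norm_nonneg u, hr.1, hr.2]
  have h := norm_image_sub_le_of_norm_deriv_le_segment_01' hd hb
  simpa [hP.van t ht s] using h


/-- derivative of `M P + E` in the direction `y`. -/
def DF (Ps Pu : ℝ × ℂ × ℂ → ℂ) (E : ℝ × E4 → ℂ) (M t : ℝ) (x y : E4) : ℂ :=
  (M : ℂ) * (Ps (t, (x 0, x 1 * x 2)) * y 0 +
    Pu (t, (x 0, x 1 * x 2)) * (x 2 * y 1 + x 1 * y 2)) + fderiv ℝ E (t, x) (0, y)

/-- **regularity on the sphere for `M ≥ M0`.** -/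
theorem sph_reg (hT : IsOpen T) (hI : Icc (0 : ℝ) 1 ⊆ T) (hP : Core w T P Ps Pu)
    (hE : Rem0 T E) (hw0 : w 0 ≠ 0) : ∃ M0 > 0, ∀ M : ℝ, M0 ≤ M →
    ∀ t ∈ Icc (0 : ℝ) 1, ∀ x : E4, nsq x = 1 → (M : ℂ) * P (t, (x 0, x 1 * x 2)) + E (t, x) = 0 →
    ∀ u : ℂ, ‖u‖ = 1 → ∃ y : E4, rf u (DF Ps Pu E M t x y) ≠ 0 := by
  by_contra hcon
  push Not at hcon
  have H : ∀ n : ℕ, ∃ (M : ℝ) (q : ℝ × E4 × ℂ), (n : ℝ) + 1 ≤ M ∧ q.1 ∈ Icc (0 : ℝ) 1 ∧
      nsq q.2.1 = 1 ∧ ‖q.2.2‖ = 1 ∧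
      (M : ℂ) * P (q.1, (q.2.1 0, q.2.1 1 * q.2.1 2)) + E (q.1, q.2.1) = 0 ∧
      ∀ y : E4, rf q.2.2 (DF Ps Pu E M q.1 q.2.1 y) = 0 := by
    intro n
    obtain ⟨M, hM, t, ht, x, hx, hF, u, hu, hy⟩ := hcon ((n : ℝ) + 1) (by positivity)
    exact ⟨M, (t, x, u), hM, ht, hx, hu, hF, hy⟩
  choose M0 q0 hM0 ht0 hx0 hu0 hF0 hy0 using H
  have hop : IsOpen (T ×ˢ ({0}ᶜ : Set E4)) := hT.prod isOpen_compl_singleton
  have hK : IsCompact (Icc (0 : ℝ) 1 ×ˢ ((nsq (ι := Fin 4) ⁻¹' {1}) ×ˢ sphere (0 : ℂ) 1)) :=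
    isCompact_Icc.prod (isCompact_sph.prod (isCompact_sphere _ _))
  obtain ⟨⟨t, x, u⟩, ⟨ht, hx, hu⟩, φ, hφ, hlim⟩ := hK.tendsto_subseq
    (x := q0) fun n => ⟨ht0 n, hx0 n, by simpa using hu0 n⟩
  have hx1 : nsq x = 1 := hx
  have hu1 : ‖u‖ = 1 := by simpa using hu
  have hxne : x ≠ 0 := by
    rintro rfl
    have : nsq (0 : E4) = 0 := nsq_eq_zero.2 rfl
    rw [this] at hx1
    exact zero_ne_one hx1
  -- the subsequences
  set M : ℕ → ℝ := fun n => M0 (φ n) with hMdef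
  set tn : ℕ → ℝ := fun n => (q0 (φ n)).1 with htdef
  set xn : ℕ → E4 := fun n => (q0 (φ n)).2.1 with hxdef
  set un : ℕ → ℂ := fun n => (q0 (φ n)).2.2 with hudef
  have hMt : Tendsto M atTop atTop := by
    refine tendsto_atTop_mono (fun n => ?_) tendsto_natCast_atTop_atTop
    have h1 := hM0 (φ n)
    have h2 : (n : ℝ) ≤ (φ n : ℝ) := by exact_mod_cast hφ.id_le n
    simp only [hMdef]
    linarith
  have htn : Tendsto tn atTop (𝓝 t) := (continuous_fst.tendsto _).comp hlim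
  have hxn : Tendsto xn atTop (𝓝 x) :=
    ((continuous_fst.comp continuous_snd).tendsto _).comp hlim
  have hun : Tendsto un atTop (𝓝 u) :=
    ((continuous_snd.comp continuous_snd).tendsto _).comp hlim
  have hxi : ∀ i, Tendsto (fun n => xn n i) atTop (𝓝 (x i)) := fun i =>
    ((continuous_apply i).tendsto _).comp hxn
  have htI : ∀ n, tn n ∈ Icc (0 : ℝ) 1 := fun n => ht0 (φ n)
  have hxS : ∀ n, nsq (xn n) = 1 := fun n => hx0 (φ n)
  have huS : ∀ n, ‖un n‖ = 1 := fun n => hu0 (φ n)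
  have hF : ∀ n, (M n : ℂ) * P (tn n, (xn n 0, xn n 1 * xn n 2)) + E (tn n, xn n) = 0 :=
    fun n => hF0 (φ n)
  have hy : ∀ n (y : E4), rf (un n) (DF Ps Pu E (M n) (tn n) (xn n) y) = 0 :=
    fun n => hy0 (φ n)
  have hxne' : ∀ n, xn n ≠ 0 := by
    intro n h
    have h1 := hxS n
    have : nsq (0 : E4) = 0 := nsq_eq_zero.2 rfl
    rw [h, this] at h1
    exact zero_ne_one h1
  have hMpos : ∀ n, 0 < M n := fun n => by
    have := hM0 (φ n)
    have h2 : (0 : ℝ) ≤ (φ n : ℝ) := by positivity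
    simp only [hMdef]
    linarith
  -- norms of the coordinates
  have hle : ∀ n i, ‖xn n i‖ ≤ 1 := by
    intro n i
    have h1 : ‖xn n i‖ ^ 2 ≤ nsq (xn n) :=
      Finset.single_le_sum (f := fun i => ‖xn n i‖ ^ 2) (fun _ _ => by positivity)
        (Finset.mem_univ i)
    rw [hxS n] at h1
    nlinarith [norm_nonneg (xn n i)]
  -- bound for `fderiv E`
  have hdE : ContinuousOn (fun p => fderiv ℝ E p) (T ×ˢ ({0}ᶜ : Set E4)) :=
    hE.smooth.continuousOn_fderiv_of_isOpen hop (by norm_num)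
  have hKS : IsCompact (Icc (0 : ℝ) 1 ×ˢ (nsq (ι := Fin 4) ⁻¹' {1})) :=
    isCompact_Icc.prod isCompact_sph
  obtain ⟨K, hKb⟩ := hKS.exists_bound_of_continuousOn (hdE.mono fun p hp => ⟨hI hp.1, by
    intro h
    have h1 : nsq p.2 = 1 := hp.2
    have h2 : p.2 = 0 := h
    rw [h2, nsq_eq_zero.2 rfl] at h1
    exact zero_ne_one h1⟩)
  have hKn : ∀ n, ‖fderiv ℝ E (tn n, xn n)‖ ≤ K := fun n => hKb _ ⟨htI n, hxS n⟩
  -- the three bounded products
  have hs : ∀ n, ‖(M n : ℂ) * Ps (tn n, (xn n 0, xn n 1 * xn n 2))‖ ≤ K := by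
    intro n
    refine le_of_kill (huS n) (fun h => fderiv ℝ E (tn n, xn n) (0, Pi.single 0 h)) (fun h => ?_)
      fun h => ?_
    · refine (ContinuousLinearMap.le_opNorm _ _).trans ?_
      have h1 : ‖((0 : ℝ), (Pi.single 0 h : E4))‖ = ‖h‖ := by
        rw [Prod.norm_mk, norm_zero, Pi.norm_single, max_eq_right (norm_nonneg _)]
      rw [h1]
      exact mul_le_mul_of_nonneg_right (hKn n) (norm_nonneg _)
    · have h1 := hy n (Pi.single 0 h)
      unfold DF at h1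
      simp only [Pi.single_eq_same, Pi.single_eq_of_ne (show (1 : Fin 4) ≠ 0 by decide),
        Pi.single_eq_of_ne (show (2 : Fin 4) ≠ 0 by decide), mul_zero, add_zero] at h1
      rw [← mul_assoc] at h1
      exact h1
  have h2b : ∀ n, ‖(M n : ℂ) * (xn n 2 * Pu (tn n, (xn n 0, xn n 1 * xn n 2)))‖ ≤ K := by
    intro n
    refine le_of_kill (huS n) (fun h => fderiv ℝ E (tn n, xn n) (0, Pi.single 1 h)) (fun h => ?_)
      fun h => ?_
    · refine (ContinuousLinearMap.le_opNorm _ _).trans ?_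
      have h1 : ‖((0 : ℝ), (Pi.single 1 h : E4))‖ = ‖h‖ := by
        rw [Prod.norm_mk, norm_zero, Pi.norm_single, max_eq_right (norm_nonneg _)]
      rw [h1]
      exact mul_le_mul_of_nonneg_right (hKn n) (norm_nonneg _)
    · have h1 := hy n (Pi.single 1 h)
      unfold DF at h1
      simp only [Pi.single_eq_same, Pi.single_eq_of_ne (show (0 : Fin 4) ≠ 1 by decide),
        Pi.single_eq_of_ne (show (2 : Fin 4) ≠ 1 by decide), mul_zero, add_zero, zero_add] at h1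
      rw [show (M n : ℂ) * (xn n 2 * Pu (tn n, (xn n 0, xn n 1 * xn n 2))) * h =
        (M n : ℂ) * (Pu (tn n, (xn n 0, xn n 1 * xn n 2)) * (xn n 2 * h)) by ring]
      exact h1
  have h1b : ∀ n, ‖(M n : ℂ) * (xn n 1 * Pu (tn n, (xn n 0, xn n 1 * xn n 2)))‖ ≤ K := by
    intro n
    refine le_of_kill (huS n) (fun h => fderiv ℝ E (tn n, xn n) (0, Pi.single 2 h)) (fun h => ?_)
      fun h => ?_
    · refine (ContinuousLinearMap.le_opNorm _ _).trans ?_
      have h1 : ‖((0 : ℝ), (Pi.single 2 h : E4))‖ = ‖h‖ := by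
        rw [Prod.norm_mk, norm_zero, Pi.norm_single, max_eq_right (norm_nonneg _)]
      rw [h1]
      exact mul_le_mul_of_nonneg_right (hKn n) (norm_nonneg _)
    · have h1 := hy n (Pi.single 2 h)
      unfold DF at h1
      simp only [Pi.single_eq_same, Pi.single_eq_of_ne (show (0 : Fin 4) ≠ 2 by decide),
        Pi.single_eq_of_ne (show (1 : Fin 4) ≠ 2 by decide), mul_zero, zero_add] at h1
      rw [show (M n : ℂ) * (xn n 1 * Pu (tn n, (xn n 0, xn n 1 * xn n 2))) * h =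
        (M n : ℂ) * (Pu (tn n, (xn n 0, xn n 1 * xn n 2)) * (xn n 1 * h)) by ring]
      exact h1
  -- limits of `Ps`, `Pu`
  have hq : Tendsto (fun n => ((tn n, (xn n 0, xn n 1 * xn n 2)) : ℝ × ℂ × ℂ)) atTop
      (𝓝 (t, (x 0, x 1 * x 2))) :=
    htn.prodMk_nhds ((hxi 0).prodMk_nhds ((hxi 1).mul (hxi 2)))
  have hPsl : Tendsto (fun n => Ps (tn n, (xn n 0, xn n 1 * xn n 2))) atTop
      (𝓝 (Ps (t, (x 0, x 1 * x 2)))) :=
    (hP.cs.continuousAt ((hT.prod isOpen_univ).mem_nhds ⟨hI ht, mem_univ _⟩)).tendsto.comp hq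
  have hPul : Tendsto (fun n => Pu (tn n, (xn n 0, xn n 1 * xn n 2))) atTop
      (𝓝 (Pu (t, (x 0, x 1 * x 2)))) :=
    (hP.cu.continuousAt ((hT.prod isOpen_univ).mem_nhds ⟨hI ht, mem_univ _⟩)).tendsto.comp hq
  have hPs0 : Ps (t, (x 0, x 1 * x 2)) = 0 :=
    tendsto_nhds_unique hPsl (tendsto_of_mul hMt hs)
  have hP2 : x 2 * Pu (t, (x 0, x 1 * x 2)) = 0 :=
    tendsto_nhds_unique ((hxi 2).mul hPul) (tendsto_of_mul hMt h2b)
  have hP1 : x 1 * Pu (t, (x 0, x 1 * x 2)) = 0 :=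
    tendsto_nhds_unique ((hxi 1).mul hPul) (tendsto_of_mul hMt h1b)
  -- Euler
  have heu : ∀ n, (M n : ℂ) * P (tn n, (xn n 0, xn n 1 * xn n 2)) =
      (w 0 : ℂ) * (xn n 0 * ((M n : ℂ) * Ps (tn n, (xn n 0, xn n 1 * xn n 2)))) +
      ((w 1 + w 2 : ℝ) : ℂ) * (xn n 1 *
        ((M n : ℂ) * (xn n 2 * Pu (tn n, (xn n 0, xn n 1 * xn n 2))))) := by
    intro n
    rw [← hP.eul (tn n) (htI n)]
    ring
  -- the final contradiction: if along the plane of `v` everything of the core dies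
  have hmem : (t, x) ∈ T ×ˢ ({0}ᶜ : Set E4) := ⟨hI ht, hxne⟩
  have hEl : Tendsto (fun n => E (tn n, xn n)) atTop (𝓝 (E (t, x))) :=
    ((hE.smooth.continuousOn).continuousAt (hop.mem_nhds hmem)).tendsto.comp
      (htn.prodMk_nhds hxn)
  have hE0 : Tendsto (fun n => (M n : ℂ) * P (tn n, (xn n 0, xn n 1 * xn n 2))) atTop (𝓝 0) →
      E (t, x) = 0 := by
    intro h
    have h1 : (fun n => E (tn n, xn n)) =
        fun n => -((M n : ℂ) * P (tn n, (xn n 0, xn n 1 * xn n 2))) := by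
      funext n
      have := hF n
      linear_combination this
    have h2 := h.neg
    rw [neg_zero] at h2
    exact tendsto_nhds_unique hEl (h1 ▸ h2)
  have hdl : ∀ y : E4, Tendsto (fun n => fderiv ℝ E (tn n, xn n) (0, y)) atTop
      (𝓝 (fderiv ℝ E (t, x) (0, y))) := by
    intro y
    have h1 : Tendsto (fun n => fderiv ℝ E (tn n, xn n)) atTop (𝓝 (fderiv ℝ E (t, x))) :=
      (hdE.continuousAt (hop.mem_nhds hmem)).tendsto.comp (htn.prodMk_nhds hxn)
    exact ((ContinuousLinearMap.apply ℝ ℂ ((0 : ℝ), y)).continuous.tendsto _).comp h1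
  have hkill : ∀ y : E4, Tendsto (fun n => (M n : ℂ) *
      (Ps (tn n, (xn n 0, xn n 1 * xn n 2)) * y 0 +
        Pu (tn n, (xn n 0, xn n 1 * xn n 2)) * (xn n 2 * y 1 + xn n 1 * y 2))) atTop (𝓝 0) →
      rf u (fderiv ℝ E (t, x) (0, y)) = 0 := by
    intro y h
    have h1 := h.add (hdl y)
    rw [zero_add] at h1
    have h2 : Tendsto (fun n => rf (un n) (DF Ps Pu E (M n) (tn n) (xn n) y)) atTop
        (𝓝 (rf u (fderiv ℝ E (t, x) (0, y)))) :=
      (continuous_rf.tendsto (u, fderiv ℝ E (t, x) (0, y))).comp (hun.prodMk_nhds h1)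
    simp only [hy] at h2
    exact (tendsto_nhds_unique tendsto_const_nhds h2).symm
  have hfin : ∀ (v : Fin 3) (a b : ℂ), a ≠ 0 → x = pl v a b → E (t, x) = 0 →
      (∀ y1 y2 : ℂ, rf u (fderiv ℝ E (t, x) (0, pl v y1 y2)) = 0) → False := by
    intro v a b ha hxe h0 h
    subst hxe
    obtain ⟨y1, y2, hy12⟩ := hE.reg t ht v a b ha h0 u
    have h1 := h y1 y2
    rw [hy12, rf_self hu1] at h1
    exact one_ne_zero h1
  -- values of `pl`
  have hpl : ∀ (v : Fin 3) (a b : ℂ), pl v a b 0 = (if v = 0 then a else 0) ∧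
      pl v a b 1 = (if v = 1 then a else 0) ∧ pl v a b 2 = (if v = 2 then a else 0) ∧
      pl v a b 3 = b := by
    intro v a b
    fin_cases v <;> simp [pl]
  -- the products at the origin of the hub
  have hMP1 : x 0 = 0 → x 1 = 0 → Tendsto (fun n => (M n : ℂ) *
      P (tn n, (xn n 0, xn n 1 * xn n 2))) atTop (𝓝 0) := by
    intro e0 e1
    have a0 := tendsto_mul_zero (e0 ▸ hxi 0) hs
    have a1 := tendsto_mul_zero (e1 ▸ hxi 1) h2b
    have h := (a0.const_mul (w 0 : ℂ)).add (a1.const_mul ((w 1 + w 2 : ℝ) : ℂ))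
    simp only [mul_zero, add_zero] at h
    simp_rw [heu]
    exact h
  have hMP2 : x 0 = 0 → x 2 = 0 → Tendsto (fun n => (M n : ℂ) *
      P (tn n, (xn n 0, xn n 1 * xn n 2))) atTop (𝓝 0) := by
    intro e0 e2
    have a0 := tendsto_mul_zero (e0 ▸ hxi 0) hs
    have a1 := tendsto_mul_zero (e2 ▸ hxi 2) h1b
    have h := (a0.const_mul (w 0 : ℂ)).add (a1.const_mul ((w 1 + w 2 : ℝ) : ℂ))
    simp only [mul_zero, add_zero] at h
    simp_rw [heu]
    refine h.congr fun n => ?_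
    ring
  by_cases hall : x 0 = 0 ∧ x 1 = 0 ∧ x 2 = 0
  · obtain ⟨e0, e1, e2⟩ := hall
    have hxe : x = Pi.single 3 (x 3) := by
      funext i
      fin_cases i <;> simp [e0, e1, e2]
    have h3 : x 3 ≠ 0 := by
      intro h3
      rw [h3, Pi.single_zero] at hxe
      exact hxne hxe
    have h0 := hE0 (hMP1 e0 e1)
    rw [hxe] at h0
    exact hE.axis t ht _ h3 h0
  by_cases hPu : Pu (t, (x 0, x 1 * x 2)) = 0
  · obtain ⟨e0, e12⟩ := hP.iso t ht _ _ hPs0 hPu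
    rcases mul_eq_zero.1 e12 with e1 | e2
    · -- axis of `z`
      have hne : x 2 ≠ 0 := fun h => hall ⟨e0, e1, h⟩
      have hxe : x = pl 2 (x 2) (x 3) := by
        obtain ⟨a0, a1, a2, a3⟩ := hpl 2 (x 2) (x 3)
        funext i
        fin_cases i
        · simpa [e0] using a0.symm
        · simpa [e1] using a1.symm
        · simpa using a2.symm
        · simpa using a3.symm
      refine hfin 2 _ _ hne hxe (hE0 (hMP1 e0 e1)) fun y1 y2 => hkill _ ?_
      obtain ⟨a0, a1, a2, -⟩ := hpl 2 y1 y2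
      have h1 : Tendsto (fun n => xn n 1 / xn n 2) atTop (𝓝 0) := by
        have := (hxi 1).div (hxi 2) hne
        rwa [e1, zero_div] at this
      have h2 := (tendsto_mul_zero h1 h2b).const_mul y1
      rw [mul_zero] at h2
      refine h2.congr' ?_
      filter_upwards [(hxi 2).eventually_ne hne] with n hn
      rw [a0, a1, a2]
      simp only [show ¬((2 : Fin 3) = 0) by decide, show ¬((2 : Fin 3) = 1) by decide, if_false,
        if_true]
      field_simp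
      ring
    · -- axis of `y`
      have hne : x 1 ≠ 0 := fun h => hall ⟨e0, h, e2⟩
      have hxe : x = pl 1 (x 1) (x 3) := by
        obtain ⟨a0, a1, a2, a3⟩ := hpl 1 (x 1) (x 3)
        funext i
        fin_cases i
        · simpa [e0] using a0.symm
        · simpa using a1.symm
        · simpa [e2] using a2.symm
        · simpa using a3.symm
      refine hfin 1 _ _ hne hxe (hE0 (hMP2 e0 e2)) fun y1 y2 => hkill _ ?_
      obtain ⟨a0, a1, a2, -⟩ := hpl 1 y1 y2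
      have h1 : Tendsto (fun n => xn n 2 / xn n 1) atTop (𝓝 0) := by
        have := (hxi 2).div (hxi 1) hne
        rwa [e2, zero_div] at this
      have h2 := (tendsto_mul_zero h1 h1b).const_mul y1
      rw [mul_zero] at h2
      refine h2.congr' ?_
      filter_upwards [(hxi 1).eventually_ne hne] with n hn
      rw [a0, a1, a2]
      simp only [show ¬((1 : Fin 3) = 0) by decide, show ¬((1 : Fin 3) = 2) by decide, if_false,
        if_true]
      field_simp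
      ring
  · -- axis of `x`
    have e1 : x 1 = 0 := (mul_eq_zero.1 hP1).resolve_right hPu
    have e2 : x 2 = 0 := (mul_eq_zero.1 hP2).resolve_right hPu
    have hne : x 0 ≠ 0 := fun h => hall ⟨h, e1, e2⟩
    have hxe : x = pl 0 (x 0) (x 3) := by
      obtain ⟨a0, a1, a2, a3⟩ := hpl 0 (x 0) (x 3)
      funext i
      fin_cases i
      · simpa using a0.symm
      · simpa [e1] using a1.symm
      · simpa [e2] using a2.symm
      · simpa using a3.symm
    obtain ⟨C, hC0, hC⟩ := core_bound hT hI hP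
    -- `M x₁ x₂ → 0`
    have h1 : Tendsto (fun n => xn n 2 / Pu (tn n, (xn n 0, xn n 1 * xn n 2))) atTop (𝓝 0) := by
      have := (hxi 2).div hPul hPu
      rwa [e2, zero_div] at this
    have h2 : Tendsto (fun n => (M n : ℂ) * (xn n 1 * xn n 2)) atTop (𝓝 0) := by
      refine (tendsto_mul_zero h1 h1b).congr' ?_
      filter_upwards [hPul.eventually_ne hPu] with n hn
      generalize Pu (tn n, (xn n 0, xn n 1 * xn n 2)) = c at hn ⊢
      field_simp
    have hMP : Tendsto (fun n => (M n : ℂ) * P (tn n, (xn n 0, xn n 1 * xn n 2))) atTop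
        (𝓝 0) := by
      rw [tendsto_zero_iff_norm_tendsto_zero] at h2 ⊢
      have h3 := h2.const_mul C
      rw [mul_zero] at h3
      refine squeeze_zero (fun n => norm_nonneg _) (fun n => ?_) h3
      rw [norm_mul, norm_mul]
      have h12 : ‖xn n 1 * xn n 2‖ ≤ 1 := by
        rw [norm_mul]
        exact mul_le_one₀ (hle n 1) (norm_nonneg _) (hle n 2)
      have h4 := hC (tn n) (htI n) (xn n 0) (xn n 1 * xn n 2) (hle n 0) h12
      calc ‖(M n : ℂ)‖ * ‖P (tn n, (xn n 0, xn n 1 * xn n 2))‖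
          ≤ ‖(M n : ℂ)‖ * (C * ‖xn n 1 * xn n 2‖) :=
            mul_le_mul_of_nonneg_left h4 (norm_nonneg _)
        _ = C * (‖(M n : ℂ)‖ * ‖xn n 1 * xn n 2‖) := by ring
    have hMPs : Tendsto (fun n => (M n : ℂ) * Ps (tn n, (xn n 0, xn n 1 * xn n 2))) atTop
        (𝓝 0) := by
      have a1 := (tendsto_mul_zero (e1 ▸ hxi 1) h2b).const_mul ((w 1 + w 2 : ℝ) : ℂ)
      have a2 := hMP.sub a1
      rw [mul_zero, sub_zero] at a2
      have hw0' : (w 0 : ℂ) ≠ 0 := by exact_mod_cast hw0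
      have a3 := a2.div ((hxi 0).const_mul (w 0 : ℂ)) (mul_ne_zero hw0' hne)
      rw [zero_div] at a3
      refine a3.congr' ?_
      filter_upwards [(hxi 0).eventually_ne hne] with n hn
      simp only [Pi.div_apply]
      rw [heu n]
      generalize Ps (tn n, (xn n 0, xn n 1 * xn n 2)) = c
      generalize Pu (tn n, (xn n 0, xn n 1 * xn n 2)) = d
      field_simp
      ring
    refine hfin 0 _ _ hne hxe (hE0 hMP) fun y1 y2 => hkill _ ?_
    obtain ⟨a0, a1, a2, -⟩ := hpl 0 y1 y2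
    have h3 := hMPs.mul_const y1
    rw [zero_mul] at h3
    refine h3.congr fun n => ?_
    rw [a0, a1, a2]
    simp only [show ¬((0 : Fin 3) = 1) by decide, show ¬((0 : Fin 3) = 2) by decide, if_false,
      if_true]
    ring

/-- regularity on the sphere gives regularity everywhere. -/
theorem reg_of_sph {ι : Type} [Fintype ι] {w : ι → ℝ} (hw : ∀ i, 0 < w i)
    {F : ℝ × (ι → ℂ) → ℂ} (hT : IsOpen T) (hC : ContDiffOn ℝ 2 F (T ×ˢ {0}ᶜ)) {t : ℝ}
    (ht : t ∈ T) (hom : ∀ (s : ℝ) (x : ι → ℂ), F (t, act w s x) = Real.exp s • F (t, x))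
    (H : ∀ x : ι → ℂ, nsq x = 1 → F (t, x) = 0 → ∀ u : ℂ, ‖u‖ = 1 →
      ∃ y : ι → ℂ, rf u (fderiv ℝ F (t, x) (0, y)) ≠ 0) (x : ι → ℂ) (hx : x ≠ 0)
    (hz : F (t, x) = 0) (c : ℂ) : ∃ y : ι → ℂ, fderiv ℝ F (t, x) (0, y) = c := by
  have hop : IsOpen (T ×ˢ ({0}ᶜ : Set (ι → ℂ))) := hT.prod isOpen_compl_singleton
  obtain ⟨s, hs, -⟩ := exists_unique_time hw hx
  have hne : act w (-s) x ≠ 0 := act_ne_zero hx
  have hzs : F (t, act w (-s) x) = 0 := by rw [hom, hz, smul_zero]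
  have hd : ∀ z : ι → ℂ, z ≠ 0 → DifferentiableAt ℝ F (t, z) := fun z hz' =>
    (hC.contDiffAt (hop.mem_nhds (show (t, z) ∈ T ×ˢ ({0}ᶜ : Set (ι → ℂ)) from
      ⟨ht, hz'⟩))).differentiableAt (by norm_num)
  -- surjectivity at the normalised point
  have hsur : ∀ c : ℂ, ∃ y : ι → ℂ, fderiv ℝ F (t, act w (-s) x) (0, y) = c := by
    let L : (ι → ℂ) →ₗ[ℝ] ℂ :=
      ((fderiv ℝ F (t, act w (-s) x)).comp (ContinuousLinearMap.inr ℝ ℝ (ι → ℂ)))
    have hL : ∀ y, L y = fderiv ℝ F (t, act w (-s) x) (0, y) := fun y => rfl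
    have hS : Function.Surjective L := by
      by_contra h
      obtain ⟨u, hu, -, h0⟩ := exists_conormal L h
      obtain ⟨y, hy⟩ := H _ hs hzs u hu
      exact hy (hL y ▸ h0 y)
    intro c
    obtain ⟨y, hy⟩ := hS c
    exact ⟨y, hL y ▸ hy⟩
  obtain ⟨y, hy⟩ := hsur (Real.exp (-s) • c)
  let a : (ι → ℂ) →L[ℝ] (ι → ℂ) :=
    ContinuousLinearMap.pi fun i => (Real.exp (-s * w i)) • ContinuousLinearMap.proj i
  have ha : ∀ x, a x = act w (-s) x := by
    intro x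
    funext i
    simp [a, act]
  have ha' : (fun x => act w (-s) x) = a := funext fun x => (ha x).symm
  have k0 : ∀ z : ι → ℂ, z ≠ 0 → HasFDerivAt (fun z => F (t, z))
      ((fderiv ℝ F (t, z)).comp (ContinuousLinearMap.inr ℝ ℝ (ι → ℂ))) z := fun z hz' =>
    (hd z hz').hasFDerivAt.comp z (hasFDerivAt_prodMk_right t z)
  have k1 : HasFDerivAt (fun x => F (t, act w (-s) x))
      (((fderiv ℝ F (t, act w (-s) x)).comp (ContinuousLinearMap.inr ℝ ℝ (ι → ℂ))).comp a) x := by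
    have h3 : HasFDerivAt (fun x => act w (-s) x) a x := by
      rw [ha']; exact a.hasFDerivAt
    exact (k0 _ hne).comp x h3
  have k2 : HasFDerivAt (fun x => F (t, act w (-s) x))
      (Real.exp (-s) • (fderiv ℝ F (t, x)).comp (ContinuousLinearMap.inr ℝ ℝ (ι → ℂ))) x := by
    have e : (fun x => F (t, act w (-s) x)) = fun x => Real.exp (-s) • F (t, x) :=
      funext fun x => hom (-s) x
    rw [e]
    exact (k0 x hx).const_smul (Real.exp (-s))
  have k3 := k1.unique k2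
  refine ⟨act w s y, ?_⟩
  have k4 := congrArg (fun l : (ι → ℂ) →L[ℝ] ℂ => l (act w s y)) k3
  simp only [ContinuousLinearMap.comp_apply] at k4
  rw [ha, act_neg_act] at k4
  change fderiv ℝ F (t, act w (-s) x) (0, y) =
    Real.exp (-s) • fderiv ℝ F (t, x) (0, act w s y) at k4
  rw [hy] at k4
  exact (smul_right_injective ℂ (Real.exp_pos (-s)).ne' k4).symm

theorem CF_actW {M : ℝ → ℝ} (hP : Core w T P Ps Pu) {w' : Fin 4 → ℝ} (h0 : w' 0 = w 0)
    (h12 : w' 1 + w' 2 = w 1 + w 2) {t : ℝ} (ht : t ∈ Icc (0 : ℝ) 1) (s : ℝ)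
    (x : E4) : CF M P (t, act w' s x) = Real.exp s • CF M P (t, x) := by
  unfold CF
  have := hP.hom t ht s (x 0) (x 1 * x 2)
  have e : ((Real.exp (s * w' 1) : ℝ) : ℂ) * ((Real.exp (s * w' 2) : ℝ) : ℂ) =
      ((Real.exp (s * w 1) : ℝ) : ℂ) * ((Real.exp (s * w 2) : ℝ) : ℂ) := by
    have e1 : Real.exp (s * w' 1) * Real.exp (s * w' 2) =
        Real.exp (s * w 1) * Real.exp (s * w 2) := by
      rw [← Real.exp_add, ← Real.exp_add]
      congr 1
      linear_combination s * h12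
    exact_mod_cast e1
  simp only [act] at this ⊢
  rw [show ((Real.exp (s * w' 1) : ℝ) : ℂ) * x 1 * (((Real.exp (s * w' 2) : ℝ) : ℂ) * x 2) =
    (((Real.exp (s * w' 1) : ℝ) : ℂ) * ((Real.exp (s * w' 2) : ℝ) : ℂ)) * (x 1 * x 2) by ring]
  rw [e, h0, this, mul_smul_comm]

/-- **the general amalgam theorem, moving weights**: only `w x` and `w y + w z` are fixed. -/
theorem gamW (hw : ∀ i, 0 < w i) {w' : ℝ → Fin 4 → ℝ}
    (hw' : ∀ t ∈ Icc (0 : ℝ) 1, ∀ i, 0 < w' t i) (h0 : ∀ t ∈ Icc (0 : ℝ) 1, w' t 0 = w 0)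
    (h12 : ∀ t ∈ Icc (0 : ℝ) 1, w' t 1 + w' t 2 = w 1 + w 2)
    (hT : IsOpen T) (hI : Icc (0 : ℝ) 1 ⊆ T)
    (hP : Core w T P Ps Pu) (hE : RemW w' T E) : ∃ M0 > 0, ∀ M : ℝ → ℝ, ContDiff ℝ 2 M →
    (∀ t ∈ Icc (0 : ℝ) 1, M0 ≤ M t) →
    HPath0 (fun q : ℝ × E4 => (M q.1 : ℂ) * P (q.1, (q.2 0, q.2 1 * q.2 2)) + E q) := by
  obtain ⟨M0, hM0, H⟩ := sph_reg hT hI hP hE.toRem0 (hw 0).ne'
  refine ⟨M0, hM0, fun M hM hMt => ?_⟩
  have hop : IsOpen (T ×ˢ ({0}ᶜ : Set E4)) := hT.prod isOpen_compl_singleton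
  have hsm : ContDiffOn ℝ 2 (fun q : ℝ × E4 =>
      (M q.1 : ℂ) * P (q.1, (q.2 0, q.2 1 * q.2 2)) + E q) (T ×ˢ {0}ᶜ) :=
    ((contDiffOn_CF hM hP).mono (prod_mono Subset.rfl (subset_univ _))).add hE.smooth
  have hhom : ∀ t ∈ Icc (0 : ℝ) 1, ∀ (s : ℝ) (x : E4),
      (fun q : ℝ × E4 => (M q.1 : ℂ) * P (q.1, (q.2 0, q.2 1 * q.2 2)) + E q)
        (t, act (w' t) s x) = Real.exp s •
      (fun q : ℝ × E4 => (M q.1 : ℂ) * P (q.1, (q.2 0, q.2 1 * q.2 2)) + E q) (t, x) := by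
    intro t ht s x
    have h1 := CF_actW (M := M) hP (h0 t ht) (h12 t ht) ht s x
    have h2 := hE.hom t ht s x
    unfold CF at h1
    simp only at h1 ⊢
    rw [h1, h2, smul_add]
  refine ⟨⟨T, hT, hI, hsm⟩, fun t ht => ⟨w' t, hw' t ht, hhom t ht⟩, fun t ht x hx hz c => ?_⟩
  refine reg_of_sph (hw' t ht) hT hsm (hI ht) (hhom t ht) (fun z hz1 hz0 u hu => ?_) x hx hz c
  obtain ⟨y, hy⟩ := H (M t) (hMt t ht) t ht z hz1 hz0 u hu
  refine ⟨y, ?_⟩
  have hzne : z ≠ 0 := by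
    rintro rfl
    rw [nsq_eq_zero.2 rfl] at hz1
    exact zero_ne_one hz1
  have hmem : (t, z) ∈ T ×ˢ ({0}ᶜ : Set E4) := ⟨hI ht, hzne⟩
  have hdC : DifferentiableAt ℝ (CF M P) (t, z) :=
    ((contDiffOn_CF hM hP _ ⟨hI ht, mem_univ _⟩).contDiffAt
      ((hT.prod isOpen_univ).mem_nhds ⟨hI ht, mem_univ _⟩)).differentiableAt (by norm_num)
  have hdE : DifferentiableAt ℝ E (t, z) :=
    (hE.smooth.contDiffAt (hop.mem_nhds hmem)).differentiableAt (by norm_num)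
  have e1 : fderiv ℝ (fun q : ℝ × E4 =>
      (M q.1 : ℂ) * P (q.1, (q.2 0, q.2 1 * q.2 2)) + E q) (t, z) (0, y) =
      DF Ps Pu E (M t) t z y := by
    have : (fun q : ℝ × E4 => (M q.1 : ℂ) * P (q.1, (q.2 0, q.2 1 * q.2 2)) + E q) =
        fun q => CF M P q + E q := rfl
    rw [this, fderiv_fun_add hdC hdE, _root_.add_apply,
      fderiv_CF hM hT hP (hI ht)]
    rfl
  rw [e1]
  exact hy


/-- regularity of the plane function in terms of its own derivative. -/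
theorem reg_plane (hT : IsOpen T) (hC : ContDiffOn ℝ 2 E (T ×ˢ {0}ᶜ)) {t : ℝ} (ht : t ∈ T)
    {v : Fin 3} {u z : ℂ} (hu : u ≠ 0)
    (h : ∀ c : ℂ, ∃ y : ℂ × ℂ, fderiv ℝ (fun q : ℂ × ℂ => E (t, pl v q.1 q.2)) (u, z) y = c) :
    ∀ c : ℂ, ∃ y1 y2 : ℂ, fderiv ℝ E (t, pl v u z) (0, pl v y1 y2) = c := by
  have hop : IsOpen (T ×ˢ ({0}ᶜ : Set E4)) := hT.prod isOpen_compl_singleton
  have hne : pl v u z ≠ 0 := by
    intro h0
    have h1 := congrFun h0 v.castSucc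
    have h2 : (3 : Fin 4) ≠ v.castSucc := (Fin.castSucc_lt_last v).ne'
    simp only [pl, Pi.add_apply, Pi.single_eq_same, Pi.single_eq_of_ne' h2, add_zero,
      Pi.zero_apply] at h1
    exact hu h1
  have hmem : (t, pl v u z) ∈ T ×ˢ ({0}ᶜ : Set E4) := ⟨ht, hne⟩
  have hd : DifferentiableAt ℝ E (t, pl v u z) :=
    (hC.contDiffAt (hop.mem_nhds hmem)).differentiableAt (by norm_num)
  let L : ℂ × ℂ →L[ℝ] E4 :=
    (ContinuousLinearMap.single ℝ (fun _ : Fin 4 => ℂ) v.castSucc).comp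
        (ContinuousLinearMap.fst ℝ ℂ ℂ) +
      (ContinuousLinearMap.single ℝ (fun _ : Fin 4 => ℂ) 3).comp (ContinuousLinearMap.snd ℝ ℂ ℂ)
  have hL : ∀ q : ℂ × ℂ, L q = pl v q.1 q.2 := fun q => rfl
  have h1 : HasFDerivAt (fun q : ℂ × ℂ => pl v q.1 q.2) L (u, z) := by
    have : (fun q : ℂ × ℂ => pl v q.1 q.2) = L := funext fun q => (hL q).symm
    rw [this]
    exact L.hasFDerivAt
  have h3 : HasFDerivAt (fun x : E4 => E (t, x))
      ((fderiv ℝ E (t, pl v u z)).comp (ContinuousLinearMap.inr ℝ ℝ E4)) (pl v u z) :=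
    hd.hasFDerivAt.comp (pl v u z) (hasFDerivAt_prodMk_right t (pl v u z))
  have h2 : HasFDerivAt (fun q : ℂ × ℂ => E (t, pl v q.1 q.2))
      (((fderiv ℝ E (t, pl v u z)).comp (ContinuousLinearMap.inr ℝ ℝ E4)).comp L) (u, z) :=
    HasFDerivAt.comp (g := fun x : E4 => E (t, x)) (f := fun q : ℂ × ℂ => pl v q.1 q.2)
      (u, z) h3 h1
  intro c
  obtain ⟨y, hy⟩ := h c
  rw [h2.fderiv] at hy
  exact ⟨y.1, y.2, hy⟩

/-! ### the polynomial cores -/

/-- the cores `m s² u + n s u³ + k u⁵` (`b = true`) and `m s u² + n s³ u` (`b = false`). -/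
def P3 (b : Bool) (m n k : ℝ → ℂ) (q : ℝ × ℂ × ℂ) : ℂ :=
  bif b then m q.1 * (q.2.1 ^ 2 * q.2.2) + n q.1 * (q.2.1 * q.2.2 ^ 3) + k q.1 * q.2.2 ^ 5
  else m q.1 * (q.2.1 * q.2.2 ^ 2) + n q.1 * (q.2.1 ^ 3 * q.2.2)

/-- derivative in `s`. -/
def P3s (b : Bool) (m n _k : ℝ → ℂ) (q : ℝ × ℂ × ℂ) : ℂ :=
  bif b then m q.1 * (2 * q.2.1 * q.2.2) + n q.1 * q.2.2 ^ 3
  else m q.1 * q.2.2 ^ 2 + n q.1 * (3 * q.2.1 ^ 2 * q.2.2)

/-- derivative in `u`. -/
def P3u (b : Bool) (m n k : ℝ → ℂ) (q : ℝ × ℂ × ℂ) : ℂ :=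
  bif b then m q.1 * q.2.1 ^ 2 + n q.1 * (3 * q.2.1 * q.2.2 ^ 2) + k q.1 * (5 * q.2.2 ^ 4)
  else m q.1 * (2 * q.2.1 * q.2.2) + n q.1 * q.2.1 ^ 3

/-- weights of `x, y, z, w`. -/
def wt (b : Bool) : Fin 4 → ℝ := bif b then ![6 / 15, 2 / 15, 1 / 15, 1 / 15]
  else ![3 / 15, 5 / 15, 1 / 15, 1 / 15]

theorem wt_pos (b : Bool) (i : Fin 4) : 0 < wt b i := by
  cases b <;> fin_cases i <;> simp [wt]

theorem contDiff_P3 (b : Bool) {m n k : ℝ → ℂ} (hm : ContDiff ℝ 2 m) (hn : ContDiff ℝ 2 n)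
    (hk : ContDiff ℝ 2 k) : ContDiff ℝ 2 (P3 b m n k) := by
  have h1 : ContDiff ℝ 2 fun q : ℝ × ℂ × ℂ => m q.1 := hm.comp contDiff_fst
  have h2 : ContDiff ℝ 2 fun q : ℝ × ℂ × ℂ => n q.1 := hn.comp contDiff_fst
  have h3 : ContDiff ℝ 2 fun q : ℝ × ℂ × ℂ => k q.1 := hk.comp contDiff_fst
  have hs : ContDiff ℝ 2 fun q : ℝ × ℂ × ℂ => q.2.1 := by fun_prop
  have hu : ContDiff ℝ 2 fun q : ℝ × ℂ × ℂ => q.2.2 := by fun_prop
  cases b
  · exact (h1.mul (hs.mul (hu.pow 2))).add (h2.mul ((hs.pow 3).mul hu))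
  · exact ((h1.mul ((hs.pow 2).mul hu)).add (h2.mul (hs.mul (hu.pow 3)))).add (h3.mul (hu.pow 5))

theorem core_P3 (b : Bool) {m n k : ℝ → ℂ} (hm : ContDiff ℝ 2 m) (hn : ContDiff ℝ 2 n)
    (hk : ContDiff ℝ 2 k) (hm0 : ∀ t ∈ Icc (0 : ℝ) 1, m t ≠ 0)
    (hn0 : b = false → ∀ t ∈ Icc (0 : ℝ) 1, n t ≠ 0)
    (hk0 : b = true → ∀ t ∈ Icc (0 : ℝ) 1, n t ^ 2 ≠ 4 * (m t * k t)) :
    Core (wt b) univ (P3 b m n k) (P3s b m n k) (P3u b m n k) := by
  have cm : Continuous fun q : ℝ × ℂ × ℂ => m q.1 := hm.continuous.comp continuous_fst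
  have cn : Continuous fun q : ℝ × ℂ × ℂ => n q.1 := hn.continuous.comp continuous_fst
  have ck : Continuous fun q : ℝ × ℂ × ℂ => k q.1 := hk.continuous.comp continuous_fst
  have cs : Continuous fun q : ℝ × ℂ × ℂ => q.2.1 := by fun_prop
  have cu : Continuous fun q : ℝ × ℂ × ℂ => q.2.2 := by fun_prop
  refine ⟨(contDiff_P3 b hm hn hk).contDiffOn, ?_, ?_, ?_, ?_, ?_, ?_, ?_⟩
  · refine Continuous.continuousOn ?_
    cases b
    · exact (cm.mul (cu.pow 2)).add (cn.mul ((continuous_const.mul (cs.pow 2)).mul cu))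
    · exact (cm.mul ((continuous_const.mul cs).mul cu)).add (cn.mul (cu.pow 3))
  · refine Continuous.continuousOn ?_
    cases b
    · exact (cm.mul ((continuous_const.mul cs).mul cu)).add (cn.mul (cs.pow 3))
    · exact ((cm.mul (cs.pow 2)).add (cn.mul ((continuous_const.mul cs).mul (cu.pow 2)))).add
        (ck.mul (continuous_const.mul (cu.pow 4)))
  · intro t _ s u a c
    have hd : DifferentiableAt ℝ (P3 b m n k) (t, (s, u)) :=
      (contDiff_P3 b hm hn hk).contDiffAt.differentiableAt (by norm_num)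
    have h1 : HasDerivAt (fun h : ℝ => ((t, (s + (h : ℂ) * a, u + (h : ℂ) * c)) : ℝ × ℂ × ℂ))
        (0, (a, c)) 0 := by
      have h2 : HasDerivAt (fun h : ℝ => (h : ℂ)) 1 0 := Complex.ofRealCLM.hasDerivAt
      have h3 := (hasDerivAt_const (0 : ℝ) t).prodMk
        (((h2.mul_const a).const_add s).prodMk ((h2.mul_const c).const_add u))
      simpa using h3
    have h2 : HasDerivAt (fun h : ℝ => P3 b m n k (t, (s + (h : ℂ) * a, u + (h : ℂ) * c)))
        (fderiv ℝ (P3 b m n k) (t, (s, u)) (0, (a, c))) 0 := by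
      have h3 : HasFDerivAt (P3 b m n k) (fderiv ℝ (P3 b m n k) (t, (s, u)))
          ((fun h : ℝ => ((t, (s + (h : ℂ) * a, u + (h : ℂ) * c)) : ℝ × ℂ × ℂ)) 0) := by
        simpa using hd.hasFDerivAt
      exact h3.comp_hasDerivAt 0 h1
    have hsd : HasDerivAt (fun h : ℝ => s + (h : ℂ) * a) a 0 := by
      have h2 : HasDerivAt (fun h : ℝ => (h : ℂ)) 1 0 := Complex.ofRealCLM.hasDerivAt
      simpa using (h2.mul_const a).const_add s
    have hud : HasDerivAt (fun h : ℝ => u + (h : ℂ) * c) c 0 := by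
      have h2 : HasDerivAt (fun h : ℝ => (h : ℂ)) 1 0 := Complex.ofRealCLM.hasDerivAt
      simpa using (h2.mul_const c).const_add u
    refine h2.unique ?_
    cases b
    · have h3 := ((hsd.mul (hud.pow 2)).const_mul (m t)).add
        (((hsd.pow 3).mul hud).const_mul (n t))
      refine HasDerivAt.congr_deriv h3 ?_
      simp [P3s, P3u]
      ring
    · have h3 := ((((hsd.pow 2).mul hud).const_mul (m t)).add
        ((hsd.mul (hud.pow 3)).const_mul (n t))).add ((hud.pow 5).const_mul (k t))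
      refine HasDerivAt.congr_deriv h3 ?_
      simp [P3s, P3u]
      ring
  · intro t _ r s u
    cases b
    · have e1 : Real.exp (r * wt false 0) = Real.exp (r / 5) := by
        congr 1; simp [wt]; ring
      have e2 : Real.exp (r * wt false 1) * Real.exp (r * wt false 2) = Real.exp (r / 5) ^ 2 := by
        rw [← Real.exp_add, ← Real.exp_nat_mul]; congr 1; simp [wt]; ring
      have e3 : Real.exp r = Real.exp (r / 5) ^ 5 := by
        rw [← Real.exp_nat_mul]; congr 1; push_cast; ring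
      have e2' : (Real.exp (r * wt false 1) * Real.exp (r * wt false 2) : ℂ) =
          ((Real.exp (r / 5) : ℝ) : ℂ) ^ 2 := by exact_mod_cast e2
      rw [e2', e1, e3]
      simp only [P3, cond_false, Complex.real_smul]
      push_cast
      ring
    · have e1 : Real.exp (r * wt true 0) = Real.exp (r / 5) ^ 2 := by
        rw [← Real.exp_nat_mul]; congr 1; simp [wt]; ring
      have e2 : Real.exp (r * wt true 1) * Real.exp (r * wt true 2) = Real.exp (r / 5) := by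
        rw [← Real.exp_add]; congr 1; simp [wt]; ring
      have e3 : Real.exp r = Real.exp (r / 5) ^ 5 := by
        rw [← Real.exp_nat_mul]; congr 1; push_cast; ring
      have e2' : (Real.exp (r * wt true 1) * Real.exp (r * wt true 2) : ℂ) =
          ((Real.exp (r / 5) : ℝ) : ℂ) := by exact_mod_cast e2
      rw [e2', e1, e3]
      simp only [P3, cond_true, Complex.real_smul]
      push_cast
      ring
  · intro t _ s u
    cases b
    · have e1 : wt false 0 = 1 / 5 := by simp [wt]; norm_num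
      have e2 : wt false 1 + wt false 2 = 2 / 5 := by simp [wt]; norm_num
      rw [e1, e2]
      simp only [P3, P3s, P3u, cond_false]
      push_cast
      ring
    · have e1 : wt true 0 = 2 / 5 := by simp [wt]; norm_num
      have e2 : wt true 1 + wt true 2 = 1 / 5 := by simp [wt]; norm_num
      rw [e1, e2]
      simp only [P3, P3s, P3u, cond_true]
      push_cast
      ring
  · intro t ht s u h1 h2
    cases b
    · simp only [P3s, P3u, cond_false] at h1 h2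
      have a1 : u * (m t * u + 3 * (n t * s ^ 2)) = 0 := by linear_combination h1
      have a2 : s * (2 * (m t * u) + n t * s ^ 2) = 0 := by linear_combination h2
      rcases mul_eq_zero.1 a1 with hu | hu
      · refine ⟨?_, hu⟩
        rw [hu] at h2
        have h3 : n t * s ^ 3 = 0 := by linear_combination h2
        exact pow_eq_zero_iff (by norm_num) |>.1
          ((mul_eq_zero.1 h3).resolve_left (hn0 rfl t ht))
      · rcases mul_eq_zero.1 a2 with hs | hs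
        · refine ⟨hs, ?_⟩
          rw [hs] at hu
          have h3 : m t * u = 0 := by linear_combination hu
          exact (mul_eq_zero.1 h3).resolve_left (hm0 t ht)
        · have h3 : n t * s ^ 2 = 0 := by linear_combination (2 * hu - hs) / 5
          have h4 : s = 0 := pow_eq_zero_iff (by norm_num) |>.1
            ((mul_eq_zero.1 h3).resolve_left (hn0 rfl t ht))
          refine ⟨h4, ?_⟩
          rw [h4] at hu
          have h5 : m t * u = 0 := by linear_combination hu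
          exact (mul_eq_zero.1 h5).resolve_left (hm0 t ht)
    · simp only [P3s, P3u, cond_true] at h1 h2
      have a1 : u * (2 * (m t * s) + n t * u ^ 2) = 0 := by linear_combination h1
      have hu : u = 0 := by
        by_contra hu
        have a2 := (mul_eq_zero.1 a1).resolve_left hu
        have a3 : (n t ^ 2 - 4 * (m t * k t)) * u ^ 4 = 0 := by
          linear_combination (-4 * m t / 5) * h2 + ((2 * (m t * s) + 5 * (n t * u ^ 2)) / 5) * a2
        rcases mul_eq_zero.1 a3 with a4 | a4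
        · exact hk0 rfl t ht (sub_eq_zero.1 a4)
        · exact hu (pow_eq_zero_iff (by norm_num) |>.1 a4)
      refine ⟨?_, hu⟩
      rw [hu] at h2
      have h3 : m t * s ^ 2 = 0 := by linear_combination h2
      exact pow_eq_zero_iff (by norm_num) |>.1 ((mul_eq_zero.1 h3).resolve_left (hm0 t ht))
  · intro t _ s
    cases b <;> simp [P3]

end Crest.Agent.R267.Gam_100
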