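import Crest.Agent.R267.Calc2_957

/-!
# Row 267, T3a: derivatives of the total gauge, the cut-offs and of `G`
-/

set_option autoImplicit false

noncomputable section

namespace Crest.Agent.R267.Calc3_957

open Finset T3aDefs_957 Calc_957 Calc2_957

variable {N : ℕ}

/-! ### coordinates -/

/-- real part of the coordinate `j`. -/
def rej (j : Fin N) : (Fin N → ℂ) →L[ℝ] ℝ :=
  Complex.reCLM.comp (ContinuousLinearMap.proj j)

/-- imaginary part of the coordinate `j`. -/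
def imj (j : Fin N) : (Fin N → ℂ) →L[ℝ] ℝ :=
  Complex.imCLM.comp (ContinuousLinearMap.proj j)

@[simp] theorem rej_apply (j : Fin N) (y : Fin N → ℂ) : rej j y = (y j).re := rfl

@[simp] theorem imj_apply (j : Fin N) (y : Fin N → ℂ) : imj j y = (y j).im := rfl

/-- `|s|²`. -/
def AA (z : Fin N → ℂ) : ℝ := ∑ j, (z j).re ^ 2

/-- `|t|²`. -/
def BB (z : Fin N → ℂ) : ℝ := ∑ j, (z j).im ^ 2

/-- `y ↦ ∑ s_j Re y_j`. -/
def sr (z : Fin N → ℂ) : (Fin N → ℂ) →L[ℝ] ℝ := ∑ j, (z j).re • rej j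

/-- `y ↦ ∑ t_j Im y_j`. -/
def si (z : Fin N → ℂ) : (Fin N → ℂ) →L[ℝ] ℝ := ∑ j, (z j).im • imj j

theorem sr_apply (z y : Fin N → ℂ) : sr z y = ∑ j, (z j).re * (y j).re := by
  simp [sr]

theorem si_apply (z y : Fin N → ℂ) : si z y = ∑ j, (z j).im * (y j).im := by
  simp [si]

theorem AA_nonneg (z : Fin N → ℂ) : 0 ≤ AA z := sum_nonneg fun _ _ => sq_nonneg _

theorem BB_nonneg (z : Fin N → ℂ) : 0 ≤ BB z := sum_nonneg fun _ _ => sq_nonneg _

theorem re_sq_le_AA (z : Fin N → ℂ) (j : Fin N) : (z j).re ^ 2 ≤ AA z :=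
  single_le_sum (f := fun j => (z j).re ^ 2) (fun _ _ => sq_nonneg _) (mem_univ j)

theorem im_sq_le_BB (z : Fin N → ℂ) (j : Fin N) : (z j).im ^ 2 ≤ BB z :=
  single_le_sum (f := fun j => (z j).im ^ 2) (fun _ _ => sq_nonneg _) (mem_univ j)

theorem AA_add_BB_ne {z : Fin N → ℂ} (hz : z ≠ 0) : AA z + BB z ≠ 0 := by
  intro h
  apply hz
  funext j
  have h1 := re_sq_le_AA z j
  have h2 := im_sq_le_BB z j
  have h3 := AA_nonneg z
  have h4 := BB_nonneg z
  have h5 : (z j).re ^ 2 = 0 := le_antisymm (by linarith) (sq_nonneg _)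
  have h6 : (z j).im ^ 2 = 0 := le_antisymm (by linarith) (sq_nonneg _)
  exact Complex.ext (pow_eq_zero_iff (by norm_num) |>.1 h5) (pow_eq_zero_iff (by norm_num) |>.1 h6)

theorem hasFDerivAt_AA (z : Fin N → ℂ) : HasFDerivAt AA ((2 : ℝ) • sr z) z := by
  have h1 : HasFDerivAt (fun w : Fin N → ℂ => ∑ j, (rej j w) ^ 2)
      (∑ j, (2 * rej j z) • rej j) z := by
    refine HasFDerivAt.fun_sum fun j _ => ?_
    refine (((rej j).hasFDerivAt (x := z)).pow 2).congr_fderiv ?_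
    ext w
    simp
  refine h1.congr_fderiv ?_
  simp only [sr, smul_sum, smul_smul, rej_apply]

theorem hasFDerivAt_BB (z : Fin N → ℂ) : HasFDerivAt BB ((2 : ℝ) • si z) z := by
  have h1 : HasFDerivAt (fun w : Fin N → ℂ => ∑ j, (imj j w) ^ 2)
      (∑ j, (2 * imj j z) • imj j) z := by
    refine HasFDerivAt.fun_sum fun j _ => ?_
    refine (((imj j).hasFDerivAt (x := z)).pow 2).congr_fderiv ?_
    ext w
    simp
  refine h1.congr_fderiv ?_
  simp only [si, smul_sum, smul_smul, imj_apply]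

/-! ### total gauge -/

/-- derivative of the total gauge. -/
def dNN (K : ℝ) (z : Fin N → ℂ) : (Fin N → ℂ) →L[ℝ] ℝ :=
  (gA K (AA z) (BB z) / NN K z) • sr z + (gB K (AA z) (BB z) / NN K z) • si z

theorem NN_pos {K : ℝ} {z : Fin N → ℂ} (hz : z ≠ 0) : 0 < NN K z :=
  Real.sqrt_pos.2 (gq_pos (AA_nonneg z) (BB_nonneg z) (AA_add_BB_ne hz))

theorem NN_nonneg (K : ℝ) (z : Fin N → ℂ) : 0 ≤ NN K z := Real.sqrt_nonneg _

theorem NN_sq (K : ℝ) (z : Fin N → ℂ) : NN K z ^ 2 = gq K (AA z) (BB z) :=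
  Real.sq_sqrt ((AA_nonneg z).trans le_gq)

theorem sqrt_AA_le_NN (K : ℝ) (z : Fin N → ℂ) : √(AA z) ≤ NN K z := Real.sqrt_le_sqrt le_gq

/-- in the region II the total gauge is `|s|`. -/
theorem NN_of_le {K : ℝ} {z : Fin N → ℂ} (h : BB z ≤ K ^ 2 * AA z) : NN K z = √(AA z) := by
  have : NN K z = √(gq K (AA z) (BB z)) := rfl
  rw [this, gq_of_le h]

theorem hasFDerivAt_NN (K : ℝ) {z : Fin N → ℂ} (hz : z ≠ 0) :
    HasFDerivAt (NN K) (dNN K z) z := by
  have h1 := hasFDerivAt_gq K (hasFDerivAt_AA z) (hasFDerivAt_BB z) (AA_add_BB_ne hz)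
  have hpos := gq_pos (K := K) (AA_nonneg z) (BB_nonneg z) (AA_add_BB_ne hz)
  refine (h1.sqrt hpos.ne').congr_fderiv ?_
  have hp : √(gq K (AA z) (BB z)) = NN K z := rfl
  have hp0 := (NN_pos (K := K) hz).ne'
  ext w
  simp only [dNN, hp, ContinuousLinearMap.add_apply, ContinuousLinearMap.smul_apply,
    smul_eq_mul]
  field_simp

theorem dNN_of_le {K : ℝ} {z : Fin N → ℂ} (h : BB z ≤ K ^ 2 * AA z) (y : Fin N → ℂ) :
    dNN K z y = sr z y / √(AA z) := by
  unfold dNN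
  rw [gA_of_le h, gB_of_le h, NN_of_le h]
  simp only [ContinuousLinearMap.add_apply, ContinuousLinearMap.smul_apply, smul_eq_mul]
  ring

/-! ### cut-offs -/

/-- derivative of `chi d`. -/
def chid (d x : ℝ) : ℝ := std ((x - d) / d) / d

theorem hasDerivAt_chi (d x : ℝ) : HasDerivAt (chi d) (chid d x) x := by
  have h1 : HasDerivAt (fun x : ℝ => (x - d) / d) (1 / d) x :=
    ((hasDerivAt_id x).sub_const d).div_const d
  have := (hasDerivAt_st ((x - d) / d)).comp x h1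
  refine this.congr_deriv ?_
  unfold chid
  ring

theorem chi_of_le {d x : ℝ} (hd : 0 < d) (h : x ≤ d) : chi d x = 0 :=
  st_of_le (div_nonpos_of_nonpos_of_nonneg (by linarith) hd.le)

theorem chid_of_le {d x : ℝ} (hd : 0 < d) (h : x ≤ d) : chid d x = 0 := by
  unfold chid
  rw [std_of_le (div_nonpos_of_nonpos_of_nonneg (by linarith) hd.le), zero_div]

theorem chi_of_ge {d x : ℝ} (hd : 0 < d) (h : 2 * d ≤ x) : chi d x = 1 :=
  st_of_ge (by rw [one_le_div hd]; linarith)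

theorem chid_of_ge {d x : ℝ} (hd : 0 < d) (h : 2 * d ≤ x) : chid d x = 0 := by
  unfold chid
  rw [std_of_ge (by rw [one_le_div hd]; linarith), zero_div]

theorem chi_nonneg (d x : ℝ) : 0 ≤ chi d x := st_nonneg _

theorem chi_le_one (d x : ℝ) : chi d x ≤ 1 := st_le_one _

theorem chi_pos {d x : ℝ} (hd : 0 < d) (h : d < x) : 0 < chi d x :=
  st_pos (div_pos (by linarith) hd)

theorem lt_of_chi_ne {d x : ℝ} (hd : 0 < d) (h : chi d x ≠ 0) : d < x := by
  by_contra h1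
  exact h (chi_of_le hd (not_lt.1 h1))

theorem chi_lt_one {d x : ℝ} (hd : 0 < d) (h : x < 2 * d) : chi d x < 1 :=
  st_lt_one (by rw [div_lt_one hd]; linarith)

theorem chid_nonneg {d : ℝ} (hd : 0 < d) (x : ℝ) : 0 ≤ chid d x :=
  div_nonneg (std_nonneg _) hd.le

theorem chid_le {d : ℝ} (hd : 0 < d) (x : ℝ) : chid d x ≤ 15 / (8 * d) := by
  unfold chid
  rw [div_le_div_iff₀ hd (by positivity)]
  nlinarith [std_le ((x - d) / d)]

theorem mul_chid_le {d : ℝ} (hd : 0 < d) {x : ℝ} : x * chid d x ≤ 15 / 4 := by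
  rcases le_total (2 * d) x with h | h
  · rw [chid_of_ge hd h, mul_zero]; norm_num
  · calc x * chid d x ≤ 2 * d * chid d x := mul_le_mul_of_nonneg_right h (chid_nonneg hd x)
      _ ≤ 2 * d * (15 / (8 * d)) := mul_le_mul_of_nonneg_left (chid_le hd x) (by positivity)
      _ = 15 / 4 := by field_simp; norm_num

theorem chid_mul_nonneg {d : ℝ} (hd : 0 < d) {x : ℝ} : 0 ≤ x * chid d x := by
  rcases le_total x d with h | h
  · rw [chid_of_le hd h, mul_zero]
  · exact mul_nonneg (hd.le.trans h) (chid_nonneg hd x)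

section D

variable (D : LD N)

theorem K1_nonneg : 0 ≤ D.K1 := by unfold LD.K1; positivity

theorem K_nonneg : 0 ≤ D.K := by unfold LD.K; exact mul_nonneg (K1_nonneg D) (Nat.cast_nonneg _)

theorem M_le_Mx (j : Fin N) : D.M j ≤ D.Mx :=
  single_le_sum (f := D.M) (fun _ _ => Nat.zero_le _) (mem_univ j)

theorem one_le_N (j : Fin N) : (1 : ℝ) ≤ N := by
  have : 0 < N := Fin.pos j
  exact_mod_cast this

theorem le_K1 (j : Fin N) : 8 * (D.M j : ℝ) + 2 ≤ D.K1 := by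
  have h1 : (D.M j : ℝ) ≤ D.Mx := by exact_mod_cast M_le_Mx D j
  have h2 := one_le_N j
  unfold LD.K1
  have h3 : (0 : ℝ) ≤ D.Mx := Nat.cast_nonneg _
  nlinarith

theorem K1_le_K (j : Fin N) : D.K1 ≤ D.K := by
  unfold LD.K
  have h2 := one_le_N j
  have := K1_nonneg D
  nlinarith

theorem le_K (j : Fin N) : 8 * (D.M j : ℝ) + 2 ≤ D.K := (le_K1 D j).trans (K1_le_K D j)

theorem xr_nonneg (z : Fin N → ℂ) (j : Fin N) : 0 ≤ D.xr z j :=
  div_nonneg (pg_nonneg _ _) (NN_nonneg _ _)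

theorem ch_nonneg (d : ℝ) (z : Fin N → ℂ) (j : Fin N) : 0 ≤ D.ch d z j := chi_nonneg _ _

theorem ch_le_one (d : ℝ) (z : Fin N → ℂ) (j : Fin N) : D.ch d z j ≤ 1 := chi_le_one _ _

theorem R_nonneg (d : ℝ) (z : Fin N → ℂ) (j : Fin N) : 0 ≤ D.R d z j :=
  mul_nonneg (ch_nonneg D d z j) (le_max_left _ _)

/-- derivative of the relative size. -/
def dxr (z : Fin N → ℂ) (j : Fin N) : (Fin N → ℂ) →L[ℝ] ℝ :=
  (1 / NN D.K1 z) • (ps D.K (z j) • rej j + pt D.K (z j) • imj j) -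
    (D.xr z j / NN D.K1 z) • dNN D.K1 z

theorem hasFDerivAt_xr {z : Fin N → ℂ} (hz : z ≠ 0) {j : Fin N} (hj : z j ≠ 0) :
    HasFDerivAt (fun w => D.xr w j) (dxr D z j) z := by
  have h1 : HasFDerivAt (fun w : Fin N → ℂ => pg D.K (w j))
      (ps D.K (z j) • rej j + pt D.K (z j) • imj j) z := by
    have h2 : HasFDerivAt (fun w : Fin N → ℂ => w j)
        (ContinuousLinearMap.proj (R := ℝ) (φ := fun _ : Fin N => ℂ) j) z :=
      (ContinuousLinearMap.proj (R := ℝ) (φ := fun _ : Fin N => ℂ) j).hasFDerivAt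
    have h3 := HasFDerivAt.comp (g := pg D.K) (f := fun w : Fin N → ℂ => w j) z
      (hasFDerivAt_pg D.K hj) h2
    refine HasFDerivAt.congr_fderiv h3 ?_
    ext w
    simp
  have h4 := fdiv h1 (hasFDerivAt_NN D.K1 hz) (NN_pos hz).ne'
  refine HasFDerivAt.congr_fderiv h4 ?_
  have hp0 := (NN_pos (K := D.K1) hz).ne'
  ext w
  simp only [dxr, LD.xr, ContinuousLinearMap.sub_apply, ContinuousLinearMap.smul_apply,
    smul_eq_mul]
  field_simp

/-- derivative of the cut-off. -/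
def dch (d : ℝ) (z : Fin N → ℂ) (j : Fin N) : (Fin N → ℂ) →L[ℝ] ℝ :=
  chid d (D.xr z j) • dxr D z j

theorem pg_le_norm (K : ℝ) (z : ℂ) : pg K z ≤ ‖z‖ := by
  have h1 := gq_le (K := K) (sq_nonneg z.re) (sq_nonneg z.im)
  have h2 : ‖z‖ = √(z.re ^ 2 + z.im ^ 2) := by
    rw [Complex.norm_def, Complex.normSq_apply]
    congr 1
    ring
  rw [h2]
  exact Real.sqrt_le_sqrt h1

theorem xr_of_zero {z : Fin N → ℂ} {j : Fin N} (hj : z j = 0) : D.xr z j = 0 := by
  unfold LD.xr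
  rw [hj, pg_zero, zero_div]

/-- near a point with `z j = 0` the relative size of `z j` is small. -/
theorem xr_nhds {z : Fin N → ℂ} (hz : z ≠ 0) {j : Fin N} (hj : z j = 0) {d : ℝ} (hd : 0 < d) :
    ∀ᶠ w in nhds z, D.xr w j < d := by
  have h1 : ContinuousAt (fun w : Fin N → ℂ => ‖w j‖ - d * NN D.K1 w) z := by
    refine ContinuousAt.sub ?_ (ContinuousAt.mul continuousAt_const
      (hasFDerivAt_NN D.K1 hz).continuousAt)
    exact (continuous_apply j).norm.continuousAt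
  have h2 : ‖z j‖ - d * NN D.K1 z < 0 := by
    rw [hj, norm_zero, zero_sub, neg_lt_zero]
    exact mul_pos hd (NN_pos hz)
  have h3 : ∀ᶠ w : Fin N → ℂ in nhds z, 0 < NN D.K1 w :=
    (hasFDerivAt_NN D.K1 hz).continuousAt.eventually (lt_mem_nhds (NN_pos hz))
  filter_upwards [h1.eventually (gt_mem_nhds h2), h3] with w hw hw3
  unfold LD.xr
  rw [div_lt_iff₀ hw3]
  have := pg_le_norm D.K (w j)
  linarith

theorem dch_of_le {d : ℝ} (hd : 0 < d) {z : Fin N → ℂ} {j : Fin N} (h : D.xr z j ≤ d) :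
    dch D d z j = 0 := by
  unfold dch
  rw [chid_of_le hd h, zero_smul]

theorem ch_of_le {d : ℝ} (hd : 0 < d) {z : Fin N → ℂ} {j : Fin N} (h : D.xr z j ≤ d) :
    D.ch d z j = 0 := chi_of_le hd h

theorem hasFDerivAt_ch {d : ℝ} (hd : 0 < d) {z : Fin N → ℂ} (hz : z ≠ 0) (j : Fin N) :
    HasFDerivAt (fun w => D.ch d w j) (dch D d z j) z := by
  by_cases hj : z j = 0
  · rw [dch_of_le D hd (by rw [xr_of_zero D hj]; exact hd.le)]
    refine (hasFDerivAt_const (0 : ℝ) z).congr_of_eventuallyEq ?_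
    filter_upwards [xr_nhds D hz hj hd] with w hw
    exact ch_of_le D hd hw.le
  · have h1 := HasDerivAt.comp_hasFDerivAt (h₂ := chi d) (f := fun w => D.xr w j) z
      (hasDerivAt_chi d (D.xr z j)) (hasFDerivAt_xr D hz hj)
    exact h1

theorem ch_zero_nhds {d : ℝ} (hd : 0 < d) {z : Fin N → ℂ} (hz : z ≠ 0) {j : Fin N}
    (hj : z j = 0) : ∀ᶠ w in nhds z, D.ch d w j = 0 := by
  filter_upwards [xr_nhds D hz hj hd] with w hw
  exact ch_of_le D hd hw.le

/-! ### the terms of `G` -/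

/-- derivative of `χ_j P_j`. -/
def dT (ga d : ℝ) (z : Fin N → ℂ) (j : Fin N) : (Fin N → ℂ) →L[ℝ] ℂ :=
  (dch D d z j).smulRight (pl ga (D.M j) (z j)) +
    D.ch d z j • ((rej j).smulRight (pa ga (D.M j) (z j)) + (imj j).smulRight (pb (D.M j) (z j)))

theorem dT_apply (ga d : ℝ) (z : Fin N → ℂ) (j : Fin N) (y : Fin N → ℂ) :
    dT D ga d z j y = (dch D d z j y : ℂ) * pl ga (D.M j) (z j) +
      (D.ch d z j : ℂ) * (((y j).re : ℂ) * pa ga (D.M j) (z j) +
        ((y j).im : ℂ) * pb (D.M j) (z j)) := by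
  simp [dT]
  ring

theorem hasFDerivAt_T (ga : ℝ) {d : ℝ} (hd : 0 < d) {z : Fin N → ℂ} (hz : z ≠ 0) (j : Fin N) :
    HasFDerivAt (fun w => (D.ch d w j : ℂ) * pl ga (D.M j) (w j)) (dT D ga d z j) z := by
  by_cases hj : z j = 0
  · have h0 : dT D ga d z j = 0 := by
      have hx : D.xr z j ≤ d := by rw [xr_of_zero D hj]; exact hd.le
      ext w
      simp [dT, dch_of_le D hd hx, ch_of_le D hd hx]
    rw [h0]
    refine (hasFDerivAt_const (0 : ℂ) z).congr_of_eventuallyEq ?_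
    filter_upwards [ch_zero_nhds D hd hz hj] with w hw
    rw [hw]
    simp
  · have h2 : HasFDerivAt (fun w : Fin N → ℂ => w j)
        (ContinuousLinearMap.proj (R := ℝ) (φ := fun _ : Fin N => ℂ) j) z :=
      (ContinuousLinearMap.proj (R := ℝ) (φ := fun _ : Fin N => ℂ) j).hasFDerivAt
    have h3 := HasFDerivAt.comp (g := pl ga (D.M j)) (f := fun w : Fin N → ℂ => w j) z
      (hasFDerivAt_pl ga (D.M j) hj) h2
    have h4 := (hasFDerivAt_ch D hd hz j).smul h3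
    have h5 : (fun w : Fin N → ℂ => (D.ch d w j : ℂ) * pl ga (D.M j) (w j)) =
        (fun w : Fin N → ℂ => D.ch d w j) • (pl ga (D.M j) ∘ fun w : Fin N → ℂ => w j) := by
      funext w
      simp
    rw [h5]
    refine HasFDerivAt.congr_fderiv h4 ?_
    ext w
    simp [dT]
    ring

/-- derivative of `R_j` (for `0 < s_j`). -/
def dR (d : ℝ) (z : Fin N → ℂ) (j : Fin N) : (Fin N → ℂ) →L[ℝ] ℝ :=
  (z j).re • dch D d z j + D.ch d z j • rej j

theorem dR_apply (d : ℝ) (z : Fin N → ℂ) (j : Fin N) (y : Fin N → ℂ) :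
    dR D d z j y = (z j).re * dch D d z j y + D.ch d z j * (y j).re := by
  simp [dR]

theorem re_pos_nhds {z : Fin N → ℂ} {j : Fin N} (hj : 0 < (z j).re) :
    ∀ᶠ w : Fin N → ℂ in nhds z, 0 < (w j).re :=
  (rej j).continuous.continuousAt.eventually (lt_mem_nhds hj)

theorem R_of_pos {d : ℝ} {z : Fin N → ℂ} {j : Fin N} (hj : 0 < (z j).re) :
    D.R d z j = D.ch d z j * (z j).re := by
  unfold LD.R
  rw [max_eq_right hj.le]

theorem R_of_nonpos {d : ℝ} {z : Fin N → ℂ} {j : Fin N} (hj : (z j).re ≤ 0) :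
    D.R d z j = 0 := by
  unfold LD.R
  rw [max_eq_left hj, mul_zero]

theorem hasFDerivAt_R {d : ℝ} (hd : 0 < d) {z : Fin N → ℂ} (hz : z ≠ 0) {j : Fin N}
    (hj : 0 < (z j).re) : HasFDerivAt (fun w => D.R d w j) (dR D d z j) z := by
  have h1 : (fun w => D.R d w j) =ᶠ[nhds z] fun w => D.ch d w j * rej j w := by
    filter_upwards [re_pos_nhds hj] with w hw
    exact R_of_pos D hw
  have h2 := (hasFDerivAt_ch D hd hz j).mul ((rej j).hasFDerivAt (x := z))
  refine (HasFDerivAt.congr_fderiv h2 ?_).congr_of_eventuallyEq h1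
  ext w
  simp [dR]
  ring

theorem dR_of_R_eq_zero {d : ℝ} (hd : 0 < d) {z : Fin N → ℂ} {j : Fin N}
    (hj : 0 < (z j).re) (h : D.R d z j = 0) : dR D d z j = 0 := by
  have h1 : D.ch d z j = 0 := by
    rw [R_of_pos D hj] at h
    rcases mul_eq_zero.1 h with h2 | h2
    · exact h2
    · exact absurd h2 hj.ne'
  have h2 : D.xr z j ≤ d := by
    by_contra h3
    exact (chi_pos hd (not_le.1 h3)).ne' h1
  unfold dR
  rw [dch_of_le D hd h2, h1, smul_zero, zero_smul, add_zero]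

/-! ### windows -/

/-- derivative of the window. -/
def wind (m M : ℕ) (τ : ℝ) : ℝ :=
  std ((τ - (8 * m - 1)) / 2) / 2 * (1 - st ((τ - (8 * M - 1)) / 2)) -
    st ((τ - (8 * m - 1)) / 2) * (std ((τ - (8 * M - 1)) / 2) / 2)

theorem hasDerivAt_win (m M : ℕ) (τ : ℝ) : HasDerivAt (win m M) (wind m M τ) τ := by
  have e : ∀ a : ℝ, HasDerivAt (fun τ : ℝ => st ((τ - a) / 2)) (std ((τ - a) / 2) / 2) τ := by
    intro a
    have h1 : HasDerivAt (fun τ : ℝ => (τ - a) / 2) (1 / 2) τ :=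
      ((hasDerivAt_id τ).sub_const a).div_const 2
    refine ((hasDerivAt_st ((τ - a) / 2)).comp τ h1).congr_deriv ?_
    ring
  have h1 := (e (8 * m - 1)).mul ((e (8 * M - 1)).const_sub 1)
  refine h1.congr_deriv ?_
  unfold wind
  ring

theorem contDiff_win (m M : ℕ) : ContDiff ℝ 2 (win m M) := by
  unfold win
  exact (contDiff_st.comp ((contDiff_id.sub contDiff_const).div_const 2)).mul
    (contDiff_const.sub (contDiff_st.comp ((contDiff_id.sub contDiff_const).div_const 2)))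

theorem win_nonneg (m M : ℕ) (τ : ℝ) : 0 ≤ win m M τ :=
  mul_nonneg (st_nonneg _) (by linarith [st_le_one ((τ - (8 * M - 1)) / 2)])


theorem win_low {m M : ℕ} {τ : ℝ} (h : τ ≤ 8 * m - 1) : win m M τ = 0 := by
  unfold win
  rw [st_of_le (by linarith : (τ - (8 * m - 1)) / 2 ≤ 0), zero_mul]

theorem win_high {m M : ℕ} {τ : ℝ} (h : 8 * M + 1 ≤ τ) : win m M τ = 0 := by
  unfold win
  rw [st_of_ge (by linarith : 1 ≤ (τ - (8 * M - 1)) / 2), sub_self, mul_zero]


theorem wind_low {m M : ℕ} {τ : ℝ} (h : τ ≤ 8 * m - 1) : wind m M τ = 0 := by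
  unfold wind
  rw [st_of_le (by linarith : (τ - (8 * m - 1)) / 2 ≤ 0),
    std_of_le (by linarith : (τ - (8 * m - 1)) / 2 ≤ 0)]
  ring

theorem wind_high {m M : ℕ} {τ : ℝ} (h : 8 * M + 1 ≤ τ) : wind m M τ = 0 := by
  unfold wind
  rw [st_of_ge (by linarith : 1 ≤ (τ - (8 * M - 1)) / 2),
    std_of_ge (by linarith : 1 ≤ (τ - (8 * M - 1)) / 2)]
  ring



end D

end Crest.Agent.R267.Calc3_957
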