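import Crest.Agent.R267.GlueDefs_322
import Crest.Agent.R267.Calc3_957
import Crest.Agent.R267.Pow_951
import Crest.Agent.R267.HmE_951

/-!
# Row 267 (helper930), GLUE-C2a: the planar functions of the glueing are `C²`

* `contDiffOn_pg`, `contDiffOn_pl`: the planar gauge and the planar function off `0`;
* `pl_ne`: the planar function has no zero off `0` (`0 < ga < 2`);
* `contDiff_of_hom`: homogeneous of degree `≥ 3` and `C²` off `0` ⟹ `C²`;
* `contDiff_P8`, `contDiff_PS`, `contDiff_cut` (`pg⁴ λ`), `contDiff_rhowin`, `contDiff_H8`,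
  `contDiff_F8`, `contDiff_FS`, and the homogeneity of all these functions.
-/

set_option autoImplicit false

noncomputable section

open Finset Set
open Crest.Agent.R267.T3aDefs_957 Crest.Agent.R267.Calc_957 Crest.Agent.R267.Calc2_957
open Crest.Agent.R267.Calc3_957 Crest.Agent.R267.GlueDefs_322 Crest.Agent.R267.Cone_808

namespace Crest.Agent.R267.GlC2a_930

/-! ### homogeneous functions of degree `≥ 3` -/

section Hom

variable {E F : Type*} [NormedAddCommGroup E] [NormedSpace ℝ E]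
  [NormedAddCommGroup F] [NormedSpace ℝ F]

theorem hom_zero {f : E → F} {n : ℕ} (hn : 1 ≤ n)
    (hom : ∀ r : ℝ, 0 < r → ∀ x, f (r • x) = r ^ n • f x) : f 0 = 0 := by
  have h := hom 2 (by norm_num) 0
  rw [smul_zero] at h
  have h1 : ((2 : ℝ) ^ n - 1) • f 0 = 0 := by
    rw [sub_smul, one_smul, ← h, sub_self]
  have h2 : (1 : ℝ) < 2 ^ n := one_lt_pow₀ (by norm_num) (by omega)
  exact (smul_eq_zero.1 h1).resolve_left (by linarith)

/-- homogeneous of degree `≥ 3` and `C²` off the origin: `C²`. -/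
theorem contDiff_of_hom [FiniteDimensional ℝ E] {f : E → F} {n : ℕ} (hn : 3 ≤ n)
    (hC : ContDiffOn ℝ 2 f {0}ᶜ) (hom : ∀ r : ℝ, 0 < r → ∀ x, f (r • x) = r ^ n • f x) :
    ContDiff ℝ 2 f := by
  have h0 : f 0 = 0 := hom_zero (by omega) hom
  have h1 := Pow_951.contDiffOn_of_hom (T := Set.univ) (D := fun _ => (n : ℝ))
    (H := fun p : ℝ × E => f p.2) isOpen_univ contDiffOn_const
    (fun _ _ => by
      have : (3 : ℝ) ≤ n := by exact_mod_cast hn
      show (2 : ℝ) < n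
      linarith)
    (hC.comp contDiff_snd.contDiffOn fun p hp => hp.2) (fun _ _ => h0)
    (fun _ _ r hr x => by
      show f (r • x) = r ^ (n : ℝ) • f x
      rw [Real.rpow_natCast]
      exact hom r hr x)
  rw [Set.univ_prod_univ, contDiffOn_univ] at h1
  exact h1.comp ((contDiff_const (c := (0 : ℝ))).prodMk contDiff_id)

end Hom

/-! ### homogeneity -/

theorem gq_mul (K A B : ℝ) {c : ℝ} (hc : 0 < c) : gq K (c * A) (c * B) = c * gq K A B := by
  unfold gq
  have h1 : max 0 (c * B - K ^ 2 * (c * A)) = c * max 0 (B - K ^ 2 * A) := by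
    rw [mul_max_of_nonneg _ _ hc.le, mul_zero]
    congr 1
    ring
  rw [h1]
  rcases eq_or_ne (A + B) 0 with h | h
  · have h2 : c * A + c * B = 0 := by rw [← mul_add, h, mul_zero]
    rw [h2, h]
    simp
  · have h2 : c * A + c * B ≠ 0 := by rw [← mul_add]; exact mul_ne_zero hc.ne' h
    have h3 : 3 * K ^ 2 + 3 ≠ 0 := by positivity
    field_simp

theorem pg_smul (K : ℝ) {r : ℝ} (hr : 0 < r) (z : ℂ) : pg K (r • z) = r * pg K z := by
  unfold pg
  have h1 : (r • z).re ^ 2 = r ^ 2 * z.re ^ 2 := by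
    rw [Complex.real_smul, Complex.re_ofReal_mul, mul_pow]
  have h2 : (r • z).im ^ 2 = r ^ 2 * z.im ^ 2 := by
    rw [Complex.real_smul, Complex.im_ofReal_mul, mul_pow]
  rw [h1, h2, gq_mul K _ _ (by positivity), Real.sqrt_mul (by positivity), Real.sqrt_sq hr.le]

theorem re_smul' (r : ℝ) (z : ℂ) : (r • z).re = r * z.re := by
  rw [Complex.real_smul, Complex.re_ofReal_mul]

theorem im_smul' (r : ℝ) (z : ℂ) : (r • z).im = r * z.im := by
  rw [Complex.real_smul, Complex.im_ofReal_mul]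

theorem slope_smul {r : ℝ} (hr : 0 < r) (z : ℂ) : (r • z).im / (r • z).re = z.im / z.re := by
  rw [re_smul', im_smul', mul_div_mul_left _ _ hr.ne']

theorem max_re_smul {r : ℝ} (hr : 0 < r) (z : ℂ) : max 0 (r • z).re = r * max 0 z.re := by
  rw [re_smul', mul_max_of_nonneg _ _ hr.le, mul_zero]

theorem pl_smul (ga : ℝ) (M : ℕ) {r : ℝ} (hr : 0 < r) (z : ℂ) :
    pl ga M (r • z) = r • pl ga M z := by
  unfold pl
  rw [slope_smul hr, re_smul', im_smul']
  by_cases h : 0 < z.re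
  · rw [if_pos h, if_pos (mul_pos hr h), Complex.real_smul]
    push_cast
    ring
  · rw [if_neg h, if_neg fun h' => h ((mul_pos_iff_of_pos_left hr).1 h'), Complex.real_smul]
    push_cast
    ring

theorem rho_smul (K : ℝ) {r : ℝ} (hr : 0 < r) (z : ℂ) : rho K (r • z) = r ^ 8 * rho K z := by
  unfold rho
  rw [pg_smul K hr, max_re_smul hr]
  ring

theorem P8_smul (K ga : ℝ) (M : ℕ) {r : ℝ} (hr : 0 < r) (z : ℂ) :
    P8 K ga M (r • z) = r ^ 8 • P8 K ga M z := by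
  unfold P8
  rw [pg_smul K hr, pl_smul ga M hr, Complex.real_smul, Complex.real_smul]
  push_cast
  ring

theorem PS_smul (K ga : ℝ) (M : ℕ) {r : ℝ} (hr : 0 < r) (z : ℂ) :
    PS K ga M (r • z) = r ^ 8 • PS K ga M z := by
  unfold PS
  rw [pg_smul K hr, pl_smul ga M hr, norm_smul, Real.norm_of_nonneg hr.le, Complex.real_smul,
    Complex.real_smul]
  rcases eq_or_ne (pl ga M z) 0 with h | h
  · rw [h]; simp
  · have h1 : (‖pl ga M z‖ : ℂ) ≠ 0 := by exact_mod_cast (norm_pos_iff.2 h).ne'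
    have h2 : (r : ℂ) ≠ 0 := by exact_mod_cast hr.ne'
    push_cast
    field_simp

theorem H8_smul (K : ℝ) (m M M' : ℕ) {r : ℝ} (hr : 0 < r) (x y : ℂ) :
    H8 K m M M' (r • x) (r • y) = r ^ 8 * H8 K m M M' x y := by
  unfold H8
  rw [rho_smul K hr, rho_smul K hr, slope_smul hr, slope_smul hr, ← mul_add]
  rcases eq_or_ne (rho K x + rho K y) 0 with h | h
  · rw [h]; simp
  · have h2 : r ≠ 0 := hr.ne'
    field_simp

theorem F8_smul {ι : Type} [Fintype ι] (K cB ga : ℝ) (M : ι → ℕ) (C : Finset (ι × ι × ℕ)) {r : ℝ}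
    (hr : 0 < r) (z : ι → ℂ) : F8 K cB ga M C (r • z) = r ^ 8 • F8 K cB ga M C z := by
  unfold F8
  simp only [Pi.smul_apply, P8_smul K ga _ hr, H8_smul K _ _ _ hr]
  rw [← Finset.smul_sum, ← Finset.mul_sum, smul_sub]
  congr 1
  rw [Complex.real_smul]
  push_cast
  ring

theorem FS_smul {n : ℕ} (K ga c : ℝ) (a : Fin (n + 1) → ℕ) {lam bet : Fin n → ℂ → ℝ}
    (hl : ∀ e, ∀ r : ℝ, 0 < r → ∀ z, lam e ((r : ℂ) * z) = lam e z)
    (hb : ∀ e, ∀ r : ℝ, 0 < r → ∀ z, bet e ((r : ℂ) * z) = bet e z) {r : ℝ}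
    (hr : 0 < r) (z : Fin (n + 1) → ℂ) : FS K ga c a lam bet (r • z) =
      r ^ 8 • FS K ga c a lam bet z := by
  unfold FS
  have h1 : ∀ e w, lam e (r • w) = lam e w := fun e w => hl e r hr w
  have h2 : ∀ e w, bet e (r • w) = bet e w := fun e w => hb e r hr w
  simp only [Pi.smul_apply, PS_smul K ga _ hr, h1, h2, pg_smul K hr]
  rw [← Finset.smul_sum, smul_sub]
  congr 1
  rw [Complex.real_smul, ← Complex.ofReal_mul]
  congr 1
  rw [mul_left_comm]
  congr 1
  rw [Finset.mul_sum]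
  exact Finset.sum_congr rfl fun e _ => by ring

/-! ### `C²` off the origin -/

theorem contDiff_re : ContDiff ℝ 2 fun w : ℂ => w.re := Complex.reCLM.contDiff

theorem contDiff_im : ContDiff ℝ 2 fun w : ℂ => w.im := Complex.imCLM.contDiff

theorem contDiffAt_pg (K : ℝ) {z : ℂ} (hz : z ≠ 0) : ContDiffAt ℝ 2 (pg K) z := by
  have h1 : ContDiffAt ℝ 2 (fun w : ℂ => gq K (w.re ^ 2) (w.im ^ 2)) z := by
    unfold gq
    refine (contDiff_re.pow 2).contDiffAt.add (ContDiffAt.div ?_ ?_ ?_)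
    · exact ((contDiff_tp 2 3 (by norm_num)).comp ((contDiff_im.pow 2).sub
        (contDiff_const.mul (contDiff_re.pow 2)))).contDiffAt
    · exact (contDiff_const.mul (((contDiff_re.pow 2).add (contDiff_im.pow 2)).pow 2)).contDiffAt
    · have := sq_add_ne hz
      have h3 : 3 * K ^ 2 + 3 ≠ 0 := by positivity
      exact mul_ne_zero h3 (pow_ne_zero 2 this)
  exact h1.sqrt (gq_pos (sq_nonneg _) (sq_nonneg _) (sq_add_ne hz)).ne'


theorem contDiffAt_slope {z : ℂ} (h : z.re ≠ 0) : ContDiffAt ℝ 2 (fun w : ℂ => w.im / w.re) z :=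
  contDiff_im.contDiffAt.div contDiff_re.contDiffAt h

theorem contDiff_ofReal : ContDiff ℝ 2 fun x : ℝ => (x : ℂ) := Complex.ofRealCLM.contDiff

theorem contDiffAt_pl (ga : ℝ) (M : ℕ) {z : ℂ} (hz : z ≠ 0) : ContDiffAt ℝ 2 (pl ga M) z := by
  rcases le_or_gt z.re 0 with h0 | h0
  · have h1 : pl ga M =ᶠ[nhds z] fun w : ℂ => -((2 - ga : ℝ) : ℂ) * (w.re : ℂ) -
        Complex.I * (w.im : ℂ) := by
      filter_upwards [far_nhds h0 hz] with w hw
      rw [pl_of_far (Or.inl hw)]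
    refine ContDiffAt.congr_of_eventuallyEq ?_ h1
    exact ((contDiff_const.mul (contDiff_ofReal.comp contDiff_re)).sub
      (contDiff_const.mul (contDiff_ofReal.comp contDiff_im))).contDiffAt
  · have h1 : pl ga M =ᶠ[nhds z] fun w : ℂ => (w.re : ℂ) * pv ga M (w.im / w.re) := by
      have : ∀ᶠ w : ℂ in nhds z, 0 < w.re :=
        Complex.continuous_re.continuousAt.eventually (lt_mem_nhds h0)
      filter_upwards [this] with w hw
      exact pl_of_pos hw
    refine ContDiffAt.congr_of_eventuallyEq ?_ h1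
    exact (contDiff_ofReal.comp contDiff_re).contDiffAt.mul
      ((contDiff_pv ga M).contDiffAt.comp z (contDiffAt_slope h0.ne'))


/-- the height vanishes on the loops only at the rays and on the left -/
theorem Bf_eq_zero {v : ℝ} (h : Bf v = 0) : v = 0 ∨ 3 ≤ |v| := by
  have key : ∀ w : ℝ, 0 ≤ w → Bf w = 0 → w = 0 ∨ 3 ≤ w := by
    intro w hw h
    rcases le_total w 1 with h1 | h1
    · rw [Bf_of_abs_le (by rw [abs_of_nonneg hw]; exact h1)] at h
      exact Or.inl h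
    · rcases le_total 3 w with h3 | h3
      · exact Or.inr h3
      · exfalso
        rw [Bf_of_nonneg hw, gf_of_mem h1 h3] at h
        have hx : 0 ≤ w - 1 := by linarith
        have hy : w - 1 ≤ 2 := by linarith
        have h4 : (w - 1) ^ 3 / 2 - (w - 1) ^ 4 / 8 < w := by
          set x := w - 1 with hxd
          have hw' : w = x + 1 := by linarith
          rw [hw']
          nlinarith [mul_nonneg hx (mul_nonneg hx (sub_nonneg.2 hy)), mul_nonneg hx hx,
            mul_nonneg (mul_nonneg hx hx) (sq_nonneg (x - 2)), pow_nonneg hx 3,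
            mul_nonneg (pow_nonneg hx 3) (sub_nonneg.2 hy)]
        linarith
  rcases le_total 0 v with h0 | h0
  · rcases key v h0 h with h1 | h1
    · exact Or.inl h1
    · exact Or.inr (by rwa [abs_of_nonneg h0])
  · have h2 : Bf (-v) = 0 := by rw [Bf_neg, h, neg_zero]
    rcases key (-v) (by linarith) h2 with h1 | h1
    · exact Or.inl (by linarith)
    · exact Or.inr (by rwa [abs_of_nonpos h0])

theorem pv_ne {ga : ℝ} (h0 : 0 < ga) (h2 : ga < 2) (M : ℕ) (τ : ℝ) : pv ga M τ ≠ 0 := by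
  intro h
  have hre := congrArg Complex.re h
  have him := congrArg Complex.im h
  rcases cases_tau M τ with h1 | ⟨l, hl, h1⟩ | h1
  · rw [pv_low (by linarith)] at hre
    simp at hre
    linarith
  · rw [pv_cell hl h1] at hre him
    simp at hre him
    rcases Bf_eq_zero him with h3 | h3
    · rw [h3, Af_of_le (by simp)] at hre
      linarith
    · rw [Af_of_ge h3] at hre
      linarith
  · rw [pv_high (by linarith)] at hre
    simp at hre
    linarith

/-- **the planar function has no zero off the origin** -/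
theorem pl_ne {ga : ℝ} (h0 : 0 < ga) (h2 : ga < 2) (M : ℕ) {z : ℂ} (hz : z ≠ 0) :
    pl ga M z ≠ 0 := by
  rcases le_or_gt z.re 0 with h | h
  · rw [pl_of_nonpos h]
    intro h1
    have hre := congrArg Complex.re h1
    have him := congrArg Complex.im h1
    simp at hre him
    refine hz (Complex.ext ?_ him)
    rcases hre with h3 | h3
    · exfalso; linarith
    · exact h3
  · rw [pl_of_pos h]
    exact mul_ne_zero (by exact_mod_cast h.ne') (pv_ne h0 h2 M _)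

/-! ### `C²` on the plane -/

/-- **`P8` is `C²`** -/
theorem contDiff_P8 (K ga : ℝ) (M : ℕ) : ContDiff ℝ 2 (P8 K ga M) := by
  refine contDiff_of_hom (n := 8) (by norm_num) (fun z hz => ?_) fun r hr z => P8_smul K ga M hr z
  have h1 := ((contDiffAt_pg K hz).pow 7)
  exact ((contDiff_ofReal.contDiffAt.comp z h1).mul (contDiffAt_pl ga M hz)).contDiffWithinAt

/-- **`PS` is `C²`** -/
theorem contDiff_PS (K : ℝ) {ga : ℝ} (h0 : 0 < ga) (h2 : ga < 2) (M : ℕ) :
    ContDiff ℝ 2 (PS K ga M) := by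
  refine contDiff_of_hom (n := 8) (by norm_num) (fun z hz => ?_) fun r hr z => PS_smul K ga M hr z
  have hne := pl_ne h0 h2 M (show z ≠ 0 from hz)
  have h1 : ContDiffAt ℝ 2 (fun w => pg K w ^ 8 / ‖pl ga M w‖) z :=
    ((contDiffAt_pg K hz).pow 8).div ((contDiffAt_pl ga M hz).norm ℝ hne) (norm_pos_iff.2 hne).ne'
  exact ((contDiff_ofReal.contDiffAt.comp z h1).mul (contDiffAt_pl ga M hz)).contDiffWithinAt

/-- **`pg⁴ λ` is `C²`** -/
theorem contDiff_cut (K : ℝ) {l : ℂ → ℝ} (hs : ContDiffOn ℝ 2 l {0}ᶜ)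
    (hh : ∀ r : ℝ, 0 < r → ∀ z, l ((r : ℂ) * z) = l z) :
    ContDiff ℝ 2 fun z => pg K z ^ 4 * l z := by
  refine contDiff_of_hom (n := 4) (by norm_num) (fun z hz => ?_) fun r hr z => ?_
  · exact (((contDiffAt_pg K hz).pow 4).mul
      ((hs z hz).contDiffAt (isOpen_compl_singleton.mem_nhds hz))).contDiffWithinAt
  · show pg K (r • z) ^ 4 * l (r • z) = _
    rw [pg_smul K hr, Complex.real_smul, hh r hr, smul_eq_mul]
    ring

theorem CutL.contDiff (K : ℝ) {ga : ℝ} {m M : ℕ} {l : ℂ → ℝ} (h : CutL ga m M l) :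
    ContDiff ℝ 2 fun z => pg K z ^ 4 * l z := contDiff_cut K h.smooth h.hom

/-! ### the windows -/

/-- `(s⁺)⁸ win (t / s)` -/
def qw (m M : ℕ) (z : ℂ) : ℝ := max 0 z.re ^ 8 * win m M (z.im / z.re)

theorem win_far' {m M : ℕ} {z : ℂ} (h0 : 0 < z.re) (h : (8 * (M : ℝ) + 1) * z.re ≤ |z.im|) :
    win m M (z.im / z.re) = 0 := by
  rcases le_total 0 z.im with h1 | h1
  · rw [abs_of_nonneg h1] at h
    exact win_high ((le_div_iff₀ h0).2 h)
  · rw [abs_of_nonpos h1] at h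
    refine win_low ((div_le_iff₀ h0).2 ?_)
    have h2 : (0 : ℝ) ≤ M := M.cast_nonneg
    have h3 : (0 : ℝ) ≤ m := m.cast_nonneg
    nlinarith [mul_nonneg h2 h0.le, mul_nonneg h3 h0.le]

theorem qw_far {m M : ℕ} {z : ℂ} (h : (8 * (M : ℝ) + 1) * z.re ≤ |z.im|) : qw m M z = 0 := by
  unfold qw
  rcases le_or_gt z.re 0 with h0 | h0
  · rw [max_eq_left h0]; simp
  · rw [win_far' h0 h, mul_zero]

theorem qw_of_nonpos {m M : ℕ} {z : ℂ} (h : z.re ≤ 0) : qw m M z = 0 := by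
  unfold qw
  rw [max_eq_left h]; simp

theorem qw_smul (m M : ℕ) {r : ℝ} (hr : 0 < r) (z : ℂ) : qw m M (r • z) = r ^ 8 • qw m M z := by
  unfold qw
  rw [slope_smul hr, max_re_smul hr, smul_eq_mul]
  ring

theorem contDiff_tp8 : ContDiff ℝ 2 fun z : ℂ => max 0 z.re ^ 8 :=
  (contDiff_tp 2 8 (by norm_num)).comp contDiff_re

/-- near a point `z ≠ 0`, `Re z ≤ 0` the window function vanishes -/
theorem qw_nhds {m M : ℕ} {z : ℂ} (h0 : z.re ≤ 0) (hz : z ≠ 0) : ∀ᶠ w in nhds z, qw m M w = 0 := by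
  filter_upwards [far_nhds (M := M) h0 hz] with w hw
  exact qw_far hw

theorem contDiff_qw (m M : ℕ) : ContDiff ℝ 2 (qw m M) := by
  refine contDiff_of_hom (n := 8) (by norm_num) (fun z hz => ?_) fun r hr z => qw_smul m M hr z
  refine ContDiffAt.contDiffWithinAt ?_
  rcases le_or_gt z.re 0 with h0 | h0
  · refine (contDiffAt_const (c := (0 : ℝ))).congr_of_eventuallyEq ?_
    exact qw_nhds h0 hz
  · exact contDiff_tp8.contDiffAt.mul ((contDiff_win m M).contDiffAt.comp z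
      (contDiffAt_slope h0.ne'))

/-- in the window the gauge is `s`. -/
theorem pg_of_win {K : ℝ} {m M : ℕ} (hK : 8 * (M : ℝ) + 2 ≤ K) {z : ℂ} (h0 : 0 < z.re)
    (h : win m M (z.im / z.re) ≠ 0) : pg K z = z.re := by
  have h1 : |z.im| < (8 * (M : ℝ) + 1) * z.re := by
    by_contra h2
    exact h (win_far' h0 (not_lt.1 h2))
  have h2 : (0 : ℝ) ≤ M := M.cast_nonneg
  have h3 := pg_of_le (K := K) (by linarith) (z := z)
    (by rw [abs_of_pos h0]; nlinarith)
  rw [h3, abs_of_pos h0]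

theorem rho_of_win {K : ℝ} {m M : ℕ} (hK : 8 * (M : ℝ) + 2 ≤ K) {z : ℂ} (h0 : 0 < z.re)
    (h : win m M (z.im / z.re) ≠ 0) : rho K z = max 0 z.re ^ 8 := by
  unfold rho
  rw [pg_of_win hK h0 h, max_eq_right h0.le]
  ring

theorem rho_of_nonpos (K : ℝ) {z : ℂ} (h : z.re ≤ 0) : rho K z = 0 := by
  unfold rho
  rw [max_eq_left h, mul_zero]

theorem rho_nonneg (K : ℝ) (z : ℂ) : 0 ≤ rho K z :=
  mul_nonneg (pow_nonneg (pg_nonneg K z) 7) (le_max_left _ _)



/-- **the harmonic coupling** in terms of `(s⁺)⁸` -/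
theorem H8_eq {K : ℝ} {m M M' : ℕ} (hK : 8 * (M : ℝ) + 2 ≤ K) (hK' : 8 * (M' : ℝ) + 2 ≤ K)
    (x y : ℂ) : H8 K m M M' x y =
      qw m M x * qw (M' - 1) M' y / (max 0 x.re ^ 8 + max 0 y.re ^ 8) := by
  unfold H8
  by_cases h : win m M (x.im / x.re) = 0
  · rw [h]; simp [qw, h]
  by_cases h' : win (M' - 1) M' (y.im / y.re) = 0
  · rw [h']; simp [qw, h']
  rcases le_or_gt x.re 0 with h0 | h0
  · rw [rho_of_nonpos K h0, qw_of_nonpos h0]; simp
  rcases le_or_gt y.re 0 with h0' | h0'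
  · rw [rho_of_nonpos K h0', qw_of_nonpos h0']; simp
  rw [rho_of_win hK h0 h, rho_of_win hK' h0' h']
  unfold qw
  ring

theorem ne_or {x y : ℂ} (h : (x, y) ≠ 0) : x ≠ 0 ∨ y ≠ 0 := by
  by_contra h1
  rw [not_or, not_not, not_not] at h1
  exact h (Prod.ext h1.1 h1.2)

/-- **`H8` is `C²`** -/
theorem contDiff_H8 {K : ℝ} {m M M' : ℕ} (hK : 8 * (M : ℝ) + 2 ≤ K)
    (hK' : 8 * (M' : ℝ) + 2 ≤ K) : ContDiff ℝ 2 fun p : ℂ × ℂ => H8 K m M M' p.1 p.2 := by
  refine contDiff_of_hom (n := 8) (by norm_num) (fun p hp => ?_) fun r hr p =>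
    H8_smul K m M M' hr p.1 p.2
  refine ContDiffAt.contDiffWithinAt ?_
  have h1 : (fun p : ℂ × ℂ => H8 K m M M' p.1 p.2) = fun p : ℂ × ℂ =>
      qw m M p.1 * qw (M' - 1) M' p.2 / (max 0 p.1.re ^ 8 + max 0 p.2.re ^ 8) :=
    funext fun p => H8_eq hK hK' p.1 p.2
  rw [h1]
  have c1 : ContDiff ℝ 2 fun p : ℂ × ℂ => qw m M p.1 := (contDiff_qw m M).comp contDiff_fst
  have c2 : ContDiff ℝ 2 fun p : ℂ × ℂ => qw (M' - 1) M' p.2 :=
    (contDiff_qw _ M').comp contDiff_snd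
  have c3 : ContDiff ℝ 2 fun p : ℂ × ℂ => max 0 p.1.re ^ 8 := contDiff_tp8.comp contDiff_fst
  have c4 : ContDiff ℝ 2 fun p : ℂ × ℂ => max 0 p.2.re ^ 8 := contDiff_tp8.comp contDiff_snd
  by_cases h2 : 0 < p.1.re ∨ 0 < p.2.re
  · have h3 : max 0 p.1.re ^ 8 + max 0 p.2.re ^ 8 ≠ 0 := by
      rcases h2 with h2 | h2
      · have h4 : 0 < max 0 p.1.re ^ 8 := pow_pos (lt_max_of_lt_right h2) 8
        have h5 : 0 ≤ max 0 p.2.re ^ 8 := pow_nonneg (le_max_left _ _) 8
        linarith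
      · have h4 : 0 < max 0 p.2.re ^ 8 := pow_pos (lt_max_of_lt_right h2) 8
        have h5 : 0 ≤ max 0 p.1.re ^ 8 := pow_nonneg (le_max_left _ _) 8
        linarith
    exact (c1.mul c2).contDiffAt.div (c3.add c4).contDiffAt h3
  · rw [not_or, not_lt, not_lt] at h2
    refine (contDiffAt_const (c := (0 : ℝ))).congr_of_eventuallyEq ?_
    rcases ne_or (x := p.1) (y := p.2) hp with h3 | h3
    · have h4 := continuous_fst.continuousAt.eventually (qw_nhds (m := m) (M := M) h2.1 h3)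
      filter_upwards [h4] with q hq
      rw [hq, zero_mul, zero_div]
    · have h4 := continuous_snd.continuousAt.eventually (qw_nhds (m := M' - 1) (M := M') h2.2 h3)
      filter_upwards [h4] with q hq
      rw [hq, mul_zero, zero_div]

/-! ### the functions of several variables -/

theorem contDiff_two {ι : Type} [Fintype ι] (i j : ι) :
    ContDiff ℝ 2 fun z : ι → ℂ => (z i, z j) :=
  (contDiff_apply ℝ ℂ i).prodMk (contDiff_apply ℝ ℂ j)

theorem contDiff_H8' {ι : Type} [Fintype ι] {K : ℝ} {m M M' : ℕ} (hK : 8 * (M : ℝ) + 2 ≤ K)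
    (hK' : 8 * (M' : ℝ) + 2 ≤ K) (i j : ι) :
    ContDiff ℝ 2 fun z : ι → ℂ => H8 K m M M' (z i) (z j) := by
  have h1 := contDiff_H8 (K := K) (m := m) (M := M) (M' := M') hK hK'
  have h2 := h1.comp (contDiff_two i j)
  exact h2

/-- **`F8` is `C²`** -/
theorem contDiff_F8 {ι : Type} [Fintype ι] {K cB ga : ℝ} {M : ι → ℕ} {C : Finset (ι × ι × ℕ)}
    (hK : ∀ i, 8 * (M i : ℝ) + 2 ≤ K) : ContDiff ℝ 2 (F8 K cB ga M C) := by
  have h1 : ∀ j, ContDiff ℝ 2 fun z : ι → ℂ => P8 K ga (M j) (z j) := fun j =>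
    (contDiff_P8 K ga (M j)).comp (contDiff_apply ℝ ℂ j)
  have h2 : ∀ e : ι × ι × ℕ, ContDiff ℝ 2 fun z : ι → ℂ =>
      H8 K e.2.2 (M e.1) (M e.2.1) (z e.1) (z e.2.1) := fun e =>
    contDiff_H8' (hK e.1) (hK e.2.1) e.1 e.2.1
  have h3 : ContDiff ℝ 2 fun z : ι → ℂ => cB * ga * ∑ e ∈ C,
      H8 K e.2.2 (M e.1) (M e.2.1) (z e.1) (z e.2.1) :=
    contDiff_const.mul (ContDiff.sum fun e _ => h2 e)
  have h4 : ContDiff ℝ 2 fun z : ι → ℂ => ((cB * ga * ∑ e ∈ C,
      H8 K e.2.2 (M e.1) (M e.2.1) (z e.1) (z e.2.1) : ℝ) : ℂ) := contDiff_ofReal.comp h3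
  have h5 : ContDiff ℝ 2 fun z : ι → ℂ => ∑ j, P8 K ga (M j) (z j) :=
    ContDiff.sum fun j _ => h1 j
  exact h5.sub h4

/-- **`FS` is `C²`** -/
theorem contDiff_FS {n : ℕ} (K : ℝ) {ga : ℝ} (c : ℝ) (h0 : 0 < ga) (h2 : ga < 2)
    (a : Fin (n + 1) → ℕ) {lam bet : Fin n → ℂ → ℝ}
    (hl : ∀ e, ContDiff ℝ 2 fun z => pg K z ^ 4 * lam e z)
    (hb : ∀ e, ContDiff ℝ 2 fun z => pg K z ^ 4 * bet e z) :
    ContDiff ℝ 2 (FS K ga c a lam bet) := by
  have h1 : ∀ j, ContDiff ℝ 2 fun z : Fin (n + 1) → ℂ => PS K ga (Mh a j) (z j) := fun j =>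
    (contDiff_PS K h0 h2 (Mh a j)).comp (contDiff_apply ℝ ℂ j)
  have h3 : ∀ e : Fin n, ContDiff ℝ 2 fun z : Fin (n + 1) → ℂ =>
      (pg K (z e.castSucc) ^ 4 * lam e (z e.castSucc)) *
      (pg K (z e.succ) ^ 4 * bet e (z e.succ)) := fun e =>
    ((hl e).comp (contDiff_apply ℝ ℂ e.castSucc)).mul ((hb e).comp (contDiff_apply ℝ ℂ e.succ))
  have h4 : ContDiff ℝ 2 fun z : Fin (n + 1) → ℂ => c * ∑ e : Fin n,
      (pg K (z e.castSucc) ^ 4 * lam e (z e.castSucc)) *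
      (pg K (z e.succ) ^ 4 * bet e (z e.succ)) :=
    contDiff_const.mul (ContDiff.sum fun e _ => h3 e)
  have h5 : ContDiff ℝ 2 fun z : Fin (n + 1) → ℂ => ((c * ∑ e : Fin n,
      (pg K (z e.castSucc) ^ 4 * lam e (z e.castSucc)) *
      (pg K (z e.succ) ^ 4 * bet e (z e.succ)) : ℝ) : ℂ) := contDiff_ofReal.comp h4
  have h6 : ContDiff ℝ 2 fun z : Fin (n + 1) → ℂ => ∑ j, PS K ga (Mh a j) (z j) :=
    ContDiff.sum fun j _ => h1 j
  exact h6.sub h5

/-! ### weights -/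

theorem act_eighth {ι : Type} (s : ℝ) (z : ι → ℂ) :
    act (fun _ => 1 / 8) s z = Real.exp (s / 8) • z := by
  funext i
  show (Real.exp (s * (1 / 8)) : ℂ) * z i = Real.exp (s / 8) • z i
  rw [Complex.real_smul, mul_one_div]

/-- homogeneous of degree `8`: weights `1 / 8` -/
theorem wh_of_hom8 {ι : Type} {f : (ι → ℂ) → ℂ}
    (hom : ∀ r : ℝ, 0 < r → ∀ z, f (r • z) = r ^ 8 • f z) (s : ℝ) (z : ι → ℂ) :
    f (act (fun _ => 1 / 8) s z) = Real.exp s • f z := by
  rw [act_eighth, hom _ (Real.exp_pos _), ← Real.exp_nat_mul]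
  congr 2
  push_cast
  ring

end Crest.Agent.R267.GlC2a_930
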