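import Crest.Agent.R267.GlBas_322
import Crest.Agent.R267.Ang_739

-- ▼ part R267/GlPl_322
section

/-!
# Row 267 (helper322): GLUE-LINE, planar facts on `pl`
-/

set_option autoImplicit false

noncomputable section

open Finset
open Crest.Agent.R267.T3aDefs_957 Crest.Agent.R267.GlueDefs_322 Crest.Agent.R267.Calc_957
open Crest.Agent.R267.GlBas_322 Crest.Agent.R267.LemL_951

namespace Crest.Agent.R267.GlPl_322

/-! ### the curve -/

theorem st_quarter : st (1 / 4) = 53 / 512 := by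
  unfold st
  rw [c01_of_mem (by norm_num) (by norm_num)]
  norm_num

theorem Af_abs (v : ℝ) : Af v = 1 - 2 * st ((|v| - 1) / 2) := rfl

theorem Af_even (v : ℝ) : Af (-v) = Af v := by
  rw [Af_abs, Af_abs, abs_neg]

theorem Af_le_of {v : ℝ} (h : 3 / 2 ≤ |v|) : Af v < 7 / 8 := by
  rw [Af_abs]
  have h1 : st (1 / 4) ≤ st ((|v| - 1) / 2) := st_mono (by linarith)
  rw [st_quarter] at h1
  linarith

theorem Afd_neg (v : ℝ) : Afd (-v) = -Afd v := by
  unfold Afd
  rw [neg_neg]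
  ring

theorem Bfd_neg (v : ℝ) : Bfd (-v) = Bfd v := by
  unfold Bfd
  rw [neg_neg]
  ring

theorem Bf_ge_one {v : ℝ} (h : 1 ≤ v) (h1 : v ≤ 3) : 1 ≤ Bf v := by
  rw [Bf_of_nonneg (by linarith), gf_of_mem h h1]
  obtain ⟨u, hu⟩ : ∃ u, v = 1 + u := ⟨v - 1, by ring⟩
  subst hu
  have hu0 : 0 ≤ u := by linarith
  have hu2 : u ≤ 2 := by linarith
  have h2 : 0 ≤ u * ((2 - u) * (1 / 2 + u / 4 - u ^ 2 / 8)) := by
    refine mul_nonneg hu0 (mul_nonneg (by linarith) ?_)
    nlinarith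
  nlinarith [h2]

theorem Bfd_ge {v : ℝ} (h : |v| ≤ 3 / 2) : 1 / 2 ≤ Bfd v := by
  wlog hv : 0 ≤ v generalizing v with H
  · rw [← Bfd_neg]
    exact H (by rwa [abs_neg]) (by linarith)
  rw [abs_of_nonneg hv] at h
  unfold Bfd
  rw [gfd_of_le (by linarith : -v ≤ 1)]
  rcases le_total v 1 with h1 | h1
  · rw [gfd_of_le h1]; norm_num
  · rw [gfd_of_mem h1 (by linarith)]
    have h2 : 0 ≤ v - 1 := by linarith
    have h3 : v - 1 ≤ 1 / 2 := by linarith
    nlinarith [mul_nonneg h2 h2, mul_nonneg (mul_nonneg h2 h2) h2]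

theorem Afd_nonpos {v : ℝ} (hv : 0 ≤ v) : Afd v ≤ 0 := by
  unfold Afd
  rw [std_of_le (by linarith : (-v - 1) / 2 ≤ 0), add_zero]
  linarith [std_nonneg ((v - 1) / 2)]

theorem Afd_ge (v : ℝ) (hv : 0 ≤ v) : -(15 / 8) ≤ Afd v := by
  unfold Afd
  rw [std_of_le (by linarith : (-v - 1) / 2 ≤ 0), add_zero]
  linarith [std_le ((v - 1) / 2)]

theorem Bf_nonneg_of {v : ℝ} (hv : 0 ≤ v) (h : v ≤ 3) : 0 ≤ Bf v := by
  rcases le_total v 1 with h1 | h1
  · rw [Bf_of_nonneg hv, gf_of_le h1]; linarith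
  · linarith [Bf_ge_one h1 h]

theorem Af_le_one (v : ℝ) : Af v ≤ 1 := by
  rw [Af_abs]
  linarith [st_nonneg ((|v| - 1) / 2)]

/-- the numbers `X, Y, X', Y'` of a point of the curve in the zone `Re ≥ 0` -/
structure Zn (X Y X' Y' : ℝ) : Prop where
  X0 : 0 ≤ X
  Y'0 : 0 < Y'
  om : 0 < X * Y' - Y * X'
  sgn : (0 ≤ Y ∧ X' ≤ 0 ∧ 0 ≤ X * X' + Y * Y') ∨ (Y ≤ 0 ∧ 0 ≤ X' ∧ X * X' + Y * Y' ≤ 0)
  ne : X = 0 → X' ≠ 0

theorem zn_pos {ga v : ℝ} (hg : 0 < ga) (hg1 : ga ≤ 1 / 8) (hv : 0 ≤ v) (h : v ≤ 3 / 2)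
    (hX : 0 ≤ -(1 - ga) + Af v) : Zn (-(1 - ga) + Af v) (Bf v) (Afd v) (Bfd v) ∧
      0 ≤ (-(1 - ga) + Af v) * Afd v + Bf v * Bfd v ∧ 0 ≤ Bf v := by
  have hB := Bfd_ge (v := v) (by rwa [abs_of_nonneg hv])
  have hA := Afd_nonpos hv
  have hA' := Afd_ge v hv
  have hY := Bf_nonneg_of hv (by linarith)
  have hX1 : -(1 - ga) + Af v ≤ ga := by linarith [Af_le_one v]
  set X := -(1 - ga) + Af v with hXd
  have hne : X = 0 → Afd v < 0 ∧ 1 ≤ Bf v := by
    intro h0
    have h1 : 1 < v := by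
      by_contra h1
      have h2 : Af v = 1 := Af_of_le (by rw [abs_of_nonneg hv]; linarith)
      rw [hXd, h2] at h0
      linarith
    refine ⟨?_, Bf_ge_one h1.le (by linarith)⟩
    unfold Afd
    rw [std_of_le (by linarith : (-v - 1) / 2 ≤ 0), add_zero]
    have := std_pos (x := (v - 1) / 2) (by linarith) (by linarith)
    linarith
  have h3 : 0 ≤ X * Afd v + Bf v * Bfd v := by
    rcases le_total v 1 with h1 | h1
    · have : Afd v = 0 := Afd_of_abs_le (by rwa [abs_of_nonneg hv])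
      rw [this, mul_zero, zero_add]
      exact mul_nonneg hY (by linarith)
    · have h4 := Bf_ge_one h1 (by linarith)
      nlinarith [mul_nonneg hX (by linarith : (0 : ℝ) ≤ Afd v + 15 / 8),
        mul_nonneg (by linarith : (0 : ℝ) ≤ Bf v - 1) (by linarith : (0 : ℝ) ≤ Bfd v - 1 / 2)]
  refine ⟨⟨hX, by linarith, ?_, Or.inl ⟨hY, hA, h3⟩, fun h0 => (hne h0).1.ne⟩, h3, hY⟩
  rcases hX.lt_or_eq with h0 | h0
  · nlinarith [mul_pos h0 (by linarith : (0 : ℝ) < Bfd v), mul_nonneg hY (by linarith : 0 ≤ -Afd v)]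
  · obtain ⟨h5, h6⟩ := hne h0.symm
    rw [← h0]
    nlinarith

theorem Zn.neg {X Y X' Y' : ℝ} (h : Zn X Y X' Y') : Zn X (-Y) (-X') Y' where
  X0 := h.X0
  Y'0 := h.Y'0
  om := by have := h.om; linarith
  sgn := by
    rcases h.sgn with ⟨h1, h2, h3⟩ | ⟨h1, h2, h3⟩
    · exact Or.inr ⟨by linarith, by linarith, by linarith⟩
    · exact Or.inl ⟨by linarith, by linarith, by linarith⟩
  ne := fun h0 h1 => h.ne h0 (by linarith)

theorem zn {ga v : ℝ} (hg : 0 < ga) (hg1 : ga ≤ 1 / 8) (h : |v| ≤ 3 / 2)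
    (hX : 0 ≤ -(1 - ga) + Af v) : Zn (-(1 - ga) + Af v) (Bf v) (Afd v) (Bfd v) := by
  rcases le_total 0 v with hv | hv
  · exact (zn_pos hg hg1 hv (by rwa [abs_of_nonneg hv] at h) hX).1
  · have h1 := (zn_pos hg hg1 (by linarith : 0 ≤ -v) (by rwa [abs_of_nonpos hv] at h)
      (by rwa [Af_even])).1.neg
    rw [Af_even, Bf_neg, Afd_neg, Bfd_neg, neg_neg, neg_neg] at h1
    exact h1

/-- **GOOD** on the zone -/
theorem good_zn {X Y X' Y' r t s k : ℝ} (h : Zn X Y X' Y') (hr : 0 < r) (ht : 0 ≤ t) (ht1 : t ≤ 1)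
    (hs : 0 < s) (hk : 0 < k) {a Q : ℂ}
    (ha : a = (s : ℂ) * ⟨-(1 - t) * (X * Y' - Y * X') * Y / r + t * X',
      (1 - t) * (X * Y' - Y * X') * X / r + t * Y'⟩) (hQ : Q = (k : ℂ) * ⟨X, Y⟩) :
    Good a Q ∧ (a.re = 0 → 0 < Q.re) := by
  set ω := X * Y' - Y * X' with hω
  have hω0 : 0 < ω := h.om
  set a1 : ℝ := -(1 - t) * ω * Y / r + t * X' with ha1
  set a2 : ℝ := (1 - t) * ω * X / r + t * Y' with ha2
  have hq : 0 ≤ (1 - t) * ω / r := div_nonneg (mul_nonneg (by linarith) hω0.le) hr.le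
  have ha1' : a1 = -((1 - t) * ω / r) * Y + t * X' := by rw [ha1]; ring
  have ha2' : a2 = ((1 - t) * ω / r) * X + t * Y' := by rw [ha2]; ring
  set q := (1 - t) * ω / r with hqd
  have ha20 : 0 ≤ a2 := by
    rw [ha2']
    exact add_nonneg (mul_nonneg hq h.X0) (mul_nonneg ht h.Y'0.le)
  have hkey : Y * a2 + a1 * X = t * (X * X' + Y * Y') := by rw [ha1', ha2']; ring
  have hprod : 0 ≤ -a1 * (Y * a2 + a1 * X) := by
    rw [hkey]
    rcases h.sgn with ⟨h1, h2, h3⟩ | ⟨h1, h2, h3⟩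
    · have h4 : a1 ≤ 0 := by
        rw [ha1']
        nlinarith [mul_nonneg hq h1, mul_nonneg ht (by linarith : 0 ≤ -X')]
      exact mul_nonneg (by linarith) (mul_nonneg ht h3)
    · have h4 : 0 ≤ a1 := by
        rw [ha1']
        nlinarith [mul_nonneg hq (by linarith : 0 ≤ -Y), mul_nonneg ht h2]
      exact mul_nonneg_of_nonpos_of_nonpos (by linarith) (mul_nonpos_of_nonneg_of_nonpos ht h3)
  constructor
  · intro u hu h0 h1 _
    have h2 : u.re * a1 + u.im * a2 = 0 := by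
      rw [ha, rf_real_mul] at h1
      have h3 := (mul_eq_zero.1 h1).resolve_left hs.ne'
      simpa [rf] using h3
    have h5 : jf u Q = k * (u.re * Y - u.im * X) := by
      rw [hQ, jf_real_mul]
      simp [jf]
    rw [h5]
    have h6 : 0 ≤ u.im * (u.re * Y - u.im * X) := by
      rcases ha20.lt_or_eq with h7 | h7
      · have h8 : u.im = -(u.re * a1) / a2 := by
          rw [eq_div_iff h7.ne']; linarith
        have h9 : u.im * (u.re * Y - u.im * X) =
            (u.re ^ 2 / a2 ^ 2) * (-a1 * (Y * a2 + a1 * X)) := by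
          rw [h8]
          field_simp
          ring
        rw [h9]
        exact mul_nonneg (div_nonneg (sq_nonneg _) (sq_nonneg _)) hprod
      · -- `a2 = 0`: `t = 0`, `X = 0`
        have h8 : t = 0 ∧ q * X = 0 := by
          have h9 := mul_nonneg ht h.Y'0.le
          have h10 := mul_nonneg hq h.X0
          have h11 : t * Y' = 0 := by linarith
          exact ⟨(mul_eq_zero.1 h11).resolve_right h.Y'0.ne', by linarith⟩
        obtain ⟨h9, h10⟩ := h8
        have hq1 : 0 < q := by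
          rw [hqd, h9]
          have : (1 - (0 : ℝ)) * ω / r = ω / r := by ring
          rw [this]
          exact div_pos hω0 hr
        have hX : X = 0 := (mul_eq_zero.1 h10).resolve_left hq1.ne'
        have hY : Y ≠ 0 := by
          intro hY
          rw [hω, hX, hY] at hω0
          simp at hω0
        have ha1ne : a1 ≠ 0 := by
          rw [ha1', h9, zero_mul, add_zero]
          exact mul_ne_zero (neg_ne_zero.2 hq1.ne') hY
        rw [← h7, mul_zero, add_zero] at h2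
        have hure : u.re = 0 := (mul_eq_zero.1 h2).resolve_right ha1ne
        rw [hure, hX]
        simp
    calc (0 : ℝ) ≤ k * (u.im * (u.re * Y - u.im * X)) := mul_nonneg hk.le h6
      _ = _ := by ring
  · intro h1
    rw [ha, Complex.re_ofReal_mul] at h1
    have h2 : a1 = 0 := (mul_eq_zero.1 h1).resolve_left hs.ne'
    rw [hQ, Complex.re_ofReal_mul]
    refine mul_pos hk (lt_of_le_of_ne h.X0 fun h3 => ?_)
    have hX : X = 0 := h3.symm
    have hX' : X' ≠ 0 := h.ne hX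
    have hY : Y ≠ 0 := by
      intro hY
      rw [hω, hX, hY] at hω0
      simp at hω0
    rw [ha1'] at h2
    have h4 : q * Y = t * X' := by linarith
    rcases h.sgn with ⟨h5, h6, _⟩ | ⟨h5, h6, _⟩
    · have h7 : 0 ≤ q * Y := mul_nonneg hq h5
      have h8 : t * X' ≤ 0 := mul_nonpos_of_nonneg_of_nonpos ht h6
      have h9 : t * X' = 0 := by linarith
      have h10 : t = 0 := (mul_eq_zero.1 h9).resolve_right hX'
      have h11 : q * Y = 0 := by linarith
      have h12 : q = 0 := (mul_eq_zero.1 h11).resolve_right hY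
      rw [hqd, h10] at h12
      have : (1 - (0 : ℝ)) * ω / r = ω / r := by ring
      rw [this] at h12
      exact (div_pos hω0 hr).ne' h12
    · have h7 : q * Y ≤ 0 := mul_nonpos_of_nonneg_of_nonpos hq h5
      have h8 : 0 ≤ t * X' := mul_nonneg ht h6
      have h9 : t * X' = 0 := by linarith
      have h10 : t = 0 := (mul_eq_zero.1 h9).resolve_right hX'
      have h11 : q * Y = 0 := by linarith
      have h12 : q = 0 := (mul_eq_zero.1 h11).resolve_right hY
      rw [hqd, h10] at h12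
      have : (1 - (0 : ℝ)) * ω / r = ω / r := by ring
      rw [this] at h12
      exact (div_pos hω0 hr).ne' h12

/-! ### the planar function -/

variable {K ga : ℝ} {M : ℕ}

theorem pv_ne (hg : 0 < ga) (hg1 : ga ≤ 1 / 8) (τ : ℝ) : pv ga M τ ≠ 0 := by
  intro h0
  have hre : (pv ga M τ).re = 0 := by rw [h0]; rfl
  have him : (pv ga M τ).im = 0 := by rw [h0]; rfl
  rcases cases_tau M τ with h | ⟨l, hl, h⟩ | h
  · rw [pv_low (by linarith)] at hre
    simp at hre
    linarith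
  · rw [pv_cell hl h] at hre him
    simp at hre him
    set v := τ - sg l
    rcases lt_or_ge |v| 1 with h1 | h1
    · rw [Af_of_le h1.le] at hre
      linarith
    · rcases lt_or_ge 3 |v| with h2 | h2
      · rw [Af_of_ge h2.le] at hre
        linarith
      · rcases le_total 0 v with hv | hv
        · rw [abs_of_nonneg hv] at h1 h2
          have := Bf_ge_one h1 h2
          linarith
        · rw [abs_of_nonpos hv] at h1 h2
          have := Bf_ge_one h1 h2
          rw [Bf_neg] at this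
          linarith
  · rw [pv_high (by linarith)] at hre
    simp at hre
    linarith

theorem pl_ne (hg : 0 < ga) (hg1 : ga ≤ 1 / 8) {z : ℂ} (hz : z ≠ 0) : pl ga M z ≠ 0 := by
  rcases lt_or_ge 0 z.re with h | h
  · rw [pl_of_pos h]
    exact mul_ne_zero (by exact_mod_cast h.ne') (pv_ne hg hg1 _)
  · rw [pl_of_nonpos h]
    intro h0
    apply hz
    have h1 := congrArg Complex.re h0
    have h2 := congrArg Complex.im h0
    simp at h1 h2
    refine Complex.ext ?_ h2
    rcases h1 with h1 | h1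
    · linarith
    · exact h1

/-- the zone `Re pl ≥ 0`, `s > 0` -/
theorem zone (hg : 0 < ga) (hg1 : ga ≤ 1 / 8) {z : ℂ} (hz : 0 < z.re) (h : 0 ≤ (pl ga M z).re) :
    ∃ l < M, |z.im / z.re - sg l| < 3 / 2 ∧ 0 ≤ -(1 - ga) + Af (z.im / z.re - sg l) := by
  rw [pl_of_pos hz, Complex.re_ofReal_mul] at h
  have h1 : 0 ≤ (pv ga M (z.im / z.re)).re := by
    by_contra h2
    push Not at h2
    have := mul_neg_of_pos_of_neg hz h2
    linarith
  rcases cases_tau M (z.im / z.re) with h2 | ⟨l, hl, h2⟩ | h2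
  · rw [pv_low (by linarith)] at h1
    simp at h1
    linarith
  · rw [pv_cell hl h2] at h1
    have h3 : 0 ≤ -(1 - ga) + Af (z.im / z.re - sg l) := by simpa using h1
    refine ⟨l, hl, ?_, h3⟩
    by_contra h4
    push Not at h4
    have := Af_le_of h4
    linarith
  · rw [pv_high (by linarith)] at h1
    simp at h1
    linarith

end Crest.Agent.R267.GlPl_322
end
end

-- ▼ part R267/GlLn_322
section

/-!
# Row 267 (helper322): GLUE-LINE, regularity along chains with general couplings of two variables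
-/

set_option autoImplicit false
set_option linter.unusedSectionVars false

noncomputable section

open Finset
open Crest.Agent.R267.LemL_951

namespace Crest.Agent.R267.GlLn_322

/-! ### a variant of `lobB_reg` -/

section Fun

variable {ι : Type*} [Fintype ι] [DecidableEq ι]

/-- **LEMMA L, general coupling, weak form.** -/
theorem lobB_reg2 {P : ι → ℂ → ℂ} {B : (ι → ℂ) → ℝ} {D : ι → ℝ} (hD : ∀ i, 0 < D i)
    (hPH : ∀ i, PH (D i) (P i)) {z : ι → ℂ} (hPd : ∀ i, DifferentiableAt ℝ (P i) (z i))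
    (hBd : DifferentiableAt ℝ B z) (hb : ∀ i, 0 ≤ fderiv ℝ B z (Pi.single i (z i)))
    (hE : ∑ i, fderiv ℝ B z (Pi.single i (z i)) / D i = B z)
    (hcase : ∀ i, z i ≠ 0 →
      (Function.Surjective (fderiv ℝ (P i) (z i)) ∧ ∀ v, fderiv ℝ B z (Pi.single i v) = 0) ∨
      (P i (z i) ≠ 0 ∧ ((P i (z i)).re < 0 ∨
        ∃ v, fderiv ℝ B z (Pi.single i v) = 0 ∧ Good (fderiv ℝ (P i) (z i) v) (P i (z i)) ∧
          ((fderiv ℝ (P i) (z i) v).re = 0 → 0 < (P i (z i)).re)))) (hz : z ≠ 0)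
    (hNC : (∀ i, D i * (P i (z i)).re = fderiv ℝ B z (Pi.single i (z i))) →
      (∀ i, z i ≠ 0 → 0 < (P i (z i)).re ∧
        ∃ v, fderiv ℝ B z (Pi.single i v) = 0 ∧ Good (fderiv ℝ (P i) (z i) v) (P i (z i)) ∧
          ((fderiv ℝ (P i) (z i) v).re = 0 → 0 < (P i (z i)).re)) → False)
    (hre : 0 ≤ (lobB P B z).re) : Function.Surjective (fderiv ℝ (lobB P B) z) := by
  have hL := fderiv_lobB_single hPd hBd
  by_cases hall : ∀ i, z i ≠ 0 → (P i (z i) ≠ 0 ∧ ((P i (z i)).re < 0 ∨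
    ∃ v, fderiv ℝ B z (Pi.single i v) = 0 ∧ Good (fderiv ℝ (P i) (z i) v) (P i (z i)) ∧
      ((fderiv ℝ (P i) (z i) v).re = 0 → 0 < (P i (z i)).re)))
  swap
  · push Not at hall
    obtain ⟨i, hi, hi2⟩ := hall
    rcases hcase i hi with ⟨hs, h1⟩ | h1
    · intro b
      obtain ⟨v, hv⟩ := hs b
      refine ⟨Pi.single i v, ?_⟩
      rw [hL, hv, h1]; simp
    · exfalso
      rcases h1 with ⟨ha, hb | ⟨v, hb2, hb3, hb4⟩⟩
      · exact absurd hb (not_lt.2 (hi2 ha).1)
      · obtain ⟨h5, h6⟩ := (hi2 ha).2 v hb2 hb3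
        exact absurd (hb4 h5) (not_lt.2 h6)
  have h0Q : ∀ i, z i = 0 → P i (z i) = 0 := fun i hi => by rw [hi, (hPH i).zero (hD i)]
  have hang : ∀ i, ∃ α : ι → ℂ, (z i ≠ 0 → ¬ (P i (z i)).re < 0 →
      (Good (fderiv ℝ (lobB P B) z α) (P i (z i)) ∧
        ((fderiv ℝ (lobB P B) z α).re = 0 → 0 < (P i (z i)).re))) := by
    intro i
    by_cases hi : z i ≠ 0 ∧ ¬ (P i (z i)).re < 0
    · obtain ⟨-, h1⟩ := hall i hi.1
      rcases h1 with h1 | ⟨v, h1, h2, h3⟩
      · exact absurd h1 hi.2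
      · refine ⟨Pi.single i v, fun _ _ => ?_⟩
        rw [hL, h1]
        simpa using ⟨h2, h3⟩
    · exact ⟨0, fun h1 h2 => absurd ⟨h1, h2⟩ hi⟩
  choose α hα using hang
  refine lemG (fderiv ℝ (lobB P B) z : (ι → ℂ) →ₗ[ℝ] ℂ)
    (fun i => Pi.single i (z i)) α D hD (fun i => P i (z i))
    (fun i => fderiv ℝ B z (Pi.single i (z i))) hb (fun i => ?_) (fun i => ?_) ?_
    (fun h1 h2 h3 => ?_) ?_
  · show fderiv ℝ (lobB P B) z (Pi.single i (z i)) = _
    rw [hL, (hPH i).euler (hPd i), Complex.real_smul]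
  · by_cases hi : z i = 0
    · exact Or.inl (h0Q i hi)
    · right
      by_cases hneg : (P i (z i)).re < 0
      · exact good_of_neg hneg
      · exact (hα i hi hneg).1
  · obtain ⟨i, hi⟩ : ∃ i, z i ≠ 0 := by
      by_contra h
      push Not at h
      exact hz (funext h)
    exact ⟨i, (hall i hi).1⟩
  · refine hNC h1 fun i hi => ?_
    refine ⟨(hα i hi (h3 i)).2 (h2 i), ?_⟩
    rcases (hall i hi).2 with h4 | h4
    · exact absurd h4 (h3 i)
    · exact h4
  · have : (lobB P B z).re =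
        ∑ i, (P i (z i)).re - ∑ i, fderiv ℝ B z (Pi.single i (z i)) / D i := by
      unfold lobB
      rw [Complex.sub_re, Complex.re_sum, Complex.ofReal_re, hE]
    rw [← this]
    exact hre

end Fun

/-! ### chains with couplings of two neighbouring variables -/

section Chain

variable {n : ℕ}

/-- sum of couplings of neighbours -/
def cB (b : Fin n → ℂ × ℂ → ℝ) (z : Fin (n + 1) → ℂ) : ℝ :=
  ∑ e : Fin n, b e (z e.castSucc, z e.succ)

theorem hasFDerivAt_cB {b : Fin n → ℂ × ℂ → ℝ} {z : Fin (n + 1) → ℂ}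
    (hb : ∀ e : Fin n, DifferentiableAt ℝ (b e) (z e.castSucc, z e.succ)) :
    HasFDerivAt (cB b) (∑ e : Fin n, (fderiv ℝ (b e) (z e.castSucc, z e.succ)).comp
      ((ContinuousLinearMap.proj (R := ℝ) (φ := fun _ => ℂ) e.castSucc).prod
        (ContinuousLinearMap.proj (R := ℝ) (φ := fun _ => ℂ) e.succ))) z := by
  refine HasFDerivAt.fun_sum fun e _ => ?_
  have h1 : HasFDerivAt (fun z : Fin (n + 1) → ℂ => (z e.castSucc, z e.succ))
      ((ContinuousLinearMap.proj (R := ℝ) (φ := fun _ => ℂ) e.castSucc).prod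
        (ContinuousLinearMap.proj (R := ℝ) (φ := fun _ => ℂ) e.succ)) z :=
    (hasFDerivAt_apply e.castSucc z).prodMk (hasFDerivAt_apply e.succ z)
  exact HasFDerivAt.comp z (hb e).hasFDerivAt h1

theorem fderiv_cB_single {b : Fin n → ℂ × ℂ → ℝ} {z : Fin (n + 1) → ℂ}
    (hb : ∀ e : Fin n, DifferentiableAt ℝ (b e) (z e.castSucc, z e.succ)) (i : Fin (n + 1))
    (v : ℂ) : fderiv ℝ (cB b) z (Pi.single i v) =
      ∑ e : Fin n, ((if e.castSucc = i then fderiv ℝ (b e) (z e.castSucc, z e.succ) (v, 0) else 0) +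
        if e.succ = i then fderiv ℝ (b e) (z e.castSucc, z e.succ) (0, v) else 0) := by
  rw [(hasFDerivAt_cB hb).fderiv]
  simp only [_root_.sum_apply, ContinuousLinearMap.comp_apply, ContinuousLinearMap.prod_apply,
    ContinuousLinearMap.proj_apply]
  refine sum_congr rfl fun e _ => ?_
  have hne : e.castSucc ≠ e.succ := Fin.castSucc_lt_succ.ne
  by_cases h1 : e.castSucc = i
  · have h2 : e.succ ≠ i := fun h => hne (h1.trans h.symm)
    rw [if_pos h1, if_neg h2, add_zero]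
    subst h1
    rw [Pi.single_eq_same, Pi.single_eq_of_ne h2]
  · by_cases h2 : e.succ = i
    · rw [if_neg h1, if_pos h2, zero_add]
      subst h2
      rw [Pi.single_eq_same, Pi.single_eq_of_ne h1]
    · rw [if_neg h1, if_neg h2, add_zero, Pi.single_eq_of_ne h1, Pi.single_eq_of_ne h2]
      exact map_zero _

/-- **LEMMA L for chains, general couplings of neighbours of degree `8`.** -/
theorem chain_reg2 {P : Fin (n + 1) → ℂ → ℂ} {b : Fin n → ℂ × ℂ → ℝ} {px py : Fin n → ℝ}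
    (hPH : ∀ i, PH (8 : ℝ) (P i)) {z : Fin (n + 1) → ℂ}
    (hPd : ∀ i, DifferentiableAt ℝ (P i) (z i))
    (hbd : ∀ e : Fin n, DifferentiableAt ℝ (b e) (z e.castSucc, z e.succ))
    (hpx : ∀ e, 0 ≤ px e) (hpy : ∀ e, 0 ≤ py e)
    (hsum : ∀ e, px e + py e = b e (z e.castSucc, z e.succ))
    (hx : ∀ e : Fin n, fderiv ℝ (b e) (z e.castSucc, z e.succ) (z e.castSucc, 0) = 8 * px e)
    (hy : ∀ e : Fin n, fderiv ℝ (b e) (z e.castSucc, z e.succ) (0, z e.succ) = 8 * py e)
    (hcase : ∀ i, z i ≠ 0 →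
      (Function.Surjective (fderiv ℝ (P i) (z i)) ∧ ∀ e : Fin n, ∀ v,
        (e.castSucc = i → fderiv ℝ (b e) (z e.castSucc, z e.succ) (v, 0) = 0) ∧
        (e.succ = i → fderiv ℝ (b e) (z e.castSucc, z e.succ) (0, v) = 0)) ∨
      (P i (z i) ≠ 0 ∧ ((P i (z i)).re < 0 ∨
        ∃ v, (∀ e : Fin n, (e.castSucc = i → fderiv ℝ (b e) (z e.castSucc, z e.succ) (v, 0) = 0) ∧
            (e.succ = i → fderiv ℝ (b e) (z e.castSucc, z e.succ) (0, v) = 0)) ∧
          Good (fderiv ℝ (P i) (z i) v) (P i (z i)) ∧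
          ((fderiv ℝ (P i) (z i) v).re = 0 → 0 < (P i (z i)).re)))) (hz : z ≠ 0)
    (hb0 : ∀ e : Fin n, 0 < b e (z e.castSucc, z e.succ) → z e.castSucc ≠ 0 ∧ z e.succ ≠ 0)
    (hNC : ∀ e : Fin n, 0 < b e (z e.castSucc, z e.succ) →
      0 < (P e.castSucc (z e.castSucc)).re → 0 < (P e.succ (z e.succ)).re →
      px e ≤ (P e.castSucc (z e.castSucc)).re → (P e.succ (z e.succ)).re = py e → False)
    (hre : 0 ≤ (lobB P (cB b) z).re) : Function.Surjective (fderiv ℝ (lobB P (cB b)) z) := by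
  have hs := fderiv_cB_single hbd
  have hrad : ∀ i, fderiv ℝ (cB b) z (Pi.single i (z i)) =
      ∑ e : Fin n, ((if e.castSucc = i then 8 * px e else 0) +
        if e.succ = i then 8 * py e else 0) := by
    intro i
    rw [hs]
    refine sum_congr rfl fun e _ => ?_
    by_cases h1 : e.castSucc = i
    · by_cases h2 : e.succ = i
      · rw [if_pos h1, if_pos h2, if_pos h1, if_pos h2, ← hx, ← hy, h1, h2]
      · rw [if_pos h1, if_neg h2, if_pos h1, if_neg h2, ← hx, h1]
    · by_cases h2 : e.succ = i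
      · rw [if_neg h1, if_pos h2, if_neg h1, if_pos h2, ← hy, h2]
      · rw [if_neg h1, if_neg h2, if_neg h1, if_neg h2]
  have hfl : ∀ (i : Fin (n + 1)) (v : ℂ),
      (∀ e : Fin n, (e.castSucc = i → fderiv ℝ (b e) (z e.castSucc, z e.succ) (v, 0) = 0) ∧
        (e.succ = i → fderiv ℝ (b e) (z e.castSucc, z e.succ) (0, v) = 0)) →
      fderiv ℝ (cB b) z (Pi.single i v) = 0 := by
    intro i v h
    rw [hs]
    refine sum_eq_zero fun e _ => ?_
    by_cases h1 : e.castSucc = i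
    · by_cases h2 : e.succ = i
      · rw [if_pos h1, if_pos h2, (h e).1 h1, (h e).2 h2, add_zero]
      · rw [if_pos h1, if_neg h2, (h e).1 h1, add_zero]
    · by_cases h2 : e.succ = i
      · rw [if_neg h1, if_pos h2, (h e).2 h2, add_zero]
      · rw [if_neg h1, if_neg h2, add_zero]
  refine lobB_reg2 (D := fun _ => 8) (fun _ => by norm_num) hPH hPd
    (hasFDerivAt_cB hbd).differentiableAt (fun i => ?_) ?_ (fun i hi => ?_) hz (fun h1 h2 => ?_) hre
  · rw [hrad]
    refine sum_nonneg fun e _ => add_nonneg ?_ ?_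
    · split_ifs
      · have := hpx e; positivity
      · exact le_rfl
    · split_ifs
      · have := hpy e; positivity
      · exact le_rfl
  · show ∑ i, fderiv ℝ (cB b) z (Pi.single i (z i)) / 8 = cB b z
    rw [← sum_div]
    simp only [hrad]
    rw [sum_comm]
    have h3 : ∀ e : Fin n, ∑ i, ((if e.castSucc = i then 8 * px e else 0) +
        if e.succ = i then 8 * py e else 0) = 8 * b e (z e.castSucc, z e.succ) := by
      intro e
      rw [sum_add_distrib, sum_ite_eq, sum_ite_eq, if_pos (mem_univ _), if_pos (mem_univ _),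
        ← hsum]
      ring
    simp only [h3]
    rw [← mul_sum, mul_div_cancel_left₀ _ (by norm_num : (8 : ℝ) ≠ 0)]
    rfl
  · rcases hcase i hi with ⟨h1, h2⟩ | ⟨h1, h2 | ⟨v, h2, h3, h4⟩⟩
    · exact Or.inl ⟨h1, fun v => hfl i v fun e => h2 e v⟩
    · exact Or.inr ⟨h1, Or.inl h2⟩
    · exact Or.inr ⟨h1, Or.inr ⟨v, hfl i v h2, h3, h4⟩⟩
  · have hb : ∀ e : Fin n, 0 ≤ b e (z e.castSucc, z e.succ) := fun e => by
      rw [← hsum]; exact add_nonneg (hpx e) (hpy e)
    have hne : ∃ i, (P i (z i)).re ≠ 0 := by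
      obtain ⟨i, hi⟩ : ∃ i, z i ≠ 0 := by
        by_contra h
        push Not at h
        exact hz (funext h)
      exact ⟨i, (h2 i hi).1.ne'⟩
    have hzero : ∀ e : Fin n, b e (z e.castSucc, z e.succ) = 0 → px e = 0 ∧ py e = 0 := by
      intro e he
      have h3 := hsum e
      have h4 := hpx e
      have h5 := hpy e
      constructor <;> linarith
    obtain ⟨e, he, h3, h4⟩ := chain_last (D := fun _ : Fin (n + 1) => (8 : ℝ))
      (fun _ => by norm_num)
      (p := fun e => 8 * px e / b e (z e.castSucc, z e.succ))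
      (m := fun e => 8 * py e / b e (z e.castSucc, z e.succ))
      (fun e => div_nonneg (by have := hpx e; positivity) (hb e))
      (fun e => div_nonneg (by have := hpy e; positivity) (hb e))
      (B := fun e => b e (z e.castSucc, z e.succ)) hb
      (q := fun i => (P i (z i)).re) (fun i => by
        rw [h1 i, hrad]
        refine sum_congr rfl fun e _ => ?_
        by_cases h0 : b e (z e.castSucc, z e.succ) = 0
        · rw [(hzero e h0).1, (hzero e h0).2, h0]
          simp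
        · rw [add_mul, ite_mul, ite_mul, zero_mul, div_mul_cancel₀ _ h0, div_mul_cancel₀ _ h0])
      hne
    have he' : 0 < b e (z e.castSucc, z e.succ) := he
    simp only [div_mul_cancel₀ _ he'.ne'] at h3 h4
    obtain ⟨h5, h6⟩ := hb0 e he'
    exact hNC e he' (h2 _ h5).1 (h2 _ h6).1 (by linarith) (by linarith)

end Chain

end Crest.Agent.R267.GlLn_322
end
end

-- ▼ part R267/GlCp_322

/-!
# Row 267 (helper322): GLUE-LINE, the couplings and the planar terms
-/

set_option autoImplicit false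
set_option linter.unusedSectionVars false

noncomputable section

open Finset Filter Topology
open Crest.Agent.R267.T3aDefs_957 Crest.Agent.R267.GlueDefs_322 Crest.Agent.R267.Calc_957
open Crest.Agent.R267.GlBas_322 Crest.Agent.R267.LemL_951 Crest.Agent.R267.GlPl_322

namespace Crest.Agent.R267.GlCp_322

/-! ### derivatives along lines -/

section

variable {E F : Type*} [NormedAddCommGroup E] [NormedSpace ℝ E] [NormedAddCommGroup F]
  [NormedSpace ℝ F]

theorem line_deriv {f : E → F} {p : E} (hd : DifferentiableAt ℝ f p) (v : E) :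
    HasDerivAt (fun s : ℝ => f (p + s • v)) (fderiv ℝ f p v) 0 := by
  have h1 : HasDerivAt (fun s : ℝ => p + s • v) v 0 := by
    simpa using ((hasDerivAt_id (0 : ℝ)).smul_const v).const_add p
  have h2 : HasFDerivAt f (fderiv ℝ f p) (p + (0 : ℝ) • v) := by
    rw [zero_smul, add_zero]; exact hd.hasFDerivAt
  exact h2.comp_hasDerivAt (0 : ℝ) h1

theorem fderiv_line {f : E → F} {p : E} (hd : DifferentiableAt ℝ f p) {v : E} {d : F}
    (h : HasDerivAt (fun s : ℝ => f (p + s • v)) d 0) : fderiv ℝ f p v = d :=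
  (line_deriv hd v).unique h

theorem fderiv_line_const {f : E → F} {p : E} (hd : DifferentiableAt ℝ f p) {v : E}
    (h : ∀ᶠ s : ℝ in 𝓝 0, f (p + s • v) = f p) : fderiv ℝ f p v = 0 :=
  fderiv_line hd ((hasDerivAt_const (0 : ℝ) (f p)).congr_of_eventuallyEq h)

end

/-! ### windows -/

theorem rho_nonneg (K : ℝ) (z : ℂ) : 0 ≤ rho K z :=
  mul_nonneg (pow_nonneg (pg_nonneg _ _) 7) (le_max_left _ _)

theorem rho_smul {K r : ℝ} (hr : 0 < r) (z : ℂ) : rho K ((r : ℂ) * z) = r ^ 8 * rho K z := by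
  unfold rho
  rw [pg_smul hr, Complex.re_ofReal_mul]
  have : max 0 (r * z.re) = r * max 0 z.re := by
    rw [mul_max_of_nonneg _ _ hr.le, mul_zero]
  rw [this]
  ring

theorem rho_of_nonpos {K : ℝ} {z : ℂ} (h : z.re ≤ 0) : rho K z = 0 := by
  unfold rho
  rw [max_eq_left h, mul_zero]

theorem rho_window {K : ℝ} {z : ℂ} (h : 0 < z.re) (hK : 0 ≤ K) (h1 : |z.im| ≤ K * z.re) :
    rho K z = z.re ^ 8 := by
  unfold rho
  rw [pg_window hK (by rwa [abs_of_pos h]), abs_of_pos h, max_eq_right h.le]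
  ring

theorem win_nonneg (m M : ℕ) (τ : ℝ) : 0 ≤ win m M τ :=
  mul_nonneg (st_nonneg _) (by have := st_le_one ((τ - (8 * M - 1)) / 2); linarith)

/-- the window on the lobes -/
theorem win_zone {m M l : ℕ} (hl : l < M) {τ : ℝ} (h : |τ - sg l| < 3 / 2) :
    win m M τ = if m ≤ l then 1 else 0 := by
  unfold win
  rw [abs_lt] at h
  have h1 : (l : ℝ) + 1 ≤ M := by exact_mod_cast hl
  unfold sg at h
  rw [st_of_le (by linarith : (τ - (8 * M - 1)) / 2 ≤ 0), sub_zero, mul_one]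
  split_ifs with h2
  · have h3 : (m : ℝ) ≤ l := by exact_mod_cast h2
    exact st_of_ge (by linarith)
  · have h3 : (l : ℝ) + 1 ≤ m := by exact_mod_cast not_le.1 h2
    exact st_of_le (by linarith)

theorem win_far {m M : ℕ} {τ : ℝ} (h : 8 * (M : ℝ) + 1 ≤ |τ|) : win m M τ = 0 := by
  unfold win
  rcases le_total 0 τ with h0 | h0
  · rw [abs_of_nonneg h0] at h
    rw [st_of_ge (by linarith : 1 ≤ (τ - (8 * M - 1)) / 2), sub_self, mul_zero]
  · rw [abs_of_nonpos h0] at h
    have h1 : (0 : ℝ) ≤ m := m.cast_nonneg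
    have h2 : (0 : ℝ) ≤ M := M.cast_nonneg
    rw [st_of_le (by linarith : (τ - (8 * m - 1)) / 2 ≤ 0), zero_mul]

/-- window functions on the plane -/
structure Wn (K : ℝ) (M : ℕ) (w : ℂ → ℝ) : Prop where
  hom : ∀ r : ℝ, 0 < r → ∀ z, w ((r : ℂ) * z) = w z
  nn : ∀ z, 0 ≤ w z
  far : ∀ z : ℂ, z ≠ 0 → z.re ≤ 0 → ∀ᶠ y in 𝓝 z, rho K y * w y = 0
  loc : ∀ z : ℂ, 0 < z.re → ∀ l < M, |z.im / z.re - sg l| < 3 / 2 →
    ∀ᶠ h : ℝ in 𝓝 0, w (z + h • Complex.I) = w z

theorem im_line (z : ℂ) (h : ℝ) : (z + h • Complex.I).im = z.im + h := by simp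

theorem re_line (z : ℂ) (h : ℝ) : (z + h • Complex.I).re = z.re := by simp

theorem zone_line {z : ℂ} (hz : 0 < z.re) {c r : ℝ} (h : |z.im / z.re - c| < r) :
    ∀ᶠ h : ℝ in 𝓝 0, |(z + h • Complex.I).im / (z + h • Complex.I).re - c| < r := by
  have h1 : Continuous fun h : ℝ => |(z + h • Complex.I).im / (z + h • Complex.I).re - c| := by
    simp only [im_line, re_line]
    fun_prop
  have h2 := h1.tendsto 0
  rw [zero_smul, add_zero] at h2
  exact h2.eventually_lt_const h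

theorem wn_win (K : ℝ) (m M : ℕ) : Wn K M (fun z => win m M (z.im / z.re)) where
  hom := fun r hr z => by
    rw [Complex.re_ofReal_mul, Complex.im_ofReal_mul, mul_div_mul_left _ _ hr.ne']
  nn := fun z => win_nonneg _ _ _
  far := fun z hz hre => by
    rcases hre.lt_or_eq with h | h
    · have h1 : ∀ᶠ y : ℂ in 𝓝 z, y.re < 0 :=
        Complex.continuous_re.continuousAt.eventually_lt_const h
      filter_upwards [h1] with y hy
      rw [rho_of_nonpos hy.le, zero_mul]
    · have him : z.im ≠ 0 := fun h0 => hz (Complex.ext h h0)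
      have h1 : ∀ᶠ y : ℂ in 𝓝 z, (8 * (M : ℝ) + 1) * y.re < |y.im| := by
        have c1 : Continuous fun y : ℂ => (8 * (M : ℝ) + 1) * y.re - |y.im| := by fun_prop
        have := c1.continuousAt (x := z)
        have h2 : (8 * (M : ℝ) + 1) * z.re - |z.im| < 0 := by
          rw [h, mul_zero, zero_sub]
          exact neg_neg_of_pos (abs_pos.2 him)
        filter_upwards [this.eventually_lt_const h2] with y hy
        linarith
      filter_upwards [h1] with y hy
      rcases le_or_gt y.re 0 with h2 | h2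
      · rw [rho_of_nonpos h2, zero_mul]
      · rw [win_far, mul_zero]
        rw [abs_div, abs_of_pos h2, le_div_iff₀ h2]
        exact hy.le
  loc := fun z hz l hl h => by
    filter_upwards [zone_line hz h] with s hs
    rw [win_zone hl hs, win_zone hl h]

/-! ### the harmonic coupling -/

/-- harmonic coupling with general windows -/
def J8 (K : ℝ) (w w' : ℂ → ℝ) (p : ℂ × ℂ) : ℝ :=
  rho K p.1 * rho K p.2 / (rho K p.1 + rho K p.2) * (w p.1 * w' p.2)

theorem J8_swap (K : ℝ) (w w' : ℂ → ℝ) (x y : ℂ) : J8 K w w' (x, y) = J8 K w' w (y, x) := by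
  unfold J8
  rw [mul_comm (rho K x), add_comm (rho K x), mul_comm (w x)]

section J8

variable {K : ℝ} {M M' : ℕ} {w w' : ℂ → ℝ}

theorem J8_rad (hw : Wn K M w) (x y : ℂ) :
    HasDerivAt (fun s : ℝ => J8 K w w' ((x, y) + s • (x, 0)))
      (8 * (rho K x * rho K y ^ 2 / (rho K x + rho K y) ^ 2 * (w x * w' y))) 0 := by
  set X := rho K x with hX
  set Y := rho K y with hY
  have hX0 : 0 ≤ X := rho_nonneg _ _
  have hY0 : 0 ≤ Y := rho_nonneg _ _
  have e1 : (fun s : ℝ => J8 K w w' ((x, y) + s • (x, 0))) =ᶠ[𝓝 0]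
      fun s => ((1 + s) ^ 8 * X) * Y / ((1 + s) ^ 8 * X + Y) * (w x * w' y) := by
    filter_upwards [lt_mem_nhds (by norm_num : (-1 : ℝ) < 0)] with s hs
    have h1 : (0 : ℝ) < 1 + s := by linarith
    have h2 : (x, y) + s • ((x, 0) : ℂ × ℂ) = (((1 + s : ℝ) : ℂ) * x, y) := by
      ext1
      · show x + s • x = _
        rw [Complex.real_smul]
        push_cast
        ring
      · show y + s • (0 : ℂ) = y
        rw [smul_zero, add_zero]
    rw [h2]
    unfold J8
    rw [rho_smul h1, hw.hom _ h1]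
  refine HasDerivAt.congr_of_eventuallyEq ?_ e1
  by_cases h0 : X + Y = 0
  · have hX1 : X = 0 := by linarith
    have hY1 : Y = 0 := by linarith
    rw [hX1, hY1]
    simpa using hasDerivAt_const (0 : ℝ) (0 : ℝ)
  · have h1 : HasDerivAt (fun s : ℝ => (1 + s) ^ 8 * X) (8 * X) 0 := by
      have h2 := (((hasDerivAt_id (0 : ℝ)).const_add 1).pow 8).mul_const X
      refine h2.congr_deriv ?_
      simp
    have h3 : (1 + (0 : ℝ)) ^ 8 * X + Y ≠ 0 := by rwa [add_zero, one_pow, one_mul]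
    have h2 := ((h1.mul_const Y).div (h1.add_const Y) h3).mul_const (w x * w' y)
    refine h2.congr_deriv ?_
    rw [add_zero, one_pow, one_mul]
    field_simp
    ring

theorem J8_vert (hw : Wn K M w) (hK : 8 * (M : ℝ) + 2 ≤ K) {x : ℂ} (y : ℂ) (hx : 0 < x.re) {l : ℕ}
    (hl : l < M) (h : |x.im / x.re - sg l| < 3 / 2) :
    ∀ᶠ s : ℝ in 𝓝 0, J8 K w w' ((x, y) + s • (Complex.I, 0)) = J8 K w w' (x, y) := by
  have hM : (l : ℝ) + 1 ≤ M := by exact_mod_cast hl
  have hK0 : (0 : ℝ) ≤ K := by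
    have : (0 : ℝ) ≤ M := M.cast_nonneg
    linarith
  have hwin : ∀ u : ℂ, 0 < u.re → |u.im / u.re - sg l| < 3 / 2 → |u.im| ≤ K * u.re := by
    intro u hu h1
    have h2 : |u.im / u.re| ≤ K := by
      rw [abs_lt] at h1
      unfold sg at h1
      rw [abs_le]
      have : (0 : ℝ) ≤ l := l.cast_nonneg
      constructor <;> linarith
    rwa [abs_div, abs_of_pos hu, div_le_iff₀ hu] at h2
  filter_upwards [hw.loc x hx l hl h, zone_line hx h] with s h1 h2
  have h3 : (x, y) + s • ((Complex.I, 0) : ℂ × ℂ) = (x + s • Complex.I, y) := by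
    ext1
    · rfl
    · show y + s • (0 : ℂ) = y
      rw [smul_zero, add_zero]
  rw [h3]
  unfold J8
  have h4 : 0 < (x + s • Complex.I).re := by rwa [re_line]
  rw [h1, rho_window h4 hK0 (hwin _ h4 h2), rho_window hx hK0 (hwin _ hx h), re_line]

theorem J8_flat (hw : Wn K M w) {x : ℂ} (y v : ℂ) (hx0 : x ≠ 0) (hx : x.re ≤ 0) :
    ∀ᶠ s : ℝ in 𝓝 0, J8 K w w' ((x, y) + s • (v, 0)) = J8 K w w' (x, y) := by
  have h1 : Tendsto (fun s : ℝ => x + s • v) (𝓝 0) (𝓝 x) := by
    have : Continuous fun s : ℝ => x + s • v := by fun_prop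
    simpa using this.tendsto 0
  have h0 := (hw.far x hx0 hx).self_of_nhds
  have key : ∀ u : ℂ, rho K u * w u = 0 → J8 K w w' (u, y) = 0 := by
    intro u hu
    unfold J8
    calc rho K u * rho K y / (rho K u + rho K y) * (w u * w' y)
        = (rho K u * w u) * (rho K y / (rho K u + rho K y) * w' y) := by ring
      _ = 0 := by rw [hu, zero_mul]
  filter_upwards [h1.eventually (hw.far x hx0 hx)] with s hs
  have h3 : (x, y) + s • ((v, 0) : ℂ × ℂ) = (x + s • v, y) := by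
    ext1
    · rfl
    · show y + s • (0 : ℂ) = y
      rw [smul_zero, add_zero]
  rw [h3, key _ hs, key _ h0]

end J8

/-! ### the planar terms -/

section Planar

variable {K ga : ℝ} {M : ℕ}

/-- derivative of `q / |q|` -/
theorem hasDerivAt_unit {q : ℝ → ℂ} {q' : ℂ} (h : HasDerivAt q q' 0) (h0 : q 0 ≠ 0) :
    HasDerivAt (fun s => ((‖q s‖⁻¹ : ℝ) : ℂ) * q s)
      ((((q 0).re * q'.im - (q 0).im * q'.re) / ‖q 0‖ ^ 3 : ℝ) *
        (⟨-(q 0).im, (q 0).re⟩ : ℂ)) 0 := by
  have hn : 0 < ‖q 0‖ := norm_pos_iff.2 h0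
  have h1 : HasDerivAt (fun s => (q s).re) q'.re 0 := by
    exact Complex.reCLM.hasFDerivAt.comp_hasDerivAt (0 : ℝ) h
  have h2 : HasDerivAt (fun s => (q s).im) q'.im 0 := by
    exact Complex.imCLM.hasFDerivAt.comp_hasDerivAt (0 : ℝ) h
  have hsq : ∀ u : ℂ, ‖u‖ = Real.sqrt (u.re ^ 2 + u.im ^ 2) := by
    intro u
    rw [Complex.norm_eq_sqrt_sq_add_sq]
  have hn2 : ‖q 0‖ ^ 2 = (q 0).re ^ 2 + (q 0).im ^ 2 := by
    rw [hsq, Real.sq_sqrt (by positivity)]
  have h3 : HasDerivAt (fun s => ‖q s‖) (((q 0).re * q'.re + (q 0).im * q'.im) / ‖q 0‖) 0 := by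
    have h4 := ((h1.fun_pow 2).fun_add (h2.fun_pow 2)).sqrt (by
      rw [← hn2]; positivity)
    have h5 : (fun s => ‖q s‖) = fun s => Real.sqrt ((q s).re ^ 2 + (q s).im ^ 2) :=
      funext fun s => hsq _
    rw [h5]
    refine h4.congr_deriv ?_
    rw [← hsq]
    field_simp
    ring
  have h4 := (h3.fun_inv hn.ne').ofReal_comp.fun_mul h
  refine h4.congr_deriv ?_
  have hn3 : ‖q 0‖ ≠ 0 := hn.ne'
  apply Complex.ext
  · simp only [Complex.add_re, Complex.mul_re, Complex.ofReal_re, Complex.ofReal_im, zero_mul,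
      sub_zero]
    field_simp
    rw [hn2]
    ring
  · simp only [Complex.add_im, Complex.mul_im, Complex.ofReal_re, Complex.ofReal_im, zero_mul,
      add_zero]
    field_simp
    rw [hn2]
    ring

/-- the planar term of the line -/
def Pt (K ga : ℝ) (M : ℕ) (t : ℝ) (z : ℂ) : ℂ := (1 - t) • PS K ga M z + t • P8 K ga M z

/-- the factor -/
def mf (K ga : ℝ) (M : ℕ) (t : ℝ) (z : ℂ) : ℝ :=
  (1 - t) * (pg K z ^ 8 / ‖pl ga M z‖) + t * pg K z ^ 7

theorem Pt_eq (t : ℝ) (z : ℂ) : Pt K ga M t z = (mf K ga M t z : ℂ) * pl ga M z := by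
  unfold Pt mf PS P8
  rw [Complex.real_smul, Complex.real_smul]
  push_cast
  ring

theorem mf_pos (hg : 0 < ga) (hg1 : ga ≤ 1 / 8) {t : ℝ} (ht : 0 ≤ t) (ht1 : t ≤ 1) {z : ℂ}
    (hz : z ≠ 0) : 0 < mf K ga M t z := by
  have h1 : 0 < pg K z := pg_pos hz
  have h2 : 0 < ‖pl ga M z‖ := norm_pos_iff.2 (pl_ne hg hg1 hz)
  unfold mf
  have h3 : 0 < pg K z ^ 8 / ‖pl ga M z‖ := by positivity
  have h4 : 0 < pg K z ^ 7 := by positivity
  rcases ht.lt_or_eq with h | h
  · exact add_pos_of_nonneg_of_pos (mul_nonneg (by linarith) h3.le) (mul_pos h h4)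
  · rw [← h]
    simpa using h3

theorem Pt_ne (hg : 0 < ga) (hg1 : ga ≤ 1 / 8) {t : ℝ} (ht : 0 ≤ t) (ht1 : t ≤ 1) {z : ℂ}
    (hz : z ≠ 0) : Pt K ga M t z ≠ 0 := by
  rw [Pt_eq]
  exact mul_ne_zero (by exact_mod_cast (mf_pos hg hg1 ht ht1 hz).ne') (pl_ne hg hg1 hz)

theorem PS_smul {r : ℝ} (hr : 0 < r) (z : ℂ) :
    PS K ga M ((r : ℂ) * z) = (r ^ 8 : ℝ) • PS K ga M z := by
  unfold PS
  rw [pg_smul hr, pl_smul hr, norm_mul, Complex.norm_real, Real.norm_of_nonneg hr.le,
    Complex.real_smul]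
  have h1 : (r * pg K z) ^ 8 / (r * ‖pl ga M z‖) * r = r ^ 8 * (pg K z ^ 8 / ‖pl ga M z‖) := by
    by_cases h0 : ‖pl ga M z‖ = 0
    · rw [h0]; simp
    · field_simp
  rw [← mul_assoc, ← Complex.ofReal_mul, h1]
  push_cast
  ring

theorem P8_smul {r : ℝ} (hr : 0 < r) (z : ℂ) :
    P8 K ga M ((r : ℂ) * z) = (r ^ 8 : ℝ) • P8 K ga M z := by
  unfold P8
  rw [pg_smul hr, pl_smul hr, Complex.real_smul]
  push_cast
  ring

theorem Pt_PH (t : ℝ) : PH (8 : ℝ) (Pt K ga M t) := by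
  intro r hr z
  unfold Pt
  rw [PS_smul hr, P8_smul hr, show r ^ (8 : ℝ) = r ^ 8 by exact_mod_cast Real.rpow_natCast r 8,
    smul_add, smul_comm (1 - t), smul_comm t]

/-- plate side: `Pt` is a submersion -/
theorem Pt_surj (hg : 0 < ga) (hg1 : ga ≤ 1 / 8) {t : ℝ} (ht : 0 ≤ t) (ht1 : t ≤ 1) {z : ℂ}
    (hz : z ≠ 0) (hre : z.re ≤ 0) (hd : DifferentiableAt ℝ (Pt K ga M t) z) :
    Function.Surjective (fderiv ℝ (Pt K ga M t) z) := by
  -- `pl` is linear near `z`
  set ℓ : ℂ → ℂ := fun w => -((2 - ga : ℝ) : ℂ) * w.re - Complex.I * w.im with hℓ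
  have hev : pl ga M =ᶠ[𝓝 z] ℓ := by
    rcases hre.lt_or_eq with h | h
    · filter_upwards [Complex.continuous_re.continuousAt.eventually_lt_const h] with y hy
      exact pl_of_nonpos hy.le
    · have him : z.im ≠ 0 := fun h0 => hz (Complex.ext h h0)
      have c1 : Continuous fun y : ℂ => (8 * (M : ℝ) + 1) * y.re - |y.im| := by fun_prop
      have h2 : (8 * (M : ℝ) + 1) * z.re - |z.im| < 0 := by
        rw [h, mul_zero, zero_sub]
        exact neg_neg_of_pos (abs_pos.2 him)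
      filter_upwards [c1.continuousAt.eventually_lt_const h2] with y hy
      exact pl_of_far (Or.inl (by linarith))
  -- along `s ↦ z + s • (I * z)`
  have hline : Tendsto (fun s : ℝ => z + s • (Complex.I * z)) (𝓝 0) (𝓝 z) := by
    have : Continuous fun s : ℝ => z + s • (Complex.I * z) := by fun_prop
    simpa using this.tendsto 0
  have h1 := line_deriv hd (Complex.I * z)
  set B := fderiv ℝ (Pt K ga M t) z (Complex.I * z) with hB
  have hℓd : HasDerivAt (fun s : ℝ => ℓ (z + s • (Complex.I * z))) (ℓ (Complex.I * z)) 0 := by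
    have e : (fun s : ℝ => ℓ (z + s • (Complex.I * z))) = fun s : ℝ => ℓ z + s • ℓ (Complex.I * z) := by
      funext s
      rw [hℓ]
      simp only [Complex.add_re, Complex.add_im, Complex.real_smul, Complex.re_ofReal_mul,
        Complex.im_ofReal_mul]
      push_cast
      ring
    rw [e]
    simpa using ((hasDerivAt_id (0 : ℝ)).smul_const (ℓ (Complex.I * z))).const_add (ℓ z)
  have hzero : ∀ᶠ s : ℝ in 𝓝 0, ((ℓ (z + s • (Complex.I * z))).re *
      (Pt K ga M t (z + s • (Complex.I * z))).im - (ℓ (z + s • (Complex.I * z))).im *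
      (Pt K ga M t (z + s • (Complex.I * z))).re) = 0 := by
    filter_upwards [hline.eventually hev] with s hs
    rw [Pt_eq, ← hs, Complex.re_ofReal_mul, Complex.im_ofReal_mul]
    ring
  have hre' : ∀ {q : ℝ → ℂ} {q' : ℂ}, HasDerivAt q q' 0 → HasDerivAt (fun s => (q s).re) q'.re 0 :=
    fun h => Complex.reCLM.hasFDerivAt.comp_hasDerivAt (0 : ℝ) h
  have him' : ∀ {q : ℝ → ℂ} {q' : ℂ}, HasDerivAt q q' 0 → HasDerivAt (fun s => (q s).im) q'.im 0 :=
    fun h => Complex.imCLM.hasFDerivAt.comp_hasDerivAt (0 : ℝ) h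
  have h2 := ((hre' hℓd).fun_mul (him' h1)).fun_sub ((him' hℓd).fun_mul (hre' h1))
  have h3 := h2.unique ((hasDerivAt_const (0 : ℝ) (0 : ℝ)).congr_of_eventuallyEq hzero)
  simp only [zero_smul, add_zero] at h3
  have hPz : Pt K ga M t z = (mf K ga M t z : ℂ) * ℓ z := by rw [Pt_eq, hev.self_of_nhds]
  have hm := mf_pos (K := K) (M := M) hg hg1 ht ht1 hz
  set m := mf K ga M t z with hmd
  have hz2 : 0 < z.re ^ 2 + z.im ^ 2 := by
    by_contra h
    push Not at h
    apply hz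
    exact Complex.ext (by nlinarith [sq_nonneg z.re, sq_nonneg z.im] : z.re = 0)
      (by nlinarith [sq_nonneg z.re, sq_nonneg z.im] : z.im = 0)
  refine Ang_739.surj_of_im (A := (8 : ℝ) • Pt K ga M t z) (B := B) ?_ ((Pt_PH t).euler hd) hB.symm
  have e1 : (ℓ z).re = -(2 - ga) * z.re := by rw [hℓ]; simp
  have e2 : (ℓ z).im = -z.im := by rw [hℓ]; simp
  have e3 : (ℓ (Complex.I * z)).re = (2 - ga) * z.im := by rw [hℓ]; simp; ring
  have e4 : (ℓ (Complex.I * z)).im = -z.re := by rw [hℓ]; simp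
  have hkey : (ℓ z).re * B.im - (ℓ z).im * B.re = m * ((2 - ga) * (z.re ^ 2 + z.im ^ 2)) := by
    rw [hPz, Complex.re_ofReal_mul, Complex.im_ofReal_mul, e1, e2, e3, e4] at h3
    rw [e1, e2]
    linarith
  have : (B * (starRingEnd ℂ) ((8 : ℝ) • Pt K ga M t z)).im =
      8 * m * ((ℓ z).re * B.im - (ℓ z).im * B.re) := by
    rw [hPz]
    simp only [Complex.real_smul, map_mul, Complex.conj_ofReal, Complex.mul_im, Complex.mul_re,
      Complex.ofReal_re, Complex.ofReal_im, Complex.conj_re, Complex.conj_im]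
    ring
  rw [this, hkey]
  have h5 : 0 < 2 - ga := by linarith
  positivity

/-- the vertical derivative of `Pt` in the zone -/
theorem Pt_good (hg : 0 < ga) (hg1 : ga ≤ 1 / 8) (hK : 8 * (M : ℝ) + 2 ≤ K) {t : ℝ} (ht : 0 ≤ t)
    (ht1 : t ≤ 1) {z : ℂ} (hz : 0 < z.re) {l : ℕ} (hl : l < M)
    (h : |z.im / z.re - sg l| < 3 / 2) (hX : 0 ≤ -(1 - ga) + Af (z.im / z.re - sg l))
    (hd : DifferentiableAt ℝ (Pt K ga M t) z) :
    Good (fderiv ℝ (Pt K ga M t) z Complex.I) (Pt K ga M t z) ∧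
      ((fderiv ℝ (Pt K ga M t) z Complex.I).re = 0 → 0 < (Pt K ga M t z).re) := by
  have hK0 : (0 : ℝ) ≤ K := by
    have : (0 : ℝ) ≤ M := M.cast_nonneg
    linarith
  have hM : (l : ℝ) + 1 ≤ M := by exact_mod_cast hl
  set s := z.re with hs
  set τ := z.im / s with hτ
  set v := τ - sg l with hv
  have hpgw : ∀ u : ℂ, 0 < u.re → |u.im / u.re - sg l| < 3 / 2 → pg K u = u.re := by
    intro u hu h1
    have h2 : |u.im / u.re| ≤ K := by
      rw [abs_lt] at h1
      unfold sg at h1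
      rw [abs_le]
      have : (0 : ℝ) ≤ l := l.cast_nonneg
      constructor <;> linarith
    rw [abs_div, abs_of_pos hu, div_le_iff₀ hu] at h2
    rw [pg_window hK0 (by rwa [abs_of_pos hu]), abs_of_pos hu]
  set q : ℝ → ℂ := fun h => pv ga M (τ + h / s) with hq
  have hq0 : q 0 = pv ga M τ := by rw [hq]; simp
  have hqne : q 0 ≠ 0 := by rw [hq0]; exact pv_ne hg hg1 τ
  have hqd : HasDerivAt q (((1 / s : ℝ) : ℂ) * pvd M τ) 0 := by
    have h1 : HasDerivAt (fun h : ℝ => τ + h / s) (1 / s) 0 :=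
      ((hasDerivAt_id (0 : ℝ)).div_const s).const_add τ
    have h2 : HasDerivAt (pv ga M) (pvd M τ) ((fun h : ℝ => τ + h / s) 0) := by
      simpa using hasDerivAt_pv ga M τ
    have h3 := HasDerivAt.scomp (0 : ℝ) h2 h1
    rw [Complex.real_smul] at h3
    exact h3
  have hcell : pv ga M τ = ((-(1 - ga) + Af v : ℝ) : ℂ) + Complex.I * ((Bf v : ℝ) : ℂ) :=
    pv_cell hl (by linarith)
  have hcelld : pvd M τ = ((Afd v : ℝ) : ℂ) + Complex.I * ((Bfd v : ℝ) : ℂ) :=
    pvd_cell hl (by linarith)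
  have hZ := zn hg hg1 h.le hX
  set X := -(1 - ga) + Af v with hXd
  set Y := Bf v with hYd
  have hq0re : (q 0).re = X := by rw [hq0, hcell]; simp
  have hq0im : (q 0).im = Y := by rw [hq0, hcell]; simp
  have hd're : (((1 / s : ℝ) : ℂ) * pvd M τ).re = Afd v / s := by
    rw [hcelld, Complex.re_ofReal_mul]
    simp
    ring
  have hd'im : (((1 / s : ℝ) : ℂ) * pvd M τ).im = Bfd v / s := by
    rw [hcelld, Complex.im_ofReal_mul]
    simp
    ring
  have hr : 0 < ‖q 0‖ := norm_pos_iff.2 hqne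
  set r := ‖q 0‖ with hrd
  have hU := hasDerivAt_unit hqd hqne
  rw [hq0re, hq0im, hd're, hd'im, ← hrd] at hU
  -- the function along the vertical line
  have hev : (fun h : ℝ => Pt K ga M t (z + h • Complex.I)) =ᶠ[𝓝 0]
      fun h => (((1 - t) * s ^ 8 : ℝ) : ℂ) * (((‖q h‖⁻¹ : ℝ) : ℂ) * q h) +
        ((t * s ^ 8 : ℝ) : ℂ) * q h := by
    filter_upwards [zone_line hz h] with x hx
    have h4 : 0 < (z + x • Complex.I).re := by rwa [re_line]
    have h5 := hpgw _ h4 hx
    have h6 : pl ga M (z + x • Complex.I) = (s : ℂ) * q x := by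
      rw [pl_of_pos h4, re_line, im_line, hq]
      simp only
      congr 2
      rw [hτ]
      ring
    rw [Pt_eq, h6]
    unfold mf
    rw [h5, h6, re_line, norm_mul, Complex.norm_real, Real.norm_of_nonneg hz.le, ← hs]
    push_cast
    have h7 : (s : ℂ) ≠ 0 := by exact_mod_cast hz.ne'
    have h8 : ((‖q x‖ : ℝ) : ℂ) ≠ 0 := by
      have : q x ≠ 0 := pv_ne hg hg1 _
      exact_mod_cast (norm_pos_iff.2 this).ne'
    field_simp
  have hD := (hU.const_mul ((((1 - t) * s ^ 8 : ℝ) : ℂ))).fun_add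
    (hqd.const_mul (((t * s ^ 8 : ℝ) : ℂ)))
  have hfd := fderiv_line hd (hD.congr_of_eventuallyEq hev)
  have hval : Pt K ga M t z = ((s ^ 8 * ((1 - t) / r + t) : ℝ) : ℂ) * ⟨X, Y⟩ := by
    have h9 := hev.self_of_nhds
    simp only [zero_smul, add_zero] at h9
    rw [h9, ← hrd]
    have h10 : q 0 = ⟨X, Y⟩ := Complex.ext hq0re hq0im
    rw [h10]
    push_cast
    ring
  refine good_zn (s := s ^ 7) (k := s ^ 8 * ((1 - t) / r + t)) (r := r ^ 3) hZ (by positivity)
    ht ht1 (by positivity) ?_ ?_ hval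
  · have h11 : 0 < (1 - t) / r + t := by
      rcases ht.lt_or_eq with h12 | h12
      · have : 0 ≤ (1 - t) / r := div_nonneg (by linarith) hr.le
        linarith
      · rw [← h12]
        simp only [sub_zero, add_zero]
        positivity
    positivity
  · rw [hfd]
    have hs' : s ≠ 0 := hz.ne'
    have hr' : r ≠ 0 := hr.ne'
    apply Complex.ext
    · simp only [Complex.add_re, Complex.re_ofReal_mul, hd're]
      field_simp
    · simp only [Complex.add_im, Complex.im_ofReal_mul, hd'im]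
      field_simp

/-- upper bound of the real part in the zone -/
theorem Pt_le (hg : 0 < ga) (hg1 : ga ≤ 1 / 8) {t : ℝ} (ht : 0 ≤ t)
    (ht1 : t ≤ 1) {z : ℂ} (hz : 0 < z.re) (hpg : pg K z = z.re) :
    (Pt K ga M t z).re ≤ ((1 - t) + t * ga) * z.re ^ 8 := by
  have h0 : pl ga M z ≠ 0 := pl_ne hg hg1 (fun h => by rw [h] at hz; simp at hz)
  have hn : 0 < ‖pl ga M z‖ := norm_pos_iff.2 h0
  have h1 : (pl ga M z).re ≤ ‖pl ga M z‖ := (le_abs_self _).trans (Complex.abs_re_le_norm _)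
  have h2 : (pl ga M z).re ≤ ga * z.re := by
    rw [pl_of_pos hz, Complex.re_ofReal_mul, mul_comm ga]
    refine mul_le_mul_of_nonneg_left ?_ hz.le
    rcases cases_tau M (z.im / z.re) with h | ⟨l, hl, h⟩ | h
    · rw [pv_low (by linarith)]
      simp
    · rw [pv_cell hl h]
      have := Af_le_one (z.im / z.re - sg l)
      simp
      linarith
    · rw [pv_high (by linarith)]
      simp
  rw [Pt_eq, Complex.re_ofReal_mul]
  unfold mf
  rw [hpg]
  have h3 : z.re ^ 8 / ‖pl ga M z‖ * (pl ga M z).re ≤ z.re ^ 8 := by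
    rw [div_mul_eq_mul_div, div_le_iff₀ hn]
    exact mul_le_mul_of_nonneg_left h1 (by positivity)
  have h4 : z.re ^ 7 * (pl ga M z).re ≤ ga * z.re ^ 8 := by
    have := mul_le_mul_of_nonneg_left h2 (by positivity : 0 ≤ z.re ^ 7)
    calc z.re ^ 7 * (pl ga M z).re ≤ z.re ^ 7 * (ga * z.re) := this
      _ = ga * z.re ^ 8 := by ring
  calc ((1 - t) * (z.re ^ 8 / ‖pl ga M z‖) + t * z.re ^ 7) * (pl ga M z).re
      = (1 - t) * (z.re ^ 8 / ‖pl ga M z‖ * (pl ga M z).re) + t * (z.re ^ 7 * (pl ga M z).re) := by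
        ring
    _ ≤ (1 - t) * z.re ^ 8 + t * (ga * z.re ^ 8) :=
        add_le_add (mul_le_mul_of_nonneg_left h3 (by linarith)) (mul_le_mul_of_nonneg_left h4 ht)
    _ = _ := by ring

end Planar

end Crest.Agent.R267.GlCp_322
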