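import Crest.Agent.R267.T3aNDefs_88
import Crest.Agent.R267.Calc3_957

/-!
# Row 267, T3aN (helper277): the simple facts about the signed lobed function
`HomProp`, `S0Prop`, `C00Prop`, `LowProp` of `T3aNDefs_88`.
-/

set_option autoImplicit false

noncomputable section

namespace Crest.Agent.R267.T3aNBas_277

open Finset
open Crest.Agent.R267.T3aDefs_957 (st Af Bf pg NN chi gq)
open Crest.Agent.R267.T3aDefs_957.LD (Ev)
open Crest.Agent.R267.T3aNDefs_88 Crest.Agent.R267.Calc_957 Crest.Agent.R267.Calc2_957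
open Crest.Agent.R267.Calc3_957 (AA BB NN_pos NN_nonneg NN_sq chi_nonneg chi_le_one chi_pos
  chi_of_ge NN_of_le)

/-! ### homogeneity of the gauges -/

theorem gq_smul {K A B r : ℝ} (hr : 0 < r) : gq K (r * A) (r * B) = r * gq K A B := by
  unfold gq
  have h1 : max 0 (r * B - K ^ 2 * (r * A)) = r * max 0 (B - K ^ 2 * A) := by
    rw [mul_max_of_nonneg _ _ hr.le, mul_zero]
    congr 1
    ring
  rw [h1]
  by_cases h : (A + B) = 0
  · have h2 : r * A + r * B = 0 := by rw [← mul_add, h, mul_zero]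
    rw [h2, h]
    simp
  · have h2 : r * A + r * B ≠ 0 := by rw [← mul_add]; exact mul_ne_zero hr.ne' h
    have h3 : 3 * K ^ 2 + 3 ≠ 0 := by positivity
    field_simp

theorem pg_smul {K r : ℝ} (hr : 0 < r) (z : ℂ) : pg K ((r : ℂ) * z) = r * pg K z := by
  unfold pg
  rw [Complex.re_ofReal_mul, Complex.im_ofReal_mul, mul_pow, mul_pow, gq_smul (by positivity),
    Real.sqrt_mul (by positivity), Real.sqrt_sq hr.le]

section NN

variable {N : ℕ}

theorem NN_smul {K r : ℝ} (hr : 0 < r) (z : Fin N → ℂ) :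
    NN K (fun j => (r : ℂ) * z j) = r * NN K z := by
  unfold NN
  have h1 : ∑ j, ((r : ℂ) * z j).re ^ 2 = r ^ 2 * ∑ j, (z j).re ^ 2 := by
    rw [Finset.mul_sum]
    refine Finset.sum_congr rfl fun j _ => ?_
    rw [Complex.re_ofReal_mul, mul_pow]
  have h2 : ∑ j, ((r : ℂ) * z j).im ^ 2 = r ^ 2 * ∑ j, (z j).im ^ 2 := by
    rw [Finset.mul_sum]
    refine Finset.sum_congr rfl fun j _ => ?_
    rw [Complex.im_ofReal_mul, mul_pow]
  rw [h1, h2, gq_smul (by positivity), Real.sqrt_mul (by positivity), Real.sqrt_sq hr.le]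

end NN

/-! ### the planar function -/

theorem plN_smul {ga : ℝ} {e : ℕ → ℝ} {M : ℕ} {r : ℝ} (hr : 0 < r) (z : ℂ) :
    plN ga e M ((r : ℂ) * z) = (r : ℂ) * plN ga e M z := by
  unfold plN
  rw [Complex.re_ofReal_mul, Complex.im_ofReal_mul]
  have h1 : r * z.im / (r * z.re) = z.im / z.re := mul_div_mul_left _ _ hr.ne'
  rw [h1]
  by_cases h : 0 < z.re
  · rw [if_pos h, if_pos (mul_pos hr h)]
    push_cast
    ring
  · rw [if_neg h, if_neg (by rw [mul_pos_iff_of_pos_left hr]; exact h)]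
    push_cast
    ring

theorem plN_of_nonpos {ga : ℝ} {e : ℕ → ℝ} {M : ℕ} {z : ℂ} (h : z.re ≤ 0) :
    plN ga e M z = -((2 - ga : ℝ) : ℂ) * z.re - Complex.I * z.im := by
  unfold plN
  rw [if_neg (not_lt.2 h), add_zero]

theorem plN_re_of_nonpos {ga : ℝ} {e : ℕ → ℝ} {M : ℕ} {z : ℂ} (h : z.re ≤ 0) :
    (plN ga e M z).re = -(2 - ga) * z.re := by
  rw [plN_of_nonpos h, ← Complex.ofReal_neg, ← Complex.ofReal_mul, Complex.sub_re,
    Complex.ofReal_re]
  simp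

theorem plN_im_of_nonpos {ga : ℝ} {e : ℕ → ℝ} {M : ℕ} {z : ℂ} (h : z.re ≤ 0) :
    (plN ga e M z).im = -z.im := by
  rw [plN_of_nonpos h, ← Complex.ofReal_neg, ← Complex.ofReal_mul, Complex.sub_im,
    Complex.ofReal_im]
  simp

/-! ### harmonic combinations -/

theorem Hm_smul {ι : Type} (S : Finset ι) (R : ι → ℝ) {r : ℝ} (hr : 0 < r) :
    Hm S (fun j => r * R j) = r * Hm S R := by
  classical
  unfold Hm
  by_cases h : ∀ j ∈ S, 0 < R j
  · rw [if_pos h, if_pos fun j hj => mul_pos hr (h j hj)]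
    have h1 : ∑ j ∈ S, 1 / (r * R j) = r⁻¹ * ∑ j ∈ S, 1 / R j := by
      rw [Finset.mul_sum]
      refine Finset.sum_congr rfl fun j _ => ?_
      rw [one_div, one_div, mul_inv]
    rw [h1, one_div, mul_inv, inv_inv, one_div]
  · rw [if_neg h, if_neg, mul_zero]
    intro h1
    exact h fun j hj => (mul_pos_iff_of_pos_left hr).1 (h1 j hj)

theorem Hm_eq_zero {ι : Type} {S : Finset ι} {R : ι → ℝ} {j : ι} (hj : j ∈ S) (h : R j ≤ 0) :
    Hm S R = 0 := by
  classical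
  unfold Hm
  rw [if_neg]
  intro h1
  exact absurd (h1 j hj) (not_lt.2 h)

section SD

variable {N : ℕ} (D : SD N)

theorem K1_nonneg : 0 ≤ D.K1 := by unfold SD.K1; positivity


theorem xr_smul {r : ℝ} (hr : 0 < r) (z : Fin N → ℂ) (j : Fin N) :
    D.xr (fun j => (r : ℂ) * z j) j = D.xr z j := by
  unfold SD.xr
  rw [NN_smul hr, pg_smul hr]
  exact mul_div_mul_left _ _ hr.ne'

theorem ch_smul (d : ℝ) {r : ℝ} (hr : 0 < r) (z : Fin N → ℂ) (j : Fin N) :
    D.ch d (fun j => (r : ℂ) * z j) j = D.ch d z j := by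
  unfold SD.ch
  rw [xr_smul D hr]

theorem ch_nonneg (d : ℝ) (z : Fin N → ℂ) (j : Fin N) : 0 ≤ D.ch d z j := chi_nonneg _ _

theorem R_smul (d : ℝ) {r : ℝ} (hr : 0 < r) (z : Fin N → ℂ) (j : Fin N) :
    D.R d (fun j => (r : ℂ) * z j) j = r * D.R d z j := by
  unfold SD.R
  rw [ch_smul D d hr, Complex.re_ofReal_mul]
  have h1 : max 0 (r * (z j).re) = r * max 0 (z j).re := by
    rw [mul_max_of_nonneg _ _ hr.le, mul_zero]
  rw [h1]
  ring

theorem R_of_nonpos (d : ℝ) {z : Fin N → ℂ} {j : Fin N} (h : (z j).re ≤ 0) : D.R d z j = 0 := by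
  unfold SD.R
  rw [max_eq_left h, mul_zero]

theorem Be_smul (d : ℝ) (e : Fin D.nb) {r : ℝ} (hr : 0 < r) (z : Fin N → ℂ) :
    D.Be d e (fun j => (r : ℂ) * z j) = r * D.Be d e z := by
  unfold SD.Be
  have h1 : D.R d (fun j => (r : ℂ) * z j) = fun j => r * D.R d z j := by
    funext j
    exact R_smul D d hr z j
  rw [h1, Hm_smul _ _ hr, mul_assoc]
  congr 2
  refine Finset.prod_congr rfl fun j _ => ?_
  rw [Complex.re_ofReal_mul, Complex.im_ofReal_mul, mul_div_mul_left _ _ hr.ne']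

theorem Be_of_nonpos (d : ℝ) (e : Fin D.nb) {z : Fin N → ℂ} (h : ∀ j, (z j).re ≤ 0) :
    D.Be d e z = 0 := by
  obtain ⟨j, hj⟩ : (D.bx e).S.Nonempty := by
    rw [← Finset.card_pos]
    exact lt_of_lt_of_le two_pos (D.h2 e)
  unfold SD.Be
  rw [Hm_eq_zero hj (R_of_nonpos D d (h j)).le, zero_mul]

/-- **homogeneity**. -/
theorem hom : D.HomProp := by
  intro c g d r z hr
  unfold SD.G
  have h1 : ∑ j, (D.ch d (fun j => (r : ℂ) * z j) j : ℂ) * plN g (D.sn j) (D.M j) ((r : ℂ) * z j) =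
      (r : ℂ) * ∑ j, (D.ch d z j : ℂ) * plN g (D.sn j) (D.M j) (z j) := by
    rw [Finset.mul_sum]
    refine Finset.sum_congr rfl fun j _ => ?_
    rw [ch_smul D d hr, plN_smul hr]
    ring
  have h2 : ∑ e, D.Be d e (fun j => (r : ℂ) * z j) = r * ∑ e, D.Be d e z := by
    rw [Finset.mul_sum]
    exact Finset.sum_congr rfl fun e _ => Be_smul D d e hr z
  rw [h1, h2]
  push_cast
  ring

/-- the real part where no variable is in the right half plane. -/
theorem G_re_of_nonpos (c g d : ℝ) {z : Fin N → ℂ} (h : ∀ j, (z j).re ≤ 0) :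
    (D.G c g d z).re = ∑ j, D.ch d z j * (-(2 - g) * (z j).re) := by
  unfold SD.G
  have h1 : ∑ e, D.Be d e z = 0 := Finset.sum_eq_zero fun e _ => Be_of_nonpos D d e h
  rw [h1, mul_zero, Complex.ofReal_zero, sub_zero, Complex.re_sum]
  refine Finset.sum_congr rfl fun j _ => ?_
  rw [Complex.re_ofReal_mul, plN_re_of_nonpos (h j)]

theorem G_im_of_nonpos (c g d : ℝ) {z : Fin N → ℂ} (h : ∀ j, (z j).re ≤ 0) :
    (D.G c g d z).im = ∑ j, D.ch d z j * (-(z j).im) := by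
  unfold SD.G
  have h1 : ∑ e, D.Be d e z = 0 := Finset.sum_eq_zero fun e _ => Be_of_nonpos D d e h
  rw [h1, mul_zero, Complex.ofReal_zero, sub_zero, Complex.im_sum]
  refine Finset.sum_congr rfl fun j _ => ?_
  rw [Complex.im_ofReal_mul, plN_im_of_nonpos (h j)]

theorem Ev.const {P : ℝ → ℝ → ℝ → Prop} {c0 g0 d0 : ℝ} (h0 : 0 < c0) (h1 : 0 < g0) (h2 : 0 < d0)
    (h : ∀ c, c0 ≤ c → ∀ g, 0 < g → g ≤ g0 → ∀ d, 0 < d → d ≤ d0 → P c g d) : Ev P :=
  ⟨c0, h0, fun c hc => ⟨g0, h1, fun g hg hg' => ⟨d0, h2, fun d hd hd' => h c hc g hg hg' d hd hd'⟩⟩⟩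

/-- **over `s = 0`**. -/
theorem s0 : D.S0Prop := by
  refine Ev.const one_pos one_pos one_pos fun c _ g _ _ d _ _ z hz => ?_
  rw [G_re_of_nonpos D c g d fun j => (hz j).le]
  exact Finset.sum_eq_zero fun j _ => by rw [hz j, mul_zero, mul_zero]

/-- the relative sizes are not all small: one of them is at least `cx`. -/
def cx : ℝ := √(1 / ((N : ℝ) * (96 * D.K ^ 2 + 98)))

theorem pg_sq_ge (K : ℝ) (z : ℂ) : z.re ^ 2 + z.im ^ 2 ≤ (96 * K ^ 2 + 97) * pg K z ^ 2 := by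
  have h1 : z.im ^ 2 ≤ (96 * K ^ 2 + 96) * gq K (z.re ^ 2) (z.im ^ 2) :=
    le_gq' (sq_nonneg _) (sq_nonneg _)
  have h2 : z.re ^ 2 ≤ gq K (z.re ^ 2) (z.im ^ 2) := le_gq
  rw [pg_sq]
  linarith

theorem NN_sq_le (K : ℝ) (z : Fin N → ℂ) :
    NN K z ^ 2 ≤ ∑ j, ((z j).re ^ 2 + (z j).im ^ 2) := by
  rw [NN_sq, Finset.sum_add_distrib]
  exact gq_le (Finset.sum_nonneg fun _ _ => sq_nonneg _) (Finset.sum_nonneg fun _ _ => sq_nonneg _)

theorem exists_large {z : Fin N → ℂ} (hz : z ≠ 0) : ∃ j, cx D ≤ D.xr z j := by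
  by_contra hcon
  push Not at hcon
  have hN0 : 0 < N := by
    rcases Nat.eq_zero_or_pos N with h | h
    · subst h
      exact absurd (Subsingleton.elim z 0) hz
    · exact h
  have hN : (0 : ℝ) < N := by exact_mod_cast hN0
  have hNN : 0 < NN D.K1 z := NN_pos hz
  have hq : (0 : ℝ) < 96 * D.K ^ 2 + 98 := by positivity
  have h1 : ∀ j, (z j).re ^ 2 + (z j).im ^ 2 ≤
      (96 * D.K ^ 2 + 97) * (1 / ((N : ℝ) * (96 * D.K ^ 2 + 98))) * NN D.K1 z ^ 2 := by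
    intro j
    refine (pg_sq_ge D.K (z j)).trans ?_
    have h2 : pg D.K (z j) = D.xr z j * NN D.K1 z := by
      unfold SD.xr
      rw [div_mul_cancel₀ _ hNN.ne']
    have h3 : 0 ≤ D.xr z j := div_nonneg (pg_nonneg _ _) hNN.le
    have h4 : D.xr z j ^ 2 ≤ 1 / ((N : ℝ) * (96 * D.K ^ 2 + 98)) := by
      have h5 : D.xr z j ^ 2 ≤ (cx D) ^ 2 := pow_le_pow_left₀ h3 (hcon j).le 2
      rwa [cx, Real.sq_sqrt (by positivity)] at h5
    rw [h2, mul_pow, mul_assoc]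
    refine mul_le_mul_of_nonneg_left ?_ (by positivity)
    exact mul_le_mul_of_nonneg_right h4 (by positivity)
  have h2 := NN_sq_le D.K1 z
  have h3 : ∑ j, ((z j).re ^ 2 + (z j).im ^ 2) ≤
      N * ((96 * D.K ^ 2 + 97) * (1 / ((N : ℝ) * (96 * D.K ^ 2 + 98))) * NN D.K1 z ^ 2) := by
    refine (Finset.sum_le_sum fun j _ => h1 j).trans ?_
    rw [Finset.sum_const, Finset.card_univ, Fintype.card_fin, nsmul_eq_mul]
  have h4 : (N : ℝ) * ((96 * D.K ^ 2 + 97) * (1 / ((N : ℝ) * (96 * D.K ^ 2 + 98))) *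
      NN D.K1 z ^ 2) < NN D.K1 z ^ 2 := by
    have h5 : (N : ℝ) * ((96 * D.K ^ 2 + 97) * (1 / ((N : ℝ) * (96 * D.K ^ 2 + 98))) *
        NN D.K1 z ^ 2) = (96 * D.K ^ 2 + 97) / (96 * D.K ^ 2 + 98) * NN D.K1 z ^ 2 := by
      field_simp
    rw [h5]
    have h6 : (96 * D.K ^ 2 + 97) / (96 * D.K ^ 2 + 98) < 1 := by
      rw [div_lt_one hq]
      linarith
    have h7 : 0 < NN D.K1 z ^ 2 := by positivity
    nlinarith
  linarith




end SD

end Crest.Agent.R267.T3aNBas_277
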