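import Crest.Agent.R267.GlNDefs_9
import Crest.Agent.R267.GlStar_52
import Crest.Agent.R267.CalcN_88
import Crest.Agent.R267.T3aNBas_277
import Crest.Agent.R267.GlCp_322
import Crest.Agent.R267.GlC2a_930

-- ▼ part R267/GlnStar_649
section

/-!
# Row 267: GLN-STAR (helper649)

`starP`: every polar function of `GlNDefs_9` is equivalent to `FSN`: ALIGN and SEG move it to the
polar function with degree `8`, the phases of `plN` (LIFT) and the cut-offs `wz (cis x)`; the planar
radial homeomorphism `z ↦ (pg z / |z|) z` (`GlStar_52.kk`) turns that function into `FSN`.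
-/

set_option autoImplicit false

noncomputable section

open Finset Set
open Crest.Agent.R267.T3aDefs_957 (st Af Bf pg NN chi)
open Crest.Agent.R267.T3aNDefs_88 Crest.Agent.R267.Hm_951 Crest.Agent.R267.Ang_739
open Crest.Agent.R267.Calc_957 Crest.Agent.R267.CalcN_88
open Crest.Agent.R267.GlBas_322 Crest.Agent.R267.GlNDefs_9
open Crest.Agent.R267.GlStar_52 (kk norm_kk arg_kk kk_smul polar)
open Crest.Agent.R267.Cone_808 Crest.Agent.R267.Sys_808

namespace Crest.Agent.R267.GlnStar_649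

/-! ### `plN ≠ 0` -/

theorem plN_ne {ga : ℝ} {e : ℕ → ℝ} {M : ℕ} (h0 : 0 < ga) (h1 : ga ≤ 1 / 8)
    (he : ∀ l, e l = 1 ∨ e l = -1) {z : ℂ} (hz : z ≠ 0) : plN ga e M z ≠ 0 := by
  intro h
  rcases le_or_gt z.re 0 with hr | hr
  · rw [CalcN_88.plN_of_nonpos hr] at h
    have e1 := congrArg Complex.re h
    have e2 := congrArg Complex.im h
    simp at e1 e2
    apply hz
    refine Complex.ext ?_ e2
    rcases e1 with e1 | e1
    · linarith
    · exact e1
  · rw [plN_of_pos hr] at h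
    have h2 : pvN ga e M (z.im / z.re) = 0 := by
      refine (mul_eq_zero.1 h).resolve_left ?_
      exact_mod_cast hr.ne'
    set τ := z.im / z.re
    rcases casesN_tau M τ with h3 | ⟨l, hl, h3⟩ | h3
    · rw [pvN_low (by linarith)] at h2
      have e1 := congrArg Complex.re h2
      simp at e1
      linarith
    · rw [pvN_cell hl h3] at h2
      have e1 := congrArg Complex.re h2
      have e2 := congrArg Complex.im h2
      simp only [Complex.add_re, Complex.ofReal_re, Complex.I_re, mul_zero,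
        Complex.mul_re, zero_mul, Complex.ofReal_im, Complex.I_im, sub_self, add_zero,
        Complex.zero_re] at e1
      simp only [Complex.add_im, Complex.ofReal_im, Complex.mul_im, Complex.I_re, Complex.I_im,
        Complex.ofReal_re, one_mul, zero_add, mul_zero, Complex.zero_im] at e2
      set v := τ - sgN l
      rcases le_or_gt 3 |v| with h5 | h5
      · have h6 := Af_of_ge h5
        linarith
      · rw [(yc_in (by linarith : |v| ≤ 6)).1] at e2
        have h6 : Bf v = 0 := by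
          rcases he l with h7 | h7 <;> rw [h7] at e2 <;> linarith
        rw [abs_lt] at h5
        rcases lt_trichotomy v 0 with h4 | h4 | h4
        · have h7 := GlStar_52.Bf_pos (v := -v) (by linarith) (by linarith)
          rw [Bf_neg] at h7
          linarith
        · rw [h4, Af_of_le (by norm_num)] at e1
          linarith
        · have h7 := GlStar_52.Bf_pos (v := v) h4 (by linarith)
          linarith
    · rw [pvN_high (by linarith)] at h2
      have e1 := congrArg Complex.re h2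
      simp at e1
      linarith

/-! ### the planar term -/

theorem plN_zero (ga : ℝ) (e : ℕ → ℝ) (M : ℕ) : plN ga e M 0 = 0 := by
  simp [plN]

theorem PSN_eq {ga K : ℝ} {e : ℕ → ℝ} {M : ℕ} {φ : ℝ → ℝ}
    (hφ : ∀ x, plN ga e M (cis x) = (‖plN ga e M (cis x)‖ : ℂ) * cis (φ x)) (h0 : 0 < ga)
    (h1 : ga ≤ 1 / 8) (he : ∀ l, e l = 1 ∨ e l = -1) (z : ℂ) :
    PSN K ga e M z = pc 8 1 φ (kk K z) := by
  unfold PSN pc pol
  rw [norm_kk, arg_kk]
  simp only [Complex.ofReal_one, one_mul]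
  by_cases hz : z = 0
  · subst hz
    rw [pg_zero, plN_zero]
    simp
  · have hzn : 0 < ‖z‖ := norm_pos_iff.2 hz
    have hne := plN_ne (M := M) h0 h1 he hz
    have e1 : plN ga e M z = (‖z‖ : ℂ) * plN ga e M (cis (Complex.arg z)) := by
      conv_lhs => rw [polar z]
      exact T3aNBas_277.plN_smul hzn _
    have e2 : ‖plN ga e M z‖ = ‖z‖ * ‖plN ga e M (cis (Complex.arg z))‖ := by
      rw [e1, norm_mul, Complex.norm_real, norm_norm]
    have hp : plN ga e M z = (‖plN ga e M z‖ : ℂ) * cis (φ (Complex.arg z)) := by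
      rw [e2, e1]
      conv_lhs => rw [hφ]
      push_cast
      ring
    have hn : 0 < ‖plN ga e M z‖ := norm_pos_iff.2 hne
    conv_lhs => rw [hp]
    rw [Complex.real_smul]
    have e3 : (‖plN ga e M z‖ : ℂ) ≠ 0 := by exact_mod_cast hn.ne'
    have e4 : (pg K z ^ (8 : ℝ) : ℝ) = pg K z ^ 8 := by
      exact_mod_cast Real.rpow_natCast (pg K z) 8
    rw [e4]
    rw [norm_mul, norm_cis, mul_one, Complex.norm_real, norm_norm]
    push_cast
    field_simp

/-! ### the windows -/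

theorem wz_smul (m m' : ℕ) {r : ℝ} (hr : 0 < r) (z : ℂ) : wz m m' ((r : ℂ) * z) = wz m m' z := by
  unfold wz
  rw [Complex.re_ofReal_mul, Complex.im_ofReal_mul, mul_div_mul_left _ _ hr.ne']
  by_cases h : 0 < z.re
  · rw [if_pos h, if_pos (mul_pos hr h)]
  · rw [if_neg h, if_neg (by rw [mul_pos_iff_of_pos_left hr]; exact h)]

theorem wz_arg (m m' : ℕ) {z : ℂ} (hz : z ≠ 0) : wz m m' (cis (Complex.arg z)) = wz m m' z := by
  conv_rhs => rw [polar z]
  exact (wz_smul m m' (norm_pos_iff.2 hz) _).symm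

theorem pol_wz (m m' : ℕ) (K : ℝ) {p : ℝ} (hp : 0 < p) (z : ℂ) :
    pol p (fun x => wz m m' (cis x)) (kk K z) = pg K z ^ p * wz m m' z := by
  unfold pol
  rw [norm_kk, arg_kk, smul_eq_mul]
  by_cases hz : z = 0
  · subst hz
    rw [pg_zero, Real.zero_rpow hp.ne', zero_mul, zero_mul]
  · rw [← wz_arg m m' hz]

/-! ### homogeneity of the polar functions with all degrees `8` -/

section Hom

variable {N : ℕ} {D : SD N}

theorem cd_two (D : SD N) (e : Fin D.nb) : 2 ≤ cd D e := by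
  unfold cd
  exact_mod_cast D.h2 e

theorem fn_hom (X : PD D) (hX : ∀ j, X.dg j = 8) {r : ℝ} (hr : 0 < r) (z : Fin N → ℂ) :
    X.fn (fun j => (r : ℂ) * z j) = (r ^ (8 : ℝ)) • X.fn z := by
  unfold PD.fn
  simp only [hX]
  rw [smul_sub]
  congr 1
  · rw [Finset.smul_sum]
    exact Finset.sum_congr rfl fun j _ => pc_hom _ _ _ _ hr _
  · rw [Complex.real_smul, ← Complex.ofReal_mul]
    congr 1
    rw [Finset.mul_sum]
    refine Finset.sum_congr rfl fun e _ => ?_
    have h1 : ∏ j ∈ (D.bx e).S, pol (8 / cd D e) (X.lam e j) ((r : ℂ) * z j) =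
        r ^ (8 : ℝ) * ∏ j ∈ (D.bx e).S, pol (8 / cd D e) (X.lam e j) (z j) := by
      have h2 : ∀ j ∈ (D.bx e).S, pol (8 / cd D e) (X.lam e j) ((r : ℂ) * z j) =
          r ^ (8 / cd D e) * pol (8 / cd D e) (X.lam e j) (z j) := fun j _ => by
        rw [pol_hom _ _ _ hr, smul_eq_mul]
      rw [Finset.prod_congr rfl h2, Finset.prod_mul_distrib, Finset.prod_const]
      congr 1
      rw [← Real.rpow_natCast, ← Real.rpow_mul hr.le]
      congr 1
      have h3 : ((D.bx e).S.card : ℝ) = cd D e := rfl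
      rw [h3]
      have h4 := cd_two D e
      exact div_mul_cancel₀ _ (by linarith : cd D e ≠ 0)
    rw [h1]
    ring

end Hom

/-! ### assembly -/

theorem sn_pm {N : ℕ} (D : SD N) (j : Fin N) (l : ℕ) : D.sn j l = 1 ∨ D.sn j l = -1 := by
  unfold SD.sn
  split_ifs
  · exact Or.inr rfl
  · exact Or.inl rfl

/-- **GLN-STAR**: every polar function is equivalent to `FSN`. -/
theorem starP {N : ℕ} (D : SD N) (hA : AlignP D) (hS : SegP D)
    (hL : ∀ (ga : ℝ) (e : ℕ → ℝ) (M : ℕ), 0 < ga → ga ≤ 1 / 8 → 1 ≤ M →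
      (∀ l, e l = 1 ∨ e l = -1) → LiftP ga e M) : StarP D := by
  intro K ga hK h0 h1 X hX
  choose φ a b harc hwrd hpl hwin using fun j : Fin N =>
    hL ga (D.sn j) (D.M j) h0 h1 (D.hM j) (sn_pm D j)
  let Y : PD D :=
    { dg := fun _ => 8
      ph := φ
      a := a
      b := b
      c := fun _ => 4
      lam := fun e j x => wz ((D.bx e).lo j) ((D.bx e).hi j) (cis x) }
  have hcd : ∀ e, 2 * cd D e < 8 := fun e => by
    have := hK.cd3 e
    linarith
  have hY : Y.Ok :=
    { hdg := fun j => by change (2 : ℝ) < 8; norm_num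
      hdg2 := fun e j _ => hcd e
      arcs := harc
      ph := hwrd
      hc := fun e => by
        change cd D e < 4
        have := hK.cd3 e
        linarith
      lam := fun e j hj => hwin j ((D.bx e).lo j) ((D.bx e).hi j) (D.hhi e j hj) }
  obtain ⟨X', hX', hdg, ha, hb, hz⟩ := hA X hX (fun _ => 8) a b (fun j => by norm_num)
    (fun e j _ => hcd e) harc
  have h2 : ZEq X'.fn Y.fn := hS X' Y hX' hY hdg ha hb
  refine (hz.trans h2).trans (ZEq.symm ?_)
  let w : Fin N → ℝ := fun _ => 1 / 8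
  have hw : ∀ i, 0 < w i := fun i => by change (0 : ℝ) < 1 / 8; norm_num
  refine zeq_of_equiv (w := w) (w' := w) hw hw ?_ (Homeomorph.piCongrRight fun _ => kk K) ?_ ?_
  · intro s z hz0
    have h3 : act w s z = fun j => ((Real.exp (s * (1 / 8)) : ℝ) : ℂ) * z j := rfl
    rw [h3, fn_hom Y (fun _ => rfl) (Real.exp_pos _), hz0, smul_zero]
  · intro s z
    funext i
    change kk K (((Real.exp (s * w i) : ℝ) : ℂ) * z i) = ((Real.exp (s * w i) : ℝ) : ℂ) * kk K (z i)
    exact kk_smul K (Real.exp_pos _) _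
  · intro z
    have h4 : FSN D K ga 4 z = Y.fn ((Homeomorph.piCongrRight fun _ : Fin N => kk K) z) := by
      have h5 : ∀ i, (Homeomorph.piCongrRight fun _ : Fin N => kk K) z i = kk K (z i) :=
        fun i => rfl
      unfold FSN PD.fn
      simp only [h5]
      congr 1
      · exact Finset.sum_congr rfl fun j _ => PSN_eq (hpl j) h0 h1 (sn_pm D j) (z j)
      · congr 1
        rw [Finset.mul_sum]
        refine Finset.sum_congr rfl fun e _ => ?_
        congr 1
        refine Finset.prod_congr rfl fun j _ => ?_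
        have h6 : 0 < 8 / cd D e := by
          have := cd_two D e
          exact div_pos (by norm_num) (by linarith)
        exact (pol_wz _ _ K h6 (z j)).symm
    rw [h4]

end Crest.Agent.R267.GlnStar_649
end
end

-- ▼ part R267/GlnPl_984

/-!
# Row 267 (helper984): GLN-LINE, planar facts on `plN`
-/

set_option autoImplicit false
set_option linter.unusedSectionVars false

noncomputable section

open Finset Filter Topology
open Crest.Agent.R267.T3aDefs_957 (st Af Bf pg pl NN chi)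
open Crest.Agent.R267.T3aNDefs_88 Crest.Agent.R267.GlNDefs_9 Crest.Agent.R267.LemL_951
open Crest.Agent.R267.GlueDefs_322 (rho PS P8)
open Crest.Agent.R267.Calc_957 (Afd Bfd)
open Crest.Agent.R267.GlPl_322 (Zn zn good_zn Af_le_of Af_le_one)
open Crest.Agent.R267.GlCp_322 (line_deriv fderiv_line fderiv_line_const hasDerivAt_unit im_line
  re_line zone_line)
open Crest.Agent.R267.CalcN_88 (pvdN hasDerivAt_pvN plN_of_pos)

namespace Crest.Agent.R267.GlnPl_984

/-! ### conjugation -/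

theorem good_conj {a Q : ℂ} (h : Good a Q) : Good (starRingEnd ℂ a) (starRingEnd ℂ Q) := by
  intro u hu h0 h1 h2
  have e1 : ∀ v : ℂ, rf (starRingEnd ℂ u) v = rf u (starRingEnd ℂ v) := fun v => by simp [rf]
  have h3 := h (starRingEnd ℂ u) (by rw [Complex.norm_conj]; exact hu)
    (by rw [Complex.conj_re]; exact h0) (by rw [e1]; exact h1) (by rw [e1]; exact h2)
  have h4 : (starRingEnd ℂ u).im * jf (starRingEnd ℂ u) Q = u.im * jf u (starRingEnd ℂ Q) := by
    simp only [jf, Complex.conj_re, Complex.conj_im]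
    ring
  rw [← h4]
  exact h3

/-- **GOOD** on the zone, with a sign -/
theorem good_znE {X Y X' Y' r t s k e : ℝ} (he : e = 1 ∨ e = -1) (h : Zn X Y X' Y') (hr : 0 < r)
    (ht : 0 ≤ t) (ht1 : t ≤ 1) (hs : 0 < s) (hk : 0 < k) {a Q : ℂ}
    (ha : a = (s : ℂ) * ⟨-(1 - t) * (X * Y' - Y * X') * Y / r + t * X',
      e * ((1 - t) * (X * Y' - Y * X') * X / r + t * Y')⟩) (hQ : Q = (k : ℂ) * ⟨X, e * Y⟩) :
    Good a Q ∧ (a.re = 0 → 0 < Q.re) := by
  rcases he with he | he
  · subst he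
    rw [one_mul] at ha hQ
    exact good_zn h hr ht ht1 hs hk ha hQ
  · subst he
    obtain ⟨h1, h2⟩ := good_zn h hr ht ht1 hs hk (a := starRingEnd ℂ a) (Q := starRingEnd ℂ Q)
      (by
        rw [ha]
        apply Complex.ext
        · simp
        · simp) (by
        rw [hQ]
        apply Complex.ext
        · simp
        · simp)
    have h3 := good_conj h1
    rw [Complex.conj_conj, Complex.conj_conj] at h3
    exact ⟨h3, by simpa using h2⟩

/-! ### the zone -/

variable {K ga : ℝ} {e : ℕ → ℝ} {M : ℕ}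

theorem far_re {τ : ℝ} (h : ∀ l < M, 3 ≤ |τ - sgN l|) (he : ∀ l, e l = 1 ∨ e l = -1) :
    (pvN ga e M τ).re = -(2 - ga) :=
  (CalcN_88.pvN_vert (fun l => by rcases he l with h | h <;> rw [h] <;> norm_num) h).1 ga

theorem pvN_ne (hg : 0 < ga) (hg1 : ga ≤ 1 / 8) (he : ∀ l, e l = 1 ∨ e l = -1) (τ : ℝ) :
    pvN ga e M τ ≠ 0 := by
  have h1 := GlnStar_649.plN_ne (M := M) hg hg1 he (z := ⟨1, τ⟩) (by
    intro h
    have := congrArg Complex.re h
    simp at this)
  intro h2
  apply h1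
  rw [plN_of_pos (by norm_num)]
  simp [h2]

/-- the zone `Re plN ≥ 0`, `s > 0` -/
theorem zoneN (hg : 0 < ga) (hg1 : ga ≤ 1 / 8) (he : ∀ l, e l = 1 ∨ e l = -1) {z : ℂ}
    (hz : 0 < z.re) (h : 0 ≤ (plN ga e M z).re) :
    ∃ l < M, |z.im / z.re - sgN l| < 3 / 2 ∧ 0 ≤ -(1 - ga) + Af (z.im / z.re - sgN l) := by
  rw [plN_of_pos hz, Complex.re_ofReal_mul] at h
  have h1 : 0 ≤ (pvN ga e M (z.im / z.re)).re := by
    by_contra h2
    push Not at h2
    have := mul_neg_of_pos_of_neg hz h2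
    linarith
  by_cases h2 : ∀ l < M, 3 ≤ |z.im / z.re - sgN l|
  · rw [far_re h2 he] at h1
    linarith
  · push Not at h2
    obtain ⟨l, hl, h3⟩ := h2
    have h4 := (CalcN_88.pvN_lobe (ga := ga) (e := e) hl (by linarith : |z.im / z.re - sgN l| ≤ 6)).1
    rw [h4] at h1
    refine ⟨l, hl, ?_, h1⟩
    by_contra h5
    push Not at h5
    have := Af_le_of h5
    linarith

theorem win_abs {l : ℕ} (hl : l < M) (hK : 16 * (M : ℝ) + 2 ≤ K) {u : ℂ} (hu : 0 < u.re)
    (h : |u.im / u.re - sgN l| < 3 / 2) : |u.im| ≤ K * |u.re| := by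
  have hM : (l : ℝ) + 1 ≤ M := by exact_mod_cast hl
  have h2 : |u.im / u.re| ≤ K := by
    rw [abs_lt] at h
    unfold sgN at h
    rw [abs_le]
    have : (0 : ℝ) ≤ l := l.cast_nonneg
    constructor <;> linarith
  rw [abs_div, abs_of_pos hu, div_le_iff₀ hu] at h2
  rwa [abs_of_pos hu]

theorem pg_zone {l : ℕ} (hl : l < M) (hK : 16 * (M : ℝ) + 2 ≤ K) {u : ℂ} (hu : 0 < u.re)
    (h : |u.im / u.re - sgN l| < 3 / 2) : pg K u = u.re := by
  have hM : (l : ℝ) + 1 ≤ M := by exact_mod_cast hl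
  have hK0 : (0 : ℝ) ≤ K := by
    have : (0 : ℝ) ≤ l := l.cast_nonneg
    linarith
  rw [GlBas_322.pg_window hK0 (win_abs hl hK hu h), abs_of_pos hu]

theorem rho_zone {l : ℕ} (hl : l < M) (hK : 16 * (M : ℝ) + 2 ≤ K) {u : ℂ} (hu : 0 < u.re)
    (h : |u.im / u.re - sgN l| < 3 / 2) : rho K u = u.re ^ 8 := by
  unfold rho
  rw [pg_zone hl hK hu h, max_eq_right hu.le]
  ring

/-! ### the planar terms -/

/-- the planar term of the line -/
def PtN (K ga : ℝ) (e : ℕ → ℝ) (M : ℕ) (t : ℝ) (z : ℂ) : ℂ :=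
  (1 - t) • PSN K ga e M z + t • P8N K ga e M z

/-- the factor -/
def mfN (K ga : ℝ) (e : ℕ → ℝ) (M : ℕ) (t : ℝ) (z : ℂ) : ℝ :=
  (1 - t) * (pg K z ^ 8 / ‖plN ga e M z‖) + t * pg K z ^ 7

theorem PtN_eq (t : ℝ) (z : ℂ) : PtN K ga e M t z = (mfN K ga e M t z : ℂ) * plN ga e M z := by
  unfold PtN mfN PSN P8N
  rw [Complex.real_smul, Complex.real_smul]
  push_cast
  ring

theorem mfN_pos (hg : 0 < ga) (hg1 : ga ≤ 1 / 8) (he : ∀ l, e l = 1 ∨ e l = -1) {t : ℝ}
    (ht : 0 ≤ t) (ht1 : t ≤ 1) {z : ℂ} (hz : z ≠ 0) : 0 < mfN K ga e M t z := by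
  have h1 : 0 < pg K z := GlBas_322.pg_pos hz
  have h2 : 0 < ‖plN ga e M z‖ := norm_pos_iff.2 (GlnStar_649.plN_ne hg hg1 he hz)
  unfold mfN
  have h3 : 0 < pg K z ^ 8 / ‖plN ga e M z‖ := by positivity
  have h4 : 0 < pg K z ^ 7 := by positivity
  rcases ht.lt_or_eq with h | h
  · exact add_pos_of_nonneg_of_pos (mul_nonneg (by linarith) h3.le) (mul_pos h h4)
  · rw [← h]
    simpa using h3

theorem PtN_ne (hg : 0 < ga) (hg1 : ga ≤ 1 / 8) (he : ∀ l, e l = 1 ∨ e l = -1) {t : ℝ}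
    (ht : 0 ≤ t) (ht1 : t ≤ 1) {z : ℂ} (hz : z ≠ 0) : PtN K ga e M t z ≠ 0 := by
  rw [PtN_eq]
  exact mul_ne_zero (by exact_mod_cast (mfN_pos hg hg1 he ht ht1 hz).ne')
    (GlnStar_649.plN_ne hg hg1 he hz)

theorem PSN_smul {r : ℝ} (hr : 0 < r) (z : ℂ) :
    PSN K ga e M ((r : ℂ) * z) = (r ^ 8 : ℝ) • PSN K ga e M z := by
  unfold PSN
  rw [GlBas_322.pg_smul hr, T3aNBas_277.plN_smul hr, norm_mul, Complex.norm_real,
    Real.norm_of_nonneg hr.le, Complex.real_smul]
  have h1 : (r * pg K z) ^ 8 / (r * ‖plN ga e M z‖) * r = r ^ 8 * (pg K z ^ 8 / ‖plN ga e M z‖) := by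
    by_cases h0 : ‖plN ga e M z‖ = 0
    · rw [h0]; simp
    · field_simp
  rw [← mul_assoc, ← Complex.ofReal_mul, h1]
  push_cast
  ring

theorem P8N_smul {r : ℝ} (hr : 0 < r) (z : ℂ) :
    P8N K ga e M ((r : ℂ) * z) = (r ^ 8 : ℝ) • P8N K ga e M z := by
  unfold P8N
  rw [GlBas_322.pg_smul hr, T3aNBas_277.plN_smul hr, Complex.real_smul]
  push_cast
  ring

theorem PtN_PH (t : ℝ) : PH (8 : ℝ) (PtN K ga e M t) := by
  intro r hr z
  unfold PtN
  rw [PSN_smul hr, P8N_smul hr, show r ^ (8 : ℝ) = r ^ 8 by exact_mod_cast Real.rpow_natCast r 8,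
    smul_add, smul_comm (1 - t), smul_comm t]

/-! ### differentiability -/

theorem contDiffAt_plN {z : ℂ} (hz : z ≠ 0) : ContDiffAt ℝ 2 (plN ga e M) z := by
  rcases le_or_gt z.re 0 with h0 | h0
  · have h1 : plN ga e M =ᶠ[nhds z] fun w : ℂ => -((2 - ga : ℝ) : ℂ) * (w.re : ℂ) -
        Complex.I * (w.im : ℂ) := by
      filter_upwards [CalcN_88.farN_nhds (M := M) h0 hz] with w hw
      rw [CalcN_88.plN_of_far (Or.inl (by linarith))]
    refine ContDiffAt.congr_of_eventuallyEq ?_ h1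
    exact ((contDiff_const.mul (GlC2a_930.contDiff_ofReal.comp GlC2a_930.contDiff_re)).sub
      (contDiff_const.mul (GlC2a_930.contDiff_ofReal.comp GlC2a_930.contDiff_im))).contDiffAt
  · have h1 : plN ga e M =ᶠ[nhds z] fun w : ℂ => (w.re : ℂ) * pvN ga e M (w.im / w.re) := by
      have : ∀ᶠ w : ℂ in nhds z, 0 < w.re :=
        Complex.continuous_re.continuousAt.eventually (lt_mem_nhds h0)
      filter_upwards [this] with w hw
      exact plN_of_pos hw
    refine ContDiffAt.congr_of_eventuallyEq ?_ h1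
    exact (GlC2a_930.contDiff_ofReal.comp GlC2a_930.contDiff_re).contDiffAt.mul
      ((CalcN_88.contDiff_pvN ga e M).contDiffAt.comp z (GlC2a_930.contDiffAt_slope h0.ne'))

theorem contDiff_P8N : ContDiff ℝ 2 (P8N K ga e M) := by
  refine GlC2a_930.contDiff_of_hom (n := 8) (by norm_num) (fun z hz => ?_) fun r hr z => ?_
  · have h1 := ((GlC2a_930.contDiffAt_pg K hz).pow 7)
    exact ((GlC2a_930.contDiff_ofReal.contDiffAt.comp z h1).mul
      (contDiffAt_plN hz)).contDiffWithinAt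
  · rw [Complex.real_smul]
    exact P8N_smul hr z

theorem contDiff_PSN (hg : 0 < ga) (hg1 : ga ≤ 1 / 8) (he : ∀ l, e l = 1 ∨ e l = -1) :
    ContDiff ℝ 2 (PSN K ga e M) := by
  refine GlC2a_930.contDiff_of_hom (n := 8) (by norm_num) (fun z hz => ?_) fun r hr z => ?_
  · have hne := GlnStar_649.plN_ne (M := M) hg hg1 he (show z ≠ 0 from hz)
    have h1 : ContDiffAt ℝ 2 (fun w => pg K w ^ 8 / ‖plN ga e M w‖) z :=
      ((GlC2a_930.contDiffAt_pg K hz).pow 8).div ((contDiffAt_plN hz).norm ℝ hne)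
        (norm_pos_iff.2 hne).ne'
    exact ((GlC2a_930.contDiff_ofReal.contDiffAt.comp z h1).mul
      (contDiffAt_plN hz)).contDiffWithinAt
  · rw [Complex.real_smul]
    exact PSN_smul hr z

theorem PtN_dif (hg : 0 < ga) (hg1 : ga ≤ 1 / 8) (he : ∀ l, e l = 1 ∨ e l = -1) (t : ℝ) :
    Differentiable ℝ (PtN K ga e M t) :=
  (((contDiff_PSN hg hg1 he).differentiable (by norm_num)).const_smul (1 - t)).add
    ((contDiff_P8N.differentiable (by norm_num)).const_smul t)

/-- plate side: `PtN` is a submersion -/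
theorem PtN_surj (hg : 0 < ga) (hg1 : ga ≤ 1 / 8) {t : ℝ} (ht : 0 ≤ t) (ht1 : t ≤ 1) {z : ℂ}
    (hz : z ≠ 0) (hre : z.re ≤ 0) : Function.Surjective (fderiv ℝ (PtN K ga e M t) z) := by
  have hev : plN ga e M =ᶠ[𝓝 z] pl ga M := by
    filter_upwards [CalcN_88.farN_nhds (M := M) hre hz, Calc2_957.far_nhds (M := M) hre hz]
      with w hw hw2
    rw [CalcN_88.plN_of_far (Or.inl (by linarith)), Calc_957.pl_of_far (Or.inl (by linarith))]
  have hev2 : PtN K ga e M t =ᶠ[𝓝 z] GlCp_322.Pt K ga M t := by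
    filter_upwards [hev] with w hw
    unfold PtN GlCp_322.Pt PSN P8N PS P8
    rw [hw]
  rw [hev2.fderiv_eq]
  refine GlCp_322.Pt_surj hg hg1 ht ht1 hz hre ?_
  have h1 := ((GlC2a_930.contDiff_PS K hg (by linarith : ga < 2) M).differentiable
    (by norm_num)) z
  have h2 := ((GlC2a_930.contDiff_P8 K ga M).differentiable (by norm_num)) z
  exact (h1.const_smul (1 - t)).add (h2.const_smul t)

/-- the vertical derivative of `PtN` in the zone -/
theorem PtN_good (hg : 0 < ga) (hg1 : ga ≤ 1 / 8) (he : ∀ l, e l = 1 ∨ e l = -1)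
    (hK : 16 * (M : ℝ) + 2 ≤ K) {t : ℝ} (ht : 0 ≤ t)
    (ht1 : t ≤ 1) {z : ℂ} (hz : 0 < z.re) {l : ℕ} (hl : l < M)
    (h : |z.im / z.re - sgN l| < 3 / 2) (hX : 0 ≤ -(1 - ga) + Af (z.im / z.re - sgN l)) :
    Good (fderiv ℝ (PtN K ga e M t) z Complex.I) (PtN K ga e M t z) ∧
      ((fderiv ℝ (PtN K ga e M t) z Complex.I).re = 0 → 0 < (PtN K ga e M t z).re) := by
  have hd := PtN_dif (K := K) (M := M) hg hg1 he t z
  set s := z.re with hs
  set τ := z.im / s with hτ
  set v := τ - sgN l with hv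
  set q : ℝ → ℂ := fun h => pvN ga e M (τ + h / s) with hq
  have hq0 : q 0 = pvN ga e M τ := by rw [hq]; simp
  have hqne : q 0 ≠ 0 := by rw [hq0]; exact pvN_ne hg hg1 he τ
  have hqd : HasDerivAt q (((1 / s : ℝ) : ℂ) * pvdN e M τ) 0 := by
    have h1 : HasDerivAt (fun h : ℝ => τ + h / s) (1 / s) 0 :=
      ((hasDerivAt_id (0 : ℝ)).div_const s).const_add τ
    have h2 : HasDerivAt (pvN ga e M) (pvdN e M τ) ((fun h : ℝ => τ + h / s) 0) := by
      simpa using hasDerivAt_pvN ga e M τ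
    have h3 := HasDerivAt.scomp (0 : ℝ) h2 h1
    rw [Complex.real_smul] at h3
    exact h3
  obtain ⟨c1, c2, c3, c4⟩ := CalcN_88.pvN_lobe (ga := ga) (e := e) hl
    (by linarith : |τ - sgN l| ≤ 6)
  rw [← hv] at c1 c2 c3 c4
  have hZ := zn hg hg1 h.le hX
  set X := -(1 - ga) + Af v with hXd
  set Y := Bf v with hYd
  have hq0re : (q 0).re = X := by rw [hq0, c1]
  have hq0im : (q 0).im = e l * Y := by rw [hq0, c2]
  have hd're : (((1 / s : ℝ) : ℂ) * pvdN e M τ).re = Afd v / s := by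
    rw [Complex.re_ofReal_mul, c3]
    ring
  have hd'im : (((1 / s : ℝ) : ℂ) * pvdN e M τ).im = e l * Bfd v / s := by
    rw [Complex.im_ofReal_mul, c4]
    ring
  have hr : 0 < ‖q 0‖ := norm_pos_iff.2 hqne
  set r := ‖q 0‖ with hrd
  have hU := hasDerivAt_unit hqd hqne
  rw [hq0re, hq0im, hd're, hd'im, ← hrd] at hU
  -- the function along the vertical line
  have hev : (fun h : ℝ => PtN K ga e M t (z + h • Complex.I)) =ᶠ[𝓝 0]
      fun h => (((1 - t) * s ^ 8 : ℝ) : ℂ) * (((‖q h‖⁻¹ : ℝ) : ℂ) * q h) +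
        ((t * s ^ 8 : ℝ) : ℂ) * q h := by
    filter_upwards [zone_line hz h] with x hx
    have h4 : 0 < (z + x • Complex.I).re := by rwa [re_line]
    have h5 := pg_zone hl hK h4 hx
    have h6 : plN ga e M (z + x • Complex.I) = (s : ℂ) * q x := by
      rw [plN_of_pos h4, re_line, im_line, hq]
      simp only
      congr 2
      rw [hτ]
      ring
    rw [PtN_eq, h6]
    unfold mfN
    rw [h5, h6, re_line, norm_mul, Complex.norm_real, Real.norm_of_nonneg hz.le, ← hs]
    push_cast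
    have h7 : (s : ℂ) ≠ 0 := by exact_mod_cast hz.ne'
    have h8 : ((‖q x‖ : ℝ) : ℂ) ≠ 0 := by
      have : q x ≠ 0 := pvN_ne hg hg1 he _
      exact_mod_cast (norm_pos_iff.2 this).ne'
    field_simp
  have hD := (hU.const_mul ((((1 - t) * s ^ 8 : ℝ) : ℂ))).fun_add
    (hqd.const_mul (((t * s ^ 8 : ℝ) : ℂ)))
  have hfd := fderiv_line hd (hD.congr_of_eventuallyEq hev)
  have hval : PtN K ga e M t z = ((s ^ 8 * ((1 - t) / r + t) : ℝ) : ℂ) * ⟨X, e l * Y⟩ := by
    have h9 := hev.self_of_nhds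
    simp only [zero_smul, add_zero] at h9
    rw [h9, ← hrd]
    have h10 : q 0 = ⟨X, e l * Y⟩ := Complex.ext hq0re hq0im
    rw [h10]
    push_cast
    ring
  have hee : e l * e l = 1 := by rcases he l with h | h <;> rw [h] <;> norm_num
  refine good_znE (s := s ^ 7) (k := s ^ 8 * ((1 - t) / r + t)) (r := r ^ 3) (he l) hZ
    (by positivity) ht ht1 (by positivity) ?_ ?_ hval
  · have h11 : 0 < (1 - t) / r + t := by
      rcases ht.lt_or_eq with h12 | h12
      · have : 0 ≤ (1 - t) / r := div_nonneg (by linarith) hr.le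
        linarith
      · rw [← h12]
        simp only [sub_zero, add_zero]
        positivity
    positivity
  · rw [hfd]
    have hs' : s ≠ 0 := hz.ne'
    have hr' : r ≠ 0 := hr.ne'
    apply Complex.ext
    · simp only [Complex.add_re, Complex.re_ofReal_mul, hd're]
      field_simp
      linear_combination (-(1 - t) * (X * Bfd v - Y * Afd v) * Y) * hee
    · simp only [Complex.add_im, Complex.im_ofReal_mul, hd'im]
      field_simp

/-- upper bound of the real part in the zone -/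
theorem PtN_le (hg : 0 < ga) (hg1 : ga ≤ 1 / 8) (he : ∀ l, e l = 1 ∨ e l = -1) {t : ℝ} (ht : 0 ≤ t)
    (ht1 : t ≤ 1) {z : ℂ} (hz : 0 < z.re) (hpg : pg K z = z.re) {l : ℕ} (hl : l < M)
    (h : |z.im / z.re - sgN l| < 3 / 2) :
    (PtN K ga e M t z).re ≤ ((1 - t) + t * ga) * z.re ^ 8 := by
  have h0 : plN ga e M z ≠ 0 :=
    GlnStar_649.plN_ne hg hg1 he (fun h => by rw [h] at hz; simp at hz)
  have hn : 0 < ‖plN ga e M z‖ := norm_pos_iff.2 h0
  have h1 : (plN ga e M z).re ≤ ‖plN ga e M z‖ := (le_abs_self _).trans (Complex.abs_re_le_norm _)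
  have h2 : (plN ga e M z).re ≤ ga * z.re := by
    rw [plN_of_pos hz, Complex.re_ofReal_mul, mul_comm ga]
    refine mul_le_mul_of_nonneg_left ?_ hz.le
    rw [(CalcN_88.pvN_lobe (ga := ga) (e := e) hl
      (by linarith : |z.im / z.re - sgN l| ≤ 6)).1]
    have := Af_le_one (z.im / z.re - sgN l)
    linarith
  rw [PtN_eq, Complex.re_ofReal_mul]
  unfold mfN
  rw [hpg]
  have h3 : z.re ^ 8 / ‖plN ga e M z‖ * (plN ga e M z).re ≤ z.re ^ 8 := by
    rw [div_mul_eq_mul_div, div_le_iff₀ hn]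
    exact mul_le_mul_of_nonneg_left h1 (by positivity)
  have h4 : z.re ^ 7 * (plN ga e M z).re ≤ ga * z.re ^ 8 := by
    have := mul_le_mul_of_nonneg_left h2 (by positivity : 0 ≤ z.re ^ 7)
    calc z.re ^ 7 * (plN ga e M z).re ≤ z.re ^ 7 * (ga * z.re) := this
      _ = ga * z.re ^ 8 := by ring
  calc ((1 - t) * (z.re ^ 8 / ‖plN ga e M z‖) + t * z.re ^ 7) * (plN ga e M z).re
      = (1 - t) * (z.re ^ 8 / ‖plN ga e M z‖ * (plN ga e M z).re) +
        t * (z.re ^ 7 * (plN ga e M z).re) := by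
        ring
    _ ≤ (1 - t) * z.re ^ 8 + t * (ga * z.re ^ 8) :=
        add_le_add (mul_le_mul_of_nonneg_left h3 (by linarith)) (mul_le_mul_of_nonneg_left h4 ht)
    _ = _ := by ring

end Crest.Agent.R267.GlnPl_984
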