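import Crest.Agent.R267.S3_82_Mg
import Crest.Agent.R267.HmE_951
import Crest.Agent.R267.HmC_951

/-!
# Row 267 (helper951): `PathP` of `LobeDefs_407`
-/

set_option autoImplicit false

noncomputable section

open Finset Set
open Crest.Agent.R267.Ang_739 Crest.Agent.R267.Hm_951
open Crest.Agent.R267.LemL_951 hiding dg
open Crest.Agent.R267.LobeDefs_407 Crest.Agent.R267.LobeKit_407
open Crest.Agent.R267.RedP_951

namespace Crest.Agent.R267.PathP_951

variable {n : ℕ} {a : Fin (n + 1) → ℕ}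

/-! ### smooth families -/

theorem contDiffOn_polT {F : Type*} [NormedAddCommGroup F] [NormedSpace ℝ F] {T : Set ℝ}
    (hT : IsOpen T) {D : ℝ → ℝ} (hD : ContDiff ℝ 2 D) (hD2 : ∀ t ∈ T, 2 < D t)
    {q : ℝ × ℝ → F} (hper : ∀ t, Per fun x => q (t, x)) (hq : ContDiff ℝ 2 q) :
    ContDiffOn ℝ 2 (fun p : ℝ × ℂ => pol (D p.1) (fun x => q (p.1, x)) p.2) (T ×ˢ univ) :=
  contDiffOn_rpow_smul hT hD.contDiffOn hD2 (q := fun p : ℝ × ℂ => q (p.1, Complex.arg p.2))
    (contDiffOn_ang2 hper hT hq.contDiffOn) fun t _ r hr z => by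
      show q (t, Complex.arg ((r : ℂ) * z)) = q (t, Complex.arg z)
      rw [Complex.arg_real_mul _ hr]

/-- `C²` families of lobe data -/
structure Fam (a : Fin (n + 1) → ℕ) (j : ℕ) (Z : ℝ → LD n) : Prop where
  D : ∀ i : Fin (n + 1), (i : ℕ) ≤ j → ContDiff ℝ 2 fun t => (Z t).D i
  ep : ∀ i : Fin (n + 1), (i : ℕ) ≤ j → ContDiff ℝ 2 fun t => (Z t).ep i
  ph : ∀ i : Fin (n + 1), (i : ℕ) ≤ j → ContDiff ℝ 2 fun q : ℝ × ℝ => (Z q.1).ph i q.2
  deg : ∀ i : Fin (n + 1), (i : ℕ) ≤ j → ∀ t, Deg (dg a i) ((Z t).ph i)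
  c : ∀ e : Fin n, (e : ℕ) < j → ContDiff ℝ 2 fun t => (Z t).c e
  p : ∀ e : Fin n, (e : ℕ) < j → ContDiff ℝ 2 fun t => (Z t).p e
  m : ∀ e : Fin n, (e : ℕ) < j → ContDiff ℝ 2 fun t => (Z t).m e
  lam : ∀ e : Fin n, (e : ℕ) < j → ContDiff ℝ 2 fun q : ℝ × ℝ => (Z q.1).lam e q.2
  bet : ∀ e : Fin n, (e : ℕ) < j → ContDiff ℝ 2 fun q : ℝ × ℝ => (Z q.1).bet e q.2
  lamper : ∀ e : Fin n, (e : ℕ) < j → ∀ t x,
    (Z t).lam e (x + 2 * Real.pi * dg a e.castSucc) = (Z t).lam e x
  betper : ∀ e : Fin n, (e : ℕ) < j → ∀ t x,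
    (Z t).bet e (x + 2 * Real.pi * dg a e.succ) = (Z t).bet e x

section Fam

variable {j : ℕ} {Z : ℝ → LD n} {T : Set ℝ}

theorem contDiffOn_ofReal {f : ℝ × ℂ → ℝ} {S : Set (ℝ × ℂ)} (h : ContDiffOn ℝ 2 f S) :
    ContDiffOn ℝ 2 (fun p => (f p : ℂ)) S := Complex.ofRealCLM.contDiff.comp_contDiffOn h

theorem Fam.Qs (hF : Fam a j Z) (hT : IsOpen T) {i : Fin (n + 1)} (hi : (i : ℕ) ≤ j)
    (h2 : ∀ t ∈ T, 2 < (Z t).D i) :
    ContDiffOn ℝ 2 (fun p : ℝ × ℂ => (Z p.1).Q i p.2) (T ×ˢ univ) :=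
  contDiffOn_polT hT (hF.D i hi) h2 (q := fun p => ((Z p.1).ep i : ℂ) * cis ((Z p.1).ph i p.2))
    (fun t => by
      show Per fun x => ((Z t).ep i : ℂ) * cis ((Z t).ph i x)
      exact (hF.deg i hi t).per _)
    ((Complex.ofRealCLM.contDiff.comp ((hF.ep i hi).comp contDiff_fst)).mul
      (contDiff_cis.comp (hF.ph i hi)))

theorem Fam.gs (hF : Fam a j Z) (hT : IsOpen T) {e : Fin n} (he : (e : ℕ) < j)
    (h2 : ∀ t ∈ T, 2 < (Z t).p e) :
    ContDiffOn ℝ 2 (fun p : ℝ × ℂ => (Z p.1).g e p.2) (T ×ˢ univ) := by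
  have h1 : ContDiff ℝ 2 (fun q : ℝ × ℝ => (Z q.1).lam e ((Z q.1).ph e.castSucc q.2)) :=
    (hF.lam e he).comp (contDiff_fst.prodMk (hF.ph e.castSucc (le_cast he)))
  have h3 := contDiffOn_polT hT (hF.p e he) h2
    (q := fun p => (Z p.1).lam e ((Z p.1).ph e.castSucc p.2)) (fun t x => by
      show (Z t).lam e ((Z t).ph e.castSucc (x + 2 * Real.pi)) = _
      rw [hF.deg _ (le_cast he) t x, hF.lamper e he]) h1
  exact (((hF.c e he).comp contDiff_fst).contDiffOn).mul h3

theorem Fam.hs (hF : Fam a j Z) (hT : IsOpen T) {e : Fin n} (he : (e : ℕ) < j)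
    (h2 : ∀ t ∈ T, 2 < (Z t).m e) :
    ContDiffOn ℝ 2 (fun p : ℝ × ℂ => (Z p.1).h e p.2) (T ×ˢ univ) := by
  have h1 : ContDiff ℝ 2 (fun q : ℝ × ℝ => (Z q.1).bet e ((Z q.1).ph e.succ q.2)) :=
    (hF.bet e he).comp (contDiff_fst.prodMk (hF.ph e.succ (lt_succ he)))
  exact contDiffOn_polT hT (hF.m e he) h2
    (q := fun p => (Z p.1).bet e ((Z p.1).ph e.succ p.2)) (fun t x => by
      show (Z t).bet e ((Z t).ph e.succ (x + 2 * Real.pi)) = _
      rw [hF.deg _ (lt_succ he) t x, hF.betper e he]) h1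

theorem isOpen_imp {p : Prop} {f : ℝ → ℝ} (h : p → Continuous f) : IsOpen {t | p → 2 < f t} := by
  by_cases hp : p
  · have : {t | p → 2 < f t} = {t | 2 < f t} := by ext t; simp [hp]
    rw [this]
    exact isOpen_lt continuous_const (h hp)
  · have : {t | p → 2 < f t} = univ := by ext t; simp [hp]
    rw [this]
    exact isOpen_univ

theorem Fam.smooth (hF : Fam a j Z) (hok : ∀ t ∈ Icc (0 : ℝ) 1, (Z t).Ok a j) :
    ∃ T : Set ℝ, IsOpen T ∧ Icc (0 : ℝ) 1 ⊆ T ∧
      ContDiffOn ℝ 2 (fun p : ℝ × (Fin (n + 1) → ℂ) => (Z p.1).st a j p.2) (T ×ˢ univ) := by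
  set T : Set ℝ := (⋂ i : Fin (n + 1), {t | (i : ℕ) ≤ j → 2 < (Z t).D i}) ∩
    ((⋂ e : Fin n, {t | (e : ℕ) < j → 2 < (Z t).p e}) ∩
      ⋂ e : Fin n, {t | (e : ℕ) < j → 2 < (Z t).m e}) with hTdef
  have hT : IsOpen T := by
    refine (isOpen_iInter_of_finite fun i => isOpen_imp fun hi => (hF.D i hi).continuous).inter
      ((isOpen_iInter_of_finite fun e => isOpen_imp fun he => (hF.p e he).continuous).inter
      (isOpen_iInter_of_finite fun e => isOpen_imp fun he => (hF.m e he).continuous))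
  have hTD : ∀ i : Fin (n + 1), (i : ℕ) ≤ j → ∀ t ∈ T, 2 < (Z t).D i := fun i hi t ht =>
    mem_iInter.1 ht.1 i hi
  have hTp : ∀ e : Fin n, (e : ℕ) < j → ∀ t ∈ T, 2 < (Z t).p e := fun e he t ht =>
    mem_iInter.1 ht.2.1 e he
  have hTm : ∀ e : Fin n, (e : ℕ) < j → ∀ t ∈ T, 2 < (Z t).m e := fun e he t ht =>
    mem_iInter.1 ht.2.2 e he
  refine ⟨T, hT, fun t ht => ?_, ?_⟩
  · have h := hok t ht
    exact ⟨mem_iInter.2 fun i => h.hD i, mem_iInter.2 fun e => h.hp e, mem_iInter.2 fun e => h.hm e⟩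
  · have hQ : ∀ i : Fin (n + 1), ContDiffOn ℝ 2
        (fun p : ℝ × ℂ => (if (i : ℕ) ≤ j then (Z p.1).Q i else 0) p.2) (T ×ˢ univ) := by
      intro i
      by_cases hi : (i : ℕ) ≤ j
      · simp only [if_pos hi]
        exact hF.Qs hT hi (hTD i hi)
      · simp only [if_neg hi, Pi.zero_apply]
        exact contDiffOn_const
    have hg : ∀ e : Fin n, ContDiffOn ℝ 2
        (fun p : ℝ × ℂ => (if (e : ℕ) < j then (fun z => ((Z p.1).g e z : ℂ)) else id) p.2)
        (T ×ˢ univ) := by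
      intro e
      by_cases he : (e : ℕ) < j
      · simp only [if_pos he]
        exact contDiffOn_ofReal (hF.gs hT he (hTp e he))
      · simp only [if_neg he]
        exact contDiff_snd.contDiffOn
    have hh : ∀ e : Fin n, ContDiffOn ℝ 2
        (fun p : ℝ × ℂ => (if (e : ℕ) < j then (fun z => ((Z p.1).h e z : ℂ)) else
          fun z => z ^ a e.succ) p.2) (T ×ˢ univ) := by
      intro e
      by_cases he : (e : ℕ) < j
      · simp only [if_pos he]
        exact contDiffOn_ofReal (hF.hs hT he (hTm e he))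
      · simp only [if_neg he]
        exact (contDiff_snd.pow _).contDiffOn
    exact (ContDiffOn.sum fun i _ => contDiffOn_coord (hQ i) i).sub
      (ContDiffOn.sum fun e _ => (contDiffOn_coord (hg e) e.castSucc).mul
        (contDiffOn_coord (hh e) e.succ))

/-- regularity of a state -/
theorem st_reg (ha : Exps a) (j : Fin (n + 1)) {X : LD n} (hX : X.Ok a j) {z : Fin (n + 1) → ℂ}
    (hz : z ≠ 0) (hre : 0 ≤ (X.st a j z).re) : Function.Surjective (fderiv ℝ (X.st a j) z) := by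
  have h1 := S3_82.trReg_Q ha (trP a j) hX
  have h2 := red0P ha.two j X hX h1
  exact h2 z hz hre

/-- **paths of lobe data** -/
theorem Fam.hpath (ha : Exps a) (j : Fin (n + 1)) (hF : Fam a j Z)
    (hok : ∀ t ∈ Icc (0 : ℝ) 1, (Z t).Ok a j) :
    HPath (fun p : ℝ × (Fin (n + 1) → ℂ) => (Z p.1).st a j p.2) := by
  obtain ⟨T, hT, hsub, hC⟩ := hF.smooth hok
  have h1 : ∀ t ∈ Icc (0 : ℝ) 1, ∃ w : Fin (n + 1) → ℝ, (∀ i, 0 < w i) ∧
      WH w (fun x => (Z t).st a j x) := fun t ht => wh_st ha.two (hok t ht)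
  have h2 : ∀ t ∈ Icc (0 : ℝ) 1, ∀ x : Fin (n + 1) → ℂ, x ≠ 0 → 0 ≤ ((Z t).st a j x).re →
      Function.Surjective (fderiv ℝ (fun z => (Z t).st a j z) x) :=
    fun t ht x hx hre => st_reg ha j (hok t ht) hx hre
  exact HPath.of_slices (F := fun p : ℝ × (Fin (n + 1) → ℂ) => (Z p.1).st a j p.2) hT hsub
    (hC.mono (prod_mono le_rfl (subset_univ _))) h1 h2

end Fam

/-! ### segments of lobe data -/

/-- the segment between two lobe data (affine in `D`, `ep`, phases, levels, `p/D`, `m/D`, `c`) -/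
def seg (X Y : LD n) (t : ℝ) : LD n where
  D i := (1 - t) * X.D i + t * Y.D i
  ep i := (1 - t) * X.ep i + t * Y.ep i
  ph i x := (1 - t) * X.ph i x + t * Y.ph i x
  c e := (1 - t) * X.c e + t * Y.c e
  p e := ((1 - t) * X.D e.castSucc + t * Y.D e.castSucc) *
    ((1 - t) * (X.p e / X.D e.castSucc) + t * (Y.p e / Y.D e.castSucc))
  m e := ((1 - t) * X.D e.succ + t * Y.D e.succ) *
    ((1 - t) * (X.m e / X.D e.succ) + t * (Y.m e / Y.D e.succ))
  lam e x := (1 - t) * X.lam e x + t * Y.lam e x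
  bet e x := (1 - t) * X.bet e x + t * Y.bet e x

section Seg

variable {j : ℕ} {X Y : LD n}

theorem cd_aff (A B : ℝ) : ContDiff ℝ 2 fun t : ℝ => (1 - t) * A + t * B := by fun_prop

theorem cd_aff2 {f g : ℝ → ℝ} (hf : ContDiff ℝ 2 f) (hg : ContDiff ℝ 2 g) :
    ContDiff ℝ 2 fun q : ℝ × ℝ => (1 - q.1) * f q.2 + q.1 * g q.2 :=
  ((contDiff_const.sub contDiff_fst).mul (hf.comp contDiff_snd)).add
    (contDiff_fst.mul (hg.comp contDiff_snd))

theorem seg_fam (hX : X.Ok a j) (hY : Y.Ok a j) : Fam a j (seg X Y) where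
  D i _ := cd_aff _ _
  ep i _ := cd_aff _ _
  ph i hi := cd_aff2 (hX.hph i hi).smooth (hY.hph i hi).smooth
  deg i hi t x := by
    show (1 - t) * X.ph i (x + 2 * Real.pi) + t * Y.ph i (x + 2 * Real.pi) =
      (1 - t) * X.ph i x + t * Y.ph i x + 2 * Real.pi * dg a i
    rw [(hX.hph i hi).deg x, (hY.hph i hi).deg x]
    ring
  c e _ := cd_aff _ _
  p e _ := (cd_aff _ _).mul (cd_aff _ _)
  m e _ := (cd_aff _ _).mul (cd_aff _ _)
  lam e he := cd_aff2 (hX.hlam e he).smooth (hY.hlam e he).smooth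
  bet e he := cd_aff2 (hX.hbet e he).smooth (hY.hbet e he).smooth
  lamper e he t x := by
    show (1 - t) * X.lam e (x + 2 * Real.pi * dg a e.castSucc) +
      t * Y.lam e (x + 2 * Real.pi * dg a e.castSucc) = (1 - t) * X.lam e x + t * Y.lam e x
    rw [(hX.hlam e he).per, (hY.hlam e he).per]
  betper e he t x := by
    show (1 - t) * X.bet e (x + 2 * Real.pi * dg a e.succ) +
      t * Y.bet e (x + 2 * Real.pi * dg a e.succ) = (1 - t) * X.bet e x + t * Y.bet e x
    rw [(hX.hbet e he).per, (hY.hbet e he).per]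

theorem aff_pos {A B t : ℝ} (hA : 0 < A) (hB : 0 < B) (ht : t ∈ Icc (0 : ℝ) 1) :
    0 < (1 - t) * A + t * B := by
  rcases ht.1.eq_or_lt with h | h
  · rw [← h]; simpa using hA
  · exact add_pos_of_nonneg_of_pos (mul_nonneg (by linarith [ht.2]) hA.le) (mul_pos h hB)

theorem aff_gt {A B c t : ℝ} (hA : c < A) (hB : c < B) (ht : t ∈ Icc (0 : ℝ) 1) :
    c < (1 - t) * A + t * B := by
  have := aff_pos (sub_pos.2 hA) (sub_pos.2 hB) ht
  linarith

/-- `D_t θ_t > 2` -/
theorem prod_gt {D D' p p' t : ℝ} (hD : 2 < D) (hD' : 2 < D') (hp : 2 < p) (hp' : 2 < p')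
    (ht : t ∈ Icc (0 : ℝ) 1) :
    2 < ((1 - t) * D + t * D') * ((1 - t) * (p / D) + t * (p' / D')) := by
  have hD0 : 0 < D := by linarith
  have hD0' : 0 < D' := by linarith
  set x := D * (p' / D') with hx
  set y := D' * (p / D) with hy
  have hx0 : 0 < x := by positivity
  have hy0 : 0 < y := by positivity
  have hxy : x * y = p * p' := by rw [hx, hy]; field_simp
  have h4 : 4 < x * y := by rw [hxy]; nlinarith
  have hs : 4 < x + y := by nlinarith [sq_nonneg (x - y)]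
  have e : ((1 - t) * D + t * D') * ((1 - t) * (p / D) + t * (p' / D')) =
      (1 - t) ^ 2 * p + t ^ 2 * p' + t * (1 - t) * (x + y) := by
    rw [hx, hy]; field_simp; ring
  rw [e]
  have h1 : 0 ≤ t := ht.1
  have h2 : 0 ≤ 1 - t := by linarith [ht.2]
  have h3 : 0 ≤ t * (1 - t) := mul_nonneg h1 h2
  have h5 : 0 < (1 - t) ^ 2 * (p - 2) + t ^ 2 * (p' - 2) := by
    rcases h1.eq_or_lt with h | h
    · rw [← h]; nlinarith
    · exact add_pos_of_nonneg_of_pos (mul_nonneg (sq_nonneg _) (by linarith))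
        (mul_pos (pow_pos h 2) (by linarith))
  nlinarith [mul_nonneg h3 (sub_nonneg.2 hs.le)]

theorem lev_aff {d : ℕ} {l l' : ℝ → ℝ} (h : Lev d l) (h' : Lev d l') {t : ℝ}
    (ht : t ∈ Icc (0 : ℝ) 1) : Lev d (fun x => (1 - t) * l x + t * l' x) where
  smooth := (contDiff_const.mul h.smooth).add (contDiff_const.mul h'.smooth)
  per x := by
    show (1 - t) * l (x + 2 * Real.pi * d) + t * l' (x + 2 * Real.pi * d) = _
    rw [h.per, h'.per]
  nn x := add_nonneg (mul_nonneg (by linarith [ht.2]) (h.nn x)) (mul_nonneg ht.1 (h'.nn x))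
  le x := by
    have h1 := mul_le_mul_of_nonneg_left (h.le x) (show 0 ≤ 1 - t by linarith [ht.2])
    have h2 := mul_le_mul_of_nonneg_left (h'.le x) ht.1
    show (1 - t) * l x + t * l' x ≤ 1
    linarith
  flat x hx := by
    have h1 : HasDerivAt l 0 x := by
      have := ((h.smooth.differentiable (by norm_num)) x).hasDerivAt
      rwa [h.flat x hx] at this
    have h2 : HasDerivAt l' 0 x := by
      have := ((h'.smooth.differentiable (by norm_num)) x).hasDerivAt
      rwa [h'.flat x hx] at this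
    have h3 := (h1.const_mul (1 - t)).add (h2.const_mul t)
    have h4 : deriv (fun x => (1 - t) * l x + t * l' x) x = (1 - t) * 0 + t * 0 := h3.deriv
    rw [h4]; ring

theorem pha_aff {d : ℕ} {φ φ' : ℝ → ℝ} (h : Pha d φ) (h' : Pha d φ') {t : ℝ}
    (ht : t ∈ Icc (0 : ℝ) 1) : Pha d (fun x => (1 - t) * φ x + t * φ' x) where
  smooth := (contDiff_const.mul h.smooth).add (contDiff_const.mul h'.smooth)
  deg x := by
    show (1 - t) * φ (x + 2 * Real.pi) + t * φ' (x + 2 * Real.pi) =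
      (1 - t) * φ x + t * φ' x + 2 * Real.pi * d
    rw [h.deg x, h'.deg x]
    ring
  pos x := by
    have h3 := ((pha_hasDerivAt h x).const_mul (1 - t)).add ((pha_hasDerivAt h' x).const_mul t)
    have h4 : deriv (fun x => (1 - t) * φ x + t * φ' x) x =
      (1 - t) * deriv φ x + t * deriv φ' x := h3.deriv
    rw [h4]
    exact aff_pos (h.pos x) (h'.pos x) ht

/-- points of the segment are admissible if (NC) holds -/
theorem seg_ok (hX : X.Ok a j) (hY : Y.Ok a j) {t : ℝ} (ht : t ∈ Icc (0 : ℝ) 1)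
    (hnc : ∀ e : Fin n, (e : ℕ) < j →
      ((1 - t) * X.ep e.castSucc + t * Y.ep e.castSucc) ^
          ((1 - t) * (X.p e / X.D e.castSucc) + t * (Y.p e / Y.D e.castSucc)) *
        ((1 - t) * X.ep e.succ + t * Y.ep e.succ) ^
          ((1 - t) * (X.m e / X.D e.succ) + t * (Y.m e / Y.D e.succ)) <
      ((1 - t) * (X.p e / X.D e.castSucc) + t * (Y.p e / Y.D e.castSucc)) ^
          ((1 - t) * (X.p e / X.D e.castSucc) + t * (Y.p e / Y.D e.castSucc)) *
        ((1 - t) * (X.m e / X.D e.succ) + t * (Y.m e / Y.D e.succ)) ^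
          ((1 - t) * (X.m e / X.D e.succ) + t * (Y.m e / Y.D e.succ)) *
        ((1 - t) * X.c e + t * Y.c e)) : (seg X Y t).Ok a j := by
  have hDpos : ∀ i : Fin (n + 1), (i : ℕ) ≤ j → (1 - t) * X.D i + t * Y.D i ≠ 0 := fun i hi => by
    have := aff_gt (hX.hD i hi) (hY.hD i hi) ht
    linarith
  have hpD : ∀ e : Fin n, (e : ℕ) < j → (seg X Y t).p e / (seg X Y t).D e.castSucc =
      (1 - t) * (X.p e / X.D e.castSucc) + t * (Y.p e / Y.D e.castSucc) := fun e he =>
    mul_div_cancel_left₀ _ (hDpos _ (le_cast he))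
  have hmD : ∀ e : Fin n, (e : ℕ) < j → (seg X Y t).m e / (seg X Y t).D e.succ =
      (1 - t) * (X.m e / X.D e.succ) + t * (Y.m e / Y.D e.succ) := fun e he =>
    mul_div_cancel_left₀ _ (hDpos _ (lt_succ he))
  exact {
    hD := fun i hi => aff_gt (hX.hD i hi) (hY.hD i hi) ht
    hep := fun i hi => aff_pos (hX.hep i hi) (hY.hep i hi) ht
    hph := fun i hi => pha_aff (hX.hph i hi) (hY.hph i hi) ht
    hc := fun e he => aff_pos (hX.hc e he) (hY.hc e he) ht
    hp := fun e he => prod_gt (hX.hD _ (le_cast he)) (hY.hD _ (le_cast he)) (hX.hp e he)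
      (hY.hp e he) ht
    hm := fun e he => prod_gt (hX.hD _ (lt_succ he)) (hY.hD _ (lt_succ he)) (hX.hm e he)
      (hY.hm e he) ht
    sum := fun e he => by
      rw [hpD e he, hmD e he]
      have h1 := hX.sum e he
      have h2 := hY.sum e he
      linear_combination (1 - t) * h1 + t * h2
    nc := fun e he => by
      rw [hpD e he, hmD e he]
      exact hnc e he
    hlam := fun e he => lev_aff (hX.hlam e he) (hY.hlam e he) ht
    hbet := fun e he => lev_aff (hX.hbet e he) (hY.hbet e he) ht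
    lam1 := fun e he k hk x hx => by
      show (1 - t) * X.lam e x + t * Y.lam e x = _
      rw [hX.lam1 e he k hk x hx, hY.lam1 e he k hk x hx]
      ring
    bet1 := fun e he k hk x hx => by
      show (1 - t) * X.bet e x + t * Y.bet e x = _
      rw [hX.bet1 e he k hk x hx, hY.bet1 e he k hk x hx]
      ring }

theorem st_congr (hQ : ∀ i : Fin (n + 1), (i : ℕ) ≤ j → X.Q i = Y.Q i)
    (hg : ∀ e : Fin n, (e : ℕ) < j → X.g e = Y.g e)
    (hh : ∀ e : Fin n, (e : ℕ) < j → X.h e = Y.h e) : X.st a j = Y.st a j := by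
  unfold LD.st
  congr 1
  · funext i
    by_cases hi : (i : ℕ) ≤ j
    · rw [if_pos hi, if_pos hi, hQ i hi]
    · rw [if_neg hi, if_neg hi]
  · funext e
    by_cases he : (e : ℕ) < j
    · rw [if_pos he, if_pos he, hg e he]
    · rw [if_neg he, if_neg he]
  · funext e
    by_cases he : (e : ℕ) < j
    · rw [if_pos he, if_pos he, hh e he]
    · rw [if_neg he, if_neg he]

theorem seg_zero (hX : X.Ok a j) : (seg X Y 0).st a j = X.st a j := by
  refine st_congr (fun i hi => ?_) (fun e he => ?_) fun e he => ?_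
  · funext z
    simp only [LD.Q, seg]
    norm_num
  · have hD : X.D e.castSucc ≠ 0 := by have := hX.hD _ (le_cast he); linarith
    funext z
    simp only [LD.g, seg]
    norm_num
    rw [mul_div_cancel₀ _ hD]
    exact Or.inl rfl
  · have hD : X.D e.succ ≠ 0 := by have := hX.hD _ (lt_succ he); linarith
    funext z
    simp only [LD.h, seg]
    norm_num
    rw [mul_div_cancel₀ _ hD]

theorem seg_one (hY : Y.Ok a j) : (seg X Y 1).st a j = Y.st a j := by
  refine st_congr (fun i hi => ?_) (fun e he => ?_) fun e he => ?_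
  · funext z
    simp only [LD.Q, seg]
    norm_num
  · have hD : Y.D e.castSucc ≠ 0 := by have := hY.hD _ (le_cast he); linarith
    funext z
    simp only [LD.g, seg]
    norm_num
    rw [mul_div_cancel₀ _ hD]
    exact Or.inl rfl
  · have hD : Y.D e.succ ≠ 0 := by have := hY.hD _ (lt_succ he); linarith
    funext z
    simp only [LD.h, seg]
    norm_num
    rw [mul_div_cancel₀ _ hD]

/-- the constants needed for (NC) along a segment -/
theorem exists_c (hX : X.Ok a j) (hY : Y.Ok a j) (e : Fin n) (he : (e : ℕ) < j) :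
    ∃ C : ℝ, ∀ t ∈ Icc (0 : ℝ) 1, ∀ c : ℝ, C < c →
      ((1 - t) * X.ep e.castSucc + t * Y.ep e.castSucc) ^
          ((1 - t) * (X.p e / X.D e.castSucc) + t * (Y.p e / Y.D e.castSucc)) *
        ((1 - t) * X.ep e.succ + t * Y.ep e.succ) ^
          ((1 - t) * (X.m e / X.D e.succ) + t * (Y.m e / Y.D e.succ)) <
      ((1 - t) * (X.p e / X.D e.castSucc) + t * (Y.p e / Y.D e.castSucc)) ^
          ((1 - t) * (X.p e / X.D e.castSucc) + t * (Y.p e / Y.D e.castSucc)) *
        ((1 - t) * (X.m e / X.D e.succ) + t * (Y.m e / Y.D e.succ)) ^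
          ((1 - t) * (X.m e / X.D e.succ) + t * (Y.m e / Y.D e.succ)) * c := by
  have pos : ∀ {A B : ℝ}, 2 < A → 2 < B → 0 < A / B := fun h1 h2 =>
    div_pos (by linarith) (by linarith)
  have hth : ∀ t ∈ Icc (0 : ℝ) 1,
      0 < (1 - t) * (X.p e / X.D e.castSucc) + t * (Y.p e / Y.D e.castSucc) := fun t ht =>
    aff_pos (pos (hX.hp e he) (hX.hD _ (le_cast he))) (pos (hY.hp e he) (hY.hD _ (le_cast he))) ht
  have het : ∀ t ∈ Icc (0 : ℝ) 1,
      0 < (1 - t) * (X.m e / X.D e.succ) + t * (Y.m e / Y.D e.succ) := fun t ht =>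
    aff_pos (pos (hX.hm e he) (hX.hD _ (lt_succ he))) (pos (hY.hm e he) (hY.hD _ (lt_succ he))) ht
  have he1 : ∀ t ∈ Icc (0 : ℝ) 1, 0 < (1 - t) * X.ep e.castSucc + t * Y.ep e.castSucc :=
    fun t ht => aff_pos (hX.hep _ (le_cast he)) (hY.hep _ (le_cast he)) ht
  have he2 : ∀ t ∈ Icc (0 : ℝ) 1, 0 < (1 - t) * X.ep e.succ + t * Y.ep e.succ :=
    fun t ht => aff_pos (hX.hep _ (lt_succ he)) (hY.hep _ (lt_succ he)) ht
  have caff : ∀ A B : ℝ, ContinuousOn (fun t : ℝ => (1 - t) * A + t * B) (Icc 0 1) := fun A B =>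
    (cd_aff A B).continuous.continuousOn
  set N : ℝ → ℝ := fun t => ((1 - t) * X.ep e.castSucc + t * Y.ep e.castSucc) ^
          ((1 - t) * (X.p e / X.D e.castSucc) + t * (Y.p e / Y.D e.castSucc)) *
        ((1 - t) * X.ep e.succ + t * Y.ep e.succ) ^
          ((1 - t) * (X.m e / X.D e.succ) + t * (Y.m e / Y.D e.succ)) with hN
  set M : ℝ → ℝ := fun t => ((1 - t) * (X.p e / X.D e.castSucc) + t * (Y.p e / Y.D e.castSucc)) ^
          ((1 - t) * (X.p e / X.D e.castSucc) + t * (Y.p e / Y.D e.castSucc)) *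
        ((1 - t) * (X.m e / X.D e.succ) + t * (Y.m e / Y.D e.succ)) ^
          ((1 - t) * (X.m e / X.D e.succ) + t * (Y.m e / Y.D e.succ)) with hM
  have hMpos : ∀ t ∈ Icc (0 : ℝ) 1, 0 < M t := fun t ht =>
    mul_pos (Real.rpow_pos_of_pos (hth t ht) _) (Real.rpow_pos_of_pos (het t ht) _)
  have hNc : ContinuousOn N (Icc 0 1) :=
    ((caff _ _).rpow (caff _ _) fun t ht => Or.inl (he1 t ht).ne').mul
      ((caff _ _).rpow (caff _ _) fun t ht => Or.inl (he2 t ht).ne')
  have hMc : ContinuousOn M (Icc 0 1) :=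
    ((caff _ _).rpow (caff _ _) fun t ht => Or.inl (hth t ht).ne').mul
      ((caff _ _).rpow (caff _ _) fun t ht => Or.inl (het t ht).ne')
  obtain ⟨C, hC⟩ := isCompact_Icc.exists_bound_of_continuousOn
    (hNc.div hMc fun t ht => (hMpos t ht).ne')
  refine ⟨C, fun t ht c hc => ?_⟩
  have h1 : N t / M t < c := lt_of_le_of_lt ((le_abs_self _).trans (hC t ht)) hc
  have h2 : N t < c * M t := (div_lt_iff₀ (hMpos t ht)).1 h1
  show N t < M t * c
  linarith

/-- raising the constants -/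
theorem ok_c (hX : X.Ok a j) {c : Fin n → ℝ} (hc : ∀ e : Fin n, (e : ℕ) < j → X.c e ≤ c e) :
    ({X with c := c} : LD n).Ok a j :=
  { hX with
    hc := fun e he => (hX.hc e he).trans_le (hc e he)
    nc := fun e he => by
      refine (hX.nc e he).trans_le ?_
      have h1 : 0 ≤ (X.p e / X.D e.castSucc) ^ (X.p e / X.D e.castSucc) :=
        Real.rpow_nonneg (div_nonneg (by have := hX.hp e he; linarith)
          (by have := hX.hD _ (le_cast he); linarith)) _
      have h2 : 0 ≤ (X.m e / X.D e.succ) ^ (X.m e / X.D e.succ) :=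
        Real.rpow_nonneg (div_nonneg (by have := hX.hm e he; linarith)
          (by have := hX.hD _ (lt_succ he); linarith)) _
      exact mul_le_mul_of_nonneg_left (hc e he) (mul_nonneg h1 h2) }

theorem seq_seg (ha : Exps a) {j : Fin (n + 1)} (hX : X.Ok a j) (hY : Y.Ok a j)
    (h : ∀ t ∈ Icc (0 : ℝ) 1, (seg X Y t).Ok a j) : SEq (X.st a j) (Y.st a j) := by
  have h1 := (Fam.hpath ha j (seg_fam hX hY) h).seq
  have e0 : (fun x => (seg X Y 0).st a j x) = X.st a j := seg_zero hX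
  have e1 : (fun x => (seg X Y 1).st a j x) = Y.st a j := seg_one hY
  have h2 : SEq (fun x => (seg X Y 0).st a j x) (fun x => (seg X Y 1).st a j x) := h1
  rwa [e0, e1] at h2

theorem seq_c (ha : Exps a) {j : Fin (n + 1)} (hX : X.Ok a j) {c : Fin n → ℝ}
    (hc : ∀ e : Fin n, (e : ℕ) < j → X.c e ≤ c e) :
    SEq (X.st a j) (({X with c := c} : LD n).st a j) := by
  refine seq_seg ha hX (ok_c hX hc) fun t ht => seg_ok hX (ok_c hX hc) ht fun e he => ?_
  have e1 : ∀ A : ℝ, (1 - t) * A + t * A = A := fun A => by ring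
  show ((1 - t) * X.ep e.castSucc + t * X.ep e.castSucc) ^
          ((1 - t) * (X.p e / X.D e.castSucc) + t * (X.p e / X.D e.castSucc)) *
        ((1 - t) * X.ep e.succ + t * X.ep e.succ) ^
          ((1 - t) * (X.m e / X.D e.succ) + t * (X.m e / X.D e.succ)) <
      ((1 - t) * (X.p e / X.D e.castSucc) + t * (X.p e / X.D e.castSucc)) ^
          ((1 - t) * (X.p e / X.D e.castSucc) + t * (X.p e / X.D e.castSucc)) *
        ((1 - t) * (X.m e / X.D e.succ) + t * (X.m e / X.D e.succ)) ^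
          ((1 - t) * (X.m e / X.D e.succ) + t * (X.m e / X.D e.succ)) *
        ((1 - t) * X.c e + t * c e)
  simp only [e1]
  refine (hX.nc e he).trans_le (mul_le_mul_of_nonneg_left ?_ ?_)
  · have := mul_le_mul_of_nonneg_left (hc e he) ht.1
    linarith
  · exact mul_nonneg
      (Real.rpow_nonneg (div_nonneg (by have := hX.hp e he; linarith)
          (by have := hX.hD _ (le_cast he); linarith)) _)
      (Real.rpow_nonneg (div_nonneg (by have := hX.hm e he; linarith)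
          (by have := hX.hD _ (lt_succ he); linarith)) _)

end Seg

/-- **PathP** -/
theorem pathP (ha : Exps a) (j : Fin (n + 1)) : PathP a j := by
  classical
  refine ⟨fun X hX => ?_, fun X Y hX hY => ?_⟩
  · have h0 : ∀ t ∈ Icc (0 : ℝ) 1, (seg X X t).Ok a j := fun t ht =>
      seg_ok hX hX ht fun e he => by
        have e1 : ∀ A : ℝ, (1 - t) * A + t * A = A := fun A => by ring
        simp only [e1]
        exact hX.nc e he
    have h1 := (Fam.hpath ha j (seg_fam hX hX) h0).tame (t := 0) ⟨le_rfl, zero_le_one⟩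
    have e0 : (fun x => (seg X X 0).st a j x) = X.st a j := seg_zero hX
    have h2 : Tame (fun x => (seg X X 0).st a j x) := h1
    rwa [e0] at h2
  · have hex : ∀ e : Fin n, ∃ C : ℝ, (e : ℕ) < j → ∀ t ∈ Icc (0 : ℝ) 1, ∀ c : ℝ, C < c →
      ((1 - t) * X.ep e.castSucc + t * Y.ep e.castSucc) ^
          ((1 - t) * (X.p e / X.D e.castSucc) + t * (Y.p e / Y.D e.castSucc)) *
        ((1 - t) * X.ep e.succ + t * Y.ep e.succ) ^
          ((1 - t) * (X.m e / X.D e.succ) + t * (Y.m e / Y.D e.succ)) <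
      ((1 - t) * (X.p e / X.D e.castSucc) + t * (Y.p e / Y.D e.castSucc)) ^
          ((1 - t) * (X.p e / X.D e.castSucc) + t * (Y.p e / Y.D e.castSucc)) *
        ((1 - t) * (X.m e / X.D e.succ) + t * (Y.m e / Y.D e.succ)) ^
          ((1 - t) * (X.m e / X.D e.succ) + t * (Y.m e / Y.D e.succ)) * c := by
      intro e
      by_cases he : (e : ℕ) < j
      · obtain ⟨C, hC⟩ := exists_c hX hY e he
        exact ⟨C, fun _ => hC⟩
      · exact ⟨0, fun h => absurd h he⟩
    choose C hC using hex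
    set c : Fin n → ℝ := fun e => max (max (X.c e) (Y.c e)) (C e + 1) with hc
    have hcX : ∀ e : Fin n, (e : ℕ) < j → X.c e ≤ c e := fun e _ =>
      (le_max_left _ _).trans (le_max_left _ _)
    have hcY : ∀ e : Fin n, (e : ℕ) < j → Y.c e ≤ c e := fun e _ =>
      (le_max_right _ _).trans (le_max_left _ _)
    refine (seq_c ha hX hcX).trans (SEq.trans ?_ (seq_c ha hY hcY).symm)
    refine seq_seg ha (ok_c hX hcX) (ok_c hY hcY) fun t ht =>
      seg_ok (ok_c hX hcX) (ok_c hY hcY) ht fun e he => ?_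
    refine hC e he t ht ((1 - t) * c e + t * c e) ?_
    have h1 : (1 - t) * c e + t * c e = c e := by ring
    rw [h1]
    have h2 : C e + 1 ≤ c e := le_max_right _ _
    linarith

theorem path (ha : Exps a) (j : ℕ) (hj : j ≤ n) : PathP a j :=
  pathP ha ⟨j, Nat.lt_succ_of_le hj⟩

end Crest.Agent.R267.PathP_951
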