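import Crest.Agent.R267.LemLF_951
import Crest.Agent.R267.GlNDefs_9
import Crest.Agent.R267.PathP_951

-- ▼ part R267/BoxL_951
section

/-!
# Row 267 (helper951): LEMMA L for deletion boxes

`boxB S c h z = ∑ e, c e * ∏ j ∈ S e, h e j (z j)`.
-/

set_option autoImplicit false
set_option linter.unusedSectionVars false

noncomputable section

open Finset
open Crest.Agent.R267.LemL_951

namespace Crest.Agent.R267.BoxL_951

variable {ι ε : Type*} [Fintype ι] [DecidableEq ι] [Fintype ε]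

/-- deletions: products over boxes -/
def boxB (S : ε → Finset ι) (c : ε → ℝ) (h : ε → ι → ℂ → ℝ) (z : ι → ℂ) : ℝ :=
  ∑ e, c e * ∏ j ∈ S e, h e j (z j)

variable {S : ε → Finset ι} {c : ε → ℝ} {h : ε → ι → ℂ → ℝ} {z : ι → ℂ}

theorem hasFDerivAt_boxB (hh : ∀ e, ∀ j ∈ S e, DifferentiableAt ℝ (h e j) (z j)) :
    HasFDerivAt (boxB S c h)
      (∑ e, c e • ∑ j ∈ S e, (∏ k ∈ (S e).erase j, h e k (z k)) •
        (fderiv ℝ (h e j) (z j)).comp (ContinuousLinearMap.proj (R := ℝ) (φ := fun _ => ℂ) j)) z := by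
  have hpr : ∀ i : ι, HasFDerivAt (fun z : ι → ℂ => z i)
      (ContinuousLinearMap.proj (R := ℝ) (φ := fun _ => ℂ) i) z := fun i => hasFDerivAt_apply i z
  refine HasFDerivAt.fun_sum fun e _ => ?_
  exact (HasFDerivAt.finsetProd fun j hj => (hh e j hj).hasFDerivAt.comp z (hpr j)).const_mul (c e)

theorem fderiv_boxB_single (hh : ∀ e, ∀ j ∈ S e, DifferentiableAt ℝ (h e j) (z j)) (i : ι)
    (v : ℂ) : fderiv ℝ (boxB S c h) z (Pi.single i v) =
      ∑ e, c e * (if i ∈ S e then (∏ k ∈ (S e).erase i, h e k (z k)) * fderiv ℝ (h e i) (z i) v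
        else 0) := by
  rw [(hasFDerivAt_boxB hh).fderiv]
  simp only [_root_.sum_apply, ContinuousLinearMap.comp_apply,
    _root_.smul_apply, ContinuousLinearMap.proj_apply, smul_eq_mul]
  refine sum_congr rfl fun e _ => ?_
  congr 1
  have h1 : ∀ (j : ι) (T : ℂ →L[ℝ] ℝ), T (Pi.single (M := fun _ => ℂ) i v j) =
      if j = i then T v else 0 := by
    intro j T
    by_cases hj : j = i
    · subst hj; rw [if_pos rfl, Pi.single_eq_same]
    · rw [if_neg hj, Pi.single_eq_of_ne hj, map_zero]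
  simp only [h1, mul_ite, mul_zero]
  rw [Finset.sum_ite_eq' (S e) i]

/-- radial derivatives -/
theorem fderiv_boxB_rad {m : ε → ι → ℝ} (hhH : ∀ e, ∀ j ∈ S e, PH (m e j) (h e j))
    (hh : ∀ e, ∀ j ∈ S e, DifferentiableAt ℝ (h e j) (z j)) (i : ι) :
    fderiv ℝ (boxB S c h) z (Pi.single i (z i)) =
      ∑ e, (if i ∈ S e then m e i else 0) * (c e * ∏ j ∈ S e, h e j (z j)) := by
  rw [fderiv_boxB_single hh]
  refine sum_congr rfl fun e _ => ?_
  by_cases hi : i ∈ S e
  · rw [if_pos hi, if_pos hi, (hhH e i hi).euler (hh e i hi), smul_eq_mul,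
      ← Finset.mul_prod_erase (S e) (fun j => h e j (z j)) hi]
    ring
  · rw [if_neg hi, if_neg hi, mul_zero, zero_mul]

/-- **LEMMA L for boxes.** -/
theorem box_reg {P : ι → ℂ → ℂ} {D : ι → ℝ} {m : ε → ι → ℝ}
    (hD : ∀ i, 0 < D i) (hm : ∀ e, ∀ j ∈ S e, 0 ≤ m e j)
    (hsum : ∀ e, ∑ j ∈ S e, m e j / D j = 1) (hc : ∀ e, 0 ≤ c e)
    (hPH : ∀ i, PH (D i) (P i)) (hhH : ∀ e, ∀ j ∈ S e, PH (m e j) (h e j))
    (hPd : ∀ i, DifferentiableAt ℝ (P i) (z i))
    (hh : ∀ e, ∀ j ∈ S e, DifferentiableAt ℝ (h e j) (z j))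
    (hh0 : ∀ e, ∀ j ∈ S e, ∀ x, 0 ≤ h e j x)
    (hcase : ∀ i, z i ≠ 0 →
      (Function.Surjective (fderiv ℝ (P i) (z i)) ∧
        ∀ e, i ∈ S e → ∀ v, fderiv ℝ (h e i) (z i) v = 0) ∨
      (P i (z i) ≠ 0 ∧ ((P i (z i)).re < 0 ∨
        ∃ v, (∀ e, i ∈ S e → fderiv ℝ (h e i) (z i) v = 0) ∧
          Good2 (fderiv ℝ (P i) (z i) v) (P i (z i)))))
    (hz : z ≠ 0)
    (hNC : (∀ i, D i * (P i (z i)).re =
        ∑ e, (if i ∈ S e then m e i else 0) * (c e * ∏ j ∈ S e, h e j (z j))) →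
      (∀ i, z i ≠ 0 → 0 < (P i (z i)).re ∧ (P i (z i)).im = 0) → False)
    (hre : 0 ≤ (lobB P (boxB S c h) z).re) :
    Function.Surjective (fderiv ℝ (lobB P (boxB S c h)) z) := by
  have hrad := fderiv_boxB_rad (c := c) hhH hh
  have hT : ∀ e, 0 ≤ c e * ∏ j ∈ S e, h e j (z j) := fun e =>
    mul_nonneg (hc e) (prod_nonneg fun j hj => hh0 e j hj _)
  have hmi : ∀ e i, 0 ≤ (if i ∈ S e then m e i else 0) := by
    intro e i
    split_ifs with hi
    · exact hm e i hi
    · exact le_rfl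
  refine lobB_reg hD hPH hPd (hasFDerivAt_boxB hh).differentiableAt (fun i => ?_) ?_
    (fun i hi => ?_) hz (fun h1 h2 => ?_) hre
  · rw [hrad]
    exact sum_nonneg fun e _ => mul_nonneg (hmi e i) (hT e)
  · calc ∑ i, fderiv ℝ (boxB S c h) z (Pi.single i (z i)) / D i
        = ∑ i, ∑ e, (if i ∈ S e then m e i else 0) / D i * (c e * ∏ j ∈ S e, h e j (z j)) := by
          refine sum_congr rfl fun i _ => ?_
          rw [hrad, sum_div]
          exact sum_congr rfl fun e _ => by ring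
      _ = ∑ e, (∑ i, (if i ∈ S e then m e i else 0) / D i) * (c e * ∏ j ∈ S e, h e j (z j)) := by
          rw [sum_comm]
          exact sum_congr rfl fun e _ => by rw [sum_mul]
      _ = boxB S c h z := by
          refine sum_congr rfl fun e _ => ?_
          have h3 : ∑ i, (if i ∈ S e then m e i else 0) / D i = ∑ j ∈ S e, m e j / D j := by
            rw [← Finset.sum_filter_add_sum_filter_not univ (fun i => i ∈ S e)]
            have h4 : ∑ i ∈ univ.filter (fun i => ¬ i ∈ S e),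
                (if i ∈ S e then m e i else 0) / D i = 0 :=
              sum_eq_zero fun i hi => by
                rw [if_neg (mem_filter.1 hi).2, zero_div]
            rw [h4, add_zero, Finset.filter_mem_eq_inter, univ_inter]
            exact sum_congr rfl fun i hi => by rw [if_pos hi]
          rw [h3, hsum, one_mul]
  · rcases hcase i hi with ⟨h1, h2⟩ | ⟨h1, h2 | ⟨v, h2, h4⟩⟩
    · refine Or.inl ⟨h1, fun v => ?_⟩
      rw [fderiv_boxB_single hh]
      refine sum_eq_zero fun e _ => ?_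
      by_cases h5 : i ∈ S e
      · rw [if_pos h5, h2 e h5 v, mul_zero, mul_zero]
      · rw [if_neg h5, mul_zero]
    · exact Or.inr ⟨h1, Or.inl h2⟩
    · refine Or.inr ⟨h1, Or.inr ⟨v, ?_, h4⟩⟩
      rw [fderiv_boxB_single hh]
      refine sum_eq_zero fun e _ => ?_
      by_cases h5 : i ∈ S e
      · rw [if_pos h5, h2 e h5, mul_zero, mul_zero]
      · rw [if_neg h5, mul_zero]
  · exact hNC (fun i => by rw [h1, hrad]) h2

/-- **(NC) for boxes with equal exponents** : `r i = ∑_{e ∋ i} T e / |S e|` is impossible if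
`|S e| r i < T e` for the smallest `r i`, `i ∈ S e`, whenever `0 < T e`. -/
theorem nc_box {r : ι → ℝ} {T : ε → ℝ} (hT : ∀ e, 0 ≤ T e) (hS : ∀ e, (S e).Nonempty)
    (hr : ∀ i, r i = ∑ e, (if i ∈ S e then T e / ((S e).card : ℝ) else 0)) (hne : ∃ i, r i ≠ 0)
    (hc : ∀ e, 0 < T e → ∀ i ∈ S e, (∀ j ∈ S e, r i ≤ r j) → ((S e).card : ℝ) * r i < T e) :
    False := by
  obtain ⟨e, he⟩ : ∃ e, T e ≠ 0 := by
    by_contra h0
    push Not at h0
    obtain ⟨i, hi⟩ := hne
    apply hi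
    rw [hr i]
    refine sum_eq_zero fun e _ => ?_
    rw [h0 e, zero_div, ite_self]
  have hTe : 0 < T e := lt_of_le_of_ne (hT e) he.symm
  obtain ⟨i, hi, hmin⟩ := (S e).exists_min_image r (hS e)
  have h1 := hc e hTe i hi hmin
  have hcard : 0 < ((S e).card : ℝ) := by exact_mod_cast card_pos.2 (hS e)
  have h2 : T e / ((S e).card : ℝ) ≤ r i := by
    rw [hr i]
    calc T e / ((S e).card : ℝ) = (if i ∈ S e then T e / ((S e).card : ℝ) else 0) := by
          rw [if_pos hi]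
      _ ≤ _ := single_le_sum (f := fun e => if i ∈ S e then T e / ((S e).card : ℝ) else 0)
          (fun e _ => by
            show 0 ≤ if i ∈ S e then T e / ((S e).card : ℝ) else 0
            split_ifs
            · exact div_nonneg (hT e) (Nat.cast_nonneg _)
            · exact le_rfl) (mem_univ e)
  rw [div_le_iff₀ hcard] at h2
  linarith

/-- geometric mean ≥ minimum -/
theorem gm_ge {s : Finset ι} (hs : s.Nonempty) {r : ι → ℝ} {a : ℝ} (ha : 0 ≤ a)
    (h : ∀ j ∈ s, a ≤ r j) : a ≤ ∏ j ∈ s, r j ^ (1 / (s.card : ℝ)) := by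
  have hcard : 0 < (s.card : ℝ) := by exact_mod_cast card_pos.2 hs
  have h1 : ∏ j ∈ s, a ^ (1 / (s.card : ℝ)) ≤ ∏ j ∈ s, r j ^ (1 / (s.card : ℝ)) :=
    prod_le_prod (fun j _ => Real.rpow_nonneg ha _)
      fun j hj => Real.rpow_le_rpow ha (h j hj) (by positivity)
  rw [prod_const, ← Real.rpow_mul_natCast ha, one_div_mul_cancel hcard.ne', Real.rpow_one] at h1
  exact h1

end Crest.Agent.R267.BoxL_951
end
end

-- ▼ part R267/SegN_951

/-!
# Row 267 (helper951): GLN-SEG, the straight line between two polar data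
-/

set_option autoImplicit false

noncomputable section

open Finset Set
open Crest.Agent.R267.T3aNDefs_88 Crest.Agent.R267.Hm_951 Crest.Agent.R267.Ang_739
open Crest.Agent.R267.LemL_951 hiding dg
open Crest.Agent.R267.GlNDefs_9 Crest.Agent.R267.BoxL_951

namespace Crest.Agent.R267.SegN_951

/-! ### words -/

section Words

variable {e : ℕ → ℝ} {M : ℕ} {a b : ℕ → ℝ} {φ : ℝ → ℝ}

theorem se_pm (he : ∀ l, e l = 1 ∨ e l = -1) (i : ℕ) : se e i = 1 ∨ se e i = -1 := by
  unfold se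
  split_ifs
  · exact Or.inl rfl
  · exact he _

/-- `cen e i` is a multiple of `2 π` -/
theorem cen_int (he : ∀ l, e l = 1 ∨ e l = -1) (i : ℕ) : ∃ n : ℤ, cen e i = 2 * Real.pi * n := by
  induction i with
  | zero => exact ⟨0, by simp [cen]⟩
  | succ i ih =>
    obtain ⟨n, hn⟩ := ih
    rcases se_pm he i with h1 | h1 <;> rcases se_pm he (i + 1) with h2 | h2
    · exact ⟨n + 1, by rw [cen, hn, h1, h2]; push_cast; ring⟩
    · exact ⟨n, by rw [cen, hn, h1, h2]; ring⟩
    · exact ⟨n, by rw [cen, hn, h1, h2]; ring⟩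
    · exact ⟨n - 1, by rw [cen, hn, h1, h2]; push_cast; ring⟩

theorem tot_int (he : ∀ l, e l = 1 ∨ e l = -1) (M : ℕ) : ∃ n : ℤ, tot e M = 2 * Real.pi * n := by
  obtain ⟨n, hn⟩ := cen_int he M
  rcases se_pm he M with h1 | h1
  · exact ⟨n + 1, by rw [tot, hn, h1]; push_cast; ring⟩
  · exact ⟨n, by rw [tot, hn, h1]; ring⟩

theorem arcs_cover {y : ℝ} (h0 : a 0 ≤ y) :
    ∀ m ≤ M + 1, y < a m → ∃ i < m, a i ≤ y ∧ y < a (i + 1) := by
  intro m
  induction m with
  | zero => exact fun _ h1 => absurd h0 (not_le.2 h1)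
  | succ m ih =>
    intro hm h1
    by_cases h2 : y < a m
    · obtain ⟨i, hi, h3⟩ := ih (by omega) h2
      exact ⟨i, by omega, h3⟩
    · exact ⟨m, by omega, not_lt.1 h2, h1⟩

theorem exists_arc (h : Arcs M a b) (x : ℝ) :
    ∃ (k : ℤ) (i : ℕ), i ≤ M ∧ a i ≤ x + 2 * Real.pi * k ∧ x + 2 * Real.pi * k < a (i + 1) := by
  have hpi : 0 < 2 * Real.pi := by positivity
  have h1 := toIcoMod_mem_Ico hpi (a 0) x
  have h2 : x + 2 * Real.pi * ((-toIcoDiv hpi (a 0) x : ℤ) : ℝ) = toIcoMod hpi (a 0) x := by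
    rw [toIcoMod, zsmul_eq_mul]; push_cast; ring
  obtain ⟨i, hi, h3⟩ := arcs_cover (M := M) h1.1 (M + 1) le_rfl (by rw [h.last]; exact h1.2)
  exact ⟨-toIcoDiv hpi (a 0) x, i, by omega, by rw [h2]; exact h3.1, by rw [h2]; exact h3.2⟩

theorem wrd_shift (h : Wrd e M a b φ) (x : ℝ) (k : ℤ) :
    φ (x + 2 * Real.pi * k) = φ x + tot e M * k := by
  have hn : ∀ (m : ℕ) (x : ℝ), φ (x + 2 * Real.pi * m) = φ x + tot e M * m := by
    intro m
    induction m with
    | zero => intro x; simp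
    | succ m ih =>
      intro x
      have e1 : x + 2 * Real.pi * ((m + 1 : ℕ) : ℝ) = (x + 2 * Real.pi * m) + 2 * Real.pi := by
        push_cast; ring
      rw [e1, h.per, ih]
      push_cast; ring
  rcases Int.eq_nat_or_neg k with ⟨m, rfl | rfl⟩
  · have := hn m x
    push_cast
    exact this
  · have := hn m (x + 2 * Real.pi * ((-(m : ℤ) : ℤ) : ℝ))
    have e1 : x + 2 * Real.pi * ((-(m : ℤ) : ℤ) : ℝ) + 2 * Real.pi * (m : ℝ) = x := by
      push_cast; ring
    rw [e1] at this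
    rw [this]
    push_cast; ring

theorem wrd_cis (he : ∀ l, e l = 1 ∨ e l = -1) (h : Wrd e M a b φ) (x : ℝ) (k : ℤ) :
    cis (φ (x + 2 * Real.pi * k)) = cis (φ x) := by
  obtain ⟨n, hn⟩ := tot_int he M
  rw [wrd_shift h, hn, show φ x + 2 * Real.pi * n * k = φ x + 2 * Real.pi * ((n * k : ℤ) : ℝ) by
    push_cast; ring, cis_per]

theorem wrd_deriv (h : Wrd e M a b φ) (x : ℝ) (k : ℤ) :
    deriv φ (x + 2 * Real.pi * k) = deriv φ x := by
  have h1 : (fun x => φ (x + 2 * Real.pi * k)) = fun x => φ x + tot e M * k :=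
    funext fun x => wrd_shift h x k
  have h2 : deriv (fun x => φ (x + 2 * Real.pi * k)) x = deriv (fun x => φ x + tot e M * k) x := by
    rw [h1]
  rw [deriv_comp_add_const, deriv_add_const] at h2
  exact h2

theorem wrd_per (he : ∀ l, e l = 1 ∨ e l = -1) (h : Wrd e M a b φ) (ep : ℝ) :
    Per fun x => (ep : ℂ) * cis (φ x) := fun x => by
  have := wrd_cis he h x 1
  rw [Int.cast_one, mul_one] at this
  show (ep : ℂ) * cis (φ (x + 2 * Real.pi)) = _
  rw [this]

theorem per_int {l : ℝ → ℝ} (h : ∀ x, l (x + 2 * Real.pi) = l x) (x : ℝ) (k : ℤ) :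
    l (x + 2 * Real.pi * k) = l x := by
  have h1 : Function.Periodic l (2 * Real.pi) := h
  have h2 := h1.int_mul k x
  rw [← h2]
  congr 1
  ring

theorem deriv_per_int {l : ℝ → ℝ} (h : ∀ x, l (x + 2 * Real.pi) = l x) (x : ℝ) (k : ℤ) :
    deriv l (x + 2 * Real.pi * k) = deriv l x := by
  have h1 : (fun x => l (x + 2 * Real.pi * k)) = l := funext fun x => per_int h x k
  have h2 : deriv (fun x => l (x + 2 * Real.pi * k)) x = deriv l x := by rw [h1]
  rw [deriv_comp_add_const] at h2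
  exact h2

theorem deriv_zero_of_const {l : ℝ → ℝ} {x p q C : ℝ} (hd : DifferentiableAt ℝ l x)
    (hpq : p < q) (hx : x ∈ Icc p q) (hc : ∀ y ∈ Icc p q, l y = C) : deriv l x = 0 := by
  have h1 : HasDerivWithinAt l (deriv l x) (Icc p q) x := hd.hasDerivAt.hasDerivWithinAt
  have h2 : HasDerivWithinAt l 0 (Icc p q) x :=
    (hasDerivWithinAt_const x (Icc p q) C).congr hc (hc x hx)
  exact (uniqueDiffOn_Icc hpq x hx).eq_deriv _ h1 h2

/-- **the alternative**: `cos φ < 0`, or `x` is (mod `2 π`) in an arc -/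
theorem wrd_alt (he : ∀ l, e l = 1 ∨ e l = -1) (hA : Arcs M a b) (h : Wrd e M a b φ) (x : ℝ) :
    (cis (φ x)).re < 0 ∨ (deriv φ x ≠ 0 ∧ ∃ (k : ℤ) (i : ℕ), i ≤ M ∧
      x + 2 * Real.pi * k ∈ Icc (a i) (b i)) := by
  obtain ⟨k, i, hi, h1, h2⟩ := exists_arc hA x
  by_cases h3 : x + 2 * Real.pi * k ≤ b i
  · right
    refine ⟨?_, k, i, hi, h1, h3⟩
    have h4 := (h.arc i hi _ h1 h3).2
    rw [wrd_deriv h] at h4
    intro h5
    rw [h5, mul_zero] at h4
    exact lt_irrefl _ h4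
  · left
    have h4 := h.gap i hi _ (not_le.1 h3) h2
    rw [← wrd_cis he h x k]
    obtain ⟨n, hn⟩ := cen_int he i
    have h5 : (cis (φ (x + 2 * Real.pi * k))).re = Real.cos (φ (x + 2 * Real.pi * k)) :=
      Complex.exp_ofReal_mul_I_re _
    rw [h5]
    set θ := φ (x + 2 * Real.pi * k) - (cen e i + Real.pi * se e i) with hθ
    have h6 : 0 < Real.cos θ := Real.cos_pos_of_mem_Ioo ⟨by linarith [(abs_lt.1 h4).1], (abs_lt.1 h4).2⟩
    have h7 : φ (x + 2 * Real.pi * k) = θ + Real.pi * se e i + n * (2 * Real.pi) := by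
      rw [hθ, hn]; ring
    rw [h7, Real.cos_add_int_mul_two_pi]
    rcases se_pm he i with h8 | h8
    · rw [h8, mul_one, Real.cos_add_pi]; linarith
    · rw [h8, mul_neg, mul_one, ← sub_eq_add_neg, Real.cos_sub_pi]; linarith

/-- cut-offs in an arc -/
theorem win_arc {lo hi : ℕ} {l : ℝ → ℝ} (hA : Arcs M a b) (hl : WinA M a b lo hi l) {x : ℝ}
    (hx : ∃ (k : ℤ) (i : ℕ), i ≤ M ∧ x + 2 * Real.pi * k ∈ Icc (a i) (b i)) :
    (l x = 0 ∨ l x = 1) ∧ deriv l x = 0 := by
  obtain ⟨k, i, hi', hx⟩ := hx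
  refine ⟨?_, ?_⟩
  · have h1 := hl.val i hi' _ hx.1 hx.2
    rw [per_int hl.per] at h1
    rw [h1]
    split_ifs
    · exact Or.inr rfl
    · exact Or.inl rfl
  · rw [← deriv_per_int hl.per x k]
    exact deriv_zero_of_const (hl.smooth.differentiable (by norm_num) _) (hA.ab i hi') hx
      fun y hy => hl.val i hi' y hy.1 hy.2

end Words

/-! ### regularity of the polar functions -/

section Reg

variable {N : ℕ} {D : SD N}

theorem sn_pm (D : SD N) (j : Fin N) (l : ℕ) : D.sn j l = 1 ∨ D.sn j l = -1 := by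
  unfold SD.sn
  split_ifs
  · exact Or.inr rfl
  · exact Or.inl rfl

/-- planar pieces -/
def Pj (X : PD D) (j : Fin N) : ℂ → ℂ := pc (X.dg j) 1 (X.ph j)

/-- factors of the boxes -/
def hf (X : PD D) (e : Fin D.nb) (j : Fin N) : ℂ → ℝ := pol (X.dg j / cd D e) (X.lam e j)

theorem fn_eq (X : PD D) : X.fn = lobB (Pj X) (boxB (fun e => (D.bx e).S) X.c (hf X)) := rfl

theorem cd_two (D : SD N) (e : Fin D.nb) : 2 ≤ cd D e := by
  unfold cd
  exact_mod_cast D.h2 e

theorem hf_dg {X : PD D} (hX : X.Ok) {e : Fin D.nb} {j : Fin N} (hj : j ∈ (D.bx e).S) :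
    2 < X.dg j / cd D e := by
  have h1 := hX.hdg2 e j hj
  have h2 := cd_two D e
  rw [lt_div_iff₀ (by linarith)]
  exact h1

theorem Pj_contDiff {X : PD D} (hX : X.Ok) (j : Fin N) : ContDiff ℝ 2 (Pj X j) :=
  LobeKit_407.contDiff_pol (hX.hdg j) (wrd_per (sn_pm D j) (hX.ph j) 1)
    (contDiff_const.mul (contDiff_cis.comp (hX.ph j).smooth))

theorem hf_contDiff {X : PD D} (hX : X.Ok) {e : Fin D.nb} {j : Fin N} (hj : j ∈ (D.bx e).S) :
    ContDiff ℝ 2 (hf X e j) :=
  LobeKit_407.contDiff_pol (hf_dg hX hj) (hX.lam e j hj).per (hX.lam e j hj).smooth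

theorem sum_cd (D : SD N) (e : Fin D.nb) {f : Fin N → ℝ} (hf : ∀ j, 0 < f j) :
    ∑ j ∈ (D.bx e).S, f j / cd D e / f j = 1 := by
  have h2 := cd_two D e
  have h1 : ∀ j ∈ (D.bx e).S, f j / cd D e / f j = 1 / cd D e := fun j _ => by
    have := (hf j).ne'
    field_simp
  rw [sum_congr rfl h1, sum_const, nsmul_eq_mul]
  unfold cd at h2 ⊢
  field_simp

theorem Pj_ph (X : PD D) (i : Fin N) : PH (X.dg i) (Pj X i) :=
  fun r hr z => pc_hom (X.dg i) 1 (X.ph i) r hr z

/-- **polar functions are regular** -/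
theorem pd_reg {X : PD D} (hX : X.Ok) {z : Fin N → ℂ} (hz : z ≠ 0) (hre : 0 ≤ (X.fn z).re) :
    Function.Surjective (fderiv ℝ X.fn z) := by
  have hdpos : ∀ j, 0 < X.dg j := fun j => by have := hX.hdg j; linarith
  have hcd : ∀ e, 0 < cd D e := fun e => by have := cd_two D e; linarith
  have hSn : ∀ e, ((D.bx e).S).Nonempty := fun e => by
    have := D.h2 e
    exact card_pos.1 (by omega)
  -- the planar alternative
  have halt : ∀ i, z i ≠ 0 → (Pj X i (z i)).re < 0 ∨ (deriv (X.ph i) (Complex.arg (z i)) ≠ 0 ∧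
      ∃ (k : ℤ) (l : ℕ), l ≤ D.M i ∧
        Complex.arg (z i) + 2 * Real.pi * k ∈ Icc (X.a i l) (X.b i l)) := by
    intro i hi
    rcases wrd_alt (sn_pm D i) (hX.arcs i) (hX.ph i) (Complex.arg (z i)) with h1 | h1
    · left
      have hn : 0 < ‖z i‖ ^ X.dg i := Real.rpow_pos_of_pos (norm_pos_iff.2 hi) _
      have e1 : Pj X i (z i) = ((‖z i‖ ^ X.dg i : ℝ) : ℂ) * cis (X.ph i (Complex.arg (z i))) := by
        unfold Pj pc pol
        simp only [Complex.real_smul, Complex.ofReal_one, one_mul]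
      rw [e1, Complex.re_ofReal_mul]
      exact mul_neg_of_pos_of_neg hn h1
    · exact Or.inr h1
  have hph : ∀ i, HasDerivAt (X.ph i) (deriv (X.ph i) (Complex.arg (z i))) (Complex.arg (z i)) :=
    fun i => ((hX.ph i).smooth.differentiable (by norm_num) _).hasDerivAt
  rw [fn_eq] at hre ⊢
  refine box_reg (D := X.dg) (m := fun e j => X.dg j / cd D e) hdpos
    (fun e j _ => (div_pos (hdpos j) (hcd e)).le) (fun e => sum_cd D e hdpos)
    (fun e => ((hcd e).trans (hX.hc e)).le) (fun i => Pj_ph X i)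
    (fun e j _ => pol_hom _ _)
    (fun i => (Pj_contDiff hX i).differentiable (by norm_num) _)
    (fun e j hj => (hf_contDiff hX hj).differentiable (by norm_num) _)
    (fun e j hj x => mul_nonneg (Real.rpow_nonneg (norm_nonneg _) _) ((hX.lam e j hj).nn _))
    (fun i hi => ?_) hz (fun h1 h2 => ?_) hre
  · right
    refine ⟨pc_ne one_pos _ hi, ?_⟩
    rcases halt i hi with h1 | ⟨h1, h2⟩
    · exact Or.inl h1
    · right
      refine ⟨Complex.I * z i, fun e hj => ?_, ?_⟩
      · have h3 : HasDerivAt (X.lam e i) 0 (Complex.arg (z i)) := by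
          have := ((hX.lam e i hj).smooth.differentiable (by norm_num) (Complex.arg (z i))).hasDerivAt
          rwa [(win_arc (hX.arcs i) (hX.lam e i hj) h2).2] at this
        have h4 := fderiv_pol_I (X.dg i / cd D e) (hX.lam e i hj).per hi h3
        rw [smul_zero] at h4
        exact h4
      · have h3 : fderiv ℝ (Pj X i) (z i) (Complex.I * z i) =
            ((deriv (X.ph i) (Complex.arg (z i)) : ℝ) : ℂ) * (Complex.I * Pj X i (z i)) := by
          unfold Pj pc
          rw [fderiv_pol_I (X.dg i) (wrd_per (sn_pm D i) (hX.ph i) 1) hi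
            (hasDerivAt_epscis 1 (hph i))]
          simp only [pol, Complex.real_smul]
          ring
        rw [h3]
        exact good2_of_rot h1
  · -- (NC)
    have hP0 : ∀ i, z i = 0 → Pj X i (z i) = 0 := fun i hi => by
      rw [hi]; exact (Pj_ph X i).zero (hdpos i)
    have hr : ∀ i, (Pj X i (z i)).re = ‖z i‖ ^ X.dg i := by
      intro i
      by_cases hi : z i = 0
      · rw [hP0 i hi, hi, norm_zero, Real.zero_rpow (hdpos i).ne', Complex.zero_re]
      · obtain ⟨h3, h4⟩ := h2 i hi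
        have h5 : ‖Pj X i (z i)‖ = ‖z i‖ ^ X.dg i := by
          have := norm_pc (D := X.dg i) zero_le_one (X.ph i) (z i)
          rw [one_mul] at this
          exact this
        rw [← h5]
        have h6 : Pj X i (z i) = (((Pj X i (z i)).re : ℝ) : ℂ) := by
          apply Complex.ext
          · rw [Complex.ofReal_re]
          · rw [h4, Complex.ofReal_im]
        conv_rhs => rw [h6]
        rw [Complex.norm_real, Real.norm_of_nonneg h3.le]
    set T : Fin D.nb → ℝ := fun e => X.c e * ∏ j ∈ (D.bx e).S, hf X e j (z j) with hT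
    have hfnn : ∀ e, ∀ j ∈ (D.bx e).S, 0 ≤ hf X e j (z j) := fun e j hj =>
      mul_nonneg (Real.rpow_nonneg (norm_nonneg _) _) ((hX.lam e j hj).nn _)
    refine nc_box (S := fun e => (D.bx e).S) (r := fun i => (Pj X i (z i)).re) (T := T)
      (fun e => mul_nonneg ((hcd e).trans (hX.hc e)).le (prod_nonneg (hfnn e))) hSn
      (fun i => ?_) ?_ fun e he i hi hmin => ?_
    · have h3 := h1 i
      have h4 : ∑ e, (if i ∈ (D.bx e).S then X.dg i / cd D e else 0) *
          (X.c e * ∏ j ∈ (D.bx e).S, hf X e j (z j)) =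
          X.dg i * ∑ e, (if i ∈ (D.bx e).S then T e / (((D.bx e).S.card : ℕ) : ℝ) else 0) := by
        rw [mul_sum]
        refine sum_congr rfl fun e _ => ?_
        split_ifs
        · simp only [hT, cd]; ring
        · ring
      rw [h4] at h3
      exact mul_left_cancel₀ (hdpos i).ne' h3
    · obtain ⟨i, hi⟩ : ∃ i, z i ≠ 0 := by
        by_contra h
        push Not at h
        exact hz (funext h)
      exact ⟨i, (h2 i hi).1.ne'⟩
    · -- all variables of the box are active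
      have hprod : 0 < ∏ j ∈ (D.bx e).S, hf X e j (z j) := by
        rcases (prod_nonneg (hfnn e)).eq_or_lt with h3 | h3
        · simp only [hT] at he
          rw [← h3, mul_zero] at he
          exact absurd he (lt_irrefl _)
        · exact h3
      have hne : ∀ j ∈ (D.bx e).S, hf X e j (z j) ≠ 0 := fun j hj h3 =>
        hprod.ne' (prod_eq_zero hj h3)
      have hzj : ∀ j ∈ (D.bx e).S, z j ≠ 0 := fun j hj h3 => by
        apply hne j hj
        rw [h3]
        exact pol_zero (div_pos (hdpos j) (hcd e)).ne' _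
      have hval : ∀ j ∈ (D.bx e).S, hf X e j (z j) =
          (Pj X j (z j)).re ^ (1 / (((D.bx e).S.card : ℕ) : ℝ)) := by
        intro j hj
        have hzz := hzj j hj
        rcases halt j hzz with h3 | ⟨-, h3⟩
        · exact absurd (h2 j hzz).1 (not_lt.2 h3.le)
        · have h4 : hf X e j (z j) = ‖z j‖ ^ (X.dg j / cd D e) *
              X.lam e j (Complex.arg (z j)) := rfl
          rcases (win_arc (hX.arcs j) (hX.lam e j hj) h3).1 with h5 | h5
          · exact absurd (by rw [h4, h5, mul_zero]) (hne j hj)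
          · rw [h4, h5, mul_one, hr j, ← Real.rpow_mul (norm_nonneg _)]
            congr 1
            unfold cd
            ring
      have h3 : (Pj X i (z i)).re ≤ ∏ j ∈ (D.bx e).S, hf X e j (z j) := by
        rw [prod_congr rfl hval]
        exact gm_ge (hSn e) (h2 i (hzj i hi)).1.le hmin
      have h4 := (h2 i (hzj i hi)).1
      have h5 := hX.hc e
      show (((D.bx e).S.card : ℕ) : ℝ) * (Pj X i (z i)).re < X.c e * _
      have h6 : (((D.bx e).S.card : ℕ) : ℝ) * (Pj X i (z i)).re < X.c e * (Pj X i (z i)).re :=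
        mul_lt_mul_of_pos_right h5 h4
      have h7 := mul_le_mul_of_nonneg_left h3 ((hcd e).trans h5).le
      linarith

/-- weights -/
theorem pd_wh {X : PD D} (hX : X.Ok) : WH (fun j => (X.dg j)⁻¹) X.fn := by
  have hdpos : ∀ j, 0 < X.dg j := fun j => by have := hX.hdg j; linarith
  rw [fn_eq]
  refine wh_lobB hdpos (fun j => Pj_ph X j) fun s x => ?_
  unfold boxB
  rw [mul_sum]
  refine sum_congr rfl fun e _ => ?_
  have hcd : 0 < cd D e := by have := cd_two D e; linarith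
  have h1 : ∀ j ∈ (D.bx e).S, hf X e j (Cone_808.act (fun i => (X.dg i)⁻¹) s x j) =
      Real.exp (s / cd D e) * hf X e j (x j) := by
    intro j _
    have h2 := pol_hom (X.dg j / cd D e) (X.lam e j) (Real.exp (s * (X.dg j)⁻¹)) (Real.exp_pos _)
      (x j)
    show pol (X.dg j / cd D e) (X.lam e j) ((Real.exp (s * (X.dg j)⁻¹) : ℂ) * x j) = _
    rw [h2, ← Real.exp_mul, smul_eq_mul]
    congr 2
    have := (hdpos j).ne'
    field_simp
  rw [prod_congr rfl h1, prod_mul_distrib, prod_const, ← Real.exp_nat_mul]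
  have h3 : (((D.bx e).S.card : ℕ) : ℝ) * (s / cd D e) = s := by
    unfold cd at hcd ⊢
    field_simp
  rw [h3]
  ring

/-! ### segments -/

/-- the segment between two polar data -/
def sg (X Y : PD D) (t : ℝ) : PD D :=
  { X with
    ph := fun j x => (1 - t) * X.ph j x + t * Y.ph j x
    c := fun e => (1 - t) * X.c e + t * Y.c e
    lam := fun e j x => (1 - t) * X.lam e j x + t * Y.lam e j x }

theorem wrd_aff {e : ℕ → ℝ} {M : ℕ} {a b : ℕ → ℝ} {φ ψ : ℝ → ℝ} (h : Wrd e M a b φ)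
    (h' : Wrd e M a b ψ) {t : ℝ} (ht : t ∈ Icc (0 : ℝ) 1) :
    Wrd e M a b fun x => (1 - t) * φ x + t * ψ x where
  smooth := (contDiff_const.mul h.smooth).add (contDiff_const.mul h'.smooth)
  per x := by
    show (1 - t) * φ (x + 2 * Real.pi) + t * ψ (x + 2 * Real.pi) = _
    rw [h.per, h'.per]
    ring
  arc i hi x h1 h2 := by
    obtain ⟨h3, h4⟩ := h.arc i hi x h1 h2
    obtain ⟨h5, h6⟩ := h'.arc i hi x h1 h2
    have ht1 : 0 ≤ 1 - t := by linarith [ht.2]
    refine ⟨?_, ?_⟩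
    · have e1 : (1 - t) * φ x + t * ψ x - cen e i =
          (1 - t) * (φ x - cen e i) + t * (ψ x - cen e i) := by ring
      rw [e1]
      calc |(1 - t) * (φ x - cen e i) + t * (ψ x - cen e i)|
          ≤ |(1 - t) * (φ x - cen e i)| + |t * (ψ x - cen e i)| := abs_add_le _ _
        _ = (1 - t) * |φ x - cen e i| + t * |ψ x - cen e i| := by
            rw [abs_mul, abs_mul, abs_of_nonneg ht1, abs_of_nonneg ht.1]
        _ ≤ (1 - t) * (Real.pi / 2) + t * (Real.pi / 2) := add_le_add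
            (mul_le_mul_of_nonneg_left h3 ht1) (mul_le_mul_of_nonneg_left h5 ht.1)
        _ = Real.pi / 2 := by ring
    · have h7 : HasDerivAt φ (deriv φ x) x :=
        ((h.smooth.differentiable (by norm_num)) x).hasDerivAt
      have h8 : HasDerivAt ψ (deriv ψ x) x :=
        ((h'.smooth.differentiable (by norm_num)) x).hasDerivAt
      have h9 : deriv (fun x => (1 - t) * φ x + t * ψ x) x = (1 - t) * deriv φ x + t * deriv ψ x :=
        ((h7.const_mul (1 - t)).add (h8.const_mul t)).deriv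
      rw [h9]
      have := PathP_951.aff_pos h4 h6 ht
      calc 0 < (1 - t) * (se e i * deriv φ x) + t * (se e i * deriv ψ x) := this
        _ = _ := by ring
  gap i hi x h1 h2 := by
    have h3 := h.gap i hi x h1 h2
    have h5 := h'.gap i hi x h1 h2
    have ht1 : 0 ≤ 1 - t := by linarith [ht.2]
    have e1 : (1 - t) * φ x + t * ψ x - (cen e i + Real.pi * se e i) =
        (1 - t) * (φ x - (cen e i + Real.pi * se e i)) +
          t * (ψ x - (cen e i + Real.pi * se e i)) := by ring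
    rw [e1]
    calc |(1 - t) * (φ x - (cen e i + Real.pi * se e i)) +
          t * (ψ x - (cen e i + Real.pi * se e i))|
        ≤ |(1 - t) * (φ x - (cen e i + Real.pi * se e i))| +
          |t * (ψ x - (cen e i + Real.pi * se e i))| := abs_add_le _ _
      _ = (1 - t) * |φ x - (cen e i + Real.pi * se e i)| +
          t * |ψ x - (cen e i + Real.pi * se e i)| := by
          rw [abs_mul, abs_mul, abs_of_nonneg ht1, abs_of_nonneg ht.1]
      _ < Real.pi / 2 := by
          have := PathP_951.aff_pos (sub_pos.2 h3) (sub_pos.2 h5) ht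
          linarith

theorem win_aff {M : ℕ} {a b : ℕ → ℝ} {lo hi : ℕ} {l l' : ℝ → ℝ} (h : WinA M a b lo hi l)
    (h' : WinA M a b lo hi l') {t : ℝ} (ht : t ∈ Icc (0 : ℝ) 1) :
    WinA M a b lo hi fun x => (1 - t) * l x + t * l' x where
  smooth := (contDiff_const.mul h.smooth).add (contDiff_const.mul h'.smooth)
  per x := by
    show (1 - t) * l (x + 2 * Real.pi) + t * l' (x + 2 * Real.pi) = _
    rw [h.per, h'.per]
  nn x := add_nonneg (mul_nonneg (by linarith [ht.2]) (h.nn x)) (mul_nonneg ht.1 (h'.nn x))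
  le x := by
    have h1 := mul_le_mul_of_nonneg_left (h.le x) (show 0 ≤ 1 - t by linarith [ht.2])
    have h2 := mul_le_mul_of_nonneg_left (h'.le x) ht.1
    show (1 - t) * l x + t * l' x ≤ 1
    linarith
  val i hi x h1 h2 := by
    show (1 - t) * l x + t * l' x = _
    rw [h.val i hi x h1 h2, h'.val i hi x h1 h2]
    ring

theorem sg_ok {X Y : PD D} (hX : X.Ok) (hY : Y.Ok) (ha : X.a = Y.a) (hb : X.b = Y.b) {t : ℝ}
    (ht : t ∈ Icc (0 : ℝ) 1) : (sg X Y t).Ok where
  hdg := hX.hdg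
  hdg2 := hX.hdg2
  arcs := hX.arcs
  ph j := by
    have h1 := hY.ph j
    rw [← ha, ← hb] at h1
    exact wrd_aff (hX.ph j) h1 ht
  hc e := PathP_951.aff_gt (hX.hc e) (hY.hc e) ht
  lam e j hj := by
    have h1 := hY.lam e j hj
    rw [← ha, ← hb] at h1
    exact win_aff (hX.lam e j hj) h1 ht

theorem sg_zero (X Y : PD D) : (sg X Y 0).fn = X.fn := by
  have h1 : sg X Y 0 = X := by
    unfold sg
    simp
  rw [h1]

theorem sg_one (X Y : PD D) (hdg : X.dg = Y.dg) : (sg X Y 1).fn = Y.fn := by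
  funext z
  unfold PD.fn sg
  simp [hdg]

theorem sg_smooth {X Y : PD D} (hX : X.Ok) (hY : Y.Ok) (S : Set (Fin N → ℂ)) :
    ContDiffOn ℝ 2 (fun p : ℝ × (Fin N → ℂ) => (sg X Y p.1).fn p.2) (univ ×ˢ S) := by
  have hP : ∀ j, ContDiffOn ℝ 2 (fun p : ℝ × ℂ => Pj (sg X Y p.1) j p.2)
      ((univ : Set ℝ) ×ˢ (univ : Set ℂ)) := by
    intro j
    refine PathP_951.contDiffOn_polT isOpen_univ (D := fun _ => X.dg j) contDiff_const
      (fun _ _ => hX.hdg j)
      (q := fun p => ((1 : ℝ) : ℂ) * cis ((1 - p.1) * X.ph j p.2 + p.1 * Y.ph j p.2))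
      (fun t => ?_) ?_
    · -- period
      obtain ⟨n, hn⟩ := tot_int (sn_pm D j) (D.M j)
      intro x
      show ((1 : ℝ) : ℂ) * cis ((1 - t) * X.ph j (x + 2 * Real.pi) +
        t * Y.ph j (x + 2 * Real.pi)) = ((1 : ℝ) : ℂ) * cis ((1 - t) * X.ph j x + t * Y.ph j x)
      rw [(hX.ph j).per, (hY.ph j).per, hn]
      rw [show (1 - t) * (X.ph j x + 2 * Real.pi * n) + t * (Y.ph j x + 2 * Real.pi * n) =
        ((1 - t) * X.ph j x + t * Y.ph j x) + 2 * Real.pi * n by ring, cis_per]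
    · exact contDiff_const.mul (contDiff_cis.comp
        (PathP_951.cd_aff2 (hX.ph j).smooth (hY.ph j).smooth))
  have hh : ∀ e, ∀ j ∈ (D.bx e).S, ContDiffOn ℝ 2 (fun p : ℝ × ℂ => hf (sg X Y p.1) e j p.2)
      ((univ : Set ℝ) ×ˢ (univ : Set ℂ)) := by
    intro e j hj
    refine PathP_951.contDiffOn_polT isOpen_univ (D := fun _ => X.dg j / cd D e) contDiff_const
      (fun _ _ => hf_dg hX hj)
      (q := fun p => (1 - p.1) * X.lam e j p.2 + p.1 * Y.lam e j p.2)
      (fun t x => ?_) (PathP_951.cd_aff2 (hX.lam e j hj).smooth (hY.lam e j hj).smooth)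
    show (1 - t) * X.lam e j (x + 2 * Real.pi) + t * Y.lam e j (x + 2 * Real.pi) = _
    rw [(hX.lam e j hj).per, (hY.lam e j hj).per]
  have h1 : ContDiffOn ℝ 2 (fun p : ℝ × (Fin N → ℂ) => ∑ j, Pj (sg X Y p.1) j (p.2 j))
      (univ ×ˢ S) := ContDiffOn.sum fun j _ => contDiffOn_coord (hP j) j
  have h2 : ContDiffOn ℝ 2 (fun p : ℝ × (Fin N → ℂ) => ∑ e, ((1 - p.1) * X.c e + p.1 * Y.c e) *
      ∏ j ∈ (D.bx e).S, hf (sg X Y p.1) e j (p.2 j)) (univ ×ˢ S) := by
    refine ContDiffOn.sum fun e _ => ContDiffOn.mul ?_ ?_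
    · exact ((PathP_951.cd_aff (X.c e) (Y.c e)).comp contDiff_fst).contDiffOn
    · exact contDiffOn_prod fun j hj => contDiffOn_coord (hh e j hj) j
  exact h1.sub (Complex.ofRealCLM.contDiff.comp_contDiffOn h2)

/-- **GLN-SEG** -/
theorem segP (D : SD N) : SegP D := by
  intro X Y hX hY hdg ha hb
  have h1 : HPath0 (fun p : ℝ × (Fin N → ℂ) => (sg X Y p.1).fn p.2) := by
    have h2 : ∀ t ∈ Icc (0 : ℝ) 1, ∃ w : Fin N → ℝ, (∀ i, 0 < w i) ∧
        WH w (fun x => (sg X Y t).fn x) := fun t ht =>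
      ⟨fun j => ((sg X Y t).dg j)⁻¹, fun j => inv_pos.2 (by
        have := (sg_ok hX hY ha hb ht).hdg j; linarith), pd_wh (sg_ok hX hY ha hb ht)⟩
    have h3 : ∀ t ∈ Icc (0 : ℝ) 1, ∀ x : Fin N → ℂ, x ≠ 0 → (sg X Y t).fn x = 0 →
        Function.Surjective (fderiv ℝ (fun z => (sg X Y t).fn z) x) := fun t ht x hx h0 =>
      pd_reg (sg_ok hX hY ha hb ht) hx (by rw [h0]; exact le_rfl)
    exact HPath0.of_slices (F := fun p : ℝ × (Fin N → ℂ) => (sg X Y p.1).fn p.2) isOpen_univ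
      (subset_univ _) (sg_smooth hX hY _) h2 h3
  have h4 : ZEq (fun x => (sg X Y 0).fn x) (fun x => (sg X Y 1).fn x) := h1.link
  have e0 : (fun x => (sg X Y 0).fn x) = X.fn := sg_zero X Y
  have e1 : (fun x => (sg X Y 1).fn x) = Y.fn := sg_one X Y hdg
  rwa [e0, e1] at h4

end Reg

end Crest.Agent.R267.SegN_951
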