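import Crest.Agent.R267.GlNDefs_9
import Crest.Agent.R267.GlBas_322
import Crest.Agent.R267.T3aNBas_277
import Crest.Agent.R267.Gl2_322
import Crest.Agent.R267.GlLift_125
import Crest.Agent.R267.GlnPl_984
import Crest.Agent.R267.AngB_739
import Crest.Agent.R267.SegN_951

-- ▼ part R267/GlnBas_9
section

/-!
# Row 267 (helper9): GLUE-N, basic facts and `GL2P` from its pieces (port of GlBas_322, Gl2_322)
-/

set_option autoImplicit false

noncomputable section

open Finset Set
open Crest.Agent.R267.T3aDefs_957 (st Af Bf pg NN chi)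
open Crest.Agent.R267.T3aDefs_957.LD (Ev vt vs)
open Crest.Agent.R267.T3aNDefs_88 Crest.Agent.R267.Hm_951 Crest.Agent.R267.Ang_739
open Crest.Agent.R267.Cone_808
open Crest.Agent.R267.GlueDefs_322 (rho Prf Xe OpenP)
open Crest.Agent.R267.GlBas_322 (NN_pos NN_zero NN_nonneg pg_nonneg pg_pos pg_zero prf_pow prf_Xe
  Xe_zero)
open Crest.Agent.R267.GlNDefs_9

namespace Crest.Agent.R267.GlnBas_9

/-! ### slopes -/

variable {N : ℕ} (D : SD N)

theorem M_le_Mx (j : Fin N) : D.M j ≤ D.Mx := by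
  unfold SD.Mx
  exact Finset.single_le_sum (f := fun j => D.M j) (fun _ _ => Nat.zero_le _) (Finset.mem_univ j)

theorem le_K (j : Fin N) : 16 * (D.M j : ℝ) + 2 ≤ D.K := by
  have hN : 1 ≤ N := Nat.one_le_of_lt (Fin.pos j)
  have hN' : (1 : ℝ) ≤ N := by exact_mod_cast hN
  have h1 : (D.M j : ℝ) ≤ D.Mx := by exact_mod_cast M_le_Mx D j
  have h2 : (0 : ℝ) ≤ D.Mx := Nat.cast_nonneg _
  have h3 : 16 * (D.Mx : ℝ) + 2 ≤ D.K1 := by
    unfold SD.K1
    nlinarith
  have h4 : D.K1 ≤ D.K := by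
    unfold SD.K
    have : 0 ≤ D.K1 := T3aNBas_277.K1_nonneg D
    nlinarith
  linarith

theorem std_K (h : ∀ e, cd D e ≤ 3) : Std D D.K := ⟨h, le_K D⟩

/-! ### homogeneity -/

theorem plN_zero (ga : ℝ) (e : ℕ → ℝ) (M : ℕ) : plN ga e M 0 = 0 := by
  simp [plN]

theorem plN_real_smul {ga : ℝ} {e : ℕ → ℝ} {M : ℕ} {r : ℝ} (hr : 0 < r) (z : ℂ) :
    plN ga e M (r • z) = r • plN ga e M z := by
  rw [Complex.real_smul, T3aNBas_277.plN_smul hr, Complex.real_smul]

theorem xr_smul {r : ℝ} (hr : 0 < r) (z : Fin N → ℂ) (j : Fin N) :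
    D.xr (r • z) j = D.xr z j := by
  unfold SD.xr
  rw [GlBas_322.NN_smul hr, Pi.smul_apply, GlBas_322.pg_real_smul hr]
  exact mul_div_mul_left _ _ hr.ne'


theorem Rx_smul (X : ℝ → ℝ) {r : ℝ} (hr : 0 < r) (z : Fin N → ℂ) (j : Fin N) :
    Rx D X (r • z) j = r * Rx D X z j := by
  unfold Rx
  rw [xr_smul D hr, Pi.smul_apply, Complex.real_smul, Complex.re_ofReal_mul]
  have : max 0 (r * (z j).re) = r * max 0 (z j).re := by
    rw [mul_max_of_nonneg _ _ hr.le, mul_zero]
  rw [this]
  ring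

theorem tau_smul {r : ℝ} (hr : 0 < r) (z : Fin N → ℂ) (j : Fin N) :
    ((r • z) j).im / ((r • z) j).re = (z j).im / (z j).re := by
  rw [Pi.smul_apply, Complex.real_smul, Complex.re_ofReal_mul, Complex.im_ofReal_mul]
  exact mul_div_mul_left _ _ hr.ne'

theorem Bx_smul (X : ℝ → ℝ) {r : ℝ} (hr : 0 < r) (e : Fin D.nb) (z : Fin N → ℂ) :
    Bx D X e (r • z) = r * Bx D X e z := by
  unfold Bx
  have h1 : Rx D X (r • z) = fun j => r * Rx D X z j := by
    funext j
    exact Rx_smul D X hr z j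
  rw [h1, T3aNBas_277.Hm_smul _ _ hr]
  simp only [tau_smul hr]
  ring

theorem Gx_smul (X : ℝ → ℝ) (cB ga : ℝ) {r : ℝ} (hr : 0 < r) (z : Fin N → ℂ) :
    Gx D X cB ga (r • z) = r • Gx D X cB ga z := by
  unfold Gx
  have h1 : ∀ j, (X (D.xr (r • z) j) : ℂ) * plN ga (D.sn j) (D.M j) ((r • z) j) =
      (r : ℂ) * ((X (D.xr z j) : ℂ) * plN ga (D.sn j) (D.M j) (z j)) := by
    intro j
    rw [xr_smul D hr, Pi.smul_apply, plN_real_smul hr, Complex.real_smul]
    ring
  simp only [h1, Bx_smul D X hr, ← Finset.mul_sum, Complex.real_smul]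
  push_cast
  ring

theorem box_nonempty (e : Fin D.nb) : (D.bx e).S.Nonempty := by
  rw [← Finset.card_pos]
  exact lt_of_lt_of_le two_pos (D.h2 e)

/-- `F8N = NN⁷ Gx (x⁷)` -/
theorem F8N_eq (cB ga : ℝ) (z : Fin N → ℂ) :
    F8N D D.K cB ga z = ((NN D.K1 z ^ 7 : ℝ) : ℂ) * Gx D (fun x => x ^ 7) cB ga z := by
  by_cases hz : z = 0
  · subst hz
    have h1 : ∀ j, P8N D.K ga (D.sn j) (D.M j) ((0 : Fin N → ℂ) j) = 0 := by
      intro j
      unfold P8N
      rw [Pi.zero_apply, plN_zero, mul_zero]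
    have h2 : ∀ e : Fin D.nb, Hm (D.bx e).S (fun j => rho D.K ((0 : Fin N → ℂ) j)) = 0 := by
      intro e
      obtain ⟨j, hj⟩ := box_nonempty D e
      refine T3aNBas_277.Hm_eq_zero hj ?_
      unfold rho
      simp
    unfold F8N
    simp only [h1, h2]
    rw [NN_zero]
    simp
  · have hN : 0 < NN D.K1 z := NN_pos hz
    have hx : ∀ j, pg D.K (z j) = D.xr z j * NN D.K1 z := by
      intro j
      unfold SD.xr
      rw [div_mul_cancel₀ _ hN.ne']
    have h1 : ∀ j, P8N D.K ga (D.sn j) (D.M j) (z j) =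
        ((NN D.K1 z ^ 7 : ℝ) : ℂ) *
          (((D.xr z j ^ 7 : ℝ) : ℂ) * plN ga (D.sn j) (D.M j) (z j)) := by
      intro j
      unfold P8N
      rw [hx, mul_pow]
      push_cast
      ring
    have h3 : (fun j => rho D.K (z j)) =
        fun j => NN D.K1 z ^ 7 * Rx D (fun x => x ^ 7) z j := by
      funext j
      unfold rho Rx
      rw [hx, mul_pow]
      ring
    have h2 : ∀ e : Fin D.nb, Hm (D.bx e).S (fun j => rho D.K (z j)) *
        ∏ j ∈ (D.bx e).S, winN ((D.bx e).lo j) ((D.bx e).hi j) ((z j).im / (z j).re) =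
        NN D.K1 z ^ 7 * Bx D (fun x => x ^ 7) e z := by
      intro e
      unfold Bx
      rw [h3, T3aNBas_277.Hm_smul _ _ (pow_pos hN 7), mul_assoc]
    unfold F8N Gx
    simp only [h1, h2, ← Finset.mul_sum]
    push_cast
    ring

theorem zeq_F8N (cB ga : ℝ) : ZEq (F8N D D.K cB ga) (Gx D (fun x => x ^ 7) cB ga) := by
  refine ⟨Homeomorph.refl _, fun s => ?_⟩
  have hs : (s : Fin N → ℂ) ≠ 0 := by
    intro h
    have h1 := s.2
    have h2 : nsq (s : Fin N → ℂ) = 1 := h1
    rw [h, show nsq (0 : Fin N → ℂ) = 0 from nsq_eq_zero.2 rfl] at h2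
    exact zero_ne_one h2
  show F8N D D.K cB ga s = 0 ↔ Gx D (fun x => x ^ 7) cB ga s = 0
  rw [F8N_eq]
  have h2 : ((NN D.K1 (s : Fin N → ℂ) ^ 7 : ℝ) : ℂ) ≠ 0 := by
    exact_mod_cast (pow_pos (NN_pos hs) 7).ne'
  exact ⟨fun h => (mul_eq_zero.1 h).resolve_left h2, fun h => by rw [h, mul_zero]⟩

/-- **GL2N from its pieces** -/
theorem gl2 (hS : D.Smooth) (h1 : D.K1Prop) (h2 : D.K2Prop) (hH : HomeoP D) (hC : C2P D)
    (hT : ContP D) (hO : OpenP) : GL2P D := by
  refine T3aDefs_957.LD.Ev.mono (T3aDefs_957.LD.Ev.and hS (T3aDefs_957.LD.Ev.and h1 h2))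
    fun c g d _ _ hd ⟨hs, hk1, hk2⟩ => ?_
  have e0 : Gx D (Xe d 0) c g = D.G c g d := by rw [Xe_zero]; rfl
  obtain ⟨hc0, hc1⟩ := hT c g d hd hs
  obtain ⟨η, hη, hz⟩ := hO N (fun η => Gx D (Xe d η) c g)
    (fun η _ r hr z => Gx_smul D _ _ _ hr z)
    (fun η hη => by
      rcases hη.lt_or_eq with h | h
      · exact hC c g d η hd h
      · rw [← h, e0]; exact hs)
    hc0 hc1
    (fun z hz0 hz1 => by
      rw [e0] at hz1 ⊢
      obtain ⟨Y, hY⟩ := hk1 z hz0 (by rw [hz1]; rfl) (by rw [hz1]; exact le_rfl)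
      obtain ⟨a, Y', -, ha1, ha2⟩ := hk2 z hz0 hz1
      exact Gl2_322.surj_of_two (fderiv ℝ (D.G c g d) z : (Fin N → ℂ) →ₗ[ℝ] ℂ) ha1 ha2 hY)
  have hz' : ZEq (D.G c g d) (Gx D (Xe d η) c g) := by
    rw [← e0]
    exact hz
  exact (zeq_F8N D c g).trans ((hH _ prf_pow c g).trans ((hH _ (prf_Xe hd hη) c g).symm.trans
    hz'.symm))

/-- **GLUE-N from its pieces** -/
theorem glu (hStar : StarP D) (hLine : LineP D) (hG : GL2P D) : GluP D := by
  intro h3 X hX
  refine T3aDefs_957.LD.Ev.mono (T3aDefs_957.LD.Ev.and hG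
    (Q := fun c g _ => 9 < c ∧ g ≤ 1 / 8) ⟨10, by norm_num, fun c hc => ⟨1 / 8, by norm_num,
      fun g _ hg => ⟨1, one_pos, fun d _ _ => ⟨by linarith, hg⟩⟩⟩⟩)
    fun c g d hc hg _ ⟨hz, hc9, hg8⟩ => ?_
  have hs := std_K D h3
  have h1 := hStar D.K g hs hg hg8 X hX
  have h2 := (hLine D.K g c hs hg hg8 hc9).link
  have e1 : (fun x : Fin N → ℂ => (1 - (0 : ℝ)) • FSN D D.K g 4 x + (0 : ℝ) • F8N D D.K c g x) =
      FSN D D.K g 4 := by
    funext x; simp
  have e2 : (fun x : Fin N → ℂ => (1 - (1 : ℝ)) • FSN D D.K g 4 x + (1 : ℝ) • F8N D D.K c g x) =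
      F8N D D.K c g := by
    funext x; simp
  simp only at h2
  rw [e1, e2] at h2
  exact h1.trans (h2.trans hz)

end Crest.Agent.R267.GlnBas_9
end
end

-- ▼ part R267/GlnLift_9
section

/-!
# Row 267 (helper9): GLN-LIFT, phase, arcs and windows of `plN`
-/

set_option autoImplicit false

noncomputable section

open Finset Filter Topology
open Crest.Agent.R267.T3aDefs_957 (st Af Bf)
open Crest.Agent.R267.T3aNDefs_88 Crest.Agent.R267.GlNDefs_9 Crest.Agent.R267.Ang_739
open Crest.Agent.R267.Calc_957 Crest.Agent.R267.CalcN_88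
open Crest.Agent.R267.GlLift_125 (cr cis_re cis_im cis_ne cis_eq_one)

namespace Crest.Agent.R267.GlnLift_9

/-! ### the width of a lobe -/

theorem Af_anti {v w : ℝ} (h : |v| ≤ |w|) : Af w ≤ Af v := by
  unfold Af
  have := st_mono (show (|v| - 1) / 2 ≤ (|w| - 1) / 2 by linarith)
  linarith

theorem st_strict {x y : ℝ} (h0 : 0 ≤ x) (h1 : x < 1) (h : x < y) : st x < st y := by
  rcases le_or_gt 1 y with hy | hy
  · rw [st_of_ge hy]
    exact st_lt_one h1
  · have hm : StrictMonoOn st (Set.Icc 0 1) := by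
      refine strictMonoOn_of_deriv_pos (convex_Icc 0 1) contDiff_st.continuous.continuousOn ?_
      intro z hz
      rw [interior_Icc] at hz
      rw [(hasDerivAt_st z).deriv]
      exact std_pos hz.1 hz.2
    exact hm ⟨h0, h1.le⟩ ⟨by linarith, hy.le⟩ h

theorem exists_v0 {ga : ℝ} (h0 : 0 < ga) (h8 : ga ≤ 1 / 8) : ∃ v0 : ℝ, 1 < v0 ∧ v0 < 2 ∧
    Af v0 = 1 - ga ∧
    (∀ v, |v| ≤ v0 → 0 ≤ -(1 - ga) + Af v) ∧ (∀ v, v0 < |v| → -(1 - ga) + Af v < 0) := by
  have hc : ContinuousOn Af (Set.Icc 1 2) := contDiff_Af.continuous.continuousOn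
  have h1 : Af 1 = 1 := Af_of_le (by norm_num)
  have h2 : Af 2 ≤ 0 := by
    unfold Af
    have : (1 : ℝ) / 2 ≤ st ((|2| - 1) / 2) := by
      rw [show ((|2| : ℝ) - 1) / 2 = 1 / 2 by norm_num,
        GlLift_125.st_mem (by norm_num) (by norm_num)]
      norm_num
    linarith
  have hm : 1 - ga ∈ Set.Icc (Af 2) (Af 1) := by
    rw [h1]
    constructor <;> linarith
  obtain ⟨v0, hv, hv'⟩ := intermediate_value_Icc' (by norm_num : (1 : ℝ) ≤ 2) hc hm
  have hv1 : 1 < v0 := by
    rcases eq_or_lt_of_le hv.1 with h | h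
    · rw [← h, h1] at hv'
      linarith
    · exact h
  have hv2 : v0 < 2 := by
    rcases eq_or_lt_of_le hv.2 with h | h
    · rw [h] at hv'
      linarith
    · exact h
  refine ⟨v0, hv1, hv2, hv', fun v hvv => ?_, fun v hvv => ?_⟩
  · have := Af_anti (v := v) (w := v0) (by rwa [abs_of_pos (by linarith : 0 < v0)])
    linarith
  · have h3 : st ((v0 - 1) / 2) < st ((|v| - 1) / 2) :=
      st_strict (by linarith) (by linarith) (by linarith)
    have h4 : Af v0 = 1 - 2 * st ((v0 - 1) / 2) := by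
      unfold Af
      rw [abs_of_pos (by linarith : 0 < v0)]
    have h5 : Af v = 1 - 2 * st ((|v| - 1) / 2) := rfl
    linarith

/-! ### continuity arguments -/

/-- boundary values -/
theorem bd {y c s : ℝ} {n : ℤ} (hc : c = 2 * Real.pi * n) (h : |y - c| ≤ Real.pi / 2)
    (h0 : Real.cos y = 0) (hs : s = 1 ∨ s = -1) (h1 : 0 < s * Real.sin y) :
    y = c + s * (Real.pi / 2) := by
  have hpi := Real.pi_pos
  have e1 : Real.cos y = Real.cos (y - c) := by
    rw [hc, show y - 2 * Real.pi * n = y - n * (2 * Real.pi) by ring, Real.cos_sub_int_mul_two_pi]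
  have e2 : Real.sin y = Real.sin (y - c) := by
    rw [hc, show y - 2 * Real.pi * n = y - n * (2 * Real.pi) by ring, Real.sin_sub_int_mul_two_pi]
  rw [e1] at h0
  rw [e2] at h1
  obtain ⟨h2, h3⟩ := abs_le.1 h
  have h4 : |y - c| = Real.pi / 2 := by
    by_contra h5
    have h6 : |y - c| < Real.pi / 2 := lt_of_le_of_ne h h5
    obtain ⟨h7, h8⟩ := abs_lt.1 h6
    have := Real.cos_pos_of_mem_Ioo ⟨h7, h8⟩
    linarith
  rcases (abs_eq (by positivity)).1 h4 with h5 | h5
  · rw [h5, Real.sin_pi_div_two] at h1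
    rcases hs with hs | hs
    · rw [hs]; linarith
    · rw [hs] at h1; linarith
  · rw [h5, Real.sin_neg, Real.sin_pi_div_two] at h1
    rcases hs with hs | hs
    · rw [hs] at h1; linarith
    · rw [hs]; linarith

/-- boundary values, odd centre -/
theorem bd' {y c s : ℝ} {n : ℤ} (hc : c = 2 * Real.pi * n + Real.pi) (h : |y - c| ≤ Real.pi / 2)
    (h0 : Real.cos y = 0) (hs : s = 1 ∨ s = -1) (h1 : 0 < s * Real.sin y) :
    y = c - s * (Real.pi / 2) := by
  have h2 := bd (y := y - Real.pi) (c := c - Real.pi) (s := -s) (n := n) (by rw [hc]; ring)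
    (by rwa [show y - Real.pi - (c - Real.pi) = y - c by ring])
    (by rw [Real.cos_sub_pi, h0, neg_zero]) (by rcases hs with h | h <;> rw [h] <;> norm_num)
    (by rw [Real.sin_sub_pi]; linarith)
  linarith

/-- an arc entered at its end -/
theorem arcE {φ : ℝ → ℝ} (hφ : Continuous φ) {a x c s : ℝ} {n : ℤ} (hc : c = 2 * Real.pi * n)
    (hs : s = 1 ∨ s = -1) (ha : φ a = c - s * (Real.pi / 2)) (hax : a ≤ x)
    (hp : ∀ y, a ≤ y → y ≤ x → 0 ≤ Real.cos (φ y)) : |φ x - c| ≤ Real.pi / 2 := by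
  have hpi := Real.pi_pos
  have hcos : ∀ y, Real.cos y = Real.cos (y - c) := fun y => by
    rw [hc, show y - 2 * Real.pi * n = y - n * (2 * Real.pi) by ring, Real.cos_sub_int_mul_two_pi]
  have ha' : |φ a - c| ≤ Real.pi / 2 := by
    rw [ha]
    rcases hs with h | h <;> rw [h, abs_le] <;> constructor <;> linarith
  obtain ⟨ha1, ha2⟩ := abs_le.1 ha'
  by_contra h
  push Not at h
  rcases lt_abs.1 h with h1 | h1
  · -- `φ x > c + π / 2`
    have hmem : min (φ x) (c + Real.pi) ∈ Set.Icc (φ a) (φ x) :=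
      ⟨le_min (by linarith) (by linarith), min_le_left _ _⟩
    obtain ⟨y, hy, hy'⟩ := intermediate_value_Icc hax hφ.continuousOn hmem
    have h2 := hp y hy.1 hy.2
    rw [hcos, hy'] at h2
    have h3 : Real.pi / 2 < min (φ x) (c + Real.pi) - c := by
      rw [lt_sub_iff_add_lt]
      exact lt_min (by linarith) (by linarith)
    have h4 : min (φ x) (c + Real.pi) - c < Real.pi + Real.pi / 2 := by
      have := min_le_right (φ x) (c + Real.pi)
      linarith
    have := Real.cos_neg_of_pi_div_two_lt_of_lt h3 h4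
    linarith
  · have hmem : max (φ x) (c - Real.pi) ∈ Set.Icc (φ x) (φ a) :=
      ⟨le_max_left _ _, max_le (by linarith) (by linarith)⟩
    obtain ⟨y, hy, hy'⟩ := intermediate_value_Icc' hax hφ.continuousOn hmem
    have h2 := hp y hy.1 hy.2
    rw [hcos, hy', ← Real.cos_neg] at h2
    have h3 : Real.pi / 2 < -(max (φ x) (c - Real.pi) - c) := by
      have : max (φ x) (c - Real.pi) < c - Real.pi / 2 := max_lt (by linarith) (by linarith)
      linarith
    have h4 : -(max (φ x) (c - Real.pi) - c) < Real.pi + Real.pi / 2 := by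
      have := le_max_right (φ x) (c - Real.pi)
      linarith
    have := Real.cos_neg_of_pi_div_two_lt_of_lt h3 h4
    linarith

/-- a gap, entered from its left end -/
theorem gapE {φ : ℝ → ℝ} (hφ : Continuous φ) {b x c s : ℝ} {n : ℤ} (hc : c = 2 * Real.pi * n)
    (hs : s = 1 ∨ s = -1) (hb : φ b = c + s * (Real.pi / 2)) (hbx : b < x)
    (hp : ∀ y, b < y → y ≤ x → Real.cos (φ y) < 0) :
    |φ x - (c + Real.pi * s)| < Real.pi / 2 := by
  have hpi := Real.pi_pos
  have hcos : ∀ y, Real.cos y = Real.cos (s * (y - c)) := fun y => by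
    rcases hs with h | h
    · rw [h, one_mul, hc, show y - 2 * Real.pi * n = y - n * (2 * Real.pi) by ring,
        Real.cos_sub_int_mul_two_pi]
    · rw [h, neg_one_mul, Real.cos_neg, hc,
        show y - 2 * Real.pi * n = y - n * (2 * Real.pi) by ring, Real.cos_sub_int_mul_two_pi]
  set ψ : ℝ → ℝ := fun y => s * (φ y - c) with hψ
  have hψc : Continuous ψ := continuous_const.mul (hφ.sub continuous_const)
  have hs2 : s * s = 1 := by rcases hs with h | h <;> rw [h] <;> norm_num
  have hb' : ψ b = Real.pi / 2 := by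
    simp only [hψ]
    rw [hb, add_sub_cancel_left, ← mul_assoc, hs2, one_mul]
  have hp' : ∀ y, b < y → y ≤ x → Real.cos (ψ y) < 0 := fun y h1 h2 => by
    have := hp y h1 h2
    rwa [hcos] at this
  have key : |ψ x - Real.pi| < Real.pi / 2 := by
    rw [abs_lt]
    constructor
    · by_contra h
      push Not at h
      have h1 : ψ x ≤ Real.pi / 2 := by linarith
      have h2 : ψ x ≠ Real.pi / 2 := by
        intro h3
        have := hp' x hbx le_rfl
        rw [h3, Real.cos_pi_div_two] at this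
        exact lt_irrefl _ this
      have h3 : ψ x < Real.pi / 2 := lt_of_le_of_ne h1 h2
      have hmem : max (ψ x) 0 ∈ Set.Icc (ψ x) (ψ b) :=
        ⟨le_max_left _ _, by rw [hb']; exact max_le h3.le (by positivity)⟩
      obtain ⟨y, hy, hy'⟩ := intermediate_value_Icc' hbx.le hψc.continuousOn hmem
      have h4 : max (ψ x) 0 < Real.pi / 2 := max_lt h3 (by positivity)
      have h5 : b < y := by
        rcases eq_or_lt_of_le hy.1 with h6 | h6
        · rw [← h6, hb'] at hy'
          linarith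
        · exact h6
      have h6 := hp' y h5 hy.2
      rw [hy'] at h6
      have h7 := Real.cos_pos_of_mem_Ioo
        ⟨by linarith [le_max_right (ψ x) 0] , h4⟩
      linarith
    · by_contra h
      push Not at h
      have h1 : Real.pi + Real.pi / 2 ≤ ψ x := by linarith
      obtain ⟨y, hy, hy'⟩ := intermediate_value_Icc hbx.le hψc.continuousOn
        (show Real.pi + Real.pi / 2 ∈ Set.Icc (ψ b) (ψ x) from
          ⟨by rw [hb']; linarith, h1⟩)
      have h5 : b < y := by
        rcases eq_or_lt_of_le hy.1 with h6 | h6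
        · rw [← h6, hb'] at hy'
          linarith
        · exact h6
      have h6 := hp' y h5 hy.2
      rw [hy', show Real.pi + Real.pi / 2 = Real.pi / 2 + Real.pi by ring, Real.cos_add_pi,
        Real.cos_pi_div_two] at h6
      simp at h6
  have e : φ x - (c + Real.pi * s) = s * (ψ x - Real.pi) := by
    simp only [hψ]
    linear_combination (-(φ x - c)) * hs2
  rw [e, abs_mul]
  have : |s| = 1 := by rcases hs with h | h <;> rw [h] <;> norm_num
  rw [this, one_mul]
  exact key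

/-! ### the function on the circle -/

section

variable {ga : ℝ} {e : ℕ → ℝ} {M : ℕ}

/-- the planar function on the circle. -/
def gN (ga : ℝ) (e : ℕ → ℝ) (M : ℕ) (x : ℝ) : ℂ := plN ga e M (cis x)

theorem contDiff_gN : ContDiff ℝ 2 (gN ga e M) := by
  rw [contDiff_iff_contDiffAt]
  intro x
  exact (GlnPl_984.contDiffAt_plN (cis_ne x)).comp x contDiff_cis.contDiffAt

theorem gN_ne (h0 : 0 < ga) (h8 : ga ≤ 1 / 8) (he : ∀ l, e l = 1 ∨ e l = -1) (x : ℝ) :
    gN ga e M x ≠ 0 := GlnStar_649.plN_ne h0 h8 he (cis_ne x)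

theorem cis_per1 (x : ℝ) : cis (x + 2 * Real.pi) = cis x := by
  have := cis_per x 1
  rwa [Int.cast_one, mul_one] at this

theorem gN_per (x : ℝ) : gN ga e M (x + 2 * Real.pi) = gN ga e M x := by
  unfold gN
  rw [cis_per1]

theorem gN_of_cos_pos {x : ℝ} (hc : 0 < Real.cos x) :
    gN ga e M x = (Real.cos x : ℂ) * pvN ga e M (Real.tan x) := by
  unfold gN
  rw [plN_of_pos (by rw [cis_re]; exact hc), cis_re, cis_im, Real.tan_eq_sin_div_cos]

theorem gN_of_cos_nonpos {x : ℝ} (hc : Real.cos x ≤ 0) :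
    gN ga e M x = -((2 - ga : ℝ) : ℂ) * Real.cos x - Complex.I * Real.sin x := by
  unfold gN
  rw [plN_of_nonpos (by rw [cis_re]; exact hc), cis_re, cis_im]

theorem hasDerivAt_gN (x : ℝ) :
    HasDerivAt (gN ga e M) (-(Real.sin x) • paN ga e M (cis x) +
      Real.cos x • pbN e M (cis x)) x := by
  have h := (hasFDerivAt_plN ga e M (cis_ne x)).comp_hasDerivAt x (hasDerivAt_cis x)
  refine h.congr_deriv ?_
  have h1 : (Complex.I * cis x).re = -Real.sin x := by rw [← cis_im]; simp
  have h2 : (Complex.I * cis x).im = Real.cos x := by rw [← cis_re]; simp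
  simp only [_root_.add_apply, ContinuousLinearMap.smulRight_apply,
    Complex.reCLM_apply, Complex.imCLM_apply, h1, h2]

/-- plate -/
theorem cr_plate (h8 : ga ≤ 1 / 8) {x : ℝ} (hc : Real.cos x ≤ 0) :
    0 < cr (gN ga e M x) (deriv (gN ga e M) x) := by
  rw [(hasDerivAt_gN x).deriv]
  have hcs := Real.sin_sq_add_cos_sq x
  have hz : (cis x).re ≤ 0 := by rw [cis_re]; exact hc
  have hz' : ¬ 0 < (cis x).re := not_lt.2 hz
  unfold cr gN paN pbN
  rw [plN_of_nonpos hz, if_neg hz', if_neg hz', cis_re, cis_im]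
  clear hz hz' hc
  generalize Real.cos x = c at *
  generalize Real.sin x = s at *
  have h2 : 0 < 2 - ga := by linarith
  simp
  nlinarith

/-- `s > 0` -/
theorem cr_pos {x : ℝ} (hc : 0 < Real.cos x) :
    cr (gN ga e M x) (deriv (gN ga e M) x) =
      cr (pvN ga e M (Real.tan x)) (pvdN e M (Real.tan x)) := by
  rw [(hasDerivAt_gN x).deriv]
  have hcs := Real.sin_sq_add_cos_sq x
  have hz : 0 < (cis x).re := by rw [cis_re]; exact hc
  rw [Real.tan_eq_sin_div_cos]
  unfold cr gN paN pbN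
  rw [plN_of_pos hz, if_pos hz, if_pos hz, cis_re, cis_im]
  obtain ⟨τ, hτ⟩ : ∃ τ, τ = Real.sin x / Real.cos x := ⟨_, rfl⟩
  have e : Real.sin x = τ * Real.cos x := by rw [hτ]; field_simp
  rw [← hτ]
  rw [e] at hcs ⊢
  clear hz hτ e
  generalize pvN ga _ M τ = p at *
  generalize pvdN _ M τ = p' at *
  generalize Real.cos x = c at *
  have : (c * p.re) * (-(τ * c) * (p.im - τ * p'.im) + c * p'.im) -
      (c * p.im) * (-(τ * c) * (p.re - τ * p'.re) + c * p'.re) =
      p.re * p'.im - p.im * p'.re := by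
    have : (c * p.re) * (-(τ * c) * (p.im - τ * p'.im) + c * p'.im) -
      (c * p.im) * (-(τ * c) * (p.re - τ * p'.re) + c * p'.re) =
      ((τ * c) ^ 2 + c ^ 2) * (p.re * p'.im - p.im * p'.re) := by ring
    rw [this, hcs, one_mul]
  rw [← this]
  simp

/-- lobes -/
theorem cr_lobe (h0 : 0 < ga) (h8 : ga ≤ 1 / 8) (he : ∀ l, e l = 1 ∨ e l = -1) {l : ℕ}
    (hl : l < M) {x : ℝ} (hc : 0 < Real.cos x) (h : |Real.tan x - sgN l| ≤ 6) :
    0 < e l * cr (gN ga e M x) (deriv (gN ga e M) x) := by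
  rw [cr_pos hc]
  obtain ⟨c1, c2, c3, c4⟩ := pvN_lobe (ga := ga) (e := e) hl h
  unfold cr
  rw [c1, c2, c3, c4]
  have h1 := GlLift_125.loop_pos' h0 h8 (Real.tan x - sgN l)
  have hee : e l * e l = 1 := by rcases he l with h | h <;> rw [h] <;> norm_num
  have : e l * ((-(1 - ga) + Af (Real.tan x - sgN l)) * (e l * Bfd (Real.tan x - sgN l)) -
      e l * Bf (Real.tan x - sgN l) * Afd (Real.tan x - sgN l)) =
      (-(1 - ga) + Af (Real.tan x - sgN l)) * Bfd (Real.tan x - sgN l) -
      Bf (Real.tan x - sgN l) * Afd (Real.tan x - sgN l) := by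
    linear_combination ((-(1 - ga) + Af (Real.tan x - sgN l)) * Bfd (Real.tan x - sgN l) -
      Bf (Real.tan x - sgN l) * Afd (Real.tan x - sgN l)) * hee
  rw [this]
  exact h1

/-! ### arcs -/

/-- starts of the arcs -/
def aN (v0 : ℝ) (M i : ℕ) : ℝ :=
  if i = 0 then Real.pi / 2 else
    if i ≤ M then 2 * Real.pi + Real.arctan (sgN (i - 1) - v0) else 2 * Real.pi + Real.pi / 2

/-- ends of the arcs -/
def bN (v0 : ℝ) (i : ℕ) : ℝ :=
  if i = 0 then Real.pi + Real.pi / 2 else 2 * Real.pi + Real.arctan (sgN (i - 1) + v0)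

theorem aN_zero (v0 : ℝ) (M : ℕ) : aN v0 M 0 = Real.pi / 2 := if_pos rfl

theorem bN_zero (v0 : ℝ) : bN v0 0 = Real.pi + Real.pi / 2 := if_pos rfl

theorem aN_succ (v0 : ℝ) {M l : ℕ} (h : l < M) :
    aN v0 M (l + 1) = 2 * Real.pi + Real.arctan (sgN l - v0) := by
  unfold aN
  rw [if_neg (by omega), if_pos (by omega), Nat.add_sub_cancel]

theorem bN_succ (v0 : ℝ) (l : ℕ) : bN v0 (l + 1) = 2 * Real.pi + Real.arctan (sgN l + v0) := by
  unfold bN
  rw [if_neg (by omega), Nat.add_sub_cancel]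

theorem aN_last (v0 : ℝ) (M : ℕ) : aN v0 M (M + 1) = 2 * Real.pi + Real.pi / 2 := by
  unfold aN
  rw [if_neg (by omega), if_neg (by omega)]

theorem sgN_succ (l : ℕ) : sgN (l + 1) = sgN l + 16 := by
  unfold sgN
  push_cast
  ring

theorem arcsN {v0 : ℝ} (h1 : 1 < v0) (h2 : v0 < 2) (M : ℕ) : Arcs M (aN v0 M) (bN v0) where
  ab := by
    have hpi := Real.pi_pos
    intro i hi
    rcases i with _ | l
    · rw [aN_zero, bN_zero]; linarith
    · rw [aN_succ v0 (by omega), bN_succ]
      have := Real.arctan_strictMono (show sgN l - v0 < sgN l + v0 by linarith)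
      linarith
  ba := by
    have hpi := Real.pi_pos
    intro i hi
    rcases i with _ | l
    · rw [bN_zero]
      rcases Nat.eq_zero_or_pos M with h | h
      · subst h
        rw [aN_last]; linarith
      · rw [aN_succ v0 h]
        have := Real.neg_pi_div_two_lt_arctan (sgN 0 - v0)
        linarith
    · rw [bN_succ]
      rcases lt_or_eq_of_le hi with h | h
      · rw [aN_succ v0 h, sgN_succ]
        have := Real.arctan_strictMono (show sgN l + v0 < sgN l + 16 - v0 by linarith)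
        linarith
      · rw [h, aN_last]
        have := Real.arctan_lt_pi_div_two (sgN l + v0)
        linarith
  last := by rw [aN_last, aN_zero]; ring

/-- a point over the right half plane -/
theorem sub_tan {x : ℝ} (h1 : Real.pi + Real.pi / 2 < x) (h2 : x < 2 * Real.pi + Real.pi / 2) :
    0 < Real.cos x ∧ Real.tan x = Real.tan (x - 2 * Real.pi) ∧
      Real.arctan (Real.tan x) = x - 2 * Real.pi := by
  have h3 : 0 < Real.cos (x - 2 * Real.pi) := Real.cos_pos_of_mem_Ioo ⟨by linarith, by linarith⟩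
  have h4 : Real.tan x = Real.tan (x - 2 * Real.pi) := by
    rw [Real.tan_eq_sin_div_cos, Real.tan_eq_sin_div_cos, Real.cos_sub_two_pi,
      Real.sin_sub_two_pi]
  refine ⟨by rwa [Real.cos_sub_two_pi] at h3, h4, ?_⟩
  rw [h4, Real.arctan_tan (by linarith) (by linarith)]

theorem lobe_tan {v0 : ℝ} {l : ℕ} (hl : l < M) {x : ℝ}
    (ha : aN v0 M (l + 1) ≤ x) (hb : x ≤ bN v0 (l + 1)) :
    0 < Real.cos x ∧ |Real.tan x - sgN l| ≤ v0 := by
  rw [aN_succ v0 hl] at ha
  rw [bN_succ] at hb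
  have h3 := Real.neg_pi_div_two_lt_arctan (sgN l - v0)
  have h4 := Real.arctan_lt_pi_div_two (sgN l + v0)
  have hpi := Real.pi_pos
  obtain ⟨c1, c2, c3⟩ := sub_tan (x := x) (by linarith) (by linarith)
  refine ⟨c1, ?_⟩
  have h5 : sgN l - v0 ≤ Real.tan x := by
    rw [← Real.arctan_strictMono.le_iff_le, c3]
    linarith
  have h6 : Real.tan x ≤ sgN l + v0 := by
    rw [← Real.arctan_strictMono.le_iff_le, c3]
    linarith
  rw [abs_le]
  constructor <;> linarith

/-- the gaps: `Re < 0` -/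
theorem gap_neg (h0 : 0 < ga) (h8 : ga ≤ 1 / 8) (he : ∀ l, e l = 1 ∨ e l = -1) {v0 : ℝ}
    (hv : ∀ v, v0 < |v| → -(1 - ga) + Af v < 0) {i : ℕ} (hi : i ≤ M) {x : ℝ}
    (hb : bN v0 i < x) (ha : x < aN v0 M (i + 1)) : (gN ga e M x).re < 0 := by
  have hpi := Real.pi_pos
  -- `x` is over the right half plane
  have hx1 : Real.pi + Real.pi / 2 < x := by
    rcases i with _ | l
    · rwa [bN_zero] at hb
    · rw [bN_succ] at hb
      have := Real.neg_pi_div_two_lt_arctan (sgN l + v0)
      linarith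
  have hx2 : x < 2 * Real.pi + Real.pi / 2 := by
    rcases lt_or_eq_of_le hi with h | h
    · rw [aN_succ v0 h] at ha
      have := Real.arctan_lt_pi_div_two (sgN i - v0)
      linarith
    · rwa [h, aN_last] at ha
  obtain ⟨c1, c2, c3⟩ := sub_tan hx1 hx2
  by_contra hcon
  push Not at hcon
  have h3 : 0 < (cis x).re := by rw [cis_re]; exact c1
  obtain ⟨l, hl, h4, h5⟩ := GlnPl_984.zoneN h0 h8 he h3 (show 0 ≤ (plN ga e M (cis x)).re from hcon)
  rw [cis_re, cis_im, ← Real.tan_eq_sin_div_cos] at h4 h5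
  have h6 : |Real.tan x - sgN l| ≤ v0 := by
    by_contra h7
    push Not at h7
    have := hv _ h7
    linarith
  obtain ⟨h7, h8⟩ := abs_le.1 h6
  rcases lt_or_ge l i with h9 | h9
  · -- `x > b i`
    rcases i with _ | i
    · omega
    · rw [bN_succ] at hb
      have h10 : sgN i + v0 < Real.tan x := by
        rw [← Real.arctan_strictMono.lt_iff_lt, c3]
        linarith
      have h11 : sgN l ≤ sgN i := by
        rcases eq_or_lt_of_le (show l ≤ i by omega) with h | h
        · rw [h]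
        · have := sgN_add h
          linarith
      linarith
  · rw [aN_succ v0 (by omega : i < M)] at ha
    have h10 : Real.tan x < sgN i - v0 := by
      rw [← Real.arctan_strictMono.lt_iff_lt, c3]
      linarith
    have h11 : sgN i ≤ sgN l := by
      rcases eq_or_lt_of_le h9 with h | h
      · rw [h]
      · have := sgN_add h
        linarith
    linarith

/-! ### boundary points -/

theorem gN_vert {x : ℝ} (hc : Real.cos x = 0) :
    (gN ga e M x).re = 0 ∧ (gN ga e M x).im = -Real.sin x := by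
  rw [gN_of_cos_nonpos hc.le, hc]
  generalize Real.sin x = s
  constructor <;> simp

theorem gN_lobe {l : ℕ} (hl : l < M) {x : ℝ} (hc : 0 < Real.cos x)
    (h : |Real.tan x - sgN l| ≤ 6) :
    (gN ga e M x).re = Real.cos x * (-(1 - ga) + Af (Real.tan x - sgN l)) ∧
      (gN ga e M x).im = Real.cos x * (e l * Bf (Real.tan x - sgN l)) := by
  obtain ⟨c1, c2, -, -⟩ := pvN_lobe (ga := ga) (e := e) hl h
  rw [gN_of_cos_pos hc, Complex.re_ofReal_mul, Complex.im_ofReal_mul, c1, c2]
  exact ⟨rfl, rfl⟩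

theorem gN_end {v0 : ℝ} (h1 : 1 < v0) (h2 : v0 < 2) (hA : Af v0 = 1 - ga) {l : ℕ} (hl : l < M)
    (he : ∀ l, e l = 1 ∨ e l = -1) :
    ((gN ga e M (aN v0 M (l + 1))).re = 0 ∧ 0 < -e l * (gN ga e M (aN v0 M (l + 1))).im) ∧
      ((gN ga e M (bN v0 (l + 1))).re = 0 ∧ 0 < e l * (gN ga e M (bN v0 (l + 1))).im) := by
  have hpi := Real.pi_pos
  have hee : e l * e l = 1 := by rcases he l with h | h <;> rw [h] <;> norm_num
  have hB := GlLift_125.Bf_pos (v := v0) (by linarith) (by linarith)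
  constructor
  · rw [aN_succ v0 hl]
    obtain ⟨c1, c2, -⟩ := sub_tan (x := 2 * Real.pi + Real.arctan (sgN l - v0))
      (by linarith [Real.neg_pi_div_two_lt_arctan (sgN l - v0)])
      (by linarith [Real.arctan_lt_pi_div_two (sgN l - v0)])
    rw [add_sub_cancel_left, Real.tan_arctan] at c2
    obtain ⟨d1, d2⟩ := gN_lobe (ga := ga) (e := e) hl c1 (by
      rw [c2, show sgN l - v0 - sgN l = -v0 by ring, abs_neg, abs_of_pos (by linarith)]
      linarith)
    rw [d1, d2, c2, show sgN l - v0 - sgN l = -v0 by ring, GlLift_125.Af_neg, hA, Bf_neg]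
    refine ⟨by ring, ?_⟩
    have : -e l * (Real.cos (2 * Real.pi + Real.arctan (sgN l - v0)) * (e l * -Bf v0)) =
        Real.cos (2 * Real.pi + Real.arctan (sgN l - v0)) * Bf v0 := by
      linear_combination (Real.cos (2 * Real.pi + Real.arctan (sgN l - v0)) * Bf v0) * hee
    rw [this]
    positivity
  · rw [bN_succ]
    obtain ⟨c1, c2, -⟩ := sub_tan (x := 2 * Real.pi + Real.arctan (sgN l + v0))
      (by linarith [Real.neg_pi_div_two_lt_arctan (sgN l + v0)])
      (by linarith [Real.arctan_lt_pi_div_two (sgN l + v0)])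
    rw [add_sub_cancel_left, Real.tan_arctan] at c2
    obtain ⟨d1, d2⟩ := gN_lobe (ga := ga) (e := e) hl c1 (by
      rw [c2, show sgN l + v0 - sgN l = v0 by ring, abs_of_pos (by linarith)]
      linarith)
    rw [d1, d2, c2, show sgN l + v0 - sgN l = v0 by ring, hA]
    refine ⟨by ring, ?_⟩
    have : e l * (Real.cos (2 * Real.pi + Real.arctan (sgN l + v0)) * (e l * Bf v0)) =
        Real.cos (2 * Real.pi + Real.arctan (sgN l + v0)) * Bf v0 := by
      linear_combination (Real.cos (2 * Real.pi + Real.arctan (sgN l + v0)) * Bf v0) * hee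
    rw [this]
    positivity

/-! ### the word -/

theorem se_pm (he : ∀ l, e l = 1 ∨ e l = -1) (i : ℕ) : se e i = 1 ∨ se e i = -1 := by
  unfold se
  split_ifs
  · exact Or.inl rfl
  · exact he _

theorem exists_cen (he : ∀ l, e l = 1 ∨ e l = -1) (i : ℕ) : ∃ n : ℤ, cen e i = 2 * Real.pi * n := by
  induction i with
  | zero => exact ⟨0, by simp [cen]⟩
  | succ i ih =>
    obtain ⟨n, hn⟩ := ih
    rw [cen, hn]
    rcases se_pm he i with h | h <;> rcases se_pm he (i + 1) with h' | h' <;> rw [h, h']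
    · exact ⟨n + 1, by push_cast; ring⟩
    · exact ⟨n, by ring⟩
    · exact ⟨n, by ring⟩
    · exact ⟨n - 1, by push_cast; ring⟩

theorem se_succ (l : ℕ) : se e (l + 1) = e l := by
  unfold se
  rw [if_neg (by omega), Nat.add_sub_cancel]

theorem se_zero : se e 0 = 1 := if_pos rfl

/-! ### windows -/

theorem wz_smooth (m m' : ℕ) : ContDiff ℝ 2 fun x => wz m m' (cis x) := by
  rw [contDiff_iff_contDiffAt]
  intro x
  have key : ContDiffAt ℝ 2 (wz m m') (cis x) := by
    rcases le_or_gt (cis x).re 0 with h0 | h0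
    · have h1 : wz m m' =ᶠ[nhds (cis x)] fun _ => (0 : ℝ) := by
        filter_upwards [farN_nhds (M := m') h0 (cis_ne x)] with w hw
        unfold wz
        split_ifs with h2
        · refine winN_far ?_
          rwa [abs_div, abs_of_pos h2, le_div_iff₀ h2]
        · rfl
      exact contDiffAt_const.congr_of_eventuallyEq h1
    · have h1 : wz m m' =ᶠ[nhds (cis x)] fun w : ℂ => winN m m' (w.im / w.re) := by
        filter_upwards [(isOpen_lt continuous_const Complex.continuous_re).mem_nhds h0] with w hw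
        unfold wz
        exact if_pos hw
      refine ContDiffAt.congr_of_eventuallyEq ?_ h1
      exact (contDiff_winN m m').contDiffAt.comp (cis x) (GlC2a_930.contDiffAt_slope h0.ne')
  exact key.comp x contDiff_cis.contDiffAt

theorem winA {v0 : ℝ} (h2 : v0 < 2) (m m' : ℕ) :
    WinA M (aN v0 M) (bN v0) m m' fun x => wz m m' (cis x) where
  smooth := wz_smooth m m'
  per x := by rw [cis_per1]
  nn x := by
    unfold wz
    split_ifs
    · exact winN_nonneg _ _ _
    · exact le_rfl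
  le x := by
    unfold wz
    split_ifs
    · exact winN_le_one _ _ _
    · exact zero_le_one
  val := by
    intro i hi x ha hb
    rcases i with _ | l
    · rw [aN_zero] at ha
      rw [bN_zero] at hb
      have hc := Real.cos_nonpos_of_pi_div_two_le_of_le ha hb
      unfold wz
      rw [cis_re, if_neg (not_lt.2 hc), if_neg (by omega)]
    · obtain ⟨c1, c2⟩ := lobe_tan (M := M) (show l < M by omega) ha hb
      unfold wz
      rw [cis_re, if_pos c1, cis_im, ← Real.tan_eq_sin_div_cos,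
        (winN_cell (show |Real.tan x - sgN l| ≤ 7 by linarith)).1]
      congr 1
      refine propext ?_
      constructor <;> intro h <;> omega

/-! ### the theorem -/

theorem liftP (h0 : 0 < ga) (h8 : ga ≤ 1 / 8) (he : ∀ l, e l = 1 ∨ e l = -1) : LiftP ga e M := by
  have hpi := Real.pi_pos
  obtain ⟨v0, h1, h2, hA, hv, hv'⟩ := exists_v0 h0 h8
  have hgπ : gN ga e M Real.pi = ((2 - ga : ℝ) : ℂ) := by
    rw [gN_of_cos_nonpos (by simp)]
    simp
  obtain ⟨φ, hφa, hφs, hφd, hφg⟩ := GlLift_125.lift (contDiff_gN (ga := ga) (e := e) (M := M))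
    (gN_ne h0 h8 he) Real.pi 0 (by
      rw [hgπ, Complex.norm_real, Real.norm_eq_abs, abs_of_pos (by linarith)]
      simp [cis])
  have hφc : Continuous φ := hφs.continuous
  have hn : ∀ x, 0 < ‖gN ga e M x‖ := fun x => norm_pos_iff.2 (gN_ne h0 h8 he x)
  have hre : ∀ x, (gN ga e M x).re = ‖gN ga e M x‖ * Real.cos (φ x) := fun x => by
    have h := congrArg Complex.re (hφg x)
    rwa [Complex.re_ofReal_mul, cis_re] at h
  have him : ∀ x, (gN ga e M x).im = ‖gN ga e M x‖ * Real.sin (φ x) := fun x => by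
    have h := congrArg Complex.im (hφg x)
    rwa [Complex.im_ofReal_mul, cis_im] at h
  have hcn : ∀ x, 0 ≤ (gN ga e M x).re → 0 ≤ Real.cos (φ x) := fun x hx => by
    rw [hre] at hx
    exact nonneg_of_mul_nonneg_right hx (hn x)
  have hcneg : ∀ x, (gN ga e M x).re < 0 → Real.cos (φ x) < 0 := fun x hx => by
    rw [hre] at hx
    exact neg_of_mul_neg_right hx (hn x).le
  have hc0 : ∀ x, (gN ga e M x).re = 0 → Real.cos (φ x) = 0 := fun x hx => by
    rw [hre] at hx
    exact (mul_eq_zero.1 hx).resolve_left (hn x).ne'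
  have hsn : ∀ s x, 0 < s * (gN ga e M x).im → 0 < s * Real.sin (φ x) := fun s x hx => by
    rw [him] at hx
    have : 0 < ‖gN ga e M x‖ * (s * Real.sin (φ x)) := by linarith
    exact pos_of_mul_pos_right this (hn x).le
  -- plate
  have hplate : ∀ x, Real.pi / 2 ≤ x → x ≤ Real.pi + Real.pi / 2 →
      |φ x - cen e 0| ≤ Real.pi / 2 := by
    intro x hx hx'
    have h3 := GlLift_125.arc hφc (n := 0) (a := Real.pi) (x := x) (by rw [hφa]; simp) (by
      intro y hy
      apply hcn
      have hy1 : Real.pi / 2 ≤ y ∧ y ≤ Real.pi + Real.pi / 2 := by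
        rw [Set.mem_uIcc] at hy
        rcases hy with hy | hy <;> constructor <;> linarith
      have hc := Real.cos_nonpos_of_pi_div_two_le_of_le hy1.1 hy1.2
      rw [gN_of_cos_nonpos hc]
      generalize Real.cos y = c at *
      generalize Real.sin y = s at *
      simp
      nlinarith)
    simpa [cen] using h3
  have hP0 : φ (aN v0 M 0) = cen e 0 - se e 0 * (Real.pi / 2) := by
    have h3 := gN_vert (ga := ga) (e := e) (M := M) (x := Real.pi / 2) Real.cos_pi_div_two
    rw [Real.sin_pi_div_two] at h3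
    have h4 := bd (y := φ (Real.pi / 2)) (c := cen e 0) (s := -1) (n := 0) (by simp [cen])
      (hplate _ le_rfl (by linarith)) (hc0 _ h3.1) (Or.inr rfl)
      (hsn _ _ (by rw [h3.2]; norm_num))
    rw [aN_zero, h4, se_zero]
    ring
  have hQ0 : φ (bN v0 0) = cen e 0 + se e 0 * (Real.pi / 2) := by
    have hc : Real.cos (Real.pi + Real.pi / 2) = 0 := by
      rw [add_comm, Real.cos_add_pi, Real.cos_pi_div_two, neg_zero]
    have h3 := gN_vert (ga := ga) (e := e) (M := M) hc
    rw [add_comm Real.pi, Real.sin_add_pi, Real.sin_pi_div_two, add_comm] at h3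
    have h4 := bd (y := φ (Real.pi + Real.pi / 2)) (c := cen e 0) (s := 1) (n := 0) (by simp [cen])
      (hplate _ (by linarith) le_rfl) (hc0 _ h3.1) (Or.inl rfl)
      (hsn _ _ (by rw [h3.2]; norm_num))
    rw [bN_zero, h4, se_zero]
  -- arcs and gaps
  have hab : Arcs M (aN v0 M) (bN v0) := arcsN h1 h2 M
  have harc : ∀ l, l < M → φ (aN v0 M (l + 1)) = cen e (l + 1) - se e (l + 1) * (Real.pi / 2) →
      (∀ x, aN v0 M (l + 1) ≤ x → x ≤ bN v0 (l + 1) → |φ x - cen e (l + 1)| ≤ Real.pi / 2) ∧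
      φ (bN v0 (l + 1)) = cen e (l + 1) + se e (l + 1) * (Real.pi / 2) := by
    intro l hl hP
    obtain ⟨n, hn'⟩ := exists_cen he (l + 1)
    have h3 : ∀ x, aN v0 M (l + 1) ≤ x → x ≤ bN v0 (l + 1) →
        |φ x - cen e (l + 1)| ≤ Real.pi / 2 := by
      intro x ha hb
      refine arcE hφc hn' (se_pm he _) hP ha fun y hy hy' => ?_
      obtain ⟨c1, c2⟩ := lobe_tan (M := M) hl hy (hy'.trans hb)
      refine hcn _ ?_
      rw [(gN_lobe hl c1 (by linarith)).1]
      exact mul_nonneg c1.le (hv _ c2)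
    refine ⟨h3, ?_⟩
    obtain ⟨-, h4, h5⟩ := gN_end h1 h2 hA hl he
    refine bd hn' (h3 _ (hab.ab (l + 1) (by omega)).le le_rfl) (hc0 _ h4) (se_pm he _) ?_
    rw [se_succ]
    exact hsn _ _ h5
  have hgap : ∀ i ≤ M, φ (bN v0 i) = cen e i + se e i * (Real.pi / 2) →
      (∀ x, bN v0 i < x → x < aN v0 M (i + 1) →
        |φ x - (cen e i + Real.pi * se e i)| < Real.pi / 2) ∧
      |φ (aN v0 M (i + 1)) - (cen e i + Real.pi * se e i)| ≤ Real.pi / 2 := by
    intro i hi hQ
    obtain ⟨n, hn'⟩ := exists_cen he i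
    have h3 : ∀ x, bN v0 i < x → x < aN v0 M (i + 1) →
        |φ x - (cen e i + Real.pi * se e i)| < Real.pi / 2 := by
      intro x hb ha
      exact gapE hφc hn' (se_pm he i) hQ hb fun y hy hy' =>
        hcneg _ (gap_neg h0 h8 he hv' hi hy (hy'.trans_lt ha))
    refine ⟨h3, ?_⟩
    have hlt := hab.ba i hi
    have hcont : Continuous fun x => |φ x - (cen e i + Real.pi * se e i)| :=
      (hφc.sub continuous_const).abs
    have hcl : aN v0 M (i + 1) ∈ closure (Set.Ioo (bN v0 i) (aN v0 M (i + 1))) := by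
      rw [closure_Ioo hlt.ne]
      exact ⟨hlt.le, le_rfl⟩
    have hsub : closure (Set.Ioo (bN v0 i) (aN v0 M (i + 1))) ⊆
        {x | |φ x - (cen e i + Real.pi * se e i)| ≤ Real.pi / 2} :=
      closure_minimal (fun x hx => (h3 x hx.1 hx.2).le) (isClosed_le hcont continuous_const)
    exact hsub hcl
  have hnext : ∀ i ≤ M, φ (bN v0 i) = cen e i + se e i * (Real.pi / 2) →
      ∀ s : ℝ, (s = 1 ∨ s = -1) → (gN ga e M (aN v0 M (i + 1))).re = 0 →
        0 < -s * (gN ga e M (aN v0 M (i + 1))).im →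
        φ (aN v0 M (i + 1)) = cen e i + Real.pi * se e i + s * (Real.pi / 2) := by
    intro i hi hQ s hs h3 h4
    obtain ⟨n, hn'⟩ := exists_cen he i
    have h5 := (hgap i hi hQ).2
    have h6 : ∃ n' : ℤ, cen e i + Real.pi * se e i = 2 * Real.pi * n' + Real.pi := by
      rcases se_pm he i with h | h
      · exact ⟨n, by rw [h, hn']; ring⟩
      · exact ⟨n - 1, by rw [h, hn']; push_cast; ring⟩
    obtain ⟨n', h6⟩ := h6
    have h7 := bd' h6 h5 (hc0 _ h3) (s := -s) (by rcases hs with h | h <;> rw [h] <;> norm_num)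
      (hsn _ _ h4)
    rw [h7]
    ring
  have hPQ : ∀ i ≤ M, φ (aN v0 M i) = cen e i - se e i * (Real.pi / 2) ∧
      φ (bN v0 i) = cen e i + se e i * (Real.pi / 2) := by
    intro i
    induction i with
    | zero => exact fun _ => ⟨hP0, hQ0⟩
    | succ l ih =>
      intro hl
      obtain ⟨-, h3⟩ := ih (by omega)
      obtain ⟨⟨h4, h5⟩, -⟩ := gN_end h1 h2 hA (show l < M by omega) he
      have h6 := hnext l (by omega) h3 (e l) (he l) h4 h5
      have h7 : φ (aN v0 M (l + 1)) = cen e (l + 1) - se e (l + 1) * (Real.pi / 2) := by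
        rw [h6, cen, se_succ]
        ring
      exact ⟨h7, (harc l (by omega) h7).2⟩
  have hlast : φ (aN v0 M (M + 1)) = cen e M + Real.pi * se e M + Real.pi / 2 := by
    have hc : Real.cos (2 * Real.pi + Real.pi / 2) = 0 := by
      rw [add_comm, Real.cos_add_two_pi, Real.cos_pi_div_two]
    have h3 := gN_vert (ga := ga) (e := e) (M := M) hc
    rw [add_comm (2 * Real.pi), Real.sin_add_two_pi, Real.sin_pi_div_two, add_comm,
      ← aN_last v0 M] at h3
    have h4 := hnext M le_rfl (hPQ M le_rfl).2 1 (Or.inl rfl) h3.1 (by rw [h3.2]; norm_num)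
    rw [h4]
    ring
  refine ⟨φ, aN v0 M, bN v0, hab, ⟨hφs, ?_, ?_, ?_⟩, hφg, fun m m' _ => winA h2 m m'⟩
  · -- period
    have hper : ∀ x, deriv φ (x + 2 * Real.pi) = deriv φ x := by
      intro x
      rw [(hφd _).deriv, (hφd x).deriv, gN_per]
      have : deriv (gN ga e M) (x + 2 * Real.pi) = deriv (gN ga e M) x := by
        have h3 : (fun y => gN ga e M (y + 2 * Real.pi)) = gN ga e M := funext gN_per
        have h4 := deriv_comp_add_const (gN ga e M) (2 * Real.pi) x
        rw [h3] at h4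
        exact h4.symm
      rw [this]
    have hd : Differentiable ℝ φ := fun x => (hφd x).differentiableAt
    have hconst : ∀ x y, φ (x + 2 * Real.pi) - φ x = φ (y + 2 * Real.pi) - φ y := by
      intro x y
      have hz : ∀ x, HasDerivAt (fun x => φ (x + 2 * Real.pi) - φ x) 0 x := by
        intro x
        have h3 := (HasDerivAt.comp_add_const x (2 * Real.pi) (hd (x + 2 * Real.pi)).hasDerivAt)
        refine (h3.sub (hd x).hasDerivAt).congr_deriv ?_
        rw [hper]
        exact sub_self _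
      exact is_const_of_deriv_eq_zero (f := fun x => φ (x + 2 * Real.pi) - φ x)
        (fun x => (hz x).differentiableAt) (fun x => (hz x).deriv) x y
    intro x
    have h3 := hconst x (aN v0 M 0)
    rw [← hab.last, hlast, hP0, se_zero] at h3
    unfold tot
    have h4 : cen e 0 = 0 := rfl
    rw [h4] at h3
    linarith
  · -- arcs
    intro i hi x ha hb
    have hcr : ∀ x, deriv φ x = cr (gN ga e M x) (deriv (gN ga e M) x) /
        Complex.normSq (gN ga e M x) := by
      intro x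
      rw [(hφd x).deriv, Complex.div_im, ← sub_div]
      unfold cr
      congr 1
      ring
    have hns : 0 < Complex.normSq (gN ga e M x) := Complex.normSq_pos.2 (gN_ne h0 h8 he x)
    rcases i with _ | l
    · rw [aN_zero] at ha
      rw [bN_zero] at hb
      refine ⟨hplate x ha hb, ?_⟩
      rw [se_zero, one_mul, hcr]
      exact div_pos (cr_plate h8 (Real.cos_nonpos_of_pi_div_two_le_of_le ha hb)) hns
    · obtain ⟨c1, c2⟩ := lobe_tan (M := M) (show l < M by omega) ha hb
      refine ⟨(harc l (by omega) (hPQ (l + 1) hi).1).1 x ha hb, ?_⟩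
      rw [se_succ, hcr, ← mul_div_assoc]
      exact div_pos (cr_lobe h0 h8 he (by omega) c1 (by linarith)) hns
  · intro i hi x hb ha
    exact (hgap i hi (hPQ i hi).2).1 x hb ha

end

end Crest.Agent.R267.GlnLift_9
end
end

-- ▼ part R267/GlnDiff_684
section

/-!
# Row 267 (helper684): GLN-DIFF, a circle diffeomorphism moving arcs to arcs
-/

set_option autoImplicit false

noncomputable section

open Crest.Agent.R267.Ang_739 Crest.Agent.R267.GlNDefs_9

namespace Crest.Agent.R267.GlnDiff_684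

/-- smooth monotone function growing only on `[u, v] + 2 π ℤ` -/
def stp (u v x : ℝ) : ℝ := stair ((v - u) / 2) (x - (u + v) / 2) + 1

section Stp

variable {u v : ℝ}

theorem contDiff_stp (u v : ℝ) : ContDiff ℝ 2 (stp u v) := by
  have h : ContDiff ℝ 2 (stair ((v - u) / 2)) := contDiff_stair _ (n := 2)
  exact (h.comp (contDiff_id.sub contDiff_const)).add contDiff_const

theorem stp_per (h0 : u < v) (h1 : v < u + 2 * Real.pi) (x : ℝ) :
    stp u v (x + 2 * Real.pi) = stp u v x + 1 := by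
  unfold stp
  have e : x + 2 * Real.pi - (u + v) / 2 = x - (u + v) / 2 + 2 * Real.pi := by ring
  rw [e, stair_per (by linarith) (by linarith)]

theorem stp_mono (h0 : u < v) (h1 : v < u + 2 * Real.pi) : Monotone (stp u v) := fun x y hxy => by
  unfold stp
  have := stair_mono (J := (v - u) / 2) (by linarith) (by linarith)
    (show x - (u + v) / 2 ≤ y - (u + v) / 2 by linarith)
  linarith

theorem stp_one (h0 : u < v) (h1 : v < u + 2 * Real.pi) {x : ℝ} (hx : v ≤ x)
    (hx2 : x ≤ u + 2 * Real.pi) : stp u v x = 1 := by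
  unfold stp
  rw [stair_const (by linarith) (by linarith) (by linarith) (by linarith), zero_add]

theorem stp_zero (h0 : u < v) (h1 : v < u + 2 * Real.pi) {x : ℝ} (hx : v - 2 * Real.pi ≤ x)
    (hx2 : x ≤ u) : stp u v x = 0 := by
  have h2 := stp_per h0 h1 x
  rw [stp_one h0 h1 (by linarith) (by linarith)] at h2
  linarith

end Stp

/-- circle diffeomorphism with prescribed values at `p' 0 < p' 1 < ... < p' n = p' 0 + 2π` -/
theorem exists_diffeo {n : ℕ} (hn : 2 ≤ n) {p' p : ℕ → ℝ} (h' : ∀ i < n, p' i < p' (i + 1))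
    (h : ∀ i < n, p i < p (i + 1)) (e' : p' n = p' 0 + 2 * Real.pi)
    (e : p n = p 0 + 2 * Real.pi) :
    ∃ f : ℝ → ℝ, ContDiff ℝ 2 f ∧ (∀ x, f (x + 2 * Real.pi) = f x + 2 * Real.pi) ∧
      (∀ x, 0 < deriv f x) ∧ ∀ k ≤ n, f (p' k) = p k := by
  have hpi := Real.pi_pos
  -- monotonicity
  have mono : ∀ i k, i ≤ k → k ≤ n → p' i ≤ p' k := by
    intro i k hik
    induction k, hik using Nat.le_induction with
    | base => intro _; exact le_rfl
    | succ k _ ih => intro hk; exact (ih (by omega)).trans (h' k (by omega)).le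
  have len : ∀ i < n, p' (i + 1) < p' i + 2 * Real.pi := by
    intro i hi
    rcases Nat.eq_zero_or_pos i with rfl | hi0
    · have h1 := h' 1 (by omega)
      have h2 := mono 2 n hn le_rfl
      have h3 : p' (0 + 1) = p' 1 := rfl
      rw [h3]
      have h4 : p' (1 + 1) = p' 2 := rfl
      linarith
    · have h1 := mono (i + 1) n (by omega) le_rfl
      have h2 := mono 1 i hi0 (by omega)
      have h3 := h' 0 (by omega)
      have h4 : p' (0 + 1) = p' 1 := rfl
      linarith
  -- the small slope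
  obtain ⟨i₀, hi₀, hmin⟩ := Finset.exists_min_image (Finset.range n) (fun i => p (i + 1) - p i)
    ⟨0, Finset.mem_range.2 (by omega)⟩
  have hδ : 0 < p (i₀ + 1) - p i₀ := sub_pos.2 (h i₀ (Finset.mem_range.1 hi₀))
  obtain ⟨ε, hε, hε2⟩ : ∃ ε : ℝ, 0 < ε ∧ ε * (2 * Real.pi) < p (i₀ + 1) - p i₀ :=
    ⟨(p (i₀ + 1) - p i₀) / (4 * Real.pi), by positivity, by
      rw [div_mul_eq_mul_div, div_lt_iff₀ (by positivity)]
      nlinarith⟩
  set c : ℕ → ℝ := fun i => (p (i + 1) - p i) - ε * (p' (i + 1) - p' i) with hc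
  have cpos : ∀ i < n, 0 < c i := by
    intro i hi
    have h1 := hmin i (Finset.mem_range.2 hi)
    have h2 := len i hi
    have h3 : ε * (p' (i + 1) - p' i) ≤ ε * (2 * Real.pi) :=
      mul_le_mul_of_nonneg_left (by linarith) hε.le
    simp only [hc]
    linarith
  have csum : ∀ k, ∑ i ∈ Finset.range k, c i = (p k - p 0) - ε * (p' k - p' 0) := by
    intro k
    simp only [hc]
    rw [Finset.sum_sub_distrib, ← Finset.mul_sum, Finset.sum_range_sub, Finset.sum_range_sub]
  refine ⟨fun x => p 0 + ε * (x - p' 0) + ∑ i ∈ Finset.range n, c i * stp (p' i) (p' (i + 1)) x,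
    ?_, ?_, ?_, ?_⟩
  · refine (contDiff_const.add (contDiff_const.mul (contDiff_id.sub contDiff_const))).add ?_
    exact ContDiff.sum fun i _ => contDiff_const.mul (contDiff_stp _ _)
  · intro x
    have h1 : ∑ i ∈ Finset.range n, c i * stp (p' i) (p' (i + 1)) (x + 2 * Real.pi) =
        ∑ i ∈ Finset.range n, c i * stp (p' i) (p' (i + 1)) x + ∑ i ∈ Finset.range n, c i := by
      rw [← Finset.sum_add_distrib]
      refine Finset.sum_congr rfl fun i hi => ?_
      rw [stp_per (h' i (Finset.mem_range.1 hi)) (len i (Finset.mem_range.1 hi))]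
      ring
    simp only
    rw [h1, csum, e, e']
    ring
  · intro x
    have hd : ∀ i ∈ Finset.range n, HasDerivAt (fun x => c i * stp (p' i) (p' (i + 1)) x)
        (c i * deriv (stp (p' i) (p' (i + 1))) x) x := fun i _ =>
      (((contDiff_stp (p' i) (p' (i + 1))).differentiable (by norm_num)) x).hasDerivAt.const_mul _
    have h1 : HasDerivAt (fun x => p 0 + ε * (x - p' 0) +
        ∑ i ∈ Finset.range n, c i * stp (p' i) (p' (i + 1)) x)
        (ε * 1 + ∑ i ∈ Finset.range n, c i * deriv (stp (p' i) (p' (i + 1))) x) x := by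
      have h2 : HasDerivAt (fun x : ℝ => p 0 + ε * (x - p' 0)) (ε * 1) x :=
        (((hasDerivAt_id x).sub_const _).const_mul _).const_add _
      exact h2.add (HasDerivAt.fun_sum hd)
    rw [h1.deriv]
    have h3 : 0 ≤ ∑ i ∈ Finset.range n, c i * deriv (stp (p' i) (p' (i + 1))) x := by
      refine Finset.sum_nonneg fun i hi => mul_nonneg (cpos i (Finset.mem_range.1 hi)).le ?_
      exact (stp_mono (h' i (Finset.mem_range.1 hi)) (len i (Finset.mem_range.1 hi))).deriv_nonneg
    linarith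
  · intro k hk
    have h1 : ∑ i ∈ Finset.range n, c i * stp (p' i) (p' (i + 1)) (p' k) =
        ∑ i ∈ Finset.range k, c i := by
      rw [← Finset.sum_subset (Finset.range_subset_range.2 hk)
        (f := fun i => c i * stp (p' i) (p' (i + 1)) (p' k))]
      · refine Finset.sum_congr rfl fun i hi => ?_
        have hi' := Finset.mem_range.1 hi
        rw [stp_one (h' i (by omega)) (len i (by omega)) (mono (i + 1) k (by omega) hk), mul_one]
        have h2 := mono k n hk le_rfl
        have h3 := mono 0 i (by omega) (by omega)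
        linarith
      · intro i hi hi2
        have hi' := Finset.mem_range.1 hi
        have hki : k ≤ i := by
          by_contra hcon
          exact hi2 (Finset.mem_range.2 (by omega))
        rw [stp_zero (h' i hi') (len i hi') ?_ (mono k i hki hi'.le), mul_zero]
        have h2 := mono (i + 1) n (by omega) le_rfl
        have h3 := mono 0 k (by omega) hk
        linarith
    simp only
    rw [h1, csum]
    ring

/-- interleaving of two sequences -/
def itl (a b : ℕ → ℝ) (k : ℕ) : ℝ := if k % 2 = 0 then a (k / 2) else b (k / 2)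

theorem itl_even (a b : ℕ → ℝ) (i : ℕ) : itl a b (2 * i) = a i := by
  unfold itl
  rw [if_pos (by omega), Nat.mul_div_cancel_left i (by norm_num)]

theorem itl_odd (a b : ℕ → ℝ) (i : ℕ) : itl a b (2 * i + 1) = b i := by
  unfold itl
  rw [if_neg (by omega)]
  congr 1
  omega

theorem itl_zero (a b : ℕ → ℝ) : itl a b 0 = a 0 := itl_even a b 0

theorem itl_lt {M : ℕ} {a b : ℕ → ℝ} (h : Arcs M a b) : ∀ k < 2 * (M + 1),
    itl a b k < itl a b (k + 1) := by
  intro k hk
  rcases Nat.even_or_odd' k with ⟨i, rfl | rfl⟩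
  · rw [itl_even, itl_odd]
    exact h.ab i (by omega)
  · rw [itl_odd, show 2 * i + 1 + 1 = 2 * (i + 1) by ring, itl_even]
    exact h.ba i (by omega)

/-- **GLN-DIFF** -/
theorem diffP : DiffP := by
  intro M a b a' b' h h'
  obtain ⟨f, hf, hper, hpos, hval⟩ := exists_diffeo (n := 2 * (M + 1)) (by omega)
    (p' := itl a' b') (p := itl a b) (itl_lt h') (itl_lt h)
    (by rw [itl_even, h'.last, itl_zero]) (by rw [itl_even, h.last, itl_zero])
  refine ⟨f, hf, hper, hpos, fun i hi => ⟨?_, fun hi2 => ?_⟩⟩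
  · have h1 := hval (2 * i) (by omega)
    rwa [itl_even, itl_even] at h1
  · have h1 := hval (2 * i + 1) (by omega)
    rwa [itl_odd, itl_odd] at h1

end Crest.Agent.R267.GlnDiff_684
end
end

-- ▼ part R267/GlnAlign_684

/-!
# Row 267 (helper684): GLN-ALIGN, change of degrees and arcs by a star homeomorphism

`sm p h z = |z|^p cis (h (arg z))`.
-/

set_option autoImplicit false

noncomputable section

open Set Filter Topology
open Crest.Agent.R267.Ang_739 Crest.Agent.R267.GlNDefs_9 Crest.Agent.R267.Hm_951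
open Crest.Agent.R267.T3aNDefs_88 Crest.Agent.R267.Cone_808

namespace Crest.Agent.R267.GlnAlign_684

/-! ### star homeomorphisms of the plane -/

/-- lift of a map of the circle -/
structure CL (h : ℝ → ℝ) : Prop where
  cont : Continuous h
  per : ∀ x, h (x + 2 * Real.pi) = h x + 2 * Real.pi

/-- star map -/
def sm (p : ℝ) (h : ℝ → ℝ) (z : ℂ) : ℂ := pol p (fun x => cis (h x)) z

theorem cis_two_pi (x : ℝ) : cis (x + 2 * Real.pi) = cis x := by
  have := cis_per x 1
  simpa using this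

theorem CL.cis {h : ℝ → ℝ} (H : CL h) : Per fun x => cis (h x) := fun x => by
  show Ang_739.cis (h (x + 2 * Real.pi)) = _
  rw [H.per, cis_two_pi]

theorem sm_eq (p : ℝ) (h : ℝ → ℝ) (z : ℂ) :
    sm p h z = ((‖z‖ ^ p : ℝ) : ℂ) * Complex.exp ((h (Complex.arg z) : ℝ) * Complex.I) := rfl

theorem norm_sm (p : ℝ) (h : ℝ → ℝ) (z : ℂ) : ‖sm p h z‖ = ‖z‖ ^ p := by
  unfold sm pol
  rw [norm_smul, norm_cis, mul_one, Real.norm_of_nonneg (Real.rpow_nonneg (norm_nonneg _) _)]

theorem sm_zero {p : ℝ} (hp : 0 < p) (h : ℝ → ℝ) : sm p h 0 = 0 := pol_zero hp.ne' _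

/-- polar functions after a star map -/
theorem pol_sm {F : Type*} [NormedAddCommGroup F] [NormedSpace ℝ F] {q : ℝ → F} (hq : Per q)
    {D p : ℝ} (hD : D ≠ 0) (hp : 0 < p) (h : ℝ → ℝ) (z : ℂ) :
    pol D q (sm p h z) = pol (p * D) (fun x => q (h x)) z := by
  by_cases hz : z = 0
  · rw [hz, sm_zero hp, pol_zero hD, pol_zero (mul_ne_zero hp.ne' hD)]
  · have hn : 0 < ‖z‖ := norm_pos_iff.2 hz
    rw [sm_eq, pol_polar D hq (Real.rpow_pos_of_pos hn p), ← Real.rpow_mul hn.le]
    rfl

theorem sm_cont {p : ℝ} (hp : 0 < p) {h : ℝ → ℝ} (H : CL h) : Continuous (sm p h) := by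
  rw [continuous_iff_continuousAt]
  intro z
  by_cases hz : z = 0
  · rw [hz]
    unfold ContinuousAt
    rw [sm_zero hp, tendsto_zero_iff_norm_tendsto_zero]
    simp only [norm_sm]
    have h1 : ContinuousAt (fun z : ℂ => ‖z‖ ^ p) 0 :=
      continuous_norm.continuousAt.rpow_const (Or.inr hp.le)
    have h2 := h1.tendsto
    rwa [norm_zero, Real.zero_rpow hp.ne'] at h2
  · have h1 : ContinuousAt (fun z : ℂ => ‖z‖ ^ p) z :=
      continuous_norm.continuousAt.rpow_const (Or.inr hp.le)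
    have h2 : ContDiffAt ℝ 0 (fun x => cis (h x)) (Complex.arg z) :=
      (contDiff_zero.2 ((contDiff_cis (n := 0)).continuous.comp H.cont)).contDiffAt
    exact h1.smul (contDiffAt_ang H.cis hz h2).continuousAt

theorem sm_sm {p p' : ℝ} (hp : 0 < p) (hpp : p' * p = 1) {h g : ℝ → ℝ} (H : CL h)
    (hg : ∀ x, h (g x) = x) (z : ℂ) : sm p h (sm p' g z) = z := by
  have hp' : 0 < p' := by
    rcases lt_trichotomy p' 0 with h1 | h1 | h1
    · nlinarith
    · rw [h1] at hpp; simp at hpp
    · exact h1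
  show pol p (fun x => cis (h x)) (sm p' g z) = z
  rw [pol_sm H.cis hp.ne' hp', hpp]
  show ((‖z‖ ^ (1 : ℝ)) : ℝ) • cis (h (g (Complex.arg z))) = z
  rw [hg, Real.rpow_one, Complex.real_smul]
  exact Complex.norm_mul_exp_arg_mul_I z

/-- the star homeomorphism -/
def smH (p : ℝ) (hp : 0 < p) (h g : ℝ → ℝ) (H : CL h) (G : CL g) (hg : ∀ x, h (g x) = x)
    (gh : ∀ x, g (h x) = x) : ℂ ≃ₜ ℂ where
  toFun := sm p h
  invFun := sm p⁻¹ g
  left_inv z := sm_sm (inv_pos.2 hp) (mul_inv_cancel₀ hp.ne') G gh z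
  right_inv z := sm_sm hp (inv_mul_cancel₀ hp.ne') H hg z
  continuous_toFun := sm_cont hp H
  continuous_invFun := sm_cont (inv_pos.2 hp) G

/-- inverse of a circle diffeomorphism -/
theorem exists_inv {h : ℝ → ℝ} (H : CL h) (hm : StrictMono h) :
    ∃ g : ℝ → ℝ, CL g ∧ (∀ x, h (g x) = x) ∧ ∀ x, g (h x) = x := by
  have hpi : 0 < 2 * Real.pi := by positivity
  have hn : ∀ (n : ℕ) (x : ℝ), h (x + n * (2 * Real.pi)) = h x + n * (2 * Real.pi) := by
    intro n
    induction n with
    | zero => intro x; simp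
    | succ n ih =>
      intro x
      have e : x + ((n + 1 : ℕ) : ℝ) * (2 * Real.pi) = (x + n * (2 * Real.pi)) + 2 * Real.pi := by
        push_cast; ring
      rw [e, H.per, ih]
      push_cast; ring
  have hn' : ∀ (n : ℕ) (x : ℝ), h (x - n * (2 * Real.pi)) = h x - n * (2 * Real.pi) := by
    intro n x
    have := hn n (x - n * (2 * Real.pi))
    rw [sub_add_cancel] at this
    linarith
  have hs : Function.Surjective h := by
    intro y
    obtain ⟨n, hn1⟩ := exists_nat_gt (|y - h 0| / (2 * Real.pi))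
    rw [div_lt_iff₀ hpi] at hn1
    have h1 : h (0 - n * (2 * Real.pi)) ≤ y := by
      rw [hn']; linarith [neg_abs_le (y - h 0)]
    have h2 : y ≤ h (0 + n * (2 * Real.pi)) := by
      rw [hn]; linarith [le_abs_self (y - h 0)]
    have h3 : (0 : ℝ) - n * (2 * Real.pi) ≤ 0 + n * (2 * Real.pi) := by
      have : (0 : ℝ) ≤ n * (2 * Real.pi) := by positivity
      linarith
    obtain ⟨x, -, hx⟩ := intermediate_value_Icc h3 H.cont.continuousOn ⟨h1, h2⟩
    exact ⟨x, hx⟩
  let e : ℝ ≃o ℝ := StrictMono.orderIsoOfSurjective h hm hs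
  have e1 : ∀ x, e x = h x := fun x => rfl
  refine ⟨e.symm, ⟨e.symm.continuous, fun x => ?_⟩, fun x => ?_, fun x => ?_⟩
  · apply e.injective
    rw [e.apply_symm_apply, e1, H.per, ← e1, e.apply_symm_apply]
  · rw [← e1, e.apply_symm_apply]
  · rw [← e1, e.symm_apply_apply]

/-! ### composition with a circle diffeomorphism -/

section Comp

variable {M : ℕ} {a b a' b' : ℕ → ℝ} {h : ℝ → ℝ}

/-- a circle diffeomorphism moving arcs to arcs -/
structure DF (M : ℕ) (a b a' b' : ℕ → ℝ) (h : ℝ → ℝ) : Prop where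
  smooth : ContDiff ℝ 2 h
  per : ∀ x, h (x + 2 * Real.pi) = h x + 2 * Real.pi
  pos : ∀ x, 0 < deriv h x
  val : ∀ i ≤ M + 1, h (a' i) = a i ∧ (i ≤ M → h (b' i) = b i)

theorem DF.mono (H : DF M a b a' b' h) : StrictMono h := strictMono_of_deriv_pos H.pos

theorem DF.cl (H : DF M a b a' b' h) : CL h := ⟨H.smooth.continuous, H.per⟩

theorem DF.wrd (H : DF M a b a' b' h) {e : ℕ → ℝ} {φ : ℝ → ℝ} (W : Wrd e M a b φ) :
    Wrd e M a' b' fun x => φ (h x) where
  smooth := W.smooth.comp H.smooth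
  per x := by rw [H.per, W.per]
  arc i hi x h1 h2 := by
    have h3 : a i ≤ h x := by rw [← (H.val i (by omega)).1]; exact H.mono.monotone h1
    have h4 : h x ≤ b i := by rw [← (H.val i (by omega)).2 hi]; exact H.mono.monotone h2
    obtain ⟨h5, h6⟩ := W.arc i hi (h x) h3 h4
    refine ⟨h5, ?_⟩
    have hd : HasDerivAt (fun x => φ (h x)) (deriv φ (h x) * deriv h x) x :=
      HasDerivAt.comp x ((W.smooth.differentiable (by norm_num)) (h x)).hasDerivAt
        ((H.smooth.differentiable (by norm_num)) x).hasDerivAt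
    rw [hd.deriv, ← mul_assoc]
    exact mul_pos h6 (H.pos x)
  gap i hi x h1 h2 := by
    refine W.gap i hi (h x) ?_ ?_
    · rw [← (H.val i (by omega)).2 hi]; exact H.mono h1
    · rw [← (H.val (i + 1) (by omega)).1]; exact H.mono h2

theorem DF.win (H : DF M a b a' b' h) {lo hi : ℕ} {l : ℝ → ℝ} (W : WinA M a b lo hi l) :
    WinA M a' b' lo hi fun x => l (h x) where
  smooth := W.smooth.comp H.smooth
  per x := by rw [H.per, W.per]
  nn x := W.nn _
  le x := W.le _
  val i hi' x h1 h2 := by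
    refine W.val i hi' (h x) ?_ ?_
    · rw [← (H.val i (by omega)).1]; exact H.mono.monotone h1
    · rw [← (H.val i (by omega)).2 hi']; exact H.mono.monotone h2

end Comp

/-! ### ALIGN -/

theorem sm_act {p : ℝ} (h : ℝ → ℝ) {r : ℝ} (hr : 0 < r) (z : ℂ) :
    sm p h ((r : ℂ) * z) = ((r ^ p : ℝ) : ℂ) * sm p h z := by
  unfold sm
  rw [pol_hom p _ r hr z, Complex.real_smul]

variable {N : ℕ}

/-- **GLN-ALIGN** -/
theorem alignP_of (hD : DiffP) (D : SD N) : AlignP D := by
  intro X hX dg' a' b' hdg' hdg2 har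
  choose h h1 h2 h3 h4 using fun j : Fin N =>
    hD (D.M j) (X.a j) (X.b j) (a' j) (b' j) (hX.arcs j) (har j)
  have H : ∀ j, DF (D.M j) (X.a j) (X.b j) (a' j) (b' j) (h j) := fun j =>
    ⟨h1 j, h2 j, h3 j, h4 j⟩
  choose g g1 g2 g3 using fun j : Fin N => exists_inv (H j).cl (H j).mono
  have hd0 : ∀ j, 0 < X.dg j := fun j => by have := hX.hdg j; linarith
  have hd0' : ∀ j, 0 < dg' j := fun j => by have := hdg' j; linarith
  have hp : ∀ j, 0 < dg' j / X.dg j := fun j => div_pos (hd0' j) (hd0 j)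
  let Y : PD D :=
    { dg := dg'
      ph := fun j x => X.ph j (h j x)
      a := a'
      b := b'
      c := X.c
      lam := fun e j x => X.lam e j (h j x) }
  have hY : Y.Ok :=
    { hdg := hdg'
      hdg2 := hdg2
      arcs := har
      ph := fun j => (H j).wrd (hX.ph j)
      hc := hX.hc
      lam := fun e j hj => (H j).win (hX.lam e j hj) }
  refine ⟨Y, hY, rfl, rfl, rfl, ZEq.symm ?_⟩
  let Φ : (Fin N → ℂ) ≃ₜ (Fin N → ℂ) := Homeomorph.piCongrRight fun j =>
    smH (dg' j / X.dg j) (hp j) (h j) (g j) (H j).cl (g1 j) (g2 j) (g3 j)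
  have hΦ : ∀ z j, Φ z j = sm (dg' j / X.dg j) (h j) (z j) := fun z j => rfl
  have hcd : ∀ e, 0 < cd D e := fun e => by have := SegN_951.cd_two D e; linarith
  have key : ∀ z, Y.fn z = X.fn (Φ z) := by
    intro z
    have k1 : ∀ j, pc (dg' j) 1 (fun x => X.ph j (h j x)) (z j) = pc (X.dg j) 1 (X.ph j) (Φ z j) := by
      intro j
      rw [hΦ]
      unfold pc
      rw [pol_sm (SegN_951.wrd_per (SegN_951.sn_pm D j) (hX.ph j) 1) (hd0 j).ne' (hp j),
        div_mul_cancel₀ _ (hd0 j).ne']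
    have k2 : ∀ e, ∀ j ∈ (D.bx e).S, pol (dg' j / cd D e) (fun x => X.lam e j (h j x)) (z j) =
        pol (X.dg j / cd D e) (X.lam e j) (Φ z j) := by
      intro e j hj
      rw [hΦ, pol_sm (hX.lam e j hj).per (div_pos (hd0 j) (hcd e)).ne' (hp j)]
      congr 1
      have := (hd0 j).ne'
      have := (hcd e).ne'
      field_simp
    unfold PD.fn
    show ∑ j, pc (dg' j) 1 (fun x => X.ph j (h j x)) (z j) -
      ((∑ e, X.c e * ∏ j ∈ (D.bx e).S, pol (dg' j / cd D e) (fun x => X.lam e j (h j x)) (z j) : ℝ)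
        : ℂ) = _
    have k3 : ∑ j, pc (dg' j) 1 (fun x => X.ph j (h j x)) (z j) =
        ∑ j, pc (X.dg j) 1 (X.ph j) (Φ z j) := Finset.sum_congr rfl fun j _ => k1 j
    have k4 : ∑ e, X.c e * ∏ j ∈ (D.bx e).S, pol (dg' j / cd D e) (fun x => X.lam e j (h j x))
        (z j) = ∑ e, X.c e * ∏ j ∈ (D.bx e).S, pol (X.dg j / cd D e) (X.lam e j) (Φ z j) :=
      Finset.sum_congr rfl fun e _ => by rw [Finset.prod_congr rfl (k2 e)]
    rw [k3, k4]
  refine zeq_of_equiv (w := fun j => (dg' j)⁻¹) (w' := fun j => (X.dg j)⁻¹)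
    (fun j => inv_pos.2 (hd0' j)) (fun j => inv_pos.2 (hd0 j)) ?_ Φ ?_ ?_
  · intro s x h0
    rw [SegN_951.pd_wh hX s x, h0, smul_zero]
  · intro s x
    funext j
    rw [hΦ]
    show sm (dg' j / X.dg j) (h j) ((Real.exp (s * (dg' j)⁻¹) : ℂ) * x j) =
      (Real.exp (s * (X.dg j)⁻¹) : ℂ) * Φ x j
    rw [sm_act _ (Real.exp_pos _), hΦ, ← Real.exp_mul]
    congr 3
    have := (hd0 j).ne'
    have := (hd0' j).ne'
    field_simp
  · intro x
    rw [key]

theorem alignP (D : SD N) : AlignP D := alignP_of GlnDiff_684.diffP D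

end Crest.Agent.R267.GlnAlign_684
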