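import Crest.Agent.R267.Calc5_957
import Crest.Agent.R267.CalcN_88
import Crest.Agent.R267.Curve_867
import Crest.Agent.R267.R4_996
import Crest.Agent.R267.AbsK_996

-- ▼ part R267/Calc3N_88
section

/-!
# Row 267, T3aN: derivatives of the cut-offs and of the terms of `G` (signed lobes)
-/

set_option autoImplicit false

noncomputable section

namespace Crest.Agent.R267.Calc3N_88

open Finset
open Crest.Agent.R267.T3aDefs_957 (st Af Bf pg NN chi)
open Crest.Agent.R267.T3aNDefs_88 Crest.Agent.R267.CalcN_88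
open Crest.Agent.R267.Calc2_957 Crest.Agent.R267.Calc_957
open Crest.Agent.R267.Calc3_957 (rej imj rej_apply imj_apply AA BB sr si sr_apply si_apply
  AA_nonneg BB_nonneg re_sq_le_AA im_sq_le_BB AA_add_BB_ne dNN NN_pos NN_nonneg NN_sq
  sqrt_AA_le_NN NN_of_le hasFDerivAt_NN dNN_of_le chid hasDerivAt_chi chi_of_le chid_of_le
  chi_of_ge chid_of_ge chi_nonneg chi_le_one chi_pos lt_of_chi_ne chi_lt_one chid_nonneg chid_le
  mul_chid_le chid_mul_nonneg one_le_N pg_le_norm re_pos_nhds)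

variable {N : ℕ}

section D

variable (D : SD N)

theorem K1_nonneg : 0 ≤ D.K1 := by unfold SD.K1; positivity

theorem K_nonneg : 0 ≤ D.K := by unfold SD.K; exact mul_nonneg (K1_nonneg D) (Nat.cast_nonneg _)

theorem M_le_Mx (j : Fin N) : D.M j ≤ D.Mx :=
  single_le_sum (f := D.M) (fun _ _ => Nat.zero_le _) (mem_univ j)

theorem le_K1 (j : Fin N) : 16 * (D.M j : ℝ) + 2 ≤ D.K1 := by
  have h1 : (D.M j : ℝ) ≤ D.Mx := by exact_mod_cast M_le_Mx D j
  have h2 := one_le_N j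
  unfold SD.K1
  have h3 : (0 : ℝ) ≤ D.Mx := Nat.cast_nonneg _
  nlinarith

theorem K1_le_K (j : Fin N) : D.K1 ≤ D.K := by
  unfold SD.K
  have h2 := one_le_N j
  have := K1_nonneg D
  nlinarith

theorem le_K (j : Fin N) : 16 * (D.M j : ℝ) + 2 ≤ D.K := (le_K1 D j).trans (K1_le_K D j)

theorem xr_nonneg (z : Fin N → ℂ) (j : Fin N) : 0 ≤ D.xr z j :=
  div_nonneg (pg_nonneg _ _) (NN_nonneg _ _)

theorem ch_nonneg (d : ℝ) (z : Fin N → ℂ) (j : Fin N) : 0 ≤ D.ch d z j := chi_nonneg _ _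

theorem ch_le_one (d : ℝ) (z : Fin N → ℂ) (j : Fin N) : D.ch d z j ≤ 1 := chi_le_one _ _

theorem R_nonneg (d : ℝ) (z : Fin N → ℂ) (j : Fin N) : 0 ≤ D.R d z j :=
  mul_nonneg (ch_nonneg D d z j) (le_max_left _ _)

/-- derivative of the relative size. -/
def dxr (z : Fin N → ℂ) (j : Fin N) : (Fin N → ℂ) →L[ℝ] ℝ :=
  (1 / NN D.K1 z) • (ps D.K (z j) • rej j + pt D.K (z j) • imj j) -
    (D.xr z j / NN D.K1 z) • dNN D.K1 z

theorem hasFDerivAt_xr {z : Fin N → ℂ} (hz : z ≠ 0) {j : Fin N} (hj : z j ≠ 0) :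
    HasFDerivAt (fun w => D.xr w j) (dxr D z j) z := by
  have h1 : HasFDerivAt (fun w : Fin N → ℂ => pg D.K (w j))
      (ps D.K (z j) • rej j + pt D.K (z j) • imj j) z := by
    have h2 : HasFDerivAt (fun w : Fin N → ℂ => w j)
        (ContinuousLinearMap.proj (R := ℝ) (φ := fun _ : Fin N => ℂ) j) z :=
      (ContinuousLinearMap.proj (R := ℝ) (φ := fun _ : Fin N => ℂ) j).hasFDerivAt
    have h3 := HasFDerivAt.comp (g := pg D.K) (f := fun w : Fin N → ℂ => w j) z
      (hasFDerivAt_pg D.K hj) h2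
    refine HasFDerivAt.congr_fderiv h3 ?_
    ext w
    simp
  have h4 := fdiv h1 (hasFDerivAt_NN D.K1 hz) (NN_pos hz).ne'
  refine HasFDerivAt.congr_fderiv h4 ?_
  have hp0 := (NN_pos (K := D.K1) hz).ne'
  ext w
  simp only [dxr, SD.xr, ContinuousLinearMap.sub_apply, ContinuousLinearMap.smul_apply,
    smul_eq_mul]
  field_simp

/-- derivative of the cut-off. -/
def dch (d : ℝ) (z : Fin N → ℂ) (j : Fin N) : (Fin N → ℂ) →L[ℝ] ℝ :=
  chid d (D.xr z j) • dxr D z j

theorem xr_of_zero {z : Fin N → ℂ} {j : Fin N} (hj : z j = 0) : D.xr z j = 0 := by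
  unfold SD.xr
  rw [hj, pg_zero, zero_div]

/-- near a point with `z j = 0` the relative size of `z j` is small. -/
theorem xr_nhds {z : Fin N → ℂ} (hz : z ≠ 0) {j : Fin N} (hj : z j = 0) {d : ℝ} (hd : 0 < d) :
    ∀ᶠ w in nhds z, D.xr w j < d := by
  have h1 : ContinuousAt (fun w : Fin N → ℂ => ‖w j‖ - d * NN D.K1 w) z := by
    refine ContinuousAt.sub ?_ (ContinuousAt.mul continuousAt_const
      (hasFDerivAt_NN D.K1 hz).continuousAt)
    exact (continuous_apply j).norm.continuousAt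
  have h2 : ‖z j‖ - d * NN D.K1 z < 0 := by
    rw [hj, norm_zero, zero_sub, neg_lt_zero]
    exact mul_pos hd (NN_pos hz)
  have h3 : ∀ᶠ w : Fin N → ℂ in nhds z, 0 < NN D.K1 w :=
    (hasFDerivAt_NN D.K1 hz).continuousAt.eventually (lt_mem_nhds (NN_pos hz))
  filter_upwards [h1.eventually (gt_mem_nhds h2), h3] with w hw hw3
  unfold SD.xr
  rw [div_lt_iff₀ hw3]
  have := pg_le_norm D.K (w j)
  linarith

theorem dch_of_le {d : ℝ} (hd : 0 < d) {z : Fin N → ℂ} {j : Fin N} (h : D.xr z j ≤ d) :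
    dch D d z j = 0 := by
  unfold dch
  rw [chid_of_le hd h, zero_smul]

theorem ch_of_le {d : ℝ} (hd : 0 < d) {z : Fin N → ℂ} {j : Fin N} (h : D.xr z j ≤ d) :
    D.ch d z j = 0 := chi_of_le hd h

theorem hasFDerivAt_ch {d : ℝ} (hd : 0 < d) {z : Fin N → ℂ} (hz : z ≠ 0) (j : Fin N) :
    HasFDerivAt (fun w => D.ch d w j) (dch D d z j) z := by
  by_cases hj : z j = 0
  · rw [dch_of_le D hd (by rw [xr_of_zero D hj]; exact hd.le)]
    refine (hasFDerivAt_const (0 : ℝ) z).congr_of_eventuallyEq ?_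
    filter_upwards [xr_nhds D hz hj hd] with w hw
    exact ch_of_le D hd hw.le
  · have h1 := HasDerivAt.comp_hasFDerivAt (h₂ := chi d) (f := fun w => D.xr w j) z
      (hasDerivAt_chi d (D.xr z j)) (hasFDerivAt_xr D hz hj)
    exact h1

theorem ch_zero_nhds {d : ℝ} (hd : 0 < d) {z : Fin N → ℂ} (hz : z ≠ 0) {j : Fin N}
    (hj : z j = 0) : ∀ᶠ w in nhds z, D.ch d w j = 0 := by
  filter_upwards [xr_nhds D hz hj hd] with w hw
  exact ch_of_le D hd hw.le

/-! ### the terms of `G` -/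

/-- derivative of `χ_j P_j`. -/
def dT (ga d : ℝ) (z : Fin N → ℂ) (j : Fin N) : (Fin N → ℂ) →L[ℝ] ℂ :=
  (dch D d z j).smulRight (plN ga (D.sn j) (D.M j) (z j)) +
    D.ch d z j • ((rej j).smulRight (paN ga (D.sn j) (D.M j) (z j)) + (imj j).smulRight (pbN (D.sn j) (D.M j) (z j)))

theorem dT_apply (ga d : ℝ) (z : Fin N → ℂ) (j : Fin N) (y : Fin N → ℂ) :
    dT D ga d z j y = (dch D d z j y : ℂ) * plN ga (D.sn j) (D.M j) (z j) +
      (D.ch d z j : ℂ) * (((y j).re : ℂ) * paN ga (D.sn j) (D.M j) (z j) +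
        ((y j).im : ℂ) * pbN (D.sn j) (D.M j) (z j)) := by
  simp [dT]
  ring

theorem hasFDerivAt_T (ga : ℝ) {d : ℝ} (hd : 0 < d) {z : Fin N → ℂ} (hz : z ≠ 0) (j : Fin N) :
    HasFDerivAt (fun w => (D.ch d w j : ℂ) * plN ga (D.sn j) (D.M j) (w j)) (dT D ga d z j) z := by
  by_cases hj : z j = 0
  · have h0 : dT D ga d z j = 0 := by
      have hx : D.xr z j ≤ d := by rw [xr_of_zero D hj]; exact hd.le
      ext w
      simp [dT, dch_of_le D hd hx, ch_of_le D hd hx]
    rw [h0]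
    refine (hasFDerivAt_const (0 : ℂ) z).congr_of_eventuallyEq ?_
    filter_upwards [ch_zero_nhds D hd hz hj] with w hw
    rw [hw]
    simp
  · have h2 : HasFDerivAt (fun w : Fin N → ℂ => w j)
        (ContinuousLinearMap.proj (R := ℝ) (φ := fun _ : Fin N => ℂ) j) z :=
      (ContinuousLinearMap.proj (R := ℝ) (φ := fun _ : Fin N => ℂ) j).hasFDerivAt
    have h3 := HasFDerivAt.comp (g := plN ga (D.sn j) (D.M j)) (f := fun w : Fin N → ℂ => w j) z
      (hasFDerivAt_plN ga (D.sn j) (D.M j) hj) h2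
    have h4 := (hasFDerivAt_ch D hd hz j).smul h3
    have h5 : (fun w : Fin N → ℂ => (D.ch d w j : ℂ) * plN ga (D.sn j) (D.M j) (w j)) =
        (fun w : Fin N → ℂ => D.ch d w j) • (plN ga (D.sn j) (D.M j) ∘ fun w : Fin N → ℂ => w j) := by
      funext w
      simp
    rw [h5]
    refine HasFDerivAt.congr_fderiv h4 ?_
    ext w
    simp [dT]
    ring

/-- derivative of `R_j` (for `0 < s_j`). -/
def dR (d : ℝ) (z : Fin N → ℂ) (j : Fin N) : (Fin N → ℂ) →L[ℝ] ℝ :=
  (z j).re • dch D d z j + D.ch d z j • rej j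

theorem dR_apply (d : ℝ) (z : Fin N → ℂ) (j : Fin N) (y : Fin N → ℂ) :
    dR D d z j y = (z j).re * dch D d z j y + D.ch d z j * (y j).re := by
  simp [dR]

theorem R_of_pos {d : ℝ} {z : Fin N → ℂ} {j : Fin N} (hj : 0 < (z j).re) :
    D.R d z j = D.ch d z j * (z j).re := by
  unfold SD.R
  rw [max_eq_right hj.le]

theorem R_of_nonpos {d : ℝ} {z : Fin N → ℂ} {j : Fin N} (hj : (z j).re ≤ 0) :
    D.R d z j = 0 := by
  unfold SD.R
  rw [max_eq_left hj, mul_zero]

theorem hasFDerivAt_R {d : ℝ} (hd : 0 < d) {z : Fin N → ℂ} (hz : z ≠ 0) {j : Fin N}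
    (hj : 0 < (z j).re) : HasFDerivAt (fun w => D.R d w j) (dR D d z j) z := by
  have h1 : (fun w => D.R d w j) =ᶠ[nhds z] fun w => D.ch d w j * rej j w := by
    filter_upwards [re_pos_nhds hj] with w hw
    exact R_of_pos D hw
  have h2 := (hasFDerivAt_ch D hd hz j).mul ((rej j).hasFDerivAt (x := z))
  refine (HasFDerivAt.congr_fderiv h2 ?_).congr_of_eventuallyEq h1
  ext w
  simp [dR]
  ring

theorem dR_of_R_eq_zero {d : ℝ} (hd : 0 < d) {z : Fin N → ℂ} {j : Fin N}
    (hj : 0 < (z j).re) (h : D.R d z j = 0) : dR D d z j = 0 := by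
  have h1 : D.ch d z j = 0 := by
    rw [R_of_pos D hj] at h
    rcases mul_eq_zero.1 h with h2 | h2
    · exact h2
    · exact absurd h2 hj.ne'
  have h2 : D.xr z j ≤ d := by
    by_contra h3
    exact (chi_pos hd (not_le.1 h3)).ne' h1
  unfold dR
  rw [dch_of_le D hd h2, h1, smul_zero, zero_smul, add_zero]

end D

end Crest.Agent.R267.Calc3N_88
end
end

-- ▼ part R267/Calc4N_88
section

/-!
# Row 267, T3aN: derivative of the signed `G` and its values in the region II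
-/

set_option autoImplicit false

noncomputable section

namespace Crest.Agent.R267.Calc4N_88

open Finset
open Crest.Agent.R267.T3aDefs_957 (st Af Bf pg NN chi)
open Crest.Agent.R267.T3aDefs_957.LD (vt vs)
open Crest.Agent.R267.T3aNDefs_88 Crest.Agent.R267.CalcN_88 Crest.Agent.R267.Calc3N_88
open Crest.Agent.R267.Calc2_957 Crest.Agent.R267.Calc_957
open Crest.Agent.R267.Calc3_957 (rej imj rej_apply imj_apply AA BB sr si sr_apply si_apply
  AA_nonneg BB_nonneg re_sq_le_AA im_sq_le_BB AA_add_BB_ne dNN NN_pos NN_nonneg NN_sq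
  sqrt_AA_le_NN NN_of_le hasFDerivAt_NN dNN_of_le chid hasDerivAt_chi chi_of_le chid_of_le
  chi_of_ge chid_of_ge chi_nonneg chi_le_one chi_pos lt_of_chi_ne chi_lt_one chid_nonneg chid_le
  mul_chid_le chid_mul_nonneg one_le_N pg_le_norm re_pos_nhds)
open Crest.Agent.R267.Calc4_957 (tau dtau dtau_apply hasFDerivAt_tauj hasFDerivAt_zero_of_le
  vt_re vt_im vs_re vs_im vt_eq_sum vs_eq S)

variable {N : ℕ}

/-! ### the harmonic combination -/

section Hm

variable {ι : Type} {T : Finset ι} {R : ι → ℝ}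

theorem Hm_of_pos (h : ∀ j ∈ T, 0 < R j) : Hm T R = 1 / ∑ j ∈ T, 1 / R j := by
  unfold Hm
  rw [if_pos h]

theorem Hm_of_nonpos {j : ι} (hj : j ∈ T) (h : R j ≤ 0) : Hm T R = 0 := by
  unfold Hm
  rw [if_neg fun h1 => absurd (h1 j hj) (not_lt.2 h)]

theorem Hm_nonneg : 0 ≤ Hm T R := by
  unfold Hm
  split_ifs with h
  · exact div_nonneg zero_le_one (sum_nonneg fun j hj => (div_pos one_pos (h j hj)).le)
  · exact le_refl _

theorem Hm_le {j : ι} (hj : j ∈ T) (h : 0 ≤ R j) : Hm T R ≤ R j := by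
  unfold Hm
  split_ifs with h1
  · have h2 : 1 / R j ≤ ∑ i ∈ T, 1 / R i :=
      single_le_sum (f := fun i => 1 / R i) (fun i hi => (div_pos one_pos (h1 i hi)).le) hj
    have h3 : 0 < 1 / R j := div_pos one_pos (h1 j hj)
    calc 1 / ∑ i ∈ T, 1 / R i ≤ 1 / (1 / R j) := one_div_le_one_div_of_le h3 h2
      _ = R j := one_div_one_div _
  · exact h

theorem pos_of_Hm (h : 0 < Hm T R) : ∀ j ∈ T, 0 < R j := by
  intro j hj
  by_contra h1
  rw [Hm_of_nonpos hj (not_lt.1 h1)] at h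
  exact lt_irrefl _ h



/-- Cauchy–Schwarz for the weights `H / R j`, which have sum `1`. -/
theorem Hm_sum_sq {n : ℝ} (hn : (T.card : ℝ) ≤ n) (h : 0 < Hm T R) :
    1 / n ≤ ∑ j ∈ T, (Hm T R / R j) ^ 2 := by
  have h1 := pos_of_Hm h
  have h2 : ∑ j ∈ T, Hm T R / R j = 1 := by
    have h3 : ∑ j ∈ T, Hm T R / R j = Hm T R * ∑ j ∈ T, 1 / R j := by
      rw [mul_sum]
      exact sum_congr rfl fun j _ => by ring
    rw [h3]
    have h4 : Hm T R = 1 / ∑ j ∈ T, 1 / R j := Hm_of_pos h1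
    have h5 : ∑ j ∈ T, 1 / R j ≠ 0 := by
      intro h6
      rw [h6, div_zero] at h4
      exact h.ne' h4
    rw [h4]
    field_simp
  have h3 := sq_sum_le_card_mul_sum_sq (s := T) (f := fun j => Hm T R / R j)
  rw [h2] at h3
  have h4 : 0 ≤ ∑ j ∈ T, (Hm T R / R j) ^ 2 := sum_nonneg fun _ _ => sq_nonneg _
  have h5 : (1 : ℝ) ≤ n * ∑ j ∈ T, (Hm T R / R j) ^ 2 := by
    have := mul_le_mul_of_nonneg_right hn h4
    linarith
  have h6 : 0 < n := by
    by_contra h7
    have := mul_nonpos_of_nonpos_of_nonneg (not_lt.1 h7) h4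
    linarith
  rw [div_le_iff₀ h6]
  linarith

end Hm

section D

variable (D : SD N)

/-- harmonic combination of the box `e`. -/
def hh (d : ℝ) (z : Fin N → ℂ) (e : Fin D.nb) : ℝ := Hm (D.bx e).S (D.R d z)

/-- `∂ hh / ∂ R j`. -/
def hd (d : ℝ) (z : Fin N → ℂ) (e : Fin D.nb) (j : Fin N) : ℝ := (hh D d z e / D.R d z j) ^ 2

/-- window of the variable `j` in the box `e`. -/
def la (z : Fin N → ℂ) (e : Fin D.nb) (j : Fin N) : ℝ :=
  winN ((D.bx e).lo j) ((D.bx e).hi j) (tau z j)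

/-- its derivative. -/
def lad (z : Fin N → ℂ) (e : Fin D.nb) (j : Fin N) : ℝ :=
  wdN ((D.bx e).lo j) ((D.bx e).hi j) (tau z j)

/-- product of the windows of a box. -/
def Pw (z : Fin N → ℂ) (e : Fin D.nb) : ℝ := ∏ j ∈ (D.bx e).S, la D z e j

/-- product of the windows of a box without the variable `j`. -/
def Pe (z : Fin N → ℂ) (e : Fin D.nb) (j : Fin N) : ℝ := ∏ i ∈ (D.bx e).S.erase j, la D z e i

theorem Be_eq (d : ℝ) (z : Fin N → ℂ) (e : Fin D.nb) :
    D.Be d e z = hh D d z e * Pw D z e := rfl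

theorem hh_nonneg (d : ℝ) (z : Fin N → ℂ) (e : Fin D.nb) : 0 ≤ hh D d z e := Hm_nonneg

theorem hd_nonneg (d : ℝ) (z : Fin N → ℂ) (e : Fin D.nb) (j : Fin N) : 0 ≤ hd D d z e j :=
  sq_nonneg _

theorem hh_le {e : Fin D.nb} {j : Fin N} (hj : j ∈ (D.bx e).S) (d : ℝ) (z : Fin N → ℂ) :
    hh D d z e ≤ D.R d z j := Hm_le hj (R_nonneg D d z j)


/-- **Cauchy–Schwarz**: the derivatives of the harmonic combination have sum at least `1/N`. -/
theorem h12 {d : ℝ} {z : Fin N → ℂ} {e : Fin D.nb} (h : 0 < hh D d z e) :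
    1 / (N : ℝ) ≤ ∑ j ∈ (D.bx e).S, hd D d z e j := by
  refine Hm_sum_sq ?_ h
  have := card_le_univ (D.bx e).S
  rw [Fintype.card_fin] at this
  exact_mod_cast this

theorem la_nonneg (z : Fin N → ℂ) (e : Fin D.nb) (j : Fin N) : 0 ≤ la D z e j := winN_nonneg _ _ _



theorem Pw_nonneg (z : Fin N → ℂ) (e : Fin D.nb) : 0 ≤ Pw D z e :=
  prod_nonneg fun j _ => la_nonneg D z e j





theorem Pw_of_la {z : Fin N → ℂ} {e : Fin D.nb} {j : Fin N} (hj : j ∈ (D.bx e).S)
    (h : la D z e j = 0) : Pw D z e = 0 := prod_eq_zero hj h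


theorem wdN_far {m m' : ℕ} {τ : ℝ} (h : 16 * (m' : ℝ) + 1 ≤ |τ|) : wdN m m' τ = 0 := by
  by_contra h1
  have hm : (0 : ℝ) ≤ m := m.cast_nonneg
  have hm' : (0 : ℝ) ≤ m' := m'.cast_nonneg
  have key : ∀ x : ℝ, 0 ≤ x → |τ| - x ≤ |τ - x| := by
    intro x hx
    have := abs_sub_abs_le_abs_sub τ x
    rwa [abs_of_nonneg hx] at this
  rcases wdN_ne h1 with ⟨h2, h3⟩ | h3
  · have h4 : (m : ℝ) + 1 ≤ m' := by exact_mod_cast h2
    have := key (16 * m) (by positivity)
    linarith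
  · have := key (16 * m') (by positivity)
    linarith

/-- steep variables are outside of all windows. -/
theorem win_far {m m' M : ℕ} (hm : m' ≤ M) {z : Fin N → ℂ} {j : Fin N} (h0 : 0 < (z j).re)
    (h : (16 * (M : ℝ) + 1) * (z j).re ≤ |(z j).im|) :
    winN m m' (tau z j) = 0 ∧ wdN m m' (tau z j) = 0 := by
  have h1 : (m' : ℝ) ≤ M := by exact_mod_cast hm
  have h2 : 16 * (m' : ℝ) + 1 ≤ |tau z j| := by
    unfold tau
    rw [abs_div, abs_of_pos h0, le_div_iff₀ h0]
    nlinarith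
  exact ⟨winN_far h2, wdN_far h2⟩

/-- derivative of `hh`. -/
def dhh (d : ℝ) (z : Fin N → ℂ) (e : Fin D.nb) : (Fin N → ℂ) →L[ℝ] ℝ :=
  ∑ j ∈ (D.bx e).S, hd D d z e j • dR D d z j

theorem hasFDerivAt_hh {d : ℝ} (hd0 : 0 < d) {z : Fin N → ℂ} (hz : z ≠ 0) {e : Fin D.nb}
    (ha : ∀ j ∈ (D.bx e).S, 0 < (z j).re) :
    HasFDerivAt (fun w => hh D d w e) (dhh D d z e) z := by
  by_cases h : ∀ j ∈ (D.bx e).S, 0 < D.R d z j
  · have h1 : ∀ᶠ w in nhds z, ∀ j ∈ (D.bx e).S, 0 < D.R d w j := by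
      rw [Filter.eventually_all_finset]
      intro j hj
      exact (hasFDerivAt_R D hd0 hz (ha j hj)).continuousAt.eventually (lt_mem_nhds (h j hj))
    have h2 : (fun w => hh D d w e) =ᶠ[nhds z] fun w => (∑ j ∈ (D.bx e).S, (D.R d w j)⁻¹)⁻¹ := by
      filter_upwards [h1] with w hw
      unfold hh
      rw [Hm_of_pos hw, one_div]
      congr 1
      exact sum_congr rfl fun j _ => one_div _
    have h3 : HasFDerivAt (fun w => ∑ j ∈ (D.bx e).S, (D.R d w j)⁻¹)
        (∑ j ∈ (D.bx e).S, (-((D.R d z j) ^ 2)⁻¹) • dR D d z j) z := by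
      refine HasFDerivAt.fun_sum fun j hj => ?_
      exact (hasDerivAt_inv (h j hj).ne').comp_hasFDerivAt z (hasFDerivAt_R D hd0 hz (ha j hj))
    have h4 : 0 < ∑ j ∈ (D.bx e).S, (D.R d z j)⁻¹ := by
      refine sum_pos (fun j hj => inv_pos.2 (h j hj)) ?_
      have := D.h2 e
      exact card_pos.1 (by omega)
    have h5 := (hasDerivAt_inv h4.ne').comp_hasFDerivAt z h3
    refine HasFDerivAt.congr_of_eventuallyEq ?_ h2
    refine HasFDerivAt.congr_fderiv h5 ?_
    unfold dhh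
    rw [smul_sum]
    refine sum_congr rfl fun j hj => ?_
    rw [smul_smul]
    congr 1
    have h6 : hh D d z e = (∑ j ∈ (D.bx e).S, (D.R d z j)⁻¹)⁻¹ := by
      unfold hh
      rw [Hm_of_pos h, one_div]
      congr 1
      exact sum_congr rfl fun j _ => one_div _
    unfold hd
    rw [h6, div_pow, inv_pow]
    rw [neg_mul_neg]
    rfl
  · push Not at h
    obtain ⟨j, hj, h1⟩ := h
    have h2 : D.R d z j = 0 := le_antisymm h1 (R_nonneg D d z j)
    have h3 := dR_of_R_eq_zero D hd0 (ha j hj) h2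
    have h4 : hh D d z e = 0 := Hm_of_nonpos hj h1
    have e0 : dhh D d z e = 0 := by
      unfold dhh
      refine sum_eq_zero fun i _ => ?_
      unfold hd
      rw [h4, zero_div, zero_pow two_ne_zero, zero_smul]
    rw [e0]
    have hR := hasFDerivAt_R D hd0 hz (ha j hj)
    rw [h3] at hR
    exact hasFDerivAt_zero_of_le hR h2 fun w => by
      rw [abs_of_nonneg (hh_nonneg D d w e)]
      exact hh_le D hj d w

/-- derivative of the product of the windows. -/
def dPw (z : Fin N → ℂ) (e : Fin D.nb) : (Fin N → ℂ) →L[ℝ] ℝ :=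
  ∑ j ∈ (D.bx e).S, (Pe D z e j * lad D z e j) • dtau z j

theorem hasFDerivAt_Pw {z : Fin N → ℂ} {e : Fin D.nb} (ha : ∀ j ∈ (D.bx e).S, 0 < (z j).re) :
    HasFDerivAt (fun w => Pw D w e) (dPw D z e) z := by
  have h1 : ∀ j ∈ (D.bx e).S, HasFDerivAt (fun w => la D w e j) (lad D z e j • dtau z j) z :=
    fun j hj => (hasDerivAt_winN _ _ (tau z j)).comp_hasFDerivAt z
      (hasFDerivAt_tauj (ha j hj).ne')
  have h2 := HasFDerivAt.finset_prod h1
  refine HasFDerivAt.congr_fderiv h2 ?_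
  unfold dPw
  refine sum_congr rfl fun j _ => ?_
  rw [smul_smul]
  rfl

/-- derivative of a deletion term. -/
def dBe (d : ℝ) (z : Fin N → ℂ) (e : Fin D.nb) : (Fin N → ℂ) →L[ℝ] ℝ :=
  open Classical in
  if ∀ j ∈ (D.bx e).S, 0 < (z j).re then Pw D z e • dhh D d z e + hh D d z e • dPw D z e else 0

theorem Be_nhds {d : ℝ} (hd0 : 0 < d) {z : Fin N → ℂ} (hz : z ≠ 0) {e : Fin D.nb} {j : Fin N}
    (hj : j ∈ (D.bx e).S) (ha : (z j).re ≤ 0) : ∀ᶠ w in nhds z, D.Be d e w = 0 := by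
  by_cases h : z j = 0
  · filter_upwards [ch_zero_nhds D hd0 hz h] with w hw
    have h1 : hh D d w e = 0 := by
      refine Hm_of_nonpos hj ?_
      unfold SD.R
      rw [hw, zero_mul]
    rw [Be_eq, h1, zero_mul]
  · have h1 : ∀ᶠ w : Fin N → ℂ in nhds z, (16 * (D.M j : ℝ) + 1) * (w j).re ≤ |(w j).im| :=
      (continuous_apply j).continuousAt.eventually (farN_nhds ha h)
    filter_upwards [h1] with w hw
    rcases le_or_gt (w j).re 0 with h2 | h2
    · have h3 : hh D d w e = 0 := by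
        refine Hm_of_nonpos hj ?_
        rw [R_of_nonpos D h2]
      rw [Be_eq, h3, zero_mul]
    · rw [Be_eq, Pw_of_la D hj (win_far (D.hhi e j hj) h2 hw).1, mul_zero]

theorem hasFDerivAt_Be {d : ℝ} (hd0 : 0 < d) {z : Fin N → ℂ} (hz : z ≠ 0) (e : Fin D.nb) :
    HasFDerivAt (D.Be d e) (dBe D d z e) z := by
  classical
  by_cases h : ∀ j ∈ (D.bx e).S, 0 < (z j).re
  · have e0 : dBe D d z e = Pw D z e • dhh D d z e + hh D d z e • dPw D z e := if_pos h
    rw [e0]
    have a3 := (hasFDerivAt_hh D hd0 hz h).mul (hasFDerivAt_Pw D h)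
    refine HasFDerivAt.congr_fderiv a3 ?_
    ext w
    simp
    ring
  · have e0 : dBe D d z e = 0 := if_neg h
    rw [e0]
    refine (hasFDerivAt_const (0 : ℝ) z).congr_of_eventuallyEq ?_
    push Not at h
    obtain ⟨j, hj, h1⟩ := h
    exact Be_nhds D hd0 hz hj h1

/-- the derivative of `G`. -/
def dG (cB ga d : ℝ) (z : Fin N → ℂ) : (Fin N → ℂ) →L[ℝ] ℂ :=
  ∑ j, dT D ga d z j - ((cB * ga) • ∑ e, dBe D d z e).smulRight (1 : ℂ)

theorem hasFDerivAt_G (cB ga : ℝ) {d : ℝ} (hd0 : 0 < d) {z : Fin N → ℂ} (hz : z ≠ 0) :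
    HasFDerivAt (D.G cB ga d) (dG D cB ga d z) z := by
  have a1 : HasFDerivAt
      (fun w : Fin N → ℂ => ∑ j, (D.ch d w j : ℂ) * plN ga (D.sn j) (D.M j) (w j))
      (∑ j, dT D ga d z j) z := HasFDerivAt.fun_sum fun j _ => hasFDerivAt_T D ga hd0 hz j
  have a2 : HasFDerivAt (fun w : Fin N → ℂ => ∑ e, D.Be d e w)
      (∑ e, dBe D d z e) z := HasFDerivAt.fun_sum fun e _ => hasFDerivAt_Be D hd0 hz e
  have a3 := (a2.const_mul (cB * ga))
  have a4 := HasFDerivAt.comp z (Complex.ofRealCLM.hasFDerivAt (x := cB * ga *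
    ∑ e, D.Be d e z)) a3
  refine HasFDerivAt.congr_fderiv (a1.sub a4) ?_
  ext w
  simp [dG]

theorem fderiv_G (cB ga : ℝ) {d : ℝ} (hd0 : 0 < d) {z : Fin N → ℂ} (hz : z ≠ 0) :
    fderiv ℝ (D.G cB ga d) z = dG D cB ga d z := (hasFDerivAt_G D cB ga hd0 hz).fderiv

theorem dG_apply (cB ga d : ℝ) (z y : Fin N → ℂ) : dG D cB ga d z y =
    ∑ j, dT D ga d z j y - ((cB * ga * ∑ e, dBe D d z e y : ℝ) : ℂ) := by
  simp [dG]

/-! ### region II -/

/-- the region II. -/
def II (z : Fin N → ℂ) : Prop := BB z ≤ D.K1 ^ 2 * AA z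

variable {D}

theorem II.NN {z : Fin N → ℂ} (h : II D z) : NN D.K1 z = √(AA z) := NN_of_le h

theorem II.dxr_vt {z : Fin N → ℂ} (h : II D z) (j : Fin N) (Y : Fin N → ℝ) :
    dxr D z j (vt Y) = pt D.K (z j) * Y j / √(AA z) := by
  unfold dxr
  simp only [ContinuousLinearMap.sub_apply, ContinuousLinearMap.smul_apply, smul_eq_mul,
    ContinuousLinearMap.add_apply, rej_apply, imj_apply, vt_re, vt_im]
  rw [dNN_of_le h, h.NN, sr_apply]
  simp only [vt_re, mul_zero, sum_const_zero]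
  ring


/-- a coordinate is a window coordinate if it is not steep. -/
def Wd (D : SD N) (z : Fin N → ℂ) (j : Fin N) : Prop := |(z j).im| ≤ D.K * |(z j).re|

variable (D)

/-- `∂ (cB ga ∑ Be) / ∂ t_j`. -/
def tB (cB ga d : ℝ) (z : Fin N → ℂ) (j : Fin N) : ℝ :=
  open Classical in
  cB * ga * ∑ e, if j ∈ (D.bx e).S then
    hh D d z e * (lad D z e j / (z j).re * Pe D z e j) else 0


/-- `- ∂ R_j` along `(-1, …, -1)`. -/
def rho (d : ℝ) (z : Fin N → ℂ) (j : Fin N) : ℝ :=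
  D.ch d z j + D.xr z j * chid d (D.xr z j) - D.xr z j ^ 2 * chid d (D.xr z j) * S z

variable {D}

/-- a steep variable has vanishing windows. -/
theorem win_steep {m m' : ℕ} {z : Fin N → ℂ} {j : Fin N} (hm : m' ≤ D.M j) (h0 : 0 < (z j).re)
    (hW : ¬ Wd D z j) : winN m m' (tau z j) = 0 ∧ wdN m m' (tau z j) = 0 := by
  refine win_far hm h0 ?_
  have h1 := le_K D j
  unfold Wd at hW
  rw [not_le, abs_of_pos h0] at hW
  nlinarith

theorem steep {z : Fin N → ℂ} {e : Fin D.nb} {j : Fin N} (hj : j ∈ (D.bx e).S)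
    (h0 : 0 < (z j).re) (hW : ¬ Wd D z j) : la D z e j = 0 ∧ lad D z e j = 0 :=
  win_steep (D.hhi e j hj) h0 hW

theorem II.dch_vt_W {z : Fin N → ℂ} (h : II D z) (d : ℝ) {j : Fin N} (hW : Wd D z j)
    (Y : Fin N → ℝ) : dch D d z j (vt Y) = 0 := by
  have h1 : dch D d z j (vt Y) = chid d (D.xr z j) * dxr D z j (vt Y) := rfl
  rw [h1, h.dxr_vt, pt_of_le (K_nonneg D) hW]
  simp

theorem II.dch_vt {z : Fin N → ℂ} (h : II D z) (d : ℝ) (j : Fin N)
    (Y : Fin N → ℝ) : dch D d z j (vt Y) =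
      chid d (D.xr z j) * (pt D.K (z j) / √(AA z)) * Y j := by
  have h1 : dch D d z j (vt Y) = chid d (D.xr z j) * dxr D z j (vt Y) := rfl
  rw [h1, h.dxr_vt]
  ring


/-- in the region II `s ≠ 0`. -/
theorem II.AA_pos {z : Fin N → ℂ} (h : II D z) (hz : z ≠ 0) : 0 < AA z := by
  refine lt_of_le_of_ne (AA_nonneg z) fun h0 => AA_add_BB_ne hz ?_
  unfold II at h
  rw [← h0, mul_zero] at h
  rw [← h0, le_antisymm h (BB_nonneg z), add_zero]




theorem II.dR_vt {z : Fin N → ℂ} (h : II D z) (d : ℝ) {j : Fin N} (hW : Wd D z j)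
    (Y : Fin N → ℝ) : dR D d z j (vt Y) = 0 := by
  rw [dR_apply, h.dch_vt_W d hW, vt_re]
  ring

theorem hh_of_nonpos {d : ℝ} {z : Fin N → ℂ} {e : Fin D.nb} {j : Fin N} (hj : j ∈ (D.bx e).S)
    (h0 : (z j).re ≤ 0) : hh D d z e = 0 := by
  refine Hm_of_nonpos hj ?_
  rw [R_of_nonpos D h0]

/-- `∂ Be / ∂ t`. -/
theorem II.dBe_vt {z : Fin N → ℂ} (h : II D z) (d : ℝ) (e : Fin D.nb)
    (Y : Fin N → ℝ) : dBe D d z e (vt Y) =
      ∑ j ∈ (D.bx e).S, hh D d z e * (lad D z e j / (z j).re * Pe D z e j) * Y j := by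
  classical
  by_cases hp : ∀ j ∈ (D.bx e).S, 0 < (z j).re
  · have e0 : dBe D d z e = Pw D z e • dhh D d z e + hh D d z e • dPw D z e := if_pos hp
    rw [e0]
    have e1 : Pw D z e * dhh D d z e (vt Y) = 0 := by
      by_cases w1 : ∀ j ∈ (D.bx e).S, Wd D z j
      · have : dhh D d z e (vt Y) = 0 := by
          unfold dhh
          rw [ContinuousLinearMap.sum_apply]
          refine sum_eq_zero fun j hj => ?_
          rw [ContinuousLinearMap.smul_apply, h.dR_vt d (w1 j hj), smul_zero]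
        rw [this, mul_zero]
      · push Not at w1
        obtain ⟨j, hj, hW⟩ := w1
        rw [Pw_of_la D hj (steep hj (hp j hj) hW).1, zero_mul]
    rw [ContinuousLinearMap.add_apply, ContinuousLinearMap.smul_apply,
      ContinuousLinearMap.smul_apply, smul_eq_mul, smul_eq_mul, e1, zero_add]
    unfold dPw
    rw [ContinuousLinearMap.sum_apply, mul_sum]
    refine sum_congr rfl fun j _ => ?_
    rw [ContinuousLinearMap.smul_apply, smul_eq_mul, dtau_apply, vt_im, vt_re]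
    ring
  · have e0 : dBe D d z e = 0 := if_neg hp
    rw [e0]
    push Not at hp
    obtain ⟨j, hj, h1⟩ := hp
    rw [hh_of_nonpos hj h1]
    simp

/-- the deletions along a vertical vector. -/
theorem II.sum_dBe_vt {z : Fin N → ℂ} (h : II D z) (cB ga d : ℝ) (j : Fin N) :
    cB * ga * ∑ e, dBe D d z e (vt (Pi.single j (1 : ℝ))) = tB D cB ga d z j := by
  classical
  unfold tB
  congr 1
  refine sum_congr rfl fun e _ => ?_
  rw [h.dBe_vt]
  simp only [Pi.single_apply, mul_ite, mul_one, mul_zero]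
  rw [sum_ite_eq' (D.bx e).S j]



end D

end Crest.Agent.R267.Calc4N_88
end
end

-- ▼ part R267/Calc5N_88
section

/-!
# Row 267, T3aN: the derivatives of the signed `G` in the region II (form used for K1, K2, R4)
-/

set_option autoImplicit false

noncomputable section

namespace Crest.Agent.R267.Calc5N_88

open Finset
open Crest.Agent.R267.T3aDefs_957 (st Af Bf pg NN chi)
open Crest.Agent.R267.T3aDefs_957.LD (vt vs)
open Crest.Agent.R267.T3aNDefs_88 Crest.Agent.R267.CalcN_88 Crest.Agent.R267.Calc3N_88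
  Crest.Agent.R267.Calc4N_88
open Crest.Agent.R267.Calc2_957 Crest.Agent.R267.Calc_957
open Crest.Agent.R267.Calc3_957 (rej imj rej_apply imj_apply AA BB sr si sr_apply si_apply
  AA_nonneg BB_nonneg re_sq_le_AA im_sq_le_BB AA_add_BB_ne dNN NN_pos NN_nonneg NN_sq
  sqrt_AA_le_NN NN_of_le hasFDerivAt_NN dNN_of_le chid hasDerivAt_chi chi_of_le chid_of_le
  chi_of_ge chid_of_ge chi_nonneg chi_le_one chi_pos lt_of_chi_ne chi_lt_one chid_nonneg chid_le
  mul_chid_le chid_mul_nonneg one_le_N pg_le_norm re_pos_nhds)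
open Crest.Agent.R267.Calc4_957 (tau dtau dtau_apply hasFDerivAt_tauj hasFDerivAt_zero_of_le
  vt_re vt_im vs_re vs_im vt_eq_sum vs_eq S)

variable {N : ℕ} {D : SD N}

/-- value of the planar functions of a variable which is not in a window, or with `s ≤ 0`. -/
theorem pl_out {ga : ℝ} {z : Fin N → ℂ} {j : Fin N} (h : (z j).re ≤ 0 ∨ ¬ Wd D z j) :
    plN ga (D.sn j) (D.M j) (z j) = -((2 - ga : ℝ) : ℂ) * (z j).re - Complex.I * (z j).im := by
  rcases h with h | h
  · exact plN_of_nonpos h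
  · rcases le_or_gt (z j).re 0 with h0 | h0
    · exact plN_of_nonpos h0
    · refine plN_of_far (Or.inl ?_)
      have h1 := le_K D j
      unfold Wd at h
      rw [not_le, abs_of_pos h0] at h
      nlinarith

theorem tau_out {z : Fin N → ℂ} {j : Fin N} (h0 : 0 < (z j).re) (h : ¬ Wd D z j) :
    16 * (D.M j : ℝ) + 1 ≤ tau z j ∨ tau z j ≤ 1 := by
  have h1 := le_K D j
  unfold Wd at h
  rw [not_le, abs_of_pos h0] at h
  unfold tau
  rcases le_total 0 (z j).im with h2 | h2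
  · rw [abs_of_nonneg h2] at h
    left
    rw [le_div_iff₀ h0]
    nlinarith
  · right
    rw [div_le_iff₀ h0]
    linarith

theorem pvd_high' {e : ℕ → ℝ} {M : ℕ} {τ : ℝ} (h : 16 * (M : ℝ) + 1 ≤ τ) :
    pvdN e M τ = -Complex.I := by
  rw [pvdN_high (by linarith), std_of_ge (by linarith)]
  simp


theorem pb_out {z : Fin N → ℂ} {j : Fin N} (h : (z j).re ≤ 0 ∨ ¬ Wd D z j) :
    pbN (D.sn j) (D.M j) (z j) = -Complex.I := by
  unfold pbN
  rcases le_or_gt (z j).re 0 with h0 | h0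
  · rw [if_neg (not_lt.2 h0)]
  · rw [if_pos h0]
    rcases h with h | h
    · exact absurd h0 (not_lt.2 h)
    · rcases tau_out h0 h with h1 | h1
      · exact pvd_high' h1
      · exact pvdN_low h1



theorem pb_in {z : Fin N → ℂ} {j : Fin N} (h0 : 0 < (z j).re) :
    pbN (D.sn j) (D.M j) (z j) = pvdN (D.sn j) (D.M j) (tau z j) := if_pos h0

theorem pl_in {ga : ℝ} {z : Fin N → ℂ} {j : Fin N} (h0 : 0 < (z j).re) :
    plN ga (D.sn j) (D.M j) (z j) = ((z j).re : ℂ) * pvN ga (D.sn j) (D.M j) (tau z j) :=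
  plN_of_pos h0


/-! ### the numbers `tB`, `HB` -/

theorem tB_out {cB ga d : ℝ} {z : Fin N → ℂ} {j : Fin N} (h : (z j).re ≤ 0 ∨ ¬ Wd D z j) :
    tB D cB ga d z j = 0 := by
  classical
  unfold tB
  rw [mul_eq_zero]
  right
  refine sum_eq_zero fun e _ => ?_
  split_ifs with hj
  · rcases le_or_gt (z j).re 0 with h0 | h0
    · rw [hh_of_nonpos hj h0, zero_mul]
    · rcases h with h | h
      · exact absurd h0 (not_lt.2 h)
      · rw [(steep hj h0 h).2]
        simp
  · rfl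





/-! ### `dT` in the region II -/

theorem dT_vt (ga d : ℝ) {z : Fin N → ℂ} (hII : II D z) (j : Fin N)
    (Y : Fin N → ℝ) : dT D ga d z j (vt Y) =
      (Y j : ℂ) * (((chid d (D.xr z j) * (pt D.K (z j) / √(AA z)) : ℝ) : ℂ) *
        plN ga (D.sn j) (D.M j) (z j) + (D.ch d z j : ℂ) * pbN (D.sn j) (D.M j) (z j)) := by
  rw [dT_apply, hII.dch_vt, vt_re, vt_im]
  push_cast
  ring

theorem dT_vt_single (ga d : ℝ) {z : Fin N → ℂ} (hII : II D z) (j : Fin N) :
    ∑ i, dT D ga d z i (vt (Pi.single j (1 : ℝ))) =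
      ((chid d (D.xr z j) * (pt D.K (z j) / √(AA z)) : ℝ) : ℂ) *
        plN ga (D.sn j) (D.M j) (z j) + (D.ch d z j : ℂ) * pbN (D.sn j) (D.M j) (z j) := by
  rw [sum_eq_single j]
  · rw [dT_vt ga d hII, Pi.single_eq_same]
    simp
  · intro i _ hi
    rw [dT_vt ga d hII, Pi.single_eq_of_ne hi]
    simp
  · intro h
    exact absurd (mem_univ j) h

/-- **the fibre derivatives of `G` in the region II.** -/
theorem w_gen (cB ga : ℝ) {d : ℝ} (hd : 0 < d) {z : Fin N → ℂ} (hz : z ≠ 0) (hII : II D z)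
    (j : Fin N) : fderiv ℝ (D.G cB ga d) z (vt (Pi.single j (1 : ℝ))) =
      ((chid d (D.xr z j) * (pt D.K (z j) / √(AA z)) : ℝ) : ℂ) *
        plN ga (D.sn j) (D.M j) (z j) + (D.ch d z j : ℂ) * pbN (D.sn j) (D.M j) (z j) -
      (tB D cB ga d z j : ℂ) := by
  rw [fderiv_G D cB ga hd hz, dG_apply, hII.sum_dBe_vt, dT_vt_single ga d hII]

/-- window variable, `s > 0`. -/
theorem w_pos (cB ga : ℝ) {d : ℝ} (hd : 0 < d) {z : Fin N → ℂ} (hz : z ≠ 0) (hII : II D z)
    {j : Fin N} (hj : 0 < (z j).re) (hW : Wd D z j) :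
    fderiv ℝ (D.G cB ga d) z (vt (Pi.single j (1 : ℝ))) =
      (D.ch d z j : ℂ) * pvdN (D.sn j) (D.M j) (tau z j) - (tB D cB ga d z j : ℂ) := by
  rw [w_gen cB ga hd hz hII, pt_of_le (K_nonneg D) hW, pb_in hj]
  simp

/-- window variable, `s ≤ 0`. -/
theorem w_neg (cB ga : ℝ) {d : ℝ} (hd : 0 < d) {z : Fin N → ℂ} (hz : z ≠ 0) (hII : II D z)
    {j : Fin N} (hj : (z j).re ≤ 0) (hW : Wd D z j) :
    fderiv ℝ (D.G cB ga d) z (vt (Pi.single j (1 : ℝ))) =
      -(Complex.I * (D.ch d z j : ℂ)) := by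
  rw [w_gen cB ga hd hz hII, pt_of_le (K_nonneg D) hW, pb_out (Or.inl hj), tB_out (Or.inl hj)]
  simp
  ring

/-- derivative of the cut-off in the direction `t_j`, steep variable. -/
def aO (D : SD N) (d : ℝ) (z : Fin N → ℂ) (j : Fin N) : ℝ :=
  chid d (D.xr z j) * (pt D.K (z j) / √(AA z))

/-- steep variable. -/
theorem w_out (cB ga : ℝ) {d : ℝ} (hd : 0 < d) {z : Fin N → ℂ} (hz : z ≠ 0) (hII : II D z)
    {j : Fin N} (hW : ¬ Wd D z j) :
    fderiv ℝ (D.G cB ga d) z (vt (Pi.single j (1 : ℝ))) =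
      -(Complex.I * (D.ch d z j : ℂ)) + (aO D d z j : ℂ) * plN ga (D.sn j) (D.M j) (z j) := by
  rw [w_gen cB ga hd hz hII, pb_out (Or.inr hW), tB_out (Or.inr hW)]
  unfold aO
  simp
  ring

/-- linearity in the fibre direction. -/
theorem w_vt (cB ga d : ℝ) (z : Fin N → ℂ) (Y : Fin N → ℝ) :
    fderiv ℝ (D.G cB ga d) z (vt Y) =
      ∑ j, (Y j : ℂ) * fderiv ℝ (D.G cB ga d) z (vt (Pi.single j (1 : ℝ))) := by
  rw [vt_eq_sum Y, map_sum]
  refine sum_congr rfl fun j _ => ?_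
  rw [map_smul, Complex.real_smul]


/-! ### the direction `(-1, …, -1)` -/







end Crest.Agent.R267.Calc5N_88
end
end

-- ▼ part R267/K1N_957
section

/-!
# Row 267, T3aN: fact K1 for the signed function
-/

set_option autoImplicit false

noncomputable section

namespace Crest.Agent.R267.K1N_957

open Finset
open Crest.Agent.R267.T3aDefs_957 (st Af Bf pg NN chi gq)
open Crest.Agent.R267.T3aDefs_957.LD (Ev vt vs Cen)
open Crest.Agent.R267.T3aNDefs_88 Crest.Agent.R267.CalcN_88 Crest.Agent.R267.Calc3N_88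
open Crest.Agent.R267.Calc4N_88 Crest.Agent.R267.Calc5N_88
open Crest.Agent.R267.Calc2_957 Crest.Agent.R267.Calc_957
open Crest.Agent.R267.Calc3_957 (rej imj rej_apply imj_apply AA BB sr si sr_apply si_apply
  AA_nonneg BB_nonneg re_sq_le_AA im_sq_le_BB AA_add_BB_ne dNN NN_pos NN_nonneg NN_sq
  sqrt_AA_le_NN NN_of_le hasFDerivAt_NN dNN_of_le chid hasDerivAt_chi chi_of_le chid_of_le
  chi_of_ge chid_of_ge chi_nonneg chi_le_one chi_pos lt_of_chi_ne chi_lt_one chid_nonneg chid_le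
  mul_chid_le chid_mul_nonneg one_le_N pg_le_norm re_pos_nhds)
open Crest.Agent.R267.Calc4_957 (tau dtau dtau_apply vt_re vt_im vs_re vs_im vt_eq_sum vs_eq S)

/-! ### gauges -/

/-- comparison constant of the gauges. -/
def cK (K : ℝ) : ℝ := √(96 * K ^ 2 + 96)

theorem cK_sq (K : ℝ) : cK K ^ 2 = 96 * K ^ 2 + 96 := Real.sq_sqrt (by positivity)

theorem one_le_cK (K : ℝ) : 1 ≤ cK K := by
  unfold cK
  rw [Real.one_le_sqrt]
  nlinarith [sq_nonneg K]

theorem cK_pos (K : ℝ) : 0 < cK K := lt_of_lt_of_le one_pos (one_le_cK K)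

theorem abs_im_le_pg (K : ℝ) (z : ℂ) : |z.im| ≤ cK K * pg K z := by
  have h1 : z.im ^ 2 ≤ (96 * K ^ 2 + 96) * gq K (z.re ^ 2) (z.im ^ 2) :=
    le_gq' (sq_nonneg _) (sq_nonneg _)
  rw [← pg_sq, ← cK_sq, ← mul_pow] at h1
  exact abs_le_of_sq_le_sq h1 (mul_nonneg (cK_pos K).le (pg_nonneg _ _))

variable {N : ℕ}

theorem abs_im_le_NN (K : ℝ) (z : Fin N → ℂ) (j : Fin N) : |(z j).im| ≤ cK K * NN K z := by
  have h1 : BB z ≤ (96 * K ^ 2 + 96) * gq K (AA z) (BB z) :=
    le_gq' (AA_nonneg z) (BB_nonneg z)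
  rw [← NN_sq, ← cK_sq, ← mul_pow] at h1
  exact abs_le_of_sq_le_sq ((im_sq_le_BB z j).trans h1) (mul_nonneg (cK_pos K).le (NN_nonneg _ _))

theorem si_single (z : Fin N → ℂ) (j : Fin N) : si z (vt (Pi.single j (1 : ℝ))) = (z j).im := by
  rw [si_apply, sum_eq_single j]
  · simp
  · intro i _ hi
    simp [hi]
  · intro h
    exact absurd (mem_univ j) h

theorem abs_dNN_le (K : ℝ) {z : Fin N → ℂ} (hz : z ≠ 0) (j : Fin N) :
    |dNN K z (vt (Pi.single j (1 : ℝ)))| ≤ cK K := by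
  have hp := NN_pos (K := K) hz
  have h1 : dNN K z (vt (Pi.single j (1 : ℝ))) = gB K (AA z) (BB z) * (z j).im / NN K z := by
    unfold dNN
    simp only [ContinuousLinearMap.add_apply, ContinuousLinearMap.smul_apply, smul_eq_mul]
    rw [si_single, sr_apply]
    simp only [vt_re, mul_zero, sum_const_zero]
    ring
  rw [h1, abs_div, abs_mul, abs_of_pos hp, abs_of_nonneg (gB_nonneg (AA_nonneg z) (BB_nonneg z)),
    div_le_iff₀ hp]
  have h2 := abs_im_le_NN K z j
  have h3 := gB_le (K := K) (AA_nonneg z) (BB_nonneg z)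
  have h4 := gB_nonneg (K := K) (AA_nonneg z) (BB_nonneg z)
  calc gB K (AA z) (BB z) * |(z j).im| ≤ 1 * (cK K * NN K z) :=
        mul_le_mul h3 h2 (abs_nonneg _) zero_le_one
    _ = _ := one_mul _

theorem exists_im (z : Fin N → ℂ) (hN : 0 < N) : ∃ j, BB z ≤ N * (z j).im ^ 2 := by
  have : Nonempty (Fin N) := ⟨⟨0, hN⟩⟩
  obtain ⟨j, hj⟩ := Finite.exists_max fun j => (z j).im ^ 2
  refine ⟨j, ?_⟩
  calc BB z ≤ ∑ _i : Fin N, (z j).im ^ 2 := sum_le_sum fun i _ => hj i
    _ = N * (z j).im ^ 2 := by simp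

/-! ### planar bounds -/

theorem abs_Bf_le (v : ℝ) (h : |v| ≤ 3) : |Bf v| ≤ 3 := by
  have key : ∀ w : ℝ, 0 ≤ w → w ≤ 3 → |Bf w| ≤ 3 := by
    intro w h0 h3
    rcases le_total w 1 with h1 | h1
    · rw [Bf_of_abs_le (by rw [abs_of_nonneg h0]; exact h1), abs_of_nonneg h0]
      linarith
    · have := Curve_867.Bf_mem h1 h3
      rw [abs_le]
      constructor <;> linarith [this.1, this.2]
  rcases le_total 0 v with h0 | h0
  · rw [abs_of_nonneg h0] at h
    exact key v h0 h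
  · rw [abs_of_nonpos h0] at h
    have := key (-v) (by linarith) h
    rwa [Bf_neg, abs_neg] at this

theorem abs_yc_le8 {e v : ℝ} (he : |e| = 1) (h : |v| ≤ 8) : |yc e v| ≤ 3 := by
  rcases le_total |v| 3 with h1 | h1
  · rw [(yc_in (by linarith)).1, abs_mul, he, one_mul]
    exact abs_Bf_le v h1
  · rcases le_total |v| 7 with h2 | h2
    · exact abs_yc_le he h1 h2
    · rcases le_abs.1 h2 with h3 | h3
      · rw [(yc_high h3).1]
        rw [abs_of_nonneg (by linarith : 0 ≤ v)] at h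
        rw [abs_le]
        constructor <;> linarith
      · rw [(yc_low (by linarith : v ≤ -7)).1]
        rw [abs_of_nonpos (by linarith : v ≤ 0)] at h
        rw [abs_le]
        constructor <;> linarith

theorem abs_im_pvN {ga : ℝ} {e : ℕ → ℝ} (he : ∀ l, |e l| = 1) (M : ℕ) (τ : ℝ) :
    |(pvN ga e M τ).im| ≤ 3 + |τ| := by
  rcases casesN_tau M τ with h | ⟨l, hl, h⟩ | h
  · rw [pvN_low (by linarith)]
    have : (-((2 - ga : ℝ) : ℂ) - Complex.I * (τ : ℂ)).im = -τ := by simp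
    rw [this, abs_neg]
    linarith
  · rw [pvN_cell hl h]
    have : (((-(1 - ga) + Af (τ - sgN l) : ℝ) : ℂ) +
      Complex.I * ((yc (e l) (τ - sgN l) : ℝ) : ℂ)).im = yc (e l) (τ - sgN l) := by simp
    rw [this]
    have := abs_yc_le8 (he l) h
    have := abs_nonneg τ
    linarith
  · rw [pvN_high (by linarith)]
    have hM : (0 : ℝ) ≤ M := M.cast_nonneg
    have h1 := st_nonneg (τ - 16 * M)
    have h2 := st_le_one (τ - 16 * M)
    have : (((-(2 - ga) : ℝ) : ℂ) -
      Complex.I * ((τ - 16 * M + 16 * M * st (τ - 16 * M) : ℝ) : ℂ)).im =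
        -(τ - 16 * M + 16 * M * st (τ - 16 * M)) := by simp
    rw [this, abs_neg, abs_of_nonneg (a := τ) (by linarith)]
    have h3 : 0 ≤ 16 * (M : ℝ) * st (τ - 16 * M) := by positivity
    have h4 : 16 * (M : ℝ) * st (τ - 16 * M) ≤ 16 * M := by
      calc 16 * (M : ℝ) * st (τ - 16 * M) ≤ 16 * M * 1 :=
            mul_le_mul_of_nonneg_left h2 (by positivity)
        _ = _ := mul_one _
    rw [abs_of_nonneg (by linarith)]
    linarith

theorem abs_im_plN {ga : ℝ} {e : ℕ → ℝ} (he : ∀ l, |e l| = 1) (M : ℕ) (z : ℂ) :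
    |(plN ga e M z).im| ≤ 3 * |z.re| + |z.im| := by
  rcases le_or_gt z.re 0 with h | h
  · rw [plN_of_nonpos h]
    have : (-((2 - ga : ℝ) : ℂ) * z.re - Complex.I * z.im).im = -z.im := by simp
    rw [this, abs_neg]
    have := abs_nonneg z.re
    linarith
  · rw [plN_of_pos h, Complex.im_ofReal_mul, abs_mul]
    have h1 := abs_im_pvN (ga := ga) he M (z.im / z.re)
    have h2 : |z.re| * |z.im / z.re| = |z.im| := by
      rw [abs_div]
      have : |z.re| ≠ 0 := (abs_pos.2 h.ne').ne'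
      field_simp
    calc |z.re| * |(pvN ga e M (z.im / z.re)).im| ≤ |z.re| * (3 + |z.im / z.re|) :=
          mul_le_mul_of_nonneg_left h1 (abs_nonneg _)
      _ = 3 * |z.re| + |z.im| := by rw [mul_add, h2]; ring

/-- critical points of the height: the value is on the left. -/
theorem re_of_crit {ga : ℝ} {e : ℕ → ℝ} (he : ∀ l, |e l| = 1) {M : ℕ} {τ : ℝ}
    (h : (pvdN e M τ).im = 0) : (pvN ga e M τ).re ≤ -(1 - ga) := by
  by_cases hv : ∀ l < M, 3 ≤ |τ - sgN l|
  · rw [(pvN_vert he hv).1 ga]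
    linarith
  · push Not at hv
    obtain ⟨l, hl, hv⟩ := hv
    obtain ⟨h1, -, -, h4⟩ := pvN_lobe (ga := ga) (e := e) hl (by linarith : |τ - sgN l| ≤ 6)
    rw [h4] at h
    have he0 : e l ≠ 0 := fun h0 => by
      have := he l
      rw [h0, abs_zero] at this
      exact zero_ne_one this
    have h5 : Bfd (τ - sgN l) = 0 := (mul_eq_zero.1 h).resolve_left he0
    have key : ∀ w : ℝ, 0 ≤ w → w < 3 → Bfd w = 0 → w = 2 := by
      intro w h0 h3 hB
      rcases le_or_gt w 1 with h6 | h6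
      · rw [Bfd_of_abs_le (by rw [abs_of_nonneg h0]; exact h6)] at hB
        exact absurd hB one_ne_zero
      · rcases lt_trichotomy w 2 with h7 | h7 | h7
        · exact absurd hB (Curve_867.Bfd_pos h6.le h7).ne'
        · exact h7
        · exact absurd hB (Curve_867.Bfd_neg h7 h3.le).ne
    have h6 : |τ - sgN l| = 2 := by
      rcases le_total 0 (τ - sgN l) with h0 | h0
      · rw [abs_of_nonneg h0] at hv ⊢
        exact key _ h0 hv h5
      · rw [abs_of_nonpos h0] at hv ⊢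
        refine key _ (by linarith) hv ?_
        have : Bfd (-(τ - sgN l)) = Bfd (τ - sgN l) := by
          unfold Bfd
          rw [neg_neg]
          ring
        rw [this, h5]
    have h7 : Af (τ - sgN l) = 0 := by
      unfold Af st
      rw [h6, c01_of_mem (by norm_num) (by norm_num)]
      norm_num
    rw [h1, h7]
    linarith

/-! ### region II -/

variable (D : SD N)

/-- some variable is active (`N d² < 1`), in the region II. -/
theorem exists_active {d : ℝ} (hd : 0 < d) (hNd : N * d ^ 2 < 1) {z : Fin N → ℂ} (hz : z ≠ 0)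
    (h2 : II D z) : ∃ j, 0 < D.ch d z j := by
  by_contra h
  push Not at h
  have hx : ∀ j, D.xr z j ≤ d := by
    intro j
    by_contra h1
    exact absurd (chi_pos hd (not_le.1 h1)) (not_lt.2 (h j))
  have hA := h2.AA_pos hz
  have hNN : NN D.K1 z ^ 2 = AA z := by rw [h2.NN, Real.sq_sqrt hA.le]
  have h3 : ∀ j, (z j).re ^ 2 ≤ d ^ 2 * AA z := by
    intro j
    have h4 : pg D.K (z j) ≤ d * NN D.K1 z := by
      have := hx j
      unfold SD.xr at this
      rwa [div_le_iff₀ (NN_pos hz)] at this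
    calc (z j).re ^ 2 = |(z j).re| ^ 2 := (sq_abs _).symm
      _ ≤ pg D.K (z j) ^ 2 := pow_le_pow_left₀ (abs_nonneg _) (abs_re_le_pg _ _) 2
      _ ≤ (d * NN D.K1 z) ^ 2 := pow_le_pow_left₀ (pg_nonneg _ _) h4 2
      _ = d ^ 2 * AA z := by rw [mul_pow, hNN]
  have h4 : AA z ≤ N * (d ^ 2 * AA z) := by
    calc AA z ≤ ∑ _i : Fin N, d ^ 2 * AA z := sum_le_sum fun i _ => h3 i
      _ = N * (d ^ 2 * AA z) := by simp
  nlinarith

theorem Be_nonneg (d : ℝ) (e : Fin D.nb) (z : Fin N → ℂ) : 0 ≤ D.Be d e z := by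
  rw [Be_eq]
  exact mul_nonneg (hh_nonneg D d z e) (Pw_nonneg D z e)

theorem G_re (cB ga d : ℝ) (z : Fin N → ℂ) : (D.G cB ga d z).re =
    ∑ j, D.ch d z j * (plN ga (D.sn j) (D.M j) (z j)).re - cB * ga * ∑ e, D.Be d e z := by
  unfold SD.G
  rw [Complex.sub_re, Complex.ofReal_re, Complex.re_sum]
  congr 1
  refine sum_congr rfl fun j _ => ?_
  rw [Complex.re_ofReal_mul]

theorem region2 {cB ga d : ℝ} (hc : 0 < cB) (hga : 0 < ga) (hga1 : ga < 1) (hd : 0 < d)
    (hNd : N * d ^ 2 < 1) {z : Fin N → ℂ} (hz : z ≠ 0) (h2 : II D z)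
    (hre : 0 ≤ (D.G cB ga d z).re) :
    ∃ Y : Fin N → ℝ, (fderiv ℝ (D.G cB ga d) z (vt Y)).im ≠ 0 := by
  by_contra hcon
  push Not at hcon
  have key : ∀ j, 0 < D.ch d z j →
      (plN ga (D.sn j) (D.M j) (z j)).re < 0 := by
    intro j hj
    have h3 := hcon (Pi.single j 1)
    by_cases hW : Wd D z j
    · rcases le_or_gt (z j).re 0 with h0 | h0
      · exfalso
        rw [w_neg cB ga hd hz h2 h0 hW] at h3
        have : (-(Complex.I * (D.ch d z j : ℂ))).im = -D.ch d z j := by simp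
        rw [this] at h3
        linarith
      · rw [w_pos cB ga hd hz h2 h0 hW] at h3
        have : ((D.ch d z j : ℂ) * pvdN (D.sn j) (D.M j) (tau z j) -
          (tB D cB ga d z j : ℂ)).im = D.ch d z j * (pvdN (D.sn j) (D.M j) (tau z j)).im := by
          rw [Complex.sub_im, Complex.ofReal_im, Complex.im_ofReal_mul, sub_zero]
        rw [this] at h3
        have h4 := re_of_crit (ga := ga) (abs_sn D j) ((mul_eq_zero.1 h3).resolve_left hj.ne')
        rw [pl_in h0, Complex.re_ofReal_mul]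
        have : (pvN ga (D.sn j) (D.M j) (tau z j)).re < 0 := by linarith
        exact mul_neg_of_pos_of_neg h0 this
    · exfalso
      rw [w_out cB ga hd hz h2 hW, pl_out (Or.inr hW)] at h3
      have : (-(Complex.I * (D.ch d z j : ℂ)) + (aO D d z j : ℂ) *
          (-((2 - ga : ℝ) : ℂ) * (z j).re - Complex.I * (z j).im)).im =
          -D.ch d z j - aO D d z j * (z j).im := by
        simp
        ring
      rw [this] at h3
      have h5 : 0 ≤ aO D d z j * (z j).im := by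
        unfold aO
        have h6 : chid d (D.xr z j) * (pt D.K (z j) / √(AA z)) * (z j).im =
            chid d (D.xr z j) * (pt D.K (z j) * (z j).im) / √(AA z) := by ring
        rw [h6]
        exact div_nonneg (mul_nonneg (chid_nonneg hd _) (pt_mul_nonneg _ _)) (Real.sqrt_nonneg _)
      linarith
  obtain ⟨j0, hj0⟩ := exists_active D hd hNd hz h2
  have h5 : (D.G cB ga d z).re < 0 := by
    rw [G_re]
    have h6 : 0 ≤ cB * ga * ∑ e, D.Be d e z :=
      mul_nonneg (by positivity) (sum_nonneg fun e _ => Be_nonneg D d e z)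
    have h7 : ∑ j, D.ch d z j * (plN ga (D.sn j) (D.M j) (z j)).re < 0 := by
      refine sum_neg' (fun j _ => ?_) ⟨j0, mem_univ _, ?_⟩
      · rcases (ch_nonneg D d z j).eq_or_lt' with h8 | h8
        · rw [h8, zero_mul]
        · exact (mul_neg_of_pos_of_neg h8 (key j h8)).le
      · exact mul_neg_of_pos_of_neg hj0 (key j0 hj0)
    linarith
  linarith

/-! ### region I -/

/-- constant of `far_of_region1`. -/
theorem far_of_region1 {z : Fin N → ℂ} (h2 : ¬ II D z) {j : Fin N}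
    (hj : BB z ≤ N * (z j).im ^ 2) : (16 * (D.M j : ℝ) + 2) * |(z j).re| ≤ |(z j).im| := by
  unfold II at h2
  rw [not_le] at h2
  have hN1 : (1 : ℝ) ≤ N := one_le_N j
  rw [← Real.sqrt_sq_eq_abs (z j).im, Real.le_sqrt (by positivity) (sq_nonneg _), mul_pow, sq_abs]
  have hM : (D.M j : ℝ) ≤ D.Mx := by exact_mod_cast M_le_Mx D j
  have hM0 : (0 : ℝ) ≤ D.M j := Nat.cast_nonneg _
  have h3 : (N : ℝ) * ((16 * D.M j + 2) ^ 2 * (z j).re ^ 2) ≤ D.K1 ^ 2 * AA z := by
    calc (N : ℝ) * ((16 * D.M j + 2) ^ 2 * (z j).re ^ 2)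
        ≤ N * ((16 * D.Mx + 2) ^ 2 * AA z) := by
          have := re_sq_le_AA z j
          gcongr
      _ = (16 * D.Mx + 2) ^ 2 * N * 1 * AA z := by ring
      _ ≤ (16 * D.Mx + 2) ^ 2 * N * N * AA z := by
          have := AA_nonneg z
          gcongr
      _ = D.K1 ^ 2 * AA z := by unfold SD.K1; ring
  have h4 : (N : ℝ) * ((16 * D.M j + 2) ^ 2 * (z j).re ^ 2) ≤ N * (z j).im ^ 2 := by linarith
  exact le_of_mul_le_mul_left h4 (by linarith)

theorem K1_ge_one (hN : 0 < N) : 1 ≤ D.K1 := by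
  unfold SD.K1
  have hN1 : (1 : ℝ) ≤ N := by exact_mod_cast hN
  have : (0 : ℝ) ≤ D.Mx := Nat.cast_nonneg _
  nlinarith

/-- in region I the variable with the largest `|t|` is fully active. -/
theorem xr_region1 {d : ℝ} (hd : 0 < d) (hd1 : 8 * N * cK D.K ^ 2 * d ^ 2 ≤ 1)
    {z : Fin N → ℂ} (hz : z ≠ 0) (h2 : ¬ II D z) {j : Fin N}
    (hj : BB z ≤ N * (z j).im ^ 2) : 2 * d ≤ D.xr z j := by
  have hN : 0 < N := Fin.pos j
  have hK1 := K1_ge_one D hN
  unfold II at h2
  rw [not_le] at h2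
  unfold SD.xr
  rw [le_div_iff₀ (NN_pos hz)]
  refine le_of_sq_le_sq ?_ (pg_nonneg _ _)
  have hAB : AA z ≤ BB z := by
    have h0 := AA_nonneg z
    have h1 : 1 ≤ D.K1 ^ 2 := one_le_pow₀ hK1
    have : 1 * AA z ≤ D.K1 ^ 2 * AA z := mul_le_mul_of_nonneg_right h1 h0
    linarith
  have h3 : NN D.K1 z ^ 2 ≤ 2 * BB z := by
    rw [NN_sq]
    have := gq_le (K := D.K1) (AA_nonneg z) (BB_nonneg z)
    linarith
  have h4 : (z j).im ^ 2 ≤ cK D.K ^ 2 * pg D.K (z j) ^ 2 := by
    have := abs_im_le_pg D.K (z j)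
    calc (z j).im ^ 2 = |(z j).im| ^ 2 := (sq_abs _).symm
      _ ≤ (cK D.K * pg D.K (z j)) ^ 2 := pow_le_pow_left₀ (abs_nonneg _) this 2
      _ = _ := by ring
  have hN0 : (0 : ℝ) ≤ N := Nat.cast_nonneg _
  calc (2 * d * NN D.K1 z) ^ 2 = 4 * d ^ 2 * NN D.K1 z ^ 2 := by ring
    _ ≤ 4 * d ^ 2 * (2 * (N * (cK D.K ^ 2 * pg D.K (z j) ^ 2))) := by
        gcongr
        refine h3.trans ?_
        gcongr
        exact hj.trans (mul_le_mul_of_nonneg_left h4 hN0)
    _ = (8 * N * cK D.K ^ 2 * d ^ 2) * pg D.K (z j) ^ 2 := by ring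
    _ ≤ 1 * pg D.K (z j) ^ 2 := mul_le_mul_of_nonneg_right hd1 (sq_nonneg _)
    _ = _ := one_mul _

/-- constant of the terms `O(d)`. -/
def cT (D : SD N) : ℝ := 15 / 4 * cK D.K1 * (3 + cK D.K)

theorem cT_pos : 0 < cT D := by
  unfold cT
  have := cK_pos D.K1
  have := cK_pos D.K
  positivity

theorem dch_single {d : ℝ} (z : Fin N → ℂ) (i j : Fin N) (hij : i ≠ j) :
    dch D d z i (vt (Pi.single j (1 : ℝ))) =
      -(chid d (D.xr z i) * (D.xr z i / NN D.K1 z * dNN D.K1 z (vt (Pi.single j (1 : ℝ))))) := by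
  simp [dch, dxr, hij]

/-- contribution of a variable `i` which is not the largest one. -/
theorem term_small {ga d : ℝ} (hd : 0 < d) {z : Fin N → ℂ} (hz : z ≠ 0) {i j : Fin N}
    (hij : i ≠ j) : |dch D d z i (vt (Pi.single j (1 : ℝ))) *
      (plN ga (D.sn i) (D.M i) (z i)).im| ≤ 2 * cT D * d := by
  have hNN := NN_pos (K := D.K1) hz
  have hcT := cT_pos D
  rw [dch_single D z i j hij]
  rcases le_total (2 * d) (D.xr z i) with h | h
  · rw [chid_of_ge hd h, zero_mul, neg_zero, zero_mul, abs_zero]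
    positivity
  · have hx0 : 0 ≤ D.xr z i := xr_nonneg D z i
    have h1 := mul_chid_le hd (x := D.xr z i)
    have h1' := chid_mul_nonneg hd (x := D.xr z i)
    have h2 := abs_dNN_le D.K1 hz j
    have h3 : |(plN ga (D.sn i) (D.M i) (z i)).im| ≤ (3 + cK D.K) * (D.xr z i * NN D.K1 z) := by
      refine (abs_im_plN (abs_sn D i) (D.M i) (z i)).trans ?_
      have h4 := abs_re_le_pg D.K (z i)
      have h5 := abs_im_le_pg D.K (z i)
      have h6 : D.xr z i * NN D.K1 z = pg D.K (z i) := by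
        unfold SD.xr
        field_simp
      rw [h6]
      linarith
    have e1 : -(chid d (D.xr z i) * (D.xr z i / NN D.K1 z *
        dNN D.K1 z (vt (Pi.single j (1 : ℝ))))) * (plN ga (D.sn i) (D.M i) (z i)).im =
        -((D.xr z i * chid d (D.xr z i)) * dNN D.K1 z (vt (Pi.single j (1 : ℝ))) *
          (plN ga (D.sn i) (D.M i) (z i)).im / NN D.K1 z) := by ring
    rw [e1, abs_neg, abs_div, abs_mul, abs_mul, abs_of_pos hNN, abs_of_nonneg h1',
      div_le_iff₀ hNN]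
    have hc := cK_pos D.K1
    have hc' := cK_pos D.K
    calc D.xr z i * chid d (D.xr z i) * |dNN D.K1 z (vt (Pi.single j (1 : ℝ)))| *
          |(plN ga (D.sn i) (D.M i) (z i)).im|
        ≤ 15 / 4 * cK D.K1 * ((3 + cK D.K) * (D.xr z i * NN D.K1 z)) := by gcongr
      _ = cT D * D.xr z i * NN D.K1 z := by unfold cT; ring
      _ ≤ cT D * (2 * d) * NN D.K1 z := by gcongr
      _ = 2 * cT D * d * NN D.K1 z := by ring

/-- the constants of the region I. -/
structure dOk (D : SD N) (d : ℝ) : Prop where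
  h1 : N * d ^ 2 < 1
  h2 : 8 * N * cK D.K ^ 2 * d ^ 2 ≤ 1
  h3 : N * (2 * cT D * d) ≤ 1 / 2

theorem exists_dOk : ∃ d0 : ℝ, 0 < d0 ∧ ∀ d, 0 < d → d ≤ d0 → dOk D d := by
  have hN : (0 : ℝ) ≤ N := Nat.cast_nonneg _
  have hcT := cT_pos D
  have hc := cK_pos D.K
  set a : ℝ := 1 + N + 8 * N * cK D.K ^ 2 + 4 * N * cT D with ha
  have ha1 : 1 ≤ a := by
    rw [ha]
    have : 0 ≤ (N : ℝ) + 8 * N * cK D.K ^ 2 + 4 * N * cT D := by positivity
    linarith
  refine ⟨1 / a, by positivity, fun d hd h => ?_⟩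
  have h1 : d * a ≤ 1 := by rwa [le_div_iff₀ (by positivity)] at h
  have h2 : d ≤ 1 := by nlinarith
  have h3 : d ^ 2 ≤ d := by nlinarith
  have e1 : 0 ≤ d * (8 * (N : ℝ) * cK D.K ^ 2) := by positivity
  have e2 : 0 ≤ d * (4 * (N : ℝ) * cT D) := by positivity
  have e3 : 0 ≤ d * N := by positivity
  have h4 : d + d * N + d * (8 * N * cK D.K ^ 2) + d * (4 * N * cT D) ≤ 1 := by
    rw [ha] at h1
    linarith
  refine ⟨?_, ?_, ?_⟩
  · calc (N : ℝ) * d ^ 2 ≤ N * d := mul_le_mul_of_nonneg_left h3 hN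
      _ < 1 := by linarith
  · calc 8 * (N : ℝ) * cK D.K ^ 2 * d ^ 2 ≤ 8 * N * cK D.K ^ 2 * d :=
          mul_le_mul_of_nonneg_left h3 (by positivity)
      _ ≤ 1 := by linarith
  · linarith

theorem dBe_real (cB ga d : ℝ) (z y : Fin N → ℂ) :
    (dG D cB ga d z y).im = ∑ j, (dT D ga d z j y).im := by
  rw [dG_apply, Complex.sub_im, Complex.ofReal_im, sub_zero, Complex.im_sum]

/-- **region I**: the derivative of `Im G` in the direction of the largest `t` is near `-1`. -/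
theorem region1 {cB ga d : ℝ} (hd : 0 < d) (hok : dOk D d) {z : Fin N → ℂ} (hz : z ≠ 0)
    (h2 : ¬ II D z) : ∃ j, |(fderiv ℝ (D.G cB ga d) z (vt (Pi.single j 1))).im + 1| ≤ 1 / 2 ∧
      (16 * (D.M j : ℝ) + 2) * |(z j).re| ≤ |(z j).im| ∧ 2 * d ≤ D.xr z j ∧
      BB z ≤ N * (z j).im ^ 2 := by
  have hN : 0 < N := by
    by_contra h0
    have h0' : N = 0 := by omega
    subst h0'
    exact hz (Subsingleton.elim _ _)
  obtain ⟨j, hj⟩ := exists_im z hN
  have hfar := far_of_region1 D h2 hj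
  have hx := xr_region1 D hd hok.h2 hz h2 hj
  refine ⟨j, ?_, hfar, hx, hj⟩
  rw [fderiv_G D cB ga hd hz, dBe_real, ← add_sum_erase univ _ (mem_univ j)]
  have hj0 : z j ≠ 0 := by
    intro h0
    rw [xr_of_zero D h0] at hx
    linarith
  have hpb : pbN (D.sn j) (D.M j) (z j) = -Complex.I := by
    unfold pbN
    split_ifs with hs
    · rw [abs_of_pos hs] at hfar
      have hM : (0 : ℝ) ≤ D.M j := Nat.cast_nonneg _
      rcases le_total 0 (z j).im with h0 | h0
      · rw [abs_of_nonneg h0] at hfar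
        refine pvd_high' ?_
        rw [le_div_iff₀ hs]
        nlinarith
      · refine pvdN_low ?_
        rw [div_le_iff₀ hs]
        linarith
    · rfl
  have h3 : (dT D ga d z j (vt (Pi.single j 1))).im = -1 := by
    rw [dT_apply]
    have h4 : dch D d z j (vt (Pi.single j (1 : ℝ))) = 0 := by
      unfold dch
      rw [chid_of_ge hd hx]
      simp
    have h5 : D.ch d z j = 1 := chi_of_ge hd hx
    rw [h4, h5, hpb]
    simp
  rw [h3]
  have h6 : |∑ i ∈ univ.erase j, (dT D ga d z i (vt (Pi.single j 1))).im| ≤ 1 / 2 := by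
    refine (abs_sum_le_sum_abs _ _).trans ?_
    calc ∑ i ∈ univ.erase j, |(dT D ga d z i (vt (Pi.single j 1))).im|
        ≤ ∑ _i ∈ univ.erase j, 2 * cT D * d := by
          refine sum_le_sum fun i hi => ?_
          have hij : i ≠ j := ne_of_mem_erase hi
          have e1 : (dT D ga d z i (vt (Pi.single j 1))).im =
              dch D d z i (vt (Pi.single j (1 : ℝ))) * (plN ga (D.sn i) (D.M i) (z i)).im := by
            rw [dT_apply]
            simp [hij]
          rw [e1]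
          exact term_small D hd hz hij
      _ ≤ ∑ _i : Fin N, 2 * cT D * d := by
          refine sum_le_sum_of_subset_of_nonneg (erase_subset _ _) fun _ _ _ => ?_
          have := cT_pos D
          positivity
      _ = N * (2 * cT D * d) := by simp
      _ ≤ 1 / 2 := hok.h3
  rw [add_comm, ← add_assoc, add_neg_cancel, zero_add]
  exact h6

/-- **K1 for the signed function.** -/
theorem k1N : D.K1Prop := by
  obtain ⟨d0, hd0, hd⟩ := exists_dOk D
  refine ⟨1, one_pos, fun c hc => ⟨1 / 2, by norm_num, fun g hg hg' =>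
    ⟨d0, hd0, fun d h h' z hz _ hre => ?_⟩⟩⟩
  have hok := hd d h h'
  by_cases h2 : II D z
  · exact region2 D (by linarith) hg (by linarith) h hok.h1 hz h2 hre
  · obtain ⟨j, hj, -⟩ := region1 (cB := c) (ga := g) D h hok hz h2
    refine ⟨Pi.single j 1, fun h0 => ?_⟩
    rw [h0, zero_add, abs_one] at hj
    norm_num at hj

end Crest.Agent.R267.K1N_957
end
end

-- ▼ part R267/R4N_957
section

/-!
# Row 267, T3aN: fact R4 for the signed function
-/

set_option autoImplicit false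

noncomputable section

namespace Crest.Agent.R267.R4N_957

open Finset
open Crest.Agent.R267.T3aDefs_957 (st Af Bf pg NN chi gq)
open Crest.Agent.R267.T3aDefs_957.LD (Ev vt vs Cen)
open Crest.Agent.R267.T3aNDefs_88 Crest.Agent.R267.CalcN_88 Crest.Agent.R267.Calc3N_88
open Crest.Agent.R267.Calc4N_88 Crest.Agent.R267.Calc5N_88
open Crest.Agent.R267.Calc2_957 Crest.Agent.R267.Calc_957 Crest.Agent.R267.K1N_957
open Crest.Agent.R267.Calc3_957 (rej imj rej_apply imj_apply AA BB sr si sr_apply si_apply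
  AA_nonneg BB_nonneg re_sq_le_AA im_sq_le_BB AA_add_BB_ne dNN NN_pos NN_nonneg NN_sq
  sqrt_AA_le_NN NN_of_le hasFDerivAt_NN dNN_of_le chid hasDerivAt_chi chi_of_le chid_of_le
  chi_of_ge chid_of_ge chi_nonneg chi_le_one chi_pos lt_of_chi_ne chi_lt_one chid_nonneg chid_le
  mul_chid_le chid_mul_nonneg one_le_N pg_le_norm re_pos_nhds)
open Crest.Agent.R267.Calc4_957 (tau dtau dtau_apply vt_re vt_im vs_re vs_im vt_eq_sum vs_eq S)
open Crest.Agent.R267.R4_996 (Af_le_one abs_lt_two_of_Af near_facts)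

theorem pvN_re_le {ga : ℝ} {e : ℕ → ℝ} (M : ℕ) (τ : ℝ) : (pvN ga e M τ).re ≤ ga := by
  rcases casesN_tau M τ with h | ⟨l, hl, h⟩ | h
  · rw [pvN_low (by linarith)]
    simp
  · rw [pvN_cell hl h]
    have := Af_le_one (τ - sgN l)
    simp
    linarith
  · rw [pvN_high (by linarith)]
    simp

/-- if the real part is not too negative then the point is near a ray. -/
theorem near_of_re {ga : ℝ} {e : ℕ → ℝ} (he : ∀ l, |e l| = 1) {M : ℕ} {τ : ℝ}
    (h : -(1 - ga) < (pvN ga e M τ).re) : ∃ l < M, |τ - sgN l| < 2 := by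
  by_cases hv : ∀ l < M, 3 ≤ |τ - sgN l|
  · rw [(pvN_vert he hv).1 ga] at h
    linarith
  · push Not at hv
    obtain ⟨l, hl, hv⟩ := hv
    refine ⟨l, hl, abs_lt_two_of_Af ?_⟩
    rw [(pvN_lobe (ga := ga) (e := e) hl (by linarith : |τ - sgN l| ≤ 6)).1] at h
    linarith

variable {N : ℕ} (D : SD N)

/-- bounds on `ga`, `cB`. -/
def gOk (N : ℕ) (cB ga : ℝ) : Prop :=
  2 * (N : ℝ) ^ 3 < cB ∧ 0 < cB ∧ 0 < ga ∧ ga * (2 * N ^ 2 + 2) < 1

theorem sum_re_le (z : Fin N → ℂ) : ∑ i, (z i).re ≤ N * √(AA z) := by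
  calc ∑ i, (z i).re ≤ ∑ _i : Fin N, √(AA z) := by
        refine sum_le_sum fun i _ => ?_
        exact Real.le_sqrt_of_sq_le (re_sq_le_AA z i)
    _ = N * √(AA z) := by simp

theorem plN_re_le {ga : ℝ} {e : ℕ → ℝ} (M : ℕ) {w : ℂ} (h : 0 < w.re) :
    (plN ga e M w).re ≤ ga * w.re := by
  rw [plN_of_pos h, Complex.re_ofReal_mul, mul_comm ga]
  exact mul_le_mul_of_nonneg_left (pvN_re_le _ _) h.le

/-- one very negative variable makes `Re G` negative. -/
theorem re_neg_of {cB ga d : ℝ} (hg : gOk N cB ga) {z : Fin N → ℂ} (hC : Cen z)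
    {j : Fin N} (hch : D.ch d z j = 1)
    (hj : (plN ga (D.sn j) (D.M j) (z j)).re ≤ -(1 - ga) * (z j).re) :
    (D.G cB ga d z).re < 0 := by
  obtain ⟨hg1, hcB, hg2, hg3⟩ := hg
  have hN : (1 : ℝ) ≤ N := one_le_N j
  rw [G_re]
  have h6 : 0 ≤ cB * ga * ∑ e, D.Be d e z :=
    mul_nonneg (by positivity) (sum_nonneg fun e _ => Be_nonneg D d e z)
  have h7 : ∑ i, D.ch d z i * (plN ga (D.sn i) (D.M i) (z i)).re ≤
      -(1 - ga) * (z j).re + ∑ i ∈ univ.erase j, ga * (z i).re := by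
    rw [← add_sum_erase _ _ (Finset.mem_univ j), hch, one_mul]
    refine add_le_add hj (sum_le_sum fun i _ => ?_)
    have h8 := (hC i).1
    have h9 := ch_nonneg D d z i
    have h10 := ch_le_one D d z i
    have h11 := plN_re_le (ga := ga) (e := D.sn i) (D.M i) h8
    have h12 : 0 < ga * (z i).re := by positivity
    calc D.ch d z i * (plN ga (D.sn i) (D.M i) (z i)).re ≤ D.ch d z i * (ga * (z i).re) := by
          gcongr
      _ ≤ 1 * (ga * (z i).re) := by gcongr
      _ = ga * (z i).re := one_mul _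
  have h8 : ∑ i ∈ univ.erase j, ga * (z i).re = ga * (∑ i, (z i).re) - ga * (z j).re := by
    rw [mul_sum, ← add_sum_erase _ _ (Finset.mem_univ j)]
    ring
  have h9 := sum_re_le z
  have h10 : √(AA z) ≤ 2 * N * (z j).re := (hC j).2
  have h11 := (hC j).1
  have h12 : ga * ∑ i, (z i).re ≤ ga * (2 * N ^ 2 * (z j).re) := by
    refine mul_le_mul_of_nonneg_left (h9.trans ?_) hg2.le
    calc (N : ℝ) * √(AA z) ≤ N * (2 * N * (z j).re) := by gcongr
      _ = 2 * N ^ 2 * (z j).re := by ring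
  have h13 : -(1 - ga) * (z j).re + (ga * (2 * N ^ 2 * (z j).re) - ga * (z j).re) < 0 := by
    have : (ga * (2 * N ^ 2 + 2) - 1) * (z j).re < 0 :=
      mul_neg_of_neg_of_pos (by linarith) h11
    nlinarith
  linarith

theorem region1_absurd {cB ga d : ℝ} (hg : gOk N cB ga) (hd : 0 < d) (hdk : dOk D d)
    {z : Fin N → ℂ} (hz : z ≠ 0) (hC : Cen z) (h2 : ¬ II D z)
    (hre : 0 ≤ (D.G cB ga d z).re) : False := by
  obtain ⟨j, -, hfar, hx, -⟩ := region1 (cB := cB) (ga := ga) D hd hdk hz h2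
  have hch : D.ch d z j = 1 := chi_of_ge hd hx
  refine absurd (re_neg_of D hg hC hch ?_) (not_lt.2 hre)
  have h0 := (hC j).1
  rw [abs_of_pos h0] at hfar
  rw [plN_of_far (Or.inl (by linarith : (16 * (D.M j : ℝ) + 1) * (z j).re ≤ |(z j).im|))]
  have : (-((2 - ga : ℝ) : ℂ) * (z j).re - Complex.I * (z j).im).re = -(2 - ga) * (z j).re := by
    simp
  rw [this]
  nlinarith

theorem xr_cen {z : Fin N → ℂ} (hz : z ≠ 0) (hC : Cen z) (h2 : II D z)
    (j : Fin N) : 1 / (2 * N) ≤ D.xr z j := by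
  have hN : (1 : ℝ) ≤ N := one_le_N j
  have h3 := NN_pos (K := D.K1) hz
  unfold SD.xr
  rw [div_le_div_iff₀ (by positivity) h3, one_mul, h2.NN]
  have h4 : (z j).re ≤ pg D.K (z j) := (le_abs_self _).trans (abs_re_le_pg _ _)
  have h5 : √(AA z) ≤ 2 * N * (z j).re := (hC j).2
  nlinarith

theorem LD_mono {P Q : ℝ → ℝ → ℝ → Prop} (hP : Ev P)
    (h : ∀ c g d, P c g d → Q c g d) : Ev Q :=
  T3aDefs_957.LD.Ev.mono hP fun c g d _ _ _ => h c g d

/-- **R4 for the signed function.** -/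
theorem r4N : D.R4Prop := by
  obtain ⟨d0, hd0, hdk⟩ := exists_dOk D
  have hN0 : (0 : ℝ) ≤ N := Nat.cast_nonneg _
  have h1 : Ev fun c g d => gOk N c g ∧ 0 < d ∧ dOk D d ∧ d * (8 * N + 1) < 1 := by
    refine ⟨2 * N ^ 3 + 1, by positivity, fun c hc => ⟨1 / (2 * N ^ 2 + 3), by positivity,
      fun g hg hg' => ⟨min d0 (1 / (8 * N + 2)), lt_min hd0 (by positivity), fun d h h' =>
        ⟨⟨by linarith, ?_, hg, ?_⟩, h, hdk d h (h'.trans (min_le_left _ _)), ?_⟩⟩⟩⟩
    · have : 0 ≤ 2 * (N : ℝ) ^ 3 := by positivity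
      linarith
    · rw [le_div_iff₀ (by positivity)] at hg'
      nlinarith
    · have := h'.trans (min_le_right _ _)
      rw [le_div_iff₀ (by positivity)] at this
      nlinarith
  refine LD_mono h1 fun c g d ⟨hg, hd, hdo, hd8⟩ z hz hC him hre => ?_
  have hN : 0 < N := by
    by_contra h0
    have h0' : N = 0 := by omega
    subst h0'
    exact hz (Subsingleton.elim _ _)
  have hN1 : (1 : ℝ) ≤ N := by exact_mod_cast hN
  by_cases h2 : II D z
  swap
  · exact (region1_absurd D hg hd hdo hz hC h2 hre).elim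
  obtain ⟨hg1, hcB, hg2, hg3⟩ := id hg
  -- all variables are fully active
  have hxr : ∀ j, 2 * d < D.xr z j := by
    intro j
    refine lt_of_lt_of_le ?_ (xr_cen D hz hC h2 j)
    rw [lt_div_iff₀ (by positivity)]
    nlinarith
  have hch : ∀ j, D.ch d z j = 1 := fun j => chi_of_ge hd (hxr j).le
  -- the letters
  have hk : ∀ j, ∃ l < D.M j, |tau z j - sgN l| < 2 := by
    intro j
    refine near_of_re (ga := g) (abs_sn D j) ?_
    by_contra h3
    have h4 : (plN g (D.sn j) (D.M j) (z j)).re ≤ -(1 - g) * (z j).re := by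
      rw [pl_in (hC j).1, Complex.re_ofReal_mul, mul_comm]
      exact mul_le_mul_of_nonneg_right (not_lt.1 h3) (hC j).1.le
    exact absurd (re_neg_of D hg hC (hch j) h4) (not_lt.2 hre)
  choose k hkM hkn using hk
  set v : Fin N → ℝ := fun j => tau z j - sgN (k j) with hv
  have hvj : ∀ j, |v j| < 2 := hkn
  have him' : ∀ j, (z j).im - sgN (k j) * (z j).re = (z j).re * v j := by
    intro j
    have := (hC j).1.ne'
    rw [hv]
    unfold tau
    field_simp
  have hv6 : ∀ j, |tau z j - sgN (k j)| ≤ 6 := fun j => by have := hkn j; linarith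
  have hpl : ∀ j, plN g (D.sn j) (D.M j) (z j) = ((z j).re : ℂ) *
      (((-(1 - g) + Af (v j) : ℝ) : ℂ) + Complex.I * ((D.sn j (k j) * Bf (v j) : ℝ) : ℂ)) := by
    intro j
    rw [pl_in (hC j).1]
    congr 1
    obtain ⟨a1, a2, -, -⟩ := pvN_lobe (ga := g) (e := D.sn j) (hkM j) (hv6 j)
    apply Complex.ext
    · rw [a1]; simp [hv]
    · rw [a2]; simp [hv]
  have hpvd : ∀ j, pvdN (D.sn j) (D.M j) (tau z j) =
      ((Afd (v j) : ℝ) : ℂ) + Complex.I * ((D.sn j (k j) * Bfd (v j) : ℝ) : ℂ) := by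
    intro j
    obtain ⟨-, -, a1, a2⟩ := pvN_lobe (ga := g) (e := D.sn j) (hkM j) (hv6 j)
    apply Complex.ext
    · rw [a1]; simp [hv]
    · rw [a2]; simp [hv]
  have hla : ∀ j m m', winN m m' (tau z j) = (if m ≤ k j ∧ k j < m' then 1 else 0) ∧
      wdN m m' (tau z j) = 0 := fun j m m' => winN_cell (by have := hkn j; linarith)
  have hWd : ∀ j, Wd D z j := by
    intro j
    have h0 := (hC j).1
    unfold Wd
    rw [abs_of_pos h0]
    have h3 := hkn j
    have h4 := le_K D j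
    have h5 : (k j : ℝ) + 1 ≤ D.M j := by exact_mod_cast hkM j
    have h6 : (0 : ℝ) ≤ k j := Nat.cast_nonneg _
    rw [abs_lt] at h3
    unfold sgN at h3
    have h7 : |tau z j| ≤ D.K := by
      rw [abs_le]
      constructor <;> linarith
    unfold tau at h7
    rwa [abs_div, abs_of_pos h0, div_le_iff₀ h0] at h7
  -- no deletion
  have hLet : D.Let k := by
    refine ⟨hkM, fun e => ?_⟩
    by_contra hdel
    push Not at hdel
    have hw : Pw D z e = 1 := by
      unfold Pw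
      refine prod_eq_one fun j hj => ?_
      unfold la
      rw [(hla j _ _).1, if_pos (hdel j hj)]
    have hR : ∀ j, D.R d z j = (z j).re := by
      intro j
      unfold SD.R
      rw [hch j, one_mul, max_eq_right (hC j).1.le]
    have hSne : (D.bx e).S.Nonempty := by
      rw [← card_pos]
      have := D.h2 e
      omega
    obtain ⟨j0, hj0⟩ := hSne
    have hA : 0 < √(AA z) := by
      have := Real.le_sqrt_of_sq_le (re_sq_le_AA z j0)
      have := (hC j0).1
      linarith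
    have hBe : √(AA z) / (2 * N ^ 2) ≤ D.Be d e z := by
      rw [Be_eq, hw, mul_one]
      unfold hh
      rw [Hm_of_pos fun j _ => by rw [hR]; exact (hC j).1]
      have h5 : ∑ j ∈ (D.bx e).S, 1 / D.R d z j ≤ 2 * N ^ 2 / √(AA z) := by
        calc ∑ j ∈ (D.bx e).S, 1 / D.R d z j ≤ ∑ _j ∈ (D.bx e).S, 2 * N / √(AA z) := by
              refine sum_le_sum fun j _ => ?_
              rw [hR, div_le_div_iff₀ (hC j).1 hA, one_mul]
              exact (hC j).2
          _ ≤ ∑ _j : Fin N, 2 * N / √(AA z) :=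
              sum_le_sum_of_subset_of_nonneg (subset_univ _) fun _ _ _ => by positivity
          _ = 2 * N ^ 2 / √(AA z) := by
              simp
              ring
      have h6 : 0 < ∑ j ∈ (D.bx e).S, 1 / D.R d z j :=
        sum_pos (fun j _ => by rw [hR]; exact div_pos one_pos (hC j).1) ⟨j0, hj0⟩
      calc √(AA z) / (2 * N ^ 2) = 1 / (2 * N ^ 2 / √(AA z)) := by rw [one_div_div]
        _ ≤ _ := one_div_le_one_div_of_le h6 h5
    have hsum : √(AA z) / (2 * N ^ 2) ≤ ∑ e, D.Be d e z :=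
      hBe.trans (single_le_sum (f := fun e => D.Be d e z) (fun e _ => Be_nonneg D d e z)
        (mem_univ e))
    have hneg : (D.G c g d z).re < 0 := by
      rw [G_re]
      have h6 : ∑ j, D.ch d z j * (plN g (D.sn j) (D.M j) (z j)).re ≤ g * (N * √(AA z)) := by
        calc ∑ j, D.ch d z j * (plN g (D.sn j) (D.M j) (z j)).re ≤ ∑ j, g * (z j).re := by
              refine sum_le_sum fun j _ => ?_
              rw [hch j, one_mul]
              exact plN_re_le _ (hC j).1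
          _ = g * ∑ j, (z j).re := by rw [mul_sum]
          _ ≤ _ := mul_le_mul_of_nonneg_left (sum_re_le z) hg2.le
      have h7 : c * g * (√(AA z) / (2 * N ^ 2)) ≤ c * g * ∑ e, D.Be d e z := by gcongr
      have h8 : g * (N * √(AA z)) < c * g * (√(AA z) / (2 * N ^ 2)) := by
        have e1 : c * g * (√(AA z) / (2 * N ^ 2)) = g * √(AA z) * (c / (2 * N ^ 2)) := by ring
        rw [e1]
        have e2 : (N : ℝ) < c / (2 * N ^ 2) := by
          rw [lt_div_iff₀ (by positivity)]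
          calc (N : ℝ) * (2 * N ^ 2) = 2 * N ^ 3 := by ring
            _ < c := hg1
        have e3 : 0 < g * √(AA z) := mul_pos hg2 hA
        nlinarith
      linarith
    exact absurd hneg (not_lt.2 hre)
  -- the derivatives
  have htB : ∀ j, tB D c g d z j = 0 := by
    intro j
    unfold tB
    rw [mul_eq_zero]
    right
    refine sum_eq_zero fun e _ => ?_
    unfold lad
    rw [(hla j _ _).2]
    simp
  have hw : ∀ j, fderiv ℝ (D.G c g d) z (vt (Pi.single j (1 : ℝ))) =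
      pvdN (D.sn j) (D.M j) (tau z j) := by
    intro j
    rw [w_pos c g hd hz h2 (hC j).1 (hWd j), htB j, hch j]
    simp
  set Y : Fin N → ℝ := fun j => (z j).re * (Bf (v j) / Bfd (v j)) with hY
  have hfd : fderiv ℝ (D.G c g d) z (vt Y) =
      ∑ j, (Y j : ℂ) * pvdN (D.sn j) (D.M j) (tau z j) := by
    rw [w_vt]
    exact sum_congr rfl fun j _ => by rw [hw j]
  have hBe0 : ∑ e, D.Be d e z = 0 := by
    refine sum_eq_zero fun e _ => ?_
    obtain ⟨j, hj, h6⟩ := hLet.2 e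
    rw [Be_eq]
    have : Pw D z e = 0 := by
      refine Pw_of_la D hj ?_
      unfold la
      rw [(hla j _ _).1, if_neg h6]
    rw [this, mul_zero]
  have hGz : D.G c g d z = ∑ j, plN g (D.sn j) (D.M j) (z j) := by
    unfold SD.G
    rw [hBe0]
    simp [hch]
  have hImG : ∑ j, (z j).re * (D.sn j (k j) * Bf (v j)) = 0 := by
    have := him
    rw [hGz, Complex.im_sum] at this
    rw [← this]
    refine sum_congr rfl fun j _ => ?_
    rw [hpl j, Complex.im_ofReal_mul]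
    simp
  have hre1 : ∀ j, ((Y j : ℂ) * pvdN (D.sn j) (D.M j) (tau z j)).re =
      (z j).re * (Bf (v j) * Afd (v j) / Bfd (v j)) := by
    intro j
    rw [Complex.re_ofReal_mul, hpvd j, hY]
    simp
    ring
  have him1 : ∀ j, ((Y j : ℂ) * pvdN (D.sn j) (D.M j) (tau z j)).im =
      (z j).re * (D.sn j (k j) * Bf (v j)) := by
    intro j
    rw [Complex.im_ofReal_mul, hpvd j, hY]
    have := (near_facts (hvj j)).1.ne'
    simp
    field_simp
  have hneg : ∀ j, (z j).re * (Bf (v j) * Afd (v j) / Bfd (v j)) ≤ 0 := by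
    intro j
    obtain ⟨a, b, -, -⟩ := near_facts (hvj j)
    exact mul_nonpos_of_nonneg_of_nonpos (hC j).1.le (div_nonpos_of_nonpos_of_nonneg b a.le)
  refine ⟨k, Y, hLet, ?_, ?_, ?_, ?_, ?_⟩
  · rw [hfd, Complex.im_sum, sum_congr rfl fun j _ => him1 j, hImG]
  · rw [hfd, Complex.re_sum, sum_congr rfl fun j _ => hre1 j]
    exact sum_nonpos fun j _ => hneg j
  · intro h0
    rw [hfd, Complex.re_sum, sum_congr rfl fun j _ => hre1 j]
    by_contra h3
    have h4 : ∑ j, (z j).re * (Bf (v j) * Afd (v j) / Bfd (v j)) = 0 :=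
      le_antisymm (sum_nonpos fun j _ => hneg j) (not_lt.1 h3)
    rw [sum_eq_zero_iff_of_nonpos fun j _ => hneg j] at h4
    have h5 : ∀ j, |v j| ≤ 1 := by
      intro j
      by_contra h6
      obtain ⟨a, -, b, -⟩ := near_facts (hvj j)
      have h7 := h4 j (Finset.mem_univ j)
      have h8 : (z j).re * (Bf (v j) * Afd (v j) / Bfd (v j)) < 0 :=
        mul_neg_of_pos_of_neg (hC j).1 (div_neg_of_neg_of_pos (b (not_le.1 h6)) a)
      linarith
    have h6 : 0 < (D.G c g d z).re := by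
      rw [hGz, Complex.re_sum]
      have : Nonempty (Fin N) := ⟨⟨0, hN⟩⟩
      refine sum_pos (fun j _ => ?_) Finset.univ_nonempty
      rw [hpl j, Complex.re_ofReal_mul, Af_of_le (h5 j)]
      have := (hC j).1
      simp
      positivity
    rw [h0] at h6
    simp at h6
  · intro j
    obtain ⟨-, -, -, a⟩ := near_facts (hvj j)
    rw [him' j, hY]
    have h3 := (hC j).1
    calc ((z j).re * v j) ^ 2 = (z j).re ^ 2 * v j ^ 2 := by ring
      _ ≤ (z j).re ^ 2 * (Bf (v j) / Bfd (v j) * v j) := by gcongr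
      _ = _ := by ring
  · intro j
    rw [him' j, abs_mul, abs_of_pos (hC j).1, mul_comm]
    exact mul_lt_mul_of_pos_right (hvj j) (hC j).1

end Crest.Agent.R267.R4N_957
end
end

-- ▼ part R267/K2IN_957

/-!
# Row 267, T3aN: K2 in region I for the signed function
-/

set_option autoImplicit false

noncomputable section

namespace Crest.Agent.R267.K2IN_957

open Filter Topology Finset
open Crest.Agent.R267.T3aDefs_957 (st Af Bf pg NN chi gq)
open Crest.Agent.R267.T3aDefs_957.LD (Ev vt vs Cen)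
open Crest.Agent.R267.T3aNDefs_88 Crest.Agent.R267.CalcN_88 Crest.Agent.R267.Calc3N_88
open Crest.Agent.R267.Calc4N_88 Crest.Agent.R267.Calc5N_88
open Crest.Agent.R267.Calc_957 (pvd)
open Crest.Agent.R267.Calc4_957 (tau dtau dtau_apply)
open Crest.Agent.R267.TLine_996 (SA SB)
open Crest.Agent.R267.CLine_996 (lc lc_re lc_im lc_zero)
open Crest.Agent.R267.AbsG_996 Crest.Agent.R267.AbsK_996
open Crest.Agent.R267.K1N_957 (abs_im_plN re_of_crit Be_nonneg)
open Crest.Agent.R267.R4N_957 (plN_re_le LD_mono)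

variable {N : ℕ}

/-- `SD.G` as an abstract lobed function. -/
def ag (D : SD N) (cB ga d : ℝ) : AG N where
  K1 := D.K1
  ga := ga
  T := 16 * D.Mx + 1
  P := fun j => plN ga (D.sn j) (D.M j)
  B := fun z => cB * ga * ∑ e, D.Be d e z


theorem plN_hom (ga : ℝ) (e : ℕ → ℝ) (M : ℕ) (w : ℂ) (r : ℝ) (hr : 0 < r) :
    plN ga e M ((r : ℂ) * w) = (r : ℂ) * plN ga e M w := by
  have e1 : ((r : ℂ) * w).re = r * w.re := Complex.re_ofReal_mul _ _
  have e2 : ((r : ℂ) * w).im = r * w.im := Complex.im_ofReal_mul _ _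
  unfold plN
  rw [e1, e2, mul_div_mul_left _ _ hr.ne']
  by_cases h : 0 < w.re
  · rw [if_pos h, if_pos (mul_pos hr h)]
    push_cast
    ring
  · rw [if_neg h, if_neg (fun h1 => h ((mul_pos_iff_of_pos_left hr).1 h1))]
    push_cast
    ring

theorem M_le (D : SD N) (j : Fin N) : (D.M j : ℝ) ≤ D.Mx := by
  exact_mod_cast M_le_Mx D j

theorem ag_ok (D : SD N) {cB ga : ℝ} (d : ℝ) (hc : 0 ≤ cB) (hg : 0 < ga) (hg1 : ga < 1) :
    (ag D cB ga d).Ok where
  T1 := by
    show (1 : ℝ) ≤ 16 * D.Mx + 1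
    have : (0 : ℝ) ≤ D.Mx := Nat.cast_nonneg _
    linarith
  K1T := by
    show (16 * (D.Mx : ℝ) + 1) * N ≤ (16 * D.Mx + 2) * N
    have : (0 : ℝ) ≤ N := Nat.cast_nonneg _
    gcongr
    norm_num
  ga0 := hg
  ga1 := hg1
  diff := fun j w hw => (hasFDerivAt_plN ga (D.sn j) (D.M j) hw).differentiableAt
  far := fun j w h => by
    change (16 * (D.Mx : ℝ) + 1) * w.re < |w.im| at h
    show plN ga (D.sn j) (D.M j) w = _
    have : plN ga (D.sn j) (D.M j) w = -((2 - ga : ℝ) : ℂ) * w.re - Complex.I * w.im := by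
      rcases le_or_gt w.re 0 with h1 | h1
      · exact plN_of_nonpos h1
      · refine plN_of_far (Or.inl ?_)
        have := M_le D j
        refine le_trans ?_ h.le
        gcongr
    exact this
  hom := fun j w r hr => plN_hom ga (D.sn j) (D.M j) w r hr
  re_le := fun j w h => plN_re_le (D.M j) h
  im_le := fun j w => by
    refine (abs_im_plN (abs_sn D j) (D.M j) w).trans ?_
    have h1 : (1 : ℝ) ≤ D.M j := by exact_mod_cast D.hM j
    have h2 := M_le D j
    show 3 * |w.re| + |w.im| ≤ (16 * (D.Mx : ℝ) + 1) * (|w.re| + |w.im|)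
    have h3 := abs_nonneg w.re
    have h4 := abs_nonneg w.im
    nlinarith
  crit := fun j w hw h => by
    have e : fderiv ℝ (plN ga (D.sn j) (D.M j)) w Complex.I = pbN (D.sn j) (D.M j) w := by
      rw [(hasFDerivAt_plN ga (D.sn j) (D.M j) hw).fderiv]
      simp
    change (fderiv ℝ (plN ga (D.sn j) (D.M j)) w Complex.I).im = 0 at h
    rw [e] at h
    unfold pbN at h
    split_ifs at h with hs
    · refine ⟨hs, ?_⟩
      have h1 := re_of_crit (ga := ga) (abs_sn D j) h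
      show (plN ga (D.sn j) (D.M j) w).re ≤ _
      rw [plN_of_pos hs, Complex.re_ofReal_mul, mul_comm]
      exact mul_le_mul_of_nonneg_right h1 hs.le
    · simp at h
  B0 := fun z => mul_nonneg (mul_nonneg hc hg.le) (sum_nonneg fun e _ => Be_nonneg D d e z)

/-- a real function along a line. -/
theorem comp_lc' {f : (Fin N → ℂ) → ℝ} {f' : (Fin N → ℂ) →L[ℝ] ℝ} {z : Fin N → ℂ}
    (hf : HasFDerivAt f f' z) (y : Fin N → ℂ) : HasDerivAt (fun h => f (lc z y h)) (f' y) 0 := by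
  have h1 : HasDerivAt (fun h : ℝ => lc z y h) y 0 := by
    rw [hasDerivAt_pi]
    intro i
    have : HasDerivAt (fun h : ℝ => z i + (h : ℂ) * y i) (y i) 0 := by
      simpa using ((hasDerivAt_id (0 : ℝ)).ofReal_comp.mul_const (y i)).const_add (z i)
    exact this
  have h2 : HasFDerivAt f f' (lc z y 0) := by rwa [lc_zero]
  exact h2.comp_hasDerivAt (0 : ℝ) h1

theorem dBe_nonpos (D : SD N) {cB ga d : ℝ} (hd : 0 < d) {z : Fin N → ℂ} (hz : z ≠ 0)
    (y : Fin N → ℂ)
    (h : ∀ i, z i = 0 ∨ (ag D cB ga d).T * (z i).re < |(z i).im| ∨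
      (0 < (z i).re ∧ y i = -(z i / ((z i).re : ℂ)) ∧
        ∃ r ≤ 0, HasDerivAt (fun h => (ag D cB ga d).R d (lc z y h) i) r 0))
    (e : Fin D.nb) : dBe D d z e y ≤ 0 := by
  classical
  unfold dBe
  split_ifs with hp
  swap
  · simp
  have far : ∀ j ∈ (D.bx e).S, (ag D cB ga d).T * (z j).re < |(z j).im| →
      la D z e j = 0 ∧ lad D z e j = 0 := by
    intro j hj hf
    refine win_far (D.hhi e j hj) (hp j hj) ?_
    change (16 * (D.Mx : ℝ) + 1) * (z j).re < |(z j).im| at hf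
    have := M_le D j
    have h0 := hp j hj
    refine le_trans ?_ hf.le
    gcongr
  have hne : ∀ j ∈ (D.bx e).S, z j ≠ 0 := fun j hj h0 => by
    have := hp j hj
    rw [h0] at this
    simp at this
  have e1 : dPw D z e y = 0 := by
    unfold dPw
    rw [ContinuousLinearMap.sum_apply]
    refine sum_eq_zero fun j hj => ?_
    rw [ContinuousLinearMap.smul_apply, smul_eq_mul]
    rcases h j with h0 | h0 | ⟨h0, h1, -⟩
    · exact absurd h0 (hne j hj)
    · rw [(far j hj h0).2]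
      ring
    · rw [dtau_apply, h1]
      have a1 : (-(z j / ((z j).re : ℂ))).re = -1 := by
        rw [Complex.neg_re, Complex.div_ofReal_re, div_self h0.ne']
      have a2 : (-(z j / ((z j).re : ℂ))).im = -tau z j := by
        rw [Complex.neg_im, Complex.div_ofReal_im]
        rfl
      rw [a1, a2]
      simp
  simp only [ContinuousLinearMap.add_apply, ContinuousLinearMap.smul_apply, smul_eq_mul]
  rw [e1, mul_zero, add_zero]
  by_cases hf : ∃ j ∈ (D.bx e).S, (ag D cB ga d).T * (z j).re < |(z j).im|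
  · obtain ⟨j, hj, hf⟩ := hf
    rw [Pw_of_la D hj (far j hj hf).1, zero_mul]
  · push Not at hf
    refine mul_nonpos_of_nonneg_of_nonpos (Pw_nonneg D z e) ?_
    unfold dhh
    rw [ContinuousLinearMap.sum_apply]
    refine sum_nonpos fun j hj => ?_
    rw [ContinuousLinearMap.smul_apply, smul_eq_mul]
    refine mul_nonpos_of_nonneg_of_nonpos (hd_nonneg D d z e j) ?_
    obtain ⟨-, -, r, hr, hr'⟩ := ((h j).resolve_left (hne j hj)).resolve_left (not_lt.2 (hf j hj))
    have h3 := comp_lc' (hasFDerivAt_R D hd hz (hp j hj)) y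
    have h4 : dR D d z j y = r := h3.unique hr'
    rw [h4]
    exact hr

theorem ag_BOk (D : SD N) {cB ga d : ℝ} (hc : 0 ≤ cB) (hg : 0 < ga) (hd : 0 < d) :
    BOk (ag D cB ga d) d := by
  intro z hz y h
  refine ⟨cB * ga * ∑ e, dBe D d z e y, ?_, ?_⟩
  · exact mul_nonpos_of_nonneg_of_nonpos (mul_nonneg hc hg.le)
      (sum_nonpos fun e _ => dBe_nonpos D hd hz y h e)
  · exact (HasDerivAt.fun_sum fun e _ => comp_lc' (hasFDerivAt_Be D hd hz e) y).const_mul _

/-- **K2 in region I** (no condition on `G z`). -/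
theorem k2IN (D : SD N) : Ev fun c g d => ∀ z : Fin N → ℂ, z ≠ 0 →
    ¬ II D z → ∃ Y : Fin N → ℝ, (fderiv ℝ (D.G c g d) z (vs 1 Y)).im = 0 ∧
      0 < (fderiv ℝ (D.G c g d) z (vs 1 Y)).re := by
  obtain ⟨d0, hd0, hdk⟩ := exists_dOk1 (N := N) D.K1 (16 * D.Mx + 1)
  have h1 : Ev fun c g d => 0 < c ∧ 0 < g ∧ g * (9 * N + 1) ≤ 1 / 2 ∧ 0 < d ∧ d ≤ d0 := by
    refine ⟨1, one_pos, fun c hc => ⟨1 / (2 * (9 * N + 1)), by positivity, fun g hg hg' =>
      ⟨d0, hd0, fun d h h' => ⟨by linarith, hg, ?_, h, h'⟩⟩⟩⟩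
    rw [le_div_iff₀ (by positivity)] at hg'
    linarith
  refine LD_mono h1 fun c g d ⟨hc, hg, hg1, hdp, hd1⟩ z hz h2 => ?_
  have hN0 : (0 : ℝ) ≤ N := Nat.cast_nonneg _
  have hg2 : g < 1 := by nlinarith
  have hG : DifferentiableAt ℝ ((ag D c g d).G d) z :=
    (hasFDerivAt_G D c g hdp hz).differentiableAt
  have hok := ag_ok D d hc.le hg hg2
  obtain ⟨k1, k2, k3⟩ := hdk d hdp hd1 (ag D c g d) hok rfl rfl
  exact AbsK_996.k2I hok hdp k1 k2 k3 hg1 (ag_BOk D hc.le hg hdp) hz hG (not_le.1 h2)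

end Crest.Agent.R267.K2IN_957
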