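import Crest.Agent.R267.Calc3_957

/-!
# Row 267, T3a: derivative of `G`, and its values in the region II (`|t| ≤ K1 |s|`)
-/

set_option autoImplicit false

noncomputable section

namespace Crest.Agent.R267.Calc4_957

open Finset T3aDefs_957 Calc_957 Calc2_957 Calc3_957

variable {N : ℕ}

/-! ### slopes -/

/-- slope. -/
def tau (z : Fin N → ℂ) (j : Fin N) : ℝ := (z j).im / (z j).re

/-- derivative of the slope. -/
def dtau (z : Fin N → ℂ) (j : Fin N) : (Fin N → ℂ) →L[ℝ] ℝ :=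
  (1 / (z j).re) • imj j - ((z j).im / (z j).re ^ 2) • rej j

theorem dtau_apply (z : Fin N → ℂ) (j : Fin N) (y : Fin N → ℂ) :
    dtau z j y = ((y j).im - tau z j * (y j).re) / (z j).re := by
  simp only [dtau, tau, ContinuousLinearMap.sub_apply, ContinuousLinearMap.smul_apply,
    smul_eq_mul, rej_apply, imj_apply]
  rcases eq_or_ne (z j).re 0 with h | h
  · rw [h]; simp
  · field_simp

theorem hasFDerivAt_tauj {z : Fin N → ℂ} {j : Fin N} (h : (z j).re ≠ 0) :
    HasFDerivAt (fun w => tau w j) (dtau z j) z :=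
  fdiv ((imj j).hasFDerivAt (x := z)) ((rej j).hasFDerivAt (x := z)) h

/-! ### the coupling terms -/

/-- a function squeezed by a function with vanishing derivative. -/
theorem hasFDerivAt_zero_of_le {E : Type*} [NormedAddCommGroup E] [NormedSpace ℝ E]
    {f g : E → ℝ} {z : E} (hg : HasFDerivAt g (0 : E →L[ℝ] ℝ) z) (hg0 : g z = 0)
    (hf : ∀ w, |f w| ≤ g w) : HasFDerivAt f (0 : E →L[ℝ] ℝ) z := by
  rw [hasFDerivAt_iff_isLittleO] at hg ⊢
  have hf0 : f z = 0 := by
    have := hf z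
    rw [hg0] at this
    exact abs_eq_zero.1 (le_antisymm this (abs_nonneg _))
  refine Asymptotics.IsBigO.trans_isLittleO (Asymptotics.IsBigO.of_bound 1 ?_) hg
  filter_upwards with w
  rw [hf0, hg0]
  simp only [ContinuousLinearMap.zero_apply, sub_zero, one_mul, Real.norm_eq_abs]
  exact (hf w).trans (le_abs_self _)

section D

variable (D : LD N)

/-- `R R' / (R + R')`. -/
def hh (d : ℝ) (z : Fin N → ℂ) (e : Fin N × Fin N × ℕ) : ℝ :=
  D.R d z e.1 * D.R d z e.2.1 / (D.R d z e.1 + D.R d z e.2.1)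

/-- `∂ hh / ∂ R`. -/
def h1 (d : ℝ) (z : Fin N → ℂ) (e : Fin N × Fin N × ℕ) : ℝ :=
  (D.R d z e.2.1 / (D.R d z e.1 + D.R d z e.2.1)) ^ 2

/-- `∂ hh / ∂ R'`. -/
def h2 (d : ℝ) (z : Fin N → ℂ) (e : Fin N × Fin N × ℕ) : ℝ :=
  (D.R d z e.1 / (D.R d z e.1 + D.R d z e.2.1)) ^ 2

/-- first window. -/
def la (z : Fin N → ℂ) (e : Fin N × Fin N × ℕ) : ℝ := win e.2.2 (D.M e.1) (tau z e.1)

/-- second window. -/
def be (z : Fin N → ℂ) (e : Fin N × Fin N × ℕ) : ℝ :=
  win (D.M e.2.1 - 1) (D.M e.2.1) (tau z e.2.1)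

/-- derivative of the first window. -/
def lad (z : Fin N → ℂ) (e : Fin N × Fin N × ℕ) : ℝ := wind e.2.2 (D.M e.1) (tau z e.1)

/-- derivative of the second window. -/
def bed (z : Fin N → ℂ) (e : Fin N × Fin N × ℕ) : ℝ :=
  wind (D.M e.2.1 - 1) (D.M e.2.1) (tau z e.2.1)

theorem Be_eq (d : ℝ) (z : Fin N → ℂ) (e : Fin N × Fin N × ℕ) :
    D.Be d e z = hh D d z e * (la D z e * be D z e) := rfl

theorem hh_nonneg (d : ℝ) (z : Fin N → ℂ) (e : Fin N × Fin N × ℕ) : 0 ≤ hh D d z e :=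
  div_nonneg (mul_nonneg (R_nonneg D d z _) (R_nonneg D d z _))
    (add_nonneg (R_nonneg D d z _) (R_nonneg D d z _))



theorem hh_le_left (d : ℝ) (z : Fin N → ℂ) (e : Fin N × Fin N × ℕ) :
    hh D d z e ≤ D.R d z e.1 := by
  have h1 := R_nonneg D d z e.1
  have h2 := R_nonneg D d z e.2.1
  unfold hh
  rcases eq_or_lt_of_le (add_nonneg h1 h2) with h | h
  · rw [← h, div_zero]; exact h1
  · rw [div_le_iff₀ h]
    nlinarith

theorem hh_le_right (d : ℝ) (z : Fin N → ℂ) (e : Fin N × Fin N × ℕ) :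
    hh D d z e ≤ D.R d z e.2.1 := by
  have h1 := R_nonneg D d z e.1
  have h2 := R_nonneg D d z e.2.1
  unfold hh
  rcases eq_or_lt_of_le (add_nonneg h1 h2) with h | h
  · rw [← h, div_zero]; exact h2
  · rw [div_le_iff₀ h]
    nlinarith

theorem h12 (d : ℝ) (z : Fin N → ℂ) (e : Fin N × Fin N × ℕ) (h : 0 < hh D d z e) :
    1 / 2 ≤ h1 D d z e + h2 D d z e := by
  have a1 := h.trans_le (hh_le_left D d z e)
  have a2 := h.trans_le (hh_le_right D d z e)
  have a3 : 0 < D.R d z e.1 + D.R d z e.2.1 := add_pos a1 a2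
  unfold h1 h2
  rw [div_pow, div_pow, ← add_div, div_le_div_iff₀ (by norm_num) (by positivity)]
  nlinarith [sq_nonneg (D.R d z e.1 - D.R d z e.2.1)]

theorem la_nonneg (z : Fin N → ℂ) (e : Fin N × Fin N × ℕ) : 0 ≤ la D z e := win_nonneg _ _ _




/-- steep variables are outside of all windows. -/
theorem win_far {m M : ℕ} {z : Fin N → ℂ} {j : Fin N} (h0 : 0 < (z j).re)
    (h : (8 * (M : ℝ) + 1) * (z j).re ≤ |(z j).im|) :
    win m M (tau z j) = 0 ∧ wind m M (tau z j) = 0 := by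
  have hM : (0 : ℝ) ≤ M := Nat.cast_nonneg _
  have hm : (0 : ℝ) ≤ m := Nat.cast_nonneg _
  unfold tau
  rcases le_total 0 (z j).im with h1 | h1
  · rw [abs_of_nonneg h1] at h
    have h2 : 8 * (M : ℝ) + 1 ≤ (z j).im / (z j).re := by rwa [le_div_iff₀ h0]
    exact ⟨win_high h2, wind_high h2⟩
  · rw [abs_of_nonpos h1] at h
    have h2 : (z j).im / (z j).re ≤ 8 * m - 1 := by
      rw [div_le_iff₀ h0]
      nlinarith
    exact ⟨win_low h2, wind_low h2⟩

/-- derivative of `hh`. -/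
def dhh (d : ℝ) (z : Fin N → ℂ) (e : Fin N × Fin N × ℕ) : (Fin N → ℂ) →L[ℝ] ℝ :=
  h1 D d z e • dR D d z e.1 + h2 D d z e • dR D d z e.2.1

theorem hasFDerivAt_hh {d : ℝ} (hd : 0 < d) {z : Fin N → ℂ} (hz : z ≠ 0)
    {e : Fin N × Fin N × ℕ} (ha : 0 < (z e.1).re) (hb : 0 < (z e.2.1).re) :
    HasFDerivAt (fun w => hh D d w e) (dhh D d z e) z := by
  have hA := hasFDerivAt_R D hd hz ha
  have hB := hasFDerivAt_R D hd hz hb
  by_cases h : D.R d z e.1 + D.R d z e.2.1 = 0
  · have r1 : D.R d z e.1 = 0 := by linarith [R_nonneg D d z e.1, R_nonneg D d z e.2.1]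
    have r2 : D.R d z e.2.1 = 0 := by linarith [R_nonneg D d z e.1, R_nonneg D d z e.2.1]
    have e1 := dR_of_R_eq_zero D hd ha r1
    have e2 := dR_of_R_eq_zero D hd hb r2
    have e0 : dhh D d z e = 0 := by
      unfold dhh
      rw [e1, e2, smul_zero, smul_zero, add_zero]
    rw [e0]
    rw [e1] at hA
    exact hasFDerivAt_zero_of_le hA r1 fun w => by
      rw [abs_of_nonneg (hh_nonneg D d w e)]
      exact hh_le_left D d w e
  · have h3 := fdiv (hA.mul hB) (hA.add hB) h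
    refine HasFDerivAt.congr_fderiv h3 ?_
    have h' : D.R d z e.1 + D.R d z e.2.1 ≠ 0 := h
    ext w
    simp only [dhh, h1, h2, ContinuousLinearMap.add_apply, ContinuousLinearMap.sub_apply,
      ContinuousLinearMap.smul_apply, smul_eq_mul, Pi.mul_apply, Pi.add_apply]
    field_simp
    ring

/-- derivative of a coupling term. -/
def dBe (d : ℝ) (z : Fin N → ℂ) (e : Fin N × Fin N × ℕ) : (Fin N → ℂ) →L[ℝ] ℝ :=
  open Classical in
  if 0 < (z e.1).re ∧ 0 < (z e.2.1).re then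
    (la D z e * be D z e) • dhh D d z e +
      hh D d z e • ((lad D z e * be D z e) • dtau z e.1 + (la D z e * bed D z e) • dtau z e.2.1)
  else 0

theorem Be_nhds_left {d : ℝ} (hd : 0 < d) {z : Fin N → ℂ} (hz : z ≠ 0)
    {e : Fin N × Fin N × ℕ} (ha : (z e.1).re ≤ 0) : ∀ᶠ w in nhds z, D.Be d e w = 0 := by
  by_cases h : z e.1 = 0
  · filter_upwards [ch_zero_nhds D hd hz h] with w hw
    unfold LD.Be LD.R
    rw [hw]
    simp
  · have h1 : ∀ᶠ w : Fin N → ℂ in nhds z, (8 * (D.M e.1 : ℝ) + 1) * (w e.1).re ≤ |(w e.1).im| :=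
      (continuous_apply e.1).continuousAt.eventually (far_nhds ha h)
    filter_upwards [h1] with w hw
    rcases le_or_gt (w e.1).re 0 with h2 | h2
    · unfold LD.Be
      rw [R_of_nonpos D h2]
      simp
    · rw [Be_eq, show la D w e = 0 from (win_far h2 hw).1]
      simp

theorem Be_nhds_right {d : ℝ} (hd : 0 < d) {z : Fin N → ℂ} (hz : z ≠ 0)
    {e : Fin N × Fin N × ℕ} (ha : (z e.2.1).re ≤ 0) : ∀ᶠ w in nhds z, D.Be d e w = 0 := by
  by_cases h : z e.2.1 = 0
  · filter_upwards [ch_zero_nhds D hd hz h] with w hw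
    unfold LD.Be LD.R
    rw [hw]
    simp
  · have h1 : ∀ᶠ w : Fin N → ℂ in nhds z,
        (8 * (D.M e.2.1 : ℝ) + 1) * (w e.2.1).re ≤ |(w e.2.1).im| :=
      (continuous_apply e.2.1).continuousAt.eventually (far_nhds ha h)
    filter_upwards [h1] with w hw
    rcases le_or_gt (w e.2.1).re 0 with h2 | h2
    · unfold LD.Be
      rw [R_of_nonpos D h2]
      simp
    · rw [Be_eq, show be D w e = 0 from (win_far h2 hw).1]
      simp

theorem hasFDerivAt_Be {d : ℝ} (hd : 0 < d) {z : Fin N → ℂ} (hz : z ≠ 0)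
    (e : Fin N × Fin N × ℕ) : HasFDerivAt (D.Be d e) (dBe D d z e) z := by
  classical
  by_cases h : 0 < (z e.1).re ∧ 0 < (z e.2.1).re
  · have e0 : dBe D d z e = (la D z e * be D z e) • dhh D d z e +
      hh D d z e • ((lad D z e * be D z e) • dtau z e.1 +
        (la D z e * bed D z e) • dtau z e.2.1) := if_pos h
    rw [e0]
    have a1 := HasDerivAt.comp_hasFDerivAt (h₂ := win e.2.2 (D.M e.1)) (f := fun w => tau w e.1) z
      (hasDerivAt_win e.2.2 (D.M e.1) (tau z e.1)) (hasFDerivAt_tauj h.1.ne')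
    have a2 := HasDerivAt.comp_hasFDerivAt (h₂ := win (D.M e.2.1 - 1) (D.M e.2.1))
      (f := fun w => tau w e.2.1) z
      (hasDerivAt_win (D.M e.2.1 - 1) (D.M e.2.1) (tau z e.2.1)) (hasFDerivAt_tauj h.2.ne')
    have a3 := (hasFDerivAt_hh D hd hz h.1 h.2).mul (a1.mul a2)
    refine HasFDerivAt.congr_fderiv a3 ?_
    ext w
    simp only [ContinuousLinearMap.add_apply, ContinuousLinearMap.smul_apply, smul_eq_mul,
      la, be, lad, bed, Function.comp, Pi.mul_apply]
    ring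
  · have e0 : dBe D d z e = 0 := if_neg h
    rw [e0]
    refine (hasFDerivAt_const (0 : ℝ) z).congr_of_eventuallyEq ?_
    rw [not_and_or, not_lt, not_lt] at h
    rcases h with h | h
    · exact Be_nhds_left D hd hz h
    · exact Be_nhds_right D hd hz h

/-- the derivative of `G`. -/
def dG (cB ga d : ℝ) (z : Fin N → ℂ) : (Fin N → ℂ) →L[ℝ] ℂ :=
  ∑ j, dT D ga d z j - ((cB * ga) • ∑ e ∈ D.C, dBe D d z e).smulRight (1 : ℂ)

theorem hasFDerivAt_G (cB ga : ℝ) {d : ℝ} (hd : 0 < d) {z : Fin N → ℂ} (hz : z ≠ 0) :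
    HasFDerivAt (D.G cB ga d) (dG D cB ga d z) z := by
  have a1 : HasFDerivAt (fun w : Fin N → ℂ => ∑ j, (D.ch d w j : ℂ) * pl ga (D.M j) (w j))
      (∑ j, dT D ga d z j) z := HasFDerivAt.fun_sum fun j _ => hasFDerivAt_T D ga hd hz j
  have a2 : HasFDerivAt (fun w : Fin N → ℂ => ∑ e ∈ D.C, D.Be d e w)
      (∑ e ∈ D.C, dBe D d z e) z := HasFDerivAt.fun_sum fun e _ => hasFDerivAt_Be D hd hz e
  have a3 := (a2.const_mul (cB * ga))
  have a4 := HasFDerivAt.comp z (Complex.ofRealCLM.hasFDerivAt (x := cB * ga *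
    ∑ e ∈ D.C, D.Be d e z)) a3
  refine HasFDerivAt.congr_fderiv (a1.sub a4) ?_
  ext w
  simp [dG]

theorem fderiv_G (cB ga : ℝ) {d : ℝ} (hd : 0 < d) {z : Fin N → ℂ} (hz : z ≠ 0) :
    fderiv ℝ (D.G cB ga d) z = dG D cB ga d z := (hasFDerivAt_G D cB ga hd hz).fderiv

theorem dG_apply (cB ga d : ℝ) (z y : Fin N → ℂ) : dG D cB ga d z y =
    ∑ j, dT D ga d z j y - ((cB * ga * ∑ e ∈ D.C, dBe D d z e y : ℝ) : ℂ) := by
  simp [dG]

/-! ### vectors -/

@[simp] theorem vt_re (Y : Fin N → ℝ) (j : Fin N) : (LD.vt Y j).re = 0 := by simp [LD.vt]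

@[simp] theorem vt_im (Y : Fin N → ℝ) (j : Fin N) : (LD.vt Y j).im = Y j := by simp [LD.vt]

@[simp] theorem vs_re (a : ℝ) (Y : Fin N → ℝ) (j : Fin N) : (LD.vs a Y j).re = -a := by
  simp [LD.vs]

@[simp] theorem vs_im (a : ℝ) (Y : Fin N → ℝ) (j : Fin N) : (LD.vs a Y j).im = Y j := by
  simp [LD.vs]

theorem vt_eq_sum (Y : Fin N → ℝ) : LD.vt Y = ∑ j, Y j • LD.vt (Pi.single j (1 : ℝ)) := by
  funext i
  apply Complex.ext
  · simp
  · rw [vt_im, Finset.sum_apply, Complex.im_sum]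
    simp [Pi.single_apply]

theorem vs_eq (a : ℝ) (Y : Fin N → ℝ) : LD.vs a Y = a • LD.vs 1 0 + LD.vt Y := by
  funext i
  apply Complex.ext <;> simp

/-! ### region II -/

/-- the region II. -/
def II (z : Fin N → ℂ) : Prop := BB z ≤ D.K1 ^ 2 * AA z

/-- `∑ s_i / |s|`. -/
def S (z : Fin N → ℂ) : ℝ := (∑ j, (z j).re) / √(AA z)

variable {D}

theorem II.NN {z : Fin N → ℂ} (h : II D z) : NN D.K1 z = √(AA z) := NN_of_le h

theorem II.dxr_vt {z : Fin N → ℂ} (h : II D z) (j : Fin N) (Y : Fin N → ℝ) :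
    dxr D z j (LD.vt Y) = pt D.K (z j) * Y j / √(AA z) := by
  unfold dxr
  simp only [ContinuousLinearMap.sub_apply, ContinuousLinearMap.smul_apply, smul_eq_mul,
    ContinuousLinearMap.add_apply, rej_apply, imj_apply, vt_re, vt_im]
  rw [dNN_of_le h, h.NN, sr_apply]
  simp only [vt_re, mul_zero, sum_const_zero]
  ring

theorem II.dxr_vs {z : Fin N → ℂ} (h : II D z) (j : Fin N) (a : ℝ) (Y : Fin N → ℝ) :
    dxr D z j (LD.vs a Y) = (-(a * ps D.K (z j)) + pt D.K (z j) * Y j + a * (D.xr z j * S z)) /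
      √(AA z) := by
  unfold dxr
  simp only [ContinuousLinearMap.sub_apply, ContinuousLinearMap.smul_apply, smul_eq_mul,
    ContinuousLinearMap.add_apply, rej_apply, imj_apply, vs_re, vs_im]
  rw [dNN_of_le h, h.NN, sr_apply]
  simp only [vs_re, ← sum_mul]
  unfold S
  ring

/-- a coordinate is a window coordinate if it is not steep. -/
def Wd (D : LD N) (z : Fin N → ℂ) (j : Fin N) : Prop := |(z j).im| ≤ D.K * |(z j).re|

variable (D)

/-- `∂ (cB ga ∑ Be) / ∂ t_j`. -/
def tB (cB ga d : ℝ) (z : Fin N → ℂ) (j : Fin N) : ℝ :=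
  open Classical in
  cB * ga * ∑ e ∈ D.C, hh D d z e * ((if e.1 = j then lad D z e * be D z e / (z j).re else 0) +
    (if e.2.1 = j then la D z e * bed D z e / (z j).re else 0))

/-- `∂ (cB ga ∑ Be) / ∂ R_j`. -/
def HB (cB ga d : ℝ) (z : Fin N → ℂ) (j : Fin N) : ℝ :=
  open Classical in
  cB * ga * ∑ e ∈ D.C, ((if e.1 = j then la D z e * be D z e * h1 D d z e else 0) +
    (if e.2.1 = j then la D z e * be D z e * h2 D d z e else 0))

/-- `- ∂ R_j` along `(-1, …, -1)`. -/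
def rho (d : ℝ) (z : Fin N → ℂ) (j : Fin N) : ℝ :=
  D.ch d z j + D.xr z j * chid d (D.xr z j) - D.xr z j ^ 2 * chid d (D.xr z j) * S z

variable {D}

/-- a steep variable has vanishing windows. -/
theorem win_steep {m : ℕ} {z : Fin N → ℂ} {j : Fin N} (h0 : 0 < (z j).re) (hW : ¬ Wd D z j) :
    win m (D.M j) (tau z j) = 0 ∧ wind m (D.M j) (tau z j) = 0 := by
  refine win_far h0 ?_
  have h1 := le_K D j
  unfold Wd at hW
  rw [not_le, abs_of_pos h0] at hW
  nlinarith

theorem II.dch_vt_W {z : Fin N → ℂ} (h : II D z) (d : ℝ) {j : Fin N} (hW : Wd D z j)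
    (Y : Fin N → ℝ) : dch D d z j (LD.vt Y) = 0 := by
  have h1 : dch D d z j (LD.vt Y) = chid d (D.xr z j) * dxr D z j (LD.vt Y) := rfl
  rw [h1, h.dxr_vt, pt_of_le (K_nonneg D) hW]
  simp

theorem II.dch_vt {z : Fin N → ℂ} (h : II D z) (d : ℝ) (j : Fin N)
    (Y : Fin N → ℝ) : dch D d z j (LD.vt Y) =
      chid d (D.xr z j) * (pt D.K (z j) / √(AA z)) * Y j := by
  have h1 : dch D d z j (LD.vt Y) = chid d (D.xr z j) * dxr D z j (LD.vt Y) := rfl
  rw [h1, h.dxr_vt]
  ring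

theorem II.dch_vs {z : Fin N → ℂ} (h : II D z) (d : ℝ) (j : Fin N) :
    dch D d z j (LD.vs 1 0) =
      chid d (D.xr z j) * (-ps D.K (z j) + D.xr z j * S z) / √(AA z) := by
  have h1 : dch D d z j (LD.vs 1 0) = chid d (D.xr z j) * dxr D z j (LD.vs 1 0) := rfl
  rw [h1, h.dxr_vs]
  simp only [Pi.zero_apply]
  ring

/-- in the region II `s ≠ 0`. -/
theorem II.AA_pos {z : Fin N → ℂ} (h : II D z) (hz : z ≠ 0) : 0 < AA z := by
  refine lt_of_le_of_ne (AA_nonneg z) fun h0 => AA_add_BB_ne hz ?_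
  unfold II at h
  rw [← h0, mul_zero] at h
  rw [← h0, le_antisymm h (BB_nonneg z), add_zero]

theorem II.sqrt_pos {z : Fin N → ℂ} (h : II D z) (hz : z ≠ 0) : 0 < √(AA z) :=
  Real.sqrt_pos.2 (h.AA_pos hz)

theorem II.xr_W {z : Fin N → ℂ} (h : II D z) {j : Fin N} (hW : Wd D z j) :
    D.xr z j = |(z j).re| / √(AA z) := by
  unfold LD.xr
  rw [h.NN, pg_of_le (K_nonneg D) hW]

theorem II.dR_vs {z : Fin N → ℂ} (h : II D z) (hz : z ≠ 0) (d : ℝ) {j : Fin N} (hW : Wd D z j)
    (hj : 0 < (z j).re) : dR D d z j (LD.vs 1 0) = -rho D d z j := by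
  have h0 := (h.sqrt_pos hz).ne'
  rw [dR_apply, h.dch_vs, ps_of_le (K_nonneg D) hW, vs_re, abs_of_pos hj, div_self hj.ne']
  unfold rho
  have h1 : D.xr z j = (z j).re / √(AA z) := by rw [h.xr_W hW, abs_of_pos hj]
  have h2 : (z j).re = D.xr z j * √(AA z) := by rw [h1]; field_simp
  rw [h2]
  field_simp
  ring

theorem II.dR_vt {z : Fin N → ℂ} (h : II D z) (d : ℝ) {j : Fin N} (hW : Wd D z j)
    (Y : Fin N → ℝ) : dR D d z j (LD.vt Y) = 0 := by
  rw [dR_apply, h.dch_vt_W d hW, vt_re]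
  ring

/-- if one variable of a coupling is steep, then both window factors and derivatives vanish. -/
theorem steep_left {z : Fin N → ℂ} {e : Fin N × Fin N × ℕ} (h0 : 0 < (z e.1).re)
    (hW : ¬ Wd D z e.1) : la D z e = 0 ∧ lad D z e = 0 := win_steep h0 hW

theorem steep_right {z : Fin N → ℂ} {e : Fin N × Fin N × ℕ} (h0 : 0 < (z e.2.1).re)
    (hW : ¬ Wd D z e.2.1) : be D z e = 0 ∧ bed D z e = 0 := win_steep h0 hW

theorem hh_of_left {d : ℝ} {z : Fin N → ℂ} {e : Fin N × Fin N × ℕ} (h0 : (z e.1).re ≤ 0) :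
    hh D d z e = 0 := by
  unfold hh
  rw [R_of_nonpos D h0, zero_mul, zero_div]

theorem hh_of_right {d : ℝ} {z : Fin N → ℂ} {e : Fin N × Fin N × ℕ} (h0 : (z e.2.1).re ≤ 0) :
    hh D d z e = 0 := by
  unfold hh
  rw [R_of_nonpos D h0, mul_zero, zero_div]

/-- `∂ Be / ∂ t`. -/
theorem II.dBe_vt {z : Fin N → ℂ} (h : II D z) (d : ℝ) (e : Fin N × Fin N × ℕ)
    (Y : Fin N → ℝ) : dBe D d z e (LD.vt Y) =
      hh D d z e * (lad D z e * be D z e / (z e.1).re * Y e.1 +
        la D z e * bed D z e / (z e.2.1).re * Y e.2.1) := by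
  classical
  by_cases hp : 0 < (z e.1).re ∧ 0 < (z e.2.1).re
  · have e0 : dBe D d z e = (la D z e * be D z e) • dhh D d z e +
      hh D d z e • ((lad D z e * be D z e) • dtau z e.1 +
        (la D z e * bed D z e) • dtau z e.2.1) := if_pos hp
    rw [e0]
    simp only [ContinuousLinearMap.add_apply, ContinuousLinearMap.smul_apply, smul_eq_mul,
      dtau_apply, vt_im, vt_re]
    have e1 : la D z e * be D z e * (dhh D d z e (LD.vt Y)) = 0 := by
      by_cases w1 : Wd D z e.1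
      · by_cases w2 : Wd D z e.2.1
        · have : dhh D d z e (LD.vt Y) = 0 := by
            simp only [dhh, ContinuousLinearMap.add_apply, ContinuousLinearMap.smul_apply,
              smul_eq_mul]
            rw [h.dR_vt d w1, h.dR_vt d w2]
            ring
          rw [this, mul_zero]
        · rw [(steep_right hp.2 w2).1]
          ring
      · rw [(steep_left hp.1 w1).1]
        ring
    rw [e1]
    ring
  · have e0 : dBe D d z e = 0 := if_neg hp
    rw [e0]
    rw [not_and_or, not_lt, not_lt] at hp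
    have : hh D d z e = 0 := by
      rcases hp with h1 | h1
      · exact hh_of_left h1
      · exact hh_of_right h1
    rw [this]
    simp

/-- the coupling along a vertical vector. -/
theorem II.sum_dBe_vt {z : Fin N → ℂ} (h : II D z) (cB ga d : ℝ) (j : Fin N) :
    cB * ga * ∑ e ∈ D.C, dBe D d z e (LD.vt (Pi.single j (1 : ℝ))) = tB D cB ga d z j := by
  classical
  unfold tB
  congr 1
  refine sum_congr rfl fun e _ => ?_
  rw [h.dBe_vt]
  congr 1
  simp only [Pi.single_apply]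
  by_cases h1 : e.1 = j <;> by_cases h2 : e.2.1 = j <;> simp [h1, h2]

/-- `∂ Be` along `(-1, …, -1)`. -/
theorem II.dBe_vs {z : Fin N → ℂ} (h : II D z) (hz : z ≠ 0) (d : ℝ)
    (e : Fin N × Fin N × ℕ) : dBe D d z e (LD.vs 1 0) =
      open Classical in
      (if 0 < (z e.1).re ∧ Wd D z e.1 then -rho D d z e.1 * (la D z e * be D z e * h1 D d z e) +
        tau z e.1 * (hh D d z e * (lad D z e * be D z e / (z e.1).re)) else 0) +
      (if 0 < (z e.2.1).re ∧ Wd D z e.2.1 then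
        -rho D d z e.2.1 * (la D z e * be D z e * h2 D d z e) +
        tau z e.2.1 * (hh D d z e * (la D z e * bed D z e / (z e.2.1).re)) else 0) := by
  classical
  by_cases hp : 0 < (z e.1).re ∧ 0 < (z e.2.1).re
  · have e0 : dBe D d z e = (la D z e * be D z e) • dhh D d z e +
      hh D d z e • ((lad D z e * be D z e) • dtau z e.1 +
        (la D z e * bed D z e) • dtau z e.2.1) := if_pos hp
    rw [e0]
    simp only [ContinuousLinearMap.add_apply, ContinuousLinearMap.smul_apply, smul_eq_mul,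
      dtau_apply, vs_im, vs_re, dhh, Pi.zero_apply]
    by_cases w1 : Wd D z e.1
    · by_cases w2 : Wd D z e.2.1
      · rw [h.dR_vs hz d w1 hp.1, h.dR_vs hz d w2 hp.2, if_pos ⟨hp.1, w1⟩, if_pos ⟨hp.2, w2⟩]
        ring
      · rw [(steep_right hp.2 w2).1, (steep_right hp.2 w2).2,
          if_neg (show ¬ (0 < (z e.2.1).re ∧ Wd D z e.2.1) from fun hh => w2 hh.2)]
        split_ifs <;> ring
    · rw [(steep_left hp.1 w1).1, (steep_left hp.1 w1).2,
        if_neg (show ¬ (0 < (z e.1).re ∧ Wd D z e.1) from fun hh => w1 hh.2)]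
      split_ifs <;> ring
  · have e0 : dBe D d z e = 0 := if_neg hp
    rw [e0]
    rw [not_and_or, not_lt, not_lt] at hp
    rcases hp with h1 | h1
    · rw [if_neg (show ¬ (0 < (z e.1).re ∧ Wd D z e.1) from fun hh => absurd hh.1 (not_lt.2 h1)),
        hh_of_left h1]
      have : h2 D d z e = 0 := by
        unfold h2
        rw [R_of_nonpos D h1]
        simp
      rw [this]
      split_ifs <;> simp
    · rw [if_neg (show ¬ (0 < (z e.2.1).re ∧ Wd D z e.2.1) from
          fun hh => absurd hh.1 (not_lt.2 h1)), hh_of_right h1]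
      have : Calc4_957.h1 D d z e = 0 := by
        unfold Calc4_957.h1
        rw [R_of_nonpos D h1]
        simp
      rw [this]
      split_ifs <;> simp

/-- the coupling along `(-1, …, -1)`. -/
theorem II.sum_dBe_vs {z : Fin N → ℂ} (h : II D z) (hz : z ≠ 0) (cB ga d : ℝ) :
    cB * ga * ∑ e ∈ D.C, dBe D d z e (LD.vs 1 0) =
      open Classical in
      ∑ j, if 0 < (z j).re ∧ Wd D z j then -rho D d z j * HB D cB ga d z j +
        tau z j * tB D cB ga d z j else 0 := by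
  classical
  have e1 : ∀ j : Fin N, (if 0 < (z j).re ∧ Wd D z j then -rho D d z j * HB D cB ga d z j +
        tau z j * tB D cB ga d z j else 0) =
      cB * ga * ∑ e ∈ D.C, ((if e.1 = j then (if 0 < (z e.1).re ∧ Wd D z e.1 then
        -rho D d z e.1 * (la D z e * be D z e * h1 D d z e) +
        tau z e.1 * (hh D d z e * (lad D z e * be D z e / (z e.1).re)) else 0) else 0) +
        (if e.2.1 = j then (if 0 < (z e.2.1).re ∧ Wd D z e.2.1 then
        -rho D d z e.2.1 * (la D z e * be D z e * h2 D d z e) +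
        tau z e.2.1 * (hh D d z e * (la D z e * bed D z e / (z e.2.1).re)) else 0) else 0)) := by
    intro j
    by_cases hj : 0 < (z j).re ∧ Wd D z j
    · rw [if_pos hj]
      unfold HB tB
      have : ∀ a b A B : ℝ, a * (cB * ga * A) + b * (cB * ga * B) = cB * ga * (a * A + b * B) := by
        intro a b A B; ring
      rw [this, mul_sum, mul_sum, ← sum_add_distrib]
      congr 1
      refine sum_congr rfl fun e _ => ?_
      by_cases a1 : e.1 = j <;> by_cases a2 : e.2.1 = j <;> simp [a1, a2, hj] <;> ring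
    · rw [if_neg hj]
      symm
      rw [mul_eq_zero]
      right
      refine sum_eq_zero fun e _ => ?_
      by_cases a1 : e.1 = j <;> by_cases a2 : e.2.1 = j <;> simp [a1, a2, hj]
  rw [sum_congr rfl fun j _ => e1 j, ← mul_sum, sum_comm]
  congr 1
  refine sum_congr rfl fun e _ => ?_
  rw [h.dBe_vs hz, sum_add_distrib]
  simp

end D

end Crest.Agent.R267.Calc4_957
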