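import Crest.Agent.R267.LemL_951
import Crest.Agent.R267.Curve_867

-- ▼ part R267/K2b_867
section

/-!
# K2 of T3a, region II (`|t| ≤ K1 |s|`): the inequality behind it, as a statement on numbers

At a zero of `G = ∑ χ_j P_j - B` let `u` be a unit vector with `0 < u.re` which kills all
derivatives `w_j` in the directions `i e_j`. Then `rf u (w_0) > 0`, `w_0` the derivative in the
direction `(-1, …, -1)`; `rf u (w_0) = ∑ tm j`.

* window index (`Wp j`): `0 < s j`, `P = s p`, `p = (-(1-ga) + A) + i Bv`, `R = X s`,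
  `tm = rho (u.re * HB - rf u p)`, `HB = ∂B/∂R_j`;
* other index: `P = -(2-ga) s - i t`;
* `fl j`: the cut-off is `1` near the point.
-/

set_option autoImplicit false
set_option linter.unusedSectionVars false

noncomputable section

open Finset

namespace Crest.Agent.R267.K2b_867

open Crest.Agent.R267.LemL_951

/-- the numbers at the point. -/
structure Dat (ι ε : Type) where
  ga : ℝ
  K : ℝ
  cB : ℝ
  cT : ℝ
  KM : ℝ
  cO : ℝ
  d : ℝ
  ν : ℝ
  s : ι → ℝ
  t : ι → ℝ
  X : ι → ℝ
  rho : ι → ℝ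
  A : ι → ℝ
  Bv : ι → ℝ
  tB : ι → ℝ
  kp : ι → ℝ
  tm : ι → ℝ
  Wp : ι → Prop
  fl : ι → Prop
  src : ε → ι
  tgt : ε → ι
  la : ε → ℝ
  be : ε → ℝ
  hh : ε → ℝ
  h1 : ε → ℝ
  h2 : ε → ℝ
  u : ℂ
  eu : ℝ

namespace Dat

variable {ι ε : Type} [Fintype ι] [Fintype ε] (D : Dat ι ε)

/-- value of the loop. -/
def p (j : ι) : ℂ := ⟨-(1 - D.ga) + D.A j, D.Bv j⟩

open Classical in
/-- `∂B/∂R_j`. -/
def HB (j : ι) : ℝ :=
  D.cB * D.ga * ∑ e, ((if D.src e = j then D.la e * D.be e * D.h1 e else 0) +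
    (if D.tgt e = j then D.la e * D.be e * D.h2 e else 0))

/-- the deletion term. -/
def B : ℝ := ∑ e, D.cB * D.ga * (D.hh e * (D.la e * D.be e))

/-- window index at the left flat side or on the vertical line. -/
def TT (j : ι) : Prop :=
  D.A j = -1 ∧ 1 ≤ D.kp j ∧ D.X j * D.kp j * D.u.im + D.u.re * D.tB j = 0 ∧
    |D.tB j| ≤ D.cT * D.X j ∧ (D.tB j ≠ 0 → |D.Bv j| ≤ D.KM)

/-- the windows do not move with the angle of `j`. -/
def Cst (j : ι) : Prop :=
  (∀ e, D.src e = j → D.la e = 0 ∨ D.la e = 1) ∧ (∀ e, D.tgt e = j → D.be e = 0 ∨ D.be e = 1)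

/-- right arc. -/
def RA (j : ι) : Prop := 0 ≤ D.A j ∧ D.A j ≤ 1 ∧ 1 ≤ D.eu * D.Bv j ∧ D.eu * D.Bv j ≤ 13 / 8

/-- left arc. -/
def LA (j : ι) : Prop := -1 ≤ D.A j ∧ D.A j ≤ 0 ∧ 1 ≤ -(D.eu * D.Bv j) ∧ -(D.eu * D.Bv j) ≤ 13 / 8

/-- window index on the curve. -/
def NN (j : ι) : Prop :=
  D.Cst j ∧ ((D.u.im = 0 ∧ D.A j = 1) ∨ (D.u.im ≠ 0 ∧ (D.RA j ∨ D.LA j)))

/-- hypotheses on the constants, `N` = number of variables, `M` = number of edges. -/
structure Con (N M : ℝ) : Prop where
  hN : 1 ≤ N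
  hM : 0 ≤ M
  hga : 0 < D.ga
  hga2 : D.ga ≤ 1 / 4
  hga3 : 6 * N * D.ga ≤ 1 / 8
  hcB : 12 * N < D.cB
  hcT : 0 ≤ D.cT
  hcT2 : 6 * N * (13 / 8 * D.cT) ≤ 1 / 8
  hKM : 0 ≤ D.KM
  hcT3 : D.KM * D.cT ≤ 1 / 8
  hK : 39 * N ≤ D.K
  hcO : 0 ≤ D.cO
  hd : 0 < D.d
  hd1 : N ^ 2 * (4 + 2 * D.KM + D.cO) * D.d < 1
  hd2 : 8 * N ^ 2 * D.d ≤ D.ga
  hd3 : 2 * D.d * (2 * N * (M + 1) * D.cB) < 1

/-- hypotheses at the point. -/
structure Ok : Prop where
  hu : D.u.re ^ 2 + D.u.im ^ 2 = 1
  hu0 : 0 < D.u.re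
  heu : D.eu = 1 ∨ D.eu = -1
  heu2 : D.u.im = D.eu * |D.u.im|
  hν : 0 < D.ν
  big : D.ν ^ 2 ≤ ∑ j, D.s j ^ 2
  X0 : ∀ j, 0 ≤ D.X j
  X1 : ∀ j, D.X j ≤ 1
  fl1 : ∀ j, D.fl j → D.X j = 1
  fl0 : ∀ j, ¬ D.fl j → |D.s j| ≤ 2 * D.d * D.ν
  -- window indices
  Ws : ∀ j, D.Wp j → 0 < D.s j
  rX : ∀ j, D.Wp j → D.X j ≤ D.rho j
  r6 : ∀ j, D.Wp j → D.rho j ≤ 6
  r0 : ∀ j, D.Wp j → D.X j = 0 → D.rho j = 0
  Wt : ∀ j, D.Wp j → D.tm j = D.rho j * (D.u.re * D.HB j - rf D.u (D.p j))
  Wc : ∀ j, D.Wp j → 0 < D.X j → D.TT j ∨ D.NN j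
  -- other indices
  Vt : ∀ j, ¬ D.Wp j → 0 ≤ D.tm j
  Vf : ∀ j, ¬ D.Wp j → D.fl j → D.u.im = 0 ∧ D.u.re ≤ D.tm j
  VK : ∀ j, ¬ D.Wp j → 0 < D.X j → D.K * |D.u.im| ≤ 2 * D.u.re
  VO : ∀ j, ¬ D.Wp j → ¬ D.fl j → |D.t j| ≤ D.cO * D.d * D.ν
  -- edges
  la0 : ∀ e, 0 ≤ D.la e
  la1 : ∀ e, D.la e ≤ 1
  be0 : ∀ e, 0 ≤ D.be e
  be1 : ∀ e, D.be e ≤ 1
  hh0 : ∀ e, 0 ≤ D.hh e
  h10 : ∀ e, 0 ≤ D.h1 e
  h20 : ∀ e, 0 ≤ D.h2 e
  h12 : ∀ e, 0 < D.hh e → 1 / 2 ≤ D.h1 e + D.h2 e
  hs : ∀ e, D.hh e * (D.la e * D.be e) ≠ 0 → D.hh e ≤ D.X (D.src e) * D.s (D.src e) ∧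
    D.hh e ≤ D.X (D.tgt e) * D.s (D.tgt e) ∧ D.Wp (D.src e) ∧ D.Wp (D.tgt e)
  /-- `Re G = 0`. -/
  Zr : ∑ j, (open Classical in if D.Wp j then D.X j * D.s j * (-(1 - D.ga) + D.A j)
    else -(D.X j * ((2 - D.ga) * D.s j))) = D.B
  /-- `Im G = 0`. -/
  Zi : ∑ j, (open Classical in if D.Wp j then D.X j * D.s j * D.Bv j
    else -(D.X j * D.t j)) = 0

section main

variable {D} (hc : D.Con (Fintype.card ι) (Fintype.card ε)) (ok : D.Ok)

include hc ok

lemma cg0 : 0 < D.cB * D.ga := mul_pos (by linarith [hc.hcB, hc.hN]) hc.hga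

lemma HB0 (j : ι) : 0 ≤ D.HB j := by
  unfold Dat.HB
  refine mul_nonneg (cg0 hc ok).le (Finset.sum_nonneg fun e _ => ?_)
  have h1 := mul_nonneg (mul_nonneg (ok.la0 e) (ok.be0 e)) (ok.h10 e)
  have h2 := mul_nonneg (mul_nonneg (ok.la0 e) (ok.be0 e)) (ok.h20 e)
  split_ifs <;> linarith

lemma B0 : 0 ≤ D.B := by
  unfold Dat.B
  refine Finset.sum_nonneg fun e _ => ?_
  exact mul_nonneg (cg0 hc ok).le (mul_nonneg (ok.hh0 e) (mul_nonneg (ok.la0 e) (ok.be0 e)))

lemma exists_big : ∃ j, D.ν ≤ Fintype.card ι * |D.s j| := by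
  have hν := ok.big
  by_contra h
  simp only [not_exists, not_le] at h
  have hN := hc.hN
  have hN0 : 0 < (Fintype.card ι : ℝ) := by linarith
  have hne : (Finset.univ : Finset ι).Nonempty := by
    rw [Finset.univ_nonempty_iff, ← Fintype.card_pos_iff]
    exact_mod_cast hN0
  have h1 : ∀ j, (Fintype.card ι : ℝ) ^ 2 * D.s j ^ 2 < D.ν ^ 2 := by
    intro j
    have h2 := h j
    have h3 : 0 ≤ (Fintype.card ι : ℝ) * |D.s j| := by positivity
    calc (Fintype.card ι : ℝ) ^ 2 * D.s j ^ 2 = ((Fintype.card ι : ℝ) * |D.s j|) ^ 2 := by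
          rw [mul_pow, sq_abs]
      _ < D.ν ^ 2 := pow_lt_pow_left₀ h2 h3 (by norm_num)
  have h4 : ∑ j, (Fintype.card ι : ℝ) ^ 2 * D.s j ^ 2 < ∑ _j : ι, D.ν ^ 2 :=
    Finset.sum_lt_sum_of_nonempty hne fun j _ => h1 j
  rw [← Finset.mul_sum, Finset.sum_const, Finset.card_univ, nsmul_eq_mul] at h4
  have h5 : (Fintype.card ι : ℝ) * D.ν ^ 2 ≤ (Fintype.card ι : ℝ) ^ 2 * ∑ j, D.s j ^ 2 := by
    have h6 : (Fintype.card ι : ℝ) ≤ (Fintype.card ι : ℝ) ^ 2 := by nlinarith
    calc (Fintype.card ι : ℝ) * D.ν ^ 2 ≤ (Fintype.card ι : ℝ) ^ 2 * D.ν ^ 2 :=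
          mul_le_mul_of_nonneg_right h6 (sq_nonneg _)
      _ ≤ _ := mul_le_mul_of_nonneg_left hν (sq_nonneg _)
  linarith

lemma fl_of_big {j : ι} (h : D.ν ≤ Fintype.card ι * |D.s j|) : D.fl j := by
  by_contra hf
  have h1 := ok.fl0 j hf
  have hν := ok.hν
  have hN := hc.hN
  have hd := hc.hd
  have hd1 := hc.hd1
  have hKM := hc.hKM
  have hcO := hc.hcO
  have h3 : D.ν ≤ Fintype.card ι * (2 * D.d * D.ν) :=
    h.trans (mul_le_mul_of_nonneg_left h1 (by linarith))
  have h4 : (Fintype.card ι : ℝ) * (2 * D.d) < 1 := by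
    have h5 : (Fintype.card ι : ℝ) * (2 * D.d) ≤
        (Fintype.card ι : ℝ) ^ 2 * (4 + 2 * D.KM + D.cO) * D.d := by
      have h6 : (Fintype.card ι : ℝ) * 2 ≤ (Fintype.card ι : ℝ) ^ 2 * (4 + 2 * D.KM + D.cO) := by
        have h7 : (Fintype.card ι : ℝ) ≤ (Fintype.card ι : ℝ) ^ 2 := by nlinarith
        nlinarith [mul_nonneg (sq_nonneg (Fintype.card ι : ℝ)) hKM,
          mul_nonneg (sq_nonneg (Fintype.card ι : ℝ)) hcO]
      nlinarith
    linarith
  nlinarith

lemma rf_p (j : ι) : rf D.u (D.p j) = D.u.re * (-(1 - D.ga) + D.A j) + D.u.im * D.Bv j := rfl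

lemma im_B (j : ι) : D.u.im * D.Bv j = |D.u.im| * (D.eu * D.Bv j) := by
  conv_lhs => rw [ok.heu2]
  ring

/-- `rf u p` on a right arc. -/
lemma rf_RA {j : ι} (h : D.RA j) : rf D.u (D.p j) ≤ D.u.re * D.ga + 13 / 8 * |D.u.im| := by
  rw [rf_p hc ok, im_B hc ok]
  obtain ⟨-, h2, -, h4⟩ := h
  have h5 : |D.u.im| * (D.eu * D.Bv j) ≤ |D.u.im| * (13 / 8) :=
    mul_le_mul_of_nonneg_left h4 (abs_nonneg _)
  have h6 : D.u.re * (-(1 - D.ga) + D.A j) ≤ D.u.re * D.ga :=
    mul_le_mul_of_nonneg_left (by linarith) ok.hu0.le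
  linarith

/-- `rf u p` on a left arc. -/
lemma rf_LA {j : ι} (h : D.LA j) : rf D.u (D.p j) ≤ -(D.u.re * (1 - D.ga)) := by
  rw [rf_p hc ok, im_B hc ok]
  obtain ⟨-, h2, h3, -⟩ := h
  have h5 : |D.u.im| * (D.eu * D.Bv j) ≤ 0 :=
    mul_nonpos_of_nonneg_of_nonpos (abs_nonneg _) (by linarith)
  have h6 : D.u.re * (-(1 - D.ga) + D.A j) ≤ D.u.re * (-(1 - D.ga)) :=
    mul_le_mul_of_nonneg_left (by linarith) ok.hu0.le
  linarith

/-- `|u.im| ≤ cT u.re` if there is an active `TT` index. -/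
lemma im_TT {j : ι} (h : D.TT j) (hX : 0 < D.X j) : |D.u.im| ≤ D.cT * D.u.re := by
  obtain ⟨-, h2, h3, h4, -⟩ := h
  have hu0 := ok.hu0
  have h5 : D.X j * D.kp j * |D.u.im| = D.u.re * |D.tB j| := by
    have h6 : D.X j * D.kp j * D.u.im = -(D.u.re * D.tB j) := by linarith
    have h7 := congrArg abs h6
    rw [abs_neg, abs_mul, abs_mul, abs_mul, abs_of_pos hX,
      abs_of_pos (by linarith : 0 < D.kp j), abs_of_pos hu0] at h7
    exact h7
  have h6 : D.X j * |D.u.im| ≤ D.X j * (D.cT * D.u.re) := by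
    calc D.X j * |D.u.im| ≤ D.X j * |D.u.im| * D.kp j := by
          have := mul_nonneg hX.le (abs_nonneg D.u.im)
          nlinarith
      _ = D.u.re * |D.tB j| := by rw [← h5]; ring
      _ ≤ D.u.re * (D.cT * D.X j) := mul_le_mul_of_nonneg_left h4 hu0.le
      _ = _ := by ring
  exact le_of_mul_le_mul_left h6 hX

/-- `rf u p` at an active `TT` index. -/
lemma rf_TT {j : ι} (h : D.TT j) (hX : 0 < D.X j) :
    rf D.u (D.p j) ≤ -(D.u.re * (15 / 8 - D.ga)) := by
  have h1 := im_TT hc ok h hX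
  obtain ⟨hA, h2, h3, h4, h5⟩ := h
  have hu0 := ok.hu0
  rw [rf_p hc ok, hA]
  by_cases ht : D.tB j = 0
  · rw [ht, mul_zero, add_zero] at h3
    have h6 : D.u.im = 0 := by
      rcases mul_eq_zero.1 h3 with h7 | h7
      · rcases mul_eq_zero.1 h7 with h8 | h8
        · exact absurd h8 hX.ne'
        · linarith
      · exact h7
    rw [h6, zero_mul, add_zero]
    nlinarith
  · have h6 := h5 ht
    have h7 : D.u.im * D.Bv j ≤ D.u.re * (1 / 8) := by
      calc D.u.im * D.Bv j ≤ |D.u.im * D.Bv j| := le_abs_self _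
        _ = |D.u.im| * |D.Bv j| := abs_mul _ _
        _ ≤ (D.cT * D.u.re) * D.KM :=
          mul_le_mul h1 h6 (abs_nonneg _) (mul_nonneg hc.hcT hu0.le)
        _ = D.u.re * (D.KM * D.cT) := by ring
        _ ≤ D.u.re * (1 / 8) := mul_le_mul_of_nonneg_left hc.hcT3 hu0.le
    nlinarith

/-- lower bound for all terms. -/
lemma tm_ge (j : ι) : -(6 * (D.u.re * D.ga + 13 / 8 * |D.u.im|)) +
    (open Classical in if D.Wp j then D.u.re * (D.rho j * D.HB j) else 0) ≤ D.tm j := by
  classical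
  have hu0 := ok.hu0
  have hga := hc.hga
  have hga2 := hc.hga2
  have h0 : 0 ≤ D.u.re * D.ga + 13 / 8 * |D.u.im| := by positivity
  by_cases hj : D.Wp j
  · rw [if_pos hj, ok.Wt j hj]
    have hX := ok.X0 j
    have hr := ok.rX j hj
    have hr6 := ok.r6 j hj
    have h1 : rf D.u (D.p j) * D.rho j ≤ 6 * (D.u.re * D.ga + 13 / 8 * |D.u.im|) := by
      rcases eq_or_lt_of_le hX with h2 | h2
      · rw [ok.r0 j hj h2.symm, mul_zero]; linarith
      · have h3 : rf D.u (D.p j) ≤ D.u.re * D.ga + 13 / 8 * |D.u.im| := by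
          rcases ok.Wc j hj h2 with h4 | ⟨-, ⟨h4, h5⟩ | ⟨-, h4 | h4⟩⟩
          · have := rf_TT hc ok h4 h2
            nlinarith
          · rw [rf_p hc ok, h4, h5, zero_mul, add_zero, abs_zero, mul_zero, add_zero]
            nlinarith
          · exact rf_RA hc ok h4
          · have := rf_LA hc ok h4
            nlinarith
        calc rf D.u (D.p j) * D.rho j ≤ (D.u.re * D.ga + 13 / 8 * |D.u.im|) * D.rho j :=
              mul_le_mul_of_nonneg_right h3 (by linarith)
          _ ≤ (D.u.re * D.ga + 13 / 8 * |D.u.im|) * 6 := mul_le_mul_of_nonneg_left hr6 h0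
          _ = _ := mul_comm _ _
    have h2 : D.rho j * (D.u.re * D.HB j - rf D.u (D.p j)) =
        D.u.re * (D.rho j * D.HB j) - rf D.u (D.p j) * D.rho j := by ring
    linarith
  · rw [if_neg hj, add_zero]
    have := ok.Vt j hj
    linarith

/-- one heavy index and a bound for `|u.im|` suffice. -/
lemma pos_of_heavy {j0 : ι} (h : D.u.re * (1 - D.ga) ≤ D.tm j0)
    (hr : 6 * Fintype.card ι * (13 / 8 * |D.u.im|) ≤ D.u.re / 2) : 0 < ∑ j, D.tm j := by
  classical
  have hu0 := ok.hu0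
  have h1 : ∑ j, (-(6 * (D.u.re * D.ga + 13 / 8 * |D.u.im|)) +
      if j = j0 then D.u.re * (1 - D.ga) else 0) ≤ ∑ j, D.tm j := by
    refine Finset.sum_le_sum fun j _ => ?_
    split_ifs with h2
    · rw [h2]
      have : 0 ≤ 6 * (D.u.re * D.ga + 13 / 8 * |D.u.im|) := by
        have := hc.hga; positivity
      linarith
    · have h3 := tm_ge hc ok j
      have h4 : 0 ≤ (open Classical in if D.Wp j then D.u.re * (D.rho j * D.HB j) else 0) := by
        split_ifs with h5
        · have := HB0 hc ok j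
          have := ok.X0 j
          have := ok.rX j h5
          have : 0 ≤ D.rho j := by linarith
          positivity
        · exact le_rfl
      linarith
  rw [Finset.sum_add_distrib, Finset.sum_const, Finset.card_univ, nsmul_eq_mul,
    Finset.sum_ite_eq' Finset.univ j0, if_pos (Finset.mem_univ _)] at h1
  have h2 := hc.hga3
  have h3 := hc.hga2
  have h4 : (Fintype.card ι : ℝ) * (6 * (D.u.re * D.ga)) ≤ D.u.re * (1 / 8) := by
    calc (Fintype.card ι : ℝ) * (6 * (D.u.re * D.ga)) = D.u.re * (6 * Fintype.card ι * D.ga) := by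
          ring
      _ ≤ _ := mul_le_mul_of_nonneg_left h2 hu0.le
  nlinarith

/-- a full window index which is not on the right is heavy. -/
lemma heavy_of {j : ι} (hj : D.Wp j) (hf : D.fl j)
    (h : rf D.u (D.p j) ≤ -(D.u.re * (1 - D.ga))) : D.u.re * (1 - D.ga) ≤ D.tm j := by
  rw [ok.Wt j hj]
  have hX := ok.fl1 j hf
  have hr := ok.rX j hj
  rw [hX] at hr
  have hu0 := ok.hu0
  have h1 := mul_nonneg hu0.le (HB0 hc ok j)
  have h2 := hc.hga2
  have h3 : 0 ≤ D.u.re * (1 - D.ga) := mul_nonneg hu0.le (by linarith)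
  nlinarith

/-- `u` not real: all active indices `RA`/`LA` is impossible. -/
lemma im_bound (hne : D.u.im ≠ 0) :
    6 * Fintype.card ι * (13 / 8 * |D.u.im|) ≤ D.u.re / 2 := by
  classical
  have hu0 := ok.hu0
  have hN := hc.hN
  have hN0 : 0 < (Fintype.card ι : ℝ) := by linarith
  by_cases h1 : ∃ j, D.Wp j ∧ 0 < D.X j ∧ D.TT j
  · obtain ⟨j, -, hX, hT⟩ := h1
    have h2 := im_TT hc ok hT hX
    have h3 := hc.hcT2
    calc 6 * (Fintype.card ι : ℝ) * (13 / 8 * |D.u.im|)
        ≤ 6 * (Fintype.card ι : ℝ) * (13 / 8 * (D.cT * D.u.re)) := by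
          refine mul_le_mul_of_nonneg_left ?_ (by positivity)
          linarith
      _ = (6 * Fintype.card ι * (13 / 8 * D.cT)) * D.u.re := by ring
      _ ≤ 1 / 8 * D.u.re := mul_le_mul_of_nonneg_right h3 hu0.le
      _ ≤ D.u.re / 2 := by linarith
  · by_cases h2 : ∃ j, ¬ D.Wp j ∧ 0 < D.X j
    · obtain ⟨j, hj, hX⟩ := h2
      have h3 := ok.VK j hj hX
      have h4 := hc.hK
      have h5 : 39 * Fintype.card ι * |D.u.im| ≤ D.K * |D.u.im| :=
        mul_le_mul_of_nonneg_right h4 (abs_nonneg _)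
      linarith
    · exfalso
      simp only [not_exists, not_and] at h1 h2
      have hcase : ∀ j, D.X j ≠ 0 → D.Wp j ∧ (D.RA j ∨ D.LA j) := by
        intro j hX
        have hX0 : 0 < D.X j := lt_of_le_of_ne (ok.X0 j) (Ne.symm hX)
        have hj : D.Wp j := by
          by_contra hj
          exact h2 j hj hX0
        refine ⟨hj, ?_⟩
        rcases ok.Wc j hj hX0 with h3 | ⟨-, ⟨h3, -⟩ | ⟨-, h3⟩⟩
        · exact absurd h3 (h1 j hj hX0)
        · exact absurd h3 hne
        · exact h3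
      have key : ∀ j, (if D.Wp j then D.X j * D.s j * (-(1 - D.ga) + D.A j)
          else -(D.X j * ((2 - D.ga) * D.s j))) ≤
          7 / 20 * (D.eu * (if D.Wp j then D.X j * D.s j * D.Bv j else -(D.X j * D.t j))) -
            1 / 10 * (if D.Wp j then D.X j * D.s j else 0) := by
        intro j
        by_cases hX : D.X j = 0
        · simp [hX]
        · obtain ⟨hj, h3⟩ := hcase j hX
          rw [if_pos hj, if_pos hj, if_pos hj]
          have hR : 0 ≤ D.X j * D.s j := mul_nonneg (ok.X0 j) (ok.Ws j hj).le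
          have hga2 := hc.hga2
          have h5 : -(1 - D.ga) + D.A j ≤ 7 / 20 * (D.eu * D.Bv j) - 1 / 10 := by
            rcases h3 with ⟨-, h4, h5, -⟩ | ⟨-, h4, -, h5⟩ <;> linarith
          have h6 := mul_le_mul_of_nonneg_left h5 hR
          linarith
      have h3 := Finset.sum_le_sum fun j (_ : j ∈ (Finset.univ : Finset ι)) => key j
      rw [Finset.sum_sub_distrib, ← Finset.mul_sum, ← Finset.mul_sum, ← Finset.mul_sum] at h3
      have h4 := ok.Zr
      have h5 := ok.Zi
      have h6 := B0 hc ok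
      have e1 : ∑ j, (if D.Wp j then D.X j * D.s j * (-(1 - D.ga) + D.A j)
          else -(D.X j * ((2 - D.ga) * D.s j))) = D.B := by
        rw [← h4]
      have e2 : ∑ j, (if D.Wp j then D.X j * D.s j * D.Bv j else -(D.X j * D.t j)) = 0 := by
        rw [← h5]
      rw [e1, e2, mul_zero, mul_zero, zero_sub] at h3
      obtain ⟨j1, hj1⟩ := exists_big hc ok
      have hf1 := fl_of_big hc ok hj1
      have hX1 := ok.fl1 j1 hf1
      obtain ⟨hW1, -⟩ := hcase j1 (by rw [hX1]; exact one_ne_zero)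
      have h7 : 0 < ∑ j, (if D.Wp j then D.X j * D.s j else 0) := by
        refine Finset.sum_pos' (fun j _ => ?_) ⟨j1, Finset.mem_univ _, ?_⟩
        · split_ifs with hj
          · exact mul_nonneg (ok.X0 j) (ok.Ws j hj).le
          · exact le_rfl
        · rw [if_pos hW1, hX1, one_mul]; exact ok.Ws j1 hW1
      linarith

/-- `u` not real: there is a heavy index. -/
lemma exists_heavy (hne : D.u.im ≠ 0) : ∃ j, D.fl j ∧ D.Wp j ∧ (D.TT j ∨ D.LA j) := by
  classical
  by_contra hno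
  simp only [not_exists, not_and, not_or] at hno
  have hν := ok.hν
  have hN := hc.hN
  have hN0 : 0 < (Fintype.card ι : ℝ) := by linarith
  have hd := hc.hd
  have hKM := hc.hKM
  have hcO := hc.hcO
  have hdν : 0 < D.d * D.ν := mul_pos hd hν
  have hfl : ∀ j, D.fl j → D.Wp j ∧ D.RA j := by
    intro j hf
    have hj : D.Wp j := by
      by_contra hj
      exact hne (ok.Vf j hj hf).1
    refine ⟨hj, ?_⟩
    have h1 := hno j hf hj
    rcases ok.Wc j hj (by rw [ok.fl1 j hf]; exact one_pos) with h3 | ⟨-, ⟨h3, -⟩ | ⟨-, h3 | h3⟩⟩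
    · exact absurd h3 h1.1
    · exact absurd h3 hne
    · exact h3
    · exact absurd h3 h1.2
  have heu : |D.eu| = 1 := by
    rcases ok.heu with h | h <;> simp [h]
  set c := (4 + 2 * D.KM + D.cO) * (D.d * D.ν) with hcd
  have hc0 : 0 ≤ c := by positivity
  obtain ⟨j1, hj1⟩ := exists_big hc ok
  have hf1 := fl_of_big hc ok hj1
  have key : ∀ j, (if j = j1 then D.ν / Fintype.card ι else 0) - c ≤
      D.eu * (if D.Wp j then D.X j * D.s j * D.Bv j else -(D.X j * D.t j)) := by
    intro j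
    by_cases hf : D.fl j
    · obtain ⟨hj, hRA⟩ := hfl j hf
      rw [if_pos hj, ok.fl1 j hf, one_mul]
      have hs := ok.Ws j hj
      have h1 : D.s j * 1 ≤ D.s j * (D.eu * D.Bv j) := mul_le_mul_of_nonneg_left hRA.2.2.1 hs.le
      have h2 : D.eu * (D.s j * D.Bv j) = D.s j * (D.eu * D.Bv j) := by ring
      rw [h2]
      split_ifs with h3
      · rw [h3] at h1 ⊢
        rw [h3] at hs
        rw [abs_of_pos hs] at hj1
        have h4 : D.ν / Fintype.card ι ≤ D.s j1 := by
          rw [div_le_iff₀ hN0]; linarith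
        linarith
      · linarith
    · have hs := ok.fl0 j hf
      have hjj : j ≠ j1 := by rintro rfl; exact hf hf1
      rw [if_neg hjj, zero_sub]
      have hX0 := ok.X0 j
      have hX1 := ok.X1 j
      have key2 : |D.eu * (if D.Wp j then D.X j * D.s j * D.Bv j else -(D.X j * D.t j))| ≤ c ∨
          0 ≤ D.eu * (if D.Wp j then D.X j * D.s j * D.Bv j else -(D.X j * D.t j)) := by
        by_cases hj : D.Wp j
        · rw [if_pos hj]
          rcases eq_or_lt_of_le hX0 with h0 | h0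
          · left; rw [← h0]; simpa using hc0
          · have hsp := ok.Ws j hj
            rw [abs_of_pos hsp] at hs
            have hR : 0 ≤ D.X j * D.s j := mul_nonneg hX0 hsp.le
            have hR2 : D.X j * D.s j ≤ 2 * (D.d * D.ν) := by nlinarith
            have h2 : D.eu * (D.X j * D.s j * D.Bv j) = D.X j * D.s j * (D.eu * D.Bv j) := by ring
            have bound : ∀ b : ℝ, |D.Bv j| ≤ b → 2 * b ≤ 4 + 2 * D.KM + D.cO →
                |D.eu * (D.X j * D.s j * D.Bv j)| ≤ c := by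
              intro b hb hb2
              rw [abs_mul, heu, one_mul, abs_mul, abs_of_nonneg hR]
              calc D.X j * D.s j * |D.Bv j| ≤ 2 * (D.d * D.ν) * b :=
                    mul_le_mul hR2 hb (abs_nonneg _) (by linarith)
                _ = 2 * b * (D.d * D.ν) := by ring
                _ ≤ c := mul_le_mul_of_nonneg_right hb2 hdν.le
            rcases ok.Wc j hj h0 with h3 | ⟨-, ⟨h3, -⟩ | ⟨-, h3 | h3⟩⟩
            · left
              obtain ⟨-, hk, h4, -, h5⟩ := h3
              have ht : D.tB j ≠ 0 := by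
                intro h6
                rw [h6, mul_zero, add_zero] at h4
                rcases mul_eq_zero.1 h4 with h7 | h7
                · rcases mul_eq_zero.1 h7 with h8 | h8
                  · exact h0.ne' h8
                  · linarith
                · exact hne h7
              exact bound _ (h5 ht) (by linarith)
            · exact absurd h3 hne
            · right
              rw [h2]
              exact mul_nonneg hR (by linarith [h3.2.2.1])
            · left
              refine bound (13 / 8) ?_ (by linarith)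
              have h4 : |D.eu * D.Bv j| ≤ 13 / 8 := by
                rw [abs_le]
                constructor
                · linarith [h3.2.2.2]
                · linarith [h3.2.2.1]
              rw [abs_mul, heu, one_mul] at h4
              exact h4
        · left
          rw [if_neg hj, abs_mul, heu, one_mul, abs_neg, abs_mul, abs_of_nonneg hX0]
          have h1 := ok.VO j hj hf
          calc D.X j * |D.t j| ≤ 1 * (D.cO * D.d * D.ν) :=
                mul_le_mul hX1 h1 (abs_nonneg _) zero_le_one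
            _ = D.cO * (D.d * D.ν) := by ring
            _ ≤ c := by
                rw [hcd]
                refine mul_le_mul_of_nonneg_right (by linarith) hdν.le
      rcases key2 with h | h
      · exact (abs_le.1 h).1
      · linarith
  have h1 := Finset.sum_le_sum fun j (_ : j ∈ (Finset.univ : Finset ι)) => key j
  rw [Finset.sum_sub_distrib, Finset.sum_ite_eq' Finset.univ j1, if_pos (Finset.mem_univ _),
    Finset.sum_const, Finset.card_univ, nsmul_eq_mul, ← Finset.mul_sum] at h1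
  have e2 : ∑ j, (if D.Wp j then D.X j * D.s j * D.Bv j else -(D.X j * D.t j)) = 0 := by
    rw [← ok.Zi]
  rw [e2, mul_zero] at h1
  have h2 : D.ν / Fintype.card ι ≤ Fintype.card ι * c := by linarith
  rw [div_le_iff₀ hN0] at h2
  have h3 := hc.hd1
  have h4 : (Fintype.card ι : ℝ) * c * Fintype.card ι =
      ((Fintype.card ι : ℝ) ^ 2 * (4 + 2 * D.KM + D.cO) * D.d) * D.ν := by rw [hcd]; ring
  rw [h4] at h2
  nlinarith

/-- **the case `u` not real.** -/
lemma pos_ne (hne : D.u.im ≠ 0) : 0 < ∑ j, D.tm j := by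
  obtain ⟨j, hf, hj, h⟩ := exists_heavy hc ok hne
  refine pos_of_heavy hc ok (j0 := j) (heavy_of hc ok hj hf ?_) (im_bound hc ok hne)
  have hu0 := ok.hu0
  rcases h with h | h
  · have := rf_TT hc ok h (by rw [ok.fl1 j hf]; exact one_pos)
    nlinarith
  · exact rf_LA hc ok h

/-- **the case `u` real.** -/
lemma pos_eq (h0 : D.u.im = 0) : 0 < ∑ j, D.tm j := by
  classical
  have hu0 := ok.hu0
  have hN := hc.hN
  have hN0 : 0 < (Fintype.card ι : ℝ) := by linarith
  have hν := ok.hν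
  have hd := hc.hd
  have hga := hc.hga
  have hga2 := hc.hga2
  have hM := hc.hM
  have hcB : 0 < D.cB := by linarith [hc.hcB]
  have hr : 6 * Fintype.card ι * (13 / 8 * |D.u.im|) ≤ D.u.re / 2 := by
    rw [h0, abs_zero, mul_zero, mul_zero]; linarith
  by_cases h1 : ∃ j, D.fl j ∧ (D.Wp j → D.A j = -1)
  · obtain ⟨j, hf, hA⟩ := h1
    refine pos_of_heavy hc ok (j0 := j) ?_ hr
    by_cases hj : D.Wp j
    · refine heavy_of hc ok hj hf ?_
      rw [rf_p hc ok, hA hj, h0, zero_mul, add_zero]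
      nlinarith
    · have := (ok.Vf j hj hf).2
      nlinarith
  simp only [not_exists, not_and] at h1
  have hfl : ∀ j, D.fl j → D.Wp j ∧ D.A j = 1 ∧ D.Cst j := by
    intro j hf
    have h2 := h1 j hf
    rw [Classical.not_imp] at h2
    obtain ⟨hj, hA⟩ := h2
    refine ⟨hj, ?_⟩
    rcases ok.Wc j hj (by rw [ok.fl1 j hf]; exact one_pos) with h3 | ⟨hC, ⟨-, h3⟩ | ⟨h3, -⟩⟩
    · exact absurd h3.1 hA
    · exact ⟨h3, hC⟩
    · exact absurd h0 h3
  obtain ⟨j1, hj1⟩ := exists_big hc ok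
  have hf1 := fl_of_big hc ok hj1
  -- lower bound for `B`
  have hB : D.ga * D.ν / (2 * Fintype.card ι) ≤ D.B := by
    have key : ∀ j, (if j = j1 then D.ga * D.ν / Fintype.card ι else 0) - 4 * (D.d * D.ν) ≤
        (if D.Wp j then D.X j * D.s j * (-(1 - D.ga) + D.A j)
          else -(D.X j * ((2 - D.ga) * D.s j))) := by
      intro j
      have hdν : 0 < D.d * D.ν := mul_pos hd hν
      by_cases hf : D.fl j
      · obtain ⟨hj, hA, -⟩ := hfl j hf
        rw [if_pos hj, ok.fl1 j hf, hA, one_mul]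
        have hs := ok.Ws j hj
        have h3 : D.s j * (-(1 - D.ga) + 1) = D.ga * D.s j := by ring
        rw [h3]
        split_ifs with h4
        · rw [h4]
          rw [h4] at hs
          rw [abs_of_pos hs] at hj1
          have h5 : D.ν / Fintype.card ι ≤ D.s j1 := by
            rw [div_le_iff₀ hN0]; linarith
          have h6 : D.ga * D.ν / Fintype.card ι ≤ D.ga * D.s j1 := by
            rw [mul_div_assoc]
            exact mul_le_mul_of_nonneg_left h5 hga.le
          linarith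
        · have := mul_pos hga hs
          linarith
      · have hjj : j ≠ j1 := by rintro rfl; exact hf hf1
        rw [if_neg hjj, zero_sub]
        have hs := ok.fl0 j hf
        have hX0 := ok.X0 j
        have hX1 := ok.X1 j
        split_ifs with hj
        · have hsp := ok.Ws j hj
          rw [abs_of_pos hsp] at hs
          have hR : 0 ≤ D.X j * D.s j := mul_nonneg hX0 hsp.le
          have hR2 : D.X j * D.s j ≤ 2 * (D.d * D.ν) := by nlinarith
          rcases eq_or_lt_of_le hX0 with h3 | h3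
          · rw [← h3]; simp only [zero_mul]; linarith
          · have h4 : -2 ≤ -(1 - D.ga) + D.A j := by
              rcases ok.Wc j hj h3 with h5 | ⟨-, ⟨-, h5⟩ | ⟨h5, -⟩⟩
              · rw [h5.1]; linarith
              · rw [h5]; linarith
              · exact absurd h0 h5
            nlinarith
        · have h3 : |D.X j * ((2 - D.ga) * D.s j)| ≤ 4 * (D.d * D.ν) := by
            rw [abs_mul, abs_of_nonneg hX0, abs_mul, abs_of_nonneg (by linarith : 0 ≤ 2 - D.ga)]
            calc D.X j * ((2 - D.ga) * |D.s j|) ≤ 1 * ((2 - D.ga) * |D.s j|) :=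
                  mul_le_mul_of_nonneg_right hX1
                    (mul_nonneg (by linarith) (abs_nonneg _))
              _ ≤ 1 * (2 * (2 * D.d * D.ν)) := by
                  refine mul_le_mul_of_nonneg_left ?_ zero_le_one
                  exact mul_le_mul (by linarith) hs (abs_nonneg _) (by norm_num)
              _ = _ := by ring
          have := (abs_le.1 h3).2
          linarith
    have h2 := Finset.sum_le_sum fun j (_ : j ∈ (Finset.univ : Finset ι)) => key j
    rw [Finset.sum_sub_distrib, Finset.sum_ite_eq' Finset.univ j1, if_pos (Finset.mem_univ _),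
      Finset.sum_const, Finset.card_univ, nsmul_eq_mul] at h2
    have e1 : ∑ j, (if D.Wp j then D.X j * D.s j * (-(1 - D.ga) + D.A j)
        else -(D.X j * ((2 - D.ga) * D.s j))) = D.B := by
      rw [← ok.Zr]
    rw [e1] at h2
    have h3 := hc.hd2
    have h4 : (Fintype.card ι : ℝ) * (4 * (D.d * D.ν)) ≤ D.ga * D.ν / (2 * Fintype.card ι) := by
      rw [le_div_iff₀ (by linarith)]
      calc (Fintype.card ι : ℝ) * (4 * (D.d * D.ν)) * (2 * Fintype.card ι)
          = (8 * (Fintype.card ι : ℝ) ^ 2 * D.d) * D.ν := by ring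
        _ ≤ D.ga * D.ν := mul_le_mul_of_nonneg_right h3 hν.le
    have h5 : D.ga * D.ν / Fintype.card ι = 2 * (D.ga * D.ν / (2 * Fintype.card ι)) := by
      field_simp
    linarith
  -- an edge with a large deletion term
  obtain ⟨e, he⟩ : ∃ e, D.ν / (2 * Fintype.card ι * (Fintype.card ε + 1) * D.cB) ≤
      D.hh e * (D.la e * D.be e) := by
    by_contra hno
    simp only [not_exists, not_le] at hno
    set q := D.ν / (2 * Fintype.card ι * (Fintype.card ε + 1) * D.cB) with hq
    have hq0 : 0 < q := by positivity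
    have h2 : D.B ≤ ∑ _e : ε, D.cB * D.ga * q := by
      unfold Dat.B
      refine Finset.sum_le_sum fun e _ => ?_
      exact mul_le_mul_of_nonneg_left (hno e).le (cg0 hc ok).le
    rw [Finset.sum_const, Finset.card_univ, nsmul_eq_mul] at h2
    have h3 : (Fintype.card ε : ℝ) * (D.cB * D.ga * q) <
        ((Fintype.card ε : ℝ) + 1) * (D.cB * D.ga * q) := by
      have := mul_pos (cg0 hc ok) hq0
      linarith
    have h4 : ((Fintype.card ε : ℝ) + 1) * (D.cB * D.ga * q) =
        D.ga * D.ν / (2 * Fintype.card ι) := by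
      rw [hq]; field_simp
    linarith
  have hq0 : 0 < D.ν / (2 * Fintype.card ι * (Fintype.card ε + 1) * D.cB) := by positivity
  have hne : D.hh e * (D.la e * D.be e) ≠ 0 := (lt_of_lt_of_le hq0 he).ne'
  obtain ⟨hs1, hs2, hw1, hw2⟩ := ok.hs e hne
  have hlb : D.la e * D.be e ≤ 1 := mul_le_one₀ (ok.la1 e) (ok.be0 e) (ok.be1 e)
  have hhh : D.ν / (2 * Fintype.card ι * (Fintype.card ε + 1) * D.cB) ≤ D.hh e := by
    refine he.trans ?_
    have := mul_le_mul_of_nonneg_left hlb (ok.hh0 e)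
    linarith
  have hbig : 2 * D.d * D.ν < D.hh e := by
    refine lt_of_lt_of_le ?_ hhh
    rw [lt_div_iff₀ (by positivity)]
    have h2 := hc.hd3
    calc 2 * D.d * D.ν * (2 * Fintype.card ι * (Fintype.card ε + 1) * D.cB)
        = (2 * D.d * (2 * Fintype.card ι * (Fintype.card ε + 1) * D.cB)) * D.ν := by ring
      _ < 1 * D.ν := mul_lt_mul_of_pos_right h2 hν
      _ = D.ν := one_mul _
  have hflj : ∀ j, D.Wp j → D.hh e ≤ D.X j * D.s j → D.fl j := by
    intro j hj h2
    by_contra hf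
    have h3 := ok.fl0 j hf
    have hs := ok.Ws j hj
    rw [abs_of_pos hs] at h3
    have : D.X j * D.s j ≤ 1 * D.s j := mul_le_mul_of_nonneg_right (ok.X1 j) hs.le
    linarith
  have hf1' := hflj _ hw1 hs1
  have hf2' := hflj _ hw2 hs2
  obtain ⟨-, -, hC1⟩ := hfl _ hf1'
  obtain ⟨-, -, hC2⟩ := hfl _ hf2'
  have hla : D.la e = 1 := by
    rcases hC1.1 e rfl with h2 | h2
    · exfalso; apply hne; rw [h2]; ring
    · exact h2
  have hbe : D.be e = 1 := by
    rcases hC2.2 e rfl with h2 | h2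
    · exfalso; apply hne; rw [h2]; ring
    · exact h2
  have h12 := ok.h12 e (lt_of_lt_of_le hq0 hhh)
  -- the sum of the `HB`-terms
  have hH : D.cB * D.ga * (1 / 2) ≤ ∑ j, (if D.Wp j then D.rho j * D.HB j else 0) := by
    set r : ι → ℝ := fun j => if D.Wp j then D.rho j else 0 with hrd
    have hr0 : ∀ j, 0 ≤ r j := by
      intro j
      simp only [hrd]
      split_ifs with hj
      · exact (ok.X0 j).trans (ok.rX j hj)
      · exact le_rfl
    have e1 : ∑ j, (if D.Wp j then D.rho j * D.HB j else 0) =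
        D.cB * D.ga * ∑ e, (r (D.src e) * (D.la e * D.be e * D.h1 e) +
          r (D.tgt e) * (D.la e * D.be e * D.h2 e)) := by
      have e2 : ∀ j, (if D.Wp j then D.rho j * D.HB j else 0) =
          D.cB * D.ga * ∑ e, ((if D.src e = j then r j * (D.la e * D.be e * D.h1 e) else 0) +
            (if D.tgt e = j then r j * (D.la e * D.be e * D.h2 e) else 0)) := by
        intro j
        have e3 : (if D.Wp j then D.rho j * D.HB j else 0) = r j * D.HB j := by
          simp only [hrd]; split_ifs <;> ring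
        rw [e3, Dat.HB, mul_left_comm, Finset.mul_sum]
        congr 1
        refine Finset.sum_congr rfl fun e _ => ?_
        split_ifs <;> ring
      rw [Finset.sum_congr rfl fun j _ => e2 j, ← Finset.mul_sum, Finset.sum_comm]
      congr 1
      refine Finset.sum_congr rfl fun e _ => ?_
      rw [Finset.sum_add_distrib, Finset.sum_ite_eq, Finset.sum_ite_eq,
        if_pos (Finset.mem_univ _), if_pos (Finset.mem_univ _)]
    rw [e1]
    refine mul_le_mul_of_nonneg_left ?_ (cg0 hc ok).le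
    have h2 : ∀ e', 0 ≤ r (D.src e') * (D.la e' * D.be e' * D.h1 e') +
        r (D.tgt e') * (D.la e' * D.be e' * D.h2 e') := by
      intro e'
      have a1 := mul_nonneg (mul_nonneg (ok.la0 e') (ok.be0 e')) (ok.h10 e')
      have a2 := mul_nonneg (mul_nonneg (ok.la0 e') (ok.be0 e')) (ok.h20 e')
      exact add_nonneg (mul_nonneg (hr0 _) a1) (mul_nonneg (hr0 _) a2)
    refine le_trans ?_ (Finset.single_le_sum (f := fun e' => r (D.src e') *
      (D.la e' * D.be e' * D.h1 e') + r (D.tgt e') * (D.la e' * D.be e' * D.h2 e'))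
      (fun e' _ => h2 e') (Finset.mem_univ e))
    have r1 : 1 ≤ r (D.src e) := by
      simp only [hrd, if_pos hw1]
      have := ok.rX _ hw1
      rw [ok.fl1 _ hf1'] at this
      exact this
    have r2 : 1 ≤ r (D.tgt e) := by
      simp only [hrd, if_pos hw2]
      have := ok.rX _ hw2
      rw [ok.fl1 _ hf2'] at this
      exact this
    rw [hla, hbe]
    have b1 := ok.h10 e
    have b2 := ok.h20 e
    nlinarith
  -- conclusion
  have h2 : ∀ j, -(6 * (D.u.re * D.ga)) + D.u.re * (if D.Wp j then D.rho j * D.HB j else 0) ≤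
      D.tm j := by
    intro j
    have h3 := tm_ge hc ok j
    rw [h0, abs_zero, mul_zero, add_zero] at h3
    refine le_trans (le_of_eq ?_) h3
    congr 1
    split_ifs <;> ring
  have h3 := Finset.sum_le_sum fun j (_ : j ∈ (Finset.univ : Finset ι)) => h2 j
  rw [Finset.sum_add_distrib, Finset.sum_const, Finset.card_univ, nsmul_eq_mul,
    ← Finset.mul_sum] at h3
  refine lt_of_lt_of_le ?_ h3
  have h4 : D.u.re * (D.cB * D.ga * (1 / 2)) ≤
      D.u.re * ∑ j, (if D.Wp j then D.rho j * D.HB j else 0) :=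
    mul_le_mul_of_nonneg_left hH hu0.le
  have h5 : 0 < D.u.re * D.ga := mul_pos hu0 hga
  have h6 := hc.hcB
  have h7 : (Fintype.card ι : ℝ) * (6 * (D.u.re * D.ga)) < D.u.re * (D.cB * D.ga * (1 / 2)) := by
    nlinarith
  linarith

/-- **K2, region II**: the derivative in the direction `(-1,…,-1)` is positive for `rf u`. -/
theorem pos : 0 < ∑ j, D.tm j := by
  by_cases h : D.u.im = 0
  · exact pos_eq hc ok h
  · exact pos_ne hc ok h

end main

end Dat

end Crest.Agent.R267.K2b_867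
end
end

-- ▼ part R267/K2c_867

/-!
# K2 of T3a, region II: the numbers of `Dat` at a zero of `G`

`Pt` collects a point `z` of `ℂ^N`, the constants, a direction `u` and the derivatives `ps j`,
`pt j` of the planar gauge at `z j` (with their three properties `hP`).
`w j` = derivative of `G` in the direction `i e_j`, `w0` = derivative in the direction `-(1,…,1)`.
-/

set_option autoImplicit false
set_option linter.unusedSectionVars false
set_option linter.unusedVariables false

noncomputable section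

open Finset

namespace Crest.Agent.R267.K2c_867

open Crest.Agent.R267.LemL_951 Crest.Agent.R267.T3aDefs_957 Crest.Agent.R267.Calc_957
  Crest.Agent.R267.Curve_867 Crest.Agent.R267.K2b_867

/-! ### the linear algebra -/

theorem farkas {N : ℕ} (w : Fin N → ℂ) (w0 : ℂ) (h1 : ∃ j, (w j).im ≠ 0)
    (h : ∀ u : ℂ, u.re ^ 2 + u.im ^ 2 = 1 → 0 < u.re → (∀ j, rf u (w j) = 0) → 0 < rf u w0) :
    ∃ (a : ℝ) (Y : Fin N → ℝ), 0 ≤ a ∧ ((a : ℂ) * w0 + ∑ j, (Y j : ℂ) * w j).im = 0 ∧
      0 < ((a : ℂ) * w0 + ∑ j, (Y j : ℂ) * w j).re := by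
  classical
  obtain ⟨j0, hj0⟩ := h1
  by_cases hp : ∃ j, (w j0).re * (w j).im - (w j0).im * (w j).re ≠ 0
  · obtain ⟨j, hj⟩ := hp
    set c : ℝ := (w j0).re * (w j).im - (w j0).im * (w j).re with hc
    refine ⟨0, fun i => c * ((if i = j0 then (w j).im else 0) - (if i = j then (w j0).im else 0)),
      le_rfl, ?_, ?_⟩
    · simp only [Complex.ofReal_zero, zero_mul, zero_add, Complex.im_sum,
        Complex.mul_im, Complex.ofReal_re, Complex.ofReal_im, add_zero,
        mul_sub, sub_mul, Finset.sum_sub_distrib, mul_ite, ite_mul, mul_zero,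
        Finset.sum_ite_eq', Finset.mem_univ, if_true]
      ring
    · simp only [Complex.ofReal_zero, zero_mul, zero_add, Complex.re_sum,
        Complex.mul_re, Complex.ofReal_re, Complex.ofReal_im, sub_zero,
        mul_sub, sub_mul, Finset.sum_sub_distrib, mul_ite, ite_mul, mul_zero,
        Finset.sum_ite_eq', Finset.mem_univ, if_true]
      have : 0 < c ^ 2 := by positivity
      have e : c * (w j).im * (w j0).re - c * (w j0).im * (w j).re = c ^ 2 := by
        rw [hc]; ring
      linarith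
  · push Not at hp
    set n : ℝ := √((w j0).re ^ 2 + (w j0).im ^ 2) with hn
    have hn2 : n ^ 2 = (w j0).re ^ 2 + (w j0).im ^ 2 := Real.sq_sqrt (by positivity)
    have hn0 : 0 < n := by
      refine Real.sqrt_pos.2 ?_
      have : 0 < (w j0).im ^ 2 := by positivity
      nlinarith [sq_nonneg (w j0).re]
    obtain ⟨σ, hσ, hσ2⟩ : ∃ σ : ℝ, σ ^ 2 = 1 ∧ 0 < σ * (w j0).im := by
      rcases lt_or_gt_of_ne hj0 with h2 | h2
      · exact ⟨-1, by norm_num, by linarith⟩
      · exact ⟨1, by norm_num, by linarith⟩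
    have hu := h ⟨σ * (w j0).im / n, -(σ * (w j0).re) / n⟩ (by
      simp only
      rw [div_pow, div_pow, ← add_div, div_eq_one_iff_eq (by positivity)]
      calc (σ * (w j0).im) ^ 2 + (-(σ * (w j0).re)) ^ 2
          = σ ^ 2 * ((w j0).re ^ 2 + (w j0).im ^ 2) := by ring
        _ = n ^ 2 := by rw [hσ, one_mul, hn2]) (by simp only; positivity) (by
      intro j
      simp only [rf]
      have := hp j
      field_simp
      linear_combination (-σ) * this)
    refine ⟨1, fun i => if i = j0 then -(w0.im / (w j0).im) else 0, zero_le_one, ?_, ?_⟩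
    · simp only [Complex.ofReal_one, one_mul, Complex.add_im, Complex.im_sum, Complex.mul_im,
        Complex.ofReal_re, Complex.ofReal_im, zero_mul, add_zero, ite_mul,
        Finset.sum_ite_eq', Finset.mem_univ, if_true]
      field_simp
      ring
    · simp only [Complex.ofReal_one, one_mul, Complex.add_re, Complex.re_sum, Complex.mul_re,
        Complex.ofReal_re, Complex.ofReal_im, zero_mul, sub_zero, ite_mul,
        Finset.sum_ite_eq', Finset.mem_univ, if_true]
      simp only [rf] at hu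
      have h2 : 0 < (σ * (w j0).im) * (w0.re + -(w0.im / (w j0).im) * (w j0).re) := by
        have e : (σ * (w j0).im) * (w0.re + -(w0.im / (w j0).im) * (w j0).re) =
            n * (σ * (w j0).im / n * w0.re + -(σ * (w j0).re) / n * w0.im) := by
          field_simp
        rw [e]
        exact mul_pos hn0 hu
      exact (pos_iff_pos_of_mul_pos h2).1 hσ2

/-! ### the planar gauge -/

theorem gq_ge {K A B : ℝ} (hA : 0 ≤ A) (hB : 0 ≤ B) : A ≤ gq K A B := by
  unfold gq
  have : 0 ≤ (max 0 (B - K ^ 2 * A)) ^ 3 / ((3 * K ^ 2 + 3) * (A + B) ^ 2) := by positivity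
  linarith

theorem abs_re_le_pg (K : ℝ) (z : ℂ) : |z.re| ≤ pg K z := by
  unfold pg
  rw [← Real.sqrt_sq_eq_abs]
  exact Real.sqrt_le_sqrt (gq_ge (sq_nonneg _) (sq_nonneg _))

theorem gq_ge_B {K A B : ℝ} (hK : 1 ≤ K) (hA : 0 ≤ A) (hB : 0 ≤ B) :
    B ≤ 196 * K ^ 2 * gq K A B := by
  have hK2 : 1 ≤ K ^ 2 := by nlinarith
  rcases le_or_gt B (2 * K ^ 2 * A) with h | h
  · have h1 := gq_ge (K := K) hA hB
    have h2 : 196 * K ^ 2 * A ≤ 196 * K ^ 2 * gq K A B :=
      mul_le_mul_of_nonneg_left h1 (by positivity)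
    nlinarith
  · have hB0 : 0 < B := lt_of_le_of_lt (by positivity) h
    have h1 : B / 2 ≤ B - K ^ 2 * A := by linarith
    unfold gq
    rw [max_eq_right (by linarith)]
    have h2 : B ^ 3 / 8 ≤ (B - K ^ 2 * A) ^ 3 := by
      calc B ^ 3 / 8 = (B / 2) ^ 3 := by ring
        _ ≤ _ := pow_le_pow_left₀ (by linarith) h1 3
    have h3 : A ≤ B / 2 := by nlinarith
    have h4 : (A + B) ^ 2 ≤ 9 * B ^ 2 / 4 := by nlinarith
    have h5 : 3 * K ^ 2 + 3 ≤ 6 * K ^ 2 := by linarith
    have h6 : (3 * K ^ 2 + 3) * (A + B) ^ 2 ≤ 6 * K ^ 2 * (9 * B ^ 2 / 4) :=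
      mul_le_mul h5 h4 (sq_nonneg _) (by positivity)
    have h7 : B / (108 * K ^ 2) ≤ (B - K ^ 2 * A) ^ 3 / ((3 * K ^ 2 + 3) * (A + B) ^ 2) := by
      rw [div_le_div_iff₀ (by positivity) (by positivity)]
      calc B * ((3 * K ^ 2 + 3) * (A + B) ^ 2) ≤ B * (6 * K ^ 2 * (9 * B ^ 2 / 4)) :=
            mul_le_mul_of_nonneg_left h6 hB
        _ = B ^ 3 / 8 * (108 * K ^ 2) := by ring
        _ ≤ (B - K ^ 2 * A) ^ 3 * (108 * K ^ 2) := mul_le_mul_of_nonneg_right h2 (by positivity)
    calc B = 108 * K ^ 2 * (B / (108 * K ^ 2)) := by field_simp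
      _ ≤ 196 * K ^ 2 * (B / (108 * K ^ 2)) := by
          refine mul_le_mul_of_nonneg_right ?_ (by positivity)
          nlinarith
      _ ≤ _ := mul_le_mul_of_nonneg_left (by linarith) (by positivity)

theorem abs_im_le_pg {K : ℝ} (hK : 1 ≤ K) (z : ℂ) : |z.im| ≤ 14 * K * pg K z := by
  have h := gq_ge_B hK (sq_nonneg z.re) (sq_nonneg z.im)
  have h1 : (0 : ℝ) ≤ gq K (z.re ^ 2) (z.im ^ 2) :=
    (sq_nonneg _).trans (gq_ge (sq_nonneg _) (sq_nonneg _))
  unfold pg
  rw [← Real.sqrt_sq_eq_abs]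
  calc √(z.im ^ 2) ≤ √(196 * K ^ 2 * gq K (z.re ^ 2) (z.im ^ 2)) := Real.sqrt_le_sqrt h
    _ = √((14 * K) ^ 2 * gq K (z.re ^ 2) (z.im ^ 2)) := by congr 1; ring
    _ = 14 * K * √(gq K (z.re ^ 2) (z.im ^ 2)) := by
        rw [Real.sqrt_mul (sq_nonneg _), Real.sqrt_sq (by linarith)]

theorem gq_of_le {K A B : ℝ} (h : B ≤ K ^ 2 * A) : gq K A B = A := by
  unfold gq
  rw [max_eq_left (by linarith)]
  simp

theorem pg_of_le {K : ℝ} (hK : 0 ≤ K) {z : ℂ} (h : |z.im| ≤ K * |z.re|) : pg K z = |z.re| := by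
  unfold pg
  rw [gq_of_le, Real.sqrt_sq_eq_abs]
  calc z.im ^ 2 = |z.im| ^ 2 := (sq_abs _).symm
    _ ≤ (K * |z.re|) ^ 2 := pow_le_pow_left₀ (abs_nonneg _) h 2
    _ = K ^ 2 * z.re ^ 2 := by rw [mul_pow, sq_abs]


/-! ### the numbers at the point -/

/-- a point with all constants. -/
structure Pt (N : ℕ) where
  D : LD N
  cB : ℝ
  ga : ℝ
  d : ℝ
  z : Fin N → ℂ
  ps : Fin N → ℝ
  pt : Fin N → ℝ

namespace Pt

variable {N : ℕ} (P : Pt N)

def s (j : Fin N) : ℝ := (P.z j).re

def t (j : Fin N) : ℝ := (P.z j).im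

/-- slope. -/
def ta (j : Fin N) : ℝ := (P.z j).im / (P.z j).re

def nu : ℝ := √(∑ j, (P.z j).re ^ 2)

def x (j : Fin N) : ℝ := pg P.D.K (P.z j) / P.nu

def X (j : Fin N) : ℝ := chi P.d (P.x j)

/-- derivative of the cut-off. -/
def cd (j : Fin N) : ℝ := std ((P.x j - P.d) / P.d) / P.d

def S : ℝ := ∑ j, (P.z j).re / P.nu

/-- window index. -/
def Wp (j : Fin N) : Prop := 0 < (P.z j).re ∧ |(P.z j).im| ≤ P.D.K * (P.z j).re

def rho (j : Fin N) : ℝ := P.X j + P.x j * P.cd j - P.x j ^ 2 * P.cd j * P.S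

/-- `χ s⁺`. -/
def Rr (j : Fin N) : ℝ := P.X j * max 0 (P.z j).re

def pj (j : Fin N) : ℂ := pv P.ga (P.D.M j) (P.ta j)

/-- edges. -/
abbrev Ed := {e : Fin N × Fin N × ℕ // e ∈ P.D.C}

def src (e : P.Ed) : Fin N := e.1.1

def tgt (e : P.Ed) : Fin N := e.1.2.1

def la (e : P.Ed) : ℝ := win e.1.2.2 (P.D.M (P.src e)) (P.ta (P.src e))

def be (e : P.Ed) : ℝ := win (P.D.M (P.tgt e) - 1) (P.D.M (P.tgt e)) (P.ta (P.tgt e))

def lad (e : P.Ed) : ℝ := wd e.1.2.2 (P.D.M (P.src e)) (P.ta (P.src e))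

def bed (e : P.Ed) : ℝ := wd (P.D.M (P.tgt e) - 1) (P.D.M (P.tgt e)) (P.ta (P.tgt e))

def hh (e : P.Ed) : ℝ :=
  P.Rr (P.src e) * P.Rr (P.tgt e) / (P.Rr (P.src e) + P.Rr (P.tgt e))

def h1 (e : P.Ed) : ℝ := (P.Rr (P.tgt e) / (P.Rr (P.src e) + P.Rr (P.tgt e))) ^ 2

def h2 (e : P.Ed) : ℝ := (P.Rr (P.src e) / (P.Rr (P.src e) + P.Rr (P.tgt e))) ^ 2

open Classical in
/-- derivative of the deletion term in the direction `i e_j`. -/
def tB (j : Fin N) : ℝ :=
  P.cB * P.ga * ∑ e : P.Ed, ((if P.src e = j then P.hh e * (P.lad e / (P.z j).re) * P.be e else 0) +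
    (if P.tgt e = j then P.hh e * P.la e * (P.bed e / (P.z j).re) else 0))

open Classical in
/-- `∂B/∂R_j`. -/
def HB (j : Fin N) : ℝ :=
  P.cB * P.ga * ∑ e : P.Ed, ((if P.src e = j then P.la e * P.be e * P.h1 e else 0) +
    (if P.tgt e = j then P.la e * P.be e * P.h2 e else 0))

open Classical in
/-- derivative of `G` in the direction `i e_j`. -/
def w (j : Fin N) : ℂ :=
  if P.Wp j then (P.X j : ℂ) * pvd (P.D.M j) (P.ta j) - (P.tB j : ℂ)
  else -Complex.I * (P.X j : ℂ) +
    ((P.cd j * P.pt j / P.nu : ℝ) : ℂ) * pl P.ga (P.D.M j) (P.z j)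

open Classical in
/-- contribution of `j` to the derivative of `G` in the direction `-(1,…,1)`. -/
def w0j (j : Fin N) : ℂ :=
  if P.Wp j then -((P.rho j : ℝ) : ℂ) * (P.pj j - (P.HB j : ℂ)) + (P.ta j : ℂ) * P.w j
  else (((2 - P.ga) * P.X j : ℝ) : ℂ) +
    (((P.cd j * P.x j * P.S - P.cd j * P.ps j) / P.nu : ℝ) : ℂ) * pl P.ga (P.D.M j) (P.z j)

def w0 : ℂ := ∑ j, P.w0j j

open Classical in
/-- the numbers. -/
def dat (u : ℂ) (eu : ℝ) : Dat (Fin N) P.Ed where
  ga := P.ga
  K := P.D.K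
  cB := P.cB
  cT := P.cB * P.ga * Fintype.card P.Ed
  KM := 8 * P.D.Mx + 1
  cO := 28 * P.D.K
  d := P.d
  ν := P.nu
  s := P.s
  t := P.t
  X := P.X
  rho := P.rho
  A := fun j => (P.pj j).re + (1 - P.ga)
  Bv := fun j => (P.pj j).im
  tB := P.tB
  kp := fun j => -(pvd (P.D.M j) (P.ta j)).im
  tm := fun j => if P.Wp j then P.rho j * (u.re * P.HB j - rf u (P.pj j)) else rf u (P.w0j j)
  Wp := P.Wp
  fl := fun j => 2 * P.d ≤ P.x j
  src := P.src
  tgt := P.tgt
  la := P.la
  be := P.be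
  hh := P.hh
  h1 := P.h1
  h2 := P.h2
  u := u
  eu := eu

/-- properties of the derivatives of the planar gauge. -/
def HP : Prop := ∀ j, 0 ≤ P.pt j * (P.z j).im ∧
  P.ps j * (P.z j).re + P.pt j * (P.z j).im = pg P.D.K (P.z j) ∧
  (P.pt j ≠ 0 → P.D.K * |(P.z j).re| < |(P.z j).im|)

/-! ### elementary facts -/

section facts

variable {P}

theorem Rr_nonneg (j : Fin N) : 0 ≤ P.Rr j :=
  mul_nonneg (st_nonneg _) (le_max_left _ _)

theorem X_nonneg (j : Fin N) : 0 ≤ P.X j := st_nonneg _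

theorem X_le_one (j : Fin N) : P.X j ≤ 1 := Curve_867.st_le_one _

theorem hh_nonneg (e : P.Ed) : 0 ≤ P.hh e :=
  div_nonneg (mul_nonneg (Rr_nonneg _) (Rr_nonneg _)) (add_nonneg (Rr_nonneg _) (Rr_nonneg _))

theorem hh_le_src (e : P.Ed) : P.hh e ≤ P.Rr (P.src e) := by
  have h1 := Rr_nonneg (P := P) (P.src e)
  have h2 := Rr_nonneg (P := P) (P.tgt e)
  unfold hh
  rcases eq_or_lt_of_le (add_nonneg h1 h2) with h | h
  · rw [← h, div_zero]; exact h1
  · rw [div_le_iff₀ h]
    nlinarith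

theorem hh_le_tgt (e : P.Ed) : P.hh e ≤ P.Rr (P.tgt e) := by
  have h1 := Rr_nonneg (P := P) (P.src e)
  have h2 := Rr_nonneg (P := P) (P.tgt e)
  unfold hh
  rcases eq_or_lt_of_le (add_nonneg h1 h2) with h | h
  · rw [← h, div_zero]; exact h2
  · rw [div_le_iff₀ h]
    nlinarith

theorem src_ne_tgt (e : P.Ed) : P.src e ≠ P.tgt e := P.D.hC e.1 e.2

theorem M_le_Mx (D : LD N) (j : Fin N) : (D.M j : ℝ) ≤ D.Mx := by
  have : D.M j ≤ ∑ i, D.M i := Finset.single_le_sum (fun i _ => Nat.zero_le _) (Finset.mem_univ j)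
  exact_mod_cast this

theorem K_ge (D : LD N) (hN : 1 ≤ N) : 8 * (D.Mx : ℝ) + 2 ≤ D.K := by
  unfold LD.K LD.K1
  have h1 : (1 : ℝ) ≤ N := by exact_mod_cast hN
  have h2 : (0 : ℝ) ≤ D.Mx := Nat.cast_nonneg _
  have h3 : (1 : ℝ) ≤ (N : ℝ) * N := by nlinarith
  nlinarith

end facts

/-! ### small cut-off constants -/

section small

variable {P} (hN : 3 ≤ N) {u : ℂ} {eu : ℝ}
  (hc : (P.dat u eu).Con (Fintype.card (Fin N)) (Fintype.card P.Ed)) (hnu : 0 < P.nu)

include hN in
theorem K_ge10 : 10 ≤ P.D.K := by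
  have h1 := K_ge P.D (by omega)
  have h2 : (1 : ℝ) ≤ P.D.Mx := by
    have h3 := M_le_Mx P.D ⟨0, by omega⟩
    have h4 : (1 : ℝ) ≤ P.D.M ⟨0, by omega⟩ := by exact_mod_cast P.D.hM _
    linarith
  linarith

include hc in
theorem d_pos : 0 < P.d := hc.hd

include hN hc in
theorem dN_le : 2 * P.d * N ≤ 1 / 4 := by
  have h1 := hc.hd1
  have h2 := K_ge10 (P := P) hN
  have hd := hc.hd
  simp only [dat, Fintype.card_fin] at h1 hd
  have h3 : (3 : ℝ) ≤ N := by exact_mod_cast hN
  have h4 : (0 : ℝ) ≤ P.D.Mx := Nat.cast_nonneg _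
  have h5 : (280 : ℝ) ≤ 4 + 2 * (8 * P.D.Mx + 1) + 28 * P.D.K := by linarith
  have h6 : (N : ℝ) * 280 ≤ (N : ℝ) ^ 2 * (4 + 2 * (8 * P.D.Mx + 1) + 28 * P.D.K) :=
    mul_le_mul (by nlinarith) h5 (by norm_num) (by positivity)
  have h7 := mul_le_mul_of_nonneg_right h6 hd.le
  nlinarith

include hnu in
theorem abs_s_le (j : Fin N) : |(P.z j).re| ≤ P.nu := by
  unfold nu
  rw [← Real.sqrt_sq_eq_abs]
  exact Real.sqrt_le_sqrt (Finset.single_le_sum (f := fun j => (P.z j).re ^ 2)
    (fun i _ => sq_nonneg _) (Finset.mem_univ j))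

include hnu in
theorem abs_S_le : |P.S| ≤ N := by
  unfold S
  refine (Finset.abs_sum_le_sum_abs _ _).trans ?_
  refine (Finset.sum_le_sum (g := fun _ => (1 : ℝ)) fun j _ => ?_).trans (by simp)
  rw [abs_div, abs_of_pos hnu, div_le_one hnu]
  exact abs_s_le hnu j

include hnu in
theorem x_nonneg (j : Fin N) : 0 ≤ P.x j := div_nonneg (Real.sqrt_nonneg _) hnu.le

include hnu in
theorem s_div_le (j : Fin N) : |(P.z j).re / P.nu| ≤ P.x j := by
  rw [abs_div, abs_of_pos hnu]
  unfold x
  gcongr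
  exact abs_re_le_pg _ _

include hc in
theorem cd_nonneg (j : Fin N) : 0 ≤ P.cd j := div_nonneg (std_nonneg _) (d_pos hc).le

include hc in
theorem lt_of_cd (j : Fin N) (h : P.cd j ≠ 0) : P.x j < 2 * P.d := by
  by_contra h1
  rw [not_lt] at h1
  have hd := d_pos hc
  refine h ?_
  unfold cd
  rw [std_of_ge ((one_le_div hd).2 (by linarith)), zero_div]

include hc hnu in
theorem xcd_le (j : Fin N) : P.x j * P.cd j ≤ 15 / 4 := by
  have hd := d_pos hc
  by_cases h : P.cd j = 0
  · rw [h, mul_zero]; norm_num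
  · have h1 := lt_of_cd hc j h
    have h2 := std_le ((P.x j - P.d) / P.d)
    have h3 := std_nonneg ((P.x j - P.d) / P.d)
    have h0 := x_nonneg hnu j
    unfold cd
    rw [← mul_div_assoc, div_le_iff₀ hd]
    calc P.x j * std ((P.x j - P.d) / P.d) ≤ (2 * P.d) * (15 / 8) :=
          mul_le_mul h1.le h2 h3 (by linarith)
      _ = 15 / 4 * P.d := by ring

include hN hc hnu in
theorem xS_le (j : Fin N) (h : P.cd j ≠ 0) : P.x j * |P.S| ≤ 1 / 4 := by
  have h1 := lt_of_cd hc j h
  have h2 := abs_S_le hnu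
  have h0 := x_nonneg hnu j
  have h3 := dN_le hN hc
  have hd := d_pos hc
  calc P.x j * |P.S| ≤ (2 * P.d) * N := mul_le_mul h1.le h2 (abs_nonneg _) (by linarith)
    _ ≤ _ := h3

theorem rho_eq (j : Fin N) : P.rho j = P.X j + P.x j * P.cd j * (1 - P.x j * P.S) := by
  unfold rho; ring

include hN hc hnu in
theorem X_le_rho (j : Fin N) : P.X j ≤ P.rho j := by
  rw [rho_eq]
  by_cases h : P.cd j = 0
  · rw [h]; simp
  · have h1 := xS_le hN hc hnu j h
    have h2 : P.x j * P.S ≤ P.x j * |P.S| :=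
      mul_le_mul_of_nonneg_left (le_abs_self _) (x_nonneg hnu j)
    have h3 := mul_nonneg (mul_nonneg (x_nonneg hnu j) (cd_nonneg hc j))
      (by linarith : 0 ≤ 1 - P.x j * P.S)
    linarith

include hN hc hnu in
theorem rho_le (j : Fin N) : P.rho j ≤ 6 := by
  rw [rho_eq]
  have h5 := X_le_one (P := P) j
  by_cases h : P.cd j = 0
  · rw [h]; simp; linarith
  · have h1 := xS_le hN hc hnu j h
    have h2 : -(P.x j * |P.S|) ≤ P.x j * P.S := by
      rw [← mul_neg]
      exact mul_le_mul_of_nonneg_left (neg_abs_le _) (x_nonneg hnu j)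
    have h3 := xcd_le hc hnu j
    have h4 : P.x j * P.cd j * (1 - P.x j * P.S) ≤ 15 / 4 * (5 / 4) :=
      mul_le_mul h3 (by linarith) (by
        have : P.x j * P.S ≤ P.x j * |P.S| :=
          mul_le_mul_of_nonneg_left (le_abs_self _) (x_nonneg hnu j)
        linarith) (by norm_num)
    linarith

include hc in
theorem cd_of_X {j : Fin N} (h : P.X j = 0) : P.cd j = 0 := by
  have hd := d_pos hc
  unfold X chi at h
  unfold cd
  have h1 : (P.x j - P.d) / P.d ≤ 0 := by
    by_contra h2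
    rw [not_le] at h2
    exact (st_pos h2).ne' h
  rw [std_of_le h1, zero_div]

include hc in
theorem rho_of_X {j : Fin N} (h : P.X j = 0) : P.rho j = 0 := by
  rw [rho_eq, h, cd_of_X hc h]
  ring

include hc in
theorem X_of_fl {j : Fin N} (h : 2 * P.d ≤ P.x j) : P.X j = 1 := by
  have hd := d_pos hc
  unfold X chi
  exact st_of_ge ((one_le_div hd).2 (by linarith))

include hc in
theorem cd_of_fl {j : Fin N} (h : 2 * P.d ≤ P.x j) : P.cd j = 0 := by
  by_contra h1
  exact absurd (lt_of_cd hc j h1) (not_lt.2 h)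

include hN in
/-- off the window the planar function is linear. -/
theorem pl_off {j : Fin N} (h : ¬ P.Wp j) : pl P.ga (P.D.M j) (P.z j) =
    -((2 - P.ga : ℝ) : ℂ) * (P.z j).re - Complex.I * (P.z j).im := by
  rcases le_or_gt (P.z j).re 0 with h1 | h1
  · exact pl_of_nonpos h1
  · refine pl_of_far (Or.inl ?_)
    have h2 : P.D.K * (P.z j).re < |(P.z j).im| := by
      by_contra h3
      exact h ⟨h1, not_lt.1 h3⟩
    have h3 := K_ge P.D (by omega)
    have h4 := M_le_Mx P.D j
    nlinarith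

end small

/-! ### indices off the windows -/

section off

variable {P} (hN : 3 ≤ N) {u : ℂ} {eu : ℝ}
  (hc : (P.dat u eu).Con (Fintype.card (Fin N)) (Fintype.card P.Ed)) (hnu : 0 < P.nu)
  (hP : P.HP) (hu0 : 0 < u.re) {j : Fin N} (hj : ¬ P.Wp j) (hw : rf u (P.w j) = 0)

include hN hj hw in
/-- the equation `rf u (w j) = 0`. -/
theorem off_eq : (P.X j + P.cd j * P.pt j / P.nu * (P.z j).im) * u.im =
    -(P.cd j * P.pt j / P.nu * ((2 - P.ga) * (P.z j).re * u.re)) := by
  have h1 := hw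
  unfold w at h1
  rw [if_neg hj, pl_off hN hj] at h1
  simp only [rf, Complex.add_re, Complex.add_im, Complex.mul_re, Complex.mul_im, Complex.neg_re,
    Complex.neg_im, Complex.I_re, Complex.I_im, Complex.ofReal_re, Complex.ofReal_im,
    Complex.sub_re, Complex.sub_im] at h1
  linear_combination -h1

include hc hnu hP in
theorem at_nonneg (j : Fin N) : 0 ≤ P.cd j * P.pt j / P.nu * (P.z j).im := by
  have h1 := (hP j).1
  have h2 := cd_nonneg hc j
  calc (0 : ℝ) ≤ P.cd j * (P.pt j * (P.z j).im) / P.nu :=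
        div_nonneg (mul_nonneg h2 h1) hnu.le
    _ = _ := by ring

include hN hj in
theorem off_tm : rf u (P.w0j j) = (2 - P.ga) * P.X j * u.re +
    (P.cd j * P.x j * P.S - P.cd j * P.ps j) / P.nu *
      (-((2 - P.ga) * (P.z j).re * u.re) - (P.z j).im * u.im) := by
  unfold w0j
  rw [if_neg hj, pl_off hN hj]
  simp only [rf, Complex.add_re, Complex.add_im, Complex.mul_re, Complex.mul_im, Complex.neg_re,
    Complex.neg_im, Complex.I_re, Complex.I_im, Complex.ofReal_re, Complex.ofReal_im,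
    Complex.sub_re, Complex.sub_im]
  ring

include hN hc hnu hP hu0 hj hw in
theorem off_nonneg : 0 ≤ rf u (P.w0j j) := by
  rw [off_tm hN hj]
  have h1 := off_eq hN hj hw
  have h2 := at_nonneg hc hnu hP j
  have h3 := X_nonneg (P := P) j
  have hga : P.ga ≤ 1 / 4 := hc.hga2
  rcases eq_or_lt_of_le (add_nonneg h3 h2) with h4 | h4
  · have h5 : P.X j = 0 := by linarith
    rw [h5, cd_of_X hc h5]
    simp
  · set a : ℝ := P.cd j * P.pt j / P.nu with ha
    set l : ℝ := 2 - P.ga with hl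
    have hl0 : 0 < l := by rw [hl]; linarith
    -- the product with `X + a t`
    have h5 : (l * P.X j * u.re + (P.cd j * P.x j * P.S - P.cd j * P.ps j) / P.nu *
        (-(l * (P.z j).re * u.re) - (P.z j).im * u.im)) * (P.X j + a * (P.z j).im) =
        u.re * l * P.X j * (P.X j + P.cd j * P.x j - P.cd j * P.x j * (P.S * ((P.z j).re / P.nu))) := by
      have e1 : a * (P.z j).im + P.cd j * P.ps j / P.nu * (P.z j).re = P.cd j * P.x j := by
        rw [ha]
        unfold x
        rw [← (hP j).2.1]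
        ring
      have e2 : (-(l * (P.z j).re * u.re) - (P.z j).im * u.im) * (P.X j + a * (P.z j).im) =
          -(l * (P.z j).re * u.re * P.X j) := by
        linear_combination (-(P.z j).im) * h1
      calc (l * P.X j * u.re + (P.cd j * P.x j * P.S - P.cd j * P.ps j) / P.nu *
            (-(l * (P.z j).re * u.re) - (P.z j).im * u.im)) * (P.X j + a * (P.z j).im)
          = l * P.X j * u.re * (P.X j + a * (P.z j).im) +
            (P.cd j * P.x j * P.S - P.cd j * P.ps j) / P.nu *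
            ((-(l * (P.z j).re * u.re) - (P.z j).im * u.im) * (P.X j + a * (P.z j).im)) := by ring
        _ = l * P.X j * u.re * (P.X j + (a * (P.z j).im + P.cd j * P.ps j / P.nu * (P.z j).re) -
            P.cd j * P.x j * (P.S * ((P.z j).re / P.nu))) := by rw [e2]; ring
        _ = _ := by rw [e1]; ring
    have h6 : 0 ≤ P.X j + P.cd j * P.x j - P.cd j * P.x j * (P.S * ((P.z j).re / P.nu)) := by
      by_cases h7 : P.cd j = 0
      · rw [h7]; simp [h3]
      · have h8 := xS_le hN hc hnu j h7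
        have h9 : P.S * ((P.z j).re / P.nu) ≤ 1 / 4 := by
          calc P.S * ((P.z j).re / P.nu) ≤ |P.S * ((P.z j).re / P.nu)| := le_abs_self _
            _ = |(P.z j).re / P.nu| * |P.S| := by rw [abs_mul, mul_comm]
            _ ≤ P.x j * |P.S| := mul_le_mul_of_nonneg_right (s_div_le hnu j) (abs_nonneg _)
            _ ≤ 1 / 4 := h8
        have h10 := mul_nonneg (mul_nonneg (cd_nonneg hc j) (x_nonneg hnu j))
          (by linarith : 0 ≤ 1 - P.S * ((P.z j).re / P.nu))
        linarith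
    have h7 : 0 ≤ u.re * l * P.X j *
        (P.X j + P.cd j * P.x j - P.cd j * P.x j * (P.S * ((P.z j).re / P.nu))) :=
      mul_nonneg (mul_nonneg (mul_nonneg hu0.le hl0.le) h3) h6
    rw [← h5] at h7
    by_contra h8
    rw [not_le] at h8
    have := mul_neg_of_neg_of_pos h8 h4
    linarith

include hN hc hnu hj hw in
theorem off_full (hf : 2 * P.d ≤ P.x j) (hu0 : 0 < u.re) :
    u.im = 0 ∧ u.re ≤ rf u (P.w0j j) := by
  have h1 := off_eq hN hj hw
  have h2 := off_tm (u := u) hN hj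
  rw [X_of_fl hc hf, cd_of_fl hc hf] at h1 h2
  have hga : P.ga ≤ 1 / 4 := hc.hga2
  constructor
  · linear_combination h1
  · rw [h2]
    have : 0 ≤ (1 - P.ga) * u.re := mul_nonneg (by linarith) hu0.le
    have e : (0 * P.x j * P.S - 0 * P.ps j) / P.nu = 0 := by simp
    rw [e, zero_mul]
    linarith

include hN hc hnu hP hu0 hj hw in
theorem off_K (hX : 0 < P.X j) : P.D.K * |u.im| ≤ 2 * u.re := by
  have h1 := off_eq hN hj hw
  have h2 := at_nonneg hc hnu hP j
  have hga : P.ga ≤ 1 / 4 := hc.hga2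
  have hga0 : 0 < P.ga := hc.hga
  set a : ℝ := P.cd j * P.pt j / P.nu with ha
  by_cases h0 : a = 0
  · rw [h0] at h1
    have h3 : u.im = 0 := by
      have : P.X j * u.im = 0 := by linarith
      exact (mul_eq_zero.1 this).resolve_left hX.ne'
    rw [h3, abs_zero, mul_zero]
    linarith
  · have h3 : P.pt j ≠ 0 := by
      intro h; apply h0; rw [ha, h]; ring
    have h4 := (hP j).2.2 h3
    have h5 : |a| * |(P.z j).im| * |u.im| ≤ |a| * ((2 - P.ga) * |(P.z j).re| * u.re) := by
      have e1 : |a| * |(P.z j).im| = a * (P.z j).im := by rw [← abs_mul, abs_of_nonneg h2]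
      have e2 : |P.X j + a * (P.z j).im| * |u.im| =
          |a| * ((2 - P.ga) * |(P.z j).re| * u.re) := by
        rw [← abs_mul, h1, abs_neg, abs_mul, abs_mul, abs_mul, abs_of_pos hu0,
          abs_of_pos (by linarith : 0 < 2 - P.ga)]
      rw [e1, ← e2]
      refine mul_le_mul_of_nonneg_right ?_ (abs_nonneg _)
      rw [abs_of_nonneg (by linarith)]
      linarith
    have h6 : |(P.z j).im| * |u.im| ≤ (2 - P.ga) * |(P.z j).re| * u.re := by
      rw [mul_assoc] at h5
      exact le_of_mul_le_mul_left h5 (abs_pos.2 h0)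
    have h7 : P.D.K * |(P.z j).re| * |u.im| ≤ (2 - P.ga) * |(P.z j).re| * u.re :=
      (mul_le_mul_of_nonneg_right h4.le (abs_nonneg _)).trans h6
    rcases eq_or_lt_of_le (abs_nonneg (P.z j).re) with h8 | h8
    · rw [← h8, mul_zero] at h4
      rw [← h8] at h6
      have h9 : |u.im| = 0 := by
        have : |(P.z j).im| * |u.im| ≤ 0 := by linarith
        have h10 := abs_nonneg u.im
        nlinarith
      rw [h9, mul_zero]
      linarith
    · have h9 : |(P.z j).re| * (P.D.K * |u.im|) ≤ |(P.z j).re| * ((2 - P.ga) * u.re) := by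
        linarith
      have h10 := le_of_mul_le_mul_left h9 h8
      have h11 : 0 ≤ P.ga * u.re := mul_nonneg hga0.le hu0.le
      linarith

include hN hnu in
theorem off_t (hf : ¬ 2 * P.d ≤ P.x j) : |(P.z j).im| ≤ 28 * P.D.K * P.d * P.nu := by
  have hK := K_ge10 (P := P) hN
  have h1 := abs_im_le_pg (K := P.D.K) (by linarith) (P.z j)
  rw [not_le] at hf
  unfold x at hf
  rw [div_lt_iff₀ hnu] at hf
  have h2 : 14 * P.D.K * pg P.D.K (P.z j) ≤ 14 * P.D.K * (2 * P.d * P.nu) :=
    mul_le_mul_of_nonneg_left hf.le (by linarith)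
  linarith

end off

/-! ### window indices -/

section on

variable {P} (hN : 3 ≤ N) {u : ℂ} {eu : ℝ}
  (hc : (P.dat u eu).Con (Fintype.card (Fin N)) (Fintype.card P.Ed)) (hnu : 0 < P.nu)
  (hu0 : 0 < u.re) {j : Fin N} (hj : P.Wp j) (hw : rf u (P.w j) = 0)

include hj in
theorem Rr_on : P.Rr j = P.X j * (P.z j).re := by
  unfold Rr
  rw [max_eq_right hj.1.le]

include hj in
/-- the derivative of the deletion term is small. -/
theorem abs_tB_le (h0 : 0 ≤ P.cB * P.ga) :
    |P.tB j| ≤ P.cB * P.ga * Fintype.card P.Ed * P.X j := by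
  classical
  unfold tB
  have e0 : P.cB * P.ga * Fintype.card P.Ed * P.X j =
      P.cB * P.ga * (Fintype.card P.Ed * P.X j) := by ring
  rw [abs_mul, abs_of_nonneg h0, e0]
  refine mul_le_mul_of_nonneg_left ?_ h0
  refine (Finset.abs_sum_le_sum_abs _ _).trans ?_
  refine (Finset.sum_le_sum (g := fun _ => P.X j) fun e _ => ?_).trans (by
    rw [Finset.sum_const, Finset.card_univ, nsmul_eq_mul])
  have hX := X_nonneg (P := P) j
  have hs := hj.1
  have key : ∀ a b c : ℝ, 0 ≤ a → a ≤ P.X j * (P.z j).re → |b| ≤ 1 → |c| ≤ 1 →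
      |a * (b / (P.z j).re) * c| ≤ P.X j := by
    intro a b c ha h1 h2 h3
    rw [abs_mul, abs_mul, abs_div, abs_of_nonneg ha, abs_of_pos hs]
    have h4 : a * (|b| / (P.z j).re) ≤ P.X j := by
      rw [mul_div_assoc', div_le_iff₀ hs]
      calc a * |b| ≤ a * 1 := mul_le_mul_of_nonneg_left h2 ha
        _ ≤ _ := by linarith
    calc a * (|b| / (P.z j).re) * |c| ≤ P.X j * 1 :=
          mul_le_mul h4 h3 (abs_nonneg _) hX
      _ = P.X j := mul_one _
  by_cases h1 : P.src e = j
  · have h2 : P.tgt e ≠ j := fun h => src_ne_tgt e (h1.trans h.symm)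
    rw [if_pos h1, if_neg h2, add_zero]
    refine key _ _ _ (hh_nonneg e) ?_ (abs_wd_le _ _ _) ?_
    · rw [← Rr_on hj, ← h1]; exact hh_le_src e
    · exact (abs_of_nonneg (win_nonneg _ _ _)).trans_le (win_le_one _ _ _)
  · rw [if_neg h1, zero_add]
    by_cases h2 : P.tgt e = j
    · rw [if_pos h2]
      have := key (P.hh e) (P.bed e) (P.la e) (hh_nonneg e)
        (by rw [← Rr_on hj, ← h2]; exact hh_le_tgt e) (abs_wd_le _ _ _)
        ((abs_of_nonneg (win_nonneg _ _ _)).trans_le (win_le_one _ _ _))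
      rwa [show P.hh e * P.la e * (P.bed e / (P.z j).re) =
        P.hh e * (P.bed e / (P.z j).re) * P.la e by ring]
    · rw [if_neg h2, abs_zero]; exact hX

/-- a moving window. -/
theorem exists_wd (h : P.tB j ≠ 0) : ∃ m, wd m (P.D.M j) (P.ta j) ≠ 0 := by
  classical
  by_contra h0
  push Not at h0
  refine h ?_
  unfold tB
  rw [Finset.sum_eq_zero, mul_zero]
  intro e _
  have e1 : (if P.src e = j then P.hh e * (P.lad e / (P.z j).re) * P.be e else 0) = 0 := by
    split_ifs with h1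
    · have : P.lad e = 0 := by
        unfold lad
        rw [h1]
        exact h0 _
      rw [this]; ring
    · rfl
  have e2 : (if P.tgt e = j then P.hh e * P.la e * (P.bed e / (P.z j).re) else 0) = 0 := by
    split_ifs with h1
    · have : P.bed e = 0 := by
        unfold bed
        rw [h1]
        exact h0 _
      rw [this]; ring
    · rfl
  rw [e1, e2, add_zero]

include hj hw in
theorem on_eq : P.X j * rf u (pvd (P.D.M j) (P.ta j)) = u.re * P.tB j := by
  have h1 := hw
  unfold w at h1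
  rw [if_pos hj, rf_sub, rf_real_mul, rf_ofReal] at h1
  linarith

include hc hu0 hj hw in
theorem on_cases (hX : 0 < P.X j) (heu : eu = 1 ∨ eu = -1) (heu2 : u.im = eu * |u.im|) :
    (P.dat u eu).TT j ∨ (P.dat u eu).NN j := by
  have h0 : 0 ≤ P.cB * P.ga := by
    have h1 := hc.hcB
    have h2 := hc.hN
    have h3 := hc.hga
    simp only [dat] at h1 h2 h3
    exact mul_nonneg (by linarith) h3.le
  have h1 := on_eq hj hw
  by_cases hl : ∀ l < P.D.M j, 3 ≤ |P.ta j - sg l|
  · left
    obtain ⟨h2, κ, h3, h4⟩ := pv_vert hl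
    have h5 : (P.dat u eu).kp j = κ := by
      simp only [dat]
      rw [h4]
      simp
    have h6 : (P.dat u eu).A j = -1 := by
      simp only [dat, pj]
      rw [h2 P.ga]
      ring
    refine ⟨h6, h5.symm ▸ h3, ?_, ?_, ?_⟩
    · rw [h5]
      rw [h4] at h1
      simp only [rf, Complex.mul_re, Complex.mul_im, Complex.neg_re,
        Complex.neg_im, Complex.I_re, Complex.I_im, Complex.ofReal_re, Complex.ofReal_im] at h1
      simp only [dat]
      linear_combination -h1
    · simp only [dat]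
      exact abs_tB_le hj h0
    · intro h7
      simp only [dat] at h7 ⊢
      obtain ⟨m, hm⟩ := exists_wd h7
      refine (pv_im_of_wd P.ga hm).trans ?_
      have := M_le_Mx P.D j
      linarith
  · right
    push Not at hl
    obtain ⟨l, hl, h2⟩ := hl
    obtain ⟨p1, p2, p3, p4⟩ := pv_lobe (ga := P.ga) hl h2
    have hA : (P.dat u eu).A j = Af (P.ta j - sg l) := by
      simp only [dat, pj]
      rw [p1]
      ring
    have hB : (P.dat u eu).Bv j = Bf (P.ta j - sg l) := by
      simp only [dat, pj]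
      rw [p2]
    have htB : P.tB j = 0 := by
      by_contra h3
      obtain ⟨m, hm⟩ := exists_wd h3
      exact hm (win_const_of_cell h2).2
    rw [htB, mul_zero] at h1
    have h3 := (mul_eq_zero.1 h1).resolve_left hX.ne'
    simp only [rf] at h3
    rw [p3, p4] at h3
    refine ⟨⟨fun e he => ?_, fun e he => ?_⟩, ?_⟩
    · have he' : P.src e = j := he
      have := (win_const_of_cell (m := e.1.2.2) (M := P.D.M j) h2).1
      simp only [dat, la]
      rw [he']
      exact this
    · have he' : P.tgt e = j := he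
      have := (win_const_of_cell (m := P.D.M j - 1) (M := P.D.M j) h2).1
      simp only [dat, be]
      rw [he']
      exact this
    · rw [hA]
      unfold Dat.RA Dat.LA
      rw [hA, hB]
      rcases curve hu0 h2 h3 with ⟨h4, h5⟩ | ⟨h4, h5⟩
      · exact Or.inl ⟨h4, h5⟩
      · exact Or.inr ⟨h4, h5 eu heu heu2⟩

end on

/-! ### the inequality -/

section final

variable {P} (hN : 3 ≤ N)

open Classical in
/-- **`rf u w0 > 0`** at a zero of `G`. -/
theorem rf_pos (hP : P.HP) (hnu : 0 < P.nu)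
    (hc : ∀ (u : ℂ) (eu : ℝ), (P.dat u eu).Con (Fintype.card (Fin N)) (Fintype.card P.Ed))
    (hG : ∑ j, (P.X j : ℂ) * pl P.ga (P.D.M j) (P.z j) =
      ((∑ e : P.Ed, P.cB * P.ga * (P.hh e * (P.la e * P.be e)) : ℝ) : ℂ))
    (hN : 3 ≤ N) {u : ℂ} (hu : u.re ^ 2 + u.im ^ 2 = 1) (hu0 : 0 < u.re)
    (hw : ∀ j, rf u (P.w j) = 0) : 0 < rf u P.w0 := by
  obtain ⟨eu, heu, heu2⟩ : ∃ eu : ℝ, (eu = 1 ∨ eu = -1) ∧ u.im = eu * |u.im| := by
    rcases le_total 0 u.im with h | h
    · exact ⟨1, Or.inl rfl, by rw [abs_of_nonneg h, one_mul]⟩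
    · exact ⟨-1, Or.inr rfl, by rw [abs_of_nonpos h]; ring⟩
  have hc' := hc u eu
  have hK : 8 * (P.D.Mx : ℝ) + 2 ≤ P.D.K := K_ge P.D (by omega)
  have hreal : ∀ j, P.X j * (pl P.ga (P.D.M j) (P.z j)).re =
      if P.Wp j then P.X j * P.s j * (-(1 - P.ga) + ((P.pj j).re + (1 - P.ga)))
      else -(P.X j * ((2 - P.ga) * P.s j)) := by
    intro j
    by_cases h : P.Wp j
    · rw [if_pos h, pl_of_pos h.1]
      simp only [Complex.mul_re, Complex.ofReal_re, Complex.ofReal_im, zero_mul, sub_zero, pj, s,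
        ta]
      ring
    · rw [if_neg h, pl_off hN h]
      simp only [Complex.sub_re, Complex.mul_re, Complex.neg_re, Complex.neg_im,
        Complex.ofReal_re, Complex.ofReal_im, Complex.I_re, Complex.I_im, s]
      ring
  have himag : ∀ j, P.X j * (pl P.ga (P.D.M j) (P.z j)).im =
      if P.Wp j then P.X j * P.s j * (P.pj j).im else -(P.X j * P.t j) := by
    intro j
    by_cases h : P.Wp j
    · rw [if_pos h, pl_of_pos h.1]
      simp only [Complex.mul_im, Complex.ofReal_re, Complex.ofReal_im, zero_mul, add_zero, pj, s,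
        ta]
      ring
    · rw [if_neg h, pl_off hN h]
      simp only [Complex.sub_im, Complex.mul_im, Complex.neg_re, Complex.neg_im,
        Complex.ofReal_re, Complex.ofReal_im, Complex.I_re, Complex.I_im, t]
      ring
  have ok : (P.dat u eu).Ok :=
    { hu := hu
      hu0 := hu0
      heu := heu
      heu2 := heu2
      hν := hnu
      big := by
        simp only [dat]
        unfold nu
        rw [Real.sq_sqrt (Finset.sum_nonneg fun j _ => sq_nonneg _)]
        exact le_rfl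
      X0 := X_nonneg
      X1 := X_le_one
      fl1 := fun j hj => X_of_fl hc' hj
      fl0 := fun j hj => by
        have hj' : P.x j < 2 * P.d := not_le.1 hj
        have h1 := s_div_le hnu j
        rw [abs_div, abs_of_pos hnu, div_le_iff₀ hnu] at h1
        refine h1.trans ?_
        simp only [dat]
        exact mul_le_mul_of_nonneg_right hj'.le hnu.le
      Ws := fun j hj => hj.1
      rX := fun j _ => X_le_rho hN hc' hnu j
      r6 := fun j _ => rho_le hN hc' hnu j
      r0 := fun j _ h => rho_of_X hc' h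
      Wt := fun j hj => by
        have hj' : P.Wp j := hj
        simp only [dat, Dat.HB, Dat.p]
        rw [if_pos hj']
        have e1 : (⟨-(1 - P.ga) + ((P.pj j).re + (1 - P.ga)), (P.pj j).im⟩ : ℂ) = P.pj j := by
          apply Complex.ext
          · simp
            ring
          · simp
        rw [e1]
        congr 3 <;> (unfold HB; congr 1; exact Finset.sum_congr rfl fun e _ => by congr)
      Wc := fun j hj hX => on_cases hc' hu0 hj (hw j) hX heu heu2
      Vt := fun j hj => by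
        have hj' : ¬ P.Wp j := hj
        simp only [dat]
        rw [if_neg hj']
        exact off_nonneg hN hc' hnu hP hu0 hj' (hw j)
      Vf := fun j hj hf => by
        have hj' : ¬ P.Wp j := hj
        simp only [dat]
        rw [if_neg hj']
        exact off_full hN hc' hnu hj' (hw j) hf hu0
      VK := fun j hj hX => off_K hN hc' hnu hP hu0 hj (hw j) hX
      VO := fun j _ hf => off_t hN hnu hf
      la0 := fun e => win_nonneg _ _ _
      la1 := fun e => win_le_one _ _ _
      be0 := fun e => win_nonneg _ _ _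
      be1 := fun e => win_le_one _ _ _
      hh0 := hh_nonneg
      h10 := fun e => sq_nonneg _
      h20 := fun e => sq_nonneg _
      h12 := fun e he => by
        have he' : 0 < P.hh e := he
        simp only [dat]
        unfold h1 h2
        have h3 : P.Rr (P.src e) + P.Rr (P.tgt e) ≠ 0 := by
          intro h4
          unfold hh at he'
          rw [h4, div_zero] at he'
          exact lt_irrefl _ he'
        rw [div_pow, div_pow, ← add_div, div_le_div_iff₀ (by norm_num) (by positivity)]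
        nlinarith [sq_nonneg (P.Rr (P.src e) - P.Rr (P.tgt e))]
      hs := fun e he => by
        have he' : P.hh e * (P.la e * P.be e) ≠ 0 := he
        have h3 : P.hh e ≠ 0 := left_ne_zero_of_mul he'
        have h4 : P.la e ≠ 0 := left_ne_zero_of_mul (right_ne_zero_of_mul he')
        have h5 : P.be e ≠ 0 := right_ne_zero_of_mul (right_ne_zero_of_mul he')
        have h6 : 0 < P.hh e := lt_of_le_of_ne (hh_nonneg e) (Ne.symm h3)
        have key : ∀ j, 0 < P.Rr j → (∃ m, win m (P.D.M j) (P.ta j) ≠ 0) → P.Wp j := by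
          intro j h7 ⟨m, h8⟩
          have h9 : 0 < (P.z j).re := by
            by_contra h10
            unfold Rr at h7
            rw [max_eq_left (not_lt.1 h10), mul_zero] at h7
            exact lt_irrefl _ h7
          refine ⟨h9, ?_⟩
          have h10 : |P.ta j| < 8 * P.D.M j + 1 := by
            by_contra h11
            exact h8 (win_far (not_lt.1 h11))
          unfold ta at h10
          rw [abs_div, abs_of_pos h9, div_lt_iff₀ h9] at h10
          have h11 := M_le_Mx P.D j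
          nlinarith
        have w1 : P.Wp (P.src e) := key _ (h6.trans_le (hh_le_src e)) ⟨_, h4⟩
        have w2 : P.Wp (P.tgt e) := key _ (h6.trans_le (hh_le_tgt e)) ⟨_, h5⟩
        refine ⟨?_, ?_, w1, w2⟩
        · exact (hh_le_src e).trans (Rr_on w1).le
        · exact (hh_le_tgt e).trans (Rr_on w2).le
      Zr := by
        have h1 := congrArg Complex.re hG
        simp only [Complex.re_sum, Complex.re_ofReal_mul, Complex.ofReal_re] at h1
        rw [Finset.sum_congr rfl fun j _ => hreal j] at h1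
        simp only [dat, Dat.B]
        rw [← h1] <;> exact Finset.sum_congr rfl fun j _ => by congr
      Zi := by
        have h1 := congrArg Complex.im hG
        simp only [Complex.im_sum, Complex.im_ofReal_mul, Complex.ofReal_im] at h1
        rw [Finset.sum_congr rfl fun j _ => himag j] at h1
        simp only [dat]
        rw [← h1] <;> exact Finset.sum_congr rfl fun j _ => by congr }
  have h1 := Dat.pos hc' ok
  have h2 : rf u P.w0 = ∑ j, (P.dat u eu).tm j := by
    unfold w0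
    rw [rf_sum]
    refine Finset.sum_congr rfl fun j _ => ?_
    simp only [dat]
    split_ifs with h
    · unfold w0j
      rw [if_pos h]
      have h3 := hw j
      rw [rf_add, rf_real_mul, h3, mul_zero, add_zero, ← Complex.ofReal_neg, rf_real_mul, rf_sub,
        rf_ofReal]
      ring
    · rfl
  rw [h2]
  exact h1

end final

end Pt

end Crest.Agent.R267.K2c_867
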