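import Crest.Agent.R267.Curve_867
import Crest.Agent.R267.T3aNDefs_88
import Crest.Agent.R267.LemL_951
import Crest.Agent.R267.K2c_867
import Crest.Agent.R267.CalcN_88
import Crest.Agent.R267.Calc4_957
import Crest.Agent.R267.K2IN_957

-- ▼ part R267/CurveN_867
section

/-!
# Row 267, T3aN: the curve with sign, the windows `winN`
-/

set_option autoImplicit false

noncomputable section

namespace Crest.Agent.R267.CurveN_867

open Finset T3aDefs_957 Calc_957 Curve_867 T3aNDefs_88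

/-- **the curve with sign `e`**: position of the points with given tangent direction. -/
theorem curveN {u : ℂ} (hu : 0 < u.re) {e : ℝ} (he : e = 1 ∨ e = -1) {v : ℝ} (hv : |v| < 3)
    (h : u.re * Afd v + u.im * (e * Bfd v) = 0) :
    (u.im = 0 ∧ Af v = 1) ∨ (u.im ≠ 0 ∧ ∀ ε : ℝ, (ε = 1 ∨ ε = -1) → u.im = ε * |u.im| →
      ((0 ≤ Af v ∧ Af v ≤ 1 ∧ 1 ≤ ε * (e * Bf v) ∧ ε * (e * Bf v) ≤ 13 / 8) ∨
       (-1 ≤ Af v ∧ Af v ≤ 0 ∧ 1 ≤ -(ε * (e * Bf v)) ∧ -(ε * (e * Bf v)) ≤ 13 / 8))) := by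
  have he2 : e * e = 1 := by rcases he with h | h <;> rw [h] <;> norm_num
  have he3 : |e| = 1 := by rcases he with h | h <;> rw [h] <;> norm_num
  have hc := curve (u := ⟨u.re, e * u.im⟩) hu hv (by
    show u.re * Afd v + e * u.im * Bfd v = 0
    linear_combination h)
  simp only at hc
  have e1 : |e * u.im| = |u.im| := by rw [abs_mul, he3, one_mul]
  rcases hc with ⟨h1, h2⟩ | ⟨h1, h2⟩
  · left
    refine ⟨?_, h2⟩
    have : e * (e * u.im) = 0 := by rw [h1, mul_zero]
    rw [← mul_assoc, he2, one_mul] at this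
    exact this
  · right
    refine ⟨fun h3 => h1 (by rw [h3, mul_zero]), fun ε hε hε2 => ?_⟩
    have h3 := h2 (ε * e) (by
      rcases hε with h | h <;> rcases he with h' | h' <;> rw [h, h'] <;> norm_num) (by
      rw [e1]
      calc e * u.im = e * (ε * |u.im|) := by rw [← hε2]
        _ = ε * e * |u.im| := by ring)
    rw [mul_assoc] at h3
    exact h3

/-! ### windows -/

/-- derivative of a window. -/
def wdN (m m' : ℕ) (τ : ℝ) : ℝ :=
  std ((τ - (16 * m - 1)) / 2) / 2 * (1 - st ((τ - (16 * m' - 1)) / 2)) -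
    st ((τ - (16 * m - 1)) / 2) * (std ((τ - (16 * m' - 1)) / 2) / 2)


theorem winN_nonneg (m m' : ℕ) (τ : ℝ) : 0 ≤ winN m m' τ := by
  unfold winN
  exact mul_nonneg (st_nonneg _) (by linarith [Curve_867.st_le_one ((τ - (16 * m' - 1)) / 2)])

theorem winN_le_one (m m' : ℕ) (τ : ℝ) : winN m m' τ ≤ 1 := by
  unfold winN
  have h1 := st_nonneg ((τ - (16 * m - 1)) / 2)
  have h2 := Curve_867.st_le_one ((τ - (16 * m - 1)) / 2)
  have h3 := st_nonneg ((τ - (16 * m' - 1)) / 2)
  have h4 := Curve_867.st_le_one ((τ - (16 * m' - 1)) / 2)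
  exact mul_le_one₀ h2 (by linarith) (by linarith)

theorem abs_wdN_le (m m' : ℕ) (τ : ℝ) : |wdN m m' τ| ≤ 1 := by
  unfold wdN
  have h1 := st_nonneg ((τ - (16 * m - 1)) / 2)
  have h2 := Curve_867.st_le_one ((τ - (16 * m - 1)) / 2)
  have h3 := st_nonneg ((τ - (16 * m' - 1)) / 2)
  have h4 := Curve_867.st_le_one ((τ - (16 * m' - 1)) / 2)
  have h5 := std_nonneg ((τ - (16 * m - 1)) / 2)
  have h6 := std_le ((τ - (16 * m - 1)) / 2)
  have h7 := std_nonneg ((τ - (16 * m' - 1)) / 2)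
  have h8 := std_le ((τ - (16 * m' - 1)) / 2)
  have a1 : 0 ≤ std ((τ - (16 * m - 1)) / 2) / 2 * (1 - st ((τ - (16 * m' - 1)) / 2)) :=
    mul_nonneg (by linarith) (by linarith)
  have a2 : 0 ≤ st ((τ - (16 * m - 1)) / 2) * (std ((τ - (16 * m' - 1)) / 2) / 2) :=
    mul_nonneg (by linarith) (by linarith)
  have a3 : std ((τ - (16 * m - 1)) / 2) / 2 * (1 - st ((τ - (16 * m' - 1)) / 2)) ≤ 1 :=
    mul_le_one₀ (by linarith) (by linarith) (by linarith)
  have a4 : st ((τ - (16 * m - 1)) / 2) * (std ((τ - (16 * m' - 1)) / 2) / 2) ≤ 1 :=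
    mul_le_one₀ h2 (by linarith) (by linarith)
  rw [abs_le]
  constructor <;> linarith

/-- off the two transition zones the window is `0` or `1`. -/
theorem winN_const {m m' : ℕ} {τ : ℝ} (h1 : 1 ≤ |τ - 16 * m|) (h2 : 1 ≤ |τ - 16 * m'|) :
    (winN m m' τ = 0 ∨ winN m m' τ = 1) ∧ wdN m m' τ = 0 := by
  unfold winN wdN
  rcases le_abs.1 h1 with h3 | h3
  · rw [st_of_ge (by linarith : 1 ≤ (τ - (16 * m - 1)) / 2),
      std_of_ge (by linarith : 1 ≤ (τ - (16 * m - 1)) / 2)]
    rcases le_abs.1 h2 with h4 | h4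
    · rw [st_of_ge (by linarith : 1 ≤ (τ - (16 * m' - 1)) / 2),
        std_of_ge (by linarith : 1 ≤ (τ - (16 * m' - 1)) / 2)]
      norm_num
    · rw [st_of_le (by linarith : (τ - (16 * m' - 1)) / 2 ≤ 0),
        std_of_le (by linarith : (τ - (16 * m' - 1)) / 2 ≤ 0)]
      norm_num
  · rw [st_of_le (by linarith : (τ - (16 * m - 1)) / 2 ≤ 0),
      std_of_le (by linarith : (τ - (16 * m - 1)) / 2 ≤ 0)]
    norm_num

/-- away from the junctions the windows are constant. -/
theorem winN_const_of_cell {m m' l : ℕ} {τ : ℝ} (h : |τ - sgN l| ≤ 7) :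
    (winN m m' τ = 0 ∨ winN m m' τ = 1) ∧ wdN m m' τ = 0 := by
  have key : ∀ k : ℕ, 1 ≤ |τ - 16 * k| := by
    intro k
    rw [abs_le] at h
    unfold sgN at h
    rcases le_or_gt k l with h1 | h1
    · have : (k : ℝ) ≤ l := by exact_mod_cast h1
      rw [le_abs]; left; linarith
    · have : (l : ℝ) + 1 ≤ k := by exact_mod_cast h1
      rw [le_abs]; right; linarith
  exact winN_const (key m) (key m')

/-- the window vanishes far away. -/
theorem winN_far {m m' : ℕ} {τ : ℝ} (h : 16 * (m' : ℝ) + 1 ≤ |τ|) : winN m m' τ = 0 := by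
  unfold winN
  rcases le_abs.1 h with h1 | h1
  · rw [st_of_ge (by linarith : 1 ≤ (τ - (16 * m' - 1)) / 2)]
    ring
  · have h2 : (0 : ℝ) ≤ m := m.cast_nonneg
    have h3 : (0 : ℝ) ≤ m' := m'.cast_nonneg
    rw [st_of_le (by linarith : (τ - (16 * m - 1)) / 2 ≤ 0)]
    ring

/-- where a window moves. -/
theorem wdN_ne {m m' : ℕ} {τ : ℝ} (h : wdN m m' τ ≠ 0) : ∃ k ≤ m', |τ - 16 * k| < 1 := by
  by_contra h0
  push Not at h0
  have h2 := h0 m' le_rfl
  rcases lt_or_ge m m' with h3 | h3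
  · exact h (winN_const (h0 m h3.le) h2).2
  · have h4 : (m' : ℝ) ≤ m := by exact_mod_cast h3
    rcases le_or_gt 1 |τ - 16 * m| with h5 | h5
    · exact h (winN_const h5 h2).2
    · rw [abs_lt] at h5
      refine h ?_
      unfold wdN
      have h6 : 1 ≤ (τ - (16 * m' - 1)) / 2 := by
        rcases le_abs.1 h2 with h6 | h6
        · linarith
        · linarith
      rw [st_of_ge h6, std_of_ge h6]
      ring

end Crest.Agent.R267.CurveN_867
end
end

-- ▼ part R267/K2bN_118
section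

/-!
# K2 of T3a-N (signed rays, deletion boxes), region II: the inequality, as a statement on numbers

Port of `K2b_867` (helper867). Changes: the edges have supports `sp e` (boxes), the window of the
variable `j` in the box `e` has the value `la e j`, `hd e j` is the derivative of the (harmonic)
mean of the box with respect to `R_j`; the vertical speed `kp` has a sign; the new type `UU`
(turning zone on the left flat side: any vertical speed, no window moves).

At a zero of `G = ∑ χ_j P_j - B` let `u` be a unit vector with `0 < u.re` which kills all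
derivatives `w_j` in the directions `i e_j`. Then `rf u (w_0) > 0`, `w_0` the derivative in the
direction `(-1, …, -1)`; `rf u (w_0) = ∑ tm j`.

* window index (`Wp j`): `0 < s j`, `P = s p`, `p = (-(1-ga) + A) + i Bv`, `R = X s`,
  `tm = rho (u.re * HB - rf u p)`, `HB = ∂B/∂R_j`;
* other index: `P = -(2-ga) s - i t`;
* `fl j`: the cut-off is `1` near the point;
* for a ray of sign `-1` the point is the conjugate of the point of a positive ray, and kills `u`
  iff the point of the positive ray kills `conj u`: `RA`, `LA` hold with `Bv` including the sign.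
-/

set_option autoImplicit false
set_option linter.unusedSectionVars false

noncomputable section

open Finset

namespace Crest.Agent.R267.K2bN_118

open Crest.Agent.R267.LemL_951

/-- the numbers at the point. -/
structure Dat (ι ε : Type) where
  ga : ℝ
  K : ℝ
  cB : ℝ
  cT : ℝ
  KM : ℝ
  cO : ℝ
  d : ℝ
  ν : ℝ
  s : ι → ℝ
  t : ι → ℝ
  X : ι → ℝ
  rho : ι → ℝ
  A : ι → ℝ
  Bv : ι → ℝ
  tB : ι → ℝ
  kp : ι → ℝ
  tm : ι → ℝ
  Wp : ι → Prop
  fl : ι → Prop
  sp : ε → Finset ι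
  la : ε → ι → ℝ
  hh : ε → ℝ
  hd : ε → ι → ℝ
  u : ℂ
  eu : ℝ

namespace Dat

variable {ι ε : Type} [Fintype ι] [Fintype ε] (D : Dat ι ε)

/-- value of the loop. -/
def p (j : ι) : ℂ := ⟨-(1 - D.ga) + D.A j, D.Bv j⟩

/-- the window of a box. -/
def wn (e : ε) : ℝ := ∏ j ∈ D.sp e, D.la e j

open Classical in
/-- `∂B/∂R_j`. -/
def HB (j : ι) : ℝ := D.cB * D.ga * ∑ e, (if j ∈ D.sp e then D.wn e * D.hd e j else 0)

/-- the deletion term. -/
def B : ℝ := ∑ e, D.cB * D.ga * (D.hh e * D.wn e)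

/-- window index at the left flat side or on the vertical line. -/
def TT (j : ι) : Prop :=
  D.A j = -1 ∧ 1 ≤ |D.kp j| ∧ D.X j * D.kp j * D.u.im + D.u.re * D.tB j = 0 ∧
    |D.tB j| ≤ D.cT * D.X j ∧ (D.tB j ≠ 0 → |D.Bv j| ≤ D.KM)

/-- window index in a turning zone: left flat side, any vertical speed. -/
def UU (j : ι) : Prop := D.A j = -1 ∧ |D.Bv j| ≤ 3

/-- the windows do not move with the angle of `j`. -/
def Cst (j : ι) : Prop := ∀ e, j ∈ D.sp e → D.la e j = 0 ∨ D.la e j = 1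

/-- right arc. -/
def RA (j : ι) : Prop := 0 ≤ D.A j ∧ D.A j ≤ 1 ∧ 1 ≤ D.eu * D.Bv j ∧ D.eu * D.Bv j ≤ 13 / 8

/-- left arc. -/
def LA (j : ι) : Prop := -1 ≤ D.A j ∧ D.A j ≤ 0 ∧ 1 ≤ -(D.eu * D.Bv j) ∧ -(D.eu * D.Bv j) ≤ 13 / 8

/-- window index on the curve. -/
def NN (j : ι) : Prop :=
  D.Cst j ∧ ((D.u.im = 0 ∧ D.A j = 1) ∨ (D.u.im ≠ 0 ∧ (D.RA j ∨ D.LA j)))

/-- hypotheses on the constants, `N` = number of variables, `M` = number of edges. -/
structure Con (N M : ℝ) : Prop where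
  hN : 1 ≤ N
  hM : 0 ≤ M
  hga : 0 < D.ga
  hga2 : D.ga ≤ 1 / 4
  hga3 : 6 * N * D.ga ≤ 1 / 8
  hcB : 12 * N ^ 2 < D.cB
  hcT : 0 ≤ D.cT
  hcT2 : 6 * N * (3 * D.cT) ≤ 1 / 8
  hKM : 0 ≤ D.KM
  hcT3 : D.KM * D.cT ≤ 1 / 8
  hK : 72 * N ≤ D.K
  hcO : 0 ≤ D.cO
  hd : 0 < D.d
  hd1 : N ^ 2 * (6 + 2 * D.KM + D.cO) * D.d < 1
  hd2 : 8 * N ^ 2 * D.d ≤ D.ga
  hd3 : 2 * D.d * (2 * N * (M + 1) * D.cB) < 1

/-- hypotheses at the point. -/
structure Ok : Prop where
  hu : D.u.re ^ 2 + D.u.im ^ 2 = 1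
  hu0 : 0 < D.u.re
  heu : D.eu = 1 ∨ D.eu = -1
  heu2 : D.u.im = D.eu * |D.u.im|
  hν : 0 < D.ν
  big : D.ν ^ 2 ≤ ∑ j, D.s j ^ 2
  X0 : ∀ j, 0 ≤ D.X j
  X1 : ∀ j, D.X j ≤ 1
  fl1 : ∀ j, D.fl j → D.X j = 1
  fl0 : ∀ j, ¬ D.fl j → |D.s j| ≤ 2 * D.d * D.ν
  -- window indices
  Ws : ∀ j, D.Wp j → 0 < D.s j
  rX : ∀ j, D.Wp j → D.X j ≤ D.rho j
  r6 : ∀ j, D.Wp j → D.rho j ≤ 6
  r0 : ∀ j, D.Wp j → D.X j = 0 → D.rho j = 0
  Wt : ∀ j, D.Wp j → D.tm j = D.rho j * (D.u.re * D.HB j - rf D.u (D.p j))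
  Wc : ∀ j, D.Wp j → 0 < D.X j → D.TT j ∨ D.UU j ∨ D.NN j
  -- other indices
  Vt : ∀ j, ¬ D.Wp j → 0 ≤ D.tm j
  Vf : ∀ j, ¬ D.Wp j → D.fl j → D.u.im = 0 ∧ D.u.re ≤ D.tm j
  VK : ∀ j, ¬ D.Wp j → 0 < D.X j → D.K * |D.u.im| ≤ 2 * D.u.re
  VO : ∀ j, ¬ D.Wp j → ¬ D.fl j → |D.t j| ≤ D.cO * D.d * D.ν
  -- edges
  la0 : ∀ e j, 0 ≤ D.la e j
  la1 : ∀ e j, D.la e j ≤ 1
  hh0 : ∀ e, 0 ≤ D.hh e
  hd0 : ∀ e j, 0 ≤ D.hd e j
  h12 : ∀ e, 0 < D.hh e → 1 ≤ Fintype.card ι * ∑ j ∈ D.sp e, D.hd e j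
  hs : ∀ e, D.hh e * D.wn e ≠ 0 → ∀ j ∈ D.sp e, D.hh e ≤ D.X j * D.s j ∧ D.Wp j
  /-- `Re G = 0`. -/
  Zr : ∑ j, (open Classical in if D.Wp j then D.X j * D.s j * (-(1 - D.ga) + D.A j)
    else -(D.X j * ((2 - D.ga) * D.s j))) = D.B
  /-- `Im G = 0`. -/
  Zi : ∑ j, (open Classical in if D.Wp j then D.X j * D.s j * D.Bv j
    else -(D.X j * D.t j)) = 0

section main

variable {D} (hc : D.Con (Fintype.card ι) (Fintype.card ε)) (ok : D.Ok)

include hc ok

lemma cg0 : 0 < D.cB * D.ga := mul_pos (by nlinarith [hc.hcB, hc.hN]) hc.hga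

lemma wn0 (e : ε) : 0 ≤ D.wn e := Finset.prod_nonneg fun j _ => ok.la0 e j

lemma wn1 (e : ε) : D.wn e ≤ 1 :=
  Finset.prod_le_one (fun j _ => ok.la0 e j) fun j _ => ok.la1 e j

lemma HB0 (j : ι) : 0 ≤ D.HB j := by
  unfold Dat.HB
  refine mul_nonneg (cg0 hc ok).le (Finset.sum_nonneg fun e _ => ?_)
  have h1 := mul_nonneg (wn0 hc ok e) (ok.hd0 e j)
  split_ifs
  · exact h1
  · exact le_rfl

lemma B0 : 0 ≤ D.B := by
  unfold Dat.B
  refine Finset.sum_nonneg fun e _ => ?_
  exact mul_nonneg (cg0 hc ok).le (mul_nonneg (ok.hh0 e) (wn0 hc ok e))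

lemma exists_big : ∃ j, D.ν ≤ Fintype.card ι * |D.s j| := by
  have hν := ok.big
  by_contra h
  simp only [not_exists, not_le] at h
  have hN := hc.hN
  have hN0 : 0 < (Fintype.card ι : ℝ) := by linarith
  have hne : (Finset.univ : Finset ι).Nonempty := by
    rw [Finset.univ_nonempty_iff, ← Fintype.card_pos_iff]
    exact_mod_cast hN0
  have h1 : ∀ j, (Fintype.card ι : ℝ) ^ 2 * D.s j ^ 2 < D.ν ^ 2 := by
    intro j
    have h2 := h j
    have h3 : 0 ≤ (Fintype.card ι : ℝ) * |D.s j| := by positivity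
    calc (Fintype.card ι : ℝ) ^ 2 * D.s j ^ 2 = ((Fintype.card ι : ℝ) * |D.s j|) ^ 2 := by
          rw [mul_pow, sq_abs]
      _ < D.ν ^ 2 := pow_lt_pow_left₀ h2 h3 (by norm_num)
  have h4 : ∑ j, (Fintype.card ι : ℝ) ^ 2 * D.s j ^ 2 < ∑ _j : ι, D.ν ^ 2 :=
    Finset.sum_lt_sum_of_nonempty hne fun j _ => h1 j
  rw [← Finset.mul_sum, Finset.sum_const, Finset.card_univ, nsmul_eq_mul] at h4
  have h5 : (Fintype.card ι : ℝ) * D.ν ^ 2 ≤ (Fintype.card ι : ℝ) ^ 2 * ∑ j, D.s j ^ 2 := by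
    have h6 : (Fintype.card ι : ℝ) ≤ (Fintype.card ι : ℝ) ^ 2 := by nlinarith
    calc (Fintype.card ι : ℝ) * D.ν ^ 2 ≤ (Fintype.card ι : ℝ) ^ 2 * D.ν ^ 2 :=
          mul_le_mul_of_nonneg_right h6 (sq_nonneg _)
      _ ≤ _ := mul_le_mul_of_nonneg_left hν (sq_nonneg _)
  linarith

lemma fl_of_big {j : ι} (h : D.ν ≤ Fintype.card ι * |D.s j|) : D.fl j := by
  by_contra hf
  have h1 := ok.fl0 j hf
  have hν := ok.hν
  have hN := hc.hN
  have hd := hc.hd
  have hd1 := hc.hd1
  have hKM := hc.hKM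
  have hcO := hc.hcO
  have h3 : D.ν ≤ Fintype.card ι * (2 * D.d * D.ν) :=
    h.trans (mul_le_mul_of_nonneg_left h1 (by linarith))
  have h4 : (Fintype.card ι : ℝ) * (2 * D.d) < 1 := by
    have h5 : (Fintype.card ι : ℝ) * (2 * D.d) ≤
        (Fintype.card ι : ℝ) ^ 2 * (6 + 2 * D.KM + D.cO) * D.d := by
      have h6 : (Fintype.card ι : ℝ) * 2 ≤ (Fintype.card ι : ℝ) ^ 2 * (6 + 2 * D.KM + D.cO) := by
        have h7 : (Fintype.card ι : ℝ) ≤ (Fintype.card ι : ℝ) ^ 2 := by nlinarith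
        nlinarith [mul_nonneg (sq_nonneg (Fintype.card ι : ℝ)) hKM,
          mul_nonneg (sq_nonneg (Fintype.card ι : ℝ)) hcO]
      nlinarith
    linarith
  nlinarith

lemma rf_p (j : ι) : rf D.u (D.p j) = D.u.re * (-(1 - D.ga) + D.A j) + D.u.im * D.Bv j := rfl

lemma im_B (j : ι) : D.u.im * D.Bv j = |D.u.im| * (D.eu * D.Bv j) := by
  conv_lhs => rw [ok.heu2]
  ring

/-- `rf u p` on a right arc. -/
lemma rf_RA {j : ι} (h : D.RA j) : rf D.u (D.p j) ≤ D.u.re * D.ga + 3 * |D.u.im| := by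
  rw [rf_p hc ok, im_B hc ok]
  obtain ⟨-, h2, -, h4⟩ := h
  have h5 : |D.u.im| * (D.eu * D.Bv j) ≤ |D.u.im| * 3 :=
    mul_le_mul_of_nonneg_left (by linarith) (abs_nonneg _)
  have h6 : D.u.re * (-(1 - D.ga) + D.A j) ≤ D.u.re * D.ga :=
    mul_le_mul_of_nonneg_left (by linarith) ok.hu0.le
  linarith

/-- `rf u p` on a left arc. -/
lemma rf_LA {j : ι} (h : D.LA j) : rf D.u (D.p j) ≤ -(D.u.re * (1 - D.ga)) := by
  rw [rf_p hc ok, im_B hc ok]
  obtain ⟨-, h2, h3, -⟩ := h
  have h5 : |D.u.im| * (D.eu * D.Bv j) ≤ 0 :=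
    mul_nonpos_of_nonneg_of_nonpos (abs_nonneg _) (by linarith)
  have h6 : D.u.re * (-(1 - D.ga) + D.A j) ≤ D.u.re * (-(1 - D.ga)) :=
    mul_le_mul_of_nonneg_left (by linarith) ok.hu0.le
  linarith

/-- `rf u p` in a turning zone. -/
lemma rf_UU {j : ι} (h : D.UU j) : rf D.u (D.p j) ≤ -(D.u.re * (2 - D.ga)) + 3 * |D.u.im| := by
  rw [rf_p hc ok, h.1]
  have h1 : D.u.im * D.Bv j ≤ |D.u.im| * 3 := by
    calc D.u.im * D.Bv j ≤ |D.u.im * D.Bv j| := le_abs_self _
      _ = |D.u.im| * |D.Bv j| := abs_mul _ _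
      _ ≤ |D.u.im| * 3 := mul_le_mul_of_nonneg_left h.2 (abs_nonneg _)
  linarith

/-- `|u.im| ≤ cT u.re` if there is an active `TT` index. -/
lemma im_TT {j : ι} (h : D.TT j) (hX : 0 < D.X j) : |D.u.im| ≤ D.cT * D.u.re := by
  obtain ⟨-, h2, h3, h4, -⟩ := h
  have hu0 := ok.hu0
  have h5 : D.X j * |D.kp j| * |D.u.im| = D.u.re * |D.tB j| := by
    have h6 : D.X j * D.kp j * D.u.im = -(D.u.re * D.tB j) := by linarith
    have h7 := congrArg abs h6
    rw [abs_neg, abs_mul, abs_mul, abs_mul, abs_of_pos hX, abs_of_pos hu0] at h7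
    exact h7
  have h6 : D.X j * |D.u.im| ≤ D.X j * (D.cT * D.u.re) := by
    calc D.X j * |D.u.im| ≤ D.X j * |D.u.im| * |D.kp j| := by
          have := mul_nonneg hX.le (abs_nonneg D.u.im)
          nlinarith
      _ = D.u.re * |D.tB j| := by rw [← h5]; ring
      _ ≤ D.u.re * (D.cT * D.X j) := mul_le_mul_of_nonneg_left h4 hu0.le
      _ = _ := by ring
  exact le_of_mul_le_mul_left h6 hX

/-- `rf u p` at an active `TT` index. -/
lemma rf_TT {j : ι} (h : D.TT j) (hX : 0 < D.X j) :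
    rf D.u (D.p j) ≤ -(D.u.re * (15 / 8 - D.ga)) := by
  have h1 := im_TT hc ok h hX
  obtain ⟨hA, h2, h3, h4, h5⟩ := h
  have hu0 := ok.hu0
  rw [rf_p hc ok, hA]
  by_cases ht : D.tB j = 0
  · rw [ht, mul_zero, add_zero] at h3
    have h6 : D.u.im = 0 := by
      rcases mul_eq_zero.1 h3 with h7 | h7
      · rcases mul_eq_zero.1 h7 with h8 | h8
        · exact absurd h8 hX.ne'
        · rw [h8, abs_zero] at h2; linarith
      · exact h7
    rw [h6, zero_mul, add_zero]
    nlinarith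
  · have h6 := h5 ht
    have h7 : D.u.im * D.Bv j ≤ D.u.re * (1 / 8) := by
      calc D.u.im * D.Bv j ≤ |D.u.im * D.Bv j| := le_abs_self _
        _ = |D.u.im| * |D.Bv j| := abs_mul _ _
        _ ≤ (D.cT * D.u.re) * D.KM :=
          mul_le_mul h1 h6 (abs_nonneg _) (mul_nonneg hc.hcT hu0.le)
        _ = D.u.re * (D.KM * D.cT) := by ring
        _ ≤ D.u.re * (1 / 8) := mul_le_mul_of_nonneg_left hc.hcT3 hu0.le
    nlinarith

/-- lower bound for all terms. -/
lemma tm_ge (j : ι) : -(6 * (D.u.re * D.ga + 3 * |D.u.im|)) +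
    (open Classical in if D.Wp j then D.u.re * (D.rho j * D.HB j) else 0) ≤ D.tm j := by
  classical
  have hu0 := ok.hu0
  have hga := hc.hga
  have hga2 := hc.hga2
  have h0 : 0 ≤ D.u.re * D.ga + 3 * |D.u.im| := by positivity
  by_cases hj : D.Wp j
  · rw [if_pos hj, ok.Wt j hj]
    have hX := ok.X0 j
    have hr := ok.rX j hj
    have hr6 := ok.r6 j hj
    have h1 : rf D.u (D.p j) * D.rho j ≤ 6 * (D.u.re * D.ga + 3 * |D.u.im|) := by
      rcases eq_or_lt_of_le hX with h2 | h2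
      · rw [ok.r0 j hj h2.symm, mul_zero]; linarith
      · have h3 : rf D.u (D.p j) ≤ D.u.re * D.ga + 3 * |D.u.im| := by
          rcases ok.Wc j hj h2 with h4 | h4 | ⟨-, ⟨h4, h5⟩ | ⟨-, h4 | h4⟩⟩
          · have := rf_TT hc ok h4 h2
            have := abs_nonneg D.u.im
            nlinarith
          · have := rf_UU hc ok h4
            nlinarith
          · rw [rf_p hc ok, h4, h5, zero_mul, add_zero, abs_zero, mul_zero, add_zero]
            nlinarith
          · exact rf_RA hc ok h4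
          · have := rf_LA hc ok h4
            have := abs_nonneg D.u.im
            nlinarith
        calc rf D.u (D.p j) * D.rho j ≤ (D.u.re * D.ga + 3 * |D.u.im|) * D.rho j :=
              mul_le_mul_of_nonneg_right h3 (by linarith)
          _ ≤ (D.u.re * D.ga + 3 * |D.u.im|) * 6 := mul_le_mul_of_nonneg_left hr6 h0
          _ = _ := mul_comm _ _
    have h2 : D.rho j * (D.u.re * D.HB j - rf D.u (D.p j)) =
        D.u.re * (D.rho j * D.HB j) - rf D.u (D.p j) * D.rho j := by ring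
    linarith
  · rw [if_neg hj, add_zero]
    have := ok.Vt j hj
    linarith

/-- one heavy index and a bound for `|u.im|` suffice. -/
lemma pos_of_heavy {j0 : ι} (h : D.u.re * (1 - D.ga) ≤ D.tm j0)
    (hr : 6 * Fintype.card ι * (3 * |D.u.im|) ≤ D.u.re / 2) : 0 < ∑ j, D.tm j := by
  classical
  have hu0 := ok.hu0
  have h1 : ∑ j, (-(6 * (D.u.re * D.ga + 3 * |D.u.im|)) +
      if j = j0 then D.u.re * (1 - D.ga) else 0) ≤ ∑ j, D.tm j := by
    refine Finset.sum_le_sum fun j _ => ?_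
    split_ifs with h2
    · rw [h2]
      have : 0 ≤ 6 * (D.u.re * D.ga + 3 * |D.u.im|) := by
        have := hc.hga; positivity
      linarith
    · have h3 := tm_ge hc ok j
      have h4 : 0 ≤ (open Classical in if D.Wp j then D.u.re * (D.rho j * D.HB j) else 0) := by
        split_ifs with h5
        · have := HB0 hc ok j
          have := ok.X0 j
          have := ok.rX j h5
          have : 0 ≤ D.rho j := by linarith
          positivity
        · exact le_rfl
      linarith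
  rw [Finset.sum_add_distrib, Finset.sum_const, Finset.card_univ, nsmul_eq_mul,
    Finset.sum_ite_eq' Finset.univ j0, if_pos (Finset.mem_univ _)] at h1
  have h2 := hc.hga3
  have h3 := hc.hga2
  have h4 : (Fintype.card ι : ℝ) * (6 * (D.u.re * D.ga)) ≤ D.u.re * (1 / 8) := by
    calc (Fintype.card ι : ℝ) * (6 * (D.u.re * D.ga)) = D.u.re * (6 * Fintype.card ι * D.ga) := by
          ring
      _ ≤ _ := mul_le_mul_of_nonneg_left h2 hu0.le
  nlinarith

/-- a full window index which is not on the right is heavy. -/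
lemma heavy_of {j : ι} (hj : D.Wp j) (hf : D.fl j)
    (h : rf D.u (D.p j) ≤ -(D.u.re * (1 - D.ga))) : D.u.re * (1 - D.ga) ≤ D.tm j := by
  rw [ok.Wt j hj]
  have hX := ok.fl1 j hf
  have hr := ok.rX j hj
  rw [hX] at hr
  have hu0 := ok.hu0
  have h1 := mul_nonneg hu0.le (HB0 hc ok j)
  have h2 := hc.hga2
  have h3 : 0 ≤ D.u.re * (1 - D.ga) := mul_nonneg hu0.le (by linarith)
  nlinarith

/-- `u` not real: all active indices `RA`/`LA` is impossible. -/
lemma im_bound (hne : D.u.im ≠ 0) :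
    6 * Fintype.card ι * (3 * |D.u.im|) ≤ D.u.re / 2 := by
  classical
  have hu0 := ok.hu0
  have hN := hc.hN
  have hN0 : 0 < (Fintype.card ι : ℝ) := by linarith
  by_cases h1 : ∃ j, D.Wp j ∧ 0 < D.X j ∧ D.TT j
  · obtain ⟨j, -, hX, hT⟩ := h1
    have h2 := im_TT hc ok hT hX
    have h3 := hc.hcT2
    calc 6 * (Fintype.card ι : ℝ) * (3 * |D.u.im|)
        ≤ 6 * (Fintype.card ι : ℝ) * (3 * (D.cT * D.u.re)) := by
          refine mul_le_mul_of_nonneg_left ?_ (by positivity)
          linarith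
      _ = (6 * Fintype.card ι * (3 * D.cT)) * D.u.re := by ring
      _ ≤ 1 / 8 * D.u.re := mul_le_mul_of_nonneg_right h3 hu0.le
      _ ≤ D.u.re / 2 := by linarith
  · by_cases h2 : ∃ j, ¬ D.Wp j ∧ 0 < D.X j
    · obtain ⟨j, hj, hX⟩ := h2
      have h3 := ok.VK j hj hX
      have h4 := hc.hK
      have h5 : 72 * Fintype.card ι * |D.u.im| ≤ D.K * |D.u.im| :=
        mul_le_mul_of_nonneg_right h4 (abs_nonneg _)
      linarith
    · exfalso
      simp only [not_exists, not_and] at h1 h2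
      have hcase : ∀ j, D.X j ≠ 0 → D.Wp j ∧ (D.UU j ∨ D.RA j ∨ D.LA j) := by
        intro j hX
        have hX0 : 0 < D.X j := lt_of_le_of_ne (ok.X0 j) (Ne.symm hX)
        have hj : D.Wp j := by
          by_contra hj
          exact h2 j hj hX0
        refine ⟨hj, ?_⟩
        rcases ok.Wc j hj hX0 with h3 | h3 | ⟨-, ⟨h3, -⟩ | ⟨-, h3⟩⟩
        · exact absurd h3 (h1 j hj hX0)
        · exact Or.inl h3
        · exact absurd h3 hne
        · exact Or.inr h3
      have key : ∀ j, (if D.Wp j then D.X j * D.s j * (-(1 - D.ga) + D.A j)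
          else -(D.X j * ((2 - D.ga) * D.s j))) ≤
          7 / 20 * (D.eu * (if D.Wp j then D.X j * D.s j * D.Bv j else -(D.X j * D.t j))) -
            1 / 10 * (if D.Wp j then D.X j * D.s j else 0) := by
        intro j
        by_cases hX : D.X j = 0
        · simp [hX]
        · obtain ⟨hj, h3⟩ := hcase j hX
          rw [if_pos hj, if_pos hj, if_pos hj]
          have hR : 0 ≤ D.X j * D.s j := mul_nonneg (ok.X0 j) (ok.Ws j hj).le
          have hga2 := hc.hga2
          have h5 : -(1 - D.ga) + D.A j ≤ 7 / 20 * (D.eu * D.Bv j) - 1 / 10 := by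
            rcases h3 with ⟨h4, h5⟩ | ⟨-, h4, h5, -⟩ | ⟨-, h4, -, h5⟩
            · have h6 : |D.eu * D.Bv j| ≤ 3 := by
                rw [abs_mul]
                rcases ok.heu with h | h
                · rw [h, abs_one, one_mul]; exact h5
                · rw [h, abs_neg, abs_one, one_mul]; exact h5
              have h7 := (abs_le.1 h6).1
              rw [h4]
              linarith
            · linarith
            · linarith
          have h6 := mul_le_mul_of_nonneg_left h5 hR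
          linarith
      have h3 := Finset.sum_le_sum fun j (_ : j ∈ (Finset.univ : Finset ι)) => key j
      rw [Finset.sum_sub_distrib, ← Finset.mul_sum, ← Finset.mul_sum, ← Finset.mul_sum] at h3
      have h4 := ok.Zr
      have h5 := ok.Zi
      have h6 := B0 hc ok
      have e1 : ∑ j, (if D.Wp j then D.X j * D.s j * (-(1 - D.ga) + D.A j)
          else -(D.X j * ((2 - D.ga) * D.s j))) = D.B := by
        rw [← h4]
      have e2 : ∑ j, (if D.Wp j then D.X j * D.s j * D.Bv j else -(D.X j * D.t j)) = 0 := by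
        rw [← h5]
      rw [e1, e2, mul_zero, mul_zero, zero_sub] at h3
      obtain ⟨j1, hj1⟩ := exists_big hc ok
      have hf1 := fl_of_big hc ok hj1
      have hX1 := ok.fl1 j1 hf1
      obtain ⟨hW1, -⟩ := hcase j1 (by rw [hX1]; exact one_ne_zero)
      have h7 : 0 < ∑ j, (if D.Wp j then D.X j * D.s j else 0) := by
        refine Finset.sum_pos' (fun j _ => ?_) ⟨j1, Finset.mem_univ _, ?_⟩
        · split_ifs with hj
          · exact mul_nonneg (ok.X0 j) (ok.Ws j hj).le
          · exact le_rfl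
        · rw [if_pos hW1, hX1, one_mul]; exact ok.Ws j1 hW1
      linarith

/-- `u` not real: there is a heavy index. -/
lemma exists_heavy (hne : D.u.im ≠ 0) : ∃ j, D.fl j ∧ D.Wp j ∧ (D.TT j ∨ D.UU j ∨ D.LA j) := by
  classical
  by_contra hno
  simp only [not_exists, not_and, not_or] at hno
  have hν := ok.hν
  have hN := hc.hN
  have hN0 : 0 < (Fintype.card ι : ℝ) := by linarith
  have hd := hc.hd
  have hKM := hc.hKM
  have hcO := hc.hcO
  have hdν : 0 < D.d * D.ν := mul_pos hd hν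
  have hfl : ∀ j, D.fl j → D.Wp j ∧ D.RA j := by
    intro j hf
    have hj : D.Wp j := by
      by_contra hj
      exact hne (ok.Vf j hj hf).1
    refine ⟨hj, ?_⟩
    have h1 := hno j hf hj
    rcases ok.Wc j hj (by rw [ok.fl1 j hf]; exact one_pos) with
      h3 | h3 | ⟨-, ⟨h3, -⟩ | ⟨-, h3 | h3⟩⟩
    · exact absurd h3 h1.1
    · exact absurd h3 h1.2.1
    · exact absurd h3 hne
    · exact h3
    · exact absurd h3 h1.2.2
  have heu : |D.eu| = 1 := by
    rcases ok.heu with h | h <;> simp [h]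
  set c := (6 + 2 * D.KM + D.cO) * (D.d * D.ν) with hcd
  have hc0 : 0 ≤ c := by positivity
  obtain ⟨j1, hj1⟩ := exists_big hc ok
  have hf1 := fl_of_big hc ok hj1
  have key : ∀ j, (if j = j1 then D.ν / Fintype.card ι else 0) - c ≤
      D.eu * (if D.Wp j then D.X j * D.s j * D.Bv j else -(D.X j * D.t j)) := by
    intro j
    by_cases hf : D.fl j
    · obtain ⟨hj, hRA⟩ := hfl j hf
      rw [if_pos hj, ok.fl1 j hf, one_mul]
      have hs := ok.Ws j hj
      have h1 : D.s j * 1 ≤ D.s j * (D.eu * D.Bv j) := mul_le_mul_of_nonneg_left hRA.2.2.1 hs.le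
      have h2 : D.eu * (D.s j * D.Bv j) = D.s j * (D.eu * D.Bv j) := by ring
      rw [h2]
      split_ifs with h3
      · rw [h3] at h1 ⊢
        rw [h3] at hs
        rw [abs_of_pos hs] at hj1
        have h4 : D.ν / Fintype.card ι ≤ D.s j1 := by
          rw [div_le_iff₀ hN0]; linarith
        linarith
      · linarith
    · have hs := ok.fl0 j hf
      have hjj : j ≠ j1 := by rintro rfl; exact hf hf1
      rw [if_neg hjj, zero_sub]
      have hX0 := ok.X0 j
      have hX1 := ok.X1 j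
      have key2 : |D.eu * (if D.Wp j then D.X j * D.s j * D.Bv j else -(D.X j * D.t j))| ≤ c ∨
          0 ≤ D.eu * (if D.Wp j then D.X j * D.s j * D.Bv j else -(D.X j * D.t j)) := by
        by_cases hj : D.Wp j
        · rw [if_pos hj]
          rcases eq_or_lt_of_le hX0 with h0 | h0
          · left; rw [← h0]; simpa using hc0
          · have hsp := ok.Ws j hj
            rw [abs_of_pos hsp] at hs
            have hR : 0 ≤ D.X j * D.s j := mul_nonneg hX0 hsp.le
            have hR2 : D.X j * D.s j ≤ 2 * (D.d * D.ν) := by nlinarith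
            have h2 : D.eu * (D.X j * D.s j * D.Bv j) = D.X j * D.s j * (D.eu * D.Bv j) := by ring
            have bound : ∀ b : ℝ, |D.Bv j| ≤ b → 2 * b ≤ 6 + 2 * D.KM + D.cO →
                |D.eu * (D.X j * D.s j * D.Bv j)| ≤ c := by
              intro b hb hb2
              rw [abs_mul, heu, one_mul, abs_mul, abs_of_nonneg hR]
              calc D.X j * D.s j * |D.Bv j| ≤ 2 * (D.d * D.ν) * b :=
                    mul_le_mul hR2 hb (abs_nonneg _) (by linarith)
                _ = 2 * b * (D.d * D.ν) := by ring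
                _ ≤ c := mul_le_mul_of_nonneg_right hb2 hdν.le
            rcases ok.Wc j hj h0 with h3 | h3 | ⟨-, ⟨h3, -⟩ | ⟨-, h3 | h3⟩⟩
            · left
              obtain ⟨-, hk, h4, -, h5⟩ := h3
              have ht : D.tB j ≠ 0 := by
                intro h6
                rw [h6, mul_zero, add_zero] at h4
                rcases mul_eq_zero.1 h4 with h7 | h7
                · rcases mul_eq_zero.1 h7 with h8 | h8
                  · exact h0.ne' h8
                  · rw [h8, abs_zero] at hk; linarith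
                · exact hne h7
              exact bound _ (h5 ht) (by linarith)
            · left
              exact bound 3 h3.2 (by linarith)
            · exact absurd h3 hne
            · right
              rw [h2]
              exact mul_nonneg hR (by linarith [h3.2.2.1])
            · left
              refine bound (13 / 8) ?_ (by linarith)
              have h4 : |D.eu * D.Bv j| ≤ 13 / 8 := by
                rw [abs_le]
                constructor
                · linarith [h3.2.2.2]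
                · linarith [h3.2.2.1]
              rw [abs_mul, heu, one_mul] at h4
              exact h4
        · left
          rw [if_neg hj, abs_mul, heu, one_mul, abs_neg, abs_mul, abs_of_nonneg hX0]
          have h1 := ok.VO j hj hf
          calc D.X j * |D.t j| ≤ 1 * (D.cO * D.d * D.ν) :=
                mul_le_mul hX1 h1 (abs_nonneg _) zero_le_one
            _ = D.cO * (D.d * D.ν) := by ring
            _ ≤ c := by
                rw [hcd]
                refine mul_le_mul_of_nonneg_right (by linarith) hdν.le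
      rcases key2 with h | h
      · exact (abs_le.1 h).1
      · linarith
  have h1 := Finset.sum_le_sum fun j (_ : j ∈ (Finset.univ : Finset ι)) => key j
  rw [Finset.sum_sub_distrib, Finset.sum_ite_eq' Finset.univ j1, if_pos (Finset.mem_univ _),
    Finset.sum_const, Finset.card_univ, nsmul_eq_mul, ← Finset.mul_sum] at h1
  have e2 : ∑ j, (if D.Wp j then D.X j * D.s j * D.Bv j else -(D.X j * D.t j)) = 0 := by
    rw [← ok.Zi]
  rw [e2, mul_zero] at h1
  have h2 : D.ν / Fintype.card ι ≤ Fintype.card ι * c := by linarith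
  rw [div_le_iff₀ hN0] at h2
  have h3 := hc.hd1
  have h4 : (Fintype.card ι : ℝ) * c * Fintype.card ι =
      ((Fintype.card ι : ℝ) ^ 2 * (6 + 2 * D.KM + D.cO) * D.d) * D.ν := by rw [hcd]; ring
  rw [h4] at h2
  nlinarith

/-- **the case `u` not real.** -/
lemma pos_ne (hne : D.u.im ≠ 0) : 0 < ∑ j, D.tm j := by
  obtain ⟨j, hf, hj, h⟩ := exists_heavy hc ok hne
  refine pos_of_heavy hc ok (j0 := j) (heavy_of hc ok hj hf ?_) (im_bound hc ok hne)
  have hu0 := ok.hu0
  rcases h with h | h | h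
  · have := rf_TT hc ok h (by rw [ok.fl1 j hf]; exact one_pos)
    nlinarith
  · have h1 := rf_UU hc ok h
    have h2 := im_bound hc ok hne
    have h3 := hc.hN
    have h4 : 6 * 1 * (3 * |D.u.im|) ≤ 6 * Fintype.card ι * (3 * |D.u.im|) := by
      have := abs_nonneg D.u.im
      nlinarith
    nlinarith
  · exact rf_LA hc ok h

/-- **the case `u` real.** -/
lemma pos_eq (h0 : D.u.im = 0) : 0 < ∑ j, D.tm j := by
  classical
  have hu0 := ok.hu0
  have hN := hc.hN
  have hN0 : 0 < (Fintype.card ι : ℝ) := by linarith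
  have hν := ok.hν
  have hd := hc.hd
  have hga := hc.hga
  have hga2 := hc.hga2
  have hM := hc.hM
  have hcB : 0 < D.cB := by nlinarith [hc.hcB]
  have hr : 6 * Fintype.card ι * (3 * |D.u.im|) ≤ D.u.re / 2 := by
    rw [h0, abs_zero, mul_zero, mul_zero]; linarith
  by_cases h1 : ∃ j, D.fl j ∧ (D.Wp j → D.A j = -1)
  · obtain ⟨j, hf, hA⟩ := h1
    refine pos_of_heavy hc ok (j0 := j) ?_ hr
    by_cases hj : D.Wp j
    · refine heavy_of hc ok hj hf ?_
      rw [rf_p hc ok, hA hj, h0, zero_mul, add_zero]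
      nlinarith
    · have := (ok.Vf j hj hf).2
      nlinarith
  simp only [not_exists, not_and] at h1
  have hfl : ∀ j, D.fl j → D.Wp j ∧ D.A j = 1 ∧ D.Cst j := by
    intro j hf
    have h2 := h1 j hf
    rw [Classical.not_imp] at h2
    obtain ⟨hj, hA⟩ := h2
    refine ⟨hj, ?_⟩
    rcases ok.Wc j hj (by rw [ok.fl1 j hf]; exact one_pos) with h3 | h3 | ⟨hC, ⟨-, h3⟩ | ⟨h3, -⟩⟩
    · exact absurd h3.1 hA
    · exact absurd h3.1 hA
    · exact ⟨h3, hC⟩
    · exact absurd h0 h3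
  obtain ⟨j1, hj1⟩ := exists_big hc ok
  have hf1 := fl_of_big hc ok hj1
  -- lower bound for `B`
  have hB : D.ga * D.ν / (2 * Fintype.card ι) ≤ D.B := by
    have key : ∀ j, (if j = j1 then D.ga * D.ν / Fintype.card ι else 0) - 4 * (D.d * D.ν) ≤
        (if D.Wp j then D.X j * D.s j * (-(1 - D.ga) + D.A j)
          else -(D.X j * ((2 - D.ga) * D.s j))) := by
      intro j
      have hdν : 0 < D.d * D.ν := mul_pos hd hν
      by_cases hf : D.fl j
      · obtain ⟨hj, hA, -⟩ := hfl j hf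
        rw [if_pos hj, ok.fl1 j hf, hA, one_mul]
        have hs := ok.Ws j hj
        have h3 : D.s j * (-(1 - D.ga) + 1) = D.ga * D.s j := by ring
        rw [h3]
        split_ifs with h4
        · rw [h4]
          rw [h4] at hs
          rw [abs_of_pos hs] at hj1
          have h5 : D.ν / Fintype.card ι ≤ D.s j1 := by
            rw [div_le_iff₀ hN0]; linarith
          have h6 : D.ga * D.ν / Fintype.card ι ≤ D.ga * D.s j1 := by
            rw [mul_div_assoc]
            exact mul_le_mul_of_nonneg_left h5 hga.le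
          linarith
        · have := mul_pos hga hs
          linarith
      · have hjj : j ≠ j1 := by rintro rfl; exact hf hf1
        rw [if_neg hjj, zero_sub]
        have hs := ok.fl0 j hf
        have hX0 := ok.X0 j
        have hX1 := ok.X1 j
        split_ifs with hj
        · have hsp := ok.Ws j hj
          rw [abs_of_pos hsp] at hs
          have hR : 0 ≤ D.X j * D.s j := mul_nonneg hX0 hsp.le
          have hR2 : D.X j * D.s j ≤ 2 * (D.d * D.ν) := by nlinarith
          rcases eq_or_lt_of_le hX0 with h3 | h3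
          · rw [← h3]; simp only [zero_mul]; linarith
          · have h4 : -2 ≤ -(1 - D.ga) + D.A j := by
              rcases ok.Wc j hj h3 with h5 | h5 | ⟨-, ⟨-, h5⟩ | ⟨h5, -⟩⟩
              · rw [h5.1]; linarith
              · rw [h5.1]; linarith
              · rw [h5]; linarith
              · exact absurd h0 h5
            nlinarith
        · have h3 : |D.X j * ((2 - D.ga) * D.s j)| ≤ 4 * (D.d * D.ν) := by
            rw [abs_mul, abs_of_nonneg hX0, abs_mul, abs_of_nonneg (by linarith : 0 ≤ 2 - D.ga)]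
            calc D.X j * ((2 - D.ga) * |D.s j|) ≤ 1 * ((2 - D.ga) * |D.s j|) :=
                  mul_le_mul_of_nonneg_right hX1
                    (mul_nonneg (by linarith) (abs_nonneg _))
              _ ≤ 1 * (2 * (2 * D.d * D.ν)) := by
                  refine mul_le_mul_of_nonneg_left ?_ zero_le_one
                  exact mul_le_mul (by linarith) hs (abs_nonneg _) (by norm_num)
              _ = _ := by ring
          have := (abs_le.1 h3).2
          linarith
    have h2 := Finset.sum_le_sum fun j (_ : j ∈ (Finset.univ : Finset ι)) => key j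
    rw [Finset.sum_sub_distrib, Finset.sum_ite_eq' Finset.univ j1, if_pos (Finset.mem_univ _),
      Finset.sum_const, Finset.card_univ, nsmul_eq_mul] at h2
    have e1 : ∑ j, (if D.Wp j then D.X j * D.s j * (-(1 - D.ga) + D.A j)
        else -(D.X j * ((2 - D.ga) * D.s j))) = D.B := by
      rw [← ok.Zr]
    rw [e1] at h2
    have h3 := hc.hd2
    have h4 : (Fintype.card ι : ℝ) * (4 * (D.d * D.ν)) ≤ D.ga * D.ν / (2 * Fintype.card ι) := by
      rw [le_div_iff₀ (by linarith)]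
      calc (Fintype.card ι : ℝ) * (4 * (D.d * D.ν)) * (2 * Fintype.card ι)
          = (8 * (Fintype.card ι : ℝ) ^ 2 * D.d) * D.ν := by ring
        _ ≤ D.ga * D.ν := mul_le_mul_of_nonneg_right h3 hν.le
    have h5 : D.ga * D.ν / Fintype.card ι = 2 * (D.ga * D.ν / (2 * Fintype.card ι)) := by
      field_simp
    linarith
  -- an edge with a large deletion term
  obtain ⟨e, he⟩ : ∃ e, D.ν / (2 * Fintype.card ι * (Fintype.card ε + 1) * D.cB) ≤
      D.hh e * D.wn e := by
    by_contra hno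
    simp only [not_exists, not_le] at hno
    set q := D.ν / (2 * Fintype.card ι * (Fintype.card ε + 1) * D.cB) with hq
    have hq0 : 0 < q := by positivity
    have h2 : D.B ≤ ∑ _e : ε, D.cB * D.ga * q := by
      unfold Dat.B
      refine Finset.sum_le_sum fun e _ => ?_
      exact mul_le_mul_of_nonneg_left (hno e).le (cg0 hc ok).le
    rw [Finset.sum_const, Finset.card_univ, nsmul_eq_mul] at h2
    have h3 : (Fintype.card ε : ℝ) * (D.cB * D.ga * q) <
        ((Fintype.card ε : ℝ) + 1) * (D.cB * D.ga * q) := by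
      have := mul_pos (cg0 hc ok) hq0
      linarith
    have h4 : ((Fintype.card ε : ℝ) + 1) * (D.cB * D.ga * q) =
        D.ga * D.ν / (2 * Fintype.card ι) := by
      rw [hq]; field_simp
    linarith
  have hq0 : 0 < D.ν / (2 * Fintype.card ι * (Fintype.card ε + 1) * D.cB) := by positivity
  have hne : D.hh e * D.wn e ≠ 0 := (lt_of_lt_of_le hq0 he).ne'
  have hsp := ok.hs e hne
  have hhh : D.ν / (2 * Fintype.card ι * (Fintype.card ε + 1) * D.cB) ≤ D.hh e := by
    refine he.trans ?_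
    have := mul_le_mul_of_nonneg_left (wn1 hc ok e) (ok.hh0 e)
    linarith
  have hbig : 2 * D.d * D.ν < D.hh e := by
    refine lt_of_lt_of_le ?_ hhh
    rw [lt_div_iff₀ (by positivity)]
    have h2 := hc.hd3
    calc 2 * D.d * D.ν * (2 * Fintype.card ι * (Fintype.card ε + 1) * D.cB)
        = (2 * D.d * (2 * Fintype.card ι * (Fintype.card ε + 1) * D.cB)) * D.ν := by ring
      _ < 1 * D.ν := mul_lt_mul_of_pos_right h2 hν
      _ = D.ν := one_mul _
  have hflj : ∀ j ∈ D.sp e, D.fl j := by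
    intro j hj
    by_contra hf
    have h3 := ok.fl0 j hf
    have hs := ok.Ws j (hsp j hj).2
    rw [abs_of_pos hs] at h3
    have h4 : D.X j * D.s j ≤ 1 * D.s j := mul_le_mul_of_nonneg_right (ok.X1 j) hs.le
    have h5 := (hsp j hj).1
    linarith
  have hwn : D.wn e = 1 := by
    have h1 : D.wn e ≠ 0 := fun h => hne (by rw [h, mul_zero])
    refine Finset.prod_eq_one fun j hj => ?_
    rcases (hfl _ (hflj j hj)).2.2 e hj with h2 | h2
    · exact absurd (Finset.prod_eq_zero hj h2) h1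
    · exact h2
  have h12 := ok.h12 e (lt_of_lt_of_le hq0 hhh)
  -- the sum of the `HB`-terms
  have hH : D.cB * D.ga * (1 / Fintype.card ι) ≤
      ∑ j, (if D.Wp j then D.rho j * D.HB j else 0) := by
    set r : ι → ℝ := fun j => if D.Wp j then D.rho j else 0 with hrd
    have hr0 : ∀ j, 0 ≤ r j := by
      intro j
      simp only [hrd]
      split_ifs with hj
      · exact (ok.X0 j).trans (ok.rX j hj)
      · exact le_rfl
    have e1 : ∑ j, (if D.Wp j then D.rho j * D.HB j else 0) =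
        D.cB * D.ga * ∑ e, ∑ j ∈ D.sp e, r j * (D.wn e * D.hd e j) := by
      have e2 : ∀ j, (if D.Wp j then D.rho j * D.HB j else 0) =
          D.cB * D.ga * ∑ e, (if j ∈ D.sp e then r j * (D.wn e * D.hd e j) else 0) := by
        intro j
        have e3 : (if D.Wp j then D.rho j * D.HB j else 0) = r j * D.HB j := by
          simp only [hrd]; split_ifs <;> ring
        rw [e3, Dat.HB, mul_left_comm, Finset.mul_sum]
        congr 1
        refine Finset.sum_congr rfl fun e _ => ?_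
        split_ifs <;> ring
      rw [Finset.sum_congr rfl fun j _ => e2 j, ← Finset.mul_sum, Finset.sum_comm]
      congr 1
      refine Finset.sum_congr rfl fun e _ => ?_
      rw [Finset.sum_ite_mem, Finset.univ_inter]
    rw [e1]
    refine mul_le_mul_of_nonneg_left ?_ (cg0 hc ok).le
    have h2 : ∀ e', 0 ≤ ∑ j ∈ D.sp e', r j * (D.wn e' * D.hd e' j) := by
      intro e'
      exact Finset.sum_nonneg fun j _ =>
        mul_nonneg (hr0 _) (mul_nonneg (wn0 hc ok e') (ok.hd0 e' j))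
    refine le_trans ?_ (Finset.single_le_sum (f := fun e' =>
      ∑ j ∈ D.sp e', r j * (D.wn e' * D.hd e' j)) (fun e' _ => h2 e') (Finset.mem_univ e))
    have r1 : ∀ j ∈ D.sp e, D.hd e j ≤ r j * (D.wn e * D.hd e j) := by
      intro j hj
      have h3 : 1 ≤ r j := by
        simp only [hrd, if_pos (hsp j hj).2]
        have := ok.rX _ (hsp j hj).2
        rw [ok.fl1 _ (hflj j hj)] at this
        exact this
      rw [hwn, one_mul]
      have := mul_le_mul_of_nonneg_right h3 (ok.hd0 e j)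
      linarith
    refine le_trans ?_ (Finset.sum_le_sum r1)
    rw [div_le_iff₀ hN0]
    linarith
  -- conclusion
  have h2 : ∀ j, -(6 * (D.u.re * D.ga)) + D.u.re * (if D.Wp j then D.rho j * D.HB j else 0) ≤
      D.tm j := by
    intro j
    have h3 := tm_ge hc ok j
    rw [h0, abs_zero, mul_zero, add_zero] at h3
    refine le_trans (le_of_eq ?_) h3
    congr 1
    split_ifs <;> ring
  have h3 := Finset.sum_le_sum fun j (_ : j ∈ (Finset.univ : Finset ι)) => h2 j
  rw [Finset.sum_add_distrib, Finset.sum_const, Finset.card_univ, nsmul_eq_mul,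
    ← Finset.mul_sum] at h3
  refine lt_of_lt_of_le ?_ h3
  have h4 : D.u.re * (D.cB * D.ga * (1 / Fintype.card ι)) ≤
      D.u.re * ∑ j, (if D.Wp j then D.rho j * D.HB j else 0) :=
    mul_le_mul_of_nonneg_left hH hu0.le
  have h5 : 0 < D.u.re * D.ga := mul_pos hu0 hga
  have h6 := hc.hcB
  have h7 : (Fintype.card ι : ℝ) * (6 * (D.u.re * D.ga)) <
      D.u.re * (D.cB * D.ga * (1 / Fintype.card ι)) := by
    have e1 : D.u.re * (D.cB * D.ga * (1 / Fintype.card ι)) =
        (D.u.re * D.ga) * D.cB / Fintype.card ι := by ring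
    rw [e1, lt_div_iff₀ hN0]
    calc (Fintype.card ι : ℝ) * (6 * (D.u.re * D.ga)) * Fintype.card ι
        = (D.u.re * D.ga) * (6 * (Fintype.card ι : ℝ) ^ 2) := by ring
      _ < (D.u.re * D.ga) * D.cB := by
          refine mul_lt_mul_of_pos_left ?_ h5
          nlinarith
  linarith

/-- **K2, region II**: the derivative in the direction `(-1,…,-1)` is positive for `rf u`. -/
theorem pos : 0 < ∑ j, D.tm j := by
  by_cases h : D.u.im = 0
  · exact pos_eq hc ok h
  · exact pos_ne hc ok h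

end main

end Dat

end Crest.Agent.R267.K2bN_118
end
end

-- ▼ part R267/K2cN_867
section

/-!
# K2 of T3aN, region II: the numbers at a point (signed lobes, deletion boxes)

`PtN` collects a point `z` of `ℂ^N`, the constants, the derivatives `ps j`, `pt j` of the planar
gauge at `z j` and the derivative `pd j` of `pvN` at the slope `ta j`; `HP`: their properties.
`w j` = derivative of `G` in the direction `i e_j`, `w0` = derivative in the direction `-(1,…,1)`.
-/

set_option autoImplicit false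
set_option linter.unusedSectionVars false
set_option linter.unusedVariables false

noncomputable section

open Finset

namespace Crest.Agent.R267.K2cN_867

open Crest.Agent.R267.LemL_951 Crest.Agent.R267.K2bN_118
open Crest.Agent.R267.T3aDefs_957 (st Af Bf pg NN chi)
open Crest.Agent.R267.Calc_957 (std st_of_le st_of_ge std_of_le std_of_ge std_nonneg std_le st_pos
  st_nonneg Afd Bfd)
open Crest.Agent.R267.T3aNDefs_88 Crest.Agent.R267.CurveN_867
open Crest.Agent.R267.K2c_867 (gq_ge abs_re_le_pg gq_ge_B abs_im_le_pg)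

/-- a point with all constants. -/
structure PtN (N : ℕ) where
  D : SD N
  cB : ℝ
  ga : ℝ
  d : ℝ
  z : Fin N → ℂ
  ps : Fin N → ℝ
  pt : Fin N → ℝ
  pd : Fin N → ℂ

namespace PtN

variable {N : ℕ} (P : PtN N)

/-- slope. -/
def ta (j : Fin N) : ℝ := (P.z j).im / (P.z j).re

def nu : ℝ := √(∑ j, (P.z j).re ^ 2)

def x (j : Fin N) : ℝ := pg P.D.K (P.z j) / P.nu

def X (j : Fin N) : ℝ := chi P.d (P.x j)

/-- derivative of the cut-off. -/
def cd (j : Fin N) : ℝ := std ((P.x j - P.d) / P.d) / P.d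

def S : ℝ := ∑ j, (P.z j).re / P.nu

/-- window index. -/
def Wp (j : Fin N) : Prop := 0 < (P.z j).re ∧ |(P.z j).im| ≤ P.D.K * (P.z j).re

def rho (j : Fin N) : ℝ := P.X j + P.x j * P.cd j - P.x j ^ 2 * P.cd j * P.S

/-- `χ s⁺`. -/
def Rr (j : Fin N) : ℝ := P.X j * max 0 (P.z j).re

def pj (j : Fin N) : ℂ := pvN P.ga (P.D.sn j) (P.D.M j) (P.ta j)

/-- support of a box. -/
def supp (e : Fin P.D.nb) : Finset (Fin N) := (P.D.bx e).S

def la (e : Fin P.D.nb) (j : Fin N) : ℝ := winN ((P.D.bx e).lo j) ((P.D.bx e).hi j) (P.ta j)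

def lad (e : Fin P.D.nb) (j : Fin N) : ℝ := wdN ((P.D.bx e).lo j) ((P.D.bx e).hi j) (P.ta j)

def hh (e : Fin P.D.nb) : ℝ := Hm (P.supp e) P.Rr

def hd (e : Fin P.D.nb) (j : Fin N) : ℝ := (P.hh e / P.Rr j) ^ 2

open Classical in
/-- derivative of the deletion term in the direction `i e_j`. -/
def tB (j : Fin N) : ℝ :=
  P.cB * P.ga * ∑ e : Fin P.D.nb, (if j ∈ P.supp e then
    P.hh e * (P.lad e j / (P.z j).re) * ∏ i ∈ (P.supp e).erase j, P.la e i else 0)

open Classical in
/-- `∂B/∂R_j`. -/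
def HB (j : Fin N) : ℝ :=
  P.cB * P.ga * ∑ e : Fin P.D.nb,
    (if j ∈ P.supp e then (∏ i ∈ P.supp e, P.la e i) * P.hd e j else 0)

open Classical in
/-- derivative of `G` in the direction `i e_j`. -/
def w (j : Fin N) : ℂ :=
  if P.Wp j then (P.X j : ℂ) * P.pd j - (P.tB j : ℂ)
  else -Complex.I * (P.X j : ℂ) +
    ((P.cd j * P.pt j / P.nu : ℝ) : ℂ) * plN P.ga (P.D.sn j) (P.D.M j) (P.z j)

open Classical in
/-- contribution of `j` to the derivative of `G` in the direction `-(1,…,1)`. -/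
def w0j (j : Fin N) : ℂ :=
  if P.Wp j then -((P.rho j : ℝ) : ℂ) * (P.pj j - (P.HB j : ℂ)) + (P.ta j : ℂ) * P.w j
  else (((2 - P.ga) * P.X j : ℝ) : ℂ) +
    (((P.cd j * P.x j * P.S - P.cd j * P.ps j) / P.nu : ℝ) : ℂ) *
      plN P.ga (P.D.sn j) (P.D.M j) (P.z j)

def w0 : ℂ := ∑ j, P.w0j j

/-- where the planar function is. -/
def Zone (j : Fin N) : Prop :=
  (∃ l < P.D.M j, |P.ta j - sgN l| < 3 ∧
    (P.pj j).re = -(1 - P.ga) + Af (P.ta j - sgN l) ∧
    (P.pj j).im = P.D.sn j l * Bf (P.ta j - sgN l) ∧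
    (P.pd j).re = Afd (P.ta j - sgN l) ∧ (P.pd j).im = P.D.sn j l * Bfd (P.ta j - sgN l)) ∨
  ((P.pj j).re = -(2 - P.ga) ∧ (P.pd j).re = 0 ∧ 1 ≤ |(P.pd j).im| ∧
    ∀ k ≤ P.D.M j, |P.ta j - 16 * k| < 1 → |(P.pj j).im| ≤ 16 * P.D.M j + 1) ∨
  ((P.pj j).re = -(2 - P.ga) ∧ (P.pd j).re = 0 ∧ |(P.pj j).im| ≤ 3)

/-- properties of the derivatives of the planar gauge and of the planar function. -/
structure HP : Prop where
  pt0 : ∀ j, 0 ≤ P.pt j * (P.z j).im
  eul : ∀ j, P.ps j * (P.z j).re + P.pt j * (P.z j).im = pg P.D.K (P.z j)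
  ptK : ∀ j, P.pt j ≠ 0 → P.D.K * |(P.z j).re| < |(P.z j).im|
  zone : ∀ j, P.Wp j → P.Zone j
  off : ∀ j, ¬ P.Wp j → plN P.ga (P.D.sn j) (P.D.M j) (P.z j) =
    -((2 - P.ga : ℝ) : ℂ) * (P.z j).re - Complex.I * (P.z j).im

/-- smallness. -/
structure Sm : Prop where
  hN : 3 ≤ N
  hd : 0 < P.d
  hdN : 2 * P.d * N ≤ 1 / 4
  hga : 0 < P.ga
  hga2 : P.ga ≤ 1 / 4
  hcg : 0 ≤ P.cB * P.ga

/-! ### elementary facts -/

section facts

variable {P}

theorem X_nonneg (j : Fin N) : 0 ≤ P.X j := st_nonneg _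

theorem X_le_one (j : Fin N) : P.X j ≤ 1 := Curve_867.st_le_one _

theorem Rr_nonneg (j : Fin N) : 0 ≤ P.Rr j :=
  mul_nonneg (st_nonneg _) (le_max_left _ _)

theorem Hm_nonneg {ι : Type} (S : Finset ι) (R : ι → ℝ) : 0 ≤ Hm S R := by
  unfold Hm
  split_ifs with h
  · exact div_nonneg zero_le_one (sum_nonneg fun j hj => div_nonneg zero_le_one (h j hj).le)
  · exact le_rfl

theorem Hm_le {ι : Type} {S : Finset ι} {R : ι → ℝ} (hR : ∀ j, 0 ≤ R j) {j : ι} (hj : j ∈ S) :
    Hm S R ≤ R j := by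
  unfold Hm
  split_ifs with h
  · have h0 := h j hj
    have h1 : 1 / R j ≤ ∑ j ∈ S, 1 / R j :=
      single_le_sum (f := fun j => 1 / R j) (fun i hi => div_nonneg zero_le_one (h i hi).le) hj
    have h2 : 0 < 1 / R j := by positivity
    calc 1 / ∑ j ∈ S, 1 / R j ≤ 1 / (1 / R j) := one_div_le_one_div_of_le h2 h1
      _ = R j := one_div_one_div _
  · exact hR j

/-- `∑ (H / R_j)² ≥ 1 / card S`. -/
theorem Hm_sum {ι : Type} {S : Finset ι} {R : ι → ℝ} (h : 0 < Hm S R) :
    1 / (S.card : ℝ) ≤ ∑ j ∈ S, (Hm S R / R j) ^ 2 := by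
  have h0 : ∀ j ∈ S, 0 < R j := by
    by_contra h1
    unfold Hm at h
    rw [if_neg h1] at h
    exact lt_irrefl _ h
  have e : Hm S R = 1 / ∑ j ∈ S, 1 / R j := by
    unfold Hm
    rw [if_pos h0]
  have hs : 0 < ∑ j ∈ S, 1 / R j := by
    rw [e] at h
    exact one_div_pos.1 h
  have hne : S.Nonempty := by
    by_contra h1
    rw [not_nonempty_iff_eq_empty] at h1
    rw [h1] at hs
    simp at hs
  have hcard : 0 < (S.card : ℝ) := by exact_mod_cast hne.card_pos
  have h1 : ∑ j ∈ S, Hm S R / R j = 1 := by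
    rw [e]
    have : ∀ j ∈ S, (1 / ∑ j ∈ S, 1 / R j) / R j = (1 / R j) / ∑ j ∈ S, 1 / R j := by
      intro j _
      ring
    rw [sum_congr rfl this, ← sum_div, div_self hs.ne']
  have h2 := sq_sum_le_card_mul_sum_sq (s := S) (f := fun j => Hm S R / R j)
  rw [h1] at h2
  rw [div_le_iff₀ hcard]
  linarith

theorem hh_nonneg (e : Fin P.D.nb) : 0 ≤ P.hh e := Hm_nonneg _ _

theorem hh_le (e : Fin P.D.nb) {j : Fin N} (hj : j ∈ P.supp e) : P.hh e ≤ P.Rr j :=
  Hm_le Rr_nonneg hj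

theorem M_le_Mx (D : SD N) (j : Fin N) : (D.M j : ℝ) ≤ D.Mx := by
  have : D.M j ≤ ∑ i, D.M i := Finset.single_le_sum (fun i _ => Nat.zero_le _) (Finset.mem_univ j)
  exact_mod_cast this

theorem K_ge (D : SD N) (hN : 1 ≤ N) : 16 * (D.Mx : ℝ) + 2 ≤ D.K := by
  unfold SD.K SD.K1
  have h1 : (1 : ℝ) ≤ N := by exact_mod_cast hN
  have h2 : (0 : ℝ) ≤ D.Mx := Nat.cast_nonneg _
  have h3 : (1 : ℝ) ≤ (N : ℝ) * N := by nlinarith
  nlinarith

end facts

/-! ### small cut-off constants -/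

section small

variable {P} (hs : P.Sm) (hnu : 0 < P.nu)

include hs in
theorem K_ge10 : 10 ≤ P.D.K := by
  have hN := hs.hN
  have h1 := K_ge P.D (by omega)
  have h2 : (1 : ℝ) ≤ P.D.Mx := by
    have h3 := M_le_Mx P.D ⟨0, by omega⟩
    have h4 : (1 : ℝ) ≤ P.D.M ⟨0, by omega⟩ := by exact_mod_cast P.D.hM _
    linarith
  linarith

include hnu in
theorem abs_s_le (j : Fin N) : |(P.z j).re| ≤ P.nu := by
  unfold nu
  rw [← Real.sqrt_sq_eq_abs]
  exact Real.sqrt_le_sqrt (Finset.single_le_sum (f := fun j => (P.z j).re ^ 2)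
    (fun i _ => sq_nonneg _) (Finset.mem_univ j))

include hnu in
theorem abs_S_le : |P.S| ≤ N := by
  unfold S
  refine (Finset.abs_sum_le_sum_abs _ _).trans ?_
  refine (Finset.sum_le_sum (g := fun _ => (1 : ℝ)) fun j _ => ?_).trans (by simp)
  rw [abs_div, abs_of_pos hnu, div_le_one hnu]
  exact abs_s_le hnu j

include hnu in
theorem x_nonneg (j : Fin N) : 0 ≤ P.x j := div_nonneg (Real.sqrt_nonneg _) hnu.le

include hnu in
theorem s_div_le (j : Fin N) : |(P.z j).re / P.nu| ≤ P.x j := by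
  rw [abs_div, abs_of_pos hnu]
  unfold x
  gcongr
  exact abs_re_le_pg _ _

include hs in
theorem cd_nonneg (j : Fin N) : 0 ≤ P.cd j := div_nonneg (std_nonneg _) hs.hd.le

include hs in
theorem lt_of_cd (j : Fin N) (h : P.cd j ≠ 0) : P.x j < 2 * P.d := by
  by_contra h1
  rw [not_lt] at h1
  have hd := hs.hd
  refine h ?_
  unfold cd
  rw [std_of_ge ((one_le_div hd).2 (by linarith)), zero_div]

include hs hnu in
theorem xcd_le (j : Fin N) : P.x j * P.cd j ≤ 15 / 4 := by
  have hd := hs.hd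
  by_cases h : P.cd j = 0
  · rw [h, mul_zero]; norm_num
  · have h1 := lt_of_cd hs j h
    have h2 := std_le ((P.x j - P.d) / P.d)
    have h3 := std_nonneg ((P.x j - P.d) / P.d)
    have h0 := x_nonneg hnu j
    unfold cd
    rw [← mul_div_assoc, div_le_iff₀ hd]
    calc P.x j * std ((P.x j - P.d) / P.d) ≤ (2 * P.d) * (15 / 8) :=
          mul_le_mul h1.le h2 h3 (by linarith)
      _ = 15 / 4 * P.d := by ring

include hs hnu in
theorem xS_le (j : Fin N) (h : P.cd j ≠ 0) : P.x j * |P.S| ≤ 1 / 4 := by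
  have h1 := lt_of_cd hs j h
  have h2 := abs_S_le hnu
  have h0 := x_nonneg hnu j
  have hd := hs.hd
  calc P.x j * |P.S| ≤ (2 * P.d) * N := mul_le_mul h1.le h2 (abs_nonneg _) (by linarith)
    _ ≤ _ := hs.hdN

theorem rho_eq (j : Fin N) : P.rho j = P.X j + P.x j * P.cd j * (1 - P.x j * P.S) := by
  unfold rho; ring

include hs hnu in
theorem X_le_rho (j : Fin N) : P.X j ≤ P.rho j := by
  rw [rho_eq]
  by_cases h : P.cd j = 0
  · rw [h]; simp
  · have h1 := xS_le hs hnu j h
    have h2 : P.x j * P.S ≤ P.x j * |P.S| :=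
      mul_le_mul_of_nonneg_left (le_abs_self _) (x_nonneg hnu j)
    have h3 := mul_nonneg (mul_nonneg (x_nonneg hnu j) (cd_nonneg hs j))
      (by linarith : 0 ≤ 1 - P.x j * P.S)
    linarith

include hs hnu in
theorem rho_le (j : Fin N) : P.rho j ≤ 6 := by
  rw [rho_eq]
  have h5 := X_le_one (P := P) j
  by_cases h : P.cd j = 0
  · rw [h]; simp; linarith
  · have h1 := xS_le hs hnu j h
    have h2 : -(P.x j * |P.S|) ≤ P.x j * P.S := by
      rw [← mul_neg]
      exact mul_le_mul_of_nonneg_left (neg_abs_le _) (x_nonneg hnu j)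
    have h3 := xcd_le hs hnu j
    have h4 : P.x j * P.cd j * (1 - P.x j * P.S) ≤ 15 / 4 * (5 / 4) :=
      mul_le_mul h3 (by linarith) (by
        have : P.x j * P.S ≤ P.x j * |P.S| :=
          mul_le_mul_of_nonneg_left (le_abs_self _) (x_nonneg hnu j)
        linarith) (by norm_num)
    linarith

include hs in
theorem cd_of_X {j : Fin N} (h : P.X j = 0) : P.cd j = 0 := by
  have hd := hs.hd
  unfold X chi at h
  unfold cd
  have h1 : (P.x j - P.d) / P.d ≤ 0 := by
    by_contra h2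
    rw [not_le] at h2
    exact (st_pos h2).ne' h
  rw [std_of_le h1, zero_div]

include hs in
theorem rho_of_X {j : Fin N} (h : P.X j = 0) : P.rho j = 0 := by
  rw [rho_eq, h, cd_of_X hs h]
  ring

include hs in
theorem X_of_fl {j : Fin N} (h : 2 * P.d ≤ P.x j) : P.X j = 1 := by
  have hd := hs.hd
  unfold X chi
  exact st_of_ge ((one_le_div hd).2 (by linarith))

include hs in
theorem cd_of_fl {j : Fin N} (h : 2 * P.d ≤ P.x j) : P.cd j = 0 := by
  by_contra h1
  exact absurd (lt_of_cd hs j h1) (not_lt.2 h)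

end small

/-! ### indices off the windows -/

section off

variable {P} (hs : P.Sm) {u : ℂ} (hnu : 0 < P.nu)
  (hP : P.HP) (hu0 : 0 < u.re) {j : Fin N} (hj : ¬ P.Wp j) (hw : rf u (P.w j) = 0)

include hP hj hw in
/-- the equation `rf u (w j) = 0`. -/
theorem off_eq : (P.X j + P.cd j * P.pt j / P.nu * (P.z j).im) * u.im =
    -(P.cd j * P.pt j / P.nu * ((2 - P.ga) * (P.z j).re * u.re)) := by
  have h1 := hw
  unfold w at h1
  rw [if_neg hj, hP.off j hj] at h1
  simp only [rf, Complex.add_re, Complex.add_im, Complex.mul_re, Complex.mul_im, Complex.neg_re,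
    Complex.neg_im, Complex.I_re, Complex.I_im, Complex.ofReal_re, Complex.ofReal_im,
    Complex.sub_re, Complex.sub_im] at h1
  linear_combination -h1

include hs hnu hP in
theorem at_nonneg (j : Fin N) : 0 ≤ P.cd j * P.pt j / P.nu * (P.z j).im := by
  have h1 := hP.pt0 j
  have h2 := cd_nonneg hs j
  calc (0 : ℝ) ≤ P.cd j * (P.pt j * (P.z j).im) / P.nu :=
        div_nonneg (mul_nonneg h2 h1) hnu.le
    _ = _ := by ring

include hP hj in
theorem off_tm : rf u (P.w0j j) = (2 - P.ga) * P.X j * u.re +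
    (P.cd j * P.x j * P.S - P.cd j * P.ps j) / P.nu *
      (-((2 - P.ga) * (P.z j).re * u.re) - (P.z j).im * u.im) := by
  unfold w0j
  rw [if_neg hj, hP.off j hj]
  simp only [rf, Complex.add_re, Complex.add_im, Complex.mul_re, Complex.mul_im, Complex.neg_re,
    Complex.neg_im, Complex.I_re, Complex.I_im, Complex.ofReal_re, Complex.ofReal_im,
    Complex.sub_re, Complex.sub_im]
  ring

include hs hnu hP hu0 hj hw in
theorem off_nonneg : 0 ≤ rf u (P.w0j j) := by
  rw [off_tm hP hj]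
  have h1 := off_eq hP hj hw
  have h2 := at_nonneg hs hnu hP j
  have h3 := X_nonneg (P := P) j
  have hga : P.ga ≤ 1 / 4 := hs.hga2
  rcases eq_or_lt_of_le (add_nonneg h3 h2) with h4 | h4
  · have h5 : P.X j = 0 := by linarith
    rw [h5, cd_of_X hs h5]
    simp
  · set a : ℝ := P.cd j * P.pt j / P.nu with ha
    set l : ℝ := 2 - P.ga with hl
    have hl0 : 0 < l := by rw [hl]; linarith
    -- the product with `X + a t`
    have h5 : (l * P.X j * u.re + (P.cd j * P.x j * P.S - P.cd j * P.ps j) / P.nu *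
        (-(l * (P.z j).re * u.re) - (P.z j).im * u.im)) * (P.X j + a * (P.z j).im) =
        u.re * l * P.X j * (P.X j + P.cd j * P.x j - P.cd j * P.x j * (P.S * ((P.z j).re / P.nu))) := by
      have e1 : a * (P.z j).im + P.cd j * P.ps j / P.nu * (P.z j).re = P.cd j * P.x j := by
        rw [ha]
        unfold x
        rw [← hP.eul j]
        ring
      have e2 : (-(l * (P.z j).re * u.re) - (P.z j).im * u.im) * (P.X j + a * (P.z j).im) =
          -(l * (P.z j).re * u.re * P.X j) := by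
        linear_combination (-(P.z j).im) * h1
      calc (l * P.X j * u.re + (P.cd j * P.x j * P.S - P.cd j * P.ps j) / P.nu *
            (-(l * (P.z j).re * u.re) - (P.z j).im * u.im)) * (P.X j + a * (P.z j).im)
          = l * P.X j * u.re * (P.X j + a * (P.z j).im) +
            (P.cd j * P.x j * P.S - P.cd j * P.ps j) / P.nu *
            ((-(l * (P.z j).re * u.re) - (P.z j).im * u.im) * (P.X j + a * (P.z j).im)) := by ring
        _ = l * P.X j * u.re * (P.X j + (a * (P.z j).im + P.cd j * P.ps j / P.nu * (P.z j).re) -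
            P.cd j * P.x j * (P.S * ((P.z j).re / P.nu))) := by rw [e2]; ring
        _ = _ := by rw [e1]; ring
    have h6 : 0 ≤ P.X j + P.cd j * P.x j - P.cd j * P.x j * (P.S * ((P.z j).re / P.nu)) := by
      by_cases h7 : P.cd j = 0
      · rw [h7]; simp [h3]
      · have h8 := xS_le hs hnu j h7
        have h9 : P.S * ((P.z j).re / P.nu) ≤ 1 / 4 := by
          calc P.S * ((P.z j).re / P.nu) ≤ |P.S * ((P.z j).re / P.nu)| := le_abs_self _
            _ = |(P.z j).re / P.nu| * |P.S| := by rw [abs_mul, mul_comm]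
            _ ≤ P.x j * |P.S| := mul_le_mul_of_nonneg_right (s_div_le hnu j) (abs_nonneg _)
            _ ≤ 1 / 4 := h8
        have h10 := mul_nonneg (mul_nonneg (cd_nonneg hs j) (x_nonneg hnu j))
          (by linarith : 0 ≤ 1 - P.S * ((P.z j).re / P.nu))
        linarith
    have h7 : 0 ≤ u.re * l * P.X j *
        (P.X j + P.cd j * P.x j - P.cd j * P.x j * (P.S * ((P.z j).re / P.nu))) :=
      mul_nonneg (mul_nonneg (mul_nonneg hu0.le hl0.le) h3) h6
    rw [← h5] at h7
    by_contra h8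
    rw [not_le] at h8
    have := mul_neg_of_neg_of_pos h8 h4
    linarith

include hs hP hj hw in
theorem off_full (hf : 2 * P.d ≤ P.x j) (hu0 : 0 < u.re) :
    u.im = 0 ∧ u.re ≤ rf u (P.w0j j) := by
  have h1 := off_eq hP hj hw
  have h2 := off_tm (u := u) hP hj
  rw [X_of_fl hs hf, cd_of_fl hs hf] at h1 h2
  have hga : P.ga ≤ 1 / 4 := hs.hga2
  constructor
  · linear_combination h1
  · rw [h2]
    have : 0 ≤ (1 - P.ga) * u.re := mul_nonneg (by linarith) hu0.le
    have e : (0 * P.x j * P.S - 0 * P.ps j) / P.nu = 0 := by simp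
    rw [e, zero_mul]
    linarith

include hs hnu hP hu0 hj hw in
theorem off_K (hX : 0 < P.X j) : P.D.K * |u.im| ≤ 2 * u.re := by
  have h1 := off_eq hP hj hw
  have h2 := at_nonneg hs hnu hP j
  have hga : P.ga ≤ 1 / 4 := hs.hga2
  have hga0 : 0 < P.ga := hs.hga
  set a : ℝ := P.cd j * P.pt j / P.nu with ha
  by_cases h0 : a = 0
  · rw [h0] at h1
    have h3 : u.im = 0 := by
      have : P.X j * u.im = 0 := by linarith
      exact (mul_eq_zero.1 this).resolve_left hX.ne'
    rw [h3, abs_zero, mul_zero]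
    linarith
  · have h3 : P.pt j ≠ 0 := by
      intro h; apply h0; rw [ha, h]; ring
    have h4 := hP.ptK j h3
    have h5 : |a| * |(P.z j).im| * |u.im| ≤ |a| * ((2 - P.ga) * |(P.z j).re| * u.re) := by
      have e1 : |a| * |(P.z j).im| = a * (P.z j).im := by rw [← abs_mul, abs_of_nonneg h2]
      have e2 : |P.X j + a * (P.z j).im| * |u.im| =
          |a| * ((2 - P.ga) * |(P.z j).re| * u.re) := by
        rw [← abs_mul, h1, abs_neg, abs_mul, abs_mul, abs_mul, abs_of_pos hu0,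
          abs_of_pos (by linarith : 0 < 2 - P.ga)]
      rw [e1, ← e2]
      refine mul_le_mul_of_nonneg_right ?_ (abs_nonneg _)
      rw [abs_of_nonneg (by linarith)]
      linarith
    have h6 : |(P.z j).im| * |u.im| ≤ (2 - P.ga) * |(P.z j).re| * u.re := by
      rw [mul_assoc] at h5
      exact le_of_mul_le_mul_left h5 (abs_pos.2 h0)
    have h7 : P.D.K * |(P.z j).re| * |u.im| ≤ (2 - P.ga) * |(P.z j).re| * u.re :=
      (mul_le_mul_of_nonneg_right h4.le (abs_nonneg _)).trans h6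
    rcases eq_or_lt_of_le (abs_nonneg (P.z j).re) with h8 | h8
    · rw [← h8, mul_zero] at h4
      rw [← h8] at h6
      have h9 : |u.im| = 0 := by
        have : |(P.z j).im| * |u.im| ≤ 0 := by linarith
        have h10 := abs_nonneg u.im
        nlinarith
      rw [h9, mul_zero]
      linarith
    · have h9 : |(P.z j).re| * (P.D.K * |u.im|) ≤ |(P.z j).re| * ((2 - P.ga) * u.re) := by
        linarith
      have h10 := le_of_mul_le_mul_left h9 h8
      have h11 : 0 ≤ P.ga * u.re := mul_nonneg hga0.le hu0.le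
      linarith

include hs hnu in
theorem off_t (hf : ¬ 2 * P.d ≤ P.x j) : |(P.z j).im| ≤ 28 * P.D.K * P.d * P.nu := by
  have hK := K_ge10 hs
  have h1 := abs_im_le_pg (K := P.D.K) (by linarith) (P.z j)
  rw [not_le] at hf
  unfold x at hf
  rw [div_lt_iff₀ hnu] at hf
  have h2 : 14 * P.D.K * pg P.D.K (P.z j) ≤ 14 * P.D.K * (2 * P.d * P.nu) :=
    mul_le_mul_of_nonneg_left hf.le (by linarith)
  linarith

end off

/-! ### window indices -/

section on

variable {P} (hs : P.Sm) {u : ℂ} (hnu : 0 < P.nu)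
  (hP : P.HP) (hu0 : 0 < u.re) {j : Fin N} (hj : P.Wp j) (hw : rf u (P.w j) = 0)

include hj in
theorem Rr_on : P.Rr j = P.X j * (P.z j).re := by
  unfold Rr
  rw [max_eq_right hj.1.le]

theorem la_nonneg (e : Fin P.D.nb) (j : Fin N) : 0 ≤ P.la e j := winN_nonneg _ _ _

theorem la_le_one (e : Fin P.D.nb) (j : Fin N) : P.la e j ≤ 1 := winN_le_one _ _ _

include hs hj in
/-- the derivative of the deletion term is small. -/
theorem abs_tB_le : |P.tB j| ≤ P.cB * P.ga * P.D.nb * P.X j := by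
  classical
  have h0 := hs.hcg
  unfold tB
  have e0 : P.cB * P.ga * P.D.nb * P.X j = P.cB * P.ga * (P.D.nb * P.X j) := by ring
  rw [abs_mul, abs_of_nonneg h0, e0]
  refine mul_le_mul_of_nonneg_left ?_ h0
  refine (Finset.abs_sum_le_sum_abs _ _).trans ?_
  refine (Finset.sum_le_sum (g := fun _ => P.X j) fun e _ => ?_).trans (by
    rw [Finset.sum_const, Finset.card_univ, nsmul_eq_mul, Fintype.card_fin])
  have hX := X_nonneg (P := P) j
  have hs := hj.1
  split_ifs with h1
  · have ha := hh_nonneg (P := P) e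
    have h2 : P.hh e ≤ P.X j * (P.z j).re := by rw [← Rr_on hj]; exact hh_le e h1
    have h3 : |P.lad e j| ≤ 1 := abs_wdN_le _ _ _
    have h4 : P.hh e * (|P.lad e j| / (P.z j).re) ≤ P.X j := by
      rw [mul_div_assoc', div_le_iff₀ hs]
      calc P.hh e * |P.lad e j| ≤ P.hh e * 1 := mul_le_mul_of_nonneg_left h3 ha
        _ ≤ _ := by linarith
    have h5 : 0 ≤ ∏ i ∈ (P.supp e).erase j, P.la e i := prod_nonneg fun i _ => la_nonneg e i
    have h6 : ∏ i ∈ (P.supp e).erase j, P.la e i ≤ 1 :=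
      prod_le_one (fun i _ => la_nonneg e i) fun i _ => la_le_one e i
    rw [abs_mul, abs_mul, abs_div, abs_of_nonneg ha, abs_of_pos hs, abs_of_nonneg h5]
    calc P.hh e * (|P.lad e j| / (P.z j).re) * ∏ i ∈ (P.supp e).erase j, P.la e i
        ≤ P.X j * 1 := mul_le_mul h4 h6 h5 hX
      _ = P.X j := mul_one _
  · rw [abs_zero]; exact hX

/-- a moving window. -/
theorem exists_wd (h : P.tB j ≠ 0) :
    ∃ m m', m' ≤ P.D.M j ∧ wdN m m' (P.ta j) ≠ 0 := by
  classical
  by_contra h0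
  push Not at h0
  refine h ?_
  unfold tB
  rw [Finset.sum_eq_zero, mul_zero]
  intro e _
  split_ifs with h1
  · have : P.lad e j = 0 := h0 _ _ (P.D.hhi e j h1)
    rw [this]
    ring
  · rfl

include hj hw in
theorem on_eq : P.X j * rf u (P.pd j) = u.re * P.tB j := by
  have h1 := hw
  unfold w at h1
  rw [if_pos hj, rf_sub, rf_real_mul, rf_ofReal] at h1
  linarith

end on

/-! ### the inequality -/

open Classical in
/-- the numbers. -/
def dat (u : ℂ) (eu : ℝ) : Dat (Fin N) (Fin P.D.nb) where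
  ga := P.ga
  K := P.D.K
  cB := P.cB
  cT := P.cB * P.ga * P.D.nb
  KM := 16 * P.D.Mx + 1
  cO := 28 * P.D.K
  d := P.d
  ν := P.nu
  s := fun j => (P.z j).re
  t := fun j => (P.z j).im
  X := P.X
  rho := P.rho
  A := fun j => (P.pj j).re + (1 - P.ga)
  Bv := fun j => (P.pj j).im
  tB := P.tB
  kp := fun j => -(P.pd j).im
  tm := fun j => if P.Wp j then P.rho j * (u.re * P.HB j - rf u (P.pj j)) else rf u (P.w0j j)
  Wp := P.Wp
  fl := fun j => 2 * P.d ≤ P.x j
  sp := P.supp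
  la := P.la
  hh := P.hh
  hd := P.hd
  u := u
  eu := eu

section final

variable {P} (hs : P.Sm) {u : ℂ} {eu : ℝ} (hnu : 0 < P.nu) (hP : P.HP) (hu0 : 0 < u.re)

include hs hP hu0 in
theorem on_cases {j : Fin N} (hj : P.Wp j) (hw : rf u (P.w j) = 0)
    (hX : 0 < P.X j) (heu : eu = 1 ∨ eu = -1) (heu2 : u.im = eu * |u.im|) :
    (P.dat u eu).TT j ∨ (P.dat u eu).UU j ∨ (P.dat u eu).NN j := by
  have h1 := on_eq hj hw
  rcases hP.zone j hj with ⟨l, hl, h2, p1, p2, p3, p4⟩ | ⟨h2, h3, h4, h5⟩ | ⟨h2, h3, h4⟩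
  · right; right
    have hA : (P.dat u eu).A j = Af (P.ta j - sgN l) := by
      simp only [dat]
      rw [p1]
      ring
    have hB : (P.dat u eu).Bv j = P.D.sn j l * Bf (P.ta j - sgN l) := by
      simp only [dat]
      rw [p2]
    have hc : |P.ta j - sgN l| ≤ 7 := by linarith
    have htB : P.tB j = 0 := by
      by_contra h3
      obtain ⟨m, m', -, hm⟩ := exists_wd h3
      exact hm (winN_const_of_cell hc).2
    rw [htB, mul_zero] at h1
    have h3 := (mul_eq_zero.1 h1).resolve_left hX.ne'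
    simp only [rf] at h3
    rw [p3, p4] at h3
    refine ⟨fun e he => (winN_const_of_cell hc).1, ?_⟩
    rw [hA]
    unfold Dat.RA Dat.LA
    rw [hA, hB]
    have hsn : P.D.sn j l = 1 ∨ P.D.sn j l = -1 := by
      unfold SD.sn
      split_ifs
      · exact Or.inr rfl
      · exact Or.inl rfl
    rcases curveN hu0 hsn h2 h3 with ⟨h4, h5⟩ | ⟨h4, h5⟩
    · exact Or.inl ⟨h4, h5⟩
    · exact Or.inr ⟨h4, h5 eu heu heu2⟩
  · left
    have h6 : (P.dat u eu).A j = -1 := by
      simp only [dat]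
      rw [h2]
      ring
    refine ⟨h6, ?_, ?_, ?_, ?_⟩
    · simp only [dat, abs_neg]
      exact h4
    · simp only [rf] at h1
      rw [h3] at h1
      simp only [dat]
      linear_combination -h1
    · exact abs_tB_le hs hj
    · intro h7
      simp only [dat] at h7 ⊢
      obtain ⟨m, m', hm', hm⟩ := exists_wd h7
      obtain ⟨k, hk, hk2⟩ := wdN_ne hm
      refine (h5 k (hk.trans hm') hk2).trans ?_
      have := M_le_Mx P.D j
      linarith
  · right; left
    refine ⟨?_, h4⟩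
    simp only [dat]
    rw [h2]
    ring

open Classical in
/-- **`rf u w0 > 0`** at a zero of `G`. -/
theorem rf_pos (hs : P.Sm) (hP : P.HP) (hnu : 0 < P.nu)
    (hc : ∀ (u : ℂ) (eu : ℝ), (P.dat u eu).Con (Fintype.card (Fin N)) (Fintype.card (Fin P.D.nb)))
    (hG : ∑ j, (P.X j : ℂ) * plN P.ga (P.D.sn j) (P.D.M j) (P.z j) =
      ((∑ e : Fin P.D.nb, P.cB * P.ga * (P.hh e * ∏ j ∈ P.supp e, P.la e j) : ℝ) : ℂ))
    (hpl : ∀ j, P.Wp j → plN P.ga (P.D.sn j) (P.D.M j) (P.z j) = ((P.z j).re : ℂ) * P.pj j)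
    {u : ℂ} (hu : u.re ^ 2 + u.im ^ 2 = 1) (hu0 : 0 < u.re)
    (hw : ∀ j, rf u (P.w j) = 0) : 0 < rf u P.w0 := by
  have hN := hs.hN
  obtain ⟨eu, heu, heu2⟩ : ∃ eu : ℝ, (eu = 1 ∨ eu = -1) ∧ u.im = eu * |u.im| := by
    rcases le_total 0 u.im with h | h
    · exact ⟨1, Or.inl rfl, by rw [abs_of_nonneg h, one_mul]⟩
    · exact ⟨-1, Or.inr rfl, by rw [abs_of_nonpos h]; ring⟩
  have hc' := hc u eu
  have hK : 16 * (P.D.Mx : ℝ) + 2 ≤ P.D.K := K_ge P.D (by omega)
  have hreal : ∀ j, P.X j * (plN P.ga (P.D.sn j) (P.D.M j) (P.z j)).re =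
      if P.Wp j then P.X j * (P.z j).re * (-(1 - P.ga) + ((P.pj j).re + (1 - P.ga)))
      else -(P.X j * ((2 - P.ga) * (P.z j).re)) := by
    intro j
    by_cases h : P.Wp j
    · rw [if_pos h, hpl j h]
      simp only [Complex.mul_re, Complex.ofReal_re, Complex.ofReal_im, zero_mul, sub_zero]
      ring
    · rw [if_neg h, hP.off j h]
      simp only [Complex.sub_re, Complex.mul_re, Complex.neg_re, Complex.neg_im,
        Complex.ofReal_re, Complex.ofReal_im, Complex.I_re, Complex.I_im]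
      ring
  have himag : ∀ j, P.X j * (plN P.ga (P.D.sn j) (P.D.M j) (P.z j)).im =
      if P.Wp j then P.X j * (P.z j).re * (P.pj j).im else -(P.X j * (P.z j).im) := by
    intro j
    by_cases h : P.Wp j
    · rw [if_pos h, hpl j h]
      simp only [Complex.mul_im, Complex.ofReal_re, Complex.ofReal_im, zero_mul, add_zero]
      ring
    · rw [if_neg h, hP.off j h]
      simp only [Complex.sub_im, Complex.mul_im, Complex.neg_re, Complex.neg_im,
        Complex.ofReal_re, Complex.ofReal_im, Complex.I_re, Complex.I_im]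
      ring
  have ok : (P.dat u eu).Ok :=
    { hu := hu
      hu0 := hu0
      heu := heu
      heu2 := heu2
      hν := hnu
      big := by
        simp only [dat]
        unfold nu
        rw [Real.sq_sqrt (Finset.sum_nonneg fun j _ => sq_nonneg _)]
      X0 := X_nonneg
      X1 := X_le_one
      fl1 := fun j hj => X_of_fl hs hj
      fl0 := fun j hj => by
        have hj' : P.x j < 2 * P.d := not_le.1 hj
        have h1 := s_div_le hnu j
        rw [abs_div, abs_of_pos hnu, div_le_iff₀ hnu] at h1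
        refine h1.trans ?_
        simp only [dat]
        exact mul_le_mul_of_nonneg_right hj'.le hnu.le
      Ws := fun j hj => hj.1
      rX := fun j _ => X_le_rho hs hnu j
      r6 := fun j _ => rho_le hs hnu j
      r0 := fun j _ h => rho_of_X hs h
      Wt := fun j hj => by
        have hj' : P.Wp j := hj
        simp only [dat, Dat.HB, Dat.p, Dat.wn]
        rw [if_pos hj']
        have e1 : (⟨-(1 - P.ga) + ((P.pj j).re + (1 - P.ga)), (P.pj j).im⟩ : ℂ) = P.pj j := by
          apply Complex.ext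
          · simp
            ring
          · simp
        rw [e1]
        congr 3 <;> (unfold HB; congr 1; exact Finset.sum_congr rfl fun e _ => by congr)
      Wc := fun j hj hX => on_cases hs hP hu0 hj (hw j) hX heu heu2
      Vt := fun j hj => by
        have hj' : ¬ P.Wp j := hj
        simp only [dat]
        rw [if_neg hj']
        exact off_nonneg hs hnu hP hu0 hj' (hw j)
      Vf := fun j hj hf => by
        have hj' : ¬ P.Wp j := hj
        simp only [dat]
        rw [if_neg hj']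
        exact off_full hs hP hj' (hw j) hf hu0
      VK := fun j hj hX => off_K hs hnu hP hu0 hj (hw j) hX
      VO := fun j _ hf => off_t hs hnu hf
      la0 := fun e j => la_nonneg e j
      la1 := fun e j => la_le_one e j
      hh0 := hh_nonneg
      hd0 := fun e j => sq_nonneg _
      h12 := fun e he => by
        have he' : 0 < Hm (P.supp e) P.Rr := he
        have h3 := Hm_sum he'
        have h4 : 0 < ((P.supp e).card : ℝ) := by
          have : 0 < (P.supp e).card := by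
            have := P.D.h2 e
            unfold supp
            omega
          exact_mod_cast this
        have h5 : ((P.supp e).card : ℝ) ≤ Fintype.card (Fin N) := by
          exact_mod_cast Finset.card_le_univ _
        rw [div_le_iff₀ h4] at h3
        have h6 : 0 ≤ ∑ j ∈ P.supp e, (Hm (P.supp e) P.Rr / P.Rr j) ^ 2 :=
          sum_nonneg fun j _ => sq_nonneg _
        calc (1 : ℝ) ≤ (∑ j ∈ P.supp e, (Hm (P.supp e) P.Rr / P.Rr j) ^ 2) * (P.supp e).card := h3
          _ ≤ (∑ j ∈ P.supp e, (Hm (P.supp e) P.Rr / P.Rr j) ^ 2) * Fintype.card (Fin N) :=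
            mul_le_mul_of_nonneg_left h5 h6
          _ = _ := mul_comm _ _
      hs := fun e he j hj => by
        have he' : P.hh e * ∏ j ∈ P.supp e, P.la e j ≠ 0 := he
        have h3 : P.hh e ≠ 0 := left_ne_zero_of_mul he'
        have h4 : ∏ j ∈ P.supp e, P.la e j ≠ 0 := right_ne_zero_of_mul he'
        have h6 : 0 < P.hh e := lt_of_le_of_ne (hh_nonneg e) (Ne.symm h3)
        have h5 : P.la e j ≠ 0 := prod_ne_zero_iff.1 h4 j hj
        have h7 : 0 < P.Rr j := h6.trans_le (hh_le e hj)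
        have h9 : 0 < (P.z j).re := by
          by_contra h10
          unfold Rr at h7
          rw [max_eq_left (not_lt.1 h10), mul_zero] at h7
          exact lt_irrefl _ h7
        have w1 : P.Wp j := by
          refine ⟨h9, ?_⟩
          have h12 : ((P.D.bx e).hi j : ℝ) ≤ P.D.M j := by exact_mod_cast P.D.hhi e j hj
          have h10 : |P.ta j| < 16 * (P.D.bx e).hi j + 1 := by
            by_contra h11
            exact h5 (winN_far (not_lt.1 h11))
          unfold ta at h10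
          rw [abs_div, abs_of_pos h9, div_lt_iff₀ h9] at h10
          have h11 := M_le_Mx P.D j
          nlinarith
        exact ⟨(hh_le e hj).trans (Rr_on w1).le, w1⟩
      Zr := by
        have h1 := congrArg Complex.re hG
        simp only [Complex.re_sum, Complex.re_ofReal_mul, Complex.ofReal_re] at h1
        rw [Finset.sum_congr rfl fun j _ => hreal j] at h1
        simp only [dat, Dat.B, Dat.wn]
        rw [← h1] <;> exact Finset.sum_congr rfl fun j _ => by congr
      Zi := by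
        have h1 := congrArg Complex.im hG
        simp only [Complex.im_sum, Complex.im_ofReal_mul, Complex.ofReal_im] at h1
        rw [Finset.sum_congr rfl fun j _ => himag j] at h1
        simp only [dat]
        rw [← h1] <;> exact Finset.sum_congr rfl fun j _ => by congr }
  have h1 := Dat.pos hc' ok
  have h2 : rf u P.w0 = ∑ j, (P.dat u eu).tm j := by
    unfold w0
    rw [rf_sum]
    refine Finset.sum_congr rfl fun j _ => ?_
    simp only [dat]
    split_ifs with h
    · unfold w0j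
      rw [if_pos h]
      have h3 := hw j
      rw [rf_add, rf_real_mul, h3, mul_zero, add_zero, ← Complex.ofReal_neg, rf_real_mul, rf_sub,
        rf_ofReal]
      ring
    · rfl
  rw [h2]
  exact h1

end final

/-! ### constants -/

/-- the condition on `cB`, `ga`, `d`. -/
def Cst (D : SD N) (c g d : ℝ) : Prop :=
  12 * (N : ℝ) ^ 2 + 1 ≤ c ∧ 0 < g ∧
    g * (48 * N + 144 * N * (c * D.nb) + 8 * (16 * D.Mx + 1) * (c * D.nb) + 4) ≤ 1 ∧ 0 < d ∧
    d * ((N : ℝ) ^ 2 * (6 + 2 * (16 * D.Mx + 1) + 28 * D.K) + 8 * N ^ 2 / g +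
      4 * N * ((D.nb : ℝ) + 1) * c + 1) ≤ 1

theorem ev_cst (D : SD N) : T3aDefs_957.LD.Ev (Cst D) := by
  refine ⟨12 * N ^ 2 + 1, by positivity, fun c hc => ?_⟩
  have hc0 : 0 < c := lt_of_lt_of_le (by positivity) hc
  have h1 : 0 < 48 * (N : ℝ) + 144 * N * (c * D.nb) + 8 * (16 * D.Mx + 1) * (c * D.nb) + 4 := by
    positivity
  refine ⟨1 / (48 * (N : ℝ) + 144 * N * (c * D.nb) + 8 * (16 * D.Mx + 1) * (c * D.nb) + 4),
    by positivity, fun g hg hg1 => ?_⟩
  have hK0 : 0 ≤ D.K := by unfold SD.K SD.K1; positivity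
  have h2 : 0 < (N : ℝ) ^ 2 * (6 + 2 * (16 * D.Mx + 1) + 28 * D.K) + 8 * N ^ 2 / g +
    4 * N * ((D.nb : ℝ) + 1) * c + 1 := by positivity
  refine ⟨1 / ((N : ℝ) ^ 2 * (6 + 2 * (16 * D.Mx + 1) + 28 * D.K) + 8 * N ^ 2 / g +
    4 * N * ((D.nb : ℝ) + 1) * c + 1), by positivity, fun d hd hd1 => ?_⟩
  refine ⟨hc, hg, ?_, hd, ?_⟩
  · rwa [le_div_iff₀ h1] at hg1
  · rwa [le_div_iff₀ h2] at hd1

theorem K_big (D : SD N) (hN : 3 ≤ N) : 72 * (N : ℝ) ≤ D.K := by
  have hN' : (3 : ℝ) ≤ N := by exact_mod_cast hN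
  have hMx : (N : ℝ) ≤ D.Mx := by
    have : ∑ j : Fin N, 1 ≤ ∑ j, D.M j := sum_le_sum fun j _ => D.hM j
    simp only [sum_const, card_univ, Fintype.card_fin, smul_eq_mul, mul_one] at this
    exact_mod_cast this
  unfold SD.K SD.K1
  have h1 : (50 : ℝ) ≤ 16 * D.Mx + 2 := by linarith
  have h2 : 50 * (3 * (N : ℝ)) ≤ (16 * D.Mx + 2) * ((N : ℝ) * N) :=
    mul_le_mul h1 (by nlinarith) (by linarith) (by linarith)
  nlinarith

theorem sm_of (hN : 3 ≤ N) (h : Cst P.D P.cB P.ga P.d) : P.Sm := by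
  obtain ⟨h1, h2, h3, h4, h5⟩ := h
  have hN' : (3 : ℝ) ≤ N := by exact_mod_cast hN
  have hK := K_big P.D hN
  have hM0 : (0 : ℝ) ≤ P.D.Mx := Nat.cast_nonneg _
  have hc0 : 0 < P.cB := lt_of_lt_of_le (by positivity) h1
  refine ⟨hN, h4, ?_, h2, ?_, by positivity⟩
  · have a1 : 0 ≤ P.d * (8 * (N : ℝ) ^ 2 / P.ga) := by positivity
    have a2 : 0 ≤ P.d * (4 * N * ((P.D.nb : ℝ) + 1) * P.cB) := by positivity
    have a3 : P.d * (8 * N) ≤
        P.d * ((N : ℝ) ^ 2 * (6 + 2 * (16 * P.D.Mx + 1) + 28 * P.D.K)) := by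
      refine mul_le_mul_of_nonneg_left ?_ h4.le
      have : (8 : ℝ) * N ≤ (N : ℝ) ^ 2 * 8 := by nlinarith
      refine this.trans (mul_le_mul_of_nonneg_left ?_ (sq_nonneg _))
      nlinarith
    linarith
  · have a1 : 0 ≤ P.ga * (48 * (N : ℝ)) := by positivity
    have a2 : 0 ≤ P.ga * (144 * N * (P.cB * P.D.nb)) := by positivity
    have a3 : 0 ≤ P.ga * (8 * (16 * P.D.Mx + 1) * (P.cB * P.D.nb)) := by positivity
    linarith

theorem con_of (hN : 3 ≤ N) (h : Cst P.D P.cB P.ga P.d) (u : ℂ) (eu : ℝ) :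
    (P.dat u eu).Con (Fintype.card (Fin N)) (Fintype.card (Fin P.D.nb)) := by
  obtain ⟨h1, h2, h3, h4, h5⟩ := h
  have hN' : (3 : ℝ) ≤ N := by exact_mod_cast hN
  have hK := K_big P.D hN
  have hM0 : (0 : ℝ) ≤ P.D.Mx := Nat.cast_nonneg _
  have hnb : (0 : ℝ) ≤ P.D.nb := Nat.cast_nonneg _
  have hc0 : 0 < P.cB := lt_of_lt_of_le (by positivity) h1
  have hK0 : 0 ≤ P.D.K := by linarith
  have b1 : 0 ≤ P.ga * (48 * (N : ℝ)) := by positivity
  have b2 : 0 ≤ P.ga * (144 * N * (P.cB * P.D.nb)) := by positivity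
  have b3 : 0 ≤ P.ga * (8 * (16 * P.D.Mx + 1) * (P.cB * P.D.nb)) := by positivity
  have c1 : 0 ≤ P.d * ((N : ℝ) ^ 2 * (6 + 2 * (16 * P.D.Mx + 1) + 28 * P.D.K)) := by positivity
  have c2 : 0 ≤ P.d * (8 * (N : ℝ) ^ 2 / P.ga) := by positivity
  have c3 : 0 ≤ P.d * (4 * N * ((P.D.nb : ℝ) + 1) * P.cB) := by positivity
  rw [Fintype.card_fin, Fintype.card_fin]
  refine { hN := by linarith, hM := hnb, hga := h2, hga2 := ?_, hga3 := ?_, hcB := ?_, hcT := ?_,
           hcT2 := ?_, hKM := ?_, hcT3 := ?_, hK := hK, hcO := ?_, hd := h4, hd1 := ?_,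
           hd2 := ?_, hd3 := ?_ }
  · show P.ga ≤ 1 / 4
    linarith
  · show 6 * (N : ℝ) * P.ga ≤ 1 / 8
    linarith
  · show 12 * (N : ℝ) ^ 2 < P.cB
    linarith
  · show 0 ≤ P.cB * P.ga * P.D.nb
    positivity
  · show 6 * (N : ℝ) * (3 * (P.cB * P.ga * P.D.nb)) ≤ 1 / 8
    linarith
  · show 0 ≤ 16 * (P.D.Mx : ℝ) + 1
    linarith
  · show (16 * (P.D.Mx : ℝ) + 1) * (P.cB * P.ga * P.D.nb) ≤ 1 / 8
    linarith
  · show 0 ≤ 28 * P.D.K
    linarith
  · show (N : ℝ) ^ 2 * (6 + 2 * (16 * (P.D.Mx : ℝ) + 1) + 28 * P.D.K) * P.d < 1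
    linarith
  · show 8 * (N : ℝ) ^ 2 * P.d ≤ P.ga
    have : P.d * (8 * (N : ℝ) ^ 2 / P.ga) ≤ 1 := by linarith
    rw [mul_div_assoc', div_le_one h2] at this
    linarith
  · show 2 * P.d * (2 * N * ((P.D.nb : ℝ) + 1) * P.cB) < 1
    linarith

end PtN

end Crest.Agent.R267.K2cN_867
end
end

-- ▼ part R267/Calc4N_867
section

/-!
# Row 267, T3aN: the derivative of the signed `G` and its values in the region II

The unsigned datum `tw D` (`2 M j` lobes, no couplings) has the same gauges as `D`, so that the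
calculus of `xr`, `ch`, `R` is the one of `Calc3_957`, `Calc4_957`.
-/

set_option autoImplicit false

noncomputable section

namespace Crest.Agent.R267.Calc4N_867

open Finset
open Crest.Agent.R267.T3aDefs_957 (st Af Bf pg NN chi LD)
open Crest.Agent.R267.T3aNDefs_88 Crest.Agent.R267.CalcN_88
open Crest.Agent.R267.Calc2_957 (fdiv ps pt pt_of_le ps_of_le pg_of_le)
open Crest.Agent.R267.Calc3_957 (rej imj rej_apply imj_apply AA BB chid dch dR dR_apply dxr
  hasFDerivAt_ch hasFDerivAt_R dR_of_R_eq_zero ch_zero_nhds R_nonneg K_nonneg)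
open Crest.Agent.R267.Calc4_957 (tau dtau dtau_apply hasFDerivAt_tauj hasFDerivAt_zero_of_le
  vt_re vt_im vs_re vs_im vt_eq_sum vs_eq II S Wd rho)

variable {N : ℕ} (D : SD N)

/-! ### the unsigned datum with the same gauges -/

/-- unsigned datum with the same gauges. -/
def tw : LD N where
  M := fun j => 2 * D.M j
  hM := fun j => by have := D.hM j; omega
  C := ∅
  hC := by simp

theorem tw_Mx : (tw D).Mx = 2 * D.Mx := by
  show ∑ j, 2 * D.M j = 2 * ∑ j, D.M j
  rw [mul_sum]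

theorem tw_K1 : (tw D).K1 = D.K1 := by
  unfold LD.K1 SD.K1
  rw [tw_Mx]
  push_cast
  ring

theorem tw_K : (tw D).K = D.K := by
  unfold LD.K SD.K
  rw [tw_K1]

theorem tw_xr (z : Fin N → ℂ) (j : Fin N) : (tw D).xr z j = D.xr z j := by
  unfold LD.xr SD.xr
  rw [tw_K, tw_K1]

theorem tw_ch (d : ℝ) (z : Fin N → ℂ) (j : Fin N) : (tw D).ch d z j = D.ch d z j := by
  unfold LD.ch SD.ch
  rw [tw_xr]

theorem tw_R (d : ℝ) (z : Fin N → ℂ) (j : Fin N) : (tw D).R d z j = D.R d z j := by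
  unfold LD.R SD.R
  rw [tw_ch]

theorem RN_nonneg (d : ℝ) (z : Fin N → ℂ) (j : Fin N) : 0 ≤ D.R d z j := by
  rw [← tw_R]
  exact R_nonneg _ d z j


theorem le_K (j : Fin N) : 16 * (D.M j : ℝ) + 2 ≤ D.K := by
  have h := Calc3_957.le_K (tw D) j
  rw [tw_K] at h
  have e : ((tw D).M j : ℝ) = 2 * D.M j := by
    show ((2 * D.M j : ℕ) : ℝ) = _
    push_cast
    ring
  rw [e] at h
  linarith

/-! ### the planar terms -/

/-- derivative of `χ_j P_j`. -/
def dTN (ga d : ℝ) (z : Fin N → ℂ) (j : Fin N) : (Fin N → ℂ) →L[ℝ] ℂ :=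
  (dch (tw D) d z j).smulRight (plN ga (D.sn j) (D.M j) (z j)) +
    D.ch d z j • ((rej j).smulRight (paN ga (D.sn j) (D.M j) (z j)) +
      (imj j).smulRight (pbN (D.sn j) (D.M j) (z j)))

theorem dTN_apply (ga d : ℝ) (z : Fin N → ℂ) (j : Fin N) (y : Fin N → ℂ) :
    dTN D ga d z j y = (dch (tw D) d z j y : ℂ) * plN ga (D.sn j) (D.M j) (z j) +
      (D.ch d z j : ℂ) * (((y j).re : ℂ) * paN ga (D.sn j) (D.M j) (z j) +
        ((y j).im : ℂ) * pbN (D.sn j) (D.M j) (z j)) := by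
  simp [dTN]
  ring

theorem hasFDerivAt_chN {d : ℝ} (hd : 0 < d) {z : Fin N → ℂ} (hz : z ≠ 0) (j : Fin N) :
    HasFDerivAt (fun w => D.ch d w j) (dch (tw D) d z j) z := by
  have h := hasFDerivAt_ch (tw D) hd hz j
  have e : (fun w => (tw D).ch d w j) = fun w => D.ch d w j := funext fun w => tw_ch D d w j
  rwa [e] at h

theorem chN_zero_nhds {d : ℝ} (hd : 0 < d) {z : Fin N → ℂ} (hz : z ≠ 0) {j : Fin N}
    (hj : z j = 0) : ∀ᶠ w in nhds z, D.ch d w j = 0 := by
  filter_upwards [ch_zero_nhds (tw D) hd hz hj] with w hw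
  rwa [tw_ch] at hw

theorem hasFDerivAt_TN (ga : ℝ) {d : ℝ} (hd : 0 < d) {z : Fin N → ℂ} (hz : z ≠ 0) (j : Fin N) :
    HasFDerivAt (fun w => (D.ch d w j : ℂ) * plN ga (D.sn j) (D.M j) (w j))
      (dTN D ga d z j) z := by
  by_cases hj : z j = 0
  · have h0 : dTN D ga d z j = 0 := by
      have hx : (tw D).xr z j ≤ d := by rw [Calc3_957.xr_of_zero (tw D) hj]; exact hd.le
      have hc : D.ch d z j = 0 := by rw [← tw_ch]; exact Calc3_957.ch_of_le (tw D) hd hx
      ext w
      simp [dTN, Calc3_957.dch_of_le (tw D) hd hx, hc]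
    rw [h0]
    refine (hasFDerivAt_const (0 : ℂ) z).congr_of_eventuallyEq ?_
    filter_upwards [chN_zero_nhds D hd hz hj] with w hw
    rw [hw]
    simp
  · have h2 : HasFDerivAt (fun w : Fin N → ℂ => w j)
        (ContinuousLinearMap.proj (R := ℝ) (φ := fun _ : Fin N => ℂ) j) z :=
      (ContinuousLinearMap.proj (R := ℝ) (φ := fun _ : Fin N => ℂ) j).hasFDerivAt
    have h3 := HasFDerivAt.comp (g := plN ga (D.sn j) (D.M j)) (f := fun w : Fin N → ℂ => w j) z
      (hasFDerivAt_plN ga (D.sn j) (D.M j) hj) h2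
    have h4 := (hasFDerivAt_chN D hd hz j).smul h3
    have h5 : (fun w : Fin N → ℂ => (D.ch d w j : ℂ) * plN ga (D.sn j) (D.M j) (w j)) =
        (fun w : Fin N → ℂ => D.ch d w j) •
          (plN ga (D.sn j) (D.M j) ∘ fun w : Fin N → ℂ => w j) := by
      funext w
      simp
    rw [h5]
    refine HasFDerivAt.congr_fderiv h4 ?_
    ext w
    simp [dTN]
    ring

theorem hasFDerivAt_RN {d : ℝ} (hd : 0 < d) {z : Fin N → ℂ} (hz : z ≠ 0) {j : Fin N}
    (hj : 0 < (z j).re) : HasFDerivAt (fun w => D.R d w j) (dR (tw D) d z j) z := by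
  have h := hasFDerivAt_R (tw D) hd hz hj
  have e : (fun w => (tw D).R d w j) = fun w => D.R d w j := funext fun w => tw_R D d w j
  rwa [e] at h

/-! ### the harmonic mean -/

theorem Hm_nonneg {ι : Type} (S : Finset ι) (R : ι → ℝ) : 0 ≤ Hm S R := by
  unfold Hm
  split_ifs with h
  · exact div_nonneg zero_le_one (sum_nonneg fun j hj => div_nonneg zero_le_one (h j hj).le)
  · exact le_rfl

theorem Hm_le {ι : Type} {S : Finset ι} {R : ι → ℝ} (hR : ∀ j, 0 ≤ R j) {j : ι} (hj : j ∈ S) :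
    Hm S R ≤ R j := by
  unfold Hm
  split_ifs with h
  · have h0 := h j hj
    have h1 : 1 / R j ≤ ∑ j ∈ S, 1 / R j :=
      single_le_sum (f := fun j => 1 / R j) (fun i hi => div_nonneg zero_le_one (h i hi).le) hj
    have h2 : 0 < 1 / R j := by positivity
    calc 1 / ∑ j ∈ S, 1 / R j ≤ 1 / (1 / R j) := one_div_le_one_div_of_le h2 h1
      _ = R j := one_div_one_div _
  · exact hR j

theorem Hm_eq_zero {ι : Type} {S : Finset ι} {R : ι → ℝ} {j : ι} (hj : j ∈ S) (h : R j ≤ 0) :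
    Hm S R = 0 := by
  unfold Hm
  rw [if_neg fun h0 => absurd (h0 j hj) (not_lt.2 h)]

theorem Hm_eq {ι : Type} {S : Finset ι} {R : ι → ℝ} (h : ∀ j ∈ S, 0 < R j) :
    Hm S R = 1 / ∑ j ∈ S, 1 / R j := by
  unfold Hm
  rw [if_pos h]

theorem hasFDerivAt_Hm {E : Type*} [NormedAddCommGroup E] [NormedSpace ℝ E] {ι : Type}
    {S : Finset ι} (hS : S.Nonempty) {R : E → ι → ℝ} {R' : ι → E →L[ℝ] ℝ} {z : E}
    (h : ∀ j ∈ S, HasFDerivAt (fun w => R w j) (R' j) z) (hp : ∀ j ∈ S, 0 < R z j) :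
    HasFDerivAt (fun w => Hm S (R w)) (∑ j ∈ S, (Hm S (R z) / R z j) ^ 2 • R' j) z := by
  have h1 : (fun w => Hm S (R w)) =ᶠ[nhds z] fun w => 1 / ∑ j ∈ S, 1 / R w j := by
    have h2 : ∀ᶠ w in nhds z, ∀ j ∈ S, 0 < R w j := by
      rw [Filter.eventually_all_finset]
      intro j hj
      exact (h j hj).continuousAt.eventually (lt_mem_nhds (hp j hj))
    filter_upwards [h2] with w hw
    exact Hm_eq hw
  have hpos : 0 < ∑ j ∈ S, 1 / R z j :=
    sum_pos (fun j hj => one_div_pos.2 (hp j hj)) hS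
  have h3 : HasFDerivAt (fun w => ∑ j ∈ S, 1 / R w j)
      (∑ j ∈ S, ((1 / R z j) • (0 : E →L[ℝ] ℝ) - (1 / R z j ^ 2) • R' j)) z :=
    HasFDerivAt.fun_sum fun j hj =>
      fdiv (u := fun _ => (1 : ℝ)) (hasFDerivAt_const (1 : ℝ) z) (h j hj) (hp j hj).ne'
  have h4 := fdiv (u := fun _ => (1 : ℝ)) (hasFDerivAt_const (1 : ℝ) z) h3 hpos.ne'
  refine (HasFDerivAt.congr_fderiv h4 ?_).congr_of_eventuallyEq h1
  have e5 : ∑ j ∈ S, ((1 / R z j) • (0 : E →L[ℝ] ℝ) - (1 / R z j ^ 2) • R' j) =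
      -∑ j ∈ S, (1 / R z j ^ 2) • R' j := by
    simp only [smul_zero, zero_sub, Finset.sum_neg_distrib]
  rw [e5, smul_zero, zero_sub, smul_neg, neg_neg, Finset.smul_sum]
  refine Finset.sum_congr rfl fun j hj => ?_
  rw [smul_smul, Hm_eq hp]
  have h5 := (hp j hj).ne'
  have h6 := hpos.ne'
  congr 1
  field_simp

/-! ### the boxes -/

/-- harmonic mean of the box. -/
def hh (d : ℝ) (z : Fin N → ℂ) (e : Fin D.nb) : ℝ := Hm (D.bx e).S (D.R d z)

/-- derivative with respect to `R j`. -/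
def hdd (d : ℝ) (z : Fin N → ℂ) (e : Fin D.nb) (j : Fin N) : ℝ := (hh D d z e / D.R d z j) ^ 2

/-- window. -/
def la (z : Fin N → ℂ) (e : Fin D.nb) (j : Fin N) : ℝ :=
  winN ((D.bx e).lo j) ((D.bx e).hi j) (tau z j)

/-- derivative of the window. -/
def lad (z : Fin N → ℂ) (e : Fin D.nb) (j : Fin N) : ℝ :=
  wdN ((D.bx e).lo j) ((D.bx e).hi j) (tau z j)

theorem Be_eq (d : ℝ) (z : Fin N → ℂ) (e : Fin D.nb) :
    D.Be d e z = hh D d z e * ∏ j ∈ (D.bx e).S, la D z e j := rfl

theorem hh_nonneg (d : ℝ) (z : Fin N → ℂ) (e : Fin D.nb) : 0 ≤ hh D d z e := Hm_nonneg _ _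

theorem hh_le (d : ℝ) (z : Fin N → ℂ) (e : Fin D.nb) {j : Fin N} (hj : j ∈ (D.bx e).S) :
    hh D d z e ≤ D.R d z j := Hm_le (RN_nonneg D d z) hj

/-- derivative of `hh`. -/
def dhh (d : ℝ) (z : Fin N → ℂ) (e : Fin D.nb) : (Fin N → ℂ) →L[ℝ] ℝ :=
  ∑ j ∈ (D.bx e).S, hdd D d z e j • dR (tw D) d z j

theorem S_nonempty (e : Fin D.nb) : (D.bx e).S.Nonempty := by
  rw [← card_pos]
  have := D.h2 e
  omega

theorem hasFDerivAt_hh {d : ℝ} (hd : 0 < d) {z : Fin N → ℂ} (hz : z ≠ 0)
    {e : Fin D.nb} (ha : ∀ j ∈ (D.bx e).S, 0 < (z j).re) :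
    HasFDerivAt (fun w => hh D d w e) (dhh D d z e) z := by
  by_cases h : ∀ j ∈ (D.bx e).S, 0 < D.R d z j
  · exact hasFDerivAt_Hm (S_nonempty D e) (fun j hj => hasFDerivAt_RN D hd hz (ha j hj)) h
  · push Not at h
    obtain ⟨j, hj, h1⟩ := h
    have h2 : D.R d z j = 0 := le_antisymm h1 (RN_nonneg D d z j)
    have h3 : hh D d z e = 0 := Hm_eq_zero hj h1
    have h4 : dhh D d z e = 0 := by
      unfold dhh hdd
      rw [h3]
      simp
    have h5 : dR (tw D) d z j = 0 :=
      dR_of_R_eq_zero (tw D) hd (ha j hj) (by rw [tw_R]; exact h2)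
    have h6 := hasFDerivAt_RN D hd hz (ha j hj)
    rw [h5] at h6
    rw [h4]
    exact hasFDerivAt_zero_of_le h6 h2 fun w => by
      rw [abs_of_nonneg (hh_nonneg D d w e)]
      exact hh_le D d w e hj

/-- derivative of the deletion of a box. -/
def dBe (d : ℝ) (z : Fin N → ℂ) (e : Fin D.nb) : (Fin N → ℂ) →L[ℝ] ℝ :=
  open Classical in
  if ∀ j ∈ (D.bx e).S, 0 < (z j).re then
    (∏ j ∈ (D.bx e).S, la D z e j) • dhh D d z e +
      hh D d z e • ∑ j ∈ (D.bx e).S,
        ((∏ i ∈ (D.bx e).S.erase j, la D z e i) * lad D z e j) • dtau z j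
  else 0

theorem winN_steep {m m' M : ℕ} (hm : m' ≤ M) {z : Fin N → ℂ} {j : Fin N} (h0 : 0 < (z j).re)
    (h : (16 * (M : ℝ) + 1) * (z j).re ≤ |(z j).im|) :
    winN m m' (tau z j) = 0 := by
  refine winN_far ?_
  unfold tau
  rw [abs_div, abs_of_pos h0, le_div_iff₀ h0]
  have h1 : (m' : ℝ) ≤ M := by exact_mod_cast hm
  nlinarith

theorem Be_nhds {d : ℝ} (hd : 0 < d) {z : Fin N → ℂ} (hz : z ≠ 0)
    {e : Fin D.nb} {j : Fin N} (hj : j ∈ (D.bx e).S) (ha : (z j).re ≤ 0) :
    ∀ᶠ w in nhds z, D.Be d e w = 0 := by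
  by_cases h : z j = 0
  · filter_upwards [chN_zero_nhds D hd hz h] with w hw
    rw [Be_eq]
    have : hh D d w e = 0 := by
      refine Hm_eq_zero hj ?_
      unfold SD.R
      rw [hw, zero_mul]
    rw [this, zero_mul]
  · have h1 : ∀ᶠ w : Fin N → ℂ in nhds z, (16 * (D.M j : ℝ) + 1) * (w j).re ≤ |(w j).im| :=
      (continuous_apply j).continuousAt.eventually (farN_nhds ha h)
    filter_upwards [h1] with w hw
    rw [Be_eq]
    rcases le_or_gt (w j).re 0 with h2 | h2
    · have : hh D d w e = 0 := by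
        refine Hm_eq_zero hj ?_
        unfold SD.R
        rw [max_eq_left h2, mul_zero]
      rw [this, zero_mul]
    · have : la D w e j = 0 := winN_steep (D.hhi e j hj) h2 hw
      rw [prod_eq_zero hj this, mul_zero]

theorem hasFDerivAt_Be {d : ℝ} (hd : 0 < d) {z : Fin N → ℂ} (hz : z ≠ 0)
    (e : Fin D.nb) : HasFDerivAt (D.Be d e) (dBe D d z e) z := by
  classical
  by_cases h : ∀ j ∈ (D.bx e).S, 0 < (z j).re
  · have e0 : dBe D d z e = (∏ j ∈ (D.bx e).S, la D z e j) • dhh D d z e +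
      hh D d z e • ∑ j ∈ (D.bx e).S,
        ((∏ i ∈ (D.bx e).S.erase j, la D z e i) * lad D z e j) • dtau z j := if_pos h
    rw [e0]
    have a1 : ∀ j ∈ (D.bx e).S, HasFDerivAt (fun w => la D w e j) (lad D z e j • dtau z j) z :=
      fun j hj => HasDerivAt.comp_hasFDerivAt
        (h₂ := winN ((D.bx e).lo j) ((D.bx e).hi j)) (f := fun w => tau w j) z
        (hasDerivAt_winN _ _ (tau z j)) (hasFDerivAt_tauj (h j hj).ne')
    have a2 := HasFDerivAt.finsetProd a1
    have a3 := (hasFDerivAt_hh D hd hz h).mul a2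
    refine HasFDerivAt.congr_fderiv a3 ?_
    ext w
    simp only [ContinuousLinearMap.add_apply, ContinuousLinearMap.smul_apply, smul_eq_mul,
      ContinuousLinearMap.sum_apply, mul_assoc]
    ring
  · have e0 : dBe D d z e = 0 := if_neg h
    rw [e0]
    refine (hasFDerivAt_const (0 : ℝ) z).congr_of_eventuallyEq ?_
    push Not at h
    obtain ⟨j, hj, h1⟩ := h
    exact Be_nhds D hd hz hj h1

/-- the derivative of `G`. -/
def dG (cB ga d : ℝ) (z : Fin N → ℂ) : (Fin N → ℂ) →L[ℝ] ℂ :=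
  ∑ j, dTN D ga d z j - ((cB * ga) • ∑ e, dBe D d z e).smulRight (1 : ℂ)

theorem hasFDerivAt_G (cB ga : ℝ) {d : ℝ} (hd : 0 < d) {z : Fin N → ℂ} (hz : z ≠ 0) :
    HasFDerivAt (D.G cB ga d) (dG D cB ga d z) z := by
  have a1 : HasFDerivAt (fun w : Fin N → ℂ => ∑ j, (D.ch d w j : ℂ) *
      plN ga (D.sn j) (D.M j) (w j))
      (∑ j, dTN D ga d z j) z := HasFDerivAt.fun_sum fun j _ => hasFDerivAt_TN D ga hd hz j
  have a2 : HasFDerivAt (fun w : Fin N → ℂ => ∑ e, D.Be d e w)
      (∑ e, dBe D d z e) z := HasFDerivAt.fun_sum fun e _ => hasFDerivAt_Be D hd hz e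
  have a3 := (a2.const_mul (cB * ga))
  have a4 := HasFDerivAt.comp z (Complex.ofRealCLM.hasFDerivAt (x := cB * ga *
    ∑ e, D.Be d e z)) a3
  refine HasFDerivAt.congr_fderiv (a1.sub a4) ?_
  ext w
  simp [dG]

theorem fderiv_G (cB ga : ℝ) {d : ℝ} (hd : 0 < d) {z : Fin N → ℂ} (hz : z ≠ 0) :
    fderiv ℝ (D.G cB ga d) z = dG D cB ga d z := (hasFDerivAt_G D cB ga hd hz).fderiv

theorem dG_apply (cB ga d : ℝ) (z y : Fin N → ℂ) : dG D cB ga d z y =
    ∑ j, dTN D ga d z j y - ((cB * ga * ∑ e, dBe D d z e y : ℝ) : ℂ) := by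
  simp [dG]

/-! ### region II -/

/-- `∂ (cB ga ∑ Be) / ∂ t_j`. -/
def tB (cB ga d : ℝ) (z : Fin N → ℂ) (j : Fin N) : ℝ :=
  cB * ga * ∑ e, (if j ∈ (D.bx e).S then
    hh D d z e * (lad D z e j / (z j).re) * ∏ i ∈ (D.bx e).S.erase j, la D z e i else 0)

/-- `∂ (cB ga ∑ Be) / ∂ R_j`. -/
def HB (cB ga d : ℝ) (z : Fin N → ℂ) (j : Fin N) : ℝ :=
  cB * ga * ∑ e, (if j ∈ (D.bx e).S then (∏ i ∈ (D.bx e).S, la D z e i) * hdd D d z e j else 0)

variable {D}

/-- a steep variable has vanishing windows. -/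
theorem la_steep {z : Fin N → ℂ} {e : Fin D.nb} {j : Fin N} (hj : j ∈ (D.bx e).S)
    (h0 : 0 < (z j).re) (hW : ¬ Wd (tw D) z j) : la D z e j = 0 ∧ lad D z e j = 0 := by
  have h1 := le_K D j
  have h2 : (16 * (D.M j : ℝ) + 2) * (z j).re ≤ |(z j).im| := by
    unfold Wd at hW
    rw [not_le, abs_of_pos h0, tw_K] at hW
    nlinarith
  refine ⟨winN_steep (D.hhi e j hj) h0 (by nlinarith), ?_⟩
  by_contra h3
  have h4 : |tau z j| = |(z j).im| / (z j).re := by
    unfold tau
    rw [abs_div, abs_of_pos h0]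
  have h5 : 16 * (D.M j : ℝ) + 2 ≤ |tau z j| := by
    rw [h4, le_div_iff₀ h0]
    exact h2
  have hhi : ((D.bx e).hi j : ℝ) ≤ D.M j := by exact_mod_cast D.hhi e j hj
  have hM0 : (0 : ℝ) ≤ ((D.bx e).lo j : ℝ) := Nat.cast_nonneg _
  have hM1 : (0 : ℝ) ≤ ((D.bx e).hi j : ℝ) := Nat.cast_nonneg _
  rcases CalcN_88.wdN_ne h3 with ⟨h6, h7⟩ | h7
  · have h8 : ((D.bx e).lo j : ℝ) ≤ (D.bx e).hi j := by exact_mod_cast h6.le
    rw [abs_lt] at h7
    rcases le_abs.1 h5 with h9 | h9 <;> linarith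
  · rw [abs_lt] at h7
    rcases le_abs.1 h5 with h9 | h9 <;> linarith

theorem hh_of_nonpos {d : ℝ} {z : Fin N → ℂ} {e : Fin D.nb} {j : Fin N} (hj : j ∈ (D.bx e).S)
    (h0 : (z j).re ≤ 0) : hh D d z e = 0 := by
  refine Hm_eq_zero hj ?_
  unfold SD.R
  rw [max_eq_left h0, mul_zero]

/-- `∂ Be / ∂ t`. -/
theorem dBe_vt {z : Fin N → ℂ} (h : II (tw D) z) (d : ℝ) (e : Fin D.nb)
    (Y : Fin N → ℝ) : dBe D d z e (LD.vt Y) =
      ∑ j ∈ (D.bx e).S, hh D d z e * (lad D z e j / (z j).re) *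
        (∏ i ∈ (D.bx e).S.erase j, la D z e i) * Y j := by
  classical
  by_cases hp : ∀ j ∈ (D.bx e).S, 0 < (z j).re
  · have e0 : dBe D d z e = (∏ j ∈ (D.bx e).S, la D z e j) • dhh D d z e +
      hh D d z e • ∑ j ∈ (D.bx e).S,
        ((∏ i ∈ (D.bx e).S.erase j, la D z e i) * lad D z e j) • dtau z j := if_pos hp
    rw [e0]
    simp only [ContinuousLinearMap.add_apply, ContinuousLinearMap.smul_apply, smul_eq_mul,
      ContinuousLinearMap.sum_apply, dtau_apply, vt_im, vt_re]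
    have e1 : (∏ j ∈ (D.bx e).S, la D z e j) * (dhh D d z e (LD.vt Y)) = 0 := by
      by_cases w1 : ∀ j ∈ (D.bx e).S, Wd (tw D) z j
      · have : dhh D d z e (LD.vt Y) = 0 := by
          unfold dhh
          rw [ContinuousLinearMap.sum_apply]
          refine sum_eq_zero fun j hj => ?_
          rw [ContinuousLinearMap.smul_apply, h.dR_vt d (w1 j hj), smul_zero]
        rw [this, mul_zero]
      · push Not at w1
        obtain ⟨j, hj, hW⟩ := w1
        rw [prod_eq_zero hj (la_steep hj (hp j hj) hW).1, zero_mul]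
    rw [e1, zero_add, mul_sum]
    refine sum_congr rfl fun j _ => ?_
    ring
  · have e0 : dBe D d z e = 0 := if_neg hp
    rw [e0]
    push Not at hp
    obtain ⟨j, hj, h1⟩ := hp
    rw [hh_of_nonpos hj h1]
    simp

/-- the boxes along a vertical vector. -/
theorem sum_dBe_vt {z : Fin N → ℂ} (h : II (tw D) z) (cB ga d : ℝ) (j : Fin N) :
    cB * ga * ∑ e, dBe D d z e (LD.vt (Pi.single j (1 : ℝ))) = tB D cB ga d z j := by
  unfold tB
  congr 1
  refine sum_congr rfl fun e _ => ?_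
  rw [dBe_vt h]
  have e1 : ∀ i ∈ (D.bx e).S, hh D d z e * (lad D z e i / (z i).re) *
        (∏ i ∈ (D.bx e).S.erase i, la D z e i) * (Pi.single j (1 : ℝ) : Fin N → ℝ) i =
      if i = j then hh D d z e * (lad D z e j / (z j).re) *
        (∏ i ∈ (D.bx e).S.erase j, la D z e i) else 0 := by
    intro i _
    rw [Pi.single_apply]
    by_cases hi : i = j
    · subst hi
      rw [if_pos rfl, if_pos rfl, mul_one]
    · rw [if_neg hi, if_neg hi, mul_zero]
  rw [sum_congr rfl e1, sum_ite_eq']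

/-- `∂ Be` along `(-1, …, -1)`. -/
theorem dBe_vs {z : Fin N → ℂ} (h : II (tw D) z) (hz : z ≠ 0) (d : ℝ)
    (e : Fin D.nb) : dBe D d z e (LD.vs 1 0) =
      open Classical in
      ∑ j ∈ (D.bx e).S, (if 0 < (z j).re ∧ Wd (tw D) z j then
        -rho (tw D) d z j * ((∏ i ∈ (D.bx e).S, la D z e i) * hdd D d z e j) +
        tau z j * (hh D d z e * (lad D z e j / (z j).re) *
          ∏ i ∈ (D.bx e).S.erase j, la D z e i) else 0) := by
  classical
  by_cases hp : ∀ j ∈ (D.bx e).S, 0 < (z j).re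
  · have e0 : dBe D d z e = (∏ j ∈ (D.bx e).S, la D z e j) • dhh D d z e +
      hh D d z e • ∑ j ∈ (D.bx e).S,
        ((∏ i ∈ (D.bx e).S.erase j, la D z e i) * lad D z e j) • dtau z j := if_pos hp
    rw [e0]
    simp only [ContinuousLinearMap.add_apply, ContinuousLinearMap.smul_apply, smul_eq_mul,
      ContinuousLinearMap.sum_apply, dtau_apply, vs_im, vs_re, Pi.zero_apply, dhh]
    by_cases w1 : ∀ j ∈ (D.bx e).S, Wd (tw D) z j
    · rw [mul_sum, mul_sum, ← sum_add_distrib]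
      refine sum_congr rfl fun j hj => ?_
      rw [h.dR_vs hz d (w1 j hj) (hp j hj), if_pos ⟨hp j hj, w1 j hj⟩]
      ring
    · push Not at w1
      obtain ⟨j0, hj0, hW⟩ := w1
      have h1 := la_steep hj0 (hp j0 hj0) hW
      have h2 : ∏ j ∈ (D.bx e).S, la D z e j = 0 := prod_eq_zero hj0 h1.1
      rw [h2, zero_mul, zero_add, mul_sum]
      refine sum_congr rfl fun j hj => ?_
      by_cases hj2 : j = j0
      · subst hj2
        rw [h1.2, if_neg (fun hh => hW hh.2)]
        ring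
      · have h3 : ∏ i ∈ (D.bx e).S.erase j, la D z e i = 0 :=
          prod_eq_zero (mem_erase.2 ⟨Ne.symm hj2, hj0⟩) h1.1
        rw [h3]
        split_ifs <;> ring
  · have e0 : dBe D d z e = 0 := if_neg hp
    rw [e0]
    push Not at hp
    obtain ⟨j, hj, h1⟩ := hp
    symm
    refine sum_eq_zero fun i hi => ?_
    have h2 : hh D d z e = 0 := hh_of_nonpos hj h1
    have h3 : hdd D d z e i = 0 := by
      unfold hdd
      rw [h2]
      simp
    rw [h2, h3]
    split_ifs <;> ring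

/-- the boxes along `(-1, …, -1)`. -/
theorem sum_dBe_vs {z : Fin N → ℂ} (h : II (tw D) z) (hz : z ≠ 0) (cB ga d : ℝ) :
    cB * ga * ∑ e, dBe D d z e (LD.vs 1 0) =
      open Classical in
      ∑ j, if 0 < (z j).re ∧ Wd (tw D) z j then -rho (tw D) d z j * HB D cB ga d z j +
        tau z j * tB D cB ga d z j else 0 := by
  classical
  have e1 : ∀ j : Fin N, (if 0 < (z j).re ∧ Wd (tw D) z j then
        -rho (tw D) d z j * HB D cB ga d z j + tau z j * tB D cB ga d z j else 0) =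
      cB * ga * ∑ e, (if j ∈ (D.bx e).S then (if 0 < (z j).re ∧ Wd (tw D) z j then
        -rho (tw D) d z j * ((∏ i ∈ (D.bx e).S, la D z e i) * hdd D d z e j) +
        tau z j * (hh D d z e * (lad D z e j / (z j).re) *
          ∏ i ∈ (D.bx e).S.erase j, la D z e i) else 0) else 0) := by
    intro j
    by_cases hj : 0 < (z j).re ∧ Wd (tw D) z j
    · simp only [if_pos hj]
      unfold HB tB
      have : ∀ a b A B : ℝ, a * (cB * ga * A) + b * (cB * ga * B) = cB * ga * (a * A + b * B) := by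
        intro a b A B; ring
      rw [this, mul_sum, mul_sum, ← sum_add_distrib]
      congr 1
      refine sum_congr rfl fun e _ => ?_
      by_cases a1 : j ∈ (D.bx e).S
      · rw [if_pos a1, if_pos a1, if_pos a1]
      · rw [if_neg a1, if_neg a1, if_neg a1]
        ring
    · simp only [if_neg hj]
      simp
  rw [sum_congr rfl fun j _ => e1 j, ← mul_sum, sum_comm]
  congr 1
  refine sum_congr rfl fun e _ => ?_
  rw [dBe_vs h hz]
  simp only [sum_ite_mem, univ_inter]

end Crest.Agent.R267.Calc4N_867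
end
end

-- ▼ part R267/K2IIN_867
section

/-!
# K2 of T3aN in the region II (`|t| ≤ K1 |s|`)
-/

set_option autoImplicit false

noncomputable section

open Finset

namespace Crest.Agent.R267.K2IIN_867

open Crest.Agent.R267.LemL_951
open Crest.Agent.R267.T3aDefs_957 (st Af Bf pg NN chi LD)
open Crest.Agent.R267.Calc_957 (std st_of_le st_of_ge std_of_le std_of_ge st_nonneg)
open Crest.Agent.R267.T3aNDefs_88 Crest.Agent.R267.CalcN_88
open Crest.Agent.R267.Calc2_957 (ps pt pt_of_le ps_of_le pg_of_le pt_mul_nonneg pg_euler pg_zero)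
open Crest.Agent.R267.Calc3_957 (AA BB chid dch)
open Crest.Agent.R267.Calc4_957 (tau vt_re vt_im vs_re vs_im vt_eq_sum vs_eq II S Wd rho)
open Crest.Agent.R267.Calc4N_867 Crest.Agent.R267.K2cN_867

variable {N : ℕ} (D : SD N) (cB ga d : ℝ) (z : Fin N → ℂ)

/-- the point. -/
def mk : PtN N where
  D := D
  cB := cB
  ga := ga
  d := d
  z := z
  ps := fun j => ps D.K (z j)
  pt := fun j => pt D.K (z j)
  pd := fun j => pvdN (D.sn j) (D.M j) (tau z j)

variable {D} {cB ga d} {z}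

theorem nu_eq : (mk D cB ga d z).nu = √(AA z) := rfl

theorem x_eq (h : II (tw D) z) (j : Fin N) : (mk D cB ga d z).x j = D.xr z j := by
  unfold PtN.x SD.xr
  have := h.NN
  rw [tw_K1] at this
  rw [this, nu_eq]
  rfl

theorem X_eq (h : II (tw D) z) (j : Fin N) : (mk D cB ga d z).X j = D.ch d z j := by
  unfold PtN.X SD.ch
  rw [x_eq h]
  rfl

theorem cd_eq (h : II (tw D) z) (j : Fin N) : (mk D cB ga d z).cd j = chid d (D.xr z j) := by
  unfold PtN.cd chid
  rw [x_eq h]
  rfl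

theorem S_eq : (mk D cB ga d z).S = S z := by
  unfold PtN.S S
  rw [sum_div]
  rfl

theorem rho_eq (h : II (tw D) z) (j : Fin N) : (mk D cB ga d z).rho j = rho (tw D) d z j := by
  unfold PtN.rho rho
  rw [x_eq h, X_eq h, cd_eq h, S_eq, tw_xr, tw_ch]

theorem Rr_eq (h : II (tw D) z) : (mk D cB ga d z).Rr = D.R d z := by
  funext j
  unfold PtN.Rr SD.R
  rw [X_eq h]
  rfl

theorem hh_eq (h : II (tw D) z) (e : Fin D.nb) :
    (mk D cB ga d z).hh e = hh D d z e := by
  unfold PtN.hh hh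
  rw [Rr_eq h]
  rfl

theorem hd_eq (h : II (tw D) z) (e : Fin D.nb) (j : Fin N) :
    (mk D cB ga d z).hd e j = hdd D d z e j := by
  unfold PtN.hd hdd
  rw [Rr_eq h, hh_eq h]




theorem tB_term (h : II (tw D) z) (e : Fin D.nb) (j : Fin N) :
    (if j ∈ (mk D cB ga d z).supp e then (mk D cB ga d z).hh e *
      ((mk D cB ga d z).lad e j / ((mk D cB ga d z).z j).re) *
      ∏ i ∈ ((mk D cB ga d z).supp e).erase j, (mk D cB ga d z).la e i else 0) =
    if j ∈ (D.bx e).S then
    hh D d z e * (lad D z e j / (z j).re) * ∏ i ∈ (D.bx e).S.erase j, la D z e i else 0 := by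
  rw [hh_eq h]
  rfl

theorem tB_eq (h : II (tw D) z) (j : Fin N) : (mk D cB ga d z).tB j = tB D cB ga d z j := by
  unfold PtN.tB tB
  exact congrArg (fun x => cB * ga * x) (sum_congr rfl fun e _ => tB_term h e j)

theorem HB_term (h : II (tw D) z) (e : Fin D.nb) (j : Fin N) :
    (if j ∈ (mk D cB ga d z).supp e then (∏ i ∈ (mk D cB ga d z).supp e,
      (mk D cB ga d z).la e i) * (mk D cB ga d z).hd e j else 0) =
    if j ∈ (D.bx e).S then (∏ i ∈ (D.bx e).S, la D z e i) * hdd D d z e j else 0 := by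
  rw [hd_eq h]
  rfl

theorem HB_eq (h : II (tw D) z) (j : Fin N) : (mk D cB ga d z).HB j = HB D cB ga d z j := by
  unfold PtN.HB HB
  exact congrArg (fun x => cB * ga * x) (sum_congr rfl fun e _ => HB_term h e j)

theorem Wp_iff (j : Fin N) : (mk D cB ga d z).Wp j ↔ 0 < (z j).re ∧ Wd (tw D) z j := by
  unfold PtN.Wp Wd
  rw [tw_K]
  constructor
  · intro h
    have h1 : 0 < (z j).re := h.1
    refine ⟨h1, ?_⟩
    rw [abs_of_pos h1]
    exact h.2
  · intro h
    refine ⟨h.1, ?_⟩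
    have h2 := h.2
    rw [abs_of_pos h.1] at h2
    exact h2

theorem K_nonneg : 0 ≤ D.K := by
  rw [← tw_K]
  exact Calc3_957.K_nonneg _

/-- a steep variable is on the first or last line. -/
theorem steep {j : Fin N} (h0 : 0 < (z j).re) (hW : ¬ Wd (tw D) z j) (ga : ℝ) :
    pvdN (D.sn j) (D.M j) ((z j).im / (z j).re) = -Complex.I ∧
      pvN ga (D.sn j) (D.M j) ((z j).im / (z j).re) =
        -((2 - ga : ℝ) : ℂ) - Complex.I * (((z j).im / (z j).re : ℝ) : ℂ) := by
  have h1 := le_K D j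
  unfold Wd at hW
  rw [not_le, abs_of_pos h0, tw_K] at hW
  have h2 : (16 * (D.M j : ℝ) + 1) * (z j).re < |(z j).im| := by nlinarith
  rcases le_total 0 (z j).im with h3 | h3
  · rw [abs_of_nonneg h3] at h2
    have h4 : 16 * (D.M j : ℝ) + 1 ≤ (z j).im / (z j).re := by
      rw [le_div_iff₀ h0]; exact h2.le
    rw [pvdN_high (by linarith), pvN_high (by linarith), st_of_ge (by linarith),
      std_of_ge (by linarith)]
    constructor
    · simp
    · push_cast
      ring
  · have h4 : (z j).im / (z j).re ≤ 1 :=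
      (div_nonpos_of_nonpos_of_nonneg h3 h0.le).trans zero_le_one
    rw [pvdN_low h4, pvN_low h4]
    exact ⟨rfl, rfl⟩

theorem pa_off {j : Fin N} (hW : ¬ (0 < (z j).re ∧ Wd (tw D) z j)) (ga : ℝ) :
    paN ga (D.sn j) (D.M j) (z j) = -((2 - ga : ℝ) : ℂ) ∧
      pbN (D.sn j) (D.M j) (z j) = -Complex.I := by
  unfold paN pbN
  rcases le_or_gt (z j).re 0 with h | h
  · rw [if_neg (not_lt.2 h), if_neg (not_lt.2 h)]
    exact ⟨rfl, rfl⟩
  · rw [if_pos h, if_pos h]
    obtain ⟨h1, h2⟩ := steep h (fun hh => hW ⟨h, hh⟩) ga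
    rw [h1, h2]
    refine ⟨?_, rfl⟩
    ring

theorem pl_off {j : Fin N} (hW : ¬ (0 < (z j).re ∧ Wd (tw D) z j)) (ga : ℝ) :
    plN ga (D.sn j) (D.M j) (z j) =
      -((2 - ga : ℝ) : ℂ) * (z j).re - Complex.I * (z j).im := by
  rcases le_or_gt (z j).re 0 with h | h
  · exact plN_of_nonpos h
  · refine plN_of_far (Or.inl ?_)
    have h1 := le_K D j
    have h2 : ¬ Wd (tw D) z j := fun hh => hW ⟨h, hh⟩
    unfold Wd at h2
    rw [not_le, abs_of_pos h, tw_K] at h2
    nlinarith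

theorem tB_off {j : Fin N} (hW : ¬ (0 < (z j).re ∧ Wd (tw D) z j)) : tB D cB ga d z j = 0 := by
  unfold tB
  rw [sum_eq_zero, mul_zero]
  intro e _
  split_ifs with h1
  · rcases le_or_gt (z j).re 0 with h | h
    · rw [hh_of_nonpos h1 h]
      ring
    · rw [(la_steep h1 h (fun hh => hW ⟨h, hh⟩)).2]
      ring
  · rfl

/-- where the planar function is. -/
theorem zone (j : Fin N) : (mk D cB ga d z).Zone j := by
  unfold PtN.Zone
  have e1 : (mk D cB ga d z).D = D := rfl
  have e2 : (mk D cB ga d z).ta j = tau z j := rfl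
  have e3 : (mk D cB ga d z).pj j = pvN ga (D.sn j) (D.M j) (tau z j) := rfl
  have e4 : (mk D cB ga d z).pd j = pvdN (D.sn j) (D.M j) (tau z j) := rfl
  have e5 : (mk D cB ga d z).ga = ga := rfl
  rw [e1, e2, e3, e4, e5]
  by_cases hl : ∀ l < D.M j, 3 ≤ |tau z j - sgN l|
  · obtain ⟨h1, κ, h2, h3⟩ := pvN_vert (fun l => abs_sn D j l) hl
    have h4 : (pvdN (D.sn j) (D.M j) (tau z j)).re = 0 := by rw [h2]; simp
    have h5 : (pvdN (D.sn j) (D.M j) (tau z j)).im = -κ := by rw [h2]; simp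
    rcases h3 with h3 | ⟨h3, -⟩
    · right; left
      refine ⟨h1 ga, h4, ?_, fun k hk hk2 => ?_⟩
      · rw [h5, abs_neg]
        exact h3.trans (le_abs_self _)
      · have hM : (0 : ℝ) ≤ D.M j := Nat.cast_nonneg _
        rcases lt_or_eq_of_le hk with h6 | h6
        · obtain ⟨h7, -⟩ := pvN_junction h6 hk2.le ga (D.sn j)
          rw [h7]
          rw [abs_lt] at hk2
          simp only [Complex.sub_im, Complex.ofReal_im, Complex.mul_im, Complex.I_re,
            Complex.I_im, Complex.ofReal_re]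
          rw [abs_le]
          constructor <;> linarith
        · rw [h6, abs_lt] at hk2
          rw [pvN_high (by linarith)]
          simp only [Complex.sub_im, Complex.ofReal_im, Complex.mul_im, Complex.I_re,
            Complex.I_im, Complex.ofReal_re]
          have h7 := st_nonneg (tau z j - 16 * D.M j)
          have h8 := Curve_867.st_le_one (tau z j - 16 * D.M j)
          have h9 : 16 * (D.M j : ℝ) * st (tau z j - 16 * D.M j) ≤ 16 * D.M j := by nlinarith
          have h10 : 0 ≤ 16 * (D.M j : ℝ) * st (tau z j - 16 * D.M j) := by positivity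
          rw [abs_le]
          constructor <;> linarith
    · right; right
      exact ⟨h1 ga, h4, h3 ga⟩
  · left
    push Not at hl
    obtain ⟨l, hl, h2⟩ := hl
    obtain ⟨p1, p2, p3, p4⟩ := pvN_lobe (ga := ga) (e := D.sn j) hl (by linarith : |tau z j - sgN l| ≤ 6)
    exact ⟨l, hl, h2, p1, p2, p3, p4⟩

theorem hP : (mk D cB ga d z).HP where
  pt0 := fun j => pt_mul_nonneg _ _
  eul := fun j => by
    by_cases hj : z j = 0
    · have e1 : (mk D cB ga d z).z j = 0 := hj
      rw [e1, pg_zero]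
      simp
    · exact pg_euler _ hj
  ptK := fun j h => by
    by_contra h1
    exact h (pt_of_le K_nonneg (not_lt.1 h1))
  zone := fun j _ => zone j
  off := fun j hj => pl_off (fun hh => hj ((Wp_iff j).2 hh)) ga

/-- **the derivative along `i e_j`.** -/
theorem w_eq (h : II (tw D) z) (j : Fin N) :
    dG D cB ga d z (LD.vt (Pi.single j (1 : ℝ))) = (mk D cB ga d z).w j := by
  classical
  rw [dG_apply, sum_dBe_vt h]
  have e1 : ∀ i : Fin N, dTN D ga d z i (LD.vt (Pi.single j (1 : ℝ))) =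
      if i = j then ((chid d (D.xr z j) * (pt D.K (z j) / √(AA z)) : ℝ) : ℂ) *
        plN ga (D.sn j) (D.M j) (z j) + (D.ch d z j : ℂ) * pbN (D.sn j) (D.M j) (z j) else 0 := by
    intro i
    rw [dTN_apply, h.dch_vt, vt_re, vt_im, Pi.single_apply, tw_xr, tw_K]
    by_cases hi : i = j
    · subst hi
      rw [if_pos rfl, if_pos rfl]
      push_cast
      ring
    · rw [if_neg hi, if_neg hi]
      simp
  rw [sum_congr rfl fun i _ => e1 i, sum_ite_eq' univ j, if_pos (mem_univ _)]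
  unfold PtN.w
  by_cases hW : 0 < (z j).re ∧ Wd (tw D) z j
  · have hW2 : |(z j).im| ≤ D.K * |(z j).re| := by
      have := hW.2
      unfold Wd at this
      rwa [tw_K] at this
    rw [if_pos ((Wp_iff j).2 hW), tB_eq h, X_eq h, pt_of_le K_nonneg hW2]
    have e2 : pbN (D.sn j) (D.M j) (z j) = pvdN (D.sn j) (D.M j) ((z j).im / (z j).re) :=
      if_pos hW.1
    rw [e2]
    have e3 : (mk D cB ga d z).pd j = pvdN (D.sn j) (D.M j) ((z j).im / (z j).re) := rfl
    rw [e3]
    simp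
  · rw [if_neg (fun hh => hW ((Wp_iff j).1 hh)), tB_off hW, (pa_off hW ga).2, X_eq h, cd_eq h]
    have e4 : (mk D cB ga d z).D = D := rfl
    have e5 : (mk D cB ga d z).z j = z j := rfl
    have e6 : (mk D cB ga d z).pt j = pt D.K (z j) := rfl
    have e7 : (mk D cB ga d z).ga = ga := rfl
    rw [e4, e5, e6, e7, nu_eq]
    push_cast
    ring

/-- **the derivative along `-(1, …, 1)`.** -/
theorem w0_eq (h : II (tw D) z) (hz : z ≠ 0) :
    dG D cB ga d z (LD.vs 1 0) = (mk D cB ga d z).w0 := by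
  classical
  rw [dG_apply, sum_dBe_vs h hz]
  unfold PtN.w0
  rw [Complex.ofReal_sum, ← sum_sub_distrib]
  refine sum_congr rfl fun j _ => ?_
  rw [dTN_apply, h.dch_vs, vs_re, vs_im, tw_xr, tw_K]
  unfold PtN.w0j
  have hnu := h.sqrt_pos hz
  by_cases hW : 0 < (z j).re ∧ Wd (tw D) z j
  · have hW2 : |(z j).im| ≤ D.K * |(z j).re| := by
      have := hW.2
      unfold Wd at this
      rwa [tw_K] at this
    rw [if_pos hW, if_pos ((Wp_iff j).2 hW), rho_eq h, HB_eq h]
    unfold PtN.w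
    rw [if_pos ((Wp_iff j).2 hW), tB_eq h, X_eq h]
    have e3 : (mk D cB ga d z).ta j = tau z j := rfl
    have e4 : (mk D cB ga d z).pd j = pvdN (D.sn j) (D.M j) (tau z j) := rfl
    have e5 : (mk D cB ga d z).pj j = pvN ga (D.sn j) (D.M j) (tau z j) := rfl
    rw [e3, e4, e5]
    have e6 : paN ga (D.sn j) (D.M j) (z j) = pvN ga (D.sn j) (D.M j) (tau z j) -
        (tau z j : ℂ) * pvdN (D.sn j) (D.M j) (tau z j) := if_pos hW.1
    rw [e6, plN_of_pos hW.1, ps_of_le K_nonneg hW2, abs_of_pos hW.1, div_self hW.1.ne']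
    have e7 : (z j).re = D.xr z j * √(AA z) := by
      have := h.xr_W hW.2
      rw [tw_xr, abs_of_pos hW.1] at this
      rw [this]
      field_simp
    have e8 : pvN ga (D.sn j) (D.M j) ((z j).im / (z j).re) =
        pvN ga (D.sn j) (D.M j) (tau z j) := rfl
    rw [e8]
    have e9 : ((chid d (D.xr z j) * (-1 + D.xr z j * S z) / √(AA z) : ℝ) : ℂ) *
        (((z j).re : ℂ) * pvN ga (D.sn j) (D.M j) (tau z j)) =
        ((chid d (D.xr z j) * (-1 + D.xr z j * S z) * D.xr z j : ℝ) : ℂ) *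
          pvN ga (D.sn j) (D.M j) (tau z j) := by
      rw [← mul_assoc, ← Complex.ofReal_mul]
      congr 2
      rw [e7]
      field_simp
    rw [e9]
    unfold rho
    rw [tw_xr, tw_ch]
    simp only [Pi.zero_apply]
    push_cast
    ring
  · rw [if_neg hW, if_neg (fun hh => hW ((Wp_iff j).1 hh)), (pa_off hW ga).1, X_eq h, cd_eq h,
      x_eq h, S_eq]
    have e4 : (mk D cB ga d z).D = D := rfl
    have e5 : (mk D cB ga d z).z j = z j := rfl
    have e6 : (mk D cB ga d z).ps j = ps D.K (z j) := rfl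
    have e7 : (mk D cB ga d z).ga = ga := rfl
    rw [e4, e5, e6, e7, nu_eq]
    simp only [Pi.zero_apply]
    push_cast
    ring

/-- **K2 in the region II.** -/
theorem k2IIN (hN : 3 ≤ N) (hK1 : D.K1Prop) : LD.Ev fun c g d => ∀ z : Fin N → ℂ, z ≠ 0 →
    BB z ≤ D.K1 ^ 2 * AA z → D.G c g d z = 0 → ∃ (a : ℝ) (Y : Fin N → ℝ), 0 ≤ a ∧
      (fderiv ℝ (D.G c g d) z (LD.vs a Y)).im = 0 ∧
      0 < (fderiv ℝ (D.G c g d) z (LD.vs a Y)).re := by
  refine (hK1.and (PtN.ev_cst D)).mono fun c g d hc0 hg0 hd0 ⟨hk, hcst⟩ z hz h' hG => ?_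
  classical
  have h : II (tw D) z := by
    unfold II
    rw [tw_K1]
    exact h'
  obtain ⟨Y0, hY0⟩ := hk z hz (by rw [hG]; simp) (by rw [hG]; simp)
  rw [fderiv_G D c g hd0 hz] at hY0
  have hnu : 0 < (mk D c g d z).nu := h.sqrt_pos hz
  -- some `w j` has non-zero imaginary part
  have hvt : ∀ Y : Fin N → ℝ, dG D c g d z (LD.vt Y) =
      ∑ j, (Y j : ℂ) * (mk D c g d z).w j := by
    intro Y
    rw [vt_eq_sum Y, map_sum]
    refine sum_congr rfl fun j _ => ?_
    rw [map_smul, w_eq h]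
    simp
  have hex : ∃ j, ((mk D c g d z).w j).im ≠ 0 := by
    by_contra h0
    push Not at h0
    refine hY0 ?_
    rw [hvt, Complex.im_sum]
    refine sum_eq_zero fun j _ => ?_
    rw [Complex.im_ofReal_mul, h0 j, mul_zero]
  -- the zero
  have hG' : ∑ j, ((mk D c g d z).X j : ℂ) * plN (mk D c g d z).ga ((mk D c g d z).D.sn j)
      ((mk D c g d z).D.M j) ((mk D c g d z).z j) =
      ((∑ e : Fin (mk D c g d z).D.nb, (mk D c g d z).cB * (mk D c g d z).ga *
      ((mk D c g d z).hh e * ∏ j ∈ (mk D c g d z).supp e, (mk D c g d z).la e j) : ℝ) : ℂ) := by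
    have e1 : D.G c g d z = ∑ j, (D.ch d z j : ℂ) * plN g (D.sn j) (D.M j) (z j) -
        ((c * g * ∑ e, D.Be d e z : ℝ) : ℂ) := rfl
    rw [e1, sub_eq_zero] at hG
    have e2 : ∀ j, ((mk D c g d z).X j : ℂ) * plN (mk D c g d z).ga ((mk D c g d z).D.sn j)
      ((mk D c g d z).D.M j) ((mk D c g d z).z j) =
        (D.ch d z j : ℂ) * plN g (D.sn j) (D.M j) (z j) := by
      intro j
      rw [X_eq h]
      rfl
    rw [sum_congr rfl fun j _ => e2 j, hG, mul_sum]
    congr 1
    refine sum_congr rfl fun e _ => ?_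
    have e3 : D.Be d e z = (mk D c g d z).hh e *
        ∏ j ∈ (mk D c g d z).supp e, (mk D c g d z).la e j := by
      rw [hh_eq h, Be_eq]
      rfl
    rw [e3]
    rfl
  have hpl : ∀ j, (mk D c g d z).Wp j → plN (mk D c g d z).ga ((mk D c g d z).D.sn j)
      ((mk D c g d z).D.M j) ((mk D c g d z).z j) =
      (((mk D c g d z).z j).re : ℂ) * (mk D c g d z).pj j := fun j hj => plN_of_pos hj.1
  have hpos : ∀ u : ℂ, u.re ^ 2 + u.im ^ 2 = 1 → 0 < u.re →
      (∀ j, rf u ((mk D c g d z).w j) = 0) → 0 < rf u (mk D c g d z).w0 := by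
    intro u hu hu0 hw
    exact PtN.rf_pos (PtN.sm_of _ hN hcst) hP hnu (fun u eu => PtN.con_of _ hN hcst u eu) hG' hpl
      hu hu0 hw
  obtain ⟨a, Y, ha, h1, h2⟩ := K2c_867.farkas (mk D c g d z).w (mk D c g d z).w0 hex hpos
  have e : fderiv ℝ (D.G c g d) z (LD.vs a Y) =
      (a : ℂ) * (mk D c g d z).w0 + ∑ j, (Y j : ℂ) * (mk D c g d z).w j := by
    rw [fderiv_G D c g hd0 hz, vs_eq, map_add, map_smul, w0_eq h hz, hvt]
    simp
  refine ⟨a, Y, ha, ?_, ?_⟩
  · rw [e]; exact h1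
  · rw [e]; exact h2

end Crest.Agent.R267.K2IIN_867
end
end

-- ▼ part R267/K2N_957

/-!
# Row 267, T3aN: K2Prop for the signed function (`3 ≤ N`)
-/

set_option autoImplicit false

namespace Crest.Agent.R267.K2N_957

open Crest.Agent.R267.T3aNDefs_88

variable {N : ℕ}

/-- **K2 for the signed function.** -/
theorem k2N (D : SD N) (hN : 3 ≤ N) : D.K2Prop :=
  ((K2IN_957.k2IN D).and (K2IIN_867.k2IIN hN (K1N_957.k1N D))).mono
    fun c g d _ _ _ ⟨h1, h2⟩ z hz hG => by
      by_cases h : Calc4N_88.II D z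
      · exact h2 z hz h hG
      · obtain ⟨Y, a, b⟩ := h1 z hz h
        exact ⟨1, Y, zero_le_one, a, b⟩

end Crest.Agent.R267.K2N_957
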