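import Crest.Agent.R267.GlNDefs_9
import Crest.Agent.R267.GlC2a_930
import Crest.Agent.R267.SmoothN_957
import Crest.Agent.R267.CalcN_88
import Crest.Agent.R267.GlnPl_984
import Crest.Agent.R267.GlCp_322
import Crest.Agent.R267.HmC_951
import Crest.Agent.R267.HmD_951
import Crest.Agent.R267.GlBas_322
import Crest.Agent.R267.T3aNBas_277
import Crest.Agent.R267.GlC2b_796
import Crest.Agent.R267.GlCont_649
import Crest.Agent.R267.GlnAlign_684_Mg
import Crest.Agent.R267.SegN_951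
import Crest.Agent.R267.GlOpen_128
import Crest.Agent.R267.K2N_957
import Crest.Agent.R267.K2IN_957

-- ▼ part R267/GlnC2a_433
section

/-!
# Row 267 (helper433), GLN-C2a: `FSN` and `F8N` are `C²` and homogeneous of degree `8`

* `pvN_ne`, `plN_ne`: the signed planar function has no zero off `0` (`0 < ga < 2`, signs `±1`);
* `contDiff_PSN`, `contDiff_P8N`, `contDiff_wzr` (`pg^a wz`, `a > 2`), `contDiff_GS` (harmonic
  combination of `(s⁺)⁸` with windows), `boxN_eq` (the deletions of `F8N` in this form);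
* `contDiff_FSN`, `contDiff_F8N`, `FSN_smul`, `F8N_smul`; weights `1 / 8`: `FSN_act`, `F8N_act`.
-/

set_option autoImplicit false

noncomputable section

open Finset Set
open Crest.Agent.R267.T3aDefs_957 (st Af Bf pg NN chi)
open Crest.Agent.R267.T3aNDefs_88 Crest.Agent.R267.GlNDefs_9
open Crest.Agent.R267.GlueDefs_322 (rho)
open Crest.Agent.R267.Calc_957 (tp tp_of_nonpos tp_of_nonneg tp_nonneg contDiff_tp)
open Crest.Agent.R267.CalcN_88 (casesN_tau pvN_low pvN_high pvN_cell pvN_vert yc_in abs_sn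
  winN_nonneg winN_le_one)
open Crest.Agent.R267.SmoothN_957 (contDiffAt_plN farN_nhds contDiff_winN winN_far)
open Crest.Agent.R267.HmC2_957 (Hm_congr Hm_of_nonpos Hm_of_pos Hm_nonneg Hm_erase contDiffAt_Hm)

namespace Crest.Agent.R267.GlnC2a_433

/-! ### homogeneous functions of degree `> 2` -/

section Hom

variable {E F : Type*} [NormedAddCommGroup E] [NormedSpace ℝ E]
  [NormedAddCommGroup F] [NormedSpace ℝ F]

/-- homogeneous of real degree `a > 2` and `C²` off the origin: `C²`. -/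
theorem contDiff_of_homr [FiniteDimensional ℝ E] {f : E → F} {a : ℝ} (ha : 2 < a)
    (hC : ∀ x, x ≠ 0 → ContDiffAt ℝ 2 f x) (h0 : f 0 = 0)
    (hom : ∀ r : ℝ, 0 < r → ∀ x, f (r • x) = r ^ a • f x) : ContDiff ℝ 2 f := by
  have h1 := Pow_951.contDiffOn_of_hom (T := Set.univ) (D := fun _ => a)
    (H := fun p : ℝ × E => f p.2) isOpen_univ contDiffOn_const (fun _ _ => ha)
    (fun p hp => ((hC p.2 hp.2).comp p contDiffAt_snd).contDiffWithinAt) (fun _ _ => h0)
    (fun _ _ r hr x => hom r hr x)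
  rw [Set.univ_prod_univ, contDiffOn_univ] at h1
  exact h1.comp ((contDiff_const (c := (0 : ℝ))).prodMk contDiff_id)

end Hom

/-! ### homogeneity of the planar functions -/

theorem plN_smul (ga : ℝ) (e : ℕ → ℝ) (M : ℕ) {r : ℝ} (hr : 0 < r) (z : ℂ) :
    plN ga e M (r • z) = r • plN ga e M z := by
  unfold plN
  rw [GlC2a_930.slope_smul hr, GlC2a_930.re_smul', GlC2a_930.im_smul']
  by_cases h : 0 < z.re
  · rw [if_pos h, if_pos (mul_pos hr h), Complex.real_smul]
    push_cast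
    ring
  · rw [if_neg h, if_neg fun h' => h ((mul_pos_iff_of_pos_left hr).1 h'), Complex.real_smul]
    push_cast
    ring

theorem wz_smul (m m' : ℕ) {r : ℝ} (hr : 0 < r) (z : ℂ) : wz m m' (r • z) = wz m m' z := by
  unfold wz
  rw [GlC2a_930.slope_smul hr, GlC2a_930.re_smul']
  by_cases h : 0 < z.re
  · rw [if_pos h, if_pos (mul_pos hr h)]
  · rw [if_neg h, if_neg fun h' => h ((mul_pos_iff_of_pos_left hr).1 h')]

theorem P8N_smul (K ga : ℝ) (e : ℕ → ℝ) (M : ℕ) {r : ℝ} (hr : 0 < r) (z : ℂ) :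
    P8N K ga e M (r • z) = r ^ 8 • P8N K ga e M z := by
  unfold P8N
  rw [GlC2a_930.pg_smul K hr, plN_smul ga e M hr, Complex.real_smul, Complex.real_smul]
  push_cast
  ring

theorem PSN_smul (K ga : ℝ) (e : ℕ → ℝ) (M : ℕ) {r : ℝ} (hr : 0 < r) (z : ℂ) :
    PSN K ga e M (r • z) = r ^ 8 • PSN K ga e M z := by
  unfold PSN
  rw [GlC2a_930.pg_smul K hr, plN_smul ga e M hr, norm_smul, Real.norm_of_nonneg hr.le,
    Complex.real_smul, Complex.real_smul]
  rcases eq_or_ne (plN ga e M z) 0 with h | h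
  · rw [h]; simp
  · have h1 : (‖plN ga e M z‖ : ℂ) ≠ 0 := by exact_mod_cast (norm_pos_iff.2 h).ne'
    have h2 : (r : ℂ) ≠ 0 := by exact_mod_cast hr.ne'
    push_cast
    field_simp

/-! ### no zeros -/

theorem pvN_ne {ga : ℝ} (h0 : 0 < ga) (h2 : ga < 2) {e : ℕ → ℝ} (he : ∀ l, |e l| = 1) (M : ℕ)
    (τ : ℝ) : pvN ga e M τ ≠ 0 := by
  by_cases hv : ∀ l < M, 3 ≤ |τ - sgN l|
  · intro h
    have hre := congrArg Complex.re h
    rw [(pvN_vert he hv).1 ga] at hre
    simp at hre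
    linarith
  · push Not at hv
    obtain ⟨l, hl, h3⟩ := hv
    intro h
    have hre := congrArg Complex.re h
    have him := congrArg Complex.im h
    rw [pvN_cell hl (by linarith), (yc_in (by linarith)).1] at hre him
    simp at hre him
    have hel : e l ≠ 0 := by
      intro h4
      have := he l
      rw [h4, abs_zero] at this
      exact zero_ne_one this
    have hB : Bf (τ - sgN l) = 0 := by
      rcases him with h4 | h4
      · exact absurd h4 hel
      · exact h4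
    rcases GlC2a_930.Bf_eq_zero hB with h4 | h4
    · rw [h4, Calc_957.Af_of_le (by simp)] at hre
      linarith
    · linarith

/-- **the planar function has no zero off the origin** -/
theorem plN_ne {ga : ℝ} (h0 : 0 < ga) (h2 : ga < 2) {e : ℕ → ℝ} (he : ∀ l, |e l| = 1) (M : ℕ)
    {z : ℂ} (hz : z ≠ 0) : plN ga e M z ≠ 0 := by
  rcases le_or_gt z.re 0 with h | h
  · rw [CalcN_88.plN_of_nonpos h]
    intro h1
    have hre := congrArg Complex.re h1
    have him := congrArg Complex.im h1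
    simp at hre him
    refine hz (Complex.ext ?_ him)
    rcases hre with h3 | h3
    · exfalso; linarith
    · exact h3
  · rw [CalcN_88.plN_of_pos h]
    exact mul_ne_zero (by exact_mod_cast h.ne') (pvN_ne h0 h2 he M _)

/-! ### `C²` on the plane -/


/-- **`P8N` is `C²`** -/
theorem contDiff_P8N (K ga : ℝ) (e : ℕ → ℝ) (M : ℕ) : ContDiff ℝ 2 (P8N K ga e M) := by
  refine GlC2a_930.contDiff_of_hom (n := 8) (by norm_num) (fun z hz => ?_)
    fun r hr z => P8N_smul K ga e M hr z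
  have h1 := ((GlC2a_930.contDiffAt_pg K hz).pow 7)
  exact ((GlC2a_930.contDiff_ofReal.contDiffAt.comp z h1).mul
    (contDiffAt_plN ga e M hz)).contDiffWithinAt

/-- **`PSN` is `C²`** -/
theorem contDiff_PSN (K : ℝ) {ga : ℝ} (h0 : 0 < ga) (h2 : ga < 2) {e : ℕ → ℝ}
    (he : ∀ l, |e l| = 1) (M : ℕ) : ContDiff ℝ 2 (PSN K ga e M) := by
  refine GlC2a_930.contDiff_of_hom (n := 8) (by norm_num) (fun z hz => ?_)
    fun r hr z => PSN_smul K ga e M hr z
  have hne := plN_ne h0 h2 he M (show z ≠ 0 from hz)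
  have h1 : ContDiffAt ℝ 2 (fun w => pg K w ^ 8 / ‖plN ga e M w‖) z :=
    ((GlC2a_930.contDiffAt_pg K hz).pow 8).div ((contDiffAt_plN ga e M hz).norm ℝ hne)
      (norm_pos_iff.2 hne).ne'
  exact ((GlC2a_930.contDiff_ofReal.contDiffAt.comp z h1).mul
    (contDiffAt_plN ga e M hz)).contDiffWithinAt

/-! ### windows -/

theorem wz_of_pos {m m' : ℕ} {z : ℂ} (h : 0 < z.re) : wz m m' z = winN m m' (z.im / z.re) :=
  if_pos h

theorem wz_of_nonpos {m m' : ℕ} {z : ℂ} (h : z.re ≤ 0) : wz m m' z = 0 := if_neg (not_lt.2 h)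

theorem wz_nonneg (m m' : ℕ) (z : ℂ) : 0 ≤ wz m m' z := by
  unfold wz
  split_ifs
  · exact winN_nonneg _ _ _
  · exact le_rfl


theorem wz_far {m m' M : ℕ} (hm : m' ≤ M) {z : ℂ} (h : (16 * (M : ℝ) + 1) * z.re ≤ |z.im|) :
    wz m m' z = 0 := by
  rcases le_or_gt z.re 0 with h0 | h0
  · exact wz_of_nonpos h0
  · rw [wz_of_pos h0, winN_far hm h0 h]

/-- near a point `z ≠ 0`, `Re z ≤ 0` the window function vanishes -/
theorem wz_nhds {m m' : ℕ} {z : ℂ} (h0 : z.re ≤ 0) (hz : z ≠ 0) :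
    ∀ᶠ w in nhds z, wz m m' w = 0 := by
  filter_upwards [farN_nhds (M := m') h0 hz] with w hw
  exact wz_far le_rfl hw

theorem re_pos_nhds {z : ℂ} (h : 0 < z.re) : ∀ᶠ w : ℂ in nhds z, 0 < w.re :=
  Complex.continuous_re.continuousAt.eventually (lt_mem_nhds h)

theorem contDiffAt_wz (m m' : ℕ) {z : ℂ} (hz : z ≠ 0) : ContDiffAt ℝ 2 (wz m m') z := by
  rcases le_or_gt z.re 0 with h0 | h0
  · exact (contDiffAt_const (c := (0 : ℝ))).congr_of_eventuallyEq (wz_nhds h0 hz)
  · have h1 : wz m m' =ᶠ[nhds z] fun w : ℂ => winN m m' (w.im / w.re) := by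
      filter_upwards [re_pos_nhds h0] with w hw
      exact wz_of_pos hw
    exact (ContDiffAt.comp z (g := winN m m') (contDiff_winN m m').contDiffAt
      (GlC2a_930.contDiffAt_slope h0.ne')).congr_of_eventuallyEq h1

/-- **`pg^a wz` is `C²` for `a > 2`** -/
theorem contDiff_wzr (K : ℝ) {a : ℝ} (ha : 2 < a) (m m' : ℕ) :
    ContDiff ℝ 2 fun z => pg K z ^ a * wz m m' z := by
  refine contDiff_of_homr ha (fun z hz => ?_) ?_ fun r hr z => ?_
  · exact ((GlC2a_930.contDiffAt_pg K hz).rpow_const_of_ne (Calc2_957.pg_pos hz).ne').mul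
      (contDiffAt_wz m m' hz)
  · show pg K 0 ^ a * wz m m' 0 = 0
    rw [wz_of_nonpos (by simp), mul_zero]
  · show pg K (r • z) ^ a * wz m m' (r • z) = r ^ a • (pg K z ^ a * wz m m' z)
    rw [GlC2a_930.pg_smul K hr, wz_smul m m' hr, Real.mul_rpow hr.le (Calc2_957.pg_nonneg K z),
      smul_eq_mul, mul_assoc]

/-! ### the harmonic combination with windows -/

section GS

variable {ι : Type} [Fintype ι]

/-- the root: `(s⁺)^(8/3)` -/
def rt (y : ℝ) : ℝ := max 0 y ^ (8 / 3 : ℝ)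

theorem contDiff_rt : ContDiff ℝ 2 rt := by
  refine contDiff_of_homr (a := 8 / 3) (by norm_num) (fun y hy => ?_) ?_ fun r hr y => ?_
  · rcases lt_or_gt_of_ne hy with h | h
    · refine (contDiffAt_const (c := (0 : ℝ))).congr_of_eventuallyEq ?_
      filter_upwards [gt_mem_nhds h] with w hw
      unfold rt
      rw [max_eq_left (le_of_lt hw), Real.zero_rpow (by norm_num)]
    · refine ((contDiffAt_id (x := y)).rpow_const_of_ne (p := 8 / 3)
        h.ne').congr_of_eventuallyEq ?_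
      filter_upwards [lt_mem_nhds h] with w hw
      unfold rt
      rw [max_eq_right (le_of_lt hw)]
      rfl
  · unfold rt
    rw [max_self, Real.zero_rpow (by norm_num)]
  · unfold rt
    rw [smul_eq_mul, smul_eq_mul, ← Real.mul_rpow hr.le (le_max_left _ _),
      mul_max_of_nonneg _ _ hr.le, mul_zero]

theorem tp_rt (y : ℝ) : tp 3 (rt y) = tp 8 y := by
  have h0 : 0 ≤ rt y := Real.rpow_nonneg (le_max_left _ _) _
  rw [tp_of_nonneg h0]
  unfold rt tp
  rw [← Real.rpow_natCast, ← Real.rpow_mul (le_max_left _ _), ← Real.rpow_natCast]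
  norm_num

theorem tp8_pos {x : ℝ} (h : 0 < x) : 0 < tp 8 x := by
  rw [tp_of_nonneg h.le]; positivity

theorem tp8_mul {r : ℝ} (hr : 0 < r) (x : ℝ) : tp 8 (r * x) = r ^ 8 * tp 8 x := by
  unfold tp
  rw [← mul_pow, mul_max_of_nonneg _ _ hr.le, mul_zero]

/-- the harmonic combination of eighth powers of positive parts is `C²` -/
theorem contDiffAt_H8 {E : Type*} [NormedAddCommGroup E] [NormedSpace ℝ E] {S : Finset ι}
    {R : E → ι → ℝ} {z : E} (h : ∀ j ∈ S, ContDiffAt ℝ 2 (fun w => R w j) z) :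
    ContDiffAt ℝ 2 (fun w => Hm S fun j => tp 8 (R w j)) z :=
  contDiffAt_Hm (R := fun w j => tp 8 (R w j)) fun j hj =>
    ⟨fun w => rt (R w j), contDiff_rt.contDiffAt.comp z (h j hj),
      Filter.Eventually.of_forall fun _ => (tp_rt _).symm⟩

/-- harmonic combination of `(s⁺)⁸` with windows -/
def GS (lo hi : ι → ℕ) (S : Finset ι) (z : ι → ℂ) : ℝ :=
  Hm S (fun j => tp 8 (z j).re) * ∏ j ∈ S, winN (lo j) (hi j) ((z j).im / (z j).re)

theorem GS_congr (lo hi : ι → ℕ) {S : Finset ι} {z w : ι → ℂ} (h : ∀ j ∈ S, z j = w j) :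
    GS lo hi S z = GS lo hi S w := by
  unfold GS
  rw [Hm_congr (R' := fun j => tp 8 (w j).re) fun j hj => by rw [h j hj],
    Finset.prod_congr rfl fun j hj => by rw [h j hj]]

theorem GS_smul (lo hi : ι → ℕ) (S : Finset ι) {r : ℝ} (hr : 0 < r) (z : ι → ℂ) :
    GS lo hi S (r • z) = r ^ 8 * GS lo hi S z := by
  unfold GS
  have h1 : Hm S (fun j => tp 8 ((r • z) j).re) = r ^ 8 * Hm S fun j => tp 8 (z j).re := by
    rw [← HmC2_957.Hm_smul (by positivity : 0 < r ^ 8)]
    refine Hm_congr fun j _ => ?_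
    rw [Pi.smul_apply, GlC2a_930.re_smul', tp8_mul hr]
  have h2 : ∏ j ∈ S, winN (lo j) (hi j) (((r • z) j).im / ((r • z) j).re) =
      ∏ j ∈ S, winN (lo j) (hi j) ((z j).im / (z j).re) :=
    Finset.prod_congr rfl fun j _ => by rw [Pi.smul_apply, GlC2a_930.slope_smul hr]
  rw [h1, h2, mul_assoc]

theorem GS_of_nonpos (lo hi : ι → ℕ) {S : Finset ι} {z : ι → ℂ} {j : ι} (hj : j ∈ S)
    (h : (z j).re ≤ 0) : GS lo hi S z = 0 := by
  unfold GS
  rw [Hm_of_nonpos hj (tp_of_nonpos (by norm_num) h).le, zero_mul]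

/-- near a point with `z j ≠ 0`, `Re z j ≤ 0` it vanishes -/
theorem GS_nhds (lo hi : ι → ℕ) {S : Finset ι} {z : ι → ℂ} {j : ι} (hj : j ∈ S)
    (h : (z j).re ≤ 0) (hz : z j ≠ 0) : ∀ᶠ w in nhds z, GS lo hi S w = 0 := by
  have h1 : ∀ᶠ w : ι → ℂ in nhds z, (16 * (hi j : ℝ) + 1) * (w j).re ≤ |(w j).im| :=
    (continuous_apply j).continuousAt.eventually (farN_nhds h hz)
  filter_upwards [h1] with w hw
  rcases le_or_gt (w j).re 0 with h2 | h2
  · exact GS_of_nonpos lo hi hj h2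
  · unfold GS
    rw [Finset.prod_eq_zero hj (winN_far le_rfl h2 hw), mul_zero]

theorem contDiffAt_re (z : ι → ℂ) (j : ι) : ContDiffAt ℝ 2 (fun w : ι → ℂ => (w j).re) z :=
  (Complex.reCLM.contDiff.comp (contDiff_apply ℝ ℂ j)).contDiffAt

theorem contDiffAt_im (z : ι → ℂ) (j : ι) : ContDiffAt ℝ 2 (fun w : ι → ℂ => (w j).im) z :=
  (Complex.imCLM.contDiff.comp (contDiff_apply ℝ ℂ j)).contDiffAt

theorem contDiffAt_rw (lo hi : ι → ℕ) {z : ι → ℂ} {j : ι} (h : 0 < (z j).re) :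
    ContDiffAt ℝ 2 (fun w : ι → ℂ => tp 8 (w j).re *
      winN (lo j) (hi j) ((w j).im / (w j).re)) z :=
  (((contDiff_tp 2 8 (by norm_num)).contDiffAt).comp z (contDiffAt_re z j)).mul
    (ContDiffAt.comp z (g := winN (lo j) (hi j)) (contDiff_winN _ _).contDiffAt
      ((contDiffAt_im z j).div (contDiffAt_re z j) h.ne'))

open Classical in
theorem contDiffAt_GS_of_ne (lo hi : ι → ℕ) {S : Finset ι}
    (ih : ∀ j ∈ S, ContDiff ℝ 2 (GS lo hi (S.erase j))) {z : ι → ℂ} (h : ∃ j ∈ S, z j ≠ 0) :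
    ContDiffAt ℝ 2 (GS lo hi S) z := by
  obtain ⟨j, hj, hz⟩ := h
  rcases le_or_gt (z j).re 0 with h0 | h0
  · exact (contDiffAt_const (c := (0 : ℝ))).congr_of_eventuallyEq (GS_nhds lo hi hj h0 hz)
  · have hn : ∀ᶠ w : ι → ℂ in nhds z, 0 < (w j).re :=
      (continuous_apply j).continuousAt.eventually (re_pos_nhds h0)
    rcases (S.erase j).eq_empty_or_nonempty with hS | hS
    · refine (contDiffAt_rw lo hi h0).congr_of_eventuallyEq ?_
      have hS' : S = {j} := by
        rw [← insert_erase hj, hS]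
        rfl
      filter_upwards [hn] with w hw
      unfold GS
      rw [hS', Hm_of_pos (fun i hi => by rw [Finset.mem_singleton.1 hi]; exact tp8_pos hw),
        Finset.sum_singleton, one_div_one_div, Finset.prod_singleton]
    · have c1 := contDiffAt_rw lo hi h0
      have c2 := (ih j hj).contDiffAt (x := z)
      have c3 : ContDiffAt ℝ 2 (fun w : ι → ℂ => tp 8 (w j).re) z :=
        ((contDiff_tp 2 8 (by norm_num)).contDiffAt).comp z (contDiffAt_re z j)
      have c4 : ContDiffAt ℝ 2 (fun w : ι → ℂ => Hm (S.erase j) fun i => tp 8 (w i).re) z :=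
        contDiffAt_H8 (R := fun (w : ι → ℂ) i => (w i).re) fun i _ => contDiffAt_re z i
      have h1 := tp8_pos h0
      have h2 := Hm_nonneg (S.erase j) fun i => tp 8 (z i).re
      refine ((c1.mul c2).div (c3.add c4) (by
        show tp 8 (z j).re + Hm (S.erase j) (fun i => tp 8 (z i).re) ≠ 0
        linarith)).congr_of_eventuallyEq ?_
      filter_upwards [hn] with w hw
      show GS lo hi S w = tp 8 (w j).re * winN (lo j) (hi j) ((w j).im / (w j).re) *
        GS lo hi (S.erase j) w / (tp 8 (w j).re + Hm (S.erase j) fun i => tp 8 (w i).re)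
      unfold GS
      rw [Hm_erase (R := fun i => tp 8 (w i).re) hj (tp8_pos hw) hS fun i _ => tp_nonneg 8 _,
        ← Finset.mul_prod_erase S _ hj]
      unfold Smooth_957.hm
      ring

/-- extension by zero. -/
def extC (S : Finset ι) : (S → ℂ) →L[ℝ] (ι → ℂ) :=
  open Classical in
  ContinuousLinearMap.pi fun i => if h : i ∈ S then ContinuousLinearMap.proj ⟨i, h⟩ else 0

/-- restriction. -/
def resC (S : Finset ι) : (ι → ℂ) →L[ℝ] (S → ℂ) :=
  ContinuousLinearMap.pi fun i => ContinuousLinearMap.proj (i : ι)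

omit [Fintype ι] in
theorem extC_apply {S : Finset ι} (y : S → ℂ) {i : ι} (hi : i ∈ S) :
    extC S y i = y ⟨i, hi⟩ := by
  unfold extC
  simp [hi]

open Classical in
/-- **the harmonic combination with windows is `C²`.** -/
theorem contDiff_GS (lo hi : ι → ℕ) (S : Finset ι) : ContDiff ℝ 2 (GS lo hi S) := by
  induction S using Finset.strongInduction with
  | H S ih =>
    have ih' : ∀ j ∈ S, ContDiff ℝ 2 (GS lo hi (S.erase j)) := fun j hj =>
      ih _ (erase_ssubset hj)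
    have h2 : GS lo hi S = fun z : ι → ℂ => GS lo hi S (extC S (resC S z)) := by
      funext z
      refine GS_congr lo hi fun j hj => ?_
      rw [extC_apply _ hj]
      rfl
    rw [h2]
    have key : ContDiff ℝ 2 fun y : S → ℂ => GS lo hi S (extC S y) := by
      refine GlC2a_930.contDiff_of_hom (n := 8) (by norm_num) (fun y hy => ?_) fun r hr y => ?_
      · have hne : ∃ j ∈ S, extC S y j ≠ 0 := by
          by_contra h
          push Not at h
          apply hy
          funext j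
          have := h j j.2
          rwa [extC_apply _ j.2] at this
        exact (ContDiffAt.comp y (g := GS lo hi S) (contDiffAt_GS_of_ne lo hi ih' hne)
          (extC S).contDiff.contDiffAt).contDiffWithinAt
      · show GS lo hi S (extC S (r • y)) = r ^ 8 • GS lo hi S (extC S y)
        rw [map_smul, GS_smul lo hi S hr, smul_eq_mul]
    exact key.comp (resC S).contDiff

end GS

/-! ### the deletions of `F8N` -/

theorem pgN_of_win {K : ℝ} {m m' M : ℕ} (hm : m' ≤ M) (hK : 16 * (M : ℝ) + 2 ≤ K) {z : ℂ}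
    (h0 : 0 < z.re) (h : winN m m' (z.im / z.re) ≠ 0) : pg K z = z.re := by
  have h1 : |z.im| < (16 * (M : ℝ) + 1) * z.re := by
    by_contra h2
    exact h (winN_far hm h0 (not_lt.1 h2))
  have h2 : (0 : ℝ) ≤ M := M.cast_nonneg
  have h3 := Calc2_957.pg_of_le (K := K) (by linarith) (z := z)
    (by rw [abs_of_pos h0]; nlinarith)
  rw [h3, abs_of_pos h0]

theorem rhoN_of_win {K : ℝ} {m m' M : ℕ} (hm : m' ≤ M) (hK : 16 * (M : ℝ) + 2 ≤ K) {z : ℂ}
    (h : winN m m' (z.im / z.re) ≠ 0) : rho K z = tp 8 z.re := by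
  rcases le_or_gt z.re 0 with h0 | h0
  · rw [GlC2a_930.rho_of_nonpos K h0, tp_of_nonpos (by norm_num) h0]
  · unfold rho tp
    rw [pgN_of_win hm hK h0 h, max_eq_right h0.le]
    ring

section Box

variable {N : ℕ} (D : SD N)

/-- deletion of the box `e`, degree `8` -/
def Bx8 (K : ℝ) (e : Fin D.nb) (z : Fin N → ℂ) : ℝ :=
  Hm (D.bx e).S (fun j => rho K (z j)) *
    ∏ j ∈ (D.bx e).S, winN ((D.bx e).lo j) ((D.bx e).hi j) ((z j).im / (z j).re)

theorem Bx8_eq {K : ℝ} (hK : ∀ j, 16 * (D.M j : ℝ) + 2 ≤ K) (e : Fin D.nb) (z : Fin N → ℂ) :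
    Bx8 D K e z = GS (D.bx e).lo (D.bx e).hi (D.bx e).S z := by
  unfold Bx8 GS
  by_cases h : ∀ j ∈ (D.bx e).S, winN ((D.bx e).lo j) ((D.bx e).hi j) ((z j).im / (z j).re) ≠ 0
  · rw [Hm_congr (R' := fun j => tp 8 (z j).re) fun j hj =>
      rhoN_of_win (D.hhi e j hj) (hK j) (h j hj)]
  · push Not at h
    obtain ⟨j, hj, h0⟩ := h
    rw [Finset.prod_eq_zero hj h0, mul_zero, mul_zero]

theorem contDiff_Bx8 {K : ℝ} (hK : ∀ j, 16 * (D.M j : ℝ) + 2 ≤ K) (e : Fin D.nb) :
    ContDiff ℝ 2 (Bx8 D K e) := by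
  have h1 : Bx8 D K e = GS (D.bx e).lo (D.bx e).hi (D.bx e).S := funext fun z => Bx8_eq D hK e z
  rw [h1]
  exact contDiff_GS _ _ _

theorem Bx8_smul (K : ℝ) (e : Fin D.nb) {r : ℝ} (hr : 0 < r) (z : Fin N → ℂ) :
    Bx8 D K e (r • z) = r ^ 8 * Bx8 D K e z := by
  unfold Bx8
  have h1 : Hm (D.bx e).S (fun j => rho K ((r • z) j)) =
      r ^ 8 * Hm (D.bx e).S fun j => rho K (z j) := by
    rw [← HmC2_957.Hm_smul (by positivity : 0 < r ^ 8)]
    refine Hm_congr fun j _ => ?_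
    rw [Pi.smul_apply, GlC2a_930.rho_smul K hr]
  have h2 : ∏ j ∈ (D.bx e).S, winN ((D.bx e).lo j) ((D.bx e).hi j)
        (((r • z) j).im / ((r • z) j).re) =
      ∏ j ∈ (D.bx e).S, winN ((D.bx e).lo j) ((D.bx e).hi j) ((z j).im / (z j).re) :=
    Finset.prod_congr rfl fun j _ => by rw [Pi.smul_apply, GlC2a_930.slope_smul hr]
  rw [h1, h2, mul_assoc]

/-- cut-off of the box `e` in `FSN` -/
def Cx8 (K : ℝ) (e : Fin D.nb) (z : Fin N → ℂ) : ℝ :=
  ∏ j ∈ (D.bx e).S,
    (pg K (z j) ^ (8 / cd D e) * wz ((D.bx e).lo j) ((D.bx e).hi j) (z j))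

theorem cd_pos (e : Fin D.nb) : 0 < cd D e := by
  have h := D.h2 e
  have h1 : (2 : ℝ) ≤ (D.bx e).S.card := by exact_mod_cast h
  unfold cd
  linarith

theorem deg_gt (h3 : ∀ e, cd D e ≤ 3) (e : Fin D.nb) : 2 < 8 / cd D e := by
  rw [lt_div_iff₀ (cd_pos D e)]
  have := h3 e
  linarith

theorem contDiff_Cx8 (K : ℝ) (h3 : ∀ e, cd D e ≤ 3) (e : Fin D.nb) :
    ContDiff ℝ 2 (Cx8 D K e) := by
  unfold Cx8
  exact contDiff_prod fun j _ => (contDiff_wzr K (deg_gt D h3 e) _ _).comp (contDiff_apply ℝ ℂ j)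

theorem Cx8_smul (K : ℝ) (e : Fin D.nb) {r : ℝ} (hr : 0 < r) (z : Fin N → ℂ) :
    Cx8 D K e (r • z) = r ^ 8 * Cx8 D K e z := by
  unfold Cx8
  have h1 : ∀ j ∈ (D.bx e).S, (pg K ((r • z) j) ^ (8 / cd D e) *
      wz ((D.bx e).lo j) ((D.bx e).hi j) ((r • z) j)) = r ^ (8 / cd D e) *
      (pg K (z j) ^ (8 / cd D e) * wz ((D.bx e).lo j) ((D.bx e).hi j) (z j)) := by
    intro j _
    rw [Pi.smul_apply, GlC2a_930.pg_smul K hr, wz_smul _ _ hr,
      Real.mul_rpow hr.le (Calc2_957.pg_nonneg K _), mul_assoc]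
  rw [Finset.prod_congr rfl h1, Finset.prod_mul_distrib, Finset.prod_const]
  congr 1
  rw [← Real.rpow_natCast, ← Real.rpow_mul hr.le]
  have h2 : 8 / cd D e * ((D.bx e).S.card : ℝ) = ((8 : ℕ) : ℝ) := by
    have h3 := (cd_pos D e).ne'
    unfold cd at h3 ⊢
    field_simp
    norm_num
  rw [h2, Real.rpow_natCast]

/-! ### the functions of several variables -/

theorem F8N_eq (K cB ga : ℝ) (z : Fin N → ℂ) : F8N D K cB ga z =
    ∑ j, P8N K ga (D.sn j) (D.M j) (z j) - ((cB * ga * ∑ e, Bx8 D K e z : ℝ) : ℂ) := rfl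

theorem FSN_eq (K ga c : ℝ) (z : Fin N → ℂ) : FSN D K ga c z =
    ∑ j, PSN K ga (D.sn j) (D.M j) (z j) - ((c * ∑ e, Cx8 D K e z : ℝ) : ℂ) := rfl

theorem F8N_smul (K cB ga : ℝ) {r : ℝ} (hr : 0 < r) (z : Fin N → ℂ) :
    F8N D K cB ga (r • z) = r ^ 8 • F8N D K cB ga z := by
  rw [F8N_eq, F8N_eq]
  simp only [Pi.smul_apply, P8N_smul K ga _ _ hr, Bx8_smul D K _ hr]
  rw [← Finset.smul_sum, ← Finset.mul_sum, smul_sub]
  congr 1
  rw [Complex.real_smul, ← Complex.ofReal_mul, mul_left_comm]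

theorem FSN_smul (K ga c : ℝ) {r : ℝ} (hr : 0 < r) (z : Fin N → ℂ) :
    FSN D K ga c (r • z) = r ^ 8 • FSN D K ga c z := by
  rw [FSN_eq, FSN_eq]
  simp only [Pi.smul_apply, PSN_smul K ga _ _ hr, Cx8_smul D K _ hr]
  rw [← Finset.smul_sum, ← Finset.mul_sum, smul_sub]
  congr 1
  rw [Complex.real_smul, ← Complex.ofReal_mul, mul_left_comm]

/-- **`F8N` is `C²`** -/
theorem contDiff_F8N {K : ℝ} (hK : ∀ j, 16 * (D.M j : ℝ) + 2 ≤ K) (cB ga : ℝ) :
    ContDiff ℝ 2 (F8N D K cB ga) := by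
  have h1 : ContDiff ℝ 2 fun z : Fin N → ℂ => ∑ j, P8N K ga (D.sn j) (D.M j) (z j) :=
    ContDiff.sum fun j _ => (contDiff_P8N K ga (D.sn j) (D.M j)).comp (contDiff_apply ℝ ℂ j)
  have h2 : ContDiff ℝ 2 fun z : Fin N → ℂ => cB * ga * ∑ e, Bx8 D K e z :=
    contDiff_const.mul (ContDiff.sum fun e _ => contDiff_Bx8 D hK e)
  exact h1.sub (GlC2a_930.contDiff_ofReal.comp h2)

/-- **`FSN` is `C²`** -/
theorem contDiff_FSN (K : ℝ) (h3 : ∀ e, cd D e ≤ 3) {ga : ℝ} (h0 : 0 < ga) (h2 : ga < 2)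
    (c : ℝ) : ContDiff ℝ 2 (FSN D K ga c) := by
  have h1 : ContDiff ℝ 2 fun z : Fin N → ℂ => ∑ j, PSN K ga (D.sn j) (D.M j) (z j) :=
    ContDiff.sum fun j _ =>
      (contDiff_PSN K h0 h2 (abs_sn D j) (D.M j)).comp (contDiff_apply ℝ ℂ j)
  have h4 : ContDiff ℝ 2 fun z : Fin N → ℂ => c * ∑ e, Cx8 D K e z :=
    contDiff_const.mul (ContDiff.sum fun e _ => contDiff_Cx8 D K h3 e)
  exact h1.sub (GlC2a_930.contDiff_ofReal.comp h4)

variable {D}

/-- **GLN-C2a**: `FSN` is `C²` -/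
theorem fsnC {K ga : ℝ} (hS : Std D K) (h0 : 0 < ga) (h2 : ga < 2) (c : ℝ) :
    ContDiff ℝ 2 (FSN D K ga c) := contDiff_FSN D K hS.cd3 h0 h2 c

/-- **GLN-C2a**: `F8N` is `C²` -/
theorem f8nC {K : ℝ} (hS : Std D K) (cB ga : ℝ) : ContDiff ℝ 2 (F8N D K cB ga) :=
  contDiff_F8N D hS.K16 cB ga

theorem fsnC_on {K ga : ℝ} (hS : Std D K) (h0 : 0 < ga) (h2 : ga ≤ 1 / 8) (c : ℝ) :
    ContDiffOn ℝ 2 (FSN D K ga c) {0}ᶜ := (fsnC hS h0 (by linarith) c).contDiffOn

theorem f8nC_on {K : ℝ} (hS : Std D K) (cB ga : ℝ) : ContDiffOn ℝ 2 (F8N D K cB ga) {0}ᶜ :=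
  (f8nC hS cB ga).contDiffOn



end Box

end Crest.Agent.R267.GlnC2a_433
end
end

-- ▼ part R267/GlnLine_984
section

/-!
# Row 267 (helper984): GLN-LINE

`lineP`: the straight line from `FSN` to `F8N` is `0`-regular (in fact regular over `Re ≥ 0`).
-/

set_option autoImplicit false
set_option linter.unusedSectionVars false

noncomputable section

open Finset Filter Topology
open Crest.Agent.R267.T3aDefs_957 (st Af Bf pg pl NN chi)
open Crest.Agent.R267.T3aNDefs_88 Crest.Agent.R267.GlNDefs_9 Crest.Agent.R267.LemL_951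
open Crest.Agent.R267.Hm_951 Crest.Agent.R267.GlnPl_984
open Crest.Agent.R267.GlueDefs_322 (rho)
open Crest.Agent.R267.GlCp_322 (line_deriv fderiv_line im_line re_line zone_line rho_nonneg
  rho_of_nonpos)
open Crest.Agent.R267.GlLn_322 (lobB_reg2)

namespace Crest.Agent.R267.GlnLine_984

variable {N : ℕ}

/-! ### the couplings -/

/-- the product coupling of a box -/
def TT (D : SD N) (K : ℝ) (e : Fin D.nb) (z : Fin N → ℂ) : ℝ :=
  ∏ j ∈ (D.bx e).S, (pg K (z j) ^ (8 / cd D e) * wz ((D.bx e).lo j) ((D.bx e).hi j) (z j))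

/-- the window of a box -/
def WW (D : SD N) (e : Fin D.nb) (z : Fin N → ℂ) : ℝ :=
  ∏ j ∈ (D.bx e).S, winN ((D.bx e).lo j) ((D.bx e).hi j) ((z j).im / (z j).re)

/-- harmonic mean of a box -/
def HR (D : SD N) (K : ℝ) (e : Fin D.nb) (z : Fin N → ℂ) : ℝ :=
  Hm (D.bx e).S fun j => rho K (z j)

/-- the coupling of the line -/
def bN (D : SD N) (K κ t : ℝ) (e : Fin D.nb) (z : Fin N → ℂ) : ℝ :=
  (1 - t) * (4 * TT D K e z) + t * (κ * (HR D K e z * WW D e z))

/-- share of the variable `i` -/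
def shN (D : SD N) (K κ t : ℝ) (e : Fin D.nb) (z : Fin N → ℂ) (i : Fin N) : ℝ :=
  (1 - t) * (4 * (TT D K e z / cd D e)) +
    t * (κ * (HR D K e z ^ 2 / rho K (z i) * WW D e z))

variable {D : SD N} {K κ t : ℝ}

theorem wz_nonneg (m m' : ℕ) (z : ℂ) : 0 ≤ wz m m' z := by
  unfold wz
  split_ifs
  · exact CalcN_88.winN_nonneg _ _ _
  · exact le_rfl

theorem TT_nonneg (e : Fin D.nb) (z : Fin N → ℂ) : 0 ≤ TT D K e z :=
  prod_nonneg fun _ _ => mul_nonneg (Real.rpow_nonneg (GlBas_322.pg_nonneg _ _) _)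
    (wz_nonneg _ _ _)

theorem WW_nonneg (e : Fin D.nb) (z : Fin N → ℂ) : 0 ≤ WW D e z :=
  prod_nonneg fun _ _ => CalcN_88.winN_nonneg _ _ _


theorem cd_pos (e : Fin D.nb) : 0 < cd D e := by
  have := GlnStar_649.cd_two D e
  linarith

theorem shN_nonneg (ht : 0 ≤ t) (ht1 : t ≤ 1) (hκ : 0 ≤ κ) (e : Fin D.nb) (z : Fin N → ℂ)
    (i : Fin N) : 0 ≤ shN D K κ t e z i := by
  unfold shN
  have h1 := TT_nonneg (K := K) e z
  have h2 := WW_nonneg e z
  have h3 := rho_nonneg K (z i)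
  have h4 := cd_pos e
  have h5 : 0 ≤ 1 - t := by linarith
  positivity

theorem Hm_pos {ι : Type} {S : Finset ι} {R : ι → ℝ} (hS : S.Nonempty) (h : ∀ j ∈ S, 0 < R j) :
    0 < Hm S R := by
  classical
  unfold T3aNDefs_88.Hm
  rw [if_pos h]
  exact one_div_pos.2 (sum_pos (fun j hj => one_div_pos.2 (h j hj)) hS)

theorem S_ne (e : Fin D.nb) : (D.bx e).S.Nonempty :=
  card_pos.1 (lt_of_lt_of_le two_pos (D.h2 e))

/-- the shares add up -/
theorem sum_shN (e : Fin D.nb) (z : Fin N → ℂ) :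
    ∑ i ∈ (D.bx e).S, shN D K κ t e z i = bN D K κ t e z := by
  unfold shN bN
  rw [sum_add_distrib, sum_const, ← mul_sum, ← mul_sum, ← sum_mul, nsmul_eq_mul]
  have h1 : ((D.bx e).S.card : ℝ) = cd D e := rfl
  have h2 := (cd_pos e).ne'
  have h3 : ∑ i ∈ (D.bx e).S, HR D K e z ^ 2 / rho K (z i) = HR D K e z := by
    by_cases h : ∀ j ∈ (D.bx e).S, 0 < rho K (z j)
    · have h4 : HR D K e z = 1 / ∑ j ∈ (D.bx e).S, 1 / rho K (z j) := by
        classical
        unfold HR T3aNDefs_88.Hm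
        exact if_pos h
      have h5 : 0 < HR D K e z := Hm_pos (S_ne e) h
      have h6 : ∑ i ∈ (D.bx e).S, HR D K e z ^ 2 / rho K (z i) =
          HR D K e z ^ 2 * ∑ j ∈ (D.bx e).S, 1 / rho K (z j) := by
        rw [mul_sum]
        exact sum_congr rfl fun i _ => by ring
      have h7 : ∑ j ∈ (D.bx e).S, 1 / rho K (z j) = 1 / HR D K e z := by
        rw [h4, one_div_one_div]
      rw [h6, h7]
      field_simp
    · have h4 : HR D K e z = 0 := by
        classical
        unfold HR T3aNDefs_88.Hm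
        exact if_neg h
      rw [h4]
      simp
  rw [h3, h1]
  congr 1
  field_simp

/-! ### lines -/

theorem line_single (z : Fin N → ℂ) (i : Fin N) (v : ℂ) (s : ℝ) :
    z + s • (Pi.single i v : Fin N → ℂ) = Function.update z i (z i + s • v) := by
  funext j
  by_cases h : j = i
  · subst h
    simp
  · simp [h]

/-- nothing happens outside `S` -/
theorem bN_off {e : Fin D.nb} {i : Fin N} (hi : i ∉ (D.bx e).S) (z : Fin N → ℂ) (w : ℂ) :
    bN D K κ t e (Function.update z i w) = bN D K κ t e z := by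
  have h : ∀ j ∈ (D.bx e).S, Function.update z i w j = z j := by
    intro j hj
    have hji : j ≠ i := by
      rintro rfl
      exact hi hj
    exact Function.update_of_ne hji _ _
  have e1 : TT D K e (Function.update z i w) = TT D K e z := by
    unfold TT
    exact prod_congr rfl fun j hj => by rw [h j hj]
  have e2 : WW D e (Function.update z i w) = WW D e z := by
    unfold WW
    exact prod_congr rfl fun j hj => by rw [h j hj]
  have e3 : HR D K e (Function.update z i w) = HR D K e z := by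
    classical
    unfold HR T3aNDefs_88.Hm
    have h1 : (∀ j ∈ (D.bx e).S, 0 < rho K (Function.update z i w j)) ↔
        ∀ j ∈ (D.bx e).S, 0 < rho K (z j) :=
      forall₂_congr fun j hj => by rw [h j hj]
    have h2 : ∑ j ∈ (D.bx e).S, 1 / rho K (Function.update z i w j) =
        ∑ j ∈ (D.bx e).S, 1 / rho K (z j) := sum_congr rfl fun j hj => by rw [h j hj]
    rw [h2]
    by_cases h3 : ∀ j ∈ (D.bx e).S, 0 < rho K (z j)
    · rw [if_pos h3, if_pos (h1.2 h3)]
    · rw [if_neg h3, if_neg (fun h4 => h3 (h1.1 h4))]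
  unfold bN
  rw [e1, e2, e3]

/-- the coupling only depends on pg, wz, rho, win of the variable -/
theorem bN_congr (e : Fin D.nb) {i : Fin N} (z : Fin N → ℂ) {w : ℂ} (h1 : pg K w = pg K (z i))
    (h2 : wz ((D.bx e).lo i) ((D.bx e).hi i) w = wz ((D.bx e).lo i) ((D.bx e).hi i) (z i))
    (h3 : rho K w = rho K (z i))
    (h4 : winN ((D.bx e).lo i) ((D.bx e).hi i) (w.im / w.re) =
      winN ((D.bx e).lo i) ((D.bx e).hi i) ((z i).im / (z i).re)) :
    bN D K κ t e (Function.update z i w) = bN D K κ t e z := by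
  have e1 : TT D K e (Function.update z i w) = TT D K e z := by
    unfold TT
    refine prod_congr rfl fun j _ => ?_
    by_cases hj : j = i
    · subst hj
      rw [Function.update_self, h1, h2]
    · rw [Function.update_of_ne hj]
  have e2 : WW D e (Function.update z i w) = WW D e z := by
    unfold WW
    refine prod_congr rfl fun j _ => ?_
    by_cases hj : j = i
    · subst hj
      rw [Function.update_self, h4]
    · rw [Function.update_of_ne hj]
  have e3 : HR D K e (Function.update z i w) = HR D K e z := by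
    unfold HR
    congr 1
    funext j
    by_cases hj : j = i
    · subst hj
      rw [Function.update_self, h3]
    · rw [Function.update_of_ne hj]
  unfold bN
  rw [e1, e2, e3]

/-- the coupling vanishes if one variable is out -/
theorem bN_zero {e : Fin D.nb} {i : Fin N} (hi : i ∈ (D.bx e).S) (z : Fin N → ℂ)
    (h1 : wz ((D.bx e).lo i) ((D.bx e).hi i) (z i) = 0)
    (h2 : rho K (z i) = 0 ∨ winN ((D.bx e).lo i) ((D.bx e).hi i) ((z i).im / (z i).re) = 0) :
    bN D K κ t e z = 0 := by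
  have e1 : TT D K e z = 0 := prod_eq_zero hi (by rw [h1, mul_zero])
  have e2 : HR D K e z * WW D e z = 0 := by
    rcases h2 with h2 | h2
    · unfold HR
      rw [T3aNBas_277.Hm_eq_zero hi h2.le, zero_mul]
    · rw [show WW D e z = 0 from prod_eq_zero hi h2, mul_zero]
  unfold bN
  rw [e1, e2]
  simp

/-- far from the window -/
theorem out_far {m m' : ℕ} {u : ℂ} (h : (16 * (m' : ℝ) + 1) * u.re ≤ |u.im|) :
    wz m m' u = 0 ∧ (rho K u = 0 ∨ winN m m' (u.im / u.re) = 0) := by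
  rcases le_or_gt u.re 0 with h0 | h0
  · refine ⟨?_, Or.inl (rho_of_nonpos h0)⟩
    unfold wz
    rw [if_neg (not_lt.2 h0)]
  · have h1 : winN m m' (u.im / u.re) = 0 := by
      refine CalcN_88.winN_far ?_
      rw [abs_div, abs_of_pos h0, le_div_iff₀ h0]
      exact h
    refine ⟨?_, Or.inr h1⟩
    unfold wz
    rw [if_pos h0, h1]

/-- the flat side: plate -/
theorem bN_flat (e : Fin D.nb) {i : Fin N} {z : Fin N → ℂ} (hz : z i ≠ 0) (hre : (z i).re ≤ 0)
    (v : ℂ) : ∀ᶠ s : ℝ in 𝓝 0, bN D K κ t e (z + s • (Pi.single i v : Fin N → ℂ)) =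
      bN D K κ t e z := by
  by_cases hi : i ∈ (D.bx e).S
  swap
  · filter_upwards with s
    rw [line_single, bN_off hi]
  have h1 : Tendsto (fun s : ℝ => z i + s • v) (𝓝 0) (𝓝 (z i)) := by
    have : Continuous fun s : ℝ => z i + s • v := by fun_prop
    simpa using this.tendsto 0
  have h2 := CalcN_88.farN_nhds (M := (D.bx e).hi i) hre hz
  have h0 := h2.self_of_nhds
  obtain ⟨a1, a2⟩ := out_far (K := K) (m := (D.bx e).lo i) h0
  rw [bN_zero hi z a1 a2]
  filter_upwards [h1.eventually h2] with s hs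
  obtain ⟨b1, b2⟩ := out_far (K := K) (m := (D.bx e).lo i) hs
  rw [line_single]
  exact bN_zero hi _ (by rw [Function.update_self]; exact b1)
    (by rw [Function.update_self]; exact b2)

/-- the zone: vertical direction -/
theorem bN_vert (e : Fin D.nb) {i : Fin N} {z : Fin N → ℂ} (hre : 0 < (z i).re) {l : ℕ}
    (hl : l < D.M i) (hK : 16 * (D.M i : ℝ) + 2 ≤ K) (h : |(z i).im / (z i).re - sgN l| < 3 / 2) :
    ∀ᶠ s : ℝ in 𝓝 0, bN D K κ t e (z + s • (Pi.single i Complex.I : Fin N → ℂ)) =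
      bN D K κ t e z := by
  filter_upwards [zone_line hre h] with s hs
  rw [line_single]
  have h4 : 0 < (z i + s • Complex.I).re := by rwa [re_line]
  have hw : ∀ m m' : ℕ, winN m m' ((z i + s • Complex.I).im / (z i + s • Complex.I).re) =
      winN m m' ((z i).im / (z i).re) := by
    intro m m'
    rw [(CalcN_88.winN_cell (by linarith)).1,
      (CalcN_88.winN_cell (by linarith : |(z i).im / (z i).re - sgN l| ≤ 7)).1]
  refine bN_congr e z ?_ ?_ ?_ (hw _ _)
  · rw [pg_zone hl hK h4 hs, pg_zone hl hK hre h, re_line]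
  · unfold wz
    rw [if_pos h4, if_pos hre, hw]
  · rw [rho_zone hl hK h4 hs, rho_zone hl hK hre h, re_line]

/-! ### radial derivative -/

/-- harmonic mean with one variable scaled -/
theorem hasDerivAt_hm {C R : ℝ} (hC : 0 ≤ C) (hR : 0 < R) :
    HasDerivAt (fun s : ℝ => 1 / (C + 1 / ((1 + s) ^ 8 * R)))
      (8 * ((1 / (C + 1 / R)) ^ 2 / R)) 0 := by
  have h1 : HasDerivAt (fun s : ℝ => (1 + s) ^ 8 * R) (8 * R) 0 := by
    have h2 := (((hasDerivAt_id (0 : ℝ)).const_add 1).fun_pow 8).mul_const R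
    refine h2.congr_deriv ?_
    simp
  have h2 : HasDerivAt (fun s : ℝ => C + 1 / ((1 + s) ^ 8 * R)) (-(8 / R)) 0 := by
    have h3 := (h1.fun_inv (by simpa using hR.ne')).const_add C
    simp only [one_div]
    refine h3.congr_deriv ?_
    simp
    field_simp
  have h4 : (0 : ℝ) < C + 1 / R := by positivity
  have h3 := h2.fun_inv (by simpa using h4.ne')
  simp only [one_div] at h3 ⊢
  refine h3.congr_deriv ?_
  simp only [add_zero, one_pow, one_mul]
  have h5 : C + R⁻¹ ≠ 0 := by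
    rw [one_div] at h4
    exact h4.ne'
  field_simp

/-- radial derivative of the harmonic mean -/
theorem HR_rad {e : Fin D.nb} {i : Fin N} (hi : i ∈ (D.bx e).S) (z : Fin N → ℂ) :
    HasDerivAt (fun s : ℝ => HR D K e (z + s • (Pi.single i (z i) : Fin N → ℂ)))
      (8 * (HR D K e z ^ 2 / rho K (z i))) 0 := by
  classical
  have hs : ∀ᶠ s : ℝ in 𝓝 0, 0 < 1 + s := by
    have : Continuous fun s : ℝ => 1 + s := by fun_prop
    exact this.continuousAt.eventually (lt_mem_nhds (by norm_num))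
  have hval : ∀ s : ℝ, 0 < 1 + s → ∀ j, rho K ((z + s • (Pi.single i (z i) : Fin N → ℂ)) j) =
      if j = i then (1 + s) ^ 8 * rho K (z i) else rho K (z j) := by
    intro s hs j
    rw [line_single]
    by_cases hj : j = i
    · subst hj
      rw [if_pos rfl, Function.update_self,
        show z j + s • z j = ((1 + s : ℝ) : ℂ) * z j by
          rw [Complex.real_smul]; push_cast; ring, GlCp_322.rho_smul hs]
    · rw [if_neg hj, Function.update_of_ne hj]
  by_cases h : ∀ j ∈ (D.bx e).S, 0 < rho K (z j)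
  · set C : ℝ := ∑ j ∈ (D.bx e).S.erase i, 1 / rho K (z j) with hC
    have hC0 : 0 ≤ C := sum_nonneg fun j hj => one_div_nonneg.2 (h j (mem_of_mem_erase hj)).le
    have hH : HR D K e z = 1 / (C + 1 / rho K (z i)) := by
      unfold HR T3aNDefs_88.Hm
      rw [if_pos h, hC, sum_erase_add _ _ hi]
    rw [hH]
    refine (hasDerivAt_hm hC0 (h i hi)).congr_of_eventuallyEq ?_
    filter_upwards [hs] with s hs
    unfold HR T3aNDefs_88.Hm
    have h1 : ∀ j ∈ (D.bx e).S, 0 < rho K ((z + s • (Pi.single i (z i) : Fin N → ℂ)) j) := by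
      intro j hj
      rw [hval s hs]
      split_ifs
      · exact mul_pos (by positivity) (h i hi)
      · exact h j hj
    rw [if_pos h1, hC, ← sum_erase_add _ _ hi]
    simp only
    rw [hval s hs i, if_pos rfl]
    congr 2
    refine sum_congr rfl fun j hj => ?_
    rw [hval s hs j, if_neg (ne_of_mem_erase hj)]
  · have hH : ∀ s : ℝ, 0 < 1 + s → HR D K e (z + s • (Pi.single i (z i) : Fin N → ℂ)) = 0 := by
      intro s hs
      push Not at h
      obtain ⟨j, hj, hj2⟩ := h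
      refine T3aNBas_277.Hm_eq_zero hj ?_
      rw [hval s hs]
      split_ifs with h1
      · subst h1
        exact mul_nonpos_of_nonneg_of_nonpos (by positivity) hj2
      · exact hj2
    have h0 : HR D K e z = 0 := by
      have := hH 0 (by norm_num)
      simpa using this
    rw [h0]
    simp only [ne_eq, OfNat.ofNat_ne_zero, not_false_eq_true, zero_pow, zero_div, mul_zero]
    refine (hasDerivAt_const (0 : ℝ) (0 : ℝ)).congr_of_eventuallyEq ?_
    filter_upwards [hs] with s hs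
    exact hH s hs

theorem TT_rad {e : Fin D.nb} {i : Fin N} (hi : i ∈ (D.bx e).S) (z : Fin N → ℂ) :
    HasDerivAt (fun s : ℝ => TT D K e (z + s • (Pi.single i (z i) : Fin N → ℂ)))
      (8 * (TT D K e z / cd D e)) 0 := by
  have hs : ∀ᶠ s : ℝ in 𝓝 0, 0 < 1 + s := by
    have : Continuous fun s : ℝ => 1 + s := by fun_prop
    exact this.continuousAt.eventually (lt_mem_nhds (by norm_num))
  have h1 : HasDerivAt (fun s : ℝ => (1 + s) ^ (8 / cd D e) * TT D K e z)
      (8 * (TT D K e z / cd D e)) 0 := by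
    have h2 := ((hasDerivAt_id (0 : ℝ)).const_add 1).rpow_const (p := 8 / cd D e)
      (Or.inl (by simp))
    refine (h2.mul_const (TT D K e z)).congr_deriv ?_
    simp
    ring
  refine h1.congr_of_eventuallyEq ?_
  filter_upwards [hs] with s hs
  unfold TT
  rw [← mul_prod_erase _ _ hi, ← mul_prod_erase _ _ hi, line_single, Function.update_self,
    show z i + s • z i = ((1 + s : ℝ) : ℂ) * z i by
      rw [Complex.real_smul]; push_cast; ring, GlBas_322.pg_smul hs,
    GlnStar_649.wz_smul _ _ hs, Real.mul_rpow hs.le (GlBas_322.pg_nonneg _ _)]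
  have h2 : ∏ j ∈ (D.bx e).S.erase i, (pg K (Function.update z i (((1 + s : ℝ) : ℂ) * z i) j) ^
      (8 / cd D e) * wz ((D.bx e).lo j) ((D.bx e).hi j)
        (Function.update z i (((1 + s : ℝ) : ℂ) * z i) j)) =
      ∏ j ∈ (D.bx e).S.erase i, (pg K (z j) ^ (8 / cd D e) *
        wz ((D.bx e).lo j) ((D.bx e).hi j) (z j)) :=
    prod_congr rfl fun j hj => by rw [Function.update_of_ne (ne_of_mem_erase hj)]
  rw [h2]
  ring

theorem WW_rad (e : Fin D.nb) (i : Fin N) (z : Fin N → ℂ) :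
    ∀ᶠ s : ℝ in 𝓝 0, WW D e (z + s • (Pi.single i (z i) : Fin N → ℂ)) = WW D e z := by
  have hs : ∀ᶠ s : ℝ in 𝓝 0, 0 < 1 + s := by
    have : Continuous fun s : ℝ => 1 + s := by fun_prop
    exact this.continuousAt.eventually (lt_mem_nhds (by norm_num))
  filter_upwards [hs] with s hs
  unfold WW
  refine prod_congr rfl fun j _ => ?_
  rw [line_single]
  by_cases hj : j = i
  · subst hj
    rw [Function.update_self, show z j + s • z j = ((1 + s : ℝ) : ℂ) * z j by
          rw [Complex.real_smul]; push_cast; ring, Complex.re_ofReal_mul, Complex.im_ofReal_mul,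
      mul_div_mul_left _ _ hs.ne']
  · rw [Function.update_of_ne hj]

theorem bN_rad {e : Fin D.nb} {i : Fin N} (hi : i ∈ (D.bx e).S) (z : Fin N → ℂ) :
    HasDerivAt (fun s : ℝ => bN D K κ t e (z + s • (Pi.single i (z i) : Fin N → ℂ)))
      (8 * shN D K κ t e z i) 0 := by
  have h1 := ((TT_rad (K := K) hi z).const_mul 4).const_mul (1 - t)
  have h2 := (((HR_rad (K := K) hi z).mul_const (WW D e z)).const_mul κ).const_mul t
  refine ((h1.fun_add h2).congr_deriv ?_).congr_of_eventuallyEq ?_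
  · unfold shN
    ring
  · filter_upwards [WW_rad e i z] with s hs
    unfold bN
    rw [hs]

/-! ### (NC) -/

theorem rpow_card {n : ℝ} (hn : 0 < n) {x : ℝ} (hx : 0 ≤ x) (m : ℕ) (hm : (m : ℝ) = n) :
    (x ^ (8 / n)) ^ m = x ^ 8 := by
  rw [← Real.rpow_natCast, ← Real.rpow_mul hx, hm, div_mul_cancel₀ _ hn.ne',
    show (8 : ℝ) = ((8 : ℕ) : ℝ) by norm_num, Real.rpow_natCast]

/-- **(NC)** at a point of the zones -/
theorem bN_nc {ga : ℝ} (hg : 0 < ga) (ht : 0 ≤ t) (ht1 : t ≤ 1) (hκ : 9 * ga < κ)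
    (e : Fin D.nb) (hcd : cd D e ≤ 3) {z : Fin N → ℂ}
    (hre : ∀ j ∈ (D.bx e).S, 0 < (z j).re) (hpg : ∀ j ∈ (D.bx e).S, pg K (z j) = (z j).re)
    (hw : ∀ j ∈ (D.bx e).S, winN ((D.bx e).lo j) ((D.bx e).hi j) ((z j).im / (z j).re) = 1) :
    ∃ i ∈ (D.bx e).S, ((1 - t) + t * ga) * (z i).re ^ 8 < shN D K κ t e z i := by
  obtain ⟨i, hi, hmin⟩ := exists_min_image (D.bx e).S (fun j => (z j).re) (S_ne e)
  refine ⟨i, hi, ?_⟩
  have hn := cd_pos e
  have hn2 := GlnStar_649.cd_two D e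
  have hcard : ((D.bx e).S.card : ℝ) = cd D e := rfl
  set n := cd D e with hnd
  set x := (z i).re with hx
  have hx0 : 0 < x := hre i hi
  have hrho : ∀ j ∈ (D.bx e).S, rho K (z j) = (z j).re ^ 8 := by
    intro j hj
    unfold rho
    rw [hpg j hj, max_eq_right (hre j hj).le]
    ring
  have hWW : WW D e z = 1 := prod_eq_one hw
  have hTT : x ^ 8 ≤ TT D K e z := by
    have h1 : ∏ _j ∈ (D.bx e).S, x ^ (8 / n) ≤ TT D K e z := by
      refine prod_le_prod (fun _ _ => Real.rpow_nonneg hx0.le _) fun j hj => ?_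
      rw [hpg j hj]
      unfold wz
      rw [if_pos (hre j hj), hw j hj, mul_one]
      exact Real.rpow_le_rpow hx0.le (hmin j hj) (by positivity)
    rw [prod_const, rpow_card hn hx0.le _ hcard] at h1
    exact h1
  have hpos : ∀ j ∈ (D.bx e).S, 0 < rho K (z j) := fun j hj => by
    rw [hrho j hj]
    have := hre j hj
    positivity
  have hHR : x ^ 8 / n ≤ HR D K e z := by
    classical
    unfold HR T3aNDefs_88.Hm
    rw [if_pos hpos, div_le_div_iff₀ hn (sum_pos (fun j hj => one_div_pos.2 (hpos j hj)) (S_ne e)),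
      one_mul]
    have h1 : ∑ j ∈ (D.bx e).S, 1 / rho K (z j) ≤ ∑ _j ∈ (D.bx e).S, 1 / x ^ 8 := by
      refine sum_le_sum fun j hj => ?_
      rw [hrho j hj]
      exact one_div_le_one_div_of_le (by positivity) (pow_le_pow_left₀ hx0.le (hmin j hj) 8)
    rw [sum_const, nsmul_eq_mul, hcard] at h1
    calc x ^ 8 * ∑ j ∈ (D.bx e).S, 1 / rho K (z j) ≤ x ^ 8 * (n * (1 / x ^ 8)) :=
          mul_le_mul_of_nonneg_left h1 (by positivity)
      _ = n := by field_simp
  have hH2 : x ^ 8 / 9 ≤ HR D K e z ^ 2 / x ^ 8 := by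
    rw [div_le_div_iff₀ (by norm_num) (by positivity)]
    have h1 : x ^ 8 / 3 ≤ HR D K e z :=
      (div_le_div_of_nonneg_left (by positivity) hn hcd).trans hHR
    have h2 : (x ^ 8 / 3) ^ 2 ≤ HR D K e z ^ 2 := pow_le_pow_left₀ (by positivity) h1 2
    nlinarith [h2]
  have hT3 : x ^ 8 * (4 / 3) ≤ 4 * (TT D K e z / n) := by
    have h1 : x ^ 8 / 3 ≤ TT D K e z / n :=
      div_le_div₀ (le_trans (by positivity) hTT) hTT hn hcd
    linarith
  unfold shN
  rw [hWW, hrho i hi, mul_one]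
  have hκ0 : 0 < κ := by linarith
  have a1 : (1 - t) * (x ^ 8 * (4 / 3)) ≤ (1 - t) * (4 * (TT D K e z / n)) :=
    mul_le_mul_of_nonneg_left hT3 (by linarith)
  have a2 : t * (κ * (x ^ 8 / 9)) ≤ t * (κ * (HR D K e z ^ 2 / x ^ 8)) :=
    mul_le_mul_of_nonneg_left (mul_le_mul_of_nonneg_left hH2 hκ0.le) ht
  have a3 : ((1 - t) + t * ga) * x ^ 8 < (1 - t) * (x ^ 8 * (4 / 3)) + t * (κ * (x ^ 8 / 9)) := by
    have h7 : (1 - t) * (x ^ 8 * (4 / 3)) + t * (κ * (x ^ 8 / 9)) - ((1 - t) + t * ga) * x ^ 8 =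
        ((1 - t) * (1 / 3) + t * (κ / 9 - ga)) * x ^ 8 := by ring
    have h8 : 0 < (1 - t) * (1 / 3) + t * (κ / 9 - ga) := by
      rcases ht.lt_or_eq with h9 | h9
      · exact add_pos_of_nonneg_of_pos (mul_nonneg (by linarith) (by norm_num))
          (mul_pos h9 (by linarith))
      · rw [← h9]
        norm_num
    have := mul_pos h8 (by positivity : 0 < x ^ 8)
    linarith
  linarith

/-! ### homogeneity -/

theorem TT_smul (e : Fin D.nb) {r : ℝ} (hr : 0 < r) (z : Fin N → ℂ) :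
    TT D K e (r • z) = r ^ 8 * TT D K e z := by
  have hn := cd_pos e
  unfold TT
  have h1 : ∀ j ∈ (D.bx e).S, pg K ((r • z) j) ^ (8 / cd D e) *
      wz ((D.bx e).lo j) ((D.bx e).hi j) ((r • z) j) = r ^ (8 / cd D e) *
      (pg K (z j) ^ (8 / cd D e) * wz ((D.bx e).lo j) ((D.bx e).hi j) (z j)) := by
    intro j _
    rw [Pi.smul_apply, Complex.real_smul, GlBas_322.pg_smul hr, GlnStar_649.wz_smul _ _ hr,
      Real.mul_rpow hr.le (GlBas_322.pg_nonneg _ _)]
    ring
  rw [prod_congr rfl h1, prod_mul_distrib, prod_const, rpow_card hn hr.le _ rfl]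

theorem WW_smul (e : Fin D.nb) {r : ℝ} (hr : 0 < r) (z : Fin N → ℂ) :
    WW D e (r • z) = WW D e z := by
  unfold WW
  refine prod_congr rfl fun j _ => ?_
  rw [Pi.smul_apply, GlC2a_930.slope_smul hr]

theorem HR_smul (e : Fin D.nb) {r : ℝ} (hr : 0 < r) (z : Fin N → ℂ) :
    HR D K e (r • z) = r ^ 8 * HR D K e z := by
  unfold HR
  rw [← T3aNBas_277.Hm_smul _ _ (by positivity : 0 < r ^ 8)]
  congr 1
  funext j
  rw [Pi.smul_apply, Complex.real_smul, GlCp_322.rho_smul hr]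

theorem FSN_eq (D : SD N) (K ga c : ℝ) (z : Fin N → ℂ) : FSN D K ga c z =
    ∑ j, PSN K ga (D.sn j) (D.M j) (z j) - ((c * ∑ e, TT D K e z : ℝ) : ℂ) := rfl

theorem F8N_eq (D : SD N) (K cB ga : ℝ) (z : Fin N → ℂ) : F8N D K cB ga z =
    ∑ j, P8N K ga (D.sn j) (D.M j) (z j) -
      ((cB * ga * ∑ e, HR D K e z * WW D e z : ℝ) : ℂ) := rfl

theorem FSN_smul (D : SD N) (K ga c : ℝ) {r : ℝ} (hr : 0 < r) (z : Fin N → ℂ) :
    FSN D K ga c (r • z) = r ^ 8 • FSN D K ga c z := by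
  rw [FSN_eq, FSN_eq]
  simp only [TT_smul _ hr, Pi.smul_apply, ← mul_sum]
  have h1 : ∀ j, PSN K ga (D.sn j) (D.M j) (r • z j) =
      (r ^ 8 : ℝ) • PSN K ga (D.sn j) (D.M j) (z j) := fun j => by
    rw [Complex.real_smul, PSN_smul hr]
  simp only [h1, ← smul_sum, smul_sub]
  congr 1
  rw [Complex.real_smul, ← Complex.ofReal_mul]
  congr 1
  ring

theorem F8N_smul (D : SD N) (K cB ga : ℝ) {r : ℝ} (hr : 0 < r) (z : Fin N → ℂ) :
    F8N D K cB ga (r • z) = r ^ 8 • F8N D K cB ga z := by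
  rw [F8N_eq, F8N_eq]
  simp only [HR_smul _ hr, WW_smul _ hr, Pi.smul_apply]
  have h1 : ∀ j, P8N K ga (D.sn j) (D.M j) (r • z j) =
      (r ^ 8 : ℝ) • P8N K ga (D.sn j) (D.M j) (z j) := fun j => by
    rw [Complex.real_smul, P8N_smul hr]
  simp only [h1, ← smul_sum, smul_sub, mul_assoc, ← mul_sum]
  congr 1
  rw [Complex.real_smul, ← Complex.ofReal_mul]
  congr 1
  ring

/-! ### the line -/

/-- **GLN-C2a** -/
def C2aP (D : SD N) : Prop := ∀ K ga cB : ℝ, Std D K → 0 < ga → ga ≤ 1 / 8 →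
  ContDiffOn ℝ 2 (FSN D K ga 4) {0}ᶜ ∧ ContDiffOn ℝ 2 (F8N D K cB ga) {0}ᶜ

/-- **GLN-LINE**, given GLN-C2a -/
theorem lineP_of (D : SD N) (hC : C2aP D) : LineP D := by
  intro K ga cB hD hg hg1 hcB
  obtain ⟨cFS, cF8⟩ := hC K ga cB hD hg hg1
  have hwS : ∀ (s : ℝ) (z : Fin N → ℂ), FSN D K ga 4
      (Cone_808.act (fun _ => (1 / 8 : ℝ)) s z) = Real.exp s • FSN D K ga 4 z :=
    GlC2a_930.wh_of_hom8 fun r hr z => FSN_smul D K ga 4 hr z
  have hwF : ∀ (s : ℝ) (z : Fin N → ℂ), F8N D K cB ga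
      (Cone_808.act (fun _ => (1 / 8 : ℝ)) s z) = Real.exp s • F8N D K cB ga z :=
    GlC2a_930.wh_of_hom8 fun r hr z => F8N_smul D K cB ga hr z
  refine HPath.hpath0 (HPath.line (w := fun _ => 1 / 8) (fun _ => by norm_num) cFS cF8
    hwS hwF fun t ht z hz hre b => ?_)
  obtain ⟨ht0, ht1⟩ := ht
  set κ : ℝ := cB * ga with hκ
  have hκ9 : 9 * ga < κ := by rw [hκ]; nlinarith
  have hκ0 : 0 < κ := by linarith
  have he : ∀ i : Fin N, ∀ l, D.sn i l = 1 ∨ D.sn i l = -1 := fun i l => CalcN_88.sn_eq D i l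
  set P : Fin N → ℂ → ℂ := fun i => PtN K ga (D.sn i) (D.M i) t with hP
  set B : (Fin N → ℂ) → ℝ := fun z => ∑ e, bN D K κ t e z with hB
  have hPd : ∀ i u, DifferentiableAt ℝ (P i) u := fun i u => PtN_dif hg hg1 (he i) t u
  have hsum : ∀ u : Fin N → ℂ, (1 - t) • FSN D K ga 4 u + t • F8N D K cB ga u = lobB P B u := by
    intro u
    rw [FSN_eq, F8N_eq]
    unfold lobB
    rw [hP, hB]
    simp only [PtN, bN, smul_sub, Complex.real_smul, Finset.mul_sum, Finset.sum_add_distrib]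
    rw [hκ]
    push_cast
    simp only [Finset.mul_sum]
    ring
  have dFS : DifferentiableAt ℝ (FSN D K ga 4) z :=
    ((cFS z hz).contDiffAt (isOpen_compl_singleton.mem_nhds hz)).differentiableAt (by norm_num)
  have dF8 : DifferentiableAt ℝ (F8N D K cB ga) z :=
    ((cF8 z hz).contDiffAt (isOpen_compl_singleton.mem_nhds hz)).differentiableAt (by norm_num)
  have hfd : (1 - t) • fderiv ℝ (FSN D K ga 4) z + t • fderiv ℝ (F8N D K cB ga) z =
      fderiv ℝ (lobB P B) z := by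
    have e1 : lobB P B = fun u => (1 - t) • FSN D K ga 4 u + t • F8N D K cB ga u :=
      funext fun u => (hsum u).symm
    rw [e1]
    exact ((dFS.hasFDerivAt.const_smul (1 - t)).add (dF8.hasFDerivAt.const_smul t)).fderiv.symm
  have hBd : DifferentiableAt ℝ B z := by
    have e1 : B = fun u => (∑ i, P i (u i) -
        ((1 - t) • FSN D K ga 4 u + t • F8N D K cB ga u)).re := by
      funext u
      rw [hsum u]
      unfold lobB
      simp
    have h1 : DifferentiableAt ℝ (fun u : Fin N → ℂ => ∑ i, P i (u i) -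
        ((1 - t) • FSN D K ga 4 u + t • F8N D K cB ga u)) z := by
      refine DifferentiableAt.sub (DifferentiableAt.fun_sum fun i _ => ?_)
        ((dFS.const_smul (1 - t)).add (dF8.const_smul t))
      exact DifferentiableAt.comp z (hPd i (z i)) (hasFDerivAt_apply (𝕜 := ℝ) i z).differentiableAt
    rw [e1]
    exact DifferentiableAt.comp z Complex.reCLM.differentiableAt h1
  -- directional derivatives of the coupling
  have hBrad : ∀ i, fderiv ℝ B z (Pi.single i (z i)) =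
      ∑ e, if i ∈ (D.bx e).S then 8 * shN D K κ t e z i else 0 := by
    intro i
    refine fderiv_line hBd ?_
    rw [hB]
    refine HasDerivAt.fun_sum fun e _ => ?_
    split_ifs with hi
    · exact bN_rad hi z
    · simp only [line_single, bN_off hi]
      exact hasDerivAt_const _ _
  have hBflat : ∀ (i : Fin N) (v : ℂ), (∀ e, ∀ᶠ s : ℝ in 𝓝 0,
      bN D K κ t e (z + s • (Pi.single i v : Fin N → ℂ)) = bN D K κ t e z) →
      fderiv ℝ B z (Pi.single i v) = 0 := by
    intro i v h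
    refine GlCp_322.fderiv_line_const hBd ?_
    rw [hB]
    filter_upwards [eventually_all.2 h] with s hs
    exact sum_congr rfl fun e _ => hs e
  have hshn : ∀ e i, 0 ≤ shN D K κ t e z i := fun e i => shN_nonneg ht0 ht1 hκ0.le e z i
  have hbn : ∀ e, 0 ≤ bN D K κ t e z := fun e => by
    rw [← sum_shN]
    exact sum_nonneg fun i _ => hshn e i
  have hPre : ∀ i (u : ℂ), u ≠ 0 → (0 ≤ (P i u).re ↔ 0 ≤ (plN ga (D.sn i) (D.M i) u).re) := by
    intro i u hu
    have hm := mfN_pos (K := K) (M := D.M i) hg hg1 (he i) ht0 ht1 hu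
    rw [hP]
    simp only
    rw [PtN_eq, Complex.re_ofReal_mul]
    exact mul_nonneg_iff_of_pos_left hm
  have hsurj : Function.Surjective (fderiv ℝ (lobB P B) z) := by
    refine lobB_reg2 (D := fun _ => 8) (fun _ => by norm_num) (fun i => PtN_PH t)
      (fun i => hPd i _) hBd (fun i => ?_) ?_ (fun i hi => ?_) hz (fun h1 h2 => ?_) ?_
    · rw [hBrad]
      refine sum_nonneg fun e _ => ?_
      split_ifs
      · have := hshn e i
        positivity
      · exact le_rfl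
    · rw [← sum_div]
      simp only [hBrad]
      rw [sum_comm]
      have h3 : ∀ e, ∑ i, (if i ∈ (D.bx e).S then 8 * shN D K κ t e z i else 0) =
          8 * bN D K κ t e z := by
        intro e
        rw [← sum_shN, mul_sum, ← sum_filter]
        congr 1
        ext i
        simp
      simp only [h3]
      rw [← mul_sum, mul_div_cancel_left₀ _ (by norm_num : (8 : ℝ) ≠ 0)]
    · rcases le_or_gt (z i).re 0 with h0 | h0
      · exact Or.inl ⟨PtN_surj hg hg1 ht0 ht1 hi h0, fun v =>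
          hBflat i v fun e => bN_flat e hi h0 v⟩
      · refine Or.inr ⟨PtN_ne hg hg1 (he i) ht0 ht1 hi, ?_⟩
        rcases lt_or_ge (P i (z i)).re 0 with h1 | h1
        · exact Or.inl h1
        · have h2 := (hPre i (z i) hi).1 h1
          obtain ⟨l, hl, h3, h4⟩ := zoneN hg hg1 (he i) h0 h2
          exact Or.inr ⟨Complex.I, hBflat i _ fun e => bN_vert e h0 hl (hD.K16 i) h3,
            PtN_good hg hg1 (he i) (hD.K16 i) ht0 ht1 h0 hl h3 h4⟩
    · -- (NC)
      obtain ⟨i, hi⟩ : ∃ i, z i ≠ 0 := by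
        by_contra h
        push Not at h
        exact hz (funext h)
      have h3 : 0 < fderiv ℝ B z (Pi.single i (z i)) := by
        rw [← h1 i]
        have := (h2 i hi).1
        positivity
      rw [hBrad] at h3
      obtain ⟨e, -, h4⟩ := exists_lt_of_sum_lt (s := univ)
        (f := fun _ : Fin D.nb => (0 : ℝ)) (by simpa using h3)
      have hie : i ∈ (D.bx e).S := by
        by_contra h
        rw [if_neg h] at h4
        exact lt_irrefl _ h4
      rw [if_pos hie] at h4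
      have hbpos : 0 < bN D K κ t e z := by
        rw [← sum_shN]
        exact sum_pos' (fun i _ => hshn e i) ⟨i, hie, by linarith⟩
      have hz0 : ∀ j ∈ (D.bx e).S, z j ≠ 0 := by
        intro j hj h0
        rw [bN_zero hj z (by rw [h0]; simp [wz]) (Or.inl (by rw [h0]; simp [rho]))] at hbpos
        exact lt_irrefl _ hbpos
      have hre0 : ∀ j ∈ (D.bx e).S, 0 < (z j).re := by
        intro j hj
        by_contra h0
        push Not at h0
        rw [bN_zero hj z (by unfold wz; rw [if_neg (not_lt.2 h0)])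
          (Or.inl (rho_of_nonpos h0))] at hbpos
        exact lt_irrefl _ hbpos
      have hzone : ∀ j ∈ (D.bx e).S, ∃ l < D.M j, |(z j).im / (z j).re - sgN l| < 3 / 2 ∧
          0 ≤ -(1 - ga) + Af ((z j).im / (z j).re - sgN l) := fun j hj =>
        zoneN hg hg1 (he j) (hre0 j hj) ((hPre j (z j) (hz0 j hj)).1 (h2 j (hz0 j hj)).1.le)
      have hpg : ∀ j ∈ (D.bx e).S, pg K (z j) = (z j).re := by
        intro j hj
        obtain ⟨l, hl, h5, -⟩ := hzone j hj
        exact pg_zone hl (hD.K16 j) (hre0 j hj) h5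
      have hwin : ∀ j ∈ (D.bx e).S,
          winN ((D.bx e).lo j) ((D.bx e).hi j) ((z j).im / (z j).re) = 1 := by
        intro j hj
        obtain ⟨l, hl, h5, -⟩ := hzone j hj
        rcases (CalcN_88.winN_const_of_cell (m := (D.bx e).lo j) (m' := (D.bx e).hi j)
          (by linarith : |(z j).im / (z j).re - sgN l| ≤ 7)).1 with h6 | h6
        · rw [bN_zero hj z (by unfold wz; rw [if_pos (hre0 j hj), h6]) (Or.inr h6)] at hbpos
          exact absurd hbpos (lt_irrefl _)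
        · exact h6
      obtain ⟨k, hk, h5⟩ := bN_nc hg ht0 ht1 hκ9 e (hD.cd3 e) hre0 hpg hwin
      obtain ⟨l, hl, h6, -⟩ := hzone k hk
      have h7 := PtN_le (K := K) (t := t) hg hg1 (he k) ht0 ht1 (hre0 k hk) (hpg k hk) hl h6
      have h8 := h1 k
      rw [hBrad] at h8
      have h9 : 8 * shN D K κ t e z k ≤
          ∑ e, if k ∈ (D.bx e).S then 8 * shN D K κ t e z k else 0 := by
        refine le_trans (le_of_eq (if_pos hk).symm) (single_le_sum
          (f := fun e => if k ∈ (D.bx e).S then 8 * shN D K κ t e z k else 0)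
          (fun e _ => ?_) (mem_univ e))
        split_ifs
        · have := hshn e k
          positivity
        · exact le_rfl
      have h10 : (P k (z k)).re ≤ ((1 - t) + t * ga) * (z k).re ^ 8 := h7
      linarith
    · rw [← hsum, Complex.add_re, Complex.smul_re, Complex.smul_re]
      exact hre
  obtain ⟨y, hy⟩ := hsurj b
  refine ⟨y, ?_⟩
  rw [← hy, ← hfd]
  rfl

theorem c2aP (D : SD N) : C2aP D := fun _ ga cB hD hg hg1 =>
  ⟨GlnC2a_433.fsnC_on hD hg hg1 4, GlnC2a_433.f8nC_on hD cB ga⟩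

/-- **GLN-LINE** -/
theorem lineP (D : SD N) : LineP D := lineP_of D (c2aP D)

end Crest.Agent.R267.GlnLine_984
end
end

-- ▼ part R267/GlnHomeo_125
section

/-!
# Row 267 (helper125): GLN-HOMEO and GLUE-HOMEO

`Ψ z j = X (pg K z_j / NN K1 z) z_j` is a continuous positively homogeneous bijection of `ℂ^N`
(`X` continuous, positive for `x > 0`, monotone), and `Gx X z = Gx 1 (Ψ z)`. So the links of
`Gx X` and `Gx 1` are homeomorphic.
-/

set_option autoImplicit false

noncomputable section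

open Finset Set Filter Topology
open Crest.Agent.R267.T3aDefs_957 (gq pg NN LD pl win)
open Crest.Agent.R267.Hm_951 Crest.Agent.R267.Cone_808
open Crest.Agent.R267.GlueDefs_322 (Prf)
open Crest.Agent.R267.Calc2_957 (hasFDerivAt_gq gA_nonneg gB_nonneg le_gq le_gq' gq_le gA gB)
open Crest.Agent.R267.Calc3_957 (AA BB AA_nonneg BB_nonneg re_sq_le_AA im_sq_le_BB AA_add_BB_ne NN_sq)
open Crest.Agent.R267.GlBas_322 (gq_smul gq_nonneg gq_pos pg_smul pg_real_smul pg_zero pg_nonneg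
  pg_pos NN_smul NN_nonneg NN_zero NN_pos)

namespace Crest.Agent.R267.GlnHomeo_125

/-! ### homogeneous bijections -/

section hom

variable {ι : Type} [Fintype ι]

theorem nsq_smul (l : ℝ) (x : ι → ℂ) : nsq (l • x) = l ^ 2 * nsq x := by
  unfold nsq
  rw [Finset.mul_sum]
  refine Finset.sum_congr rfl fun j _ => ?_
  rw [Pi.smul_apply, norm_smul, mul_pow, Real.norm_eq_abs, sq_abs]

theorem isCompact_sph : IsCompact {x : ι → ℂ | nsq x = 1} := by
  refine Metric.isCompact_of_isClosed_isBounded (isClosed_eq continuous_nsq continuous_const) ?_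
  refine (Metric.isBounded_closedBall (x := (0 : ι → ℂ)) (r := 1)).subset fun x hx => ?_
  rw [mem_closedBall_zero_iff, pi_norm_le_iff_of_nonneg zero_le_one]
  intro j
  have h1 : ‖x j‖ ^ 2 ≤ nsq x :=
    Finset.single_le_sum (f := fun i => ‖x i‖ ^ 2) (fun i _ => by positivity) (Finset.mem_univ j)
  have h2 : nsq x = 1 := hx
  rw [h2] at h1
  nlinarith [norm_nonneg (x j)]

/-- a positively homogeneous continuous bijection carrying zeros to zeros -/
theorem zeq_of_hom {f g : (ι → ℂ) → ℂ} {F : (ι → ℂ) → (ι → ℂ)}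
    (hF : Continuous F) (hh : ∀ (l : ℝ) x, 0 < l → F (l • x) = l • F x)
    (hi : Function.Injective F) (hs : Function.Surjective F)
    (hg : ∀ (l : ℝ) x, 0 < l → g x = 0 → g (l • x) = 0) (hfg : ∀ x, f x = 0 ↔ g (F x) = 0) :
    ZEq f g := by
  have h0 : F 0 = 0 := by
    have h1 : F 0 = (2 : ℝ) • F 0 := by
      conv_lhs => rw [← smul_zero (2 : ℝ)]
      exact hh 2 0 two_pos
    have h2 : F 0 = F 0 + F 0 := by rwa [two_smul] at h1
    exact (left_eq_add.1 h2)
  have hne : ∀ x : Sph ι, F x ≠ 0 := by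
    intro x hx
    exact x.ne_zero (hi (by rw [hx, h0]))
  have hpos : ∀ x : Sph ι, 0 < (√(nsq (F x)))⁻¹ := fun x =>
    inv_pos.2 (Real.sqrt_pos.2 (nsq_pos (hne x)))
  let g0 : Sph ι → Sph ι := fun x => ⟨(√(nsq (F x)))⁻¹ • F x, by
    rw [nsq_smul, inv_pow, Real.sq_sqrt (nsq_nonneg _), inv_mul_cancel₀ (nsq_pos (hne x)).ne']⟩
  have hg0 : Continuous g0 := by
    refine Continuous.subtype_mk ?_ _
    have h1 : Continuous fun x : Sph ι => F x := hF.comp continuous_subtype_val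
    have h2 : Continuous fun x : Sph ι => √(nsq (F x)) := (continuous_nsq.comp h1).sqrt
    exact (h2.inv₀ fun x => (Real.sqrt_pos.2 (nsq_pos (hne x))).ne').smul h1
  have hinj : Function.Injective g0 := by
    intro x y hxy
    have h1 : (√(nsq (F x)))⁻¹ • F (x : ι → ℂ) = (√(nsq (F y)))⁻¹ • F (y : ι → ℂ) :=
      congrArg Subtype.val hxy
    rw [← hh _ _ (hpos x), ← hh _ _ (hpos y)] at h1
    have h2 := hi h1
    have h3 := congrArg nsq h2
    rw [nsq_smul, nsq_smul, x.2, y.2, mul_one, mul_one] at h3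
    have h4 : (√(nsq (F x)))⁻¹ = (√(nsq (F y)))⁻¹ :=
      (pow_left_inj₀ (hpos x).le (hpos y).le two_ne_zero).1 h3
    rw [h4] at h2
    exact Subtype.ext (smul_right_injective (ι → ℂ) (hpos y).ne' h2)
  have hsur : Function.Surjective g0 := by
    intro y
    obtain ⟨p, hp⟩ := hs (y : ι → ℂ)
    have hp0 : p ≠ 0 := by
      rintro rfl
      rw [h0] at hp
      exact y.ne_zero hp.symm
    have hn : 0 < (√(nsq p))⁻¹ := inv_pos.2 (Real.sqrt_pos.2 (nsq_pos hp0))
    have hq : nsq ((√(nsq p))⁻¹ • p) = 1 := by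
      rw [nsq_smul, inv_pow, Real.sq_sqrt (nsq_nonneg _), inv_mul_cancel₀ (nsq_pos hp0).ne']
    refine ⟨⟨(√(nsq p))⁻¹ • p, hq⟩, Subtype.ext ?_⟩
    show (√(nsq (F ((√(nsq p))⁻¹ • p))))⁻¹ • F ((√(nsq p))⁻¹ • p) = y
    rw [hh _ _ hn, hp, nsq_smul, y.2, mul_one, Real.sqrt_sq hn.le, smul_smul,
      inv_mul_cancel₀ hn.ne', one_smul]
  have : CompactSpace (Sph ι) := isCompact_iff_compactSpace.1 isCompact_sph
  refine ⟨Continuous.homeoOfEquivCompactToT2 (f := Equiv.ofBijective g0 ⟨hinj, hsur⟩) hg0,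
    fun x => ?_⟩
  show f x = 0 ↔ g ((√(nsq (F x)))⁻¹ • F x) = 0
  rw [hfg]
  refine ⟨hg _ _ (hpos x), fun h => ?_⟩
  have h1 := hg _ _ (inv_pos.2 (hpos x)) h
  rwa [smul_smul, inv_mul_cancel₀ (hpos x).ne', one_smul] at h1

end hom

/-! ### the gauges -/

theorem gq_mono {K A B A' B' : ℝ} (hA : 0 ≤ A) (hB : 0 ≤ B) (h : A ≤ A') (h' : B ≤ B') :
    gq K A B ≤ gq K A' B' := by
  rcases eq_or_ne (A + B) 0 with h0 | h0
  · have h1 : A = 0 := by linarith
    have h2 : B = 0 := by linarith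
    subst h1 h2
    have : gq K 0 0 = 0 := by simp [gq]
    rw [this]
    exact gq_nonneg h
  have hp : 0 < A + B := lt_of_le_of_ne (add_nonneg hA hB) (Ne.symm h0)
  have hder : ∀ t ∈ Icc (0 : ℝ) 1, HasDerivAt
      (fun t : ℝ => gq K (A + t * (A' - A)) (B + t * (B' - B)))
      (gA K (A + t * (A' - A)) (B + t * (B' - B)) * (A' - A) +
        gB K (A + t * (A' - A)) (B + t * (B' - B)) * (B' - B)) t := by
    intro t ht
    have h1 : HasDerivAt (fun t : ℝ => A + t * (A' - A)) (A' - A) t := by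
      simpa using ((hasDerivAt_id t).mul_const (A' - A)).const_add A
    have h2 : HasDerivAt (fun t : ℝ => B + t * (B' - B)) (B' - B) t := by
      simpa using ((hasDerivAt_id t).mul_const (B' - B)).const_add B
    have h3 : A + t * (A' - A) + (B + t * (B' - B)) ≠ 0 := by
      have e1 : 0 ≤ t * (A' - A) := mul_nonneg ht.1 (by linarith)
      have e2 : 0 ≤ t * (B' - B) := mul_nonneg ht.1 (by linarith)
      linarith
    have h4 := (hasFDerivAt_gq K h1.hasFDerivAt h2.hasFDerivAt h3).hasDerivAt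
    refine h4.congr_deriv ?_
    simp
  have hcont : ContinuousOn (fun t : ℝ => gq K (A + t * (A' - A)) (B + t * (B' - B)))
      (Icc 0 1) := fun t ht => (hder t ht).continuousAt.continuousWithinAt
  have hmono : MonotoneOn (fun t : ℝ => gq K (A + t * (A' - A)) (B + t * (B' - B)))
      (Icc 0 1) := by
    refine monotoneOn_of_deriv_nonneg (convex_Icc 0 1) hcont ?_ ?_
    · intro t ht
      rw [interior_Icc] at ht
      exact (hder t ⟨ht.1.le, ht.2.le⟩).differentiableAt.differentiableWithinAt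
    · intro t ht
      rw [interior_Icc] at ht
      rw [(hder t ⟨ht.1.le, ht.2.le⟩).deriv]
      have e1 : 0 ≤ t * (A' - A) := mul_nonneg ht.1.le (by linarith)
      have e2 : 0 ≤ t * (B' - B) := mul_nonneg ht.1.le (by linarith)
      have e3 := gA_nonneg (K := K) (add_nonneg hA e1) (add_nonneg hB e2)
      have e4 := gB_nonneg (K := K) (add_nonneg hA e1) (add_nonneg hB e2)
      have e5 := mul_nonneg e3 (sub_nonneg.2 h)
      have e6 := mul_nonneg e4 (sub_nonneg.2 h')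
      linarith
  have h1 := hmono (left_mem_Icc.2 zero_le_one) (right_mem_Icc.2 zero_le_one) zero_le_one
  simpa using h1

variable {N : ℕ}

theorem NN_mono {K : ℝ} {z z' : Fin N → ℂ} {a : ℝ} (ha : 0 < a)
    (h : ∀ j, ∃ l : ℝ, a ≤ l ∧ z' j = (l : ℂ) * z j) : a * NN K z ≤ NN K z' := by
  rw [← NN_smul ha]
  unfold NN
  refine Real.sqrt_le_sqrt (gq_mono (Finset.sum_nonneg fun _ _ => sq_nonneg _)
    (Finset.sum_nonneg fun _ _ => sq_nonneg _) (Finset.sum_le_sum fun j _ => ?_)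
    (Finset.sum_le_sum fun j _ => ?_))
  · obtain ⟨l, hl, hz⟩ := h j
    rw [hz, Pi.smul_apply, Complex.real_smul, Complex.re_ofReal_mul, Complex.re_ofReal_mul,
      mul_pow, mul_pow]
    exact mul_le_mul_of_nonneg_right (pow_le_pow_left₀ ha.le hl 2) (sq_nonneg _)
  · obtain ⟨l, hl, hz⟩ := h j
    rw [hz, Pi.smul_apply, Complex.real_smul, Complex.im_ofReal_mul, Complex.im_ofReal_mul,
      mul_pow, mul_pow]
    exact mul_le_mul_of_nonneg_right (pow_le_pow_left₀ ha.le hl 2) (sq_nonneg _)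

/-- `NN` is at least the planar gauge of a component -/
theorem pg_le_NN (K : ℝ) (z : Fin N → ℂ) (j : Fin N) : pg K (z j) ≤ NN K z := by
  unfold pg NN
  refine Real.sqrt_le_sqrt (gq_mono (sq_nonneg _) (sq_nonneg _) ?_ ?_)
  · exact Finset.single_le_sum (f := fun i => (z i).re ^ 2) (fun i _ => sq_nonneg _)
      (Finset.mem_univ j)
  · exact Finset.single_le_sum (f := fun i => (z i).im ^ 2) (fun i _ => sq_nonneg _)
      (Finset.mem_univ j)

/-- comparison of the gauges -/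
theorem pg_le_mul_NN (K K1 : ℝ) (z : Fin N → ℂ) (j : Fin N) :
    pg K (z j) ≤ √(96 * K1 ^ 2 + 97) * NN K1 z := by
  unfold pg NN
  rw [← Real.sqrt_mul (by positivity)]
  refine Real.sqrt_le_sqrt ((gq_le (sq_nonneg _) (sq_nonneg _)).trans ?_)
  have h1 := re_sq_le_AA z j
  have h2 := im_sq_le_BB z j
  have h3 : AA z ≤ gq K1 (AA z) (BB z) := le_gq
  have h4 : BB z ≤ (96 * K1 ^ 2 + 96) * gq K1 (AA z) (BB z) := le_gq' (AA_nonneg z) (BB_nonneg z)
  show (z j).re ^ 2 + (z j).im ^ 2 ≤ (96 * K1 ^ 2 + 97) * gq K1 (AA z) (BB z)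
  linarith

theorem continuousAt_gq (K : ℝ) {E : Type*} [TopologicalSpace E] {A B : E → ℝ} {z : E}
    (hA : ContinuousAt A z) (hB : ContinuousAt B z) (h : A z + B z ≠ 0) :
    ContinuousAt (fun w => gq K (A w) (B w)) z := by
  unfold gq
  have h1 : (3 * K ^ 2 + 3) * (A z + B z) ^ 2 ≠ 0 :=
    mul_ne_zero (by positivity) (pow_ne_zero _ h)
  refine hA.add (ContinuousAt.div ?_ ?_ h1)
  · exact (continuousAt_const.max (hB.sub (continuousAt_const.mul hA))).pow 3
  · exact continuousAt_const.mul ((hA.add hB).pow 2)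

theorem continuous_AA : Continuous (AA (N := N)) := by
  unfold AA
  exact continuous_finsetSum _ fun j _ => (Complex.continuous_re.comp (continuous_apply j)).pow 2

theorem continuous_BB : Continuous (BB (N := N)) := by
  unfold BB
  exact continuous_finsetSum _ fun j _ => (Complex.continuous_im.comp (continuous_apply j)).pow 2

theorem continuousAt_NN (K : ℝ) {z : Fin N → ℂ} (hz : z ≠ 0) : ContinuousAt (NN K) z :=
  (continuousAt_gq K continuous_AA.continuousAt continuous_BB.continuousAt (AA_add_BB_ne hz)).sqrt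

theorem continuous_NN (K : ℝ) : Continuous (NN (N := N) K) := by
  rw [continuous_iff_continuousAt]
  intro z
  by_cases hz : z = 0
  · subst hz
    have h0 : NN (N := N) K 0 = 0 := NN_zero K
    unfold ContinuousAt
    rw [h0]
    have h1 : ∀ w : Fin N → ℂ, NN K w ≤ √(AA w + BB w) := fun w =>
      Real.sqrt_le_sqrt (gq_le (AA_nonneg w) (BB_nonneg w))
    have h2 : Continuous fun w : Fin N → ℂ => √(AA w + BB w) :=
      (continuous_AA.add continuous_BB).sqrt
    have h3 : √(AA (0 : Fin N → ℂ) + BB (0 : Fin N → ℂ)) = 0 := by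
      simp [AA, BB]
    have h4 := h2.tendsto 0
    rw [h3] at h4
    exact squeeze_zero (fun w => NN_nonneg K w) h1 h4
  · exact continuousAt_NN K hz

theorem continuousAt_pg (K : ℝ) {z : ℂ} (hz : z ≠ 0) : ContinuousAt (pg K) z := by
  have h1 : ContinuousAt (fun z : ℂ => z.re ^ 2) z := by fun_prop
  have h2 : ContinuousAt (fun z : ℂ => z.im ^ 2) z := by fun_prop
  exact (continuousAt_gq K h1 h2 (Crest.Agent.R267.Calc2_957.sq_add_ne hz)).sqrt

theorem continuous_pg (K : ℝ) : Continuous (pg K) := by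
  rw [continuous_iff_continuousAt]
  intro z
  by_cases hz : z = 0
  · subst hz
    unfold ContinuousAt
    rw [pg_zero]
    have h1 : ∀ w : ℂ, pg K w ≤ √(w.re ^ 2 + w.im ^ 2) := fun w =>
      Real.sqrt_le_sqrt (gq_le (sq_nonneg _) (sq_nonneg _))
    have h2 : Continuous fun w : ℂ => √(w.re ^ 2 + w.im ^ 2) := by fun_prop
    have h4 := h2.tendsto 0
    simp only [Complex.zero_re, Complex.zero_im, ne_eq, OfNat.ofNat_ne_zero, not_false_eq_true,
      zero_pow, add_zero, Real.sqrt_zero] at h4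
    exact squeeze_zero (fun w => pg_nonneg K w) h1 h4
  · exact continuousAt_pg K hz

/-! ### the map -/

/-- relative size -/
def xx (K K1 : ℝ) (z : Fin N → ℂ) (j : Fin N) : ℝ := pg K (z j) / NN K1 z

/-- the map -/
def Psi (K K1 : ℝ) (X : ℝ → ℝ) (z : Fin N → ℂ) (j : Fin N) : ℂ := ((X (xx K K1 z j) : ℝ) : ℂ) * z j

theorem xx_nonneg (K K1 : ℝ) (z : Fin N → ℂ) (j : Fin N) : 0 ≤ xx K K1 z j :=
  div_nonneg (pg_nonneg _ _) (NN_nonneg _ _)

theorem xx_pos (K K1 : ℝ) {z : Fin N → ℂ} {j : Fin N} (h : z j ≠ 0) : 0 < xx K K1 z j := by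
  refine div_pos (pg_pos h) (NN_pos ?_)
  rintro rfl
  exact h rfl

theorem xx_le (K K1 : ℝ) (z : Fin N → ℂ) (j : Fin N) : xx K K1 z j ≤ √(96 * K1 ^ 2 + 97) := by
  unfold xx
  by_cases hz : z = 0
  · subst hz
    rw [NN_zero, div_zero]
    positivity
  · rw [div_le_iff₀ (NN_pos hz)]
    exact pg_le_mul_NN K K1 z j

theorem xx_smul (K K1 : ℝ) {r : ℝ} (hr : 0 < r) (z : Fin N → ℂ) (j : Fin N) :
    xx K K1 (r • z) j = xx K K1 z j := by
  unfold xx
  rw [NN_smul hr, Pi.smul_apply, pg_real_smul hr]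
  exact mul_div_mul_left _ _ hr.ne'

variable {X : ℝ → ℝ}

theorem X_nonneg (hX : Prf X) {x : ℝ} (hx : 0 ≤ x) : 0 ≤ X x := by
  rcases hx.eq_or_lt with h | h
  · subst h
    refine ge_of_tendsto (x := 𝓝[>] (0 : ℝ)) (f := X) hX.cont.continuousWithinAt ?_
    filter_upwards [self_mem_nhdsWithin] with x hx
    exact (hX.pos x hx).le
  · exact (hX.pos x h).le

theorem Psi_smul (K K1 : ℝ) (X : ℝ → ℝ) {r : ℝ} (hr : 0 < r) (z : Fin N → ℂ) :
    Psi K K1 X (r • z) = r • Psi K K1 X z := by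
  funext j
  unfold Psi
  rw [xx_smul K K1 hr, Pi.smul_apply]
  show _ = r • (((X (xx K K1 z j) : ℝ) : ℂ) * z j)
  rw [Complex.real_smul, Complex.real_smul]
  ring

theorem continuous_Psi (K K1 : ℝ) (hX : Prf X) : Continuous (Psi (N := N) K K1 X) := by
  rw [continuous_iff_continuousAt]
  intro z
  refine continuousAt_pi.2 fun j => ?_
  by_cases hz : z = 0
  · subst hz
    have h0 : Psi K K1 X (0 : Fin N → ℂ) j = 0 := by
      unfold Psi
      simp
    show Tendsto (fun w : Fin N → ℂ => Psi K K1 X w j) (𝓝 0) (𝓝 (Psi K K1 X (0 : Fin N → ℂ) j))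
    rw [h0]
    refine squeeze_zero_norm (a := fun w : Fin N → ℂ => X (√(96 * K1 ^ 2 + 97)) * ‖w j‖) ?_ ?_
    · intro w
      unfold Psi
      rw [norm_mul, Complex.norm_real, Real.norm_of_nonneg (X_nonneg hX (xx_nonneg _ _ _ _))]
      exact mul_le_mul_of_nonneg_right
        (hX.mono (xx_nonneg _ _ _ _) (Real.sqrt_nonneg _) (xx_le _ _ _ _)) (norm_nonneg _)
    · have h2 : Continuous fun w : Fin N → ℂ => X (√(96 * K1 ^ 2 + 97)) * ‖w j‖ := by fun_prop
      have h4 := h2.tendsto 0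
      simpa using h4
  · unfold Psi
    have h1 : ContinuousAt (fun w : Fin N → ℂ => w j) z := (continuous_apply j).continuousAt
    have h2 : ContinuousAt (fun w : Fin N → ℂ => xx K K1 w j) z := by
      unfold xx
      exact ((continuous_pg K).continuousAt.comp h1).div (continuousAt_NN K1 hz) (NN_pos hz).ne'
    have h3 : ContinuousAt (fun w : Fin N → ℂ => X (xx K K1 w j)) z :=
      hX.cont.continuousAt.comp h2
    exact (Complex.continuous_ofReal.continuousAt.comp h3).mul h1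

/-! ### injectivity -/

theorem Psi_zero_iff (K K1 : ℝ) (hX : Prf X) (z : Fin N → ℂ) (j : Fin N) :
    Psi K K1 X z j = 0 ↔ z j = 0 := by
  unfold Psi
  constructor
  · intro h
    by_contra h1
    have h2 := hX.pos _ (xx_pos K K1 h1)
    rcases mul_eq_zero.1 h with h3 | h3
    · exact h2.ne' (by exact_mod_cast h3)
    · exact h1 h3
  · intro h
    rw [h, mul_zero]

/-- the ratios of two preimages: `z' j = l z j`, `l X(x') = X(x)`, `x' = (l / mu) x` -/
theorem ratio (K K1 : ℝ) (hX : Prf X) {z z' : Fin N → ℂ} (h : Psi K K1 X z = Psi K K1 X z')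
    {j : Fin N} (hj : z j ≠ 0) : ∃ l : ℝ, 0 < l ∧ z' j = (l : ℂ) * z j ∧
      l * X (xx K K1 z' j) = X (xx K K1 z j) := by
  have hj' : z' j ≠ 0 := by
    intro h0
    rw [← Psi_zero_iff K K1 hX, ← h, Psi_zero_iff K K1 hX] at h0
    exact hj h0
  have h1 := hX.pos _ (xx_pos K K1 hj)
  have h2 := hX.pos _ (xx_pos K K1 hj')
  refine ⟨X (xx K K1 z j) / X (xx K K1 z' j), div_pos h1 h2, ?_, div_mul_cancel₀ _ h2.ne'⟩
  have h3 := congrFun h j
  unfold Psi at h3
  have h4 : ((X (xx K K1 z' j) : ℝ) : ℂ) ≠ 0 := by exact_mod_cast h2.ne'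
  rw [Complex.ofReal_div, div_mul_eq_mul_div, h3, mul_div_cancel_left₀ _ h4]

/-- if `NN z' = mu NN z`: `l > mu → l ≤ 1` and `l < mu → 1 ≤ l` and `l = mu → l = 1` -/
theorem ratio_le (K K1 : ℝ) (hX : Prf X) {z z' : Fin N → ℂ} {l : ℝ} (hl : 0 < l) {j : Fin N}
    (hj : z j ≠ 0) (hz : z' j = (l : ℂ) * z j) (h : l * X (xx K K1 z' j) = X (xx K K1 z j))
    (hN : NN K1 z' ≤ l * NN K1 z) : l ≤ 1 := by
  have hz0 : z ≠ 0 := by
    rintro rfl
    exact hj rfl
  have hj' : z' j ≠ 0 := by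
    rw [hz]
    exact mul_ne_zero (by exact_mod_cast hl.ne') hj
  have hz0' : z' ≠ 0 := by
    rintro rfl
    exact hj' rfl
  have h1 : xx K K1 z j ≤ xx K K1 z' j := by
    unfold xx
    rw [hz, pg_smul hl, div_le_div_iff₀ (NN_pos hz0) (NN_pos hz0')]
    have := mul_le_mul_of_nonneg_left hN (pg_nonneg K (z j))
    linarith
  have h2 := hX.mono (xx_nonneg _ _ _ _) (xx_nonneg _ _ _ _) h1
  have h3 := hX.pos _ (xx_pos K K1 hj')
  rw [← h] at h2
  by_contra h4
  push Not at h4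
  have := mul_lt_mul_of_pos_right h4 h3
  linarith

theorem one_le_ratio (K K1 : ℝ) (hX : Prf X) {z z' : Fin N → ℂ} {l : ℝ} (hl : 0 < l) {j : Fin N}
    (hj : z j ≠ 0) (hz : z' j = (l : ℂ) * z j) (h : l * X (xx K K1 z' j) = X (xx K K1 z j))
    (hN : l * NN K1 z ≤ NN K1 z') : 1 ≤ l := by
  have hz0 : z ≠ 0 := by
    rintro rfl
    exact hj rfl
  have hj' : z' j ≠ 0 := by
    rw [hz]
    exact mul_ne_zero (by exact_mod_cast hl.ne') hj
  have hz0' : z' ≠ 0 := by
    rintro rfl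
    exact hj' rfl
  have h1 : xx K K1 z' j ≤ xx K K1 z j := by
    unfold xx
    rw [hz, pg_smul hl, div_le_div_iff₀ (NN_pos hz0') (NN_pos hz0)]
    have := mul_le_mul_of_nonneg_left hN (pg_nonneg K (z j))
    linarith
  have h2 := hX.mono (xx_nonneg _ _ _ _) (xx_nonneg _ _ _ _) h1
  have h3 := hX.pos _ (xx_pos K K1 hj')
  rw [← h] at h2
  by_contra h4
  push Not at h4
  have := mul_lt_mul_of_pos_right h4 h3
  linarith

/-- `NN z' < NN z` is impossible -/
theorem NN_le_of_Psi (K K1 : ℝ) (hX : Prf X) {z z' : Fin N → ℂ}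
    (h : Psi K K1 X z = Psi K K1 X z') : NN K1 z ≤ NN K1 z' := by
  by_contra hlt
  push Not at hlt
  have hz : z ≠ 0 := by
    rintro rfl
    rw [NN_zero] at hlt
    exact absurd (NN_nonneg K1 z') (not_le.2 hlt)
  have hzp := NN_pos (K := K1) hz
  have hz' : z' ≠ 0 := by
    rintro rfl
    obtain ⟨j, hj⟩ : ∃ j, z j ≠ 0 := by
      by_contra h1
      push Not at h1
      exact hz (funext h1)
    have h2 : Psi K K1 X z j = 0 := by
      rw [h, Psi_zero_iff K K1 hX]
      rfl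
    exact hj ((Psi_zero_iff K K1 hX z j).1 h2)
  -- all ratios are bigger than `mu = NN z' / NN z`
  have key : ∀ j, z j ≠ 0 → ∃ l : ℝ, NN K1 z' / NN K1 z < l ∧ z' j = (l : ℂ) * z j := by
    intro j hj
    obtain ⟨l, hl, h1, h2⟩ := ratio K K1 hX h hj
    refine ⟨l, ?_, h1⟩
    by_contra h3
    push Not at h3
    have h4 : l * NN K1 z ≤ NN K1 z' := (le_div_iff₀ hzp).1 h3
    have h5 := one_le_ratio K K1 hX hl hj h1 h2 h4
    have h6 : 1 * NN K1 z ≤ l * NN K1 z := mul_le_mul_of_nonneg_right h5 hzp.le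
    linarith
  have hmu : 0 < NN K1 z' / NN K1 z := div_pos (NN_pos hz') hzp
  -- a common bound
  have key2 : ∃ a : ℝ, NN K1 z' / NN K1 z < a ∧ ∀ j, ∃ l : ℝ, a ≤ l ∧ z' j = (l : ℂ) * z j := by
    have h1 : ∀ j, ∃ l : ℝ, NN K1 z' / NN K1 z < l ∧ z' j = (l : ℂ) * z j := by
      intro j
      by_cases hj : z j = 0
      · refine ⟨NN K1 z' / NN K1 z + 1, by linarith, ?_⟩
        have h2 : Psi K K1 X z' j = 0 := by
          rw [← h, Psi_zero_iff K K1 hX]
          exact hj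
        rw [(Psi_zero_iff K K1 hX z' j).1 h2, hj, mul_zero]
      · exact key j hj
    choose l hl hl' using h1
    obtain ⟨j0, hj0⟩ : ∃ j, z j ≠ 0 := by
      by_contra h1
      push Not at h1
      exact hz (funext h1)
    have : Nonempty (Fin N) := ⟨j0⟩
    obtain ⟨i, hi⟩ := Finite.exists_min l
    exact ⟨l i, hl i, fun j => ⟨l j, hi j, hl' j⟩⟩
  obtain ⟨a, ha, hall⟩ := key2
  have h1 := NN_mono (K := K1) (hmu.trans ha) hall
  have h2 : NN K1 z' < a * NN K1 z := (div_lt_iff₀ hzp).1 ha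
  linarith

theorem Psi_injective (K K1 : ℝ) (hX : Prf X) : Function.Injective (Psi (N := N) K K1 X) := by
  intro z z' h
  have h1 := NN_le_of_Psi K K1 hX h
  have h2 := NN_le_of_Psi K K1 hX h.symm
  have h3 : NN K1 z' = NN K1 z := le_antisymm h2 h1
  funext j
  by_cases hj : z j = 0
  · have h4 : Psi K K1 X z' j = 0 := by
      rw [← h, Psi_zero_iff K K1 hX]
      exact hj
    rw [(Psi_zero_iff K K1 hX z' j).1 h4, hj]
  · obtain ⟨l, hl, e1, e2⟩ := ratio K K1 hX h hj
    have h5 : l = 1 := by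
      rcases le_total l 1 with h6 | h6
      · refine le_antisymm h6 (one_le_ratio K K1 hX hl hj e1 e2 ?_)
        rw [h3]
        exact mul_le_of_le_one_left (NN_nonneg _ _) h6
      · refine le_antisymm (ratio_le K K1 hX hl hj e1 e2 ?_) h6
        rw [h3]
        exact le_mul_of_one_le_left (NN_nonneg _ _) h6
    rw [e1, h5, Complex.ofReal_one, one_mul]

/-! ### surjectivity -/

/-- `x X(x)`, extended by `x` for `x < 0` -/
def gg (X : ℝ → ℝ) (x : ℝ) : ℝ := max 0 x * X (max 0 x) + min 0 x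

theorem gg_of_nonneg (X : ℝ → ℝ) {x : ℝ} (hx : 0 ≤ x) : gg X x = x * X x := by
  unfold gg
  rw [max_eq_right hx, min_eq_left hx, add_zero]

theorem gg_of_nonpos (X : ℝ → ℝ) {x : ℝ} (hx : x ≤ 0) : gg X x = x := by
  unfold gg
  rw [max_eq_left hx, min_eq_right hx, zero_mul, zero_add]

theorem continuous_gg (hX : Prf X) : Continuous (gg X) := by
  have h1 := hX.cont
  unfold gg
  fun_prop

theorem strictMono_gg (hX : Prf X) : StrictMono (gg X) := by
  intro x y hxy
  rcases le_total y 0 with hy | hy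
  · rw [gg_of_nonpos X hy, gg_of_nonpos X (hxy.le.trans hy)]
    exact hxy
  · rw [gg_of_nonneg X hy]
    rcases le_or_gt x 0 with hx | hx
    · rw [gg_of_nonpos X hx]
      rcases hy.eq_or_lt with h | h
      · rw [← h] at hxy ⊢
        rw [zero_mul]
        exact hxy
      · exact hx.trans_lt (mul_pos h (hX.pos y h))
    · rw [gg_of_nonneg X hx.le]
      have h1 := hX.mono hx.le hy hxy.le
      have h2 := hX.pos y (hx.trans hxy)
      calc x * X x ≤ x * X y := mul_le_mul_of_nonneg_left h1 hx.le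
        _ < y * X y := mul_lt_mul_of_pos_right hxy h2

theorem surjective_gg (hX : Prf X) : Function.Surjective (gg X) := by
  refine (continuous_gg hX).surjective ?_ ?_
  · have h1 : Tendsto (fun x : ℝ => x * X 1) atTop atTop :=
      tendsto_id.atTop_mul_const (hX.pos 1 one_pos)
    refine tendsto_atTop_mono' _ ?_ h1
    filter_upwards [eventually_ge_atTop (1 : ℝ)] with x hx
    rw [gg_of_nonneg X (by linarith)]
    exact mul_le_mul_of_nonneg_left (hX.mono (by simp : (1 : ℝ) ∈ Set.Ici 0)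
      (show (0 : ℝ) ≤ x by linarith) hx) (by linarith)
  · refine Tendsto.congr' ?_ (tendsto_id (α := ℝ) (x := atBot))
    filter_upwards [eventually_le_atBot (0 : ℝ)] with x hx
    rw [gg_of_nonpos X hx]
    rfl

/-- the inverse -/
theorem exists_inv (hX : Prf X) : ∃ h : ℝ → ℝ, Continuous h ∧ (∀ x, h (gg X x) = x) ∧
    (∀ y, gg X (h y) = y) ∧ h 0 = 0 ∧ (∀ y, 0 ≤ y → 0 ≤ h y) ∧ Monotone h := by
  let e := StrictMono.orderIsoOfSurjective (gg X) (strictMono_gg hX) (surjective_gg hX)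
  have h1 : ∀ x, e.symm (gg X x) = x := fun x => e.symm_apply_apply x
  have h2 : ∀ y, gg X (e.symm y) = y := fun y => e.apply_symm_apply y
  have h0 : e.symm 0 = 0 := by
    have : gg X 0 = 0 := by rw [gg_of_nonneg X le_rfl, zero_mul]
    have h3 := h1 0
    rwa [this] at h3
  have hm : Monotone e.symm := e.symm.monotone
  refine ⟨e.symm, e.symm.continuous, h1, h2, h0, fun y hy => ?_, hm⟩
  have := hm hy
  rwa [h0] at this

theorem Psi_surjective (K K1 : ℝ) (hX : Prf X) : Function.Surjective (Psi (N := N) K K1 X) := by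
  intro w
  by_cases hw : w = 0
  · refine ⟨0, ?_⟩
    funext j
    rw [(Psi_zero_iff K K1 hX 0 j).2 rfl, hw]
    rfl
  obtain ⟨j0, hj0⟩ : ∃ j, w j ≠ 0 := by
    by_contra h1
    push Not at h1
    exact hw (funext h1)
  obtain ⟨h, hc, h1, h2, h0, hn, hm⟩ := exists_inv hX
  -- the candidate
  let v : ℝ → Fin N → ℂ := fun σ j => ((h (σ * pg K (w j)) / pg K (w j) : ℝ) : ℂ) * w j
  have hv : Continuous v := by
    refine continuous_pi fun j => ?_
    have : Continuous fun σ : ℝ => h (σ * pg K (w j)) / pg K (w j) :=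
      (hc.comp (by fun_prop)).div_const _
    exact (Complex.continuous_ofReal.comp this).mul continuous_const
  have hcv : Continuous fun σ => NN K1 (v σ) := (continuous_NN K1).comp hv
  have hv0 : v 0 = 0 := by
    funext j
    show ((h (0 * pg K (w j)) / pg K (w j) : ℝ) : ℂ) * w j = 0
    rw [zero_mul, h0, zero_div, Complex.ofReal_zero, zero_mul]
  have hp0 : 0 < pg K (w j0) := pg_pos hj0
  have hp1 : 0 < pg K1 (w j0) := pg_pos hj0
  -- large values
  obtain ⟨σ1, hσ1, hbig⟩ : ∃ σ1 : ℝ, 0 < σ1 ∧ 1 ≤ NN K1 (v σ1) := by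
    let x := pg K (w j0) / pg K1 (w j0)
    have hx : 0 < x := div_pos hp0 hp1
    refine ⟨x * X x / pg K (w j0), div_pos (mul_pos hx (hX.pos x hx)) hp0, ?_⟩
    refine le_trans ?_ (pg_le_NN K1 _ j0)
    show 1 ≤ pg K1 (((h (x * X x / pg K (w j0) * pg K (w j0)) / pg K (w j0) : ℝ) : ℂ) * w j0)
    rw [div_mul_cancel₀ _ hp0.ne', ← gg_of_nonneg X hx.le, h1, pg_smul (div_pos hx hp0)]
    have : x / pg K (w j0) * pg K1 (w j0) = 1 := by
      show pg K (w j0) / pg K1 (w j0) / pg K (w j0) * pg K1 (w j0) = 1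
      field_simp
    rw [this]
  obtain ⟨σ, hσ, hone⟩ : ∃ σ ∈ Icc 0 σ1, NN K1 (v σ) = 1 := by
    have := intermediate_value_Icc hσ1.le (f := fun σ => NN K1 (v σ)) hcv.continuousOn
    have h3 : (1 : ℝ) ∈ Icc (NN K1 (v 0)) (NN K1 (v σ1)) := by
      rw [hv0, NN_zero]
      exact ⟨zero_le_one, hbig⟩
    exact this h3
  have hσp : 0 < σ := by
    rcases hσ.1.eq_or_lt with h3 | h3
    · rw [← h3, hv0, NN_zero] at hone
      exact absurd hone zero_ne_one
    · exact h3
  have key : Psi K K1 X (v σ) = σ • w := by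
    funext j
    by_cases hj : w j = 0
    · have h3 : v σ j = 0 := by
        show ((h (σ * pg K (w j)) / pg K (w j) : ℝ) : ℂ) * w j = 0
        rw [hj, mul_zero]
      rw [(Psi_zero_iff K K1 hX _ j).2 h3, Pi.smul_apply, hj, smul_zero]
    · have hp : 0 < pg K (w j) := pg_pos hj
      have hs : 0 < σ * pg K (w j) := mul_pos hσp hp
      have hx0 : 0 ≤ h (σ * pg K (w j)) := hn _ hs.le
      have hx : h (σ * pg K (w j)) * X (h (σ * pg K (w j))) = σ * pg K (w j) := by
        rw [← gg_of_nonneg X hx0, h2]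
      have hx1 : 0 < h (σ * pg K (w j)) := by
        refine lt_of_le_of_ne hx0 fun h4 => ?_
        rw [← h4, zero_mul] at hx
        exact hs.ne hx
      have hxx : xx K K1 (v σ) j = h (σ * pg K (w j)) := by
        unfold xx
        rw [hone, div_one]
        show pg K (((h (σ * pg K (w j)) / pg K (w j) : ℝ) : ℂ) * w j) = _
        rw [pg_smul (div_pos hx1 hp), div_mul_cancel₀ _ hp.ne']
      show ((X (xx K K1 (v σ) j) : ℝ) : ℂ) *
        (((h (σ * pg K (w j)) / pg K (w j) : ℝ) : ℂ) * w j) = σ • w j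
      rw [hxx, ← mul_assoc, ← Complex.ofReal_mul, mul_div_assoc', mul_comm (X _), hx,
        mul_div_assoc, div_self hp.ne', mul_one, Complex.real_smul]
  refine ⟨σ⁻¹ • v σ, ?_⟩
  rw [Psi_smul K K1 X (inv_pos.2 hσp), key, smul_smul, inv_mul_cancel₀ hσp.ne', one_smul]

/-! ### the functions -/

theorem max_Psi (K K1 : ℝ) (hX : Prf X) (z : Fin N → ℂ) (j : Fin N) :
    max 0 (Psi K K1 X z j).re = X (xx K K1 z j) * max 0 (z j).re := by
  unfold Psi
  rw [Complex.re_ofReal_mul, mul_max_of_nonneg _ _ (X_nonneg hX (xx_nonneg _ _ _ _)), mul_zero]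

theorem slope_Psi (K K1 : ℝ) (hX : Prf X) (z : Fin N → ℂ) (j : Fin N) :
    (Psi K K1 X z j).im / (Psi K K1 X z j).re = (z j).im / (z j).re := by
  by_cases hj : z j = 0
  · rw [(Psi_zero_iff K K1 hX z j).2 hj, hj]
  · have h1 := hX.pos _ (xx_pos K K1 hj)
    unfold Psi
    rw [Complex.re_ofReal_mul, Complex.im_ofReal_mul, mul_div_mul_left _ _ h1.ne']


section SD

open Crest.Agent.R267.T3aNDefs_88 Crest.Agent.R267.GlNDefs_9

theorem plN_zero (ga : ℝ) (e : ℕ → ℝ) (M : ℕ) : plN ga e M 0 = 0 := by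
  simp [plN]

theorem Gx_one_smul (D : SD N) (cB ga : ℝ) {r : ℝ} (hr : 0 < r) (z : Fin N → ℂ) :
    Gx D (fun _ => 1) cB ga (r • z) = r • Gx D (fun _ => 1) cB ga z := by
  have e1 : ∀ j, Rx D (fun _ => 1) (r • z) j = r * Rx D (fun _ => 1) z j := by
    intro j
    unfold Rx
    rw [Pi.smul_apply, Complex.real_smul, Complex.re_ofReal_mul, one_mul, one_mul,
      mul_max_of_nonneg _ _ hr.le, mul_zero]
  have e2 : ∀ j, plN ga (D.sn j) (D.M j) ((r • z) j) = (r : ℂ) * plN ga (D.sn j) (D.M j) (z j) := by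
    intro j
    rw [Pi.smul_apply, Complex.real_smul, Crest.Agent.R267.T3aNBas_277.plN_smul hr]
  have e3 : ∀ j, ((r • z) j).im / ((r • z) j).re = (z j).im / (z j).re := by
    intro j
    rw [Pi.smul_apply, Complex.real_smul, Complex.re_ofReal_mul, Complex.im_ofReal_mul]
    exact mul_div_mul_left _ _ hr.ne'
  have e4 : ∀ e, Bx D (fun _ => 1) e (r • z) = r * Bx D (fun _ => 1) e z := by
    intro e
    unfold Bx
    have h1 : Rx D (fun _ => 1) (r • z) = fun j => r * Rx D (fun _ => 1) z j := funext e1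
    rw [h1, Crest.Agent.R267.T3aNBas_277.Hm_smul _ _ hr]
    simp only [e3]
    ring
  have e5 : ∑ e, Bx D (fun _ => 1) e (r • z) = r * ∑ e, Bx D (fun _ => 1) e z := by
    rw [Finset.mul_sum]
    exact Finset.sum_congr rfl fun e _ => e4 e
  have e6 : ∑ j, (((1 : ℝ) : ℝ) : ℂ) * plN ga (D.sn j) (D.M j) ((r • z) j) =
      (r : ℂ) * ∑ j, (((1 : ℝ) : ℝ) : ℂ) * plN ga (D.sn j) (D.M j) (z j) := by
    rw [Finset.mul_sum]
    refine Finset.sum_congr rfl fun j _ => ?_
    rw [e2]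
    ring
  unfold Gx
  rw [e5, e6, Complex.real_smul, mul_sub]
  congr 1
  rw [mul_left_comm, Complex.ofReal_mul]

/-- **GLN-HOMEO** -/
theorem homeoN (D : SD N) : HomeoP D := by
  intro X hX cB ga
  refine zeq_of_hom (F := Psi D.K D.K1 X) (continuous_Psi D.K D.K1 hX)
    (fun l x hl => Psi_smul D.K D.K1 X hl x) (Psi_injective D.K D.K1 hX)
    (Psi_surjective D.K D.K1 hX) (fun l x hl h => ?_) (fun z => ?_)
  · rw [Gx_one_smul D cB ga hl, h, smul_zero]
  · have h1 : Gx D X cB ga z = Gx D (fun _ => 1) cB ga (Psi D.K D.K1 X z) := by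
      have e1 : Rx D (fun _ => 1) (Psi D.K D.K1 X z) = Rx D X z := by
        funext j
        unfold Rx
        rw [one_mul, max_Psi D.K D.K1 hX]
        rfl
      have e2 : ∀ j, (X (D.xr z j) : ℂ) * plN ga (D.sn j) (D.M j) (z j) =
          (((1 : ℝ) : ℝ) : ℂ) * plN ga (D.sn j) (D.M j) (Psi D.K D.K1 X z j) := by
        intro j
        rw [Complex.ofReal_one, one_mul]
        by_cases hj : z j = 0
        · rw [(Psi_zero_iff D.K D.K1 hX z j).2 hj, hj, plN_zero, mul_zero]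
        · exact (Crest.Agent.R267.T3aNBas_277.plN_smul (hX.pos _ (xx_pos D.K D.K1 hj)) _).symm
      unfold Gx
      congr 1
      · exact Finset.sum_congr rfl fun j _ => e2 j
      · unfold Bx
        simp only [e1, slope_Psi D.K D.K1 hX]
    rw [h1]

end SD

end Crest.Agent.R267.GlnHomeo_125
end
end

-- ▼ part R267/GlnC2_796
section

/-!
# Row 267, GLN-C2 (helper796): smoothness of the harmonic boxes, `C2P D` for `D : SD N`
-/

set_option autoImplicit false

noncomputable section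

open Finset Set Filter Topology
open scoped ContDiff
open Crest.Agent.R267.T3aDefs_957 (st Af Bf pg NN chi gq)
open Crest.Agent.R267.Calc_957 Crest.Agent.R267.Calc2_957
open Crest.Agent.R267.GlueDefs_322 (rho Xe)
open Crest.Agent.R267.GlC2b_796
open Crest.Agent.R267.T3aNDefs_88

namespace Crest.Agent.R267.GlnC2_796

/-! ### algebra of `Hm` -/

section Hm

variable {ι : Type}

theorem Hm_of_pos {S : Finset ι} {R : ι → ℝ} (h : ∀ j ∈ S, 0 < R j) :
    Hm S R = 1 / ∑ j ∈ S, 1 / R j := by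
  unfold Hm
  rw [if_pos h]

theorem Hm_of_nonpos {S : Finset ι} {R : ι → ℝ} {j : ι} (hj : j ∈ S) (h : R j ≤ 0) :
    Hm S R = 0 := by
  unfold Hm
  rw [if_neg]
  intro h'
  exact absurd (h' j hj) (not_lt.2 h)

theorem Hm_nonneg (S : Finset ι) (R : ι → ℝ) : 0 ≤ Hm S R := by
  by_cases h : ∀ j ∈ S, 0 < R j
  · rw [Hm_of_pos h]
    exact one_div_nonneg.2 (Finset.sum_nonneg fun j hj => one_div_nonneg.2 (h j hj).le)
  · push Not at h
    obtain ⟨j, hj, h⟩ := h
    rw [Hm_of_nonpos hj h]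

theorem Hm_congr {S : Finset ι} {R R' : ι → ℝ} (h : ∀ j ∈ S, R j = R' j) : Hm S R = Hm S R' := by
  by_cases h1 : ∀ j ∈ S, 0 < R j
  · rw [Hm_of_pos h1, Hm_of_pos fun j hj => (h j hj) ▸ h1 j hj]
    congr 1
    exact Finset.sum_congr rfl fun j hj => by rw [h j hj]
  · push Not at h1
    obtain ⟨j, hj, h1⟩ := h1
    rw [Hm_of_nonpos hj h1, Hm_of_nonpos hj ((h j hj) ▸ h1)]

theorem Hm_smul {S : Finset ι} (R : ι → ℝ) {c : ℝ} (hc : 0 < c) :
    Hm S (fun j => c * R j) = c * Hm S R := by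
  by_cases h1 : ∀ j ∈ S, 0 < R j
  · rw [Hm_of_pos h1, Hm_of_pos fun j hj => mul_pos hc (h1 j hj)]
    have h2 : ∑ j ∈ S, 1 / (c * R j) = (1 / c) * ∑ j ∈ S, 1 / R j := by
      rw [Finset.mul_sum]
      exact Finset.sum_congr rfl fun j _ => by rw [one_div_mul_one_div]
    rw [h2, one_div_mul_eq_div, one_div_div, ← mul_one_div]
  · push Not at h1
    obtain ⟨j, hj, h1⟩ := h1
    rw [Hm_of_nonpos hj h1, Hm_of_nonpos hj (mul_nonpos_of_nonneg_of_nonpos hc.le h1), mul_zero]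

theorem Hm_split [DecidableEq ι] {S Z : Finset ι} (hZ : Z ⊆ S) (hn : Z.Nonempty) {R : ι → ℝ}
    (h : ∀ j ∈ S \ Z, 0 < R j) :
    Hm S R = Hm Z R / (1 + Hm Z R * ∑ j ∈ S \ Z, 1 / R j) := by
  by_cases h1 : ∀ j ∈ Z, 0 < R j
  · have h2 : ∀ j ∈ S, 0 < R j := by
      intro j hj
      by_cases hjZ : j ∈ Z
      · exact h1 j hjZ
      · exact h j (Finset.mem_sdiff.2 ⟨hj, hjZ⟩)
    rw [Hm_of_pos h1, Hm_of_pos h2, ← Finset.sum_sdiff hZ]
    have h3 : 0 < ∑ j ∈ Z, 1 / R j := Finset.sum_pos (fun j hj => one_div_pos.2 (h1 j hj)) hn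
    have h4 : 0 ≤ ∑ j ∈ S \ Z, 1 / R j :=
      Finset.sum_nonneg fun j hj => one_div_nonneg.2 (h j hj).le
    have h5 : (∑ j ∈ S \ Z, 1 / R j) + ∑ j ∈ Z, 1 / R j ≠ 0 := by positivity
    have h6 : 1 + 1 / (∑ j ∈ Z, 1 / R j) * ∑ j ∈ S \ Z, 1 / R j ≠ 0 := by positivity
    rw [div_eq_div_iff h5 h6]
    field_simp
    ring
  · push Not at h1
    obtain ⟨j, hj, h1⟩ := h1
    rw [Hm_of_nonpos hj h1, Hm_of_nonpos (hZ hj) h1, zero_div]

end Hm

/-! ### abstract smoothness -/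

section Abs

variable {ι : Type} {E : Type*} [NormedAddCommGroup E] [NormedSpace ℝ E]

theorem prod_c2 {S : Finset ι} {w : ι → E → ℝ} {p : E}
    (hw : ∀ j ∈ S, ContDiffAt ℝ 2 (w j) p) : ContDiffAt ℝ 2 (fun x => ∏ j ∈ S, w j x) p :=
  contDiffAt_prod hw

theorem al0 {S : Finset ι} (hS : S.Nonempty) {R w : ι → E → ℝ} {p : E}
    (hR : ∀ j ∈ S, ContDiffAt ℝ 2 (R j) p) (hp : ∀ j ∈ S, 0 < R j p)
    (hw : ∀ j ∈ S, ContDiffAt ℝ 2 (w j) p) :
    ContDiffAt ℝ 2 (fun x => Hm S (fun j => R j x) * ∏ j ∈ S, w j x) p := by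
  have h1 : ∀ᶠ x in 𝓝 p, ∀ j ∈ S, 0 < R j x :=
    (Filter.eventually_all_finset S).2 fun j hj =>
      (hR j hj).continuousAt.eventually (lt_mem_nhds (hp j hj))
  have h2 : (fun x => Hm S (fun j => R j x) * ∏ j ∈ S, w j x) =ᶠ[𝓝 p]
      fun x => 1 / (∑ j ∈ S, 1 / R j x) * ∏ j ∈ S, w j x := by
    filter_upwards [h1] with x hx
    rw [Hm_of_pos hx]
  refine ContDiffAt.congr_of_eventuallyEq ?_ h2
  refine ContDiffAt.mul ?_ (prod_c2 hw)
  refine contDiffAt_const.div (ContDiffAt.sum fun j hj =>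
    contDiffAt_const.div (hR j hj) (hp j hj).ne') ?_
  exact (Finset.sum_pos (fun j hj => one_div_pos.2 (hp j hj)) hS).ne'

theorem al [DecidableEq ι] {S Z : Finset ι} (hZS : Z ⊆ S) (hZ : Z.Nonempty)
    {R w W : ι → E → ℝ} {p : E}
    (hR : ∀ j ∈ S \ Z, ContDiffAt ℝ 2 (R j) p) (hp : ∀ j ∈ S \ Z, 0 < R j p)
    (hw : ∀ j ∈ S \ Z, ContDiffAt ℝ 2 (w j) p)
    (hB : ContDiffAt ℝ 2 (fun x => Hm Z (fun j => R j x) * ∏ j ∈ Z, w j x) p)
    (hB' : ContDiffAt ℝ 2 (fun x => Hm Z (fun j => R j x) * ∏ j ∈ Z, W j x) p)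
    (hW : ∀ j ∈ Z, ∀ x, 0 ≤ W j x) (h1 : ∀ j ∈ Z, ∀ x, w j x ≠ 0 → W j x = 1) :
    ContDiffAt ℝ 2 (fun x => Hm S (fun j => R j x) * ∏ j ∈ S, w j x) p := by
  have h2 : ∀ᶠ x in 𝓝 p, ∀ j ∈ S \ Z, 0 < R j x :=
    (Filter.eventually_all_finset (S \ Z)).2 fun j hj =>
      (hR j hj).continuousAt.eventually (lt_mem_nhds (hp j hj))
  have h3 : (fun x => Hm S (fun j => R j x) * ∏ j ∈ S, w j x) =ᶠ[𝓝 p]
      fun x => (Hm Z (fun j => R j x) * ∏ j ∈ Z, w j x) * (∏ j ∈ S \ Z, w j x) /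
        (1 + (Hm Z (fun j => R j x) * ∏ j ∈ Z, W j x) * ∑ j ∈ S \ Z, 1 / R j x) := by
    filter_upwards [h2] with x hx
    rw [← Finset.prod_sdiff hZS, Hm_split hZS hZ hx]
    by_cases hw0 : ∏ j ∈ Z, w j x = 0
    · rw [hw0]
      simp
    · have h4 : ∏ j ∈ Z, W j x = 1 :=
        Finset.prod_eq_one fun j hj => h1 j hj x (Finset.prod_ne_zero_iff.1 hw0 j hj)
      rw [h4, mul_one]
      ring
  refine ContDiffAt.congr_of_eventuallyEq ?_ h3
  have h4 : ContDiffAt ℝ 2 (fun x => ∑ j ∈ S \ Z, 1 / R j x) p :=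
    ContDiffAt.sum fun j hj => contDiffAt_const.div (hR j hj) (hp j hj).ne'
  refine (hB.mul (prod_c2 hw)).div (contDiffAt_const.add (hB'.mul h4)) ?_
  have h5 : 0 ≤ Hm Z (fun j => R j p) * ∏ j ∈ Z, W j p :=
    mul_nonneg (Hm_nonneg _ _) (Finset.prod_nonneg fun j hj => hW j hj p)
  have h6 : 0 ≤ ∑ j ∈ S \ Z, 1 / R j p :=
    Finset.sum_nonneg fun j hj => one_div_nonneg.2 (hp j hj).le
  positivity

end Abs

/-! ### windows with bounded support -/

theorem wid_c2 (a b : ℝ) : ContDiff ℝ 2 (wid a b) := by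
  have h1 : ContDiff ℝ 2 fun τ : ℝ => st ((τ - (a - 2)) / 2) := contDiff_st.comp (by fun_prop)
  have h2 : ContDiff ℝ 2 fun τ : ℝ => st ((τ - b) / 2) := contDiff_st.comp (by fun_prop)
  exact h1.mul (contDiff_const.sub h2)

theorem wid_zero (a b τ : ℝ) (h : τ ≤ a - 2 ∨ b + 2 ≤ τ) : wid a b τ = 0 := by
  unfold wid
  rcases h with h | h
  · rw [st_of_le (by linarith : (τ - (a - 2)) / 2 ≤ 0), zero_mul]
  · rw [st_of_ge (by linarith : 1 ≤ (τ - b) / 2), sub_self, mul_zero]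

/-- bounded support -/
structure Bd (w : ℝ → ℝ) (a b : ℝ) : Prop where
  c2 : ContDiff ℝ 2 w
  z : ∀ τ, τ ≤ a ∨ b ≤ τ → w τ = 0

theorem Bd.wid (a b : ℝ) : Bd (wid a b) (a - 2) (b + 2) := ⟨wid_c2 a b, wid_zero a b⟩

theorem Bd.win {w : ℝ → ℝ} {a b : ℝ} (h : Bd w a b) : Win w (GlC2b_796.wid a b) a b where
  cw := h.c2
  cW := wid_c2 a b
  w0 := h.z
  W1 := by
    intro τ h h'
    unfold GlC2b_796.wid
    rw [st_of_ge (by linarith : 1 ≤ (τ - (a - 2)) / 2),
      st_of_le (by linarith : (τ - b) / 2 ≤ 0), sub_zero, mul_one]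
  W0 := wid_zero a b
  Wn := fun τ => mul_nonneg (st_nonneg _) (sub_nonneg.2 (st_le_one _))

theorem winN_Bd (m m' : ℕ) : Bd (winN m m') (16 * m - 1) (16 * m' + 1) where
  c2 := by
    have h1 : ContDiff ℝ 2 fun τ : ℝ => st ((τ - (16 * m - 1)) / 2) :=
      contDiff_st.comp (by fun_prop)
    have h2 : ContDiff ℝ 2 fun τ : ℝ => st ((τ - (16 * m' - 1)) / 2) :=
      contDiff_st.comp (by fun_prop)
    exact h1.mul (contDiff_const.sub h2)
  z := by
    intro τ h
    unfold winN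
    rcases h with h | h
    · rw [st_of_le (by linarith : (τ - (16 * (m : ℝ) - 1)) / 2 ≤ 0), zero_mul]
    · rw [st_of_ge (by linarith : 1 ≤ (τ - (16 * (m' : ℝ) - 1)) / 2), sub_self, mul_zero]

/-! ### the planar boxes of degree 8 -/

section planar

variable {ι : Type} (K : ℝ)

/-- the box function of degree 8 -/
def hf (S : Finset ι) (w : ι → ℝ → ℝ) (z : ι → ℂ) : ℝ :=
  Hm S (fun j => rho K (z j)) * ∏ j ∈ S, w j ((z j).im / (z j).re)

theorem hf_congr {S : Finset ι} (w : ι → ℝ → ℝ) {z z' : ι → ℂ} (h : ∀ j ∈ S, z j = z' j) :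
    hf K S w z = hf K S w z' := by
  unfold hf
  rw [Hm_congr fun j hj => by rw [h j hj], Finset.prod_congr rfl fun j hj => by rw [h j hj]]

/-- a vanishing window kills the box -/
theorem box_zero {S : Finset ι} {R : ι → ℝ} {w : ι → ℝ → ℝ} {z : ι → ℂ} {j : ι} (hj : j ∈ S)
    (hR : (z j).re ≤ 0 → R j ≤ 0) (h : pw (w j) (z j) = 0) :
    Hm S R * ∏ j ∈ S, w j ((z j).im / (z j).re) = 0 := by
  rcases le_or_gt (z j).re 0 with h0 | h0
  · rw [Hm_of_nonpos hj (hR h0), zero_mul]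
  · have h1 : w j ((z j).im / (z j).re) = 0 := by
      rcases mul_eq_zero.1 h with h2 | h2
      · rw [max_eq_right h0.le] at h2
        exact absurd h2 h0.ne'
      · exact h2
    rw [Finset.prod_eq_zero hj h1, mul_zero]

theorem rho_nonpos {z : ℂ} (h : z.re ≤ 0) : rho K z ≤ 0 := by
  rw [rho, max_eq_left h, mul_zero]

theorem rho_pos {z : ℂ} (h : 0 < z.re) : 0 < rho K z := by
  have hz : z ≠ 0 := fun hz => by simp [hz] at h
  rw [rho, max_eq_right h.le]
  exact mul_pos (pow_pos (pg_pos hz) 7) h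

theorem re_pos_of_pw {w : ℝ → ℝ} {z : ℂ} (h : pw w z ≠ 0) : 0 < z.re := by
  by_contra hcon
  apply h
  rw [pw, max_eq_left (not_lt.1 hcon), zero_mul]

theorem rho_c2 {z : ℂ} (h : 0 < z.re) : ContDiffAt ℝ 2 (rho K) z := by
  have hz : z ≠ 0 := fun hz => by simp [hz] at h
  have h1 : ∀ᶠ v : ℂ in 𝓝 z, 0 < v.re :=
    Complex.continuous_re.continuousAt.eventually (lt_mem_nhds h)
  have h2 : rho K =ᶠ[𝓝 z] fun v => pg K v ^ 7 * v.re := by
    filter_upwards [h1] with v hv
    rw [rho, max_eq_right hv.le]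
  exact (((pg_c2 K hz).pow 7).mul Complex.reCLM.contDiff.contDiffAt).congr_of_eventuallyEq h2

variable [Fintype ι]

theorem tauj_c2 {w : ℝ → ℝ} (hw : ContDiff ℝ 2 w) {z : ι → ℂ} {j : ι} (h : 0 < (z j).re) :
    ContDiffAt ℝ 2 (fun v : ι → ℂ => w ((v j).im / (v j).re)) z := by
  have h1 : ContDiffAt ℝ 2 (fun v : ι → ℂ => (v j).im / (v j).re) z :=
    ContDiffAt.comp (g := fun v : ℂ => v.im / v.re) (f := fun v : ι → ℂ => v j) z
      (tau_c2 h.ne') (contDiff_apply ℝ ℂ j).contDiffAt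
  exact hw.contDiffAt.comp z h1

theorem hf_c2_aux [DecidableEq ι] {S : Finset ι} {w : ι → ℝ → ℝ} {a b : ι → ℝ}
    (hw : ∀ j, Bd (w j) (a j) (b j))
    (IH : ∀ Z ⊂ S, Z.Nonempty → ∀ (w : ι → ℝ → ℝ) (a b : ι → ℝ), (∀ j, Bd (w j) (a j) (b j)) →
      ContDiff ℝ 2 (hf K Z w)) {z : ι → ℂ} (hz : ∃ j ∈ S, z j ≠ 0) :
    ContDiffAt ℝ 2 (hf K S w) z := by
  classical
  obtain ⟨j₀, hj₀, hz₀⟩ := hz
  let Z : Finset ι := S.filter fun j => z j = 0
  have hZS : Z ⊆ S := Finset.filter_subset _ _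
  have hZ : Z ⊂ S := Finset.filter_ssubset.2 ⟨j₀, hj₀, hz₀⟩
  have hZc : ∀ j ∈ S \ Z, z j ≠ 0 := by
    intro j hj h
    rw [Finset.mem_sdiff] at hj
    exact hj.2 (Finset.mem_filter.2 ⟨hj.1, h⟩)
  by_cases hA : ∃ j ∈ S \ Z, pw (wid (a j) (b j)) (z j) = 0
  · obtain ⟨j, hj, hA⟩ := hA
    refine (contDiffAt_const (c := (0 : ℝ))).congr_of_eventuallyEq ?_
    filter_upwards [((continuous_apply j).tendsto z).eventually
      ((hw j).win.loc (hZc j hj) hA)] with v hv
    exact box_zero (Finset.mem_sdiff.1 hj).1 (fun h => rho_nonpos K h) hv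
  · push Not at hA
    have hre : ∀ j ∈ S \ Z, 0 < (z j).re := fun j hj => re_pos_of_pw (hA j hj)
    have hR : ∀ j ∈ S \ Z, ContDiffAt ℝ 2 (fun v : ι → ℂ => rho K (v j)) z := fun j hj =>
      ContDiffAt.comp (g := rho K) (f := fun v : ι → ℂ => v j) z (rho_c2 K (hre j hj))
        (contDiff_apply ℝ ℂ j).contDiffAt
    have hp : ∀ j ∈ S \ Z, 0 < rho K (z j) := fun j hj => rho_pos K (hre j hj)
    have hww : ∀ j ∈ S \ Z, ContDiffAt ℝ 2 (fun v : ι → ℂ => w j ((v j).im / (v j).re)) z :=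
      fun j hj => tauj_c2 (hw j).c2 (hre j hj)
    have hgoal : ContDiffAt ℝ 2 (fun v : ι → ℂ => Hm S (fun j => rho K (v j)) *
        ∏ j ∈ S, w j ((v j).im / (v j).re)) z := by
      rcases Z.eq_empty_or_nonempty with h0 | h0
      · have hSZ : S \ Z = S := by rw [h0, Finset.sdiff_empty]
        rw [hSZ] at hR hp hww
        exact al0 (R := fun j (v : ι → ℂ) => rho K (v j))
          (w := fun j (v : ι → ℂ) => w j ((v j).im / (v j).re)) ⟨j₀, hj₀⟩ hR hp hww
      · have hB : ContDiffAt ℝ 2 (fun v : ι → ℂ => Hm Z (fun j => rho K (v j)) *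
            ∏ j ∈ Z, w j ((v j).im / (v j).re)) z := (IH Z hZ h0 w a b hw).contDiffAt
        have hB' : ContDiffAt ℝ 2 (fun v : ι → ℂ => Hm Z (fun j => rho K (v j)) *
            ∏ j ∈ Z, wid (a j) (b j) ((v j).im / (v j).re)) z :=
          (IH Z hZ h0 (fun j => wid (a j) (b j)) (fun j => a j - 2) (fun j => b j + 2)
            fun j => Bd.wid _ _).contDiffAt
        have hW : ∀ j ∈ Z, ∀ v : ι → ℂ, 0 ≤ wid (a j) (b j) ((v j).im / (v j).re) :=
          fun j _ v => (hw j).win.Wn _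
        have h1 : ∀ j ∈ Z, ∀ v : ι → ℂ, w j ((v j).im / (v j).re) ≠ 0 →
            wid (a j) (b j) ((v j).im / (v j).re) = 1 := fun j _ v h => (hw j).win.one h
        exact al (R := fun j (v : ι → ℂ) => rho K (v j))
          (w := fun j (v : ι → ℂ) => w j ((v j).im / (v j).re))
          (W := fun j (v : ι → ℂ) => wid (a j) (b j) ((v j).im / (v j).re)) hZS h0 hR hp hww
          hB hB' hW h1
    exact hgoal

/-- **the boxes of degree 8 are `C²`** -/
theorem hf_c2 [DecidableEq ι] (S : Finset ι) : S.Nonempty → ∀ (w : ι → ℝ → ℝ) (a b : ι → ℝ),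
    (∀ j, Bd (w j) (a j) (b j)) → ContDiff ℝ 2 (hf K S w) := by
  induction S using Finset.strongInduction with
  | H S IH =>
    intro hS w a b hw
    -- the space of the variables of `S`
    let ext : (S → ℂ) →ₗ[ℝ] (ι → ℂ) :=
      { toFun := fun y j => if h : j ∈ S then y ⟨j, h⟩ else 0
        map_add' := by
          intro y y'
          funext j
          by_cases h : j ∈ S <;> simp [h]
        map_smul' := by
          intro r y
          funext j
          by_cases h : j ∈ S <;> simp [h] }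
    let res : (ι → ℂ) →ₗ[ℝ] (S → ℂ) :=
      { toFun := fun z j => z j
        map_add' := fun _ _ => rfl
        map_smul' := fun _ _ => rfl }
    have hext : ∀ (y : S → ℂ) (j : S), ext y j = y j := by
      intro y j
      show (if h : j.1 ∈ S then y ⟨j.1, h⟩ else 0) = y j
      rw [dif_pos j.2]
    have hextc : ContDiff ℝ 2 ext := (LinearMap.toContinuousLinearMap ext).contDiff
    have hresc : ContDiff ℝ 2 res := (LinearMap.toContinuousLinearMap res).contDiff
    have hg : ContDiff ℝ 2 (fun y : S → ℂ => hf K S w (ext y)) := by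
      refine contDiff_of_hom8 (fun y hy => ?_) ?_ ?_
      · obtain ⟨j, hj⟩ := Function.ne_iff.1 hy
        have h1 : ContDiffAt ℝ 2 (hf K S w) (ext y) :=
          hf_c2_aux K hw (fun Z hZ => IH Z hZ) ⟨j.1, j.2, by rw [hext]; exact hj⟩
        exact h1.comp y hextc.contDiffAt
      · obtain ⟨j, hj⟩ := hS
        show hf K S w (ext 0) = 0
        rw [map_zero]
        unfold hf
        rw [Hm_of_nonpos hj (by rw [rho]; simp), zero_mul]
      · intro r hr y
        rw [map_smul]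
        unfold hf
        have h1 : ∀ z : ℂ, rho K (r • z) = r ^ 8 * rho K z := by
          intro z
          have h2 := pw_hom (fun _ => 1) hr z
          unfold pw at h2
          rw [mul_one, mul_one] at h2
          unfold rho
          rw [pg_hom K hr, h2]
          ring
        have h3 : ∀ z : ℂ, (r • z).im / (r • z).re = z.im / z.re := by
          intro z
          rw [Complex.smul_re, Complex.smul_im, smul_eq_mul, smul_eq_mul,
            mul_div_mul_left _ _ hr.ne']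
        have h4 : Hm S (fun j => rho K ((r • ext y) j)) =
            r ^ 8 * Hm S (fun j => rho K (ext y j)) := by
          rw [← Hm_smul _ (pow_pos hr 8)]
          exact Hm_congr fun j _ => h1 _
        rw [h4, smul_eq_mul, mul_assoc]
        congr 2
        exact Finset.prod_congr rfl fun j _ => by rw [Pi.smul_apply, h3]
    have h5 : hf K S w = fun z => hf K S w (ext (res z)) := by
      funext z
      exact hf_congr K w fun j hj => (hext (res z) ⟨j, hj⟩).symm
    rw [h5]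
    exact hg.comp hresc

end planar

/-! ### planar terms of degree 8 -/

theorem plN_hom (ga : ℝ) (e : ℕ → ℝ) (M : ℕ) {r : ℝ} (hr : 0 < r) (z : ℂ) :
    plN ga e M (r • z) = (r : ℂ) * plN ga e M z := by
  unfold plN
  rw [Complex.smul_re, Complex.smul_im, smul_eq_mul, smul_eq_mul, mul_div_mul_left _ _ hr.ne']
  by_cases h : 0 < z.re
  · rw [if_pos h, if_pos (mul_pos hr h)]
    push_cast
    ring
  · rw [if_neg h, if_neg (by rw [mul_pos_iff_of_pos_left hr]; exact h)]
    push_cast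
    ring

theorem P8N_c2 (K ga : ℝ) (e : ℕ → ℝ) (M : ℕ) : ContDiff ℝ 2 (GlNDefs_9.P8N K ga e M) := by
  refine contDiff_of_hom8 (fun z hz => ?_) ?_ ?_
  · exact (Complex.ofRealCLM.contDiff.contDiffAt.comp z ((pg_c2 K hz).pow 7)).mul
      (SmoothN_957.contDiffAt_plN ga e M hz)
  · rw [GlNDefs_9.P8N, pg_zero]
    simp
  · intro r hr z
    rw [GlNDefs_9.P8N, GlNDefs_9.P8N, pg_hom K hr, plN_hom ga e M hr, Complex.real_smul]
    push_cast
    ring

/-! ### the space -/

section space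

open Crest.Agent.R267.GlNDefs_9 (Rx Bx Gx C2P)

variable {N : ℕ} (D : SD N)

theorem xrN_pos {z : Fin N → ℂ} (hz : z ≠ 0) {j : Fin N} (hj : z j ≠ 0) : 0 < D.xr z j :=
  div_pos (pg_pos hj) (GlC2b_796.NN_pos D.K1 hz)

/-- near `z j = 0` the profile is `η x⁷` -/
theorem XeN_loc {z : Fin N → ℂ} (hz : z ≠ 0) {j : Fin N} (hj : z j = 0) {d : ℝ} (hd : 0 < d)
    (η : ℝ) : ∀ᶠ w in 𝓝 z, Xe d η (D.xr w j) = η / NN D.K1 w ^ 7 * pg D.K (w j) ^ 7 := by
  filter_upwards [SmoothN_957.xr_nhds D hz hj hd] with w hw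
  rw [Xe, chi_of_lt hd hw, zero_add, SD.xr, div_pow]
  ring

theorem kap_c2 (η : ℝ) {z : Fin N → ℂ} (hz : z ≠ 0) :
    ContDiffAt ℝ 2 (fun w : Fin N → ℂ => η / NN D.K1 w ^ 7) z :=
  contDiffAt_const.div ((GlC2b_796.NN_c2 D.K1 hz).pow 7)
    (pow_ne_zero 7 (GlC2b_796.NN_pos D.K1 hz).ne')

/-- planar terms -/
theorem termN_c2 {d : ℝ} (hd : 0 < d) (η ga : ℝ) (e : ℕ → ℝ) (M : ℕ) {z : Fin N → ℂ} (hz : z ≠ 0)
    (j : Fin N) : ContDiffAt ℝ 2 (fun w => (Xe d η (D.xr w j) : ℂ) * plN ga e M (w j)) z := by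
  by_cases hj : z j = 0
  · have h1 : (fun w : Fin N → ℂ => (Xe d η (D.xr w j) : ℂ) * plN ga e M (w j)) =ᶠ[𝓝 z]
        fun w => ((η / NN D.K1 w ^ 7 : ℝ) : ℂ) * GlNDefs_9.P8N D.K ga e M (w j) := by
      filter_upwards [XeN_loc D hz hj hd η] with w hw
      rw [hw, GlNDefs_9.P8N]
      push_cast
      ring
    refine ContDiffAt.congr_of_eventuallyEq ?_ h1
    exact (Complex.ofRealCLM.contDiff.contDiffAt.comp z (kap_c2 D η hz)).mul
      (((P8N_c2 D.K ga e M).comp (contDiff_apply ℝ ℂ j)).contDiffAt)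
  · exact (Complex.ofRealCLM.contDiff.contDiffAt.comp z
      ((Xe_c2 d η).contDiffAt.comp z (SmoothN_957.contDiffAt_xr D hz hj))).mul
      (ContDiffAt.comp (g := plN ga e M) (f := fun v : Fin N → ℂ => v j) z
        (SmoothN_957.contDiffAt_plN ga e M hj) (contDiff_apply ℝ ℂ j).contDiffAt)

theorem ne_of_re {z : Fin N → ℂ} {j : Fin N} (h : 0 < (z j).re) : z j ≠ 0 :=
  fun h' => by rw [h', Complex.zero_re] at h; exact lt_irrefl _ h

theorem Rx_c2 (d η : ℝ) {z : Fin N → ℂ} (hz : z ≠ 0) {j : Fin N} (h : 0 < (z j).re) :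
    ContDiffAt ℝ 2 (fun v => Rx D (Xe d η) v j) z := by
  have h1 : ∀ᶠ v : Fin N → ℂ in 𝓝 z, 0 < (v j).re :=
    (Complex.continuous_re.comp (continuous_apply j)).continuousAt.eventually (lt_mem_nhds h)
  have h2 : (fun v => Rx D (Xe d η) v j) =ᶠ[𝓝 z] fun v => Xe d η (D.xr v j) * (v j).re := by
    filter_upwards [h1] with v hv
    rw [Rx, max_eq_right hv.le]
  refine ContDiffAt.congr_of_eventuallyEq ?_ h2
  exact ((Xe_c2 d η).contDiffAt.comp z (SmoothN_957.contDiffAt_xr D hz (ne_of_re h))).mul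
    (ContDiffAt.comp (g := fun v : ℂ => v.re) (f := fun v : Fin N → ℂ => v j) z
      Complex.reCLM.contDiff.contDiffAt (contDiff_apply ℝ ℂ j).contDiffAt)

theorem Rx_pos {d η : ℝ} (hη : 0 < η) {z : Fin N → ℂ} (hz : z ≠ 0) {j : Fin N}
    (h : 0 < (z j).re) : 0 < Rx D (Xe d η) z j := by
  rw [Rx, max_eq_right h.le]
  exact mul_pos (Xe_pos hη (xrN_pos D hz (ne_of_re h))) h

theorem Rx_nonpos (X : ℝ → ℝ) {z : Fin N → ℂ} {j : Fin N} (h : (z j).re ≤ 0) :
    Rx D X z j ≤ 0 := by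
  rw [Rx, max_eq_left h, mul_zero]

theorem Rx_loc {z : Fin N → ℂ} (hz : z ≠ 0) {j : Fin N} (hj : z j = 0) {d : ℝ} (hd : 0 < d)
    (η : ℝ) : ∀ᶠ v in 𝓝 z, Rx D (Xe d η) v j = η / NN D.K1 v ^ 7 * rho D.K (v j) := by
  filter_upwards [XeN_loc D hz hj hd η] with v hv
  rw [Rx, hv, rho]
  ring

/-- the boxes over the set `Z` of small variables -/
theorem boxZ_c2 {d η : ℝ} (hd : 0 < d) (hη : 0 < η) {z : Fin N → ℂ} (hz : z ≠ 0)
    {Z : Finset (Fin N)} (hZ : Z.Nonempty) (hZ0 : ∀ j ∈ Z, z j = 0) {w : Fin N → ℝ → ℝ}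
    {a b : Fin N → ℝ} (hw : ∀ j, Bd (w j) (a j) (b j)) :
    ContDiffAt ℝ 2 (fun v : Fin N → ℂ => Hm Z (fun j => Rx D (Xe d η) v j) *
      ∏ j ∈ Z, w j ((v j).im / (v j).re)) z := by
  have h1 : ∀ᶠ v in 𝓝 z, ∀ j ∈ Z, Rx D (Xe d η) v j = η / NN D.K1 v ^ 7 * rho D.K (v j) :=
    (Filter.eventually_all_finset Z).2 fun j hj => Rx_loc D hz (hZ0 j hj) hd η
  have h2 : ∀ᶠ v in 𝓝 z, v ≠ 0 := isOpen_ne.mem_nhds hz
  have h3 : (fun v : Fin N → ℂ => Hm Z (fun j => Rx D (Xe d η) v j) *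
      ∏ j ∈ Z, w j ((v j).im / (v j).re)) =ᶠ[𝓝 z]
      fun v => η / NN D.K1 v ^ 7 * hf D.K Z w v := by
    filter_upwards [h1, h2] with v hv hv0
    have h4 : 0 < η / NN D.K1 v ^ 7 := div_pos hη (pow_pos (GlC2b_796.NN_pos D.K1 hv0) 7)
    rw [hf, Hm_congr hv, Hm_smul _ h4, mul_assoc]
  exact ((kap_c2 D η hz).mul (hf_c2 D.K Z hZ w a b hw).contDiffAt).congr_of_eventuallyEq h3

theorem box_c2 {d η : ℝ} (hd : 0 < d) (hη : 0 < η) {z : Fin N → ℂ} (hz : z ≠ 0)
    {S : Finset (Fin N)} (hS : S.Nonempty) {w : Fin N → ℝ → ℝ}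
    {a b : Fin N → ℝ} (hw : ∀ j, Bd (w j) (a j) (b j)) :
    ContDiffAt ℝ 2 (fun v : Fin N → ℂ => Hm S (fun j => Rx D (Xe d η) v j) *
      ∏ j ∈ S, w j ((v j).im / (v j).re)) z := by
  classical
  let Z : Finset (Fin N) := S.filter fun j => z j = 0
  have hZS : Z ⊆ S := Finset.filter_subset _ _
  have hZ0 : ∀ j ∈ Z, z j = 0 := fun j hj => (Finset.mem_filter.1 hj).2
  have hZc : ∀ j ∈ S \ Z, z j ≠ 0 := by
    intro j hj h
    rw [Finset.mem_sdiff] at hj
    exact hj.2 (Finset.mem_filter.2 ⟨hj.1, h⟩)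
  by_cases hA : ∃ j ∈ S \ Z, pw (wid (a j) (b j)) (z j) = 0
  · obtain ⟨j, hj, hA⟩ := hA
    refine (contDiffAt_const (c := (0 : ℝ))).congr_of_eventuallyEq ?_
    filter_upwards [((continuous_apply j).tendsto z).eventually
      ((hw j).win.loc (hZc j hj) hA)] with v hv
    exact box_zero (Finset.mem_sdiff.1 hj).1 (fun h => Rx_nonpos D _ h) hv
  · push Not at hA
    have hre : ∀ j ∈ S \ Z, 0 < (z j).re := fun j hj => re_pos_of_pw (hA j hj)
    have hR : ∀ j ∈ S \ Z, ContDiffAt ℝ 2 (fun v => Rx D (Xe d η) v j) z := fun j hj =>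
      Rx_c2 D d η hz (hre j hj)
    have hp : ∀ j ∈ S \ Z, 0 < Rx D (Xe d η) z j := fun j hj => Rx_pos D hη hz (hre j hj)
    have hww : ∀ j ∈ S \ Z, ContDiffAt ℝ 2 (fun v : Fin N → ℂ => w j ((v j).im / (v j).re)) z :=
      fun j hj => tauj_c2 (hw j).c2 (hre j hj)
    rcases Z.eq_empty_or_nonempty with h0 | h0
    · have hSZ : S \ Z = S := by rw [h0, Finset.sdiff_empty]
      rw [hSZ] at hR hp hww
      exact al0 (R := fun j (v : Fin N → ℂ) => Rx D (Xe d η) v j)
        (w := fun j (v : Fin N → ℂ) => w j ((v j).im / (v j).re)) hS hR hp hww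
    · have hB := boxZ_c2 D hd hη hz h0 hZ0 hw
      have hB' := boxZ_c2 D hd hη hz h0 hZ0 (w := fun j => wid (a j) (b j)) (a := fun j => a j - 2)
        (b := fun j => b j + 2) fun j => Bd.wid _ _
      have hW : ∀ j ∈ Z, ∀ v : Fin N → ℂ, 0 ≤ wid (a j) (b j) ((v j).im / (v j).re) :=
        fun j _ v => (hw j).win.Wn _
      have h1 : ∀ j ∈ Z, ∀ v : Fin N → ℂ, w j ((v j).im / (v j).re) ≠ 0 →
          wid (a j) (b j) ((v j).im / (v j).re) = 1 := fun j _ v h => (hw j).win.one h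
      exact al (R := fun j (v : Fin N → ℂ) => Rx D (Xe d η) v j)
        (w := fun j (v : Fin N → ℂ) => w j ((v j).im / (v j).re))
        (W := fun j (v : Fin N → ℂ) => wid (a j) (b j) ((v j).im / (v j).re)) hZS h0 hR hp hww
        hB hB' hW h1

theorem BxN_c2 {d η : ℝ} (hd : 0 < d) (hη : 0 < η) (e : Fin D.nb) {z : Fin N → ℂ}
    (hz : z ≠ 0) : ContDiffAt ℝ 2 (Bx D (Xe d η) e) z := by
  have hS : (D.bx e).S.Nonempty := by
    rw [← Finset.card_pos]
    have := D.h2 e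
    omega
  exact box_c2 D hd hη hz hS (w := fun j => winN ((D.bx e).lo j) ((D.bx e).hi j))
    fun j => winN_Bd _ _

/-- **GLN-C2** -/
theorem c2P : C2P D := by
  intro cB ga d η hd hη z hz
  refine ContDiffAt.contDiffWithinAt ?_
  have hz' : z ≠ 0 := hz
  have h1 : ContDiffAt ℝ 2 (fun w : Fin N → ℂ =>
      ∑ j, (Xe d η (D.xr w j) : ℂ) * plN ga (D.sn j) (D.M j) (w j)) z :=
    ContDiffAt.sum fun j _ => termN_c2 D hd η ga (D.sn j) (D.M j) hz' j
  have h2 : ContDiffAt ℝ 2 (fun w : Fin N → ℂ =>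
      (cB * ga * ∑ e, Bx D (Xe d η) e w : ℝ)) z :=
    contDiffAt_const.mul (ContDiffAt.sum fun e _ => BxN_c2 D hd hη e hz')
  exact h1.sub (Complex.ofRealCLM.contDiff.contDiffAt.comp z h2)

end space

/-! ### `F8N` -/


end Crest.Agent.R267.GlnC2_796
end
end

-- ▼ part R267/GlnCont_291
section

/-!
# Row 267, GLN-CONT (helper291): `GlNDefs_9.ContP`

Port of `GlCont_649` to signed lobes and boxes. `hm_insert` : the harmonic combination is an iterated
quotient `a b / (a + b)`, so `pd_Hm` (induction on the box) follows from `GlCont_649.PD.quot`.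
-/

set_option autoImplicit false

noncomputable section

open Finset Set Filter Topology
open Crest.Agent.R267.T3aDefs_957 (st Af Bf pg NN chi LD)
open Crest.Agent.R267.T3aNDefs_88 Crest.Agent.R267.GlNDefs_9
open Crest.Agent.R267.GlueDefs_322 (Xe)
open Crest.Agent.R267.GlCont_649 (wf wide contDiff_wide wide_far wide_nonneg contDiffAt_wf wf_hom
  Xe_nonneg pd_term pd_wide)

namespace Crest.Agent.R267.GlnCont_291

/-! ### the harmonic combination -/

section Hm

variable {ι : Type}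

theorem hm_congr {S : Finset ι} {R R' : ι → ℝ} (h : ∀ j ∈ S, R j = R' j) : Hm S R = Hm S R' := by
  unfold Hm
  have e1 : (∀ j ∈ S, 0 < R j) ↔ ∀ j ∈ S, 0 < R' j :=
    forall₂_congr fun j hj => by rw [h j hj]
  have e2 : ∑ j ∈ S, 1 / R j = ∑ j ∈ S, 1 / R' j := sum_congr rfl fun j hj => by rw [h j hj]
  rw [e2]
  by_cases h1 : ∀ j ∈ S, 0 < R' j
  · rw [if_pos h1, if_pos (e1.2 h1)]
  · rw [if_neg h1, if_neg fun h2 => h1 (e1.1 h2)]

theorem hm_nonneg {S : Finset ι} {R : ι → ℝ} : 0 ≤ Hm S R := by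
  unfold Hm
  split_ifs with h
  · exact div_nonneg zero_le_one (sum_nonneg fun j hj => div_nonneg zero_le_one (h j hj).le)
  · exact le_rfl

theorem hm_singleton (j : ι) {R : ι → ℝ} (h : 0 ≤ R j) : Hm {j} R = R j := by
  unfold Hm
  by_cases h1 : 0 < R j
  · rw [if_pos (by intro i hi; rw [mem_singleton.1 hi]; exact h1), sum_singleton, one_div_one_div]
  · rw [if_neg fun h2 => h1 (h2 j (mem_singleton_self j))]
    exact (le_antisymm (not_lt.1 h1) h).symm

theorem hm_insert [DecidableEq ι] {S : Finset ι} (hS : S.Nonempty) {j : ι} (hj : j ∉ S)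
    {R : ι → ℝ} (h : ∀ i ∈ insert j S, 0 ≤ R i) :
    Hm (insert j S) R = R j * Hm S R / (R j + Hm S R) := by
  by_cases h1 : 0 < R j
  · by_cases h2 : ∀ i ∈ S, 0 < R i
    · have e1 : Hm S R = 1 / ∑ i ∈ S, 1 / R i := if_pos h2
      have e2 : Hm (insert j S) R = 1 / ∑ i ∈ insert j S, 1 / R i := if_pos (by
        intro i hi
        rcases mem_insert.1 hi with rfl | hi
        · exact h1
        · exact h2 i hi)
      have h3 : 0 < ∑ i ∈ S, 1 / R i := sum_pos (fun i hi => one_div_pos.2 (h2 i hi)) hS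
      rw [e1, e2, sum_insert hj]
      have h4 : R j ≠ 0 := h1.ne'
      have h5 : ∑ i ∈ S, 1 / R i ≠ 0 := h3.ne'
      generalize ∑ i ∈ S, 1 / R i = σ at *
      have h6 : R j * σ + 1 ≠ 0 := by positivity
      have h7 : 1 + R j * σ ≠ 0 := by positivity
      field_simp
      ring
    · have e1 : Hm S R = 0 := if_neg h2
      have e2 : Hm (insert j S) R = 0 := if_neg fun h3 => h2 fun i hi =>
        h3 i (mem_insert_of_mem hi)
      rw [e1, e2]
      simp
  · have e1 : R j = 0 := le_antisymm (not_lt.1 h1) (h j (mem_insert_self _ _))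
    have e2 : Hm (insert j S) R = 0 := if_neg fun h3 => h1 (h3 j (mem_insert_self _ _))
    rw [e1, e2]
    simp

end Hm

/-! ### families -/

section fam

variable {E F : Type*} [NormedAddCommGroup E] [NormedSpace ℝ E] [NormedAddCommGroup F]
  [NormedSpace ℝ F] {U : Set E}

theorem PD.congr' (hU : IsOpen U) {a b : ℝ → E → F} (ha : GlCont_649.PD U a)
    (h : ∀ η, 0 ≤ η → ∀ z ∈ U, b η z = a η z) : GlCont_649.PD U b := by
  have he : ∀ η, 0 ≤ η → ∀ z ∈ U, b η =ᶠ[𝓝 z] a η := fun η hη z hz => by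
    filter_upwards [hU.mem_nhds hz] with w hw
    exact h η hη w hw
  refine ⟨ha.cont.congr fun p hp => h _ hp.1 _ hp.2, fun η hη z hz =>
    (ha.diff η hη z hz).congr_of_eventuallyEq (he η hη z hz), ha.dcont.congr fun p hp =>
    (he _ hp.1 _ hp.2).fderiv_eq⟩

theorem pd_Hm (hU : IsOpen U) {ι : Type} (S : Finset ι) (hS : S.Nonempty) (A C : ι → ℝ → E → ℝ)
    (W : ι → E → ℝ) (hA : ∀ j ∈ S, GlCont_649.PD U (A j)) (hC : ∀ j ∈ S, GlCont_649.PD U (C j))
    (h0 : ∀ j ∈ S, ∀ η, 0 ≤ η → ∀ z ∈ U, 0 ≤ A j η z)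
    (hW : ∀ j ∈ S, ∀ z, 0 ≤ W j z ∧ W j z ≤ 1)
    (hCW : ∀ j ∈ S, ∀ η z, C j η z = A j η z * W j z) :
    GlCont_649.PD U (fun η z => Hm S fun j => A j η z) ∧
      GlCont_649.PD U (fun η z => (Hm S fun j => A j η z) * ∏ j ∈ S, W j z) := by
  classical
  induction S using Finset.induction_on with
  | empty => exact absurd hS (by simp)
  | insert j S hj ih =>
    rcases S.eq_empty_or_nonempty with rfl | hne
    · have hj0 : j ∈ insert j (∅ : Finset ι) := mem_insert_self _ _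
      have e0 : insert j (∅ : Finset ι) = {j} := rfl
      rw [e0] at *
      refine ⟨PD.congr' hU (hA j hj0) fun η hη z hz => hm_singleton j (h0 j hj0 η hη z hz),
        PD.congr' hU (hC j hj0) fun η hη z hz => ?_⟩
      rw [hm_singleton j (h0 j hj0 η hη z hz), Finset.prod_singleton, hCW j hj0]
    · have hj0 : j ∈ insert j S := mem_insert_self _ _
      obtain ⟨ih1, ih2⟩ := ih hne (fun i hi => hA i (mem_insert_of_mem hi))
        (fun i hi => hC i (mem_insert_of_mem hi)) (fun i hi => h0 i (mem_insert_of_mem hi))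
        (fun i hi => hW i (mem_insert_of_mem hi)) (fun i hi => hCW i (mem_insert_of_mem hi))
      have hP0 : ∀ z, 0 ≤ ∏ i ∈ S, W i z := fun z =>
        prod_nonneg fun i hi => (hW i (mem_insert_of_mem hi) z).1
      have hP1 : ∀ z, ∏ i ∈ S, W i z ≤ 1 := fun z =>
        prod_le_one (fun i hi => (hW i (mem_insert_of_mem hi) z).1)
          fun i hi => (hW i (mem_insert_of_mem hi) z).2
      refine ⟨PD.congr' hU (GlCont_649.PD.quot hU (hA j hj0) ih1 (hA j hj0) ih1
        (fun η hη z hz => ⟨h0 j hj0 η hη z hz, le_rfl⟩) fun η hη z hz => ⟨hm_nonneg, le_rfl⟩)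
        fun η hη z hz => hm_insert hne hj fun i hi => h0 i hi η hη z hz,
        PD.congr' hU (GlCont_649.PD.quot hU (hA j hj0) ih1 (hC j hj0) ih2
        (fun η hη z hz => ?_) fun η hη z hz => ?_) fun η hη z hz => ?_⟩
      · rw [hCW j hj0]
        have h1 := h0 j hj0 η hη z hz
        exact ⟨mul_nonneg h1 (hW j hj0 z).1, mul_le_of_le_one_right h1 (hW j hj0 z).2⟩
      · exact ⟨mul_nonneg hm_nonneg (hP0 z), mul_le_of_le_one_right hm_nonneg (hP1 z)⟩
      · rw [hm_insert hne hj fun i hi => h0 i hi η hη z hz, prod_insert hj, hCW j hj0]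
        ring

end fam

/-! ### the gauges -/

variable {N : ℕ} (D : SD N)

/-- data of `T3aDefs_957` with the same gauges -/
def aux : LD N where
  M := fun j => 2 * D.M j
  hM := fun j => by have := D.hM j; omega
  C := ∅
  hC := by simp

theorem aux_K1 : (aux D).K1 = D.K1 := by
  unfold LD.K1 SD.K1 LD.Mx SD.Mx aux
  simp only
  rw [← Finset.mul_sum]
  push_cast
  ring

theorem aux_K : (aux D).K = D.K := by
  unfold LD.K SD.K
  rw [aux_K1]

theorem aux_xr (z : Fin N → ℂ) (j : Fin N) : (aux D).xr z j = D.xr z j := by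
  unfold LD.xr SD.xr
  rw [aux_K1, aux_K]

theorem xr_nonneg (z : Fin N → ℂ) (j : Fin N) : 0 ≤ D.xr z j := by
  rw [← aux_xr]
  exact GlCont_649.xr_nonneg _ z j

/-! ### planar functions and windows -/

theorem plN_hom (ga : ℝ) (e : ℕ → ℝ) (M : ℕ) {r : ℝ} (hr : 0 < r) (z : ℂ) :
    plN ga e M (r • z) = r • plN ga e M z := by
  have e1 : (r • z).re = r * z.re := by simp
  have e2 : (r • z).im = r * z.im := by simp
  unfold plN
  rw [e1, e2, mul_div_mul_left _ _ hr.ne']
  have h1 : (0 < r * z.re) ↔ 0 < z.re := by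
    constructor
    · intro h
      exact (pos_iff_pos_of_mul_pos h).1 hr
    · exact mul_pos hr
  simp only [h1, Complex.real_smul, Complex.ofReal_mul]
  split_ifs <;> ring

theorem winN_far' (m m' : ℕ) (τ : ℝ) (h : 8 * ((2 * m' : ℕ) : ℝ) + 1 ≤ |τ|) :
    winN m m' τ = 0 := by
  refine CalcN_88.winN_far ?_
  push_cast at h
  linarith

theorem wide_one {m m' : ℕ} {τ : ℝ} (h : winN m m' τ ≠ 0) : wide (2 * m') τ = 1 := by
  have h0 : (0 : ℝ) ≤ m := m.cast_nonneg
  have h1 : -1 < τ := by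
    by_contra h2
    exact h (SmoothN_957.winN_low (by linarith [not_lt.1 h2]))
  have h3 : τ < 16 * (m' : ℝ) + 1 := by
    by_contra h2
    exact h (SmoothN_957.winN_high (not_lt.1 h2))
  unfold wide
  push_cast
  rw [Calc_957.st_of_ge (by linarith : 1 ≤ τ + 2),
    Calc_957.st_of_le (by linarith : τ - (8 * (2 * (m' : ℝ)) + 1) ≤ 0)]
  ring

/-! ### the terms -/

theorem pd_pl {d : ℝ} (hd : 0 < d) (ga : ℝ) (j : Fin N) :
    GlCont_649.PD ({0}ᶜ : Set (Fin N → ℂ)) fun η z =>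
      Xe d η (D.xr z j) • plN ga (D.sn j) (D.M j) (z j) := by
  refine (pd_term (aux D) hd (g := plN ga (D.sn j) (D.M j))
    (fun _ hz => SmoothN_957.contDiffAt_plN ga _ _ hz) (fun _ hr z => plN_hom ga _ _ hr z) j).congr
    fun η z => ?_
  rw [aux_xr]

theorem pd_wd {d : ℝ} (hd : 0 < d) (M : ℕ) (j : Fin N) :
    GlCont_649.PD ({0}ᶜ : Set (Fin N → ℂ)) fun η z =>
      Xe d η (D.xr z j) * wf (wide M) (z j) := by
  refine (pd_wide (aux D) hd M j).congr fun η z => ?_
  rw [aux_xr, smul_eq_mul]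

theorem pd_wn {d : ℝ} (hd : 0 < d) (m m' : ℕ) (j : Fin N) :
    GlCont_649.PD ({0}ᶜ : Set (Fin N → ℂ)) fun η z =>
      Xe d η (D.xr z j) * wf (winN m m') (z j) := by
  refine (pd_term (aux D) hd (g := wf (winN m m'))
    (fun _ hz => contDiffAt_wf (SmoothN_957.contDiff_winN m m') (winN_far' m m') hz)
    (fun _ hr z => wf_hom _ hr z) j).congr fun η z => ?_
  rw [aux_xr, smul_eq_mul]

theorem Bx_eq (X : ℝ → ℝ) (e : Fin D.nb) (z : Fin N → ℂ) :
    Bx D X e z = (Hm (D.bx e).S fun j => X (D.xr z j) * wf (wide (2 * (D.bx e).hi j)) (z j)) *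
      ∏ j ∈ (D.bx e).S, winN ((D.bx e).lo j) ((D.bx e).hi j) ((z j).im / (z j).re) := by
  unfold Bx
  by_cases h : ∀ j ∈ (D.bx e).S,
      winN ((D.bx e).lo j) ((D.bx e).hi j) ((z j).im / (z j).re) ≠ 0
  · congr 1
    refine hm_congr fun j hj => ?_
    unfold Rx wf
    rw [wide_one (h j hj), mul_one]
  · simp only [not_forall, not_not] at h
    obtain ⟨j, hj, h0⟩ := h
    rw [prod_eq_zero hj h0, mul_zero, mul_zero]

theorem pd_Bx {d : ℝ} (hd : 0 < d) (e : Fin D.nb) :
    GlCont_649.PD ({0}ᶜ : Set (Fin N → ℂ)) fun η z => Bx D (Xe d η) e z := by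
  have hne : (D.bx e).S.Nonempty := card_pos.1 (by have := D.h2 e; omega)
  refine (pd_Hm isOpen_compl_singleton (D.bx e).S hne
    (fun j η z => Xe d η (D.xr z j) * wf (wide (2 * (D.bx e).hi j)) (z j))
    (fun j η z => Xe d η (D.xr z j) * wf (winN ((D.bx e).lo j) ((D.bx e).hi j)) (z j))
    (fun j z => winN ((D.bx e).lo j) ((D.bx e).hi j) ((z j).im / (z j).re))
    (fun j _ => pd_wd D hd _ j) (fun j _ => pd_wn D hd _ _ j) (fun j _ η hη z _ => ?_)
    (fun j _ z => ⟨CalcN_88.winN_nonneg _ _ _, CalcN_88.winN_le_one _ _ _⟩)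
    fun j _ η z => ?_).2.congr fun η z => Bx_eq D _ e z
  · exact mul_nonneg (Xe_nonneg d hη (xr_nonneg D z j))
      (mul_nonneg (le_max_left _ _) (wide_nonneg _ _))
  · simp only [wf]
    by_cases h : winN ((D.bx e).lo j) ((D.bx e).hi j) ((z j).im / (z j).re) = 0
    · rw [h]
      ring
    · rw [wide_one h]
      ring

theorem pd_Gx {d : ℝ} (hd : 0 < d) (cB ga : ℝ) :
    GlCont_649.PD ({0}ᶜ : Set (Fin N → ℂ)) fun η z => Gx D (Xe d η) cB ga z := by
  have h1 : GlCont_649.PD ({0}ᶜ : Set (Fin N → ℂ)) fun η z =>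
      ∑ j, Xe d η (D.xr z j) • plN ga (D.sn j) (D.M j) (z j) :=
    GlCont_649.PD.sum univ fun j _ => pd_pl D hd ga j
  have h2 : GlCont_649.PD ({0}ᶜ : Set (Fin N → ℂ)) fun η z => ∑ e, Bx D (Xe d η) e z :=
    GlCont_649.PD.sum univ fun e _ => pd_Bx D hd e
  have h3 := h2.clm ((cB * ga) • Complex.ofRealCLM)
  refine (h1.sub h3).congr fun η z => ?_
  unfold Gx
  congr 1
  simp only [smul_apply, Complex.ofRealCLM_apply, Complex.real_smul]
  push_cast
  ring

/-- **GLN-CONT** -/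
theorem contP : ContP D := fun cB ga _ hd _ =>
  ⟨(pd_Gx D hd cB ga).cont, (pd_Gx D hd cB ga).dcont⟩

end Crest.Agent.R267.GlnCont_291
end
end

-- ▼ part R267/GlnAsm_9

/-!
# Row 267 (helper9): GLUE-N, assembled
-/

set_option autoImplicit false

noncomputable section

open Crest.Agent.R267.T3aNDefs_88 Crest.Agent.R267.GlNDefs_9

namespace Crest.Agent.R267.GlnAsm_9

variable {N : ℕ} (D : SD N)

/-- **GLN-STAR** -/
theorem starP : StarP D :=
  GlnStar_649.starP D (GlnAlign_684.alignP D) (SegN_951.segP D)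
    fun _ _ _ h0 h1 _ he => GlnLift_9.liftP h0 h1 he

/-- **GL2N** -/
theorem gl2P (hN : 3 ≤ N) : GL2P D :=
  GlnBas_9.gl2 D (SmoothN_957.smoothN D) (K1N_957.k1N D) (K2N_957.k2N D hN)
    (GlnHomeo_125.homeoN D) (GlnC2_796.c2P D) (GlnCont_291.contP D) GlOpen_128.openP

/-- **GLUE-N**: every admissible polar function has the link of `G`. -/
theorem gluP (hN : 3 ≤ N) : GluP D :=
  GlnBas_9.glu D (starP D) (GlnLine_984.lineP D) (gl2P D hN)

end Crest.Agent.R267.GlnAsm_9
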