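import Mathlib
import Crest.Agent.R267.NdZ_484

/-!
# S0406, T3N entrance: chains of homotopies of arms (helper484)

* `AStep b v A B` : an `ArmPath` from `A` to `B`; `AEq b v A B` : a chain of such steps
  (an equivalence relation);
* `zeq_of_aeq` : amalgams with `AEq` arms are `ZEq` for `M` large;
* `lit_of_aeq` : the entrance for chains.
-/

set_option autoImplicit false
set_option linter.unusedSectionVars false

noncomputable section

open Set Filter Topology Finset
open Crest.Agent.R267.Cone_808 Crest.Agent.R267.Hm_951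
open Crest.Agent.R267.NdR_484 Crest.Agent.R267.NdS_484 Crest.Agent.R267.NdZ_484

namespace Crest.Agent.R267.NdY_484

variable {b : Bool} {v : Fin 3}

/-- one homotopy. -/
def AStep (b : Bool) (v : Fin 3) (A B : ℂ × ℂ → ℂ) : Prop :=
  ∃ H : ℝ × (ℂ × ℂ) → ℂ, ArmPath b v H ∧ (∀ z, H (0, z) = A z) ∧ ∀ z, H (1, z) = B z

/-- a chain of homotopies. -/
def AEq (b : Bool) (v : Fin 3) : (ℂ × ℂ → ℂ) → (ℂ × ℂ → ℂ) → Prop :=
  Relation.ReflTransGen (AStep b v)

theorem isOpen_S : IsOpen {z : ℂ × ℂ | z.1 ≠ 0} := isOpen_ne_fun continuous_fst continuous_const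

/-- derivative of a slice. -/
theorem slice {E : Type*} [NormedAddCommGroup E] [NormedSpace ℝ E] {H : ℝ × E → ℂ} {t : ℝ} {z : E}
    (hd : DifferentiableAt ℝ H (t, z)) (y : E) :
    fderiv ℝ H (t, z) (0, y) = fderiv ℝ (fun x => H (t, x)) z y := by
  have h : HasFDerivAt (fun x => H (t, x))
      ((fderiv ℝ H (t, z)).comp (ContinuousLinearMap.inr ℝ ℝ E)) z :=
    hd.hasFDerivAt.comp z (hasFDerivAt_prodMk_right t z)
  rw [h.fderiv]
  simp

/-- reparametrisation of the time by an affine map of `[0, 1]`. -/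
theorem ArmPath.aff {H : ℝ × (ℂ × ℂ) → ℂ} (h : ArmPath b v H) (a c : ℝ)
    (hac : ∀ t ∈ Icc (0 : ℝ) 1, a + c * t ∈ Icc (0 : ℝ) 1) :
    ArmPath b v fun q => H (a + c * q.1, q.2) := by
  obtain ⟨T, hT, hI, hC⟩ := h.smooth
  have hφ : ContDiff ℝ 2 fun q : ℝ × (ℂ × ℂ) => (a + c * q.1, q.2) := by fun_prop
  have ho : IsOpen (T ×ˢ {q : ℂ × ℂ | q.1 ≠ 0}) := hT.prod isOpen_S
  refine ⟨⟨(fun t => a + c * t) ⁻¹' T, hT.preimage (by fun_prop), fun t ht => hI (hac t ht),
    hC.comp hφ.contDiffOn fun q hq => ⟨hq.1, hq.2⟩⟩, fun t ht l u w hl => h.hom _ (hac t ht) l u w hl,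
    ?_, fun t w => h.zero _ w, fun t ht u w hu h0 e => ?_⟩
  · obtain ⟨W, hW, hs⟩ := h.supp
    exact ⟨W, hW, fun t u w hu => hs _ u w hu⟩
  · obtain ⟨y, hy⟩ := h.reg _ (hac t ht) u w hu h0 e
    refine ⟨y, ?_⟩
    rw [← hy]
    congr 1
    have hm : ((a + c * t, (u, w)) : ℝ × (ℂ × ℂ)) ∈ T ×ˢ {q : ℂ × ℂ | q.1 ≠ 0} :=
      ⟨hI (hac t ht), hu⟩
    have hd : DifferentiableAt ℝ H (a + c * t, (u, w)) :=
      (hC.contDiffAt (ho.mem_nhds hm)).differentiableAt (by norm_num)
    have hd' : DifferentiableAt ℝ (fun q : ℝ × (ℂ × ℂ) => H (a + c * q.1, q.2)) (t, (u, w)) :=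
      DifferentiableAt.comp (f := fun q : ℝ × (ℂ × ℂ) => (a + c * q.1, q.2)) (t, (u, w)) hd
        (by fun_prop)
    rw [slice hd', slice hd]

theorem ArmPath.left {H : ℝ × (ℂ × ℂ) → ℂ} (h : ArmPath b v H) :
    Arm b v fun z => H (0, z) := by
  have := ArmPath.aff h 0 0 (fun t _ => by simp)
  unfold Arm
  convert this using 2
  simp

theorem ArmPath.right {H : ℝ × (ℂ × ℂ) → ℂ} (h : ArmPath b v H) :
    Arm b v fun z => H (1, z) := by
  have := ArmPath.aff h 1 0 (fun t _ => by simp)
  unfold Arm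
  convert this using 2
  simp

theorem AStep.left {A B : ℂ × ℂ → ℂ} (h : AStep b v A B) : Arm b v A := by
  obtain ⟨H, hH, h0, -⟩ := h
  have := ArmPath.left hH
  convert this using 1
  funext z
  exact (h0 z).symm

theorem AStep.right {A B : ℂ × ℂ → ℂ} (h : AStep b v A B) : Arm b v B := by
  obtain ⟨H, hH, -, h1⟩ := h
  have := ArmPath.right hH
  convert this using 1
  funext z
  exact (h1 z).symm

theorem AStep.symm {A B : ℂ × ℂ → ℂ} (h : AStep b v A B) : AStep b v B A := by
  obtain ⟨H, hH, h0, h1⟩ := h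
  refine ⟨fun q => H (1 + (-1) * q.1, q.2), ArmPath.aff hH 1 (-1) (fun t ht => ?_),
    fun z => ?_, fun z => ?_⟩
  · constructor <;> linarith [ht.1, ht.2]
  · simpa using h1 z
  · simpa using h0 z

theorem AEq.refl (A : ℂ × ℂ → ℂ) : AEq b v A A := Relation.ReflTransGen.refl

theorem AEq.trans {A B C : ℂ × ℂ → ℂ} (h : AEq b v A B) (h' : AEq b v B C) : AEq b v A C :=
  Relation.ReflTransGen.trans h h'

theorem AEq.symm {A B : ℂ × ℂ → ℂ} (h : AEq b v A B) : AEq b v B A := by
  induction h with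
  | refl => exact AEq.refl _
  | tail _ h1 ih => exact AEq.trans (Relation.ReflTransGen.single (AStep.symm h1)) ih

theorem AStep.aeq {A B : ℂ × ℂ → ℂ} (h : AStep b v A B) : AEq b v A B :=
  Relation.ReflTransGen.single h

theorem AEq.arm {A B : ℂ × ℂ → ℂ} (hA : Arm b v A) (h : AEq b v A B) : Arm b v B := by
  induction h with
  | refl => exact hA
  | tail _ h1 _ => exact AStep.right h1

/-- one step in one arm. -/
theorem zeq_step {A : Fin 3 → ℂ × ℂ → ℂ} (hA : ∀ v, Arm b v (A v)) {B : ℂ × ℂ → ℂ}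
    (h : AStep b v (A v) B) :
    ∃ M0 > 0, ∀ M ≥ M0, ZEq (am b M A) (am b M (Function.update A v B)) := by
  classical
  obtain ⟨H, hH, h0, h1⟩ := h
  let F : Fin 3 → ℝ × (ℂ × ℂ) → ℂ := Function.update (fun u q => A u q.2) v H
  have hF : ∀ u, ArmPath b u (F u) := by
    intro u
    by_cases hu : u = v
    · subst hu
      simpa [F] using hH
    · have := hA u
      rw [show F u = fun q => A u q.2 from Function.update_of_ne hu _ _]
      exact this
  obtain ⟨M0, hM0, K⟩ := Amal_52.amal_path F hF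
  refine ⟨M0, hM0, fun M hM => ?_⟩
  have h2 := (K M hM).link
  have e0 : (fun u z => F u (0, z)) = A := by
    funext u z
    by_cases hu : u = v
    · subst hu; simp [F, h0]
    · simp [F, Function.update_of_ne hu]
  have e1 : (fun u z => F u (1, z)) = Function.update A v B := by
    funext u z
    by_cases hu : u = v
    · subst hu; simp [F, h1]
    · simp [F, Function.update_of_ne hu]
  simp only at h2
  rw [e0, e1] at h2
  exact h2

/-- a chain in one arm. -/
theorem zeq_one {A : Fin 3 → ℂ × ℂ → ℂ} (hA : ∀ v, Arm b v (A v)) {B : ℂ × ℂ → ℂ}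
    (h : AEq b v (A v) B) :
    ∃ M0 > 0, ∀ M ≥ M0, ZEq (am b M A) (am b M (Function.update A v B)) := by
  classical
  induction h with
  | refl => exact ⟨1, one_pos, fun M _ => by rw [Function.update_eq_self]; exact ZEq.refl _⟩
  | @tail C D hC h1 ih =>
    obtain ⟨M0, hM0, K⟩ := ih
    have hA' : ∀ u, Arm b u (Function.update A v C u) := by
      intro u
      by_cases hu : u = v
      · subst hu
        rw [Function.update_self]
        exact AEq.arm (hA u) hC
      · rw [Function.update_of_ne hu]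
        exact hA u
    have h2 : AStep b v (Function.update A v C v) D := by
      rw [Function.update_self]; exact h1
    obtain ⟨M1, hM1, K1⟩ := zeq_step hA' h2
    refine ⟨max M0 M1, lt_max_of_lt_left hM0, fun M hM => ?_⟩
    have h3 := K1 M ((le_max_right _ _).trans hM)
    rw [Function.update_idem] at h3
    exact (K M ((le_max_left _ _).trans hM)).trans h3

/-- **amalgams with equivalent arms.** -/
theorem zeq_of_aeq {A B : Fin 3 → ℂ × ℂ → ℂ} (hA : ∀ v, Arm b v (A v))
    (h : ∀ v, AEq b v (A v) (B v)) :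
    (∀ v, Arm b v (B v)) ∧ ∃ M0 > 0, ∀ M ≥ M0, ZEq (am b M A) (am b M B) := by
  classical
  refine ⟨fun v => AEq.arm (hA v) (h v), ?_⟩
  set A1 := Function.update A 0 (B 0) with hA1
  set A2 := Function.update A1 1 (B 1) with hA2
  have k1 : ∀ v, Arm b v (A1 v) := by
    intro v
    by_cases hv : v = 0
    · subst hv; rw [hA1, Function.update_self]; exact AEq.arm (hA 0) (h 0)
    · rw [hA1, Function.update_of_ne hv]; exact hA v
  have k2 : ∀ v, Arm b v (A2 v) := by
    intro v
    by_cases hv : v = 1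
    · subst hv; rw [hA2, Function.update_self]; exact AEq.arm (hA 1) (h 1)
    · rw [hA2, Function.update_of_ne hv]; exact k1 v
  obtain ⟨m0, hm0, z0⟩ := zeq_one hA (h 0)
  obtain ⟨m1, hm1, z1⟩ := zeq_one (v := 1) (B := B 1) k1 (by
    rw [hA1, Function.update_of_ne (by decide)]; exact h 1)
  obtain ⟨m2, hm2, z2⟩ := zeq_one (v := 2) (B := B 2) k2 (by
    rw [hA2, Function.update_of_ne (by decide), hA1, Function.update_of_ne (by decide)]; exact h 2)
  have e : Function.update A2 2 (B 2) = B := by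
    funext v
    fin_cases v <;> simp [hA2, hA1, Function.update]
  refine ⟨max m0 (max m1 m2), lt_max_of_lt_left hm0, fun M hM => ?_⟩
  have h2 := z2 M (((le_max_right _ _).trans (le_max_right _ _)).trans hM)
  rw [e] at h2
  exact ((z0 M ((le_max_left _ _).trans hM)).trans
    (z1 M (((le_max_left _ _).trans (le_max_right _ _)).trans hM))).trans h2


end Crest.Agent.R267.NdY_484
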