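import Crest.Agent.R267.SFLD_330

/-!
# The data of S0406 with the literal box list of the hub step (row 267, post 3357)

`DfL`, `DgL : SD 4`: same lobes, signs and letters as `Df`, `Dg` (SFLDb_330), boxes exactly as in
helper64's list #3357 (lobes numbered from `0` WITHOUT the plate: subtract `1` from his numbers;
the two overlapping hub boxes of `f` as in helper568's list `e3`, `e3'`), one window box for every
J-lobe with letter `k < 15`.
-/

set_option autoImplicit false

namespace Crest.Agent.R267.SFLDc_330

open Finset
open SFLift_330 SFDefs_330 SFBox_330 T3aNDefs_88 SFLDa_330 SFLDb_330 SFLD_330 Hm_951 Cone_808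
open T3aDefs_957.LD (Ev)

/-- deletion boxes of `f`, literal list. -/
def bxFL : List B4 :=
  [ -- pairs x y
    (some (2, 18), some (0, 2), none, none),
    (some (2, 18), some (3, 9), none, none),
    (some (2, 18), some (9, 24), none, none),
    -- pairs x z
    (some (2, 18), none, some (0, 2), none),
    (some (2, 18), none, some (3, 9), none),
    (some (2, 18), none, some (9, 14), none),
    -- pairs y z
    (none, some (9, 24), some (4, 9), none),
    (none, some (4, 9), some (9, 14), none),
    (none, some (9, 24), some (9, 14), none),
    -- triples
    (some (1, 2), some (2, 9), some (5, 9), none),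
    (some (1, 2), some (5, 9), some (2, 9), none),
    (some (1, 2), some (9, 24), some (2, 4), none),
    (some (1, 2), some (2, 4), some (9, 14), none),
    -- windows over the x-lobes 4..17
    (some (4, 5), none, none, some 11),
    (some (5, 6), none, none, some 10),
    (some (6, 7), none, none, some 6),
    (some (7, 8), none, none, some 6),
    (some (8, 9), none, none, some 6),
    (some (9, 10), none, none, some 6),
    (some (10, 11), none, none, some 3),
    (some (11, 12), none, none, some 3),
    (some (12, 13), none, none, some 3),
    (some (13, 14), none, none, some 3),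
    (some (14, 15), none, none, some 3),
    (some (15, 16), none, none, some 3),
    (some (16, 17), none, none, some 3),
    (some (17, 18), none, none, some 3),
    -- windows over the y-lobes 14..23
    (none, some (14, 15), none, some 10),
    (none, some (15, 16), none, some 10),
    (none, some (16, 17), none, some 10),
    (none, some (17, 18), none, some 9),
    (none, some (18, 19), none, some 9),
    (none, some (19, 20), none, some 1),
    (none, some (20, 21), none, some 1),
    (none, some (21, 22), none, some 0),
    (none, some (22, 23), none, some 0),
    (none, some (23, 24), none, some 0)]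

/-- deletion boxes of `g`, literal list. -/
def bxGL : List B4 :=
  [ -- pairs x y
    (some (4, 18), some (0, 1), none, none),
    (some (4, 18), some (2, 4), none, none),
    (some (4, 18), some (4, 24), none, none),
    -- pairs x z
    (some (4, 18), none, some (0, 1), none),
    (some (4, 18), none, some (2, 4), none),
    (some (4, 18), none, some (4, 14), none),
    -- pairs y z
    (none, some (4, 24), some (2, 4), none),
    (none, some (2, 4), some (4, 14), none),
    (none, some (4, 24), some (4, 14), none),
    -- triples
    (some (2, 4), some (4, 24), some (1, 2), none),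
    (some (2, 4), some (1, 2), some (4, 14), none),
    -- windows over the x-lobes 7..17
    (some (7, 8), none, none, some 6),
    (some (8, 9), none, none, some 6),
    (some (9, 10), none, none, some 6),
    (some (10, 11), none, none, some 2),
    (some (11, 12), none, none, some 2),
    (some (12, 13), none, none, some 2),
    (some (13, 14), none, none, some 2),
    (some (14, 15), none, none, some 1),
    (some (15, 16), none, none, some 0),
    (some (16, 17), none, none, some 0),
    (some (17, 18), none, none, some 0),
    -- windows over the y-lobes 10..23
    (none, some (10, 11), none, some 11),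
    (none, some (11, 12), none, some 9),
    (none, some (12, 13), none, some 9),
    (none, some (13, 14), none, some 9),
    (none, some (14, 15), none, some 9),
    (none, some (15, 16), none, some 9),
    (none, some (16, 17), none, some 9),
    (none, some (17, 18), none, some 9),
    (none, some (18, 19), none, some 9),
    (none, some (19, 20), none, some 7),
    (none, some (20, 21), none, some 4),
    (none, some (21, 22), none, some 4),
    (none, some (22, 23), none, some 4),
    (none, some (23, 24), none, some 4)]

/-- **data of the end function of `f`, literal box list**. -/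
def DfL : SD 4 := mkD negF bxFL (by decide +kernel) (by decide +kernel)

/-- **data of the end function of `g`, literal box list**. -/
def DgL : SD 4 := mkD negG bxGL (by decide +kernel) (by decide +kernel)

theorem chkFL : limChk bxFL wsF = true := by decide +kernel

theorem chkGL : limChk bxGL wsG = true := by decide +kernel

theorem let_fL (k : Fin 4 → ℕ) : DfL.Let k ↔ k 3 + 1 < wsF (k 0 + 1, k 1 + 1, k 2 + 1) :=
  let_of chkFL (fun u hu => ⟨(wsF_bd hu).1, (wsF_bd hu).2.1.trans (by decide), (wsF_bd hu).2.2⟩) k

theorem let_gL (k : Fin 4 → ℕ) : DgL.Let k ↔ k 3 + 1 < wsG (k 0 + 1, k 1 + 1, k 2 + 1) :=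
  let_of chkGL (fun u hu => ⟨(wsG_bd hu).1.trans (by decide), (wsG_bd hu).2.1, (wsG_bd hu).2.2⟩) k

theorem neg_fL : NegIn DfL.neg 3 5 10 15 := neg_f

theorem neg_gL : NegIn DgL.neg 6 8 6 11 := neg_g

theorem card3 {neg : Fin 4 → ℕ → Bool} {L : List B4} {h2 : ∀ b ∈ L, 2 ≤ (mkB b).S.card}
    {hhi : ∀ b ∈ L, ∀ j ∈ (mkB b).S, (mkB b).hi j ≤ MM j} (h : ∀ b ∈ L, (mkB b).S.card ≤ 3)
    (e : Fin (mkD neg L h2 hhi).nb) : ((mkD neg L h2 hhi).bx e).S.card ≤ 3 :=
  h _ (List.get_mem L e)

theorem card_fL (e : Fin DfL.nb) : (DfL.bx e).S.card ≤ 3 := card3 (by decide +kernel) e

theorem card_gL (e : Fin DgL.nb) : (DgL.bx e).S.card ≤ 3 := card3 (by decide +kernel) e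


end Crest.Agent.R267.SFLDc_330
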