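import Crest.Agent.R267.Ang_739
import Crest.Agent.R267.LemL_951

-- ▼ part R267/StairFn_739
section

/-!
# Row 267 (helper739): staircase functions, exact and smoothed

* `G K N`: exact staircase of period `N` and height `K ≤ N`: slope `1` on `[0, K]`, `0` on `[K, N]`.
* `Mol d g`: mollification of a monotone `1`-Lipschitz function, `C^∞`, again monotone and
  `1`-Lipschitz, at distance `≤ d` from `g`.
* `Sl H c`: the type facts of a smooth staircase: `0 < H' t → e^{i H t} ≈ e^{i t}`,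
  `H' t < 1 → e^{i H t} ≈ 1`.
-/

set_option autoImplicit false

noncomputable section

open Set Filter Topology MeasureTheory
open scoped ContDiff Convolution

namespace Crest.Agent.R267.StairFn_739

open Crest.Agent.R267.Ang_739

/-! ## monotone 1-Lipschitz functions -/

/-- monotone and `1`-Lipschitz -/
def ML (g : ℝ → ℝ) : Prop := ∀ a b, a ≤ b → 0 ≤ g b - g a ∧ g b - g a ≤ b - a

theorem ML.abs {g : ℝ → ℝ} (h : ML g) (a b : ℝ) : |g b - g a| ≤ |b - a| := by
  rcases le_total a b with hab | hab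
  · have h1 := h a b hab
    rw [abs_of_nonneg h1.1, abs_of_nonneg (by linarith)]
    exact h1.2
  · have h1 := h b a hab
    rw [abs_sub_comm, abs_sub_comm b a, abs_of_nonneg h1.1, abs_of_nonneg (by linarith)]
    exact h1.2

theorem ML.continuous {g : ℝ → ℝ} (h : ML g) : Continuous g := by
  have : LipschitzWith 1 g := LipschitzWith.of_dist_le_mul fun x y => by
    rw [Real.dist_eq, Real.dist_eq]
    simpa using h.abs y x
  exact this.continuous

/-! ## the exact staircase -/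

/-- exact staircase -/
def G (K N t : ℝ) : ℝ := K * ⌊t / N⌋ + min (t - N * ⌊t / N⌋) K

theorem G_add {K N : ℝ} (hN : N ≠ 0) (t : ℝ) : G K N (t + N) = G K N t + K := by
  have h1 : (t + N) / N = t / N + 1 := by field_simp
  simp only [G, h1, Int.floor_add_one, Int.cast_add, Int.cast_one]
  have h2 : t + N - N * (⌊t / N⌋ + 1) = t - N * ⌊t / N⌋ := by ring
  rw [h2]; ring

theorem floor_bd {N : ℝ} (hN : 0 < N) (t : ℝ) :
    0 ≤ t - N * ⌊t / N⌋ ∧ t - N * ⌊t / N⌋ < N := by
  have h1 := Int.floor_le (t / N)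
  have h2 := Int.lt_floor_add_one (t / N)
  have h3 : N * (t / N) = t := by field_simp
  constructor
  · have := mul_le_mul_of_nonneg_left h1 hN.le
    linarith
  · have := mul_lt_mul_of_pos_left h2 hN
    linarith

theorem G_ml {K N : ℝ} (hN : 0 < N) (hK : 0 ≤ K) (hKN : K ≤ N) : ML (G K N) := by
  intro a b hab
  obtain ⟨ha0, haN⟩ := floor_bd hN a
  obtain ⟨hb0, hbN⟩ := floor_bd hN b
  have hij : ⌊a / N⌋ ≤ ⌊b / N⌋ := Int.floor_mono (div_le_div_of_nonneg_right hab hN.le)
  simp only [G]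
  set x := a - N * ⌊a / N⌋ with hx
  set y := b - N * ⌊b / N⌋ with hy
  rcases hij.eq_or_lt with h | h
  · have hxy : x ≤ y := by rw [hx, hy, h]; linarith
    have e1 : b - a = y - x := by rw [hx, hy, h]; ring
    rw [h, e1]
    constructor
    · have := min_le_min_right K hxy
      linarith
    · rcases le_total y K with h1 | h1 <;> rcases le_total x K with h2 | h2
      · rw [min_eq_left h1, min_eq_left h2]; linarith
      · rw [min_eq_left h1, min_eq_right h2]; linarith
      · rw [min_eq_right h1, min_eq_left h2]; linarith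
      · rw [min_eq_right h1, min_eq_right h2]; linarith
  · have h1 : (1 : ℝ) ≤ ⌊b / N⌋ - ⌊a / N⌋ := by
      have : ⌊a / N⌋ + 1 ≤ ⌊b / N⌋ := h
      have : ((⌊a / N⌋ + 1 : ℤ) : ℝ) ≤ (⌊b / N⌋ : ℝ) := by exact_mod_cast this
      push_cast at this
      linarith
    have e1 : b - a = N * (⌊b / N⌋ - ⌊a / N⌋) + y - x := by rw [hx, hy]; ring
    have m1 : 0 ≤ min y K := le_min hb0 hK
    have m2 : min x K ≤ K := min_le_right _ _
    have m3 : min y K ≤ y := min_le_left _ _
    have m4 : x - min x K ≤ N - K := by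
      rcases le_total x K with h2 | h2
      · rw [min_eq_left h2]; linarith
      · rw [min_eq_right h2]; linarith
    constructor
    · nlinarith [mul_le_mul_of_nonneg_left h1 hK]
    · rw [e1]
      nlinarith [mul_le_mul_of_nonneg_left h1 (by linarith : 0 ≤ N - K)]

/-- on a sloped piece -/
theorem G_slope {K N t : ℝ} (h : t - N * ⌊t / N⌋ ≤ K) : G K N t = t - (N - K) * ⌊t / N⌋ := by
  simp only [G, min_eq_left h]; ring

/-- on a flat piece -/
theorem G_flat {K N t : ℝ} (h : K ≤ t - N * ⌊t / N⌋) : G K N t = K * (⌊t / N⌋ + 1) := by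
  simp only [G, min_eq_right h]; ring

theorem G_mul_int {K N : ℝ} (hN : N ≠ 0) (hK : 0 ≤ K) (j : ℤ) : G K N (N * j) = K * j := by
  have h1 : N * j / N = j := by field_simp
  simp only [G, h1, Int.floor_intCast]
  rw [sub_self, min_eq_left hK, add_zero]

/-- if `G` increases on `[a, b]` there is a point of a sloped piece -/
theorem G_type1 {K N : ℝ} (hN : 0 < N) (hK : 0 ≤ K) {a b : ℝ} (hab : a ≤ b)
    (h : G K N a < G K N b) : ∃ s ∈ Icc a b, ∃ j : ℤ, G K N s = s - (N - K) * j := by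
  by_cases ha : a - N * ⌊a / N⌋ ≤ K
  · exact ⟨a, ⟨le_rfl, hab⟩, _, G_slope ha⟩
  by_cases hb : b - N * ⌊b / N⌋ ≤ K
  · exact ⟨b, ⟨hab, le_rfl⟩, _, G_slope hb⟩
  push Not at ha hb
  have hij : ⌊a / N⌋ ≤ ⌊b / N⌋ := Int.floor_mono (div_le_div_of_nonneg_right hab hN.le)
  rcases hij.eq_or_lt with h1 | h1
  · exfalso
    rw [G_flat ha.le, G_flat hb.le, h1] at h
    exact lt_irrefl _ h
  · obtain ⟨ha0, haN⟩ := floor_bd hN a
    obtain ⟨hb0, hbN⟩ := floor_bd hN b
    have h2 : ((⌊a / N⌋ + 1 : ℤ) : ℝ) ≤ (⌊b / N⌋ : ℝ) := by exact_mod_cast h1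
    push_cast at h2
    refine ⟨N * ⌊b / N⌋, ⟨?_, by linarith⟩, ⌊b / N⌋, ?_⟩
    · have := mul_le_mul_of_nonneg_left h2 hN.le
      linarith
    · rw [G_mul_int hN.ne' hK]; ring

/-- if `G` has slope `< 1` somewhere on `[a, b]` there is a point where `G = K j` -/
theorem G_type0 {K N : ℝ} (hN : 0 < N) (hK : 0 ≤ K) (hKN : K ≤ N) {a b : ℝ} (hab : a ≤ b)
    (h : G K N b - G K N a < b - a) : ∃ s ∈ Icc a b, ∃ j : ℤ, G K N s = K * j := by
  by_cases ha : K ≤ a - N * ⌊a / N⌋
  · exact ⟨a, ⟨le_rfl, hab⟩, ⌊a / N⌋ + 1, by rw [G_flat ha]; push_cast; ring⟩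
  by_cases hb : K ≤ b - N * ⌊b / N⌋
  · exact ⟨b, ⟨hab, le_rfl⟩, ⌊b / N⌋ + 1, by rw [G_flat hb]; push_cast; ring⟩
  push Not at ha hb
  have hij : ⌊a / N⌋ ≤ ⌊b / N⌋ := Int.floor_mono (div_le_div_of_nonneg_right hab hN.le)
  rcases hij.eq_or_lt with h1 | h1
  · exfalso
    rw [G_slope ha.le, G_slope hb.le, h1] at h
    linarith
  · obtain ⟨ha0, haN⟩ := floor_bd hN a
    obtain ⟨hb0, hbN⟩ := floor_bd hN b
    have h2 : ((⌊a / N⌋ + 1 : ℤ) : ℝ) ≤ (⌊b / N⌋ : ℝ) := by exact_mod_cast h1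
    push_cast at h2
    refine ⟨N * ⌊b / N⌋, ⟨?_, by linarith⟩, ⌊b / N⌋, G_mul_int hN.ne' hK _⟩
    have := mul_le_mul_of_nonneg_left h2 hN.le
    linarith

/-! ## mollification -/

/-- the kernel -/
def ker {d : ℝ} (hd : 0 < d) : ContDiffBump (0 : ℝ) where
  rIn := d / 2
  rOut := d
  rIn_pos := by linarith
  rIn_lt_rOut := by linarith

/-- mollification -/
def Mol {d : ℝ} (hd : 0 < d) (g : ℝ → ℝ) (t : ℝ) : ℝ :=
  ∫ s, (ker hd).normed volume s * g (t - s)

theorem Mol_eq_conv {d : ℝ} (hd : 0 < d) (g : ℝ → ℝ) :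
    Mol hd g = ((ker hd).normed volume ⋆[ContinuousLinearMap.lsmul ℝ ℝ, volume] g) := by
  ext t
  simp [Mol, convolution_def]

theorem Mol_contDiff {d : ℝ} (hd : 0 < d) {g : ℝ → ℝ} (hg : Continuous g) :
    ContDiff ℝ ∞ (Mol hd g) := by
  rw [Mol_eq_conv]
  exact (ker hd).hasCompactSupport_normed.contDiff_convolution_left _
    (ker hd).contDiff_normed hg.locallyIntegrable

theorem Mol_integrable {d : ℝ} (hd : 0 < d) {g : ℝ → ℝ} (hg : Continuous g) (t : ℝ) :
    Integrable fun s => (ker hd).normed volume s * g (t - s) := by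
  refine Continuous.integrable_of_hasCompactSupport ?_ ?_
  · exact (ker hd).continuous_normed.mul (hg.comp (continuous_const.sub continuous_id))
  · exact (ker hd).hasCompactSupport_normed.mul_right

theorem Mol_sub {d : ℝ} (hd : 0 < d) {g : ℝ → ℝ} (hg : Continuous g) {a b lo hi : ℝ}
    (h : ∀ s, |s| < d → lo ≤ g (b - s) - g (a - s) ∧ g (b - s) - g (a - s) ≤ hi) :
    lo ≤ Mol hd g b - Mol hd g a ∧ Mol hd g b - Mol hd g a ≤ hi := by
  have e1 : Mol hd g b - Mol hd g a =
      ∫ s, (ker hd).normed volume s * (g (b - s) - g (a - s)) := by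
    rw [Mol, Mol, ← integral_sub (Mol_integrable hd hg b) (Mol_integrable hd hg a)]
    congr 1
    ext s
    ring
  have hint : Integrable fun s => (ker hd).normed volume s * (g (b - s) - g (a - s)) := by
    have := (Mol_integrable hd hg b).sub (Mol_integrable hd hg a)
    refine this.congr (Eventually.of_forall fun s => ?_)
    simp only [Pi.sub_apply]
    ring
  have hc : ∀ c : ℝ, Integrable fun s => (ker hd).normed volume s * c := fun c =>
    (ker hd).integrable_normed.mul_const c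
  have hi1 : ∀ c : ℝ, ∫ s, (ker hd).normed volume s * c = c := fun c => by
    rw [integral_mul_const, (ker hd).integral_normed, one_mul]
  have hsupp : ∀ s, (ker hd).normed volume s = 0 ∨ |s| < d := by
    intro s
    by_cases hs : |s| < d
    · exact Or.inr hs
    · left
      have : s ∉ Function.support ((ker hd).normed volume) := by
        rw [(ker hd).support_normed_eq, Metric.mem_ball, Real.dist_eq, sub_zero]
        exact hs
      simpa using this
  rw [e1]
  constructor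
  · rw [← hi1 lo]
    refine integral_mono (hc lo) hint fun s => ?_
    rcases hsupp s with h1 | h1
    · simp [h1]
    · exact mul_le_mul_of_nonneg_left (h s h1).1 ((ker hd).nonneg_normed s)
  · rw [← hi1 hi]
    refine integral_mono hint (hc hi) fun s => ?_
    rcases hsupp s with h1 | h1
    · simp [h1]
    · exact mul_le_mul_of_nonneg_left (h s h1).2 ((ker hd).nonneg_normed s)

theorem Mol_ml {d : ℝ} (hd : 0 < d) {g : ℝ → ℝ} (hg : ML g) : ML (Mol hd g) := by
  intro a b hab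
  refine Mol_sub hd hg.continuous fun s _ => ?_
  have := hg (a - s) (b - s) (by linarith)
  constructor
  · exact this.1
  · linarith [this.2]

theorem Mol_dist {d : ℝ} (hd : 0 < d) {g : ℝ → ℝ} (hg : ML g) (t : ℝ) :
    |Mol hd g t - g t| ≤ d := by
  have := (ker hd).dist_normed_convolution_le (μ := volume) (x₀ := t) (ε := d)
    hg.continuous.aestronglyMeasurable (fun x hx => by
      rw [Real.dist_eq]
      refine (hg.abs t x).trans ?_
      rw [← Real.dist_eq]
      exact (Metric.mem_ball.1 hx).le)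
  rw [← Mol_eq_conv, Real.dist_eq] at this
  exact this

theorem Mol_shift {d : ℝ} (hd : 0 < d) {g : ℝ → ℝ} (hg : Continuous g) {N K : ℝ}
    (h : ∀ t, g (t + N) = g t + K) (t : ℝ) : Mol hd g (t + N) = Mol hd g t + K := by
  have h1 := Mol_sub hd hg (a := t) (b := t + N) (lo := K) (hi := K) fun s _ => by
    have : g (t + N - s) = g (t - s) + K := by rw [← h]; congr 1; ring
    rw [this]
    constructor <;> linarith
  linarith [h1.1, h1.2]

/-! ## derivative bounds -/

theorem ML.deriv_bd {g : ℝ → ℝ} (hg : ML g) (t : ℝ) : 0 ≤ deriv g t ∧ deriv g t ≤ 1 := by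
  constructor
  · exact (show Monotone g from fun a b hab => by linarith [(hg a b hab).1]).deriv_nonneg
  · by_cases hdiff : DifferentiableAt ℝ g t
    · have hm : Monotone fun x => x - g x := fun a b hab => by
        have := (hg a b hab).2
        simp only
        linarith
      have h1 : 0 ≤ deriv (fun x => x - g x) t := hm.deriv_nonneg
      have h2 : deriv (fun x => x - g x) t = 1 - deriv g t :=
        ((hasDerivAt_id t).sub hdiff.hasDerivAt).deriv
      linarith
    · rw [deriv_zero_of_not_differentiableAt hdiff]; norm_num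

/-- the type facts of a smooth staircase function -/
structure Sl (H : ℝ → ℝ) (c : ℝ) : Prop where
  smooth : ContDiff ℝ ∞ H
  ml : ML H
  one : ∀ t, 0 < deriv H t → ‖cis (H t) - cis t‖ ≤ c
  zero : ∀ t, deriv H t < 1 → ‖cis (H t) - 1‖ ≤ c

theorem cis_add (a b : ℝ) : cis (a + b) = cis a * cis b := by
  simp only [cis, Complex.ofReal_add, add_mul, Complex.exp_add]

theorem cis_zero : cis 0 = 1 := by simp [cis]

theorem cis_pi : cis Real.pi = -1 := by simp [cis]

theorem cis_lip (a b : ℝ) : ‖cis a - cis b‖ ≤ |a - b| := by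
  have h1 : cis a - cis b = cis b * (Complex.exp (Complex.I * ((a - b : ℝ) : ℂ)) - 1) := by
    have : cis a = cis b * cis (a - b) := by rw [← cis_add]; congr 1; ring
    rw [this, mul_sub, mul_one]
    congr 2
    simp only [cis]
    rw [mul_comm]
  rw [h1, norm_mul, norm_cis, one_mul]
  exact Real.norm_exp_I_mul_ofReal_sub_one_le

/-- exact type facts -/
structure Ex (g : ℝ → ℝ) : Prop where
  ml : ML g
  one : ∀ a b, a ≤ b → g a < g b → ∃ s ∈ Icc a b, cis (g s) = cis s
  zero : ∀ a b, a ≤ b → g b - g a < b - a → ∃ s ∈ Icc a b, cis (g s) = 1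

theorem Mol_sl {d : ℝ} (hd : 0 < d) {g : ℝ → ℝ} (hg : Ex g) : Sl (Mol hd g) (5 * d) := by
  refine ⟨Mol_contDiff hd hg.ml.continuous, Mol_ml hd hg.ml, fun t ht => ?_, fun t ht => ?_⟩
  · have h1 : g (t - 2 * d) < g (t + 2 * d) := by
      by_contra hcon
      push Not at hcon
      have hconst : ∀ x ∈ Icc (t - 2 * d) (t + 2 * d), g x = g t := by
        intro x hx
        have a1 := (hg.ml (t - 2 * d) x hx.1).1
        have a2 := (hg.ml x (t + 2 * d) hx.2).1
        have a3 := (hg.ml (t - 2 * d) t (by linarith)).1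
        have a4 := (hg.ml t (t + 2 * d) (by linarith)).1
        linarith
      have h2 : Mol hd g =ᶠ[𝓝 t] fun _ => Mol hd g t := by
        filter_upwards [Metric.ball_mem_nhds t hd] with x hx
        rw [Metric.mem_ball, Real.dist_eq, abs_lt] at hx
        have := Mol_sub hd hg.ml.continuous (a := t) (b := x) (lo := 0) (hi := 0) fun s hs => by
          rw [abs_lt] at hs
          rw [hconst (x - s) ⟨by linarith, by linarith⟩, hconst (t - s) ⟨by linarith, by linarith⟩]
          simp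
        linarith [this.1, this.2]
      have h3 : deriv (Mol hd g) t = 0 := by
        rw [h2.deriv_eq]; simp
      linarith
    obtain ⟨s, hs, hs1⟩ := hg.one _ _ (by linarith) h1
    have b1 : |Mol hd g t - g s| ≤ 3 * d := by
      have e1 := Mol_dist hd hg.ml t
      have e2 := hg.ml.abs s t
      have e3 : |t - s| ≤ 2 * d := abs_le.2 ⟨by linarith [hs.2], by linarith [hs.1]⟩
      calc |Mol hd g t - g s| = |(Mol hd g t - g t) + (g t - g s)| := by congr 1; ring
        _ ≤ |Mol hd g t - g t| + |g t - g s| := abs_add_le _ _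
        _ ≤ 3 * d := by linarith
    have b2 : |s - t| ≤ 2 * d := abs_le.2 ⟨by linarith [hs.1], by linarith [hs.2]⟩
    calc ‖cis (Mol hd g t) - cis t‖ = ‖(cis (Mol hd g t) - cis (g s)) + (cis s - cis t)‖ := by
          rw [hs1]; congr 1; ring
      _ ≤ ‖cis (Mol hd g t) - cis (g s)‖ + ‖cis s - cis t‖ := norm_add_le _ _
      _ ≤ |Mol hd g t - g s| + |s - t| := add_le_add (cis_lip _ _) (cis_lip _ _)
      _ ≤ 5 * d := by linarith
  · have h1 : g (t + 2 * d) - g (t - 2 * d) < (t + 2 * d) - (t - 2 * d) := by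
      by_contra hcon
      push Not at hcon
      have hslope : ∀ x ∈ Icc (t - 2 * d) (t + 2 * d), g x = g t + (x - t) := by
        intro x hx
        have a1 := (hg.ml (t - 2 * d) x hx.1).2
        have a2 := (hg.ml x (t + 2 * d) hx.2).2
        have a3 := (hg.ml (t - 2 * d) t (by linarith)).2
        have a4 := (hg.ml t (t + 2 * d) (by linarith)).2
        linarith
      have h2 : Mol hd g =ᶠ[𝓝 t] fun x => Mol hd g t + (x - t) := by
        filter_upwards [Metric.ball_mem_nhds t hd] with x hx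
        rw [Metric.mem_ball, Real.dist_eq, abs_lt] at hx
        have := Mol_sub hd hg.ml.continuous (a := t) (b := x) (lo := x - t) (hi := x - t)
          fun s hs => by
            rw [abs_lt] at hs
            rw [hslope (x - s) ⟨by linarith, by linarith⟩,
              hslope (t - s) ⟨by linarith, by linarith⟩]
            constructor <;> linarith
        linarith [this.1, this.2]
      have h3 : deriv (Mol hd g) t = 1 := by
        rw [h2.deriv_eq]
        have := ((hasDerivAt_id t).sub_const t).const_add (Mol hd g t)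
        exact this.deriv
      linarith
    obtain ⟨s, hs, hs1⟩ := hg.zero _ _ (by linarith) h1
    have b1 : |Mol hd g t - g s| ≤ 3 * d := by
      have e1 := Mol_dist hd hg.ml t
      have e2 := hg.ml.abs s t
      have e3 : |t - s| ≤ 2 * d := abs_le.2 ⟨by linarith [hs.2], by linarith [hs.1]⟩
      calc |Mol hd g t - g s| = |(Mol hd g t - g t) + (g t - g s)| := by congr 1; ring
        _ ≤ |Mol hd g t - g t| + |g t - g s| := abs_add_le _ _
        _ ≤ 3 * d := by linarith
    calc ‖cis (Mol hd g t) - 1‖ = ‖cis (Mol hd g t) - cis (g s)‖ := by rw [hs1]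
      _ ≤ |Mol hd g t - g s| := cis_lip _ _
      _ ≤ 5 * d := by linarith

/-! ## the three kinds: staircase, max, min -/

/-- the exact staircase with `n` strips, slope `1` on the first `m` -/
def Gs (m n : ℕ) : ℝ → ℝ := G (2 * Real.pi * m) (2 * Real.pi * n)

theorem Gs_ex {m n : ℕ} (hn : 0 < n) (hmn : m ≤ n) : Ex (Gs m n) := by
  have hpi := Real.pi_pos
  have hN : (0 : ℝ) < 2 * Real.pi * n := by positivity
  have hK : (0 : ℝ) ≤ 2 * Real.pi * m := by positivity
  have hKN : 2 * Real.pi * (m : ℝ) ≤ 2 * Real.pi * n :=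
    mul_le_mul_of_nonneg_left (by exact_mod_cast hmn) (by positivity)
  refine ⟨G_ml hN hK hKN, fun a b hab h => ?_, fun a b hab h => ?_⟩
  · obtain ⟨s, hs, j, hj⟩ := G_type1 hN hK hab h
    refine ⟨s, hs, ?_⟩
    rw [Gs, hj, ← cis_per (s - (2 * Real.pi * n - 2 * Real.pi * m) * j) ((n - m : ℤ) * j)]
    congr 1
    push_cast
    ring
  · obtain ⟨s, hs, j, hj⟩ := G_type0 hN hK hKN hab h
    refine ⟨s, hs, ?_⟩
    rw [Gs, hj, ← cis_zero, ← cis_per 0 ((m : ℤ) * j)]
    congr 1
    push_cast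
    ring

theorem Gs_shift {m n : ℕ} (hn : 0 < n) (t : ℝ) :
    Gs m n (t + 2 * Real.pi * n) = Gs m n t + 2 * Real.pi * m :=
  G_add (by positivity) t



/-- smooth staircase -/
def Hs {d : ℝ} (hd : 0 < d) (m n : ℕ) : ℝ → ℝ := Mol hd (Gs m n)

theorem Hs_sl {d : ℝ} (hd : 0 < d) {m n : ℕ} (hn : 0 < n) (hmn : m ≤ n) :
    Sl (Hs hd m n) (5 * d) := Mol_sl hd (Gs_ex hn hmn)

theorem Hs_shift {d : ℝ} (hd : 0 < d) {m n : ℕ} (hn : 0 < n) (hmn : m ≤ n) (t : ℝ) :
    Hs hd m n (t + 2 * Real.pi * n) = Hs hd m n t + 2 * Real.pi * m :=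
  Mol_shift hd (Gs_ex hn hmn).ml.continuous (Gs_shift hn) t

theorem Hs_dist {d : ℝ} (hd : 0 < d) {m n : ℕ} (hn : 0 < n) (hmn : m ≤ n) (t : ℝ) :
    |Hs hd m n t - Gs m n t| ≤ d := Mol_dist hd (Gs_ex hn hmn).ml t

/-! ## phases as functions of the lifted own phases -/

variable {ι : Type*} [Fintype ι] [DecidableEq ι]

/-- weight of the phase of `i` in `Φ` -/
def wt (Φ : (ι → ℝ) → ℝ) (u : ι → ℝ) (i : ι) : ℝ := fderiv ℝ Φ u (Pi.single i 1)

/-- a coupling phase, with tolerance `e` -/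
structure Ph (Φ : (ι → ℝ) → ℝ) (e : ℝ) : Prop where
  smooth : ContDiff ℝ ∞ Φ
  nn : ∀ u i, 0 ≤ wt Φ u i
  sum_le : ∀ u, ∑ i, wt Φ u i ≤ 1
  close : ∀ u i, 0 < wt Φ u i → ‖cis (Φ u) - cis (u i)‖ ≤ e
  flat : ∀ u, ∑ i, wt Φ u i < 1 → ‖cis (Φ u) - (-1)‖ ≤ e

theorem Ph.diff {Φ : (ι → ℝ) → ℝ} {e : ℝ} (h : Ph Φ e) : Differentiable ℝ Φ :=
  h.smooth.differentiable (by simp)

theorem Ph.mono {Φ : (ι → ℝ) → ℝ} {e e' : ℝ} (h : Ph Φ e) (he : e ≤ e') : Ph Φ e' :=
  ⟨h.smooth, h.nn, h.sum_le, fun u i hi => (h.close u i hi).trans he,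
    fun u hu => (h.flat u hu).trans he⟩

/-- the phase of the variable `i` -/
def co (i : ι) : (ι → ℝ) → ℝ := fun u => u i

omit [Fintype ι] in
theorem wt_co (i : ι) (u : ι → ℝ) (j : ι) : wt (co i) u j = if j = i then 1 else 0 := by
  have h : HasFDerivAt (co i) (ContinuousLinearMap.proj (R := ℝ) (φ := fun _ : ι => ℝ) i) u :=
    (ContinuousLinearMap.proj (R := ℝ) (φ := fun _ : ι => ℝ) i).hasFDerivAt
  rw [wt, h.fderiv]
  simp only [ContinuousLinearMap.proj_apply, Pi.single_apply]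
  simp only [eq_comm]

theorem ph_co (i : ι) : Ph (co i) 0 := by
  refine ⟨contDiff_apply ℝ ℝ i, fun u j => ?_, fun u => ?_, fun u j hj => ?_, fun u hu => ?_⟩
  · rw [wt_co]; split_ifs <;> norm_num
  · simp [wt_co]
  · rw [wt_co] at hj
    split_ifs at hj with h
    · rw [h, co]; simp
    · exact absurd hj (lt_irrefl _)
  · exfalso
    simp [wt_co] at hu

/-- a constant phase `π + 2πk` -/
def cn (ι : Type*) (k : ℤ) : (ι → ℝ) → ℝ := fun _ => Real.pi + 2 * Real.pi * k

omit [Fintype ι] in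
theorem wt_cn (k : ℤ) (u : ι → ℝ) (j : ι) : wt (cn ι k) u j = 0 := by
  change fderiv ℝ (fun _ : ι → ℝ => Real.pi + 2 * Real.pi * k) u (Pi.single j 1) = 0
  rw [fderiv_fun_const]
  rfl

theorem ph_cn (k : ℤ) : Ph (cn ι k) 0 := by
  refine ⟨contDiff_const, fun u j => ?_, fun u => ?_, fun u j hj => ?_, fun u hu => ?_⟩
  · rw [wt_cn]
  · simp [wt_cn]
  · rw [wt_cn] at hj
    exact absurd hj (lt_irrefl _)
  · have h1 : cis (cn ι k u) = -1 := by
      change cis (Real.pi + 2 * Real.pi * k) = -1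
      rw [cis_per, cis_pi]
    rw [h1]; simp

/-- mixing two phases by a staircase function -/
def mix (H : ℝ → ℝ) (A B : (ι → ℝ) → ℝ) : (ι → ℝ) → ℝ := fun u => A u + H (B u - A u)

theorem wt_mix {H : ℝ → ℝ} {A B : (ι → ℝ) → ℝ} (hH : Differentiable ℝ H)
    (hA : Differentiable ℝ A) (hB : Differentiable ℝ B) (u : ι → ℝ) (i : ι) :
    wt (mix H A B) u i = (1 - deriv H (B u - A u)) * wt A u i
      + deriv H (B u - A u) * wt B u i := by
  have h1 : HasFDerivAt (mix H A B) (fderiv ℝ A u +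
      deriv H (B u - A u) • (fderiv ℝ B u - fderiv ℝ A u)) u := by
    have a := (hA u).hasFDerivAt
    have b := (hB u).hasFDerivAt
    have c := (hH (B u - A u)).hasDerivAt.comp_hasFDerivAt u (b.sub a)
    exact a.add c
  simp only [wt, h1.fderiv, add_apply, smul_apply, sub_apply, smul_eq_mul]
  ring

theorem Sl.diff {H : ℝ → ℝ} {c : ℝ} (h : Sl H c) : Differentiable ℝ H :=
  h.smooth.differentiable (by simp)

theorem Ph.mix {H : ℝ → ℝ} {c : ℝ} {A B : (ι → ℝ) → ℝ} {e : ℝ} (hH : Sl H c) (hA : Ph A e)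
    (hB : Ph B e) : Ph (mix H A B) (c + e) := by
  have hw := fun u i => wt_mix hH.diff hA.diff hB.diff u i
  have hd := fun u => hH.ml.deriv_bd (B u - A u)
  have hs : ∀ u, ∑ i, wt (StairFn_739.mix H A B) u i =
      (1 - deriv H (B u - A u)) * ∑ i, wt A u i + deriv H (B u - A u) * ∑ i, wt B u i := by
    intro u
    rw [Finset.mul_sum, Finset.mul_sum, ← Finset.sum_add_distrib]
    exact Finset.sum_congr rfl fun i _ => hw u i
  have hcA : ∀ u, deriv H (B u - A u) < 1 →
      ‖cis (StairFn_739.mix H A B u) - cis (A u)‖ ≤ c := by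
    intro u hu
    have h1 := hH.zero _ hu
    rw [StairFn_739.mix, cis_add]
    have h2 : cis (A u) * cis (H (B u - A u)) - cis (A u) =
        cis (A u) * (cis (H (B u - A u)) - 1) := by ring
    rw [h2, norm_mul, norm_cis, one_mul]
    exact h1
  have hcB : ∀ u, 0 < deriv H (B u - A u) →
      ‖cis (StairFn_739.mix H A B u) - cis (B u)‖ ≤ c := by
    intro u hu
    have h1 := hH.one _ hu
    have h3 : cis (B u) = cis (A u) * cis (B u - A u) := by rw [← cis_add]; congr 1; ring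
    rw [StairFn_739.mix, cis_add, h3]
    have h2 : cis (A u) * cis (H (B u - A u)) - cis (A u) * cis (B u - A u) =
        cis (A u) * (cis (H (B u - A u)) - cis (B u - A u)) := by ring
    rw [h2, norm_mul, norm_cis, one_mul]
    exact h1
  refine ⟨?_, fun u i => ?_, fun u => ?_, fun u i hi => ?_, fun u hu => ?_⟩
  · exact hA.smooth.add (hH.smooth.comp (hB.smooth.sub hA.smooth))
  · rw [hw]
    have := hd u
    exact add_nonneg (mul_nonneg (by linarith) (hA.nn u i)) (mul_nonneg this.1 (hB.nn u i))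
  · rw [hs]
    have h1 := hd u
    have h2 := mul_le_mul_of_nonneg_left (hA.sum_le u) (by linarith : 0 ≤ 1 - deriv H (B u - A u))
    have h3 := mul_le_mul_of_nonneg_left (hB.sum_le u) h1.1
    linarith
  · rw [hw] at hi
    have h1 := hd u
    have hor : 0 < (1 - deriv H (B u - A u)) * wt A u i ∨ 0 < deriv H (B u - A u) * wt B u i := by
      by_contra hcon
      push Not at hcon
      linarith [hcon.1, hcon.2]
    rcases hor with h2 | h2
    · have h3 : 0 < 1 - deriv H (B u - A u) :=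
        lt_of_le_of_ne (by linarith) fun h => by rw [← h, zero_mul] at h2; exact lt_irrefl _ h2
      have h4 : 0 < wt A u i :=
        lt_of_le_of_ne (hA.nn u i) fun h => by rw [← h, mul_zero] at h2; exact lt_irrefl _ h2
      calc ‖cis (StairFn_739.mix H A B u) - cis (u i)‖
          ≤ ‖cis (StairFn_739.mix H A B u) - cis (A u)‖ + ‖cis (A u) - cis (u i)‖ := by
            rw [← sub_add_sub_cancel _ (cis (A u))]; exact norm_add_le _ _
        _ ≤ c + e := add_le_add (hcA u (by linarith)) (hA.close u i h4)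
    · have h3 : 0 < deriv H (B u - A u) :=
        lt_of_le_of_ne h1.1 fun h => by rw [← h, zero_mul] at h2; exact lt_irrefl _ h2
      have h4 : 0 < wt B u i :=
        lt_of_le_of_ne (hB.nn u i) fun h => by rw [← h, mul_zero] at h2; exact lt_irrefl _ h2
      calc ‖cis (StairFn_739.mix H A B u) - cis (u i)‖
          ≤ ‖cis (StairFn_739.mix H A B u) - cis (B u)‖ + ‖cis (B u) - cis (u i)‖ := by
            rw [← sub_add_sub_cancel _ (cis (B u))]; exact norm_add_le _ _
        _ ≤ c + e := add_le_add (hcB u h3) (hB.close u i h4)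
  · rw [hs] at hu
    have h1 := hd u
    have hA1 := hA.sum_le u
    have hB1 := hB.sum_le u
    have hor : 0 < (1 - deriv H (B u - A u)) * (1 - ∑ i, wt A u i) ∨
        0 < deriv H (B u - A u) * (1 - ∑ i, wt B u i) := by
      by_contra hcon
      push Not at hcon
      nlinarith [hcon.1, hcon.2]
    rcases hor with h2 | h2
    · have h3 : 0 < 1 - deriv H (B u - A u) :=
        lt_of_le_of_ne (by linarith) fun h => by rw [← h, zero_mul] at h2; exact lt_irrefl _ h2
      have h4 : 0 < 1 - ∑ i, wt A u i :=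
        lt_of_le_of_ne (by linarith) fun h => by rw [← h, mul_zero] at h2; exact lt_irrefl _ h2
      calc ‖cis (StairFn_739.mix H A B u) - (-1)‖
          ≤ ‖cis (StairFn_739.mix H A B u) - cis (A u)‖ + ‖cis (A u) - (-1)‖ := by
            rw [← sub_add_sub_cancel _ (cis (A u))]; exact norm_add_le _ _
        _ ≤ c + e := add_le_add (hcA u (by linarith)) (hA.flat u (by linarith))
    · have h3 : 0 < deriv H (B u - A u) :=
        lt_of_le_of_ne h1.1 fun h => by rw [← h, zero_mul] at h2; exact lt_irrefl _ h2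
      have h4 : 0 < 1 - ∑ i, wt B u i :=
        lt_of_le_of_ne (by linarith) fun h => by rw [← h, mul_zero] at h2; exact lt_irrefl _ h2
      calc ‖cis (StairFn_739.mix H A B u) - (-1)‖
          ≤ ‖cis (StairFn_739.mix H A B u) - cis (B u)‖ + ‖cis (B u) - (-1)‖ := by
            rw [← sub_add_sub_cancel _ (cis (B u))]; exact norm_add_le _ _
        _ ≤ c + e := add_le_add (hcB u h3) (hB.flat u (by linarith))



/-! ## degrees -/

/-- translation by `v` changes `Φ` by `a` -/
def Sh (Φ : (ι → ℝ) → ℝ) (v : ι → ℝ) (a : ℝ) : Prop := ∀ u, Φ (u + v) = Φ u + a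

omit [Fintype ι] [DecidableEq ι] in
theorem sh_co (i : ι) (v : ι → ℝ) : Sh (co i) v (v i) := fun _ => rfl

theorem shift_int {H : ℝ → ℝ} {N K : ℝ} (h : ∀ t, H (t + N) = H t + K) (j : ℤ) (t : ℝ) :
    H (t + N * j) = H t + K * j := by
  induction j using Int.induction_on with
  | zero => simp
  | succ i ih =>
    have : t + N * ((i : ℤ) + 1 : ℤ) = (t + N * (i : ℤ)) + N := by push_cast; ring
    rw [this, h, ih]; push_cast; ring
  | pred i ih =>
    have h1 := h (t + N * ((-i : ℤ) - 1 : ℤ))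
    have h2 : t + N * ((-i : ℤ) - 1 : ℤ) + N = t + N * (-i : ℤ) := by push_cast; ring
    rw [h2, ih] at h1
    push_cast at h1 ⊢
    linarith

omit [Fintype ι] [DecidableEq ι] in
theorem Sh.mix {H : ℝ → ℝ} {N K : ℝ} (h : ∀ t, H (t + N) = H t + K) {A B : (ι → ℝ) → ℝ}
    {v : ι → ℝ} {a b : ℝ} (hA : Sh A v a) (hB : Sh B v b) (j : ℤ) (hj : b - a = N * j) :
    Sh (mix H A B) v (a + K * j) := fun u => by
  simp only [StairFn_739.mix]
  rw [hA u, hB u]
  have : B u + b - (A u + a) = (B u - A u) + N * j := by linarith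
  rw [this, shift_int h]
  ring

/-! ## comparison of the smooth and the exact phases -/

omit [Fintype ι] [DecidableEq ι] in
theorem mix_lip {H g : ℝ → ℝ} {d e : ℝ} (hg : ML g) (hH : ∀ t, |H t - g t| ≤ d)
    {A B A' B' : (ι → ℝ) → ℝ} (hA : ∀ u, |A u - A' u| ≤ e) (hB : ∀ u, |B u - B' u| ≤ e)
    (u : ι → ℝ) : |mix H A B u - mix g A' B' u| ≤ d + e := by
  have h1 := abs_le.1 (hH (B u - A u))
  have hA' := abs_le.1 (hA u)
  have hB' := abs_le.1 (hB u)
  simp only [mix]
  rcases le_total (B u - A u) (B' u - A' u) with h2 | h2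
  · have h3 := hg _ _ h2
    rw [abs_le]; constructor <;> linarith [h3.1, h3.2, h1.1, h1.2]
  · have h3 := hg _ _ h2
    rw [abs_le]; constructor <;> linarith [h3.1, h3.2, h1.1, h1.2]

/-! ## the phases of `g` and `f` (helper222 #2918, helper440 #3188, helper568 #3229)

`H m n` is a family of staircases: `H m n = Hs hd m n` (smooth) or `Gs m n` (exact).
The variables are `0 = x`, `1 = y`, `2 = z`; arguments are the lifted own phases. -/

section Phases

variable (H : ℕ → ℕ → ℝ → ℝ)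

def gTy : (Fin 3 → ℝ) → ℝ := mix (H 1 5) (co 1) (co 0)
def gTz : (Fin 3 → ℝ) → ℝ := mix (H 1 5) (co 2) (co 0)
/-- `g`: phase of the coupling `x y² z²` -/
def gBe : (Fin 3 → ℝ) → ℝ := mix (H 2 4) (gTy H) (gTz H)
/-- `g`: phase of the coupling `x³ y z` -/
def gAl : (Fin 3 → ℝ) → ℝ := mix (H 1 2) (gBe H) (co 0)
def fQ : (Fin 3 → ℝ) → ℝ := mix (H 6 10) (cn (Fin 3) (-1)) (co 1)
def fR : (Fin 3 → ℝ) → ℝ := mix (H 6 10) (cn (Fin 3) (-1)) (co 2)
def fGa : (Fin 3 → ℝ) → ℝ := mix (H 3 6) (fQ H) (fR H)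
/-- `f`: phase of the coupling `x² y z` -/
def fAl : (Fin 3 → ℝ) → ℝ := mix (H 2 3) (fGa H) (co 0)
/-- `f`: phase of the coupling `(y z)⁵` -/
def fBe : (Fin 3 → ℝ) → ℝ := mix (H 5 10) (co 1) (co 2)

end Phases

section Smooth

variable {d : ℝ} (hd : 0 < d)

theorem ph_gTy : Ph (gTy (Hs hd)) (5 * d) := by
  have := (Hs_sl hd (by norm_num : 0 < 5) (by norm_num : 1 ≤ 5))
  simpa [gTy] using Ph.mix this (ph_co (1 : Fin 3)) (ph_co (0 : Fin 3))

theorem ph_gTz : Ph (gTz (Hs hd)) (5 * d) := by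
  have := (Hs_sl hd (by norm_num : 0 < 5) (by norm_num : 1 ≤ 5))
  simpa [gTz] using Ph.mix this (ph_co (2 : Fin 3)) (ph_co (0 : Fin 3))

theorem ph_gBe : Ph (gBe (Hs hd)) (10 * d) := by
  have := Ph.mix (Hs_sl hd (by norm_num : 0 < 4) (by norm_num : 2 ≤ 4)) (ph_gTy hd) (ph_gTz hd)
  exact this.mono (by linarith)

theorem ph_gAl : Ph (gAl (Hs hd)) (15 * d) := by
  have := Ph.mix (Hs_sl hd (by norm_num : 0 < 2) (by norm_num : 1 ≤ 2)) (ph_gBe hd)
    ((ph_co (0 : Fin 3)).mono (by linarith : (0 : ℝ) ≤ 10 * d))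
  exact this.mono (by linarith)

theorem ph_fQ : Ph (fQ (Hs hd)) (5 * d) := by
  have := (Hs_sl hd (by norm_num : 0 < 10) (by norm_num : 6 ≤ 10))
  simpa [fQ] using Ph.mix this (ph_cn (-1)) (ph_co (1 : Fin 3))

theorem ph_fR : Ph (fR (Hs hd)) (5 * d) := by
  have := (Hs_sl hd (by norm_num : 0 < 10) (by norm_num : 6 ≤ 10))
  simpa [fR] using Ph.mix this (ph_cn (-1)) (ph_co (2 : Fin 3))

theorem ph_fGa : Ph (fGa (Hs hd)) (10 * d) := by
  have := Ph.mix (Hs_sl hd (by norm_num : 0 < 6) (by norm_num : 3 ≤ 6)) (ph_fQ hd) (ph_fR hd)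
  exact this.mono (by linarith)

theorem ph_fAl : Ph (fAl (Hs hd)) (15 * d) := by
  have := Ph.mix (Hs_sl hd (by norm_num : 0 < 3) (by norm_num : 2 ≤ 3)) (ph_fGa hd)
    ((ph_co (0 : Fin 3)).mono (by linarith : (0 : ℝ) ≤ 10 * d))
  exact this.mono (by linarith)

theorem ph_fBe : Ph (fBe (Hs hd)) (5 * d) := by
  have := (Hs_sl hd (by norm_num : 0 < 10) (by norm_num : 5 ≤ 10))
  simpa [fBe] using Ph.mix this (ph_co (1 : Fin 3)) (ph_co (2 : Fin 3))

theorem diff_Hs {m n : ℕ} (hn : 0 < n) (hmn : m ≤ n) : Differentiable ℝ (Hs hd m n) :=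
  (Hs_sl hd hn hmn).diff






/-- nesting: the weights of `α` are a mixture of those of `β` and of `x` -/
theorem wt_gAl (u : Fin 3 → ℝ) (i : Fin 3) :
    wt (gAl (Hs hd)) u i = (1 - deriv (Hs hd 1 2) (u 0 - gBe (Hs hd) u)) * wt (gBe (Hs hd)) u i
      + deriv (Hs hd 1 2) (u 0 - gBe (Hs hd) u) * (if i = 0 then 1 else 0) := by
  rw [gAl, wt_mix (diff_Hs hd (by norm_num) (by norm_num)) (ph_gBe hd).diff (ph_co _).diff, wt_co]
  rfl


/-- `β` of `f` does not depend on `x` -/
theorem wt_fBe_zero (u : Fin 3 → ℝ) : wt (fBe (Hs hd)) u 0 = 0 := by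
  rw [fBe, wt_mix (diff_Hs hd (by norm_num) (by norm_num)) (ph_co _).diff (ph_co _).diff,
    wt_co, wt_co]
  simp


end Smooth

/-! ### distance to the exact phases -/

section Dist

variable {d : ℝ} (hd : 0 < d)

theorem Gs_ml {m n : ℕ} (hn : 0 < n) (hmn : m ≤ n) : ML (Gs m n) := (Gs_ex hn hmn).ml











end Dist

/-! ### degrees -/

section Deg

/-- the family of staircases is equivariant -/
def Eqv (H : ℕ → ℕ → ℝ → ℝ) : Prop :=
  ∀ m n, 0 < n → m ≤ n → ∀ t, H m n (t + 2 * Real.pi * n) = H m n t + 2 * Real.pi * m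


theorem eqv_Hs {d : ℝ} (hd : 0 < d) : Eqv (Hs hd) := fun _ _ hn hmn => Hs_shift hd hn hmn

variable {H : ℕ → ℕ → ℝ → ℝ} (hH : Eqv H)
include hH

/-- translation by `2π n` in the direction `i` -/
abbrev tr (i : Fin 3) (n : ℕ) : Fin 3 → ℝ := Pi.single i (2 * Real.pi * n)

/-- degrees `(1, 2, 2)` and `(3, 1, 1)` over own degrees `(5, 5, 5)` -/
theorem sh_g (i : Fin 3) : Sh (gBe H) (tr i 5) (2 * Real.pi * (![1, 2, 2] i : ℕ)) ∧
    Sh (gAl H) (tr i 5) (2 * Real.pi * (![3, 1, 1] i : ℕ)) := by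
  fin_cases i
  · have h1 : Sh (gTy H) (tr 0 5) (2 * Real.pi) := by
      have := (sh_co (1 : Fin 3) (tr 0 5)).mix (hH 1 5 (by norm_num) (by norm_num))
        (sh_co 0 (tr 0 5)) 1 (by simp [tr])
      simpa [tr, gTy] using this
    have h2 : Sh (gTz H) (tr 0 5) (2 * Real.pi) := by
      have := (sh_co (2 : Fin 3) (tr 0 5)).mix (hH 1 5 (by norm_num) (by norm_num))
        (sh_co 0 (tr 0 5)) 1 (by simp [tr])
      simpa [tr, gTz] using this
    have h3 : Sh (gBe H) (tr 0 5) (2 * Real.pi) := by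
      have := h1.mix (hH 2 4 (by norm_num) (by norm_num)) h2 0 (by simp)
      simpa [gBe] using this
    have h4 : Sh (gAl H) (tr 0 5) (2 * Real.pi * 3) := by
      have := h3.mix (hH 1 2 (by norm_num) (by norm_num)) (sh_co 0 (tr 0 5)) 2 (by
        simp [tr]; ring)
      have e : 2 * Real.pi + 2 * Real.pi * (1 : ℕ) * (2 : ℤ) = 2 * Real.pi * 3 := by
        push_cast; ring
      rwa [e] at this
    exact ⟨by simpa using h3, by simpa using h4⟩
  · have h1 : Sh (gTy H) (tr 1 5) (2 * Real.pi * 4) := by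
      have := (sh_co (1 : Fin 3) (tr 1 5)).mix (hH 1 5 (by norm_num) (by norm_num))
        (sh_co 0 (tr 1 5)) (-1) (by simp [tr])
      have e : (tr 1 5) 1 + 2 * Real.pi * (1 : ℕ) * (-1 : ℤ) = 2 * Real.pi * 4 := by
        simp [tr]; ring
      rwa [e] at this
    have h2 : Sh (gTz H) (tr 1 5) 0 := by
      have := (sh_co (2 : Fin 3) (tr 1 5)).mix (hH 1 5 (by norm_num) (by norm_num))
        (sh_co 0 (tr 1 5)) 0 (by simp [tr])
      simpa [tr, gTz] using this
    have h3 : Sh (gBe H) (tr 1 5) (2 * Real.pi * 2) := by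
      have := h1.mix (hH 2 4 (by norm_num) (by norm_num)) h2 (-1) (by simp)
      have e : 2 * Real.pi * 4 + 2 * Real.pi * (2 : ℕ) * (-1 : ℤ) = 2 * Real.pi * 2 := by
        push_cast; ring
      rwa [e] at this
    have h4 : Sh (gAl H) (tr 1 5) (2 * Real.pi * 1) := by
      have := h3.mix (hH 1 2 (by norm_num) (by norm_num)) (sh_co 0 (tr 1 5)) (-1) (by
        simp [tr])
      have e : 2 * Real.pi * 2 + 2 * Real.pi * (1 : ℕ) * (-1 : ℤ) = 2 * Real.pi * 1 := by
        push_cast; ring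
      rwa [e] at this
    exact ⟨by simpa using h3, by simpa using h4⟩
  · have h1 : Sh (gTy H) (tr 2 5) 0 := by
      have := (sh_co (1 : Fin 3) (tr 2 5)).mix (hH 1 5 (by norm_num) (by norm_num))
        (sh_co 0 (tr 2 5)) 0 (by simp [tr])
      simpa [tr, gTy] using this
    have h2 : Sh (gTz H) (tr 2 5) (2 * Real.pi * 4) := by
      have := (sh_co (2 : Fin 3) (tr 2 5)).mix (hH 1 5 (by norm_num) (by norm_num))
        (sh_co 0 (tr 2 5)) (-1) (by simp [tr])
      have e : (tr 2 5) 2 + 2 * Real.pi * (1 : ℕ) * (-1 : ℤ) = 2 * Real.pi * 4 := by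
        simp [tr]; ring
      rwa [e] at this
    have h3 : Sh (gBe H) (tr 2 5) (2 * Real.pi * 2) := by
      have := h1.mix (hH 2 4 (by norm_num) (by norm_num)) h2 1 (by simp)
      have e : 0 + 2 * Real.pi * (2 : ℕ) * (1 : ℤ) = 2 * Real.pi * 2 := by
        push_cast; ring
      rwa [e] at this
    have h4 : Sh (gAl H) (tr 2 5) (2 * Real.pi * 1) := by
      have := h3.mix (hH 1 2 (by norm_num) (by norm_num)) (sh_co 0 (tr 2 5)) (-1) (by
        simp [tr])
      have e : 2 * Real.pi * 2 + 2 * Real.pi * (1 : ℕ) * (-1 : ℤ) = 2 * Real.pi * 1 := by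
        push_cast; ring
      rwa [e] at this
    exact ⟨by simpa using h3, by simpa using h4⟩

/-- degrees `(2, 1, 1)` and `(0, 5, 5)` over own degrees `(3, 10, 10)` -/
theorem sh_f (i : Fin 3) : Sh (fBe H) (tr i (![3, 10, 10] i)) (2 * Real.pi * (![0, 5, 5] i : ℕ)) ∧
    Sh (fAl H) (tr i (![3, 10, 10] i)) (2 * Real.pi * (![2, 1, 1] i : ℕ)) := by
  have hcn : ∀ v : Fin 3 → ℝ, Sh (cn (Fin 3) (-1)) v 0 := fun v u => by simp [cn]
  fin_cases i
  · have h0 : Sh (fBe H) (tr 0 3) 0 := by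
      have := (sh_co (1 : Fin 3) (tr 0 3)).mix (hH 5 10 (by norm_num) (by norm_num))
        (sh_co 2 (tr 0 3)) 0 (by simp [tr])
      simpa [tr, fBe] using this
    have h1 : Sh (fQ H) (tr 0 3) 0 := by
      have := (hcn (tr 0 3)).mix (hH 6 10 (by norm_num) (by norm_num))
        (sh_co 1 (tr 0 3)) 0 (by simp [tr])
      simpa [tr, fQ] using this
    have h2 : Sh (fR H) (tr 0 3) 0 := by
      have := (hcn (tr 0 3)).mix (hH 6 10 (by norm_num) (by norm_num))
        (sh_co 2 (tr 0 3)) 0 (by simp [tr])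
      simpa [tr, fR] using this
    have h3 : Sh (fGa H) (tr 0 3) 0 := by
      have := h1.mix (hH 3 6 (by norm_num) (by norm_num)) h2 0 (by simp)
      simpa [fGa] using this
    have h4 : Sh (fAl H) (tr 0 3) (2 * Real.pi * 2) := by
      have := h3.mix (hH 2 3 (by norm_num) (by norm_num)) (sh_co 0 (tr 0 3)) 1 (by
        simp [tr])
      simpa [fAl] using this
    exact ⟨by simpa using h0, by simpa using h4⟩
  · have h0 : Sh (fBe H) (tr 1 10) (2 * Real.pi * 5) := by
      have := (sh_co (1 : Fin 3) (tr 1 10)).mix (hH 5 10 (by norm_num) (by norm_num))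
        (sh_co 2 (tr 1 10)) (-1) (by simp [tr])
      have e : (tr 1 10) 1 + 2 * Real.pi * (5 : ℕ) * (-1 : ℤ) = 2 * Real.pi * 5 := by
        simp [tr]; ring
      rwa [e] at this
    have h1 : Sh (fQ H) (tr 1 10) (2 * Real.pi * 6) := by
      have := (hcn (tr 1 10)).mix (hH 6 10 (by norm_num) (by norm_num))
        (sh_co 1 (tr 1 10)) 1 (by simp [tr])
      have e : 0 + 2 * Real.pi * (6 : ℕ) * (1 : ℤ) = 2 * Real.pi * 6 := by
        push_cast; ring
      rwa [e] at this
    have h2 : Sh (fR H) (tr 1 10) 0 := by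
      have := (hcn (tr 1 10)).mix (hH 6 10 (by norm_num) (by norm_num))
        (sh_co 2 (tr 1 10)) 0 (by simp [tr])
      simpa [tr, fR] using this
    have h3 : Sh (fGa H) (tr 1 10) (2 * Real.pi * 3) := by
      have := h1.mix (hH 3 6 (by norm_num) (by norm_num)) h2 (-1) (by simp)
      have e : 2 * Real.pi * 6 + 2 * Real.pi * (3 : ℕ) * (-1 : ℤ) = 2 * Real.pi * 3 := by
        push_cast; ring
      rwa [e] at this
    have h4 : Sh (fAl H) (tr 1 10) (2 * Real.pi * 1) := by
      have := h3.mix (hH 2 3 (by norm_num) (by norm_num)) (sh_co 0 (tr 1 10)) (-1) (by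
        simp [tr])
      have e : 2 * Real.pi * 3 + 2 * Real.pi * (2 : ℕ) * (-1 : ℤ) = 2 * Real.pi * 1 := by
        push_cast; ring
      rwa [e] at this
    exact ⟨by simpa using h0, by simpa using h4⟩
  · have h0 : Sh (fBe H) (tr 2 10) (2 * Real.pi * 5) := by
      have := (sh_co (1 : Fin 3) (tr 2 10)).mix (hH 5 10 (by norm_num) (by norm_num))
        (sh_co 2 (tr 2 10)) 1 (by simp [tr])
      have e : (tr 2 10) 1 + 2 * Real.pi * (5 : ℕ) * (1 : ℤ) = 2 * Real.pi * 5 := by
        simp [tr]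
      rwa [e] at this
    have h1 : Sh (fQ H) (tr 2 10) 0 := by
      have := (hcn (tr 2 10)).mix (hH 6 10 (by norm_num) (by norm_num))
        (sh_co 1 (tr 2 10)) 0 (by simp [tr])
      simpa [tr, fQ] using this
    have h2 : Sh (fR H) (tr 2 10) (2 * Real.pi * 6) := by
      have := (hcn (tr 2 10)).mix (hH 6 10 (by norm_num) (by norm_num))
        (sh_co 2 (tr 2 10)) 1 (by simp [tr])
      have e : 0 + 2 * Real.pi * (6 : ℕ) * (1 : ℤ) = 2 * Real.pi * 6 := by
        push_cast; ring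
      rwa [e] at this
    have h3 : Sh (fGa H) (tr 2 10) (2 * Real.pi * 3) := by
      have := h1.mix (hH 3 6 (by norm_num) (by norm_num)) h2 1 (by simp)
      have e : 0 + 2 * Real.pi * (3 : ℕ) * (1 : ℤ) = 2 * Real.pi * 3 := by
        push_cast; ring
      rwa [e] at this
    have h4 : Sh (fAl H) (tr 2 10) (2 * Real.pi * 1) := by
      have := h3.mix (hH 2 3 (by norm_num) (by norm_num)) (sh_co 0 (tr 2 10)) (-1) (by
        simp [tr])
      have e : 2 * Real.pi * 3 + 2 * Real.pi * (2 : ℕ) * (-1 : ℤ) = 2 * Real.pi * 1 := by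
        push_cast; ring
      rwa [e] at this
    exact ⟨by simpa using h0, by simpa using h4⟩

end Deg

end Crest.Agent.R267.StairFn_739
end
end

-- ▼ part R267/Stair_739
section

/-!
# Row 267 (helper739): pointwise regularity lemma for functions with staircase couplings
(helper222 #2918 (1)), robust form with smoothed ties

At a point: own terms `R i • κ i` (`κ i` of norm one), couplings `r v • τ v` (`τ v` of norm one),
real deletions `b ≥ 0`.  A variable is `on` (in a lobe, or in the word sector) or off-lobe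
(`κ i = -1`).  `μ v i ≥ 0` is the weight of the phase of `i` in the phase of `v`; if `μ v i > 0`
then `τ v` is `ε`-close to `κ i`; if the weights of the `on` variables do not add up to `1`
then `τ v` is `ε`-close to `-1`.
-/

set_option autoImplicit false

noncomputable section

open Finset
open Crest.Agent.R267.LemL_951

namespace Crest.Agent.R267.Stair_739

variable {ι ε V : Type*} [Fintype ι] [Fintype ε] [AddCommGroup V] [Module ℝ V]



theorem abs_jf_le {u : ℂ} (hu : ‖u‖ = 1) (v : ℂ) : |jf u v| ≤ ‖v‖ := by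
  rw [jf_eq]
  refine (Complex.abs_im_le_norm _).trans ?_
  rw [norm_mul, Complex.norm_conj, hu, one_mul]

theorem abs_rf_le {u : ℂ} (hu : ‖u‖ = 1) (v : ℂ) : |rf u v| ≤ ‖v‖ := by
  rw [rf_eq]
  refine (Complex.abs_re_le_norm _).trans ?_
  rw [norm_mul, Complex.norm_conj, hu, one_mul]

/-- close unit vectors have close `jf` -/
theorem jf_close {u a b : ℂ} {e : ℝ} (hu : ‖u‖ = 1) (h : ‖a - b‖ ≤ e) : |jf u a - jf u b| ≤ e := by
  rw [← jf_sub]; exact (abs_jf_le hu _).trans h

theorem rf_close {u a b : ℂ} {e : ℝ} (hu : ‖u‖ = 1) (h : ‖a - b‖ ≤ e) : |rf u a - rf u b| ≤ e := by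
  rw [← rf_sub]; exact (abs_rf_le hu _).trans h

/-- the data at a point -/
structure Dat (ι ε : Type*) [Fintype ι] [Fintype ε] where
  /-- moduli of the own terms -/
  R : ι → ℝ
  /-- directions of the own terms -/
  κ : ι → ℂ
  /-- moduli of the couplings -/
  r : ε → ℝ
  /-- directions of the couplings -/
  τ : ε → ℂ
  /-- weights -/
  μ : ε → ι → ℝ
  /-- in a lobe or in the word sector -/
  on : ι → Prop
  /-- tolerance -/
  tol : ℝ
  R0 : ∀ i, 0 ≤ R i
  r0 : ∀ v, 0 ≤ r v
  μ0 : ∀ v i, 0 ≤ μ v i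
  κ1 : ∀ i, ‖κ i‖ = 1
  τ1 : ∀ v, ‖τ v‖ = 1
  tol0 : 0 ≤ tol
  off : ∀ i, ¬ on i → κ i = -1
  μoff : ∀ v i, ¬ on i → μ v i = 0
  close : ∀ v i, 0 < μ v i → ‖τ v - κ i‖ ≤ tol
  sum_le : ∀ v, ∑ i, μ v i ≤ 1
  flat : ∀ v, ∑ i, μ v i < 1 → ‖τ v - (-1)‖ ≤ tol

variable (P : Dat ι ε)

/-- **robust regularity lemma**: at a zero with conormal `u` the directions of the `on` variables
are `tol`-close to `± u`, and either `u` is almost real or nothing is off-lobe, flat or deleted. -/
theorem stair {u : ℂ} (hu : ‖u‖ = 1) (B : ℝ) (hB : 0 ≤ B)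
    (hang : ∀ i, P.on i → P.R i * jf u (P.κ i) + ∑ v, P.μ v i * (P.r v * jf u (P.τ v)) = 0)
    (hF : ∑ i, P.R i * jf u (P.κ i) + ∑ v, P.r v * jf u (P.τ v) + B * u.im = 0) :
    (∀ i, P.on i → 0 < P.R i → |jf u (P.κ i)| ≤ P.tol) ∧
    (|u.im| ≤ P.tol ∨ ((∀ i, ¬ P.on i → P.R i = 0) ∧
      (∀ v, P.r v = 0 ∨ ∑ i, P.μ v i = 1) ∧ B = 0)) := by
  classical
  refine ⟨fun i hi hR => ?_, ?_⟩
  · by_contra hcon
    push Not at hcon
    have h1 := hang i hi
    rcases le_or_gt 0 (jf u (P.κ i)) with h0 | h0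
    · rw [abs_of_nonneg h0] at hcon
      have h2 : 0 ≤ ∑ v, P.μ v i * (P.r v * jf u (P.τ v)) := by
        refine sum_nonneg fun v _ => ?_
        rcases (P.μ0 v i).eq_or_lt with h3 | h3
        · rw [← h3, zero_mul]
        · have h4 := jf_close hu (P.close v i h3)
          rw [abs_le] at h4
          have h5 : 0 ≤ jf u (P.τ v) := by linarith [h4.1]
          exact mul_nonneg h3.le (mul_nonneg (P.r0 v) h5)
      have h3 : 0 < P.R i * jf u (P.κ i) := mul_pos hR (lt_of_le_of_lt P.tol0 hcon)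
      linarith
    · rw [abs_of_neg h0] at hcon
      have h2 : ∑ v, P.μ v i * (P.r v * jf u (P.τ v)) ≤ 0 := by
        refine sum_nonpos fun v _ => ?_
        rcases (P.μ0 v i).eq_or_lt with h3 | h3
        · rw [← h3, zero_mul]
        · have h4 := jf_close hu (P.close v i h3)
          rw [abs_le] at h4
          have h5 : jf u (P.τ v) ≤ 0 := by linarith [h4.2]
          exact mul_nonpos_of_nonneg_of_nonpos h3.le
            (mul_nonpos_of_nonneg_of_nonpos (P.r0 v) h5)
      have h3 : P.R i * jf u (P.κ i) < 0 := mul_neg_of_pos_of_neg hR h0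
      linarith
  · -- the sum rule
    have hsplit : ∀ i, P.R i * jf u (P.κ i) =
        (if P.on i then 0 else P.R i * u.im) -
          ∑ v, P.μ v i * (P.r v * jf u (P.τ v)) := by
      intro i
      by_cases hi : P.on i
      · rw [if_pos hi]
        have := hang i hi
        linarith
      · rw [if_neg hi, P.off i hi]
        have h1 : ∑ v, P.μ v i * (P.r v * jf u (P.τ v)) = 0 :=
          sum_eq_zero fun v _ => by rw [P.μoff v i hi, zero_mul]
        rw [h1, sub_zero]
        congr 1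
        simp [jf]
    have hsum : ∑ i, (if P.on i then 0 else P.R i * u.im) +
        ∑ v, (1 - ∑ i, P.μ v i) * (P.r v * jf u (P.τ v)) + B * u.im = 0 := by
      have h1 : ∑ i, P.R i * jf u (P.κ i) = ∑ i, (if P.on i then 0 else P.R i * u.im) -
          ∑ v, (∑ i, P.μ v i) * (P.r v * jf u (P.τ v)) := by
        rw [sum_congr rfl fun i _ => hsplit i, sum_sub_distrib, sum_comm]
        congr 1
        exact sum_congr rfl fun v _ => by rw [sum_mul]
      have h2 : ∑ v, (1 - ∑ i, P.μ v i) * (P.r v * jf u (P.τ v)) =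
          ∑ v, P.r v * jf u (P.τ v) - ∑ v, (∑ i, P.μ v i) * (P.r v * jf u (P.τ v)) := by
        rw [← sum_sub_distrib]
        exact sum_congr rfl fun v _ => by ring
      rw [h2]
      linarith
    by_cases him : |u.im| ≤ P.tol
    · exact Or.inl him
    right
    push Not at him
    have hw : ∀ v, 0 ≤ 1 - ∑ i, P.μ v i := fun v => by linarith [P.sum_le v]
    have hflat : ∀ v, 0 < 1 - ∑ i, P.μ v i → |jf u (P.τ v) - u.im| ≤ P.tol := by
      intro v hv
      have h1 := jf_close hu (P.flat v (by linarith))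
      have h2 : jf u (-1) = u.im := by simp [jf]
      rwa [h2] at h1
    have key : ∀ s : ℝ, (s = 1 ∨ s = -1) → P.tol < s * u.im →
        ((∀ i, ¬ P.on i → P.R i = 0) ∧ (∀ v, P.r v = 0 ∨ ∑ i, P.μ v i = 1) ∧ B = 0) := by
      intro s hs hpos
      have hs0 : 0 < s * u.im := lt_of_le_of_lt P.tol0 hpos
      have t1 : ∀ i, 0 ≤ s * (if P.on i then 0 else P.R i * u.im) := by
        intro i
        split_ifs
        · simp
        · have := mul_nonneg (P.R0 i) hs0.le
          linarith [show s * (P.R i * u.im) = P.R i * (s * u.im) by ring]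
      have t2' : ∀ v, 0 < 1 - ∑ i, P.μ v i → 0 < s * jf u (P.τ v) := by
        intro v hv
        have h1 := hflat v hv
        rw [abs_le] at h1
        rcases hs with rfl | rfl
        · linarith [h1.1]
        · linarith [h1.2]
      have t2 : ∀ v, 0 ≤ s * ((1 - ∑ i, P.μ v i) * (P.r v * jf u (P.τ v))) := by
        intro v
        rcases (hw v).eq_or_lt with h | h
        · rw [← h]; simp
        · have := mul_nonneg (mul_nonneg h.le (P.r0 v)) (t2' v h).le
          linarith [show s * ((1 - ∑ i, P.μ v i) * (P.r v * jf u (P.τ v))) =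
            (1 - ∑ i, P.μ v i) * P.r v * (s * jf u (P.τ v)) by ring]
      have t3 : 0 ≤ s * (B * u.im) := by
        have := mul_nonneg hB hs0.le
        linarith [show s * (B * u.im) = B * (s * u.im) by ring]
      have hS1 : 0 ≤ ∑ i, s * (if P.on i then 0 else P.R i * u.im) := sum_nonneg fun i _ => t1 i
      have hS2 : 0 ≤ ∑ v, s * ((1 - ∑ i, P.μ v i) * (P.r v * jf u (P.τ v))) :=
        sum_nonneg fun v _ => t2 v
      have htot : ∑ i, s * (if P.on i then 0 else P.R i * u.im) +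
          ∑ v, s * ((1 - ∑ i, P.μ v i) * (P.r v * jf u (P.τ v))) + s * (B * u.im) = 0 := by
        rw [← mul_sum, ← mul_sum, ← mul_add, ← mul_add, hsum, mul_zero]
      have z1 : ∑ i, s * (if P.on i then 0 else P.R i * u.im) = 0 := by linarith
      have z2 : ∑ v, s * ((1 - ∑ i, P.μ v i) * (P.r v * jf u (P.τ v))) = 0 := by linarith
      have z3 : s * (B * u.im) = 0 := by linarith
      refine ⟨fun i hi => ?_, fun v => ?_, ?_⟩
      · have h1 := (sum_eq_zero_iff_of_nonneg fun i _ => t1 i).1 z1 i (mem_univ i)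
        rw [if_neg hi] at h1
        have h2 : P.R i * (s * u.im) = 0 := by
          have h3 : s * (P.R i * u.im) = P.R i * (s * u.im) := by ring
          linarith
        exact (mul_eq_zero.1 h2).resolve_right hs0.ne'
      · have h1 := (sum_eq_zero_iff_of_nonneg fun v _ => t2 v).1 z2 v (mem_univ v)
        rcases (hw v).eq_or_lt with h | h
        · right; linarith
        · left
          have h2 : (1 - ∑ i, P.μ v i) * P.r v * (s * jf u (P.τ v)) = 0 := by
            linarith [show s * ((1 - ∑ i, P.μ v i) * (P.r v * jf u (P.τ v))) =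
              (1 - ∑ i, P.μ v i) * P.r v * (s * jf u (P.τ v)) by ring]
          have h3 := (mul_eq_zero.1 h2).resolve_right (t2' v h).ne'
          exact (mul_eq_zero.1 h3).resolve_left h.ne'
      · have h2 : B * (s * u.im) = 0 := by
          have h3 : s * (B * u.im) = B * (s * u.im) := by ring
          linarith
        exact (mul_eq_zero.1 h2).resolve_right hs0.ne'
    rcases le_or_gt 0 u.im with h | h
    · rw [abs_of_nonneg h] at him
      exact key 1 (Or.inl rfl) (by linarith)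
    · rw [abs_of_neg h] at him
      exact key (-1) (Or.inr rfl) (by linarith)

end Crest.Agent.R267.Stair_739
end
end

-- ▼ part R267/StairPh_739

/-!
# Row 267 (helper739): staircase phases of `f` and `g`: integer tables, phases as functions of the
angles, the path `(1 - s) linear + s staircase`, and the `Dat` of `Stair_739`
-/

set_option autoImplicit false

noncomputable section

open Set Filter Topology
open scoped ContDiff

namespace Crest.Agent.R267.StairPh_739

open Crest.Agent.R267.Ang_739 Crest.Agent.R267.StairFn_739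

/-! ## integer tables: unit `π` -/

/-- the exact staircase at multiples of `π` -/
def hZ (m n : ℕ) (k : ℤ) : ℤ := 2 * m * (k / (2 * n)) + min (k % (2 * n)) (2 * m)

theorem Gs_pi {m n : ℕ} (hn : 0 < n) (k : ℤ) : Gs m n (Real.pi * k) = Real.pi * hZ m n k := by
  have hpi := Real.pi_pos
  have hn' : (0 : ℝ) < n := by exact_mod_cast hn
  have e1 : Real.pi * k / (2 * Real.pi * n) = (k : ℝ) / (2 * n) := by field_simp
  have hm := Int.emod_add_mul_ediv k (2 * n)
  have h0 := Int.emod_nonneg k (show (2 * n : ℤ) ≠ 0 by omega)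
  have h1 := Int.emod_lt_of_pos k (show (0 : ℤ) < 2 * n by omega)
  set q := k / (2 * (n : ℤ)) with hq
  set r := k % (2 * (n : ℤ)) with hr
  have hk : (k : ℝ) = r + 2 * n * q := by exact_mod_cast hm.symm
  have hfl : ⌊Real.pi * k / (2 * Real.pi * n)⌋ = q := by
    rw [e1, Int.floor_eq_iff, hk]
    have a1 : (0 : ℝ) ≤ r := by exact_mod_cast h0
    have a2 : (r : ℝ) < 2 * n := by exact_mod_cast h1
    constructor
    · rw [le_div_iff₀ (by positivity)]; nlinarith
    · rw [div_lt_iff₀ (by positivity)]; nlinarith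
  have hmin : min (Real.pi * k - 2 * Real.pi * n * q) (2 * Real.pi * m) =
      Real.pi * (min r (2 * (m : ℤ)) : ℤ) := by
    have e2 : Real.pi * k - 2 * Real.pi * n * q = Real.pi * r := by rw [hk]; ring
    have e3 : 2 * Real.pi * (m : ℝ) = Real.pi * (2 * m) := by ring
    rw [e2, e3, Int.cast_min, ← mul_min_of_nonneg _ _ hpi.le]
    push_cast
    rfl
  rw [Gs, G, hfl, hmin, hZ]
  push_cast
  ring

/-- the integer phases -/
def gTyZ (P Q : ℤ) : ℤ := Q + hZ 1 5 (P - Q)
def gBeZ (P Q R : ℤ) : ℤ := gTyZ P Q + hZ 2 4 (gTyZ P R - gTyZ P Q)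
def gAlZ (P Q R : ℤ) : ℤ := gBeZ P Q R + hZ 1 2 (P - gBeZ P Q R)
def fQZ (Q : ℤ) : ℤ := -1 + hZ 6 10 (Q + 1)
def fGaZ (Q R : ℤ) : ℤ := fQZ Q + hZ 3 6 (fQZ R - fQZ Q)
def fAlZ (P Q R : ℤ) : ℤ := fGaZ Q R + hZ 2 3 (P - fGaZ Q R)
def fBeZ (Q R : ℤ) : ℤ := Q + hZ 5 10 (R - Q)

/-- the point with the three phases `πP`, `πQ`, `πR` -/
def pt (P Q R : ℤ) : Fin 3 → ℝ := ![Real.pi * P, Real.pi * Q, Real.pi * R]

theorem mix_pi {m n : ℕ} (hn : 0 < n) {A B : (Fin 3 → ℝ) → ℝ} {u : Fin 3 → ℝ} {a b : ℤ}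
    (hA : A u = Real.pi * a) (hB : B u = Real.pi * b) :
    mix (Gs m n) A B u = Real.pi * (a + hZ m n (b - a) : ℤ) := by
  rw [mix, hA, hB]
  have : Real.pi * b - Real.pi * a = Real.pi * (b - a : ℤ) := by push_cast; ring
  rw [this, Gs_pi hn]
  push_cast
  ring







/-! ## phases as functions of the angles -/

theorem two_le_infty : (2 : WithTop ℕ∞) ≤ ∞ := by
  have : ((2 : ℕ∞) : WithTop ℕ∞) ≤ ((⊤ : ℕ∞) : WithTop ℕ∞) := WithTop.coe_le_coe.2 le_top
  exact this

variable {ι : Type*} [Fintype ι] [DecidableEq ι]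

/-- own phases: `C²` lifts with degrees `n i` -/
structure Own (n : ι → ℕ) (ph : ι → ℝ → ℝ) : Prop where
  smooth : ∀ i, ContDiff ℝ 2 (ph i)
  deg : ∀ i x, ph i (x + 2 * Real.pi) = ph i x + 2 * Real.pi * n i

/-- the vector of the lifted phases -/
def lft (ph : ι → ℝ → ℝ) (θ : ι → ℝ) : ι → ℝ := fun i => ph i (θ i)

/-- the path: `(1 - s) (∑ vᵢ θᵢ + c) + s Φ` -/
def path (Φ : (ι → ℝ) → ℝ) (ph : ι → ℝ → ℝ) (v : ι → ℕ) (p : ℝ × (ι → ℝ)) : ℝ :=
  (1 - p.1) * (∑ i, v i * p.2 i) + p.1 * Φ (lft ph p.2)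

omit [DecidableEq ι] in
theorem contDiff_lft {n : ι → ℕ} {ph : ι → ℝ → ℝ} (h : Own n ph) : ContDiff ℝ 2 (lft ph) :=
  contDiff_pi.2 fun i => (h.smooth i).comp (contDiff_apply ℝ ℝ i)

theorem contDiff_path {n : ι → ℕ} {ph : ι → ℝ → ℝ} (h : Own n ph) {Φ : (ι → ℝ) → ℝ} {e : ℝ}
    (hΦ : Ph Φ e) (v : ι → ℕ) : ContDiff ℝ 2 (path Φ ph v) := by
  have h1 : ContDiff ℝ 2 Φ := hΦ.smooth.of_le two_le_infty
  have h2 : ContDiff ℝ 2 fun p : ℝ × (ι → ℝ) => ∑ i, (v i : ℝ) * p.2 i :=
    ContDiff.sum fun i _ => contDiff_const.mul ((contDiff_apply ℝ ℝ i).comp contDiff_snd)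
  exact ((contDiff_const.sub contDiff_fst).mul h2).add
    (contDiff_fst.mul (h1.comp ((contDiff_lft h).comp contDiff_snd)))

/-- derivative of `Φ ∘ lft` along the angle `i` -/
theorem fderiv_lft {n : ι → ℕ} {ph : ι → ℝ → ℝ} (h : Own n ph) {Φ : (ι → ℝ) → ℝ} {e : ℝ}
    (hΦ : Ph Φ e) (θ : ι → ℝ) (i : ι) :
    fderiv ℝ (fun θ => Φ (lft ph θ)) θ (Pi.single i 1) =
      wt Φ (lft ph θ) i * deriv (ph i) (θ i) := by
  have h1 : DifferentiableAt ℝ (lft ph) θ := (contDiff_lft h).differentiable (by norm_num) θ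
  have h2 : fderiv ℝ (lft ph) θ (Pi.single i 1) = Pi.single i (deriv (ph i) (θ i)) := by
    have h3 : HasFDerivAt (lft ph) (ContinuousLinearMap.pi fun j =>
        (deriv (ph j) (θ j)) • ContinuousLinearMap.proj (R := ℝ) (φ := fun _ : ι => ℝ) j) θ := by
      rw [hasFDerivAt_pi]
      intro j
      have h4 : HasDerivAt (ph j) (deriv (ph j) (θ j)) (θ j) :=
        ((h.smooth j).differentiable (by norm_num) (θ j)).hasDerivAt
      exact h4.comp_hasFDerivAt θ
        (ContinuousLinearMap.proj (R := ℝ) (φ := fun _ : ι => ℝ) j).hasFDerivAt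
    rw [h3.fderiv]
    ext j
    simp only [ContinuousLinearMap.coe_pi', FunLike.coe_smul, Pi.smul_apply,
      ContinuousLinearMap.proj_apply, smul_eq_mul]
    by_cases hj : j = i
    · subst hj; simp
    · rw [Pi.single_eq_of_ne hj, Pi.single_eq_of_ne hj, mul_zero]
  have h5 : fderiv ℝ (fun θ => Φ (lft ph θ)) θ =
      (fderiv ℝ Φ (lft ph θ)).comp (fderiv ℝ (lft ph) θ) :=
    fderiv_comp θ (hΦ.diff _) h1
  rw [h5, ContinuousLinearMap.comp_apply, h2, wt]
  have h6 : (Pi.single i (deriv (ph i) (θ i)) : ι → ℝ) =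
      (deriv (ph i) (θ i)) • Pi.single i (1 : ℝ) := by
    rw [← Pi.single_smul, smul_eq_mul, mul_one]
  rw [h6, map_smul, smul_eq_mul, mul_comm]

/-- derivative of the path phase along the angle `i` -/
theorem fderiv_path {n : ι → ℕ} {ph : ι → ℝ → ℝ} (h : Own n ph) {Φ : (ι → ℝ) → ℝ} {e : ℝ}
    (hΦ : Ph Φ e) (v : ι → ℕ) (s : ℝ) (θ : ι → ℝ) (i : ι) :
    fderiv ℝ (path Φ ph v) (s, θ) (0, Pi.single i 1) =
      (1 - s) * v i + s * (wt Φ (lft ph θ) i * deriv (ph i) (θ i)) := by
  have h0 : DifferentiableAt ℝ (path Φ ph v) (s, θ) :=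
    (contDiff_path h hΦ v).differentiable (by norm_num) _
  have h1 : fderiv ℝ (path Φ ph v) (s, θ) (0, Pi.single i 1) =
      fderiv ℝ (fun θ' => path Φ ph v (s, θ')) θ (Pi.single i 1) := by
    have h2 : HasFDerivAt (fun θ' : ι → ℝ => (s, θ'))
        (ContinuousLinearMap.inr ℝ ℝ (ι → ℝ)) θ := hasFDerivAt_prodMk_right s θ
    have h3 := (h0.hasFDerivAt).comp θ h2
    have h4 : fderiv ℝ (fun θ' => path Φ ph v (s, θ')) θ =
        (fderiv ℝ (path Φ ph v) (s, θ)).comp (ContinuousLinearMap.inr ℝ ℝ (ι → ℝ)) := h3.fderiv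
    rw [h4]; simp
  rw [h1]
  have h2 : DifferentiableAt ℝ (fun θ => Φ (lft ph θ)) θ :=
    (hΦ.diff _).comp θ ((contDiff_lft h).differentiable (by norm_num) θ)
  have h3 : HasFDerivAt (fun θ' : ι → ℝ => ∑ j, (v j : ℝ) * θ' j)
      (∑ j, (v j : ℝ) • ContinuousLinearMap.proj (R := ℝ) (φ := fun _ : ι => ℝ) j) θ := by
    refine HasFDerivAt.fun_sum fun j _ => ?_
    exact (ContinuousLinearMap.proj (R := ℝ) (φ := fun _ : ι => ℝ) j).hasFDerivAt.const_mul _
  have h4 : HasFDerivAt (fun θ' => path Φ ph v (s, θ'))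
      ((1 - s) • (∑ j, (v j : ℝ) • ContinuousLinearMap.proj (R := ℝ) (φ := fun _ : ι => ℝ) j)
        + s • fderiv ℝ (fun θ => Φ (lft ph θ)) θ) θ :=
    (h3.const_mul (1 - s)).add (h2.hasFDerivAt.const_mul s)
  rw [h4.fderiv]
  simp only [add_apply, smul_apply, smul_eq_mul, fderiv_lft h hΦ]
  congr 2
  rw [sum_apply]
  simp [Pi.single_apply]

/-- translation by `2π` in the angle `i` -/
theorem path_shift {n : ι → ℕ} {ph : ι → ℝ → ℝ} (h : Own n ph) {Φ : (ι → ℝ) → ℝ}
    {v : ι → ℕ} (i : ι) (hS : Sh Φ (Pi.single i (2 * Real.pi * n i)) (2 * Real.pi * v i))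
    (s : ℝ) (θ : ι → ℝ) :
    path Φ ph v (s, θ + Pi.single i (2 * Real.pi)) = path Φ ph v (s, θ) + 2 * Real.pi * v i := by
  have h1 : lft ph (θ + Pi.single i (2 * Real.pi)) =
      lft ph θ + Pi.single i (2 * Real.pi * n i) := by
    ext j
    by_cases hj : j = i
    · subst hj
      simp only [lft, Pi.add_apply, Pi.single_eq_same]
      exact h.deg j (θ j)
    · simp [lft, Pi.single_eq_of_ne hj]
  simp only [path, h1, hS (lft ph θ)]
  have h2 : ∑ j, (v j : ℝ) * (θ + Pi.single i (2 * Real.pi) : ι → ℝ) j =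
      ∑ j, (v j : ℝ) * θ j + v i * (2 * Real.pi) := by
    simp only [Pi.add_apply, mul_add, Finset.sum_add_distrib]
    congr 1
    simp [Pi.single_apply]
  rw [h2]; ring

/-- hence the unit vector is `2π`-periodic in every angle -/
theorem cis_path_shift {n : ι → ℕ} {ph : ι → ℝ → ℝ} (h : Own n ph) {Φ : (ι → ℝ) → ℝ}
    {v : ι → ℕ} (i : ι) (hS : Sh Φ (Pi.single i (2 * Real.pi * n i)) (2 * Real.pi * v i))
    (s : ℝ) (θ : ι → ℝ) :
    cis (path Φ ph v (s, θ + Pi.single i (2 * Real.pi))) = cis (path Φ ph v (s, θ)) := by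
  rw [path_shift h i hS, cis_per_nat]

/-- the coefficient function of a coupling -/
def cf (Φ : (ι → ℝ) → ℝ) (ph : ι → ℝ → ℝ) (v : ι → ℕ) (p : ℝ × (ι → ℝ)) : ℂ :=
  cis (path Φ ph v p)

theorem contDiff_cf {n : ι → ℕ} {ph : ι → ℝ → ℝ} (h : Own n ph) {Φ : (ι → ℝ) → ℝ} {e : ℝ}
    (hΦ : Ph Φ e) (v : ι → ℕ) : ContDiff ℝ 2 (cf Φ ph v) :=
  contDiff_cis.comp (contDiff_path h hΦ v)

omit [DecidableEq ι] in
theorem norm_cf (Φ : (ι → ℝ) → ℝ) (ph : ι → ℝ → ℝ) (v : ι → ℕ) (p : ℝ × (ι → ℝ)) :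
    ‖cf Φ ph v p‖ = 1 := norm_cis _

theorem fderiv_cf {n : ι → ℕ} {ph : ι → ℝ → ℝ} (h : Own n ph) {Φ : (ι → ℝ) → ℝ} {e : ℝ}
    (hΦ : Ph Φ e) (v : ι → ℕ) (s : ℝ) (θ : ι → ℝ) (i : ι) :
    fderiv ℝ (cf Φ ph v) (s, θ) (0, Pi.single i 1) =
      (((1 - s) * v i + s * (wt Φ (lft ph θ) i * deriv (ph i) (θ i)) : ℝ) : ℂ) *
        (Complex.I * cf Φ ph v (s, θ)) := by
  have h0 : DifferentiableAt ℝ (path Φ ph v) (s, θ) :=
    (contDiff_path h hΦ v).differentiable (by norm_num) _
  have h2 : fderiv ℝ (cf Φ ph v) (s, θ) =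
      ContinuousLinearMap.smulRight (fderiv ℝ (path Φ ph v) (s, θ))
        (Complex.I * cis (path Φ ph v (s, θ))) := by
    have h3 : HasFDerivAt (cf Φ ph v) (ContinuousLinearMap.smulRight
        (fderiv ℝ (path Φ ph v) (s, θ)) (Complex.I * cis (path Φ ph v (s, θ)))) (s, θ) := by
      have := (hasDerivAt_cis (path Φ ph v (s, θ))).hasFDerivAt.comp (s, θ) h0.hasFDerivAt
      refine this.congr_fderiv ?_
      ext w <;> simp
    exact h3.fderiv
  rw [h2, ContinuousLinearMap.smulRight_apply, fderiv_path h hΦ, Complex.real_smul]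
  rfl

/-! ## the pointwise data of `Stair_739` -/

/-- data at a point at `s = 1`.  `act`: in-lobe variables (couplings move with them);
`J`: variables in their word sector with a moving own phase; all the others are off-lobe. -/
def datOf {ε : Type*} [Fintype ε] (Φ : ε → (ι → ℝ) → ℝ) {e : ℝ} (hΦ : ∀ v, Ph (Φ v) e)
    (he : 0 ≤ e) (u : ι → ℝ) (act J : ι → Prop) [DecidablePred act]
    (R : ι → ℝ) (R0 : ∀ i, 0 ≤ R i) (r : ε → ℝ) (r0 : ∀ v, 0 ≤ r v)
    (κ : ι → ℂ) (κ1 : ∀ i, ‖κ i‖ = 1) (hact : ∀ i, act i → κ i = cis (u i))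
    (hoff : ∀ i, ¬ act i → cis (u i) = -1) (hJ : ∀ i, ¬ act i → ¬ J i → κ i = -1) :
    Stair_739.Dat ι ε where
  R := R
  κ := κ
  r := r
  τ := fun v => cis (Φ v u)
  μ := fun v i => if act i then wt (Φ v) u i else 0
  on := fun i => act i ∨ J i
  tol := e
  R0 := R0
  r0 := r0
  μ0 := fun v i => by
    split_ifs
    · exact (hΦ v).nn u i
    · exact le_rfl
  κ1 := κ1
  τ1 := fun v => norm_cis _
  tol0 := he
  off := fun i hi => hJ i (fun h => hi (Or.inl h)) fun h => hi (Or.inr h)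
  μoff := fun v i hi => if_neg fun h => hi (Or.inl h)
  close := fun v i hi => by
    by_cases ha : act i
    · rw [if_pos ha] at hi
      rw [hact i ha]
      exact (hΦ v).close u i hi
    · rw [if_neg ha] at hi
      exact absurd hi (lt_irrefl _)
  sum_le := fun v => by
    refine le_trans (Finset.sum_le_sum fun i _ => ?_) ((hΦ v).sum_le u)
    split_ifs
    · exact le_rfl
    · exact (hΦ v).nn u i
  flat := fun v hv => by
    by_cases hs : ∑ i, wt (Φ v) u i < 1
    · exact (hΦ v).flat u hs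
    · have h1 : ∑ i, wt (Φ v) u i = 1 := le_antisymm ((hΦ v).sum_le u) (not_lt.1 hs)
      have h2 : ∃ i, ¬ act i ∧ 0 < wt (Φ v) u i := by
        by_contra hcon
        push Not at hcon
        refine absurd ?_ (ne_of_lt hv)
        rw [← h1]
        refine Finset.sum_congr rfl fun i _ => ?_
        by_cases ha : act i
        · rw [if_pos ha]
        · rw [if_neg ha]
          exact le_antisymm ((hΦ v).nn u i) (hcon i ha)
      obtain ⟨i, hi, hw⟩ := h2
      have h3 := (hΦ v).close u i hw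
      rwa [hoff i hi] at h3

end Crest.Agent.R267.StairPh_739
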