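import Crest.Agent.R267.Top406L_808
import Crest.Agent.R267.NdY_484
import Crest.Agent.R267.Cert_330
import Crest.Agent.R267.GlnAsm_9
import Crest.Agent.R267.EndN5_277
import Crest.Agent.R267.Carve3_363
import Crest.Agent.R267.K2IN_957
import Crest.Agent.R267.K2N_957
import Crest.Agent.R267.HubDefs_284
import Crest.Agent.R267.Gam_100
import Crest.Agent.R267.HarmBox_920
import Crest.Agent.R267.T3aNDefs_88
import Crest.Agent.R267.GamM_100
import Crest.Agent.R267.PolF_943
import Crest.Agent.R267.Start_862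
import Crest.Agent.R267.HmC2_957
import Crest.Agent.R267.StLit_143
import Crest.Agent.R267.SFLDc_330

-- ▼ part R267/HubTop_808
section

/-!
# Row 267 (helper808): S0406, top

* `hubProp_of_aeq`: `HubProp` from chains of arm homotopies (`NdY_484.AEq`, one arm at a time)
  followed by a `ZEq` of the amalgam with an admissible polar function;
* `lit_fin`: S0406 from T3aN, GLUE-N and `HubProp` (certificate inserted).
-/

set_option autoImplicit false

namespace Crest.Agent.R267.HubTop_808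

open Set
open Crest.Agent.R267.Hm_951 Crest.Agent.R267.NdR_484 Crest.Agent.R267.NdY_484
open Crest.Agent.R267.T3aNDefs_88 Crest.Agent.R267.GlNDefs_9
open Crest.Agent.R267.Asm406_808 Crest.Agent.R267.SFLDc_330 Crest.Agent.R267.SFLD_330



/-- **S0406** from T3aN, GLUE-N and the function level (certificate inserted). -/
theorem lit_fin (hT : T3aNP (n := 1) DfL) (hT' : T3aNP (n := 1) DgL) (hG : GluP DfL)
    (hG' : GluP DgL) (hF : HubProp true DfL) (hH : HubProp false DgL) : NdZ_484.Lit :=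
  Top406L_808.lit_L Cert_330.cert hT hT' hG hG' hF hH

end Crest.Agent.R267.HubTop_808
end

-- ▼ part R267/HubTop2_808
section

/-!
# Row 267 (helper808): S0406 from T3aN and the function level (GLUE-N inserted)
-/

set_option autoImplicit false

noncomputable section

namespace Crest.Agent.R267.HubTop2_808

open Crest.Agent.R267.SFLD_330 Crest.Agent.R267.SFLDc_330 Crest.Agent.R267.Asm406_808

/-- **S0406** from T3aN and the function level (certificate and GLUE-N inserted). -/
theorem lit_hub (hT : T3aNP (n := 1) DfL) (hT' : T3aNP (n := 1) DgL)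
    (hF : HubProp true DfL) (hH : HubProp false DgL) : NdZ_484.Lit :=
  HubTop_808.lit_fin hT hT' (GlnAsm_9.gluP DfL (by norm_num)) (GlnAsm_9.gluP DgL (by norm_num))
    hF hH

end Crest.Agent.R267.HubTop2_808
end
end

-- ▼ part R267/EndN6_277
section

/-!
# Row 267, T3aN end instance (helper277), part 6: **`T3aNP D` for all data `D : SD (n + 3)`**

`t3aN D`: for `cB` large, `ga` small, `d` small, the link of `D.G` is the link of a graph system
with matrix `matN D e`.
-/

set_option autoImplicit false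
set_option maxHeartbeats 400000

noncomputable section

namespace Crest.Agent.R267.EndN6_277

open Finset
open scoped RealInnerProductSpace
open Crest.Agent.R267.T3aDefs_957 (st pg NN chi Af Bf gq)
open Crest.Agent.R267.T3aDefs_957.LD (Ev Cen vt vs)
open Crest.Agent.R267.T3aNDefs_88 Crest.Agent.R267.EndDef_864 Crest.Agent.R267.EndBas_864
  Crest.Agent.R267.EndG_864 Crest.Agent.R267.EndH_864 Crest.Agent.R267.EndN1_277
  Crest.Agent.R267.EndN2_277 Crest.Agent.R267.EndN3_277 Crest.Agent.R267.EndN4_277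
  Crest.Agent.R267.EndN5_277 Crest.Agent.R267.Carve3_363
open Crest.Agent.R267.GS_808 Crest.Agent.R267.Cone_808 Crest.Agent.R267.TopAsm_808
  Crest.Agent.R267.DraftB_808

variable {n : ℕ}

theorem hsg (D : SD (n + 3)) {m : ℕ} (e : Fin m ≃ {k : Fin (n + 3) → ℕ // D.Let k}) (k : Fin m)
    (j : Fin (n + 3)) : |(ls D e).sg k j| ≤ D.K1 - 1 := by
  have h1 : (ls D e).sg k j = sgN ((e k).1 j) := rfl
  have h2 := sgN_le_K1 D ((e k).2.1 j)
  have h3 := sgN_nonneg ((e k).1 j)
  rw [h1, abs_of_nonneg h3]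
  linarith

theorem cen_diag {x : Fin (n + 3) → ℂ} {l : ℝ} (hl : 0 < l) (hx : ∀ j, (x j).re = l) :
    Cen x := by
  intro j
  rw [hx j]
  refine ⟨hl, ?_⟩
  have h1 : ∑ i, (x i).re ^ 2 = ((n + 3 : ℕ) : ℝ) * l ^ 2 := by
    simp only [hx, Finset.sum_const, Finset.card_univ, Fintype.card_fin, nsmul_eq_mul]
  have h2 : (1 : ℝ) ≤ ((n + 3 : ℕ) : ℝ) := by exact_mod_cast (by omega : 1 ≤ n + 3)
  rw [h1]
  refine Real.sqrt_le_iff.2 ⟨by positivity, ?_⟩
  nlinarith [mul_nonneg (sub_nonneg.2 h2) (sq_nonneg l), sq_nonneg l,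
    mul_nonneg (mul_nonneg (sub_nonneg.2 h2) (sub_nonneg.2 h2)) (sq_nonneg l)]

/-- the hypotheses of the carve for `D.G`. -/
theorem cf {D : SD (n + 3)} {c g : ℝ} {m : ℕ} (e : Fin m ≃ {k : Fin (n + 3) → ℕ // D.Let k})
    (Q : Par n) (hsm : ∀ k l j, (ls D e).sg k j ≠ (ls D e).sg l j →
      Q.ep * (‖vec (n := n) ((ls D e).V k)‖ + ‖vec (n := n) ((ls D e).V l)‖) <
        Q.d * |(ls D e).sg k j - (ls D e).sg l j|)
    (hg : 0 < g) (hg1 : g < 1) (hdd : Q.d ≤ d4 D) (hep : Q.ep ≤ etaN D Q.d)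
    (hS : ContDiffOn ℝ 2 (D.G c g Q.d) {0}ᶜ)
    (h1 : ∀ z : Fin (n + 3) → ℂ, z ≠ 0 → (D.G c g Q.d z).im = 0 →
      0 ≤ (D.G c g Q.d z).re → ∃ Y : Fin (n + 3) → ℝ, (fderiv ℝ (D.G c g Q.d) z (vt Y)).im ≠ 0)
    (h2 : ∀ z : Fin (n + 3) → ℂ, z ≠ 0 → D.G c g Q.d z = 0 →
      ∃ (a : ℝ) (Y : Fin (n + 3) → ℝ), 0 ≤ a ∧ (fderiv ℝ (D.G c g Q.d) z (vs a Y)).im = 0 ∧
        0 < (fderiv ℝ (D.G c g Q.d) z (vs a Y)).re)
    (h4 : ∀ z : Fin (n + 3) → ℂ, z ≠ 0 → Cen z → (D.G c g Q.d z).im = 0 →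
      0 ≤ (D.G c g Q.d z).re → ∃ (k : Fin (n + 3) → ℕ) (Y : Fin (n + 3) → ℝ), D.Let k ∧
        (fderiv ℝ (D.G c g Q.d) z (vt Y)).im = 0 ∧ (fderiv ℝ (D.G c g Q.d) z (vt Y)).re ≤ 0 ∧
        (D.G c g Q.d z = 0 → (fderiv ℝ (D.G c g Q.d) z (vt Y)).re < 0) ∧
        (∀ j, ((z j).im - sgN (k j) * (z j).re) ^ 2 ≤
          Y j * ((z j).im - sgN (k j) * (z j).re)) ∧
        ∀ j, |(z j).im - sgN (k j) * (z j).re| < 2 * (z j).re) :
    CF (ls D e) Q hsm 8 (r2N D Q.d) D.K1 (D.G c g Q.d) := by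
  have hK := one_le_K D
  have hVm := Vm_nonneg D
  have hsq : 0 ≤ √(n + 3 : ℝ) := Real.sqrt_nonneg _
  have h12 := d4_one D hdd
  have hmul := etaN_mul D Q.hd hep
  have hepV : 0 ≤ Q.ep * Vm D := mul_nonneg Q.hep.le hVm
  have hepV1 : Q.ep * Vm D < 1 := by
    have e1 : Q.ep * Vm D ≤ (1 + √(n + 3 : ℝ)) * (Q.ep * Vm D) := by nlinarith
    have e2 : (1 + √(n + 3 : ℝ)) * (Q.ep * Vm D) ≤
        (D.K + 1) * ((1 + √(n + 3 : ℝ)) * (Q.ep * Vm D)) := by nlinarith
    linarith
  have hN0 : 0 < n + 3 := by omega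
  have hdN : Q.d ≤ dN D := hdd.trans (min_le_left _ _)
  refine ⟨by norm_num, ?_, r2N_pos Q.hd, K1_pos D, ?_, hS, fun r x hr => hom_smul D c g Q.d hr x,
    fun x hx => re_s0 D c g Q.d hx, h1, h2, fun h hh => c00p D Q.hd hdN hN0 h hh,
    fun x hx => re_pos D Q.hd hdN hg1 hN0 hx, fun s t k hs h => tube e hsm hg hg1 hdd hep hs k h,
    ?_⟩
  · intro k j
    refine ⟨(e k).1 j, ?_⟩
    show sgN ((e k).1 j) = _
    unfold sgN
    ring
  · exact T1_of (ls D e) Q hsm (Vm := Vm D) (hsg D e) (vec_V_le D e) (by linarith [one_le_K1 D])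
      (by linarith)
  · intro l x hl hx him hre
    have hx0 : x ≠ 0 := by
      rintro rfl
      have := hx 0
      simp at this
      exact hl.ne this
    obtain ⟨k, Y, a0, a1, a2, a3, a4, a5⟩ := h4 x hx0 (cen_diag hl hx) him hre
    refine ⟨e.symm ⟨k, a0⟩, Y, a1, a2, fun h0 => a3 (Complex.ext h0 him), fun j => ?_⟩
    have h6 : (ls D e).sg (e.symm ⟨k, a0⟩) j = sgN (k j) := by
      show sgN ((e (e.symm ⟨k, a0⟩)).1 j) = _
      rw [Equiv.apply_symm_apply]
    have h7 := a4 j
    have h8 := a5 j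
    rw [h6]
    rw [hx j] at h7 h8
    exact ⟨by linarith, h8⟩

/-- **T3aN, all data.** -/
theorem t3aN (D : SD (n + 3)) : Ev fun c g d =>
    ∃ (m : ℕ) (e : Fin m ≃ {k : Fin (n + 3) → ℕ // D.Let k}) (G : S n m),
      HasMat G (matN D e) ∧ IsLink {z : Sph (Fin (n + 3)) | D.G c g d z = 0} G := by
  have hS : Ev fun c g d => 0 < g ∧ g < 1 ∧ d ≤ d4 D ∧ 0 < d :=
    Ev.of_small (d4_pos D) fun c g d _ hg hg1 hd hdd => ⟨hg, hg1, hdd, hd⟩
  refine t3aN_of D (((SmoothN_957.smoothN D).and (hS.and ((K1N_957.k1N D).and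
    ((K2N_957.k2N D (by omega)).and (R4N_957.r4N D))))).mono fun c g d _ _ _ h => ?_)
  obtain ⟨hsmooth, ⟨hg, hg1, hdd, hd0⟩, h1, h2, h4⟩ := h
  intro m e Q hsm hQd hQe hQep
  subst hQd
  obtain ⟨r0, hr0, H⟩ := carve3 (cf e Q hsm hg hg1 hdd hQep hsmooth h1 h2 h4)
  refine ⟨r0, hr0, fun r hr hr' => ?_⟩
  obtain ⟨ε, hε, H'⟩ := H r hr hr'
  exact ⟨ε, hε, H' ε hε le_rfl⟩

end Crest.Agent.R267.EndN6_277
end
end

-- ▼ part R267/HubTop3_808
section

/-!
# Row 267 (helper808): S0406 from the function level (T3aN, GLUE-N and the certificate inserted)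
-/

set_option autoImplicit false

noncomputable section

namespace Crest.Agent.R267.HubTop3_808

open Crest.Agent.R267.SFLDc_330 Crest.Agent.R267.Asm406_808

/-- **S0406** from the function level of `f` and `g`. -/
theorem lit_two (hF : HubProp true DfL) (hH : HubProp false DgL) : NdZ_484.Lit :=
  HubTop2_808.lit_hub (EndN6_277.t3aN (n := 1) DfL) (EndN6_277.t3aN (n := 1) DgL) hF hH

end Crest.Agent.R267.HubTop3_808
end
end

-- ▼ part R267/HubOk_808
section

/-!
# Row 267 (helper808): the final polar data of the hub step are admissible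

`xx_f : (XX true DfL).Ok`, `xx_g : (XX false DgL).Ok`.
-/

set_option autoImplicit false

noncomputable section

namespace Crest.Agent.R267.HubOk_808

open Crest.Agent.R267.T3aNDefs_88 Crest.Agent.R267.GlNDefs_9 Crest.Agent.R267.HubDefs_284
open Crest.Agent.R267.WordPh_9 Crest.Agent.R267.WordPh2_9 Crest.Agent.R267.SFLDc_330
open Crest.Agent.R267.Top406L_808

theorem sn_or {N : ℕ} (D : SD N) (j : Fin N) (l : ℕ) : D.sn j l = 1 ∨ D.sn j l = -1 := by
  unfold SD.sn
  split
  · exact Or.inr rfl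
  · exact Or.inl rfl

theorem seven_lt (b : Bool) (j : Fin 4) : 7 < D3 b j := by
  cases b <;> fin_cases j <;> norm_num [D3, DS]

theorem xx_ok {b : Bool} {D : SD 4} (h3 : ∀ e, cd D e ≤ 3)
    (hlo : ∀ e, ∀ j ∈ (D.bx e).S, (D.bx e).lo j ≤ (D.bx e).hi j) : (XX b D).Ok where
  hdg := fun j => by
    have := seven_lt b j
    show 2 < D3 b j
    linarith
  hdg2 := fun e j _ => by
    have h1 := seven_lt b j
    have h2 := h3 e
    show 2 * cd D e < D3 b j
    linarith
  arcs := fun j => warcs (arcsE (D.M j))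
  ph := fun j => wrd (arcsE (D.M j)) (sn_or D j)
  hc := fun e => by
    show cd D e < cc D e
    have h := h3 e
    unfold cc
    split
    · next h2 => rw [cd, h2]; norm_num
    · linarith
  lam := fun e j hj => winA' (arcsE (D.M j)) (hlo e j hj) (D.hhi e j hj)

theorem xx_f : (XX true DfL).Ok := xx_ok cd_fL (by decide +kernel)

theorem xx_g : (XX false DgL).Ok := xx_ok cd_gL (by decide +kernel)

end Crest.Agent.R267.HubOk_808
end
end

-- ▼ part R267/GamE_920
section

/-!
# S0406, T3N, C2 (helper920): the data of the general amalgam theorem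

* `EB D ph c S l` : own words `∑ j, pc (D j) 1 (ph j) (z j)` minus harmonic boxes; `C²`
  (`contDiff_EB`), homogeneous for the weights `1 / D j` (`EB_act`).
* `Seg w E0 E1` : the straight line from `E0` to `E1` is `0`-regular on the three planes;
  `Seg.rem` : it satisfies the hypotheses `Rem` of `Gam_100.gam`.
* `zeq_seg` : for `M ≥ M0` the links of `M P + E0` and `M P + E1` agree.
* `far_ok` : no zeros where the own term of `w` dominates.
-/

set_option autoImplicit false
set_option linter.unusedSectionVars false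

noncomputable section

open Set Filter Topology Metric Finset
open scoped ContDiff
open Crest.Agent.R267.Cone_808 Crest.Agent.R267.Hm_951 Crest.Agent.R267.Ang_739
open Crest.Agent.R267.HarmBox_920 Crest.Agent.R267.Gam_100

namespace Crest.Agent.R267.GamE_920

/-- own words minus harmonic boxes -/
def EB {nb : ℕ} (D : Fin 4 → ℝ) (ph : Fin 4 → ℝ → ℝ) (c : Fin nb → ℝ)
    (S : Fin nb → Finset (Fin 4)) (l : Fin nb → Fin 4 → ℝ → ℝ) (z : Fin 4 → ℂ) : ℂ :=
  ∑ j, pc (D j) 1 (ph j) (z j) - ((∑ e, c e * HB (S e) D (l e) z : ℝ) : ℂ)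

/-- admissible data -/
structure EBD {nb : ℕ} (D : Fin 4 → ℝ) (ph : Fin 4 → ℝ → ℝ)
    (S : Fin nb → Finset (Fin 4)) (l : Fin nb → Fin 4 → ℝ → ℝ) : Prop where
  hD : ∀ j, 2 < D j
  ph2 : ∀ j, ContDiff ℝ 2 (ph j)
  per : ∀ j, Per fun x => cis (ph j x)
  ne : ∀ e, (S e).Nonempty
  lper : ∀ e, ∀ j ∈ S e, Per (l e j)
  l2 : ∀ e, ∀ j ∈ S e, ContDiff ℝ 2 (l e j)

theorem contDiff_pc {D : ℝ} (hD : 2 < D) {φ : ℝ → ℝ} (h2 : ContDiff ℝ 2 φ)
    (hp : Per fun x => cis (φ x)) : ContDiff ℝ 2 (pc D 1 φ) := by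
  unfold pc
  refine LobeKit_407.contDiff_pol hD (fun x => ?_) (contDiff_const.mul (contDiff_cis.comp h2))
  show ((1 : ℝ) : ℂ) * cis (φ (x + 2 * Real.pi)) = ((1 : ℝ) : ℂ) * cis (φ x)
  rw [show cis (φ (x + 2 * Real.pi)) = cis (φ x) from hp x]

variable {nb : ℕ} {D : Fin 4 → ℝ} {ph : Fin 4 → ℝ → ℝ} {c : Fin nb → ℝ}
  {S : Fin nb → Finset (Fin 4)} {l : Fin nb → Fin 4 → ℝ → ℝ}

theorem contDiff_EB (h : EBD D ph S l) (c : Fin nb → ℝ) : ContDiff ℝ 2 (EB D ph c S l) := by
  unfold EB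
  refine ContDiff.sub (ContDiff.sum fun j _ => ?_) ?_
  · exact (contDiff_pc (h.hD j) (h.ph2 j) (h.per j)).comp
      (by fun_prop : ContDiff ℝ 2 fun z : Fin 4 → ℂ => z j)
  · have h1 : ContDiff ℝ 2 fun z : Fin 4 → ℂ => ∑ e, c e * HB (S e) D (l e) z :=
      ContDiff.sum fun e _ =>
        contDiff_const.mul (contDiff_HB (h.ne e) (fun j _ => h.hD j) (h.lper e) (h.l2 e))
    exact Complex.ofRealCLM.contDiff.comp h1

theorem pc_act {w : Fin 4 → ℝ} {j : Fin 4} (h : w j * D j = 1) (φ : ℝ → ℝ) (s : ℝ)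
    (z : Fin 4 → ℂ) : pc (D j) 1 φ (act w s z j) = (Real.exp s : ℂ) * pc (D j) 1 φ (z j) := by
  unfold act
  rw [show ((Real.exp (s * w j) : ℝ) : ℂ) = ((Real.exp (s * w j) : ℝ) : ℂ) from rfl,
    pc_hom _ _ _ _ (Real.exp_pos _), ← Real.exp_mul, mul_assoc, h, mul_one, Complex.real_smul]

theorem EB_act {w : Fin 4 → ℝ} (hw : ∀ j, w j * D j = 1) (s : ℝ) (z : Fin 4 → ℂ) :
    EB D ph c S l (act w s z) = Real.exp s • EB D ph c S l z := by
  unfold EB
  rw [Complex.real_smul, mul_sub, Finset.mul_sum]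
  congr 1
  · exact Finset.sum_congr rfl fun j _ => pc_act (hw j) _ s z
  · rw [← Complex.ofReal_mul, Finset.mul_sum]
    congr 1
    refine Finset.sum_congr rfl fun e _ => ?_
    rw [HB_act _ (fun j _ => hw j)]
    ring

/-! ### straight lines -/

/-- the straight line from `E0` to `E1` is admissible -/
structure Seg (w : Fin 4 → ℝ) (E0 E1 : (Fin 4 → ℂ) → ℂ) : Prop where
  smooth0 : ContDiffOn ℝ 2 E0 {0}ᶜ
  smooth1 : ContDiffOn ℝ 2 E1 {0}ᶜ
  hom0 : ∀ (s : ℝ) (z : Fin 4 → ℂ), E0 (act w s z) = Real.exp s • E0 z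
  hom1 : ∀ (s : ℝ) (z : Fin 4 → ℂ), E1 (act w s z) = Real.exp s • E1 z
  axis : ∀ t ∈ Icc (0 : ℝ) 1, ∀ z : ℂ, z ≠ 0 →
    (1 - t : ℝ) * E0 (Pi.single 3 z) + (t : ℝ) * E1 (Pi.single 3 z) ≠ 0
  reg0 : ∀ (v : Fin 3) (u z : ℂ), u ≠ 0 → E0 (pl v u z) = 0 →
    ∀ c : ℂ, ∃ y : ℂ × ℂ, fderiv ℝ (fun q : ℂ × ℂ => E0 (pl v q.1 q.2)) (u, z) y = c
  alt : ∀ (v : Fin 3) (u z : ℂ), u ≠ 0 →
    (∀ᶠ q : ℂ × ℂ in 𝓝 (u, z), E1 (pl v q.1 q.2) = E0 (pl v q.1 q.2)) ∨
    ∀ t ∈ Icc (0 : ℝ) 1, (1 - t : ℝ) * E0 (pl v u z) + (t : ℝ) * E1 (pl v u z) ≠ 0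

/-- the straight line -/
def lin (E0 E1 : (Fin 4 → ℂ) → ℂ) (q : ℝ × (Fin 4 → ℂ)) : ℂ :=
  (1 - q.1 : ℝ) * E0 q.2 + (q.1 : ℝ) * E1 q.2

theorem Seg.rem {w : Fin 4 → ℝ} {E0 E1 : (Fin 4 → ℂ) → ℂ} (h : Seg w E0 E1) :
    Rem w univ (lin E0 E1) := by
  have hsm : ContDiffOn ℝ 2 (lin E0 E1) (univ ×ˢ {0}ᶜ) := by
    have h1 : ContDiff ℝ 2 fun q : ℝ × (Fin 4 → ℂ) => ((1 - q.1 : ℝ) : ℂ) :=
      Complex.ofRealCLM.contDiff.comp (contDiff_const.sub contDiff_fst)
    have h2 : ContDiff ℝ 2 fun q : ℝ × (Fin 4 → ℂ) => ((q.1 : ℝ) : ℂ) :=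
      Complex.ofRealCLM.contDiff.comp contDiff_fst
    exact (h1.contDiffOn.mul (h.smooth0.comp contDiff_snd.contDiffOn fun q hq => hq.2)).add
      (h2.contDiffOn.mul (h.smooth1.comp contDiff_snd.contDiffOn fun q hq => hq.2))
  refine ⟨hsm, fun t _ s x => ?_, fun t ht z hz => h.axis t ht z hz, ?_⟩
  · unfold lin
    simp only
    rw [h.hom0, h.hom1]
    simp only [Complex.real_smul]
    ring
  · intro t ht v u z hu hz
    refine reg_plane isOpen_univ hsm (mem_univ t) hu fun c' => ?_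
    rcases h.alt v u z hu with hev | hne
    · have e1 := hev.self_of_nhds
      have hz0 : E0 (pl v u z) = 0 := by
        have : lin E0 E1 (t, pl v u z) = E0 (pl v u z) := by
          unfold lin
          simp only at e1 ⊢
          rw [e1]
          push_cast
          ring
        rw [← this]
        exact hz
      obtain ⟨y, hy⟩ := h.reg0 v u z hu hz0 c'
      refine ⟨y, ?_⟩
      have hev2 : (fun q : ℂ × ℂ => lin E0 E1 (t, pl v q.1 q.2)) =ᶠ[𝓝 (u, z)]
          fun q : ℂ × ℂ => E0 (pl v q.1 q.2) := by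
        filter_upwards [hev] with q hq
        unfold lin
        simp only
        rw [hq]
        push_cast
        ring
      rw [hev2.fderiv_eq]
      exact hy
    · exact absurd hz (hne t ht)


/-! ### where `w` dominates -/



end Crest.Agent.R267.GamE_920
end
end

-- ▼ part R267/GamP_920
section

/-!
# S0406, hub step, C2 (helper920): `GamP b D`

`gamP : GamP b D` : the amalgam of arms in target form is equivalent to `F1 b D M` for `M ≫ 1`.
(b') is helper100's `GamM_100.move_core`; then a straight line of remainders at the symmetric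
weights: on the planes it is constant near the zeros (`Tgt`, first part), and has no zeros elsewhere
(`Tgt`, second part).
-/

set_option autoImplicit false
set_option linter.unusedSectionVars false

noncomputable section

open Set Filter Topology Metric Finset
open scoped ContDiff
open Crest.Agent.R267.Cone_808 Crest.Agent.R267.Hm_951 Crest.Agent.R267.Ang_739
open Crest.Agent.R267.T3aNDefs_88 (SD Box Hm)
open Crest.Agent.R267.GlNDefs_9
open Crest.Agent.R267.WordPh_9 Crest.Agent.R267.WordPh2_9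
open Crest.Agent.R267.HarmBox_920 Crest.Agent.R267.GamE_920
open Crest.Agent.R267.HubDefs_284
open Crest.Agent.R267.NdR_484 (Arm aw am)
open Crest.Agent.R267.Gam_100 (wt wt_pos pl pl_zero RemW Rem0 Core core_P3 P3 reg_plane gamW)
open Crest.Agent.R267.GamM_100 (Ps Ps_zero norm_Ps Ps_ne contDiffAt_Ps' ws wm wm_one ka ka_pos
  mem_T1_one Em Em_pl Em_axis Em_act contDiffOn_Em remEnd Pc ame move_core ws_sum ws_zero
  wm_one_pos pl_self pl_three pl_other)

namespace Crest.Agent.R267.GamP_920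

/-! ### the data of `EX` -/

theorem DS_gt (b : Bool) (j : Fin 4) : 2 < DS b j := by
  cases b <;> fin_cases j <;> simp [DS] <;> norm_num

theorem ws_DS (b : Bool) (j : Fin 4) : ws b j * DS b j = 1 := by
  cases b <;> fin_cases j <;> simp [DS, ws] <;> norm_num

theorem sn_pm (D : SD 4) (j : Fin 4) (l : ℕ) : D.sn j l = 1 ∨ D.sn j l = -1 := by
  unfold SD.sn
  split
  · exact Or.inr rfl
  · exact Or.inl rfl

theorem contDiff_pp (D : SD 4) (j : Fin 4) : ContDiff ℝ 2 (pp D j) := contDiff_wph (arcsE _)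

theorem per_pp (D : SD 4) (j : Fin 4) : Per fun x => cis (pp D j x) := by
  intro x
  obtain ⟨n, hn⟩ := exists_tot (sn_pm D j) (D.M j)
  show cis (pp D j (x + 2 * Real.pi)) = cis (pp D j x)
  unfold pp
  rw [wph_add, hn]
  exact cis_add_int_mul _ n

theorem contDiff_wnE (M lo hi : ℕ) : ContDiff ℝ 2 (wn (aE M) (bE M) lo hi) := by
  have hM : (0 : ℝ) < (M : ℝ) + 1 := by positivity
  have h : ∀ k : ℕ, ContDiff ℝ 2 (ps (bE M k) (aE M (k + 1))) := by
    intro k
    refine contDiff_ps ?_ ?_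
    · unfold aE bE
      refine div_lt_div_of_pos_right ?_ hM
      push_cast
      nlinarith [Real.pi_gt_three]
    · unfold aE bE
      rw [div_add' _ _ _ hM.ne']
      refine div_lt_div_of_pos_right ?_ hM
      push_cast
      have : 0 ≤ Real.pi * (M : ℝ) := by positivity
      nlinarith [Real.pi_gt_three]
  exact (h lo).sub (h hi)

theorem contDiff_ww (D : SD 4) (e : Fin D.nb) (j : Fin 4) : ContDiff ℝ 2 (ww D e j) :=
  contDiff_wnE _ _ _

theorem per_ww (D : SD 4) (e : Fin D.nb) (j : Fin 4) : Per (ww D e j) := by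
  intro x
  have := wn_add_int (aE (D.M j)) (bE (D.M j)) ((D.bx e).lo j) ((D.bx e).hi j) x 1
  simpa [ww] using this

theorem ebd (b : Bool) (D : SD 4) : EBD (DS b) (pp D) (fun e => (D.bx e).S) (ww D) where
  hD := DS_gt b
  ph2 := contDiff_pp D
  per := per_pp D
  ne := fun e => Finset.card_pos.1 (by have := D.h2 e; omega)
  lper := fun e j _ => per_ww D e j
  l2 := fun e j _ => contDiff_ww D e j

theorem EX_eq (b : Bool) (D : SD 4) : EX D (DS b) =
    EB (DS b) (pp D) (fun e => cd D e * cc D e) (fun e => (D.bx e).S) (ww D) := rfl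

theorem contDiff_EX (b : Bool) (D : SD 4) : ContDiff ℝ 2 (EX D (DS b)) := by
  rw [EX_eq]
  exact contDiff_EB (ebd b D) _

theorem EX_act (b : Bool) (D : SD 4) (s : ℝ) (z : Fin 4 → ℂ) :
    EX D (DS b) (act (ws b) s z) = Real.exp s • EX D (DS b) z := by
  rw [EX_eq]
  exact EB_act (ws_DS b) s z

/-- `EX` depends on the magnitudes and on the arguments only -/
theorem EX_congr (D : SD 4) {dg dg' : Fin 4 → ℝ} {z z' : Fin 4 → ℂ}
    (h : ∀ j, ‖z j‖ ^ dg j = ‖z' j‖ ^ dg' j) (ha : ∀ j, Complex.arg (z j) = Complex.arg (z' j)) :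
    EX D dg z = EX D dg' z' := by
  unfold EX own boxH
  congr 1
  · refine Finset.sum_congr rfl fun j _ => ?_
    unfold pc pol
    rw [h j, ha j]
  · congr 1
    refine Finset.sum_congr rfl fun e _ => ?_
    congr 1
    unfold HB
    rw [Hm_congr (R := rr dg z) (R' := rr dg' z') fun j _ => h j]
    congr 1
    exact Finset.prod_congr rfl fun j _ => by rw [ha j]

/-! ### the planes -/

theorem ka_D0 (b : Bool) (v : Fin 3) : ka b v 1 * D0 b v.castSucc = DS b v.castSucc := by
  unfold ka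
  rw [wm_one]
  cases b <;> fin_cases v <;> simp [DS, D0, wt, ws] <;> norm_num

theorem D0_three (b : Bool) : D0 b 3 = DS b 3 := by
  cases b <;> simp [D0, DS]

theorem D0_pos (b : Bool) (j : Fin 4) : 0 < D0 b j := by
  cases b <;> fin_cases j <;> simp [D0]

theorem arg_Ps {k : ℝ} (u : ℂ) : Complex.arg (Ps k u) = Complex.arg u := by
  by_cases hu : u = 0
  · rw [hu, Ps_zero]
  · unfold Ps
    exact Complex.arg_real_mul _ (Real.rpow_pos_of_pos (norm_pos_iff.2 hu) _)

theorem EX_pl (b : Bool) (D : SD 4) (v : Fin 3) (u z : ℂ) :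
    EX D (DS b) (pl v u z) = kX b D v (Ps (ka b v 1) u, z) := by
  have h3 : (3 : Fin 4) ≠ v.castSucc := (Fin.castSucc_lt_last v).ne'
  have p3 : pt v (Ps (ka b v 1) u, z) 3 = z := by
    unfold pt
    rw [Function.update_self]
  have pv : pt v (Ps (ka b v 1) u, z) v.castSucc = Ps (ka b v 1) u := by
    unfold pt
    rw [Function.update_of_ne h3.symm, Function.update_self]
  have po : ∀ v' : Fin 3, v' ≠ v → pt v (Ps (ka b v 1) u, z) v'.castSucc = 0 := by
    intro v' hv
    unfold pt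
    have h4 : (v'.castSucc : Fin 4) ≠ 3 := (Fin.castSucc_lt_last v').ne
    rw [Function.update_of_ne h4,
      Function.update_of_ne fun e => hv (Fin.castSucc_injective _ e)]
    rfl
  unfold kX
  refine EX_congr D (fun j => ?_) fun j => ?_
  · refine Fin.lastCases ?_ (fun v' => ?_) j
    · change ‖pl v u z 3‖ ^ DS b 3 = ‖pt v (Ps (ka b v 1) u, z) 3‖ ^ D0 b 3
      rw [pl_three, p3, D0_three]
    · by_cases hv : v' = v
      · subst hv
        rw [pl_self, pv, norm_Ps (ka_pos mem_T1_one), ← Real.rpow_mul (norm_nonneg _), ka_D0]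
      · rw [pl_other hv, po v' hv, norm_zero, Real.zero_rpow (D0_pos b _).ne',
          Real.zero_rpow (by linarith [DS_gt b v'.castSucc] : DS b v'.castSucc ≠ 0)]
  · refine Fin.lastCases ?_ (fun v' => ?_) j
    · change Complex.arg (pl v u z 3) = Complex.arg (pt v (Ps (ka b v 1) u, z) 3)
      rw [pl_three, p3]
    · by_cases hv : v' = v
      · subst hv
        rw [pl_self, pv, arg_Ps]
      · rw [pl_other hv, po v' hv]

/-! ### calculus on the planes -/

/-- the plane as a linear map -/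
def Lp (v : Fin 3) : ℂ × ℂ →L[ℝ] (Fin 4 → ℂ) :=
  (ContinuousLinearMap.single ℝ (fun _ : Fin 4 => ℂ) v.castSucc).comp
      (ContinuousLinearMap.fst ℝ ℂ ℂ) +
    (ContinuousLinearMap.single ℝ (fun _ : Fin 4 => ℂ) 3).comp (ContinuousLinearMap.snd ℝ ℂ ℂ)


theorem pl_ne {v : Fin 3} {u : ℂ} (hu : u ≠ 0) (z : ℂ) : pl v u z ≠ 0 := fun h => by
  have h1 := congrFun h v.castSucc
  rw [pl_self] at h1
  exact hu h1

theorem contDiffAt_plane {E : (Fin 4 → ℂ) → ℂ} (h : ContDiffOn ℝ 2 E {0}ᶜ) (v : Fin 3) {u : ℂ}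
    (hu : u ≠ 0) (z : ℂ) : ContDiffAt ℝ 2 (fun q : ℂ × ℂ => E (pl v q.1 q.2)) (u, z) := by
  have h1 : ContDiffAt ℝ 2 E (Lp v (u, z)) :=
    h.contDiffAt (isOpen_compl_singleton.mem_nhds (pl_ne hu z))
  exact h1.comp (u, z) (Lp v).contDiff.contDiffAt

/-- a function which vanishes for `|w|^a ≤ W |u|^k` has derivative zero there -/
theorem fderiv_zero_of_cone {G : ℂ × ℂ → ℂ} {W k : ℝ} {a : ℕ} (hW : 0 < W) (hk : 0 < k)
    (hG : ∀ u w : ℂ, u ≠ 0 → ContDiffAt ℝ 2 G (u, w))
    (h0 : ∀ u w : ℂ, u ≠ 0 → ‖w‖ ^ a ≤ W * ‖u‖ ^ k → G (u, w) = 0) {u w : ℂ} (hu : u ≠ 0)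
    (h : ‖w‖ ^ a ≤ W * ‖u‖ ^ k) : fderiv ℝ G (u, w) = 0 := by
  have hun : 0 < ‖u‖ := norm_pos_iff.2 hu
  have hc : ContinuousAt (fun r : ℝ => (((r : ℂ) * u, w) : ℂ × ℂ)) 1 := by fun_prop
  have hf : ContinuousAt (fderiv ℝ G) (u, w) :=
    ((hG u w hu).fderiv_right (m := 1) (by norm_num)).continuousAt
  have h1 : Tendsto (fun r : ℝ => fderiv ℝ G ((r : ℂ) * u, w)) (𝓝[>] 1)
      (𝓝 (fderiv ℝ G (u, w))) := by
    have h2 : ContinuousAt (fun r : ℝ => fderiv ℝ G ((r : ℂ) * u, w)) 1 := by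
      refine ContinuousAt.comp (g := fderiv ℝ G) (f := fun r : ℝ => (((r : ℂ) * u, w) : ℂ × ℂ))
        ?_ hc
      simpa using hf
    have h3 : Tendsto (fun r : ℝ => fderiv ℝ G ((r : ℂ) * u, w)) (𝓝 1)
        (𝓝 (fderiv ℝ G (u, w))) := by simpa [ContinuousAt] using h2
    exact h3.mono_left nhdsWithin_le_nhds
  have h2 : ∀ᶠ r : ℝ in 𝓝[>] 1, fderiv ℝ G ((r : ℂ) * u, w) = 0 := by
    filter_upwards [self_mem_nhdsWithin] with r hr
    have hr1 : (1 : ℝ) < r := hr
    have hr0 : 0 < r := by linarith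
    have hru : (r : ℂ) * u ≠ 0 := mul_ne_zero (by exact_mod_cast hr0.ne') hu
    have hlt : ‖w‖ ^ a < W * ‖(r : ℂ) * u‖ ^ k := by
      refine h.trans_lt (mul_lt_mul_of_pos_left ?_ hW)
      refine Real.rpow_lt_rpow hun.le ?_ hk
      rw [norm_mul, Complex.norm_real, Real.norm_eq_abs, abs_of_pos hr0]
      nlinarith
    have hev : G =ᶠ[𝓝 ((r : ℂ) * u, w)] fun _ => 0 := by
      have e1 : ∀ᶠ q : ℂ × ℂ in 𝓝 ((r : ℂ) * u, w), q.1 ≠ 0 :=
        continuousAt_fst.eventually_ne hru
      have e2 : ∀ᶠ q : ℂ × ℂ in 𝓝 ((r : ℂ) * u, w), ‖q.2‖ ^ a < W * ‖q.1‖ ^ k := by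
        have c1 : ContinuousAt (fun q : ℂ × ℂ => ‖q.2‖ ^ a) ((r : ℂ) * u, w) := by fun_prop
        have c2 : ContinuousAt (fun q : ℂ × ℂ => W * ‖q.1‖ ^ k) ((r : ℂ) * u, w) := by
          have c3 : ContinuousAt (fun q : ℂ × ℂ => ‖q.1‖) ((r : ℂ) * u, w) := by fun_prop
          exact continuousAt_const.mul (c3.rpow_const (Or.inr hk.le))
        exact c1.eventually_lt c2 hlt
      filter_upwards [e1, e2] with q hq1 hq2
      exact h0 q.1 q.2 hq1 hq2.le
    rw [hev.fderiv_eq]
    exact fderiv_const_apply _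
  exact tendsto_nhds_unique h1 (tendsto_const_nhds.congr' (h2.mono fun r hr => hr.symm))

/-! ### straight lines of remainders -/

/-- the straight line from `E0` to `E1` is admissible -/
structure Seg2 (w : Fin 4 → ℝ) (E0 E1 : (Fin 4 → ℂ) → ℂ) : Prop where
  smooth0 : ContDiffOn ℝ 2 E0 {0}ᶜ
  smooth1 : ContDiffOn ℝ 2 E1 {0}ᶜ
  hom0 : ∀ (s : ℝ) (z : Fin 4 → ℂ), E0 (act w s z) = Real.exp s • E0 z
  hom1 : ∀ (s : ℝ) (z : Fin 4 → ℂ), E1 (act w s z) = Real.exp s • E1 z
  axis : ∀ t ∈ Icc (0 : ℝ) 1, ∀ z : ℂ, z ≠ 0 →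
    (1 - t) • E0 (Pi.single 3 z) + t • E1 (Pi.single 3 z) ≠ 0
  reg0 : ∀ (v : Fin 3) (u z : ℂ), u ≠ 0 → E0 (pl v u z) = 0 →
    ∀ c : ℂ, ∃ y : ℂ × ℂ, fderiv ℝ (fun q : ℂ × ℂ => E0 (pl v q.1 q.2)) (u, z) y = c
  alt : ∀ (v : Fin 3) (u z : ℂ), u ≠ 0 →
    (E1 (pl v u z) = E0 (pl v u z) ∧
      fderiv ℝ (fun q : ℂ × ℂ => E1 (pl v q.1 q.2) - E0 (pl v q.1 q.2)) (u, z) = 0) ∨
    ∀ t ∈ Icc (0 : ℝ) 1, (1 - t) • E0 (pl v u z) + t • E1 (pl v u z) ≠ 0

theorem lin_eq (E0 E1 : (Fin 4 → ℂ) → ℂ) (t : ℝ) (x : Fin 4 → ℂ) :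
    lin E0 E1 (t, x) = (1 - t) • E0 x + t • E1 x := by
  unfold lin
  simp only [Complex.real_smul]

theorem Seg2.rem {w : Fin 4 → ℝ} {E0 E1 : (Fin 4 → ℂ) → ℂ} (h : Seg2 w E0 E1) :
    Gam_100.Rem w univ (lin E0 E1) := by
  have hsm : ContDiffOn ℝ 2 (lin E0 E1) (univ ×ˢ {0}ᶜ) := by
    have h1 : ContDiff ℝ 2 fun q : ℝ × (Fin 4 → ℂ) => ((1 - q.1 : ℝ) : ℂ) :=
      Complex.ofRealCLM.contDiff.comp (contDiff_const.sub contDiff_fst)
    have h2 : ContDiff ℝ 2 fun q : ℝ × (Fin 4 → ℂ) => ((q.1 : ℝ) : ℂ) :=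
      Complex.ofRealCLM.contDiff.comp contDiff_fst
    exact (h1.contDiffOn.mul (h.smooth0.comp contDiff_snd.contDiffOn fun q hq => hq.2)).add
      (h2.contDiffOn.mul (h.smooth1.comp contDiff_snd.contDiffOn fun q hq => hq.2))
  refine ⟨hsm, fun t _ s x => ?_, fun t ht z hz => ?_, ?_⟩
  · rw [lin_eq, lin_eq, h.hom0, h.hom1]
    simp only [Complex.real_smul]
    ring
  · rw [lin_eq]
    exact h.axis t ht z hz
  · intro t ht v u z hu hz
    refine reg_plane isOpen_univ hsm (mem_univ t) hu fun c' => ?_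
    rw [lin_eq] at hz
    rcases h.alt v u z hu with ⟨e1, hd⟩ | hne
    · have hz0 : E0 (pl v u z) = 0 := by
        rw [← hz, e1, ← add_smul]
        simp
      obtain ⟨y, hy⟩ := h.reg0 v u z hu hz0 c'
      refine ⟨y, ?_⟩
      have hE0 : DifferentiableAt ℝ (fun q : ℂ × ℂ => E0 (pl v q.1 q.2)) (u, z) :=
        (contDiffAt_plane h.smooth0 v hu z).differentiableAt (by norm_num)
      have hE1 : DifferentiableAt ℝ (fun q : ℂ × ℂ => E1 (pl v q.1 q.2)) (u, z) :=
        (contDiffAt_plane h.smooth1 v hu z).differentiableAt (by norm_num)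
      have e2 : (fun q : ℂ × ℂ => lin E0 E1 (t, pl v q.1 q.2)) = fun q : ℂ × ℂ =>
          E0 (pl v q.1 q.2) + t • (E1 (pl v q.1 q.2) - E0 (pl v q.1 q.2)) := by
        funext q
        rw [lin_eq]
        simp only [Complex.real_smul]
        push_cast
        ring
      have h0 : HasFDerivAt (fun q : ℂ × ℂ => E1 (pl v q.1 q.2) - E0 (pl v q.1 q.2))
          (0 : ℂ × ℂ →L[ℝ] ℂ) (u, z) := by
        rw [← hd]
        exact (hE1.fun_sub hE0).hasFDerivAt
      have h1 := (hE0.hasFDerivAt.fun_add (h0.const_smul t)).fderiv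
      rw [e2]
      refine (congrArg (fun l : ℂ × ℂ →L[ℝ] ℂ => l y) h1).trans ?_
      rw [smul_zero, add_zero]
      exact hy
    · exact absurd hz (hne t ht)

/-- coefficients of the cores -/
theorem core_eq (b : Bool) (t : ℝ) (s u : ℂ) :
    P3 b (fun _ => 1) (fun _ => bif b then 0 else 1) (fun _ => 1) (t, (s, u)) = core b s u := by
  cases b
  · simp only [P3, core, cond_false]
    ring
  · simp only [P3, core, cond_true]
    ring

theorem Pc_eq (b : Bool) (s u : ℂ) : Pc b s u = core b s u := by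
  cases b
  · simp only [Pc, core, cond_false]
    ring
  · simp only [Pc, core, cond_true]

/-- **the links of `M P + E0` and `M P + E1`.** -/
theorem zeq_seg2 (b : Bool) {E0 E1 : (Fin 4 → ℂ) → ℂ} (h : Seg2 (ws b) E0 E1) :
    ∃ M0 > 0, ∀ M : ℝ, M0 ≤ M →
    ZEq (fun p : Fin 4 → ℂ => (M : ℂ) * core b (p 0) (p 1 * p 2) + E0 p)
      (fun p : Fin 4 → ℂ => (M : ℂ) * core b (p 0) (p 1 * p 2) + E1 p) := by
  have hP := core_P3 b (m := fun _ => 1) (n := fun _ => bif b then 0 else 1) (k := fun _ => 1)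
    contDiff_const contDiff_const contDiff_const (fun _ _ => one_ne_zero)
    (fun hb _ _ => by rw [hb]; exact one_ne_zero) (fun hb _ _ => by rw [hb]; norm_num)
  obtain ⟨M0, hM0, H⟩ := gamW (wt_pos b) (w' := fun _ => ws b) (fun _ _ => wm_one_pos b)
    (fun _ _ => ws_zero b) (fun _ _ => ws_sum b) isOpen_univ (subset_univ _) hP h.rem.remW
  refine ⟨M0, hM0, fun M hM => ?_⟩
  have hl := (H (fun _ => M) contDiff_const fun _ _ => hM).link
  simp only [core_eq] at hl
  have e0 : (fun x : Fin 4 → ℂ => (M : ℂ) * core b (x 0) (x 1 * x 2) + lin E0 E1 (0, x)) =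
      fun p : Fin 4 → ℂ => (M : ℂ) * core b (p 0) (p 1 * p 2) + E0 p := by
    funext x
    simp [lin]
  have e1 : (fun x : Fin 4 → ℂ => (M : ℂ) * core b (x 0) (x 1 * x 2) + lin E0 E1 (1, x)) =
      fun p : Fin 4 → ℂ => (M : ℂ) * core b (p 0) (p 1 * p 2) + E1 p := by
    funext x
    simp [lin]
  rw [← e0, ← e1]
  exact hl

/-! ### the segment from the amalgam to `EX` -/

theorem seg (b : Bool) (D : SD 4) {A : Fin 3 → ℂ × ℂ → ℂ} (hA : ∀ v, Arm b v (A v))
    (hT : ∀ v, Tgt b D v (A v)) :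
    Seg2 (ws b) (fun p => Em b A (1, p)) (EX D (DS b)) := by
  have hsm0 : ContDiffOn ℝ 2 (fun p : Fin 4 → ℂ => Em b A (1, p)) {0}ᶜ := by
    have h1 : ContDiff ℝ 2 fun p : Fin 4 → ℂ => ((1 : ℝ), p) := by fun_prop
    exact (contDiffOn_Em hA).comp h1.contDiffOn fun q hq => ⟨mem_T1_one, hq⟩
  have hsm1 : ContDiffOn ℝ 2 (EX D (DS b)) {0}ᶜ := (contDiff_EX b D).contDiffOn
  refine ⟨hsm0, hsm1, fun s z => ?_, EX_act b D, fun t ht z hz => ?_, ?_, ?_⟩
  · have := Em_act hA mem_T1_one s z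
    rwa [wm_one] at this
  · obtain ⟨W1, hW1, -, h2⟩ := hT 0
    obtain ⟨W, -, hW⟩ := (hA 0).supp
    have hpos : W1 * ‖(0 : ℂ)‖ < ‖z‖ ^ aw b 0 := by
      rw [norm_zero, mul_zero]
      exact pow_pos (norm_pos_iff.2 hz) _
    have h3 := h2 0 z hpos t ht
    have h4 : A 0 (0, z) = 0 := by
      refine hW 0 0 z ?_
      rw [norm_zero, mul_zero]
      exact pow_nonneg (norm_nonneg _) _
    rw [h4, add_zero] at h3
    have e1 : Em b A (1, Pi.single 3 z) = z ^ 15 := Em_axis A mem_T1_one z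
    have e2 : EX D (DS b) (Pi.single 3 z) = kX b D 0 (0, z) := by
      rw [← pl_zero (0 : Fin 3) z, EX_pl, Ps_zero]
    show (1 - t) • Em b A (1, Pi.single 3 z) + t • EX D (DS b) (Pi.single 3 z) ≠ 0
    rw [e1, e2]
    exact h3
  · intro v u z hu h0 c
    obtain ⟨y1, y2, hy⟩ := (remEnd hA).reg 0 ⟨le_rfl, zero_le_one⟩ v u z hu h0 c
    refine ⟨(y1, y2), ?_⟩
    rw [← hy]
    have hne : pl v u z ≠ 0 := pl_ne hu z
    have hd : DifferentiableAt ℝ (fun q : ℝ × (Fin 4 → ℂ) => Em b A (1, q.2)) (0, pl v u z) := by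
      have h1 : ContDiff ℝ 2 fun q : ℝ × (Fin 4 → ℂ) => ((1 : ℝ), q.2) := by fun_prop
      have h2 : ContDiffOn ℝ 2 (fun q : ℝ × (Fin 4 → ℂ) => Em b A (1, q.2)) (univ ×ˢ {0}ᶜ) :=
        (contDiffOn_Em hA).comp h1.contDiffOn fun q hq => ⟨mem_T1_one, hq.2⟩
      have hmem : ((0 : ℝ), pl v u z) ∈ (univ : Set ℝ) ×ˢ ({0}ᶜ : Set (Fin 4 → ℂ)) :=
        ⟨mem_univ _, hne⟩
      exact (h2.contDiffAt ((isOpen_univ.prod isOpen_compl_singleton).mem_nhds
        hmem)).differentiableAt (by norm_num)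
    have h1 : HasFDerivAt (fun q : ℂ × ℂ => (((0 : ℝ), Lp v q) : ℝ × (Fin 4 → ℂ)))
        ((ContinuousLinearMap.inr ℝ ℝ (Fin 4 → ℂ)).comp (Lp v)) (u, z) :=
      HasFDerivAt.comp (g := fun x : Fin 4 → ℂ => ((0 : ℝ), x)) (f := Lp v) (u, z)
        (hasFDerivAt_prodMk_right 0 (Lp v (u, z))) (Lp v).hasFDerivAt
    have h2 := HasFDerivAt.comp (g := fun q : ℝ × (Fin 4 → ℂ) => Em b A (1, q.2))
      (f := fun q : ℂ × ℂ => (((0 : ℝ), Lp v q) : ℝ × (Fin 4 → ℂ))) (u, z) hd.hasFDerivAt h1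
    have h3 : fderiv ℝ (fun q : ℂ × ℂ => Em b A (1, pl v q.1 q.2)) (u, z) =
      (fderiv ℝ (fun q : ℝ × (Fin 4 → ℂ) => Em b A (1, q.2)) (0, pl v u z)).comp
        ((ContinuousLinearMap.inr ℝ ℝ (Fin 4 → ℂ)).comp (Lp v)) := h2.fderiv
    rw [h3]
    rfl
  · intro v u z hu
    obtain ⟨W1, hW1, hT1, hT2⟩ := hT v
    have hk : 0 < ka b v 1 := ka_pos mem_T1_one
    have key : ∀ u z : ℂ, u ≠ 0 → ‖z‖ ^ aw b v ≤ W1 * ‖u‖ ^ ka b v 1 →
        EX D (DS b) (pl v u z) = Em b A (1, pl v u z) := by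
      intro u z hu hle
      rw [Em_pl A mem_T1_one v hu, EX_pl]
      exact (hT1 _ _ (by rw [norm_Ps hk]; exact hle)).symm
    rcases le_or_gt (‖z‖ ^ aw b v) (W1 * ‖u‖ ^ ka b v 1) with hle | hlt
    · left
      refine ⟨key u z hu hle, ?_⟩
      refine fderiv_zero_of_cone (G := fun q : ℂ × ℂ => EX D (DS b) (pl v q.1 q.2) -
        Em b A (1, pl v q.1 q.2)) hW1 hk (fun u w hu => ?_) (fun u w hu hle => ?_) hu hle
      · exact (contDiffAt_plane hsm1 v hu w).sub (contDiffAt_plane hsm0 v hu w)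
      · exact sub_eq_zero.2 (key u w hu hle)
    · right
      intro t ht
      show (1 - t) • Em b A (1, pl v u z) + t • EX D (DS b) (pl v u z) ≠ 0
      rw [Em_pl A mem_T1_one v hu, EX_pl]
      exact hT2 _ _ (by rw [norm_Ps hk]; exact hlt) t ht

/-- **C2**: the amalgam of arms in target form is equivalent to `F1 b D M`. -/
theorem gamP (b : Bool) (D : SD 4) : GamP b D := by
  intro A hA hT
  obtain ⟨M1, -, H1⟩ := move_core b hA
  obtain ⟨M2, -, H2⟩ := zeq_seg2 b (seg b D hA hT)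
  refine ⟨max M1 M2, fun M hM => ?_⟩
  have h1 := H1 M ((le_max_left _ _).trans hM)
  have h2 := H2 M ((le_max_right _ _).trans hM)
  have e : ame b M A = fun p : Fin 4 → ℂ => (M : ℂ) * core b (p 0) (p 1 * p 2) +
      Em b A (1, p) := by
    funext p
    unfold ame
    rw [Pc_eq]
  rw [e] at h1
  exact h1.trans h2

end Crest.Agent.R267.GamP_920
end
end

-- ▼ part R267/PowC_315
section

/-!
# Row 267 (helper315): power change `z i ↦ ‖z i‖ ^ (κ i - 1) z i` (arrow C3 (i))

`pw κ` is a homeomorphism of `ι → ℂ` (`0 < κ i`), equivariant for the weights `w`, `κ w`;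
`ag`, `mag`, `PF` transform by `E ↦ κ E`; `zeq_pow : ZEq G (G ∘ pw κ)`.
-/

set_option autoImplicit false
set_option linter.unusedSectionVars false

noncomputable section

open Set Filter Topology Metric
open scoped ContDiff
open Crest.Agent.R267.Cone_808 Crest.Agent.R267.SphReg_808 Crest.Agent.R267.Hm_951
open Crest.Agent.R267.PolF_943

namespace Crest.Agent.R267.PowC_315

variable {ι : Type} [Fintype ι] [DecidableEq ι]

/-- planar power change -/
def pw1 (k : ℝ) (z : ℂ) : ℂ := ((‖z‖ ^ (k - 1) : ℝ) : ℂ) * z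

/-- power change in every variable -/
def pw (κ : ι → ℝ) (z : ι → ℂ) : ι → ℂ := fun i => pw1 (κ i) (z i)

@[simp] theorem pw1_zero (k : ℝ) : pw1 k 0 = 0 := by simp [pw1]

theorem norm_pw1 {k : ℝ} (hk : 0 < k) (z : ℂ) : ‖pw1 k z‖ = ‖z‖ ^ k := by
  by_cases hz : z = 0
  · subst hz
    rw [pw1_zero, norm_zero, Real.zero_rpow hk.ne']
  · have h : 0 < ‖z‖ := norm_pos_iff.2 hz
    rw [pw1, norm_mul, Complex.norm_real, Real.norm_of_nonneg (Real.rpow_nonneg h.le _)]
    calc ‖z‖ ^ (k - 1) * ‖z‖ = ‖z‖ ^ (k - 1) * ‖z‖ ^ (1 : ℝ) := by rw [Real.rpow_one]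
      _ = ‖z‖ ^ k := by rw [← Real.rpow_add h]; congr 1; ring

theorem arg_pw1 (k : ℝ) (z : ℂ) : (pw1 k z).arg = z.arg := by
  by_cases hz : z = 0
  · subst hz; simp
  · rw [pw1]
    exact Complex.arg_real_mul _ (Real.rpow_pos_of_pos (norm_pos_iff.2 hz) _)


theorem pw1_pw1 {k l : ℝ} (hk : 0 < k) (hkl : k * l = 1) (z : ℂ) : pw1 l (pw1 k z) = z := by
  by_cases hz : z = 0
  · subst hz; simp
  · have h : 0 < ‖z‖ := norm_pos_iff.2 hz
    have e : pw1 l (pw1 k z) = (((‖z‖ ^ k) ^ (l - 1) * ‖z‖ ^ (k - 1) : ℝ) : ℂ) * z := by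
      rw [pw1, norm_pw1 hk, pw1]
      push_cast
      ring
    have e2 : (‖z‖ ^ k) ^ (l - 1) * ‖z‖ ^ (k - 1) = 1 := by
      rw [← Real.rpow_mul h.le, ← Real.rpow_add h]
      have : k * (l - 1) + (k - 1) = 0 := by linear_combination hkl
      rw [this, Real.rpow_zero]
    rw [e, e2, Complex.ofReal_one, one_mul]

theorem continuous_pw1 {k : ℝ} (hk : 0 < k) : Continuous (pw1 k) := by
  rw [continuous_iff_continuousAt]
  intro z
  by_cases hz : z = 0
  · subst hz
    rw [ContinuousAt, pw1_zero, tendsto_zero_iff_norm_tendsto_zero]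
    have h1 : Continuous fun z : ℂ => ‖z‖ ^ k :=
      continuous_norm.rpow_const fun _ => Or.inr hk.le
    have h2 := h1.tendsto (0 : ℂ)
    rw [norm_zero, Real.zero_rpow hk.ne'] at h2
    exact h2.congr fun z => (norm_pw1 hk z).symm
  · have h1 : ContinuousAt (fun z : ℂ => ‖z‖ ^ (k - 1)) z :=
      continuous_norm.continuousAt.rpow_const (Or.inl (norm_ne_zero_iff.2 hz))
    exact (Complex.continuous_ofReal.continuousAt.comp h1).mul continuousAt_id

theorem pw1_smul {k : ℝ} {r : ℝ} (hr : 0 < r) (z : ℂ) :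
    pw1 k ((r : ℂ) * z) = ((r ^ k : ℝ) : ℂ) * pw1 k z := by
  by_cases hz : z = 0
  · subst hz; simp
  · have h : 0 < ‖z‖ := norm_pos_iff.2 hz
    rw [pw1, pw1, norm_mul, Complex.norm_real, Real.norm_of_nonneg hr.le,
      Real.mul_rpow hr.le h.le]
    have e : r ^ k = r ^ (k - 1) * r := by
      calc r ^ k = r ^ (k - 1 + 1) := by congr 1; ring
        _ = r ^ (k - 1) * r := by rw [Real.rpow_add hr, Real.rpow_one]
    rw [e]
    push_cast
    ring

/-- **the power change as a homeomorphism** -/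
def pwH (κ : ι → ℝ) (hκ : ∀ i, 0 < κ i) : (ι → ℂ) ≃ₜ (ι → ℂ) where
  toFun := pw κ
  invFun := pw fun i => (κ i)⁻¹
  left_inv z := by
    funext i
    exact pw1_pw1 (hκ i) (mul_inv_cancel₀ (hκ i).ne') (z i)
  right_inv z := by
    funext i
    exact pw1_pw1 (inv_pos.2 (hκ i)) (inv_mul_cancel₀ (hκ i).ne') (z i)
  continuous_toFun := continuous_pi fun i => (continuous_pw1 (hκ i)).comp (continuous_apply i)
  continuous_invFun := continuous_pi fun i =>
    (continuous_pw1 (inv_pos.2 (hκ i))).comp (continuous_apply i)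

@[simp] theorem pwH_apply (κ : ι → ℝ) (hκ : ∀ i, 0 < κ i) (z : ι → ℂ) :
    pwH κ hκ z = pw κ z := rfl

theorem pw_act {κ : ι → ℝ} (hκ : ∀ i, 0 < κ i) (w : ι → ℝ) (s : ℝ) (z : ι → ℂ) :
    pw κ (act w s z) = act (fun i => κ i * w i) s (pw κ z) := by
  funext i
  show pw1 (κ i) ((Real.exp (s * w i) : ℂ) * z i) = (Real.exp (s * (κ i * w i)) : ℂ) * pw1 (κ i) (z i)
  rw [pw1_smul (Real.exp_pos _), ← Real.exp_mul]
  congr 3
  ring


theorem norm_pw {κ : ι → ℝ} (hκ : ∀ i, 0 < κ i) (z : ι → ℂ) (i : ι) :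
    ‖pw κ z i‖ = ‖z i‖ ^ κ i := norm_pw1 (hκ i) _




/-- **power change**: any function whose zero set is invariant under a weight action. -/
theorem zeq_pow {κ : ι → ℝ} (hκ : ∀ i, 0 < κ i) {w : ι → ℝ} (hw : ∀ i, 0 < w i)
    {G : (ι → ℂ) → ℂ} (hG : ∀ (s : ℝ) x, G x = 0 → G (act w s x) = 0) :
    ZEq G fun z => G (pw κ z) := by
  refine (zeq_of_equiv (w := fun i => w i / κ i) (w' := w) (fun i => div_pos (hw i) (hκ i)) hw hG
    (pwH κ hκ) (fun s x => ?_) fun x => Iff.rfl).symm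
  rw [pwH_apply, pwH_apply, pw_act hκ]
  congr 1
  funext i
  have := (hκ i).ne'
  field_simp

/-- the same for a weighted homogeneous function -/
theorem zeq_pow' {κ : ι → ℝ} (hκ : ∀ i, 0 < κ i) {w : ι → ℝ} (hw : ∀ i, 0 < w i)
    {G : (ι → ℂ) → ℂ} (hG : ∀ (s : ℝ) x, G (act w s x) = Real.exp s • G x) :
    ZEq G fun z => G (pw κ z) :=
  zeq_pow hκ hw fun s x hx => by rw [hG, hx, smul_zero]

end Crest.Agent.R267.PowC_315
end
end

-- ▼ part R267/PowP_920
section

/-!
# S0406, hub step, C3a (helper920): `PowP b D`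

`F2 b D M = F1 b D M ∘ (z ↦ z |z|²)` (`F2_eq`), and helper315's `zeq_pow'`.
-/

set_option autoImplicit false
set_option linter.unusedSectionVars false

noncomputable section

open Set Filter Topology Metric Finset
open scoped ContDiff
open Crest.Agent.R267.Cone_808 Crest.Agent.R267.Hm_951 Crest.Agent.R267.Ang_739
open Crest.Agent.R267.T3aNDefs_88 (SD Box Hm)
open Crest.Agent.R267.GlNDefs_9
open Crest.Agent.R267.HubDefs_284 Crest.Agent.R267.PowC_315
open Crest.Agent.R267.PolF_943 (mag ag PM PF)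
open Crest.Agent.R267.StairFn_739 Crest.Agent.R267.NdR_484
open Crest.Agent.R267.GamM_100 (ws core_ws ws_sum ws_zero wm_one_pos)
open Crest.Agent.R267.Gam_100 (core_P3 P3 P3s P3u Core)
open Crest.Agent.R267.GamP_920 (EX_act EX_congr core_eq)

namespace Crest.Agent.R267.PowP_920

theorem cis_add' (x y : ℝ) : cis (x + y) = cis x * cis y := by
  unfold cis
  rw [← Complex.exp_add]
  congr 1
  push_cast
  ring

theorem cis_nat_mul (n : ℕ) (x : ℝ) : cis (n * x) = cis x ^ n := by
  unfold cis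
  rw [← Complex.exp_nat_mul]
  congr 1
  push_cast
  ring

/-- powers of the power change -/
theorem pw1_pow (z : ℂ) (n : ℕ) :
    pw1 3 z ^ n = ((‖z‖ ^ (3 * (n : ℝ)) : ℝ) : ℂ) * cis (n * z.arg) := by
  by_cases hz : z = 0
  · subst hz
    rcases n with _ | n
    · simp [cis]
    · rw [pw1_zero, zero_pow (Nat.succ_ne_zero n), norm_zero, Real.zero_rpow (by positivity)]
      simp
  · have h0 : 0 < ‖z‖ := norm_pos_iff.2 hz
    have e1 : z = ((‖z‖ : ℝ) : ℂ) * cis z.arg := (Complex.norm_mul_exp_arg_mul_I z).symm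
    have e2 : pw1 3 z = ((‖z‖ ^ (3 : ℝ) : ℝ) : ℂ) * cis z.arg := by
      unfold pw1
      nth_rewrite 2 [e1]
      rw [← mul_assoc, ← Complex.ofReal_mul]
      congr 2
      nth_rewrite 2 [← Real.rpow_one ‖z‖]
      rw [← Real.rpow_add h0]
      norm_num
    rw [e2, mul_pow, ← Complex.ofReal_pow, ← Real.rpow_mul_natCast h0.le, cis_nat_mul]

/-- monomials after the power change -/
theorem mono_pw (v : Fin 4 → ℕ) (z : Fin 4 → ℂ) :
    ∏ j, pw (fun _ => 3) z j ^ v j =
      ((mag (fun j => 3 * (v j : ℝ)) z : ℝ) : ℂ) * cis (∑ j, v j * ag z j) := by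
  simp only [pw, pw1_pow, mag, ag, Fin.prod_univ_four, Fin.sum_univ_four, cis_add']
  push_cast
  ring

/-- the core after the power change -/
theorem core_pw (b : Bool) (z : Fin 4 → ℂ) :
    core b (pw (fun _ => 3) z 0) (pw (fun _ => 3) z 1 * pw (fun _ => 3) z 2) =
      ∏ j, pw (fun _ => 3) z j ^ vc b 0 j + ∏ j, pw (fun _ => 3) z j ^ vc b 1 j := by
  cases b
  · simp [core, vc, Fin.prod_univ_four]
    ring
  · simp [core, vc, Fin.prod_univ_four]
    ring

theorem mag_single (i : Fin 4) (d : ℝ) (z : Fin 4 → ℂ) : mag (Pi.single i d) z = ‖z i‖ ^ d := by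
  unfold mag
  rw [Finset.prod_eq_single i]
  · rw [Pi.single_eq_same]
  · intro j _ hj
    rw [Pi.single_eq_of_ne hj, Real.rpow_zero]
  · intro h
    exact absurd (Finset.mem_univ i) h

theorem box_eq (b : Bool) (D : SD 4) (e : Fin D.nb) (z : Fin 4 → ℂ) :
    mag (fun j => if j ∈ (D.bx e).S then D3 b j / cd D e else 0) z *
      ∏ j, (if j ∈ (D.bx e).S then ww D e j else fun _ => 1) (ag z j) =
    ∏ j ∈ (D.bx e).S, pol (D3 b j / cd D e) (ww D e j) (z j) := by
  unfold mag
  rw [← Finset.prod_mul_distrib, ← Finset.prod_subset (Finset.subset_univ (D.bx e).S)]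
  · refine Finset.prod_congr rfl fun j hj => ?_
    simp only [if_pos hj]
    rfl
  · intro j _ hj
    simp only [if_neg hj, Real.rpow_zero, one_mul]

/-- **stage 2 is stage 1 after the power change** -/
theorem F2_eq (b : Bool) (D : SD 4) (M : ℝ) (z : Fin 4 → ℂ) :
    F2 b D M z = F1 b D M (pw (fun _ => 3) z) := by
  have h3 : ∀ _ : Fin 4, (0 : ℝ) < 3 := fun _ => by norm_num
  have hE : EX D (DS b) (pw (fun _ => 3) z) = EX D (D3 b) z := by
    refine EX_congr D (fun j => ?_) fun j => arg_pw1 _ _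
    rw [norm_pw h3, ← Real.rpow_mul (norm_nonneg _)]
    rfl
  have hF : Fs b D Gs (fun _ => 0) (fun _ _ => M) (fun _ _ => M) (0, z) =
      own D (D3 b) z + ((M : ℂ) * ∏ j, pw (fun _ => 3) z j ^ vc b 0 j +
        (M : ℂ) * ∏ j, pw (fun _ => 3) z j ^ vc b 1 j) - (boxP D (D3 b) z : ℂ) := by
    unfold Fs PF
    rw [Fintype.sum_sum_type, Fintype.sum_sum_type, sub_eq_add_neg, add_assoc]
    congr 1
    · unfold own
      refine Finset.sum_congr rfl fun i _ => ?_
      show ((mag (Pi.single i (D3 b i)) z : ℝ) : ℂ) * cis (pp D i (ag z i)) = _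
      rw [mag_single]
      unfold pc pol
      simp only [Complex.real_smul, Complex.ofReal_one, one_mul]
      rfl
    · congr 1
      · have hk : ∀ k : Fin 2, PM ((HX b D Gs (fun _ _ => M) fun _ _ => M).E (Sum.inr (Sum.inl k)))
            (CC b D Gs (fun _ => 0) (fun _ _ => M) (fun _ _ => M) (Sum.inr (Sum.inl k))) (0, z) =
            (M : ℂ) * ∏ j, pw (fun _ => 3) z j ^ vc b k j := by
          intro k
          rw [mono_pw]
          show ((mag (fun j => 3 * (vc b k j : ℝ)) z : ℝ) : ℂ) *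
            (((if k = 0 then M else M : ℝ) : ℂ) *
              cis ((1 - (0 : ℝ)) * (∑ i, (vc b k i : ℝ) * ag z i) + (0 : ℝ) * _)) = _
          rw [ite_self, sub_zero, one_mul, zero_mul, add_zero]
          ring
        rw [Fin.sum_univ_two, hk, hk]
      · unfold boxP
        rw [Complex.ofReal_sum, ← Finset.sum_neg_distrib]
        refine Finset.sum_congr rfl fun e _ => ?_
        show ((mag (fun j => if j ∈ (D.bx e).S then D3 b j / cd D e else 0) z : ℝ) : ℂ) *
          -((cc D e * ∏ j, (if j ∈ (D.bx e).S then ww D e j else fun _ => 1) (ag z j) : ℝ) : ℂ) = _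
        rw [← box_eq b D e z]
        push_cast
        ring
  unfold F2 F1
  rw [hF, hE, core_pw]
  unfold EX
  push_cast
  ring

theorem F1_act (b : Bool) (D : SD 4) (M s : ℝ) (z : Fin 4 → ℂ) :
    F1 b D M (act (ws b) s z) = Real.exp s • F1 b D M z := by
  have hP := core_ws (core_P3 b (m := fun _ => 1) (n := fun _ => bif b then 0 else 1)
    (k := fun _ => 1) contDiff_const contDiff_const contDiff_const (fun _ _ => one_ne_zero)
    (fun hb _ _ => by rw [hb]; exact one_ne_zero) (fun hb _ _ => by rw [hb]; norm_num))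
    (ws_zero b) (ws_sum b)
  have h := hP.hom 0 ⟨le_rfl, zero_le_one⟩ s (z 0) (z 1 * z 2)
  rw [core_eq, core_eq] at h
  have e : act (ws b) s z 1 * act (ws b) s z 2 =
      (((Real.exp (s * ws b 1) : ℝ) : ℂ) * ((Real.exp (s * ws b 2) : ℝ) : ℂ)) * (z 1 * z 2) := by
    unfold act
    ring
  unfold F1
  rw [EX_act, e, smul_add]
  congr 1
  rw [show act (ws b) s z 0 = ((Real.exp (s * ws b 0) : ℝ) : ℂ) * z 0 from rfl, h, mul_smul_comm]

/-- **C3a, power change** -/
theorem powP (b : Bool) (D : SD 4) : PowP b D := by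
  intro M
  have h := zeq_pow' (κ := fun _ : Fin 4 => (3 : ℝ)) (fun _ => by norm_num) (wm_one_pos b)
    (F1_act b D M)
  have e : F2 b D M = fun z => F1 b D M (pw (fun _ => 3) z) := funext (F2_eq b D M)
  rw [e]
  exact h

end Crest.Agent.R267.PowP_920
end
end

-- ▼ part R267/MixBox_896
section

/-!
# S0406, T3N hub step (C3): harmonic and geometric boxes as functions of the radii (helper896)

`Ht S r = Hm S |r|`, `Gt S r = ∏ |r j|^{1/|S|}` and their radial derivatives `Hn S i r`, `Gn S i r`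
(Euler derivative in the variable `i`): continuous on the whole space, homogeneous, `∑ i = value`,
and the box is larger than `c |S| min r` ... at its smallest radius (`Hn_min`, `Gn_min`).
-/

set_option autoImplicit false
set_option linter.unusedSectionVars false

noncomputable section

open Set Filter Topology Finset
open Crest.Agent.R267.T3aNDefs_88 (Hm)
open Crest.Agent.R267.HarmBox_920

namespace Crest.Agent.R267.MixBox_896

variable {ι : Type} [Fintype ι] [DecidableEq ι]

/-- harmonic box. -/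
def Ht (S : Finset ι) (r : ι → ℝ) : ℝ := Hm S fun j => |r j|

/-- geometric box. -/
def Gt (S : Finset ι) (r : ι → ℝ) : ℝ := ∏ j ∈ S, |r j| ^ (1 / (S.card : ℝ))

/-- Euler derivative of the harmonic box. -/
def Hn (S : Finset ι) (i : ι) (r : ι → ℝ) : ℝ := if i ∈ S then Ht S r ^ 2 / |r i| else 0

/-- Euler derivative of the geometric box. -/
def Gn (S : Finset ι) (i : ι) (r : ι → ℝ) : ℝ := if i ∈ S then Gt S r / (S.card : ℝ) else 0

variable {S : Finset ι} {r : ι → ℝ}

theorem Ht_of_pos (h : ∀ j ∈ S, 0 < |r j|) : Ht S r = 1 / ∑ j ∈ S, 1 / |r j| := by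
  classical
  exact if_pos h

theorem Ht_zero {j : ι} (hj : j ∈ S) (h : r j = 0) : Ht S r = 0 :=
  Hm_zero hj (by rw [h]; simp)

theorem Ht_nonneg : 0 ≤ Ht S r := Hm_nonneg _ _


theorem Ht_le {j : ι} (hj : j ∈ S) : Ht S r ≤ |r j| := Hm_le hj (abs_nonneg _)

theorem Gt_nonneg : 0 ≤ Gt S r := prod_nonneg fun _ _ => Real.rpow_nonneg (abs_nonneg _) _

theorem Gt_zero {j : ι} (hj : j ∈ S) (h : r j = 0) : Gt S r = 0 := by
  refine prod_eq_zero hj ?_
  rw [h, abs_zero, Real.zero_rpow]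
  have : 0 < S.card := card_pos.2 ⟨j, hj⟩
  have : (0 : ℝ) < S.card := by exact_mod_cast this
  positivity

theorem Hn_nonneg (i : ι) : 0 ≤ Hn S i r := by
  unfold Hn
  split_ifs
  · positivity
  · exact le_rfl

theorem Gn_nonneg (i : ι) : 0 ≤ Gn S i r := by
  unfold Gn
  split_ifs
  · exact div_nonneg Gt_nonneg (Nat.cast_nonneg _)
  · exact le_rfl

theorem Hn_le (i : ι) : Hn S i r ≤ Ht S r := by
  unfold Hn
  split_ifs with hi
  · rcases (abs_nonneg (r i)).eq_or_lt with h | h
    · rw [← h, div_zero]; exact Ht_nonneg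
    · rw [div_le_iff₀ h, sq]
      exact mul_le_mul_of_nonneg_left (Ht_le hi) Ht_nonneg
  · exact Ht_nonneg

/-- a box and its derivatives vanish where a radius vanishes. -/
theorem Hn_zero {j : ι} (hj : j ∈ S) (h : r j = 0) (i : ι) : Hn S i r = 0 := by
  refine le_antisymm ?_ (Hn_nonneg i)
  rw [← Ht_zero hj h]
  exact Hn_le i

theorem Gn_zero {j : ι} (hj : j ∈ S) (h : r j = 0) (i : ι) : Gn S i r = 0 := by
  unfold Gn
  split_ifs
  · rw [Gt_zero hj h, zero_div]
  · rfl

theorem sum_Hn (hS : S.Nonempty) : ∑ i, Hn S i r = Ht S r := by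
  unfold Hn
  rw [← sum_filter, filter_mem_eq_inter, Finset.univ_inter]
  by_cases h : ∀ j ∈ S, 0 < |r j|
  · have h1 : 0 < ∑ j ∈ S, 1 / |r j| := sum_pos (fun j hj => one_div_pos.2 (h j hj)) hS
    have h2 : ∑ i ∈ S, Ht S r ^ 2 / |r i| = Ht S r ^ 2 * ∑ j ∈ S, 1 / |r j| := by
      rw [mul_sum]
      exact sum_congr rfl fun j _ => by ring
    rw [h2, Ht_of_pos h]
    field_simp
  · push Not at h
    obtain ⟨j, hj, h⟩ := h
    have hj0 : r j = 0 := abs_eq_zero.1 (le_antisymm h (abs_nonneg _))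
    rw [Ht_zero hj hj0]
    simp

theorem sum_Gn (hS : S.Nonempty) : ∑ i, Gn S i r = Gt S r := by
  unfold Gn
  rw [← sum_filter, filter_mem_eq_inter, Finset.univ_inter, sum_const, nsmul_eq_mul]
  have : (0 : ℝ) < S.card := by exact_mod_cast card_pos.2 hS
  field_simp

/-- at the smallest radius. -/
theorem Hn_min (hS : S.Nonempty) (h : ∀ j ∈ S, 0 < |r j|) {i : ι} (hi : i ∈ S)
    (hm : ∀ j ∈ S, |r i| ≤ |r j|) : |r i| ≤ (S.card : ℝ) ^ 2 * Hn S i r := by
  have hc : (0 : ℝ) < S.card := by exact_mod_cast card_pos.2 hS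
  have h0 := h i hi
  have h1 : 0 < ∑ j ∈ S, 1 / |r j| := sum_pos (fun j hj => one_div_pos.2 (h j hj)) hS
  have h2 : ∑ j ∈ S, 1 / |r j| ≤ S.card / |r i| := by
    calc ∑ j ∈ S, 1 / |r j| ≤ ∑ _j ∈ S, 1 / |r i| :=
          sum_le_sum fun j hj => one_div_le_one_div_of_le h0 (hm j hj)
      _ = S.card / |r i| := by rw [sum_const, nsmul_eq_mul]; ring
  have h3 : |r i| ≤ S.card * Ht S r := by
    rw [Ht_of_pos h, mul_one_div, le_div_iff₀ h1]
    calc |r i| * ∑ j ∈ S, 1 / |r j| ≤ |r i| * (S.card / |r i|) :=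
          mul_le_mul_of_nonneg_left h2 h0.le
      _ = S.card := by field_simp
  unfold Hn
  rw [if_pos hi, mul_div_assoc', le_div_iff₀ h0]
  calc |r i| * |r i| ≤ (S.card * Ht S r) * (S.card * Ht S r) :=
        mul_le_mul h3 h3 h0.le (mul_nonneg hc.le Ht_nonneg)
    _ = _ := by ring

theorem Gn_min (hS : S.Nonempty) {i : ι} (hi : i ∈ S) (hm : ∀ j ∈ S, |r i| ≤ |r j|) :
    |r i| ≤ (S.card : ℝ) * Gn S i r := by
  have hc : (0 : ℝ) < S.card := by exact_mod_cast card_pos.2 hS
  have h1 : ∏ j ∈ S, |r i| ^ (1 / (S.card : ℝ)) ≤ Gt S r :=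
    prod_le_prod (fun j _ => Real.rpow_nonneg (abs_nonneg _) _)
      fun j hj => Real.rpow_le_rpow (abs_nonneg _) (hm j hj) (by positivity)
  rw [prod_const, ← Real.rpow_mul_natCast (abs_nonneg _), one_div_mul_cancel hc.ne',
    Real.rpow_one] at h1
  unfold Gn
  rw [if_pos hi]
  calc |r i| ≤ Gt S r := h1
    _ = _ := by field_simp

/-! ### homogeneity -/

theorem Ht_smul {c : ℝ} (hc : 0 < c) : Ht S (c • r) = c * Ht S r := by
  unfold Ht
  have : (fun j => |(c • r) j|) = fun j => c * |r j| := by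
    funext j
    rw [Pi.smul_apply, smul_eq_mul, abs_mul, abs_of_pos hc]
  rw [this, Hm_smul hc]

theorem Gt_smul (hS : S.Nonempty) {c : ℝ} (hc : 0 < c) : Gt S (c • r) = c * Gt S r := by
  have hcard : (0 : ℝ) < S.card := by exact_mod_cast card_pos.2 hS
  unfold Gt
  have : ∀ j ∈ S, |(c • r) j| ^ (1 / (S.card : ℝ)) =
      c ^ (1 / (S.card : ℝ)) * |r j| ^ (1 / (S.card : ℝ)) := by
    intro j _
    rw [Pi.smul_apply, smul_eq_mul, abs_mul, abs_of_pos hc, Real.mul_rpow hc.le (abs_nonneg _)]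
  rw [prod_congr rfl this, prod_mul_distrib, prod_const, ← Real.rpow_mul_natCast hc.le,
    one_div_mul_cancel hcard.ne', Real.rpow_one]

theorem Hn_smul {c : ℝ} (hc : 0 < c) (i : ι) : Hn S i (c • r) = c * Hn S i r := by
  unfold Hn
  split_ifs
  · rw [Ht_smul hc, Pi.smul_apply, smul_eq_mul, abs_mul, abs_of_pos hc]
    rcases eq_or_ne |r i| 0 with h | h
    · rw [h]; simp
    · field_simp
  · ring

theorem Gn_smul (hS : S.Nonempty) {c : ℝ} (hc : 0 < c) (i : ι) : Gn S i (c • r) = c * Gn S i r := by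
  unfold Gn
  split_ifs
  · rw [Gt_smul hS hc]; ring
  · ring

/-! ### continuity -/

theorem tendsto_zero_of {f : (ι → ℝ) → ℝ} {r : ι → ℝ} {j : ι} (h0 : ∀ x, 0 ≤ f x)
    (h1 : ∀ x, f x ≤ |x j|) (hr : r j = 0) : Tendsto f (𝓝 r) (𝓝 0) := by
  refine tendsto_of_tendsto_of_tendsto_of_le_of_le tendsto_const_nhds ?_ h0 h1
  have : Tendsto (fun x : ι → ℝ => |x j|) (𝓝 r) (𝓝 |r j|) :=
    (continuous_abs.comp (continuous_apply j)).continuousAt
  rwa [hr, abs_zero] at this

theorem continuousAt_Ht_pos (hS : S.Nonempty) (h : ∀ j ∈ S, 0 < |r j|) :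
    ContinuousAt (Ht S) r := by
  have h1 : ∀ᶠ x : ι → ℝ in 𝓝 r, ∀ j ∈ S, 0 < |x j| := by
    refine (eventually_all_finset S).2 fun j hj => ?_
    exact (continuous_abs.comp (continuous_apply j)).continuousAt.eventually
      (lt_mem_nhds (h j hj))
  have h2 : ContinuousAt (fun x : ι → ℝ => 1 / ∑ j ∈ S, 1 / |x j|) r := by
    refine continuousAt_const.div ?_ (sum_pos (fun j hj => one_div_pos.2 (h j hj)) hS).ne'
    refine tendsto_finsetSum _ fun j hj => ?_
    exact continuousAt_const.div (continuous_abs.comp (continuous_apply j)).continuousAt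
      (h j hj).ne'
  refine h2.congr ?_
  filter_upwards [h1] with x hx
  exact (Ht_of_pos hx).symm

theorem continuous_Ht (hS : S.Nonempty) : Continuous (Ht S) := by
  rw [continuous_iff_continuousAt]
  intro r
  by_cases h : ∀ j ∈ S, 0 < |r j|
  · exact continuousAt_Ht_pos hS h
  · push Not at h
    obtain ⟨j, hj, h⟩ := h
    have hj0 : r j = 0 := abs_eq_zero.1 (le_antisymm h (abs_nonneg _))
    rw [ContinuousAt, Ht_zero hj hj0]
    exact tendsto_zero_of (fun x => Ht_nonneg) (fun x => Ht_le hj) hj0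

theorem continuous_Hn (hS : S.Nonempty) (i : ι) : Continuous (Hn S i) := by
  rw [continuous_iff_continuousAt]
  intro r
  by_cases hi : i ∈ S
  · by_cases h : ∀ j ∈ S, 0 < |r j|
    · have : ContinuousAt (fun x : ι → ℝ => Ht S x ^ 2 / |x i|) r :=
        ((continuous_Ht hS).continuousAt.pow 2).div
          (continuous_abs.comp (continuous_apply i)).continuousAt (h i hi).ne'
      refine this.congr ?_
      filter_upwards with x
      rw [Hn, if_pos hi]
    · push Not at h
      obtain ⟨j, hj, h⟩ := h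
      have hj0 : r j = 0 := abs_eq_zero.1 (le_antisymm h (abs_nonneg _))
      rw [ContinuousAt, Hn_zero hj hj0]
      exact tendsto_zero_of (fun x => Hn_nonneg i) (fun x => (Hn_le i).trans (Ht_le hj)) hj0
  · have : Hn S i = fun _ => 0 := by
      funext x
      rw [Hn, if_neg hi]
    rw [this]
    exact continuousAt_const

theorem continuous_Gt (hS : S.Nonempty) : Continuous (Gt S) := by
  have hcard : (0 : ℝ) < S.card := by exact_mod_cast card_pos.2 hS
  exact continuous_finsetProd _ fun j _ =>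
    (continuous_abs.comp (continuous_apply j)).rpow_const fun _ => Or.inr (by positivity)

theorem continuous_Gn (hS : S.Nonempty) (i : ι) : Continuous (Gn S i) := by
  unfold Gn
  by_cases hi : i ∈ S
  · simp only [hi, if_true]
    exact (continuous_Gt hS).div_const _
  · simp only [hi, if_false]
    exact continuous_const

end Crest.Agent.R267.MixBox_896
end
end

-- ▼ part R267/HarmDer_896
section

/-!
# S0406, T3N hub step (C3): radial and angular derivatives of the harmonic boxes (helper896)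
-/

set_option autoImplicit false
set_option linter.unusedSectionVars false

noncomputable section

open Set Filter Topology Finset
open Crest.Agent.R267.Ang_739
open Crest.Agent.R267.T3aNDefs_88 (Hm)
open Crest.Agent.R267.HarmBox_920 Crest.Agent.R267.MixBox_896 Crest.Agent.R267.PolF_943

namespace Crest.Agent.R267.HarmDer_896

variable {ι : Type} [Fintype ι] [DecidableEq ι]

/-- radial curve of the radii. -/
theorem rr_update (D : ι → ℝ) (z : ι → ℂ) (i : ι) (s : ℝ) (j : ι) :
    rr D (Function.update z i ((Real.exp s : ℂ) * z i)) j =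
      if j = i then Real.exp (s * D i) * rr D z i else rr D z j := by
  unfold rr
  by_cases h : j = i
  · subst h
    rw [if_pos rfl, Function.update_self, norm_mul, Complex.norm_real,
      Real.norm_of_nonneg (Real.exp_pos _).le, Real.mul_rpow (Real.exp_pos _).le (norm_nonneg _),
      ← Real.exp_mul]
  · rw [if_neg h, Function.update_of_ne h]

theorem arg_update_rad (z : ι → ℂ) (i : ι) (s : ℝ) (j : ι) :
    (Function.update z i ((Real.exp s : ℂ) * z i) j).arg = (z j).arg :=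
  congrFun (ag_update_real z i (Real.exp_pos s)) j

theorem abs_rr (D : ι → ℝ) (z : ι → ℂ) (j : ι) : |rr D z j| = rr D z j :=
  abs_of_nonneg (rr_nonneg D z j)

theorem Ht_rr (S : Finset ι) (D : ι → ℝ) (z : ι → ℂ) : Ht S (rr D z) = Hm S (rr D z) := by
  unfold Ht
  congr 1
  funext j
  exact abs_rr D z j

/-- derivative of the harmonic combination along a radial curve. -/
theorem hasDerivAt_Hm_rad {S : Finset ι} (hS : S.Nonempty) {D : ι → ℝ} (z : ι → ℂ) (i : ι) :
    HasDerivAt (fun s : ℝ => Hm S (rr D (Function.update z i ((Real.exp s : ℂ) * z i))))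
      (D i * Hn S i (rr D z)) 0 := by
  by_cases hi : i ∈ S
  · by_cases h : ∀ j ∈ S, 0 < rr D z j
    · have h1 : 0 < ∑ j ∈ S, 1 / rr D z j := sum_pos (fun j hj => one_div_pos.2 (h j hj)) hS
      -- formula along the curve
      have h2 : ∀ s : ℝ, Hm S (rr D (Function.update z i ((Real.exp s : ℂ) * z i))) =
          1 / (∑ j ∈ S.erase i, 1 / rr D z j + Real.exp (s * (-D i)) * (1 / rr D z i)) := by
        intro s
        have hp : ∀ j ∈ S, 0 < rr D (Function.update z i ((Real.exp s : ℂ) * z i)) j := by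
          intro j hj
          rw [rr_update]
          split_ifs with hji
          · exact mul_pos (Real.exp_pos _) (h i hi)
          · exact h j hj
        have e0 : Hm S (rr D (Function.update z i ((Real.exp s : ℂ) * z i))) =
            1 / ∑ j ∈ S, 1 / rr D (Function.update z i ((Real.exp s : ℂ) * z i)) j := by
          classical
          exact if_pos hp
        rw [e0, ← Finset.sum_erase_add S _ hi]
        congr 2
        · refine sum_congr rfl fun j hj => ?_
          rw [rr_update, if_neg (Finset.ne_of_mem_erase hj)]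
        · rw [rr_update, if_pos rfl, mul_neg, Real.exp_neg]
          have := (h i hi).ne'
          have := (Real.exp_pos (s * D i)).ne'
          field_simp
      have h3 : HasDerivAt (fun s : ℝ => ∑ j ∈ S.erase i, 1 / rr D z j +
          Real.exp (s * (-D i)) * (1 / rr D z i)) (-D i * (1 / rr D z i)) 0 := by
        have h4 : HasDerivAt (fun s : ℝ => Real.exp (s * (-D i))) (-D i) 0 := by
          have := ((hasDerivAt_id (0 : ℝ)).mul_const (-D i)).exp
          simpa using this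
        exact (h4.mul_const _).const_add _
      have e1 : ∑ j ∈ S.erase i, 1 / rr D z j + Real.exp (0 * (-D i)) * (1 / rr D z i) =
          ∑ j ∈ S, 1 / rr D z j := by
        rw [zero_mul, Real.exp_zero, one_mul, Finset.sum_erase_add S _ hi]
      have h5 := (hasDerivAt_const (0 : ℝ) (1 : ℝ)).div h3 (by rw [e1]; exact h1.ne')
      refine (h5.congr_of_eventuallyEq (Eventually.of_forall fun s => h2 s)).congr_deriv ?_
      rw [e1, Hn, if_pos hi, abs_rr, Ht_of_pos (fun j hj => by rw [abs_rr]; exact h j hj)]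
      simp only [abs_rr]
      have := (h i hi).ne'
      field_simp
      ring
    · -- some radius vanishes
      push Not at h
      obtain ⟨j, hj, h⟩ := h
      have hj0 : rr D z j = 0 := le_antisymm h (rr_nonneg D z j)
      rw [Hn_zero hj hj0, mul_zero]
      refine (hasDerivAt_const (0 : ℝ) (0 : ℝ)).congr_of_eventuallyEq ?_
      filter_upwards with s
      refine Hm_zero hj ?_
      rw [rr_update]
      split_ifs with hji
      · rw [← hji, hj0, mul_zero]
      · exact h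
  · rw [Hn, if_neg hi, mul_zero]
    refine (hasDerivAt_const (0 : ℝ) (Hm S (rr D z))).congr_of_eventuallyEq ?_
    filter_upwards with s
    refine Hm_congr fun j hj => ?_
    rw [rr_update, if_neg]
    rintro rfl
    exact hi hj

/-- **radial derivative of a harmonic box.** -/
theorem fderiv_HB_rad {S : Finset ι} (hS : S.Nonempty) {D : ι → ℝ} (hD : ∀ j ∈ S, 2 < D j)
    {l : ι → ℝ → ℝ} (hp : ∀ j ∈ S, Per (l j)) (hl : ∀ j ∈ S, ContDiff ℝ 2 (l j)) (z : ι → ℂ)
    (i : ι) : fderiv ℝ (HB S D l) z (Pi.single i (z i)) =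
      D i * Hn S i (rr D z) * ∏ j ∈ S, l j (z j).arg := by
  have hd : DifferentiableAt ℝ (HB S D l) z :=
    (contDiff_HB hS hD hp hl).contDiffAt.differentiableAt (by norm_num)
  have hc : HasDerivAt (fun s : ℝ => Function.update z i ((Real.exp s : ℂ) * z i))
      (Pi.single i (z i)) 0 := by
    have h1 : HasDerivAt (fun s : ℝ => (Real.exp s : ℂ) * z i) (z i) 0 := by
      have h2 : HasDerivAt (fun s : ℝ => (Real.exp s : ℂ)) ((Real.exp 0 : ℝ) : ℂ) 0 :=
        (Real.hasDerivAt_exp 0).ofReal_comp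
      have h3 := h2.mul_const (z i)
      simpa using h3
    rw [hasDerivAt_pi]
    intro j
    by_cases hj : j = i
    · subst hj
      simpa using h1
    · simp only [Function.update_of_ne hj, Pi.single_eq_of_ne hj]
      exact hasDerivAt_const 0 (z j)
  have e0 : Function.update z i ((Real.exp 0 : ℂ) * z i) = z := by
    rw [Real.exp_zero, Complex.ofReal_one, one_mul, Function.update_eq_self]
  have h2 : HasDerivAt (fun s : ℝ => HB S D l (Function.update z i ((Real.exp s : ℂ) * z i)))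
      (fderiv ℝ (HB S D l) z (Pi.single i (z i))) 0 := by
    have hf : HasFDerivAt (HB S D l) (fderiv ℝ (HB S D l) z)
        ((fun s : ℝ => Function.update z i ((Real.exp s : ℂ) * z i)) 0) := by
      simp only [e0]
      exact hd.hasFDerivAt
    exact hf.comp_hasDerivAt (0 : ℝ) hc
  have h3 : HasDerivAt (fun s : ℝ => HB S D l (Function.update z i ((Real.exp s : ℂ) * z i)))
      (D i * Hn S i (rr D z) * ∏ j ∈ S, l j (z j).arg) 0 := by
    have e : (fun s : ℝ => HB S D l (Function.update z i ((Real.exp s : ℂ) * z i))) =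
        fun s : ℝ => Hm S (rr D (Function.update z i ((Real.exp s : ℂ) * z i))) *
          ∏ j ∈ S, l j (z j).arg := by
      funext s
      unfold HB
      congr 1
      exact prod_congr rfl fun j _ => by rw [arg_update_rad]
    rw [e]
    exact (hasDerivAt_Hm_rad hS z i).mul_const _
  exact h2.unique h3

/-- derivative of the product of cut-offs in the angle `i`. -/
def dL (S : Finset ι) (l : ι → ℝ → ℝ) (i : ι) (θ : ι → ℝ) : ℝ :=
  if i ∈ S then (∏ j ∈ S.erase i, l j (θ j)) * deriv (l i) (θ i) else 0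

theorem hasDerivAt_prod_l {S : Finset ι} {l : ι → ℝ → ℝ} (hl : ∀ j ∈ S, ContDiff ℝ 2 (l j))
    (θ : ι → ℝ) (i : ι) :
    HasDerivAt (fun s : ℝ => ∏ j ∈ S, l j (Function.update θ i (θ i + s) j)) (dL S l i θ) 0 := by
  by_cases hi : i ∈ S
  · have e : (fun s : ℝ => ∏ j ∈ S, l j (Function.update θ i (θ i + s) j)) =
        fun s : ℝ => (∏ j ∈ S.erase i, l j (θ j)) * l i (θ i + s) := by
      funext s
      rw [← Finset.prod_erase_mul S _ hi, Function.update_self]
      congr 1
      exact prod_congr rfl fun j hj => by rw [Function.update_of_ne (Finset.ne_of_mem_erase hj)]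
    rw [e, dL, if_pos hi]
    refine HasDerivAt.const_mul _ ?_
    have h1 : HasDerivAt (l i) (deriv (l i) (θ i)) (θ i + 0) := by
      rw [add_zero]
      exact ((hl i hi).contDiffAt.differentiableAt (by norm_num)).hasDerivAt
    exact h1.comp_const_add (θ i) 0
  · rw [dL, if_neg hi]
    refine (hasDerivAt_const (0 : ℝ) (∏ j ∈ S, l j (θ j))).congr_of_eventuallyEq ?_
    filter_upwards with s
    refine prod_congr rfl fun j hj => ?_
    rw [Function.update_of_ne]
    rintro rfl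
    exact hi hj

/-- **angular derivative of a harmonic box.** -/
theorem fderiv_HB_ang {S : Finset ι} (hS : S.Nonempty) {D : ι → ℝ} (hD : ∀ j ∈ S, 2 < D j)
    {l : ι → ℝ → ℝ} (hp : ∀ j ∈ S, Per (l j)) (hl : ∀ j ∈ S, ContDiff ℝ 2 (l j)) (z : ι → ℂ)
    (i : ι) : fderiv ℝ (HB S D l) z (Pi.single i (Complex.I * z i)) =
      Hm S (rr D z) * dL S l i (ag z) := by
  have hd : DifferentiableAt ℝ (HB S D l) z :=
    (contDiff_HB hS hD hp hl).contDiffAt.differentiableAt (by norm_num)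
  have hc : HasDerivAt (fun s : ℝ => Function.update z i (Complex.exp (s * Complex.I) * z i))
      (Pi.single i (Complex.I * z i)) 0 := by
    have h1 : HasDerivAt (fun s : ℝ => Complex.exp (s * Complex.I) * z i)
        (Complex.I * z i) 0 := by
      have h2 : HasDerivAt (fun s : ℝ => (s : ℂ) * Complex.I) (1 * Complex.I) 0 := by
        have := (hasDerivAt_id (0 : ℝ)).ofReal_comp
        simpa using this.mul_const Complex.I
      have h3 := h2.cexp.mul_const (z i)
      simpa using h3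
    rw [hasDerivAt_pi]
    intro j
    by_cases hj : j = i
    · subst hj
      simpa using h1
    · simp only [Function.update_of_ne hj, Pi.single_eq_of_ne hj]
      exact hasDerivAt_const 0 (z j)
  have e0 : Function.update z i (Complex.exp ((0 : ℝ) * Complex.I) * z i) = z := by
    rw [Complex.ofReal_zero, zero_mul, Complex.exp_zero, one_mul, Function.update_eq_self]
  have h2 : HasDerivAt
      (fun s : ℝ => HB S D l (Function.update z i (Complex.exp (s * Complex.I) * z i)))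
      (fderiv ℝ (HB S D l) z (Pi.single i (Complex.I * z i))) 0 := by
    have hf : HasFDerivAt (HB S D l) (fderiv ℝ (HB S D l) z)
        ((fun s : ℝ => Function.update z i (Complex.exp (s * Complex.I) * z i)) 0) := by
      simp only [e0]
      exact hd.hasFDerivAt
    exact hf.comp_hasDerivAt (0 : ℝ) hc
  have h3 : HasDerivAt
      (fun s : ℝ => HB S D l (Function.update z i (Complex.exp (s * Complex.I) * z i)))
      (Hm S (rr D z) * dL S l i (ag z)) 0 := by
    have e : (fun s : ℝ => HB S D l (Function.update z i (Complex.exp (s * Complex.I) * z i))) =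
        fun s : ℝ => Hm S (rr D z) * ∏ j ∈ S, l j (Function.update (ag z) i (ag z i + s) j) := by
      funext s
      by_cases h0 : ∃ j ∈ S, z j = 0
      · obtain ⟨j, hj, h0⟩ := h0
        have hD0 : D j ≠ 0 := (by linarith [hD j hj] : (0 : ℝ) < D j).ne'
        have hz' : Function.update z i (Complex.exp (s * Complex.I) * z i) j = 0 := by
          by_cases hji : j = i
          · subst hji; simp [h0]
          · rw [Function.update_of_ne hji, h0]
        rw [HB, Hm_zero hj (rr_zero hD0 hz').le, Hm_zero hj (rr_zero hD0 h0).le]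
        ring
      · push Not at h0
        unfold HB
        congr 1
        · refine Hm_congr fun j hj => ?_
          unfold rr
          by_cases hji : j = i
          · subst hji
            rw [Function.update_self, norm_mul, Complex.norm_exp_ofReal_mul_I, one_mul]
          · rw [Function.update_of_ne hji]
        · refine prod_congr rfl fun j hj => ?_
          by_cases hji : j = i
          · subst hji
            rw [Function.update_self, Function.update_self]
            have h5 : (((Complex.exp (s * Complex.I) * z j).arg : ℝ) : Real.Angle) =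
                ((ag z j + s : ℝ) : Real.Angle) := by
              rw [Complex.arg_mul_coe_angle (Complex.exp_ne_zero _) (h0 j hj),
                Complex.arg_exp_mul_I, Real.Angle.coe_toIocMod, Real.Angle.coe_add, add_comm]
              rfl
            rw [Real.Angle.angle_eq_iff_two_pi_dvd_sub] at h5
            obtain ⟨k, hk⟩ := h5
            have h6 : (Complex.exp (s * Complex.I) * z j).arg = ag z j + s + k * (2 * Real.pi) := by
              linarith
            rw [h6]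
            exact (hp j hj).int_mul k _
          · rw [Function.update_of_ne hji, Function.update_of_ne hji]
            rfl
    rw [e]
    exact (hasDerivAt_prod_l hl (ag z) i).const_mul _
  exact h2.unique h3

end Crest.Agent.R267.HarmDer_896
end
end

-- ▼ part R267/OwnBox_896
section

/-!
# S0406, T3N hub step (C8'): own terms minus boxes are regular (helper896)

In the format of `Start_862` (own magnitudes `r i`, unit phases `e i`, speeds `q i`, conormal `ζ`):

* `own_false` : one real function `B0` with radial derivatives `N i`, angular derivatives `T i`;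
* `own_boxes` : `N = ∑` boxes, each box kills itself at its smallest radius;
* `Mix` : the mixture `(1 - t) ch Hm + t cp GM` of harmonic and geometric boxes: values, shares.
-/

set_option autoImplicit false
set_option linter.unusedSectionVars false

noncomputable section

open Finset
open scoped ComplexConjugate
open Crest.Agent.R267.Start_862

namespace Crest.Agent.R267.OwnBox_896

variable {ι : Type*} [Fintype ι]

theorem rp_neg_left (ζ e : ℂ) : rp (-ζ) e = -rp ζ e := by simp [rp]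
theorem ip_neg_left (ζ e : ℂ) : ip (-ζ) e = -ip ζ e := by simp [ip]

/-- real part from the components. -/
theorem re_of (ζ e : ℂ) (hζ : ‖ζ‖ = 1) : e.re = ζ.re * rp ζ e - ζ.im * ip ζ e := by
  have h : ζ.re ^ 2 + ζ.im ^ 2 = 1 := by
    have := Complex.normSq_eq_norm_sq ζ
    rw [hζ, Complex.normSq_apply] at this
    linarith
  simp only [rp, ip, Complex.mul_re, Complex.mul_im, Complex.conj_re, Complex.conj_im]
  linear_combination (-e.re) * h

/-- imaginary part from the components. -/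
theorem im_of (ζ e : ℂ) (hζ : ‖ζ‖ = 1) : e.im = ζ.im * rp ζ e + ζ.re * ip ζ e := by
  have h : ζ.re ^ 2 + ζ.im ^ 2 = 1 := by
    have := Complex.normSq_eq_norm_sq ζ
    rw [hζ, Complex.normSq_apply] at this
    linarith
  simp only [rp, ip, Complex.mul_re, Complex.mul_im, Complex.conj_re, Complex.conj_im]
  linear_combination (-e.im) * h

/-- the conormal may be taken in the right half plane. -/
theorem own_aux {r : ι → ℝ} {e : ι → ℂ} {q N T : ι → ℝ} {B0 : ℝ} {ζ : ℂ}
    (hr : ∀ i, 0 ≤ r i) (he : ∀ i, 0 < r i → ‖e i‖ = 1) (hne : r ≠ 0) (hζ : ‖ζ‖ = 1)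
    (hre : 0 ≤ ζ.re) (hB : 0 ≤ B0) (hN : ∀ i, 0 ≤ N i) (hNB : B0 = 0 → ∀ i, N i = 0)
    (hlobe : ∀ i, 0 < r i → 0 ≤ (e i).re → q i ≠ 0 ∧ T i = 0)
    (zero : ∑ i, (r i : ℂ) * e i = B0) (rad : ∀ i, r i * rp ζ (e i) = N i * ζ.re)
    (ang : ∀ i, q i * (r i * ip ζ (e i)) + T i * ζ.re = 0) :
    (∀ i, 0 < r i → e i = 1) ∧ ∀ i, 0 < r i → r i = N i := by
  -- imaginary part
  have tot : ∑ i, r i * ip ζ (e i) = -(B0 * ζ.im) := by
    have h0 := congrArg (fun u => (conj ζ * u).im) zero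
    beta_reduce at h0
    rw [Finset.mul_sum, Complex.im_sum] at h0
    have e1 : ∀ (x : ℝ) (u : ℂ), (conj ζ * ((x : ℂ) * u)).im = x * ip ζ u := by
      intro x u
      unfold ip
      rw [← mul_assoc, mul_comm (conj ζ) (x : ℂ), mul_assoc, Complex.im_ofReal_mul]
    have e2 : (conj ζ * (B0 : ℂ)).im = - (B0 * ζ.im) := by
      rw [mul_comm, Complex.im_ofReal_mul, Complex.conj_im]; ring
    rw [e2] at h0
    rw [← h0]
    exact Finset.sum_congr rfl fun i _ => (e1 _ _).symm
  -- lobes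
  have hl : ∀ i, 0 < r i → 0 ≤ (e i).re → ip ζ (e i) = 0 := by
    intro i hi h
    obtain ⟨h1, h2⟩ := hlobe i hi h
    have := ang i
    rw [h2, zero_mul, add_zero] at this
    rcases mul_eq_zero.1 this with h3 | h3
    · exact absurd h3 h1
    · exact (mul_eq_zero.1 h3).resolve_left hi.ne'
  have hrp : ∀ i, 0 < r i → 0 ≤ rp ζ (e i) := by
    intro i hi
    have h1 : 0 ≤ r i * rp ζ (e i) := by rw [rad]; exact mul_nonneg (hN i) hre
    by_contra h
    push Not at h
    have := mul_neg_of_pos_of_neg hi h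
    linarith
  -- gaps
  have hg : ∀ i, 0 < r i → (e i).re < 0 → 0 < ζ.im * ip ζ (e i) := by
    intro i hi h
    have h1 := re_of ζ (e i) hζ
    have h2 := mul_nonneg hre (hrp i hi)
    linarith
  -- no gap with positive radius
  have hterm : ∀ i, 0 ≤ ζ.im * (r i * ip ζ (e i)) := by
    intro i
    rcases (hr i).eq_or_lt with h | h
    · rw [← h]; simp
    · by_cases h' : 0 ≤ (e i).re
      · rw [hl i h h']; simp
      · push Not at h'
        have := hg i h h'
        nlinarith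
  have hsum : ∑ i, ζ.im * (r i * ip ζ (e i)) = -(B0 * ζ.im ^ 2) := by
    rw [← Finset.mul_sum, tot]; ring
  have hz : B0 * ζ.im ^ 2 = 0 ∧ ∀ i, ζ.im * (r i * ip ζ (e i)) = 0 := by
    have h1 : 0 ≤ ∑ i, ζ.im * (r i * ip ζ (e i)) := Finset.sum_nonneg fun i _ => hterm i
    have h2 : 0 ≤ B0 * ζ.im ^ 2 := mul_nonneg hB (sq_nonneg _)
    have h3 : ∑ i, ζ.im * (r i * ip ζ (e i)) = 0 := by linarith
    refine ⟨by linarith, fun i => ?_⟩
    exact (Finset.sum_eq_zero_iff_of_nonneg fun i _ => hterm i).1 h3 i (Finset.mem_univ i)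
  have hlob : ∀ i, 0 < r i → 0 ≤ (e i).re := by
    intro i hi
    by_contra h
    push Not at h
    have h1 := hg i hi h
    have h2 := hz.2 i
    have h3 : r i * (ζ.im * ip ζ (e i)) = 0 := by linarith
    rcases mul_eq_zero.1 h3 with h4 | h4
    · exact hi.ne' h4
    · exact h1.ne' h4
  -- a positive radius
  have hrN : ∀ i, 0 < r i → rp ζ (e i) = 1 := by
    intro i hi
    have h1 := hl i hi (hlob i hi)
    have h2 := rp_sq_add ζ (e i)
    rw [h1, hζ, he i hi] at h2
    have h3 := hrp i hi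
    nlinarith
  have hNpos : ∀ i, 0 < r i → 0 < N i * ζ.re := by
    intro i hi
    rw [← rad, hrN i hi, mul_one]
    exact hi
  obtain ⟨i0, hi0⟩ : ∃ i, 0 < r i := by
    by_contra h
    push Not at h
    exact hne (funext fun i => le_antisymm (h i) (hr i))
  have hBpos : B0 ≠ 0 := by
    intro h
    have := hNpos i0 hi0
    rw [hNB h i0, zero_mul] at this
    exact lt_irrefl _ this
  have him : ζ.im = 0 := by
    have := (mul_eq_zero.1 hz.1).resolve_left hBpos
    exact pow_eq_zero_iff (by norm_num) |>.1 this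
  have hre1 : ζ.re = 1 := by
    have := Complex.normSq_eq_norm_sq ζ
    rw [hζ, Complex.normSq_apply, him] at this
    nlinarith
  refine ⟨fun i hi => ?_, fun i hi => ?_⟩
  · apply Complex.ext
    · rw [re_of ζ (e i) hζ, hre1, him, hrN i hi]; simp
    · rw [im_of ζ (e i) hζ, hre1, him, hl i hi (hlob i hi)]; simp
  · have := rad i
    rw [hrN i hi, hre1] at this
    linarith

/-- **own terms minus a real function.** -/
theorem own_false {r : ι → ℝ} {e : ι → ℂ} {q N T : ι → ℝ} {B0 : ℝ} {ζ : ℂ}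
    (hr : ∀ i, 0 ≤ r i) (he : ∀ i, 0 < r i → ‖e i‖ = 1) (hne : r ≠ 0) (hζ : ‖ζ‖ = 1)
    (hB : 0 ≤ B0) (hN : ∀ i, 0 ≤ N i) (hNB : B0 = 0 → ∀ i, N i = 0)
    (hlobe : ∀ i, 0 < r i → 0 ≤ (e i).re → q i ≠ 0 ∧ T i = 0)
    (zero : ∑ i, (r i : ℂ) * e i = B0) (rad : ∀ i, r i * rp ζ (e i) = N i * ζ.re)
    (ang : ∀ i, q i * (r i * ip ζ (e i)) + T i * ζ.re = 0) :
    (∀ i, 0 < r i → e i = 1) ∧ ∀ i, 0 < r i → r i = N i := by
  rcases le_total 0 ζ.re with h | h
  · exact own_aux hr he hne hζ h hB hN hNB hlobe zero rad ang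
  · refine own_aux (ζ := -ζ) hr he hne (by rw [norm_neg, hζ]) (by simpa using h) hB hN hNB hlobe
      zero (fun i => ?_) fun i => ?_
    · rw [rp_neg_left, Complex.neg_re]
      linear_combination -(rad i)
    · rw [ip_neg_left, Complex.neg_re]
      linear_combination -(ang i)

/-- **own terms minus boxes**: `Nb g i` = radial derivative of the box `g` in the variable `i`. -/
theorem own_boxes {V : Type*} [Fintype V] {S : V → Finset ι} {Nb : V → ι → ℝ}
    {r : ι → ℝ} {e : ι → ℂ} {q T : ι → ℝ} {B0 : ℝ} {ζ : ℂ}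
    (hr : ∀ i, 0 ≤ r i) (he : ∀ i, 0 < r i → ‖e i‖ = 1) (hne : r ≠ 0) (hζ : ‖ζ‖ = 1)
    (hNb : ∀ g i, 0 ≤ Nb g i) (hB : B0 = ∑ g, ∑ i, Nb g i)
    (hsupp : ∀ g i, 0 < Nb g i → ∀ j ∈ S g, 0 < r j)
    (hkill : ∀ g, (∀ j ∈ S g, 0 < r j) → (∀ j ∈ S g, e j = 1) → (∃ i, 0 < Nb g i) →
      ∃ j ∈ S g, r j < Nb g j)
    (hlobe : ∀ i, 0 < r i → 0 ≤ (e i).re → q i ≠ 0 ∧ T i = 0)
    (zero : ∑ i, (r i : ℂ) * e i = B0) (rad : ∀ i, r i * rp ζ (e i) = (∑ g, Nb g i) * ζ.re)
    (ang : ∀ i, q i * (r i * ip ζ (e i)) + T i * ζ.re = 0) : False := by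
  have hN : ∀ i, 0 ≤ ∑ g, Nb g i := fun i => Finset.sum_nonneg fun g _ => hNb g i
  have hB0 : 0 ≤ B0 := by
    rw [hB]
    exact Finset.sum_nonneg fun g _ => Finset.sum_nonneg fun i _ => hNb g i
  have hNB : B0 = 0 → ∀ i, ∑ g, Nb g i = 0 := by
    intro h i
    rw [hB] at h
    refine Finset.sum_eq_zero fun g _ => ?_
    have h1 := (Finset.sum_eq_zero_iff_of_nonneg fun g _ =>
      Finset.sum_nonneg fun i _ => hNb g i).1 h g (Finset.mem_univ g)
    exact (Finset.sum_eq_zero_iff_of_nonneg fun i _ => hNb g i).1 h1 i (Finset.mem_univ i)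
  obtain ⟨h1, h2⟩ := own_false hr he hne hζ hB0 hN hNB hlobe zero rad ang
  obtain ⟨i0, hi0⟩ : ∃ i, 0 < r i := by
    by_contra h
    push Not at h
    exact hne (funext fun i => le_antisymm (h i) (hr i))
  obtain ⟨g, -, hg⟩ : ∃ g ∈ Finset.univ, 0 < Nb g i0 := by
    refine Finset.exists_lt_of_sum_lt (f := fun _ => (0 : ℝ)) ?_
    rw [Finset.sum_const_zero, ← h2 i0 hi0]
    exact hi0
  have h3 := hsupp g i0 hg
  obtain ⟨j, hj, h4⟩ := hkill g h3 (fun j hj => h1 j (h3 j hj)) ⟨i0, hg⟩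
  have h5 : Nb g j ≤ ∑ g, Nb g j :=
    Finset.single_le_sum (f := fun g => Nb g j) (fun g _ => hNb g j) (Finset.mem_univ g)
  rw [← h2 j (h3 j hj)] at h5
  linarith

end Crest.Agent.R267.OwnBox_896
end
end

-- ▼ part R267/WinLit_896
section

/-!
# S0406, T3N hub step: facts on the literal words `pp` and windows `ww` of `HubDefs_284` (helper896)
-/

set_option autoImplicit false

noncomputable section

open Finset Set
open Crest.Agent.R267.T3aNDefs_88 Crest.Agent.R267.Ang_739
open Crest.Agent.R267.GlNDefs_9 Crest.Agent.R267.WordPh_9 Crest.Agent.R267.WordPh2_9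
open Crest.Agent.R267.HubDefs_284

namespace Crest.Agent.R267.WinLit_896

variable (D : SD 4)

theorem sn_pm (j : Fin 4) (l : ℕ) : D.sn j l = 1 ∨ D.sn j l = -1 := by
  unfold SD.sn
  split
  · exact Or.inr rfl
  · exact Or.inl rfl

theorem contDiff_pp (j : Fin 4) : ContDiff ℝ 2 (pp D j) := contDiff_wph (arcsE _)

theorem cis_pp_per (j : Fin 4) (x : ℝ) : cis (pp D j (x + 2 * Real.pi)) = cis (pp D j x) := by
  obtain ⟨n, hn⟩ := exists_tot (sn_pm D j) (D.M j)
  have h := wph_add (e := D.sn j) (M := D.M j) (α := aE (D.M j)) (β := bE (D.M j)) x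
  unfold pp
  rw [h, hn, cis_per]

/-- own phases are flat only where `cis = -1`. -/
theorem cis_pp_flat (j : Fin 4) {x : ℝ} (h : deriv (pp D j) x = 0) : cis (pp D j x) = -1 :=
  cis_of_deriv_zero (arcsE _) (sn_pm D j) h

/-- the words cross `0` only inside the lobes. -/
theorem lobe_of_one {j : Fin 4} {x : ℝ} (h : cis (pp D j x) = 1) :
    ∃ (k : ℤ) (i : ℕ), i ≤ D.M j ∧ aE (D.M j) i ≤ x - 2 * Real.pi * k ∧
      x - 2 * Real.pi * k ≤ bE (D.M j) i := by
  obtain ⟨k, y, hy1, hy2, rfl⟩ := exists_dom (aE (D.M j) 0) x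
  obtain ⟨i, hi, h1, h2⟩ := exists_piece (arcsE (D.M j)) hy1 hy2
  have e1 : y + 2 * Real.pi * k - 2 * Real.pi * k = y := by ring
  refine ⟨k, i, hi, by rw [e1]; exact h1, ?_⟩
  rw [e1]
  by_contra h3
  push Not at h3
  have h4 : cis (pp D j (y + 2 * Real.pi * k)) = -1 :=
    cis_wph_gap (arcsE _) (sn_pm D j) hi h3.le h2.le k
  rw [h] at h4
  norm_num at h4

variable {D}

section win

variable {e : Fin D.nb} {j : Fin 4} (hj : j ∈ (D.bx e).S)
  (hlo : (D.bx e).lo j ≤ (D.bx e).hi j)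

include hj hlo

theorem winA_ww : WinA (D.M j) (aE (D.M j)) (bE (D.M j)) ((D.bx e).lo j) ((D.bx e).hi j)
    (ww D e j) := winA (arcsE _) hlo (D.hhi e j hj)

theorem contDiff_ww : ContDiff ℝ 2 (ww D e j) := (winA_ww hj hlo).smooth

theorem per_ww : Per (ww D e j) := (winA_ww hj hlo).per

theorem ww_nonneg (x : ℝ) : 0 ≤ ww D e j x := (winA_ww hj hlo).nn x


/-- **windows move only where the own phase is flat.** -/
theorem flat_win {x : ℝ} (h : deriv (ww D e j) x ≠ 0) : deriv (pp D j) x = 0 :=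
  (flat_of_wn (arcsE _) (sn_pm D j) hlo (D.hhi e j hj) h).1

theorem win_const {x : ℝ} (h : deriv (pp D j) x ≠ 0) : deriv (ww D e j) x = 0 := by
  by_contra h1
  exact h (flat_win hj hlo h1)

/-- **windows are `0` or `1` where `cis (pp) = 1`.** -/
theorem win01 {x : ℝ} (h : cis (pp D j x) = 1) : ww D e j x = 0 ∨ ww D e j x = 1 := by
  obtain ⟨k, i, hi, h1, h2⟩ := lobe_of_one D h
  have h3 := wn_lobe (arcsE (D.M j)) hlo (D.hhi e j hj) hi h1 h2
  have e1 : x = (x - 2 * Real.pi * k) + 2 * Real.pi * k := by ring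
  have h4 : ww D e j x = wn (aE (D.M j)) (bE (D.M j)) ((D.bx e).lo j) ((D.bx e).hi j)
      (x - 2 * Real.pi * k) := by
    conv_lhs => rw [e1]
    exact wn_add_int _ _ _ _ _ _
  rw [h4, h3]
  split
  · exact Or.inr rfl
  · exact Or.inl rfl

end win

end Crest.Agent.R267.WinLit_896
end
end

-- ▼ part R267/HarmProd_896
section

/-!
# S0406, T3N hub step, arrow C3b (helper896): harmonic boxes → product boxes, literal form

`boxP : HubDefs_284.BoxP b D` for every `D : SD 4` with `lo ≤ hi` and at most three variables in a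
box.  The path `t ↦ M core + own - t (product boxes) - (1 - t) (harmonic boxes)` is `0`-regular for
`M ≫ 1` (`Start_862.start` with linear phases); the own part minus the mixed boxes is regular by
`OwnBox_896.own_boxes`.
-/

set_option autoImplicit false
set_option linter.unusedSectionVars false

noncomputable section

open Finset Set Filter Topology
open scoped ContDiff ComplexConjugate
open Crest.Agent.R267.Cone_808
open Crest.Agent.R267.T3aNDefs_88 Crest.Agent.R267.Hm_951 Crest.Agent.R267.Ang_739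
open Crest.Agent.R267.GlNDefs_9 Crest.Agent.R267.NdR_484 Crest.Agent.R267.StairFn_739
open Crest.Agent.R267.HarmBox_920 (HB rr rr_nonneg rr_pos rr_zero contDiff_HB HB_act)
open Crest.Agent.R267.MixBox_896 Crest.Agent.R267.HarmDer_896 Crest.Agent.R267.PolF_943
open Crest.Agent.R267.Start_862 (rp ip Pt Sys Mag NonDeg Rel)
open Crest.Agent.R267.StLit_143 (sh re_I re_neg re_mul)
open Crest.Agent.R267.HubDefs_284 Crest.Agent.R267.WinLit_896

namespace Crest.Agent.R267.HarmProd_896

/-- hypotheses on the boxes -/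
structure Hyp (D : SD 4) : Prop where
  lo : ∀ e, ∀ j ∈ (D.bx e).S, (D.bx e).lo j ≤ (D.bx e).hi j
  cd : ∀ e, (D.bx e).S.card ≤ 3

/-! ### numbers -/

section numbers

variable {D : SD 4}

theorem S_ne (e : Fin D.nb) : (D.bx e).S.Nonempty :=
  card_pos.1 (lt_of_lt_of_le (by norm_num) (D.h2 e))

theorem cd_ge (e : Fin D.nb) : 2 ≤ cd D e := by
  unfold cd
  exact_mod_cast D.h2 e

theorem cd_pos (e : Fin D.nb) : 0 < cd D e := by linarith [cd_ge e]

theorem cd_le (h : Hyp D) (e : Fin D.nb) : cd D e ≤ 3 := by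
  unfold cd
  exact_mod_cast h.cd e

theorem cc_gt (h : Hyp D) (e : Fin D.nb) : cd D e < cc D e := by
  unfold cc
  split_ifs with h1
  · unfold cd; rw [h1]; norm_num
  · linarith [cd_le h e]

theorem cc_pos (e : Fin D.nb) : 0 < cc D e := by
  unfold cc
  split_ifs <;> norm_num

theorem D3_ge (b : Bool) (j : Fin 4) : 15 / 2 ≤ D3 b j := by
  unfold D3 DS
  cases b <;> fin_cases j <;> simp <;> norm_num

theorem D3_pos (b : Bool) (j : Fin 4) : 0 < D3 b j := by linarith [D3_ge b j]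

theorem vc_sh0 (b : Bool) (j : Fin 4) : 3 * (vc b 0 j : ℝ) = sh b false j * D3 b j := by
  unfold D3 DS vc sh
  cases b <;> fin_cases j <;> simp <;> norm_num

theorem vc_sh1 (b : Bool) (j : Fin 4) : 3 * (vc b 1 j : ℝ) = sh b true j * D3 b j := by
  unfold D3 DS vc sh
  cases b <;> fin_cases j <;> simp <;> norm_num

theorem vc_exp (b : Bool) (k : Fin 2) (j : Fin 4) :
    3 * (vc b k j : ℝ) = 0 ∨ 2 < 3 * (vc b k j : ℝ) := by
  rcases Nat.eq_zero_or_pos (vc b k j) with h | h
  · left; rw [h]; simp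
  · right
    have : (1 : ℝ) ≤ vc b k j := by exact_mod_cast h
    linarith

theorem nonDeg_vc (b : Bool) : NonDeg b (fun i => (vc b 0 i : ℝ)) (fun i => (vc b 1 i : ℝ)) := by
  cases b
  · constructor <;> simp [vc] <;> norm_num
  · constructor <;> simp [vc]

end numbers

/-! ### the functions -/

/-- indices -/
abbrev VI (D : SD 4) := Fin 4 ⊕ (Fin 2 ⊕ Fin D.nb)

/-- exponents -/
def EE (b : Bool) (D : SD 4) : VI D → Fin 4 → ℝ
  | .inl i => Pi.single i (D3 b i)
  | .inr (.inl k) => fun j => 3 * (vc b k j : ℝ)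
  | .inr (.inr e) => fun j => if j ∈ (D.bx e).S then D3 b j / cd D e else 0

/-- linear phases -/
def lin (b : Bool) (k : Fin 2) (θ : Fin 4 → ℝ) : ℝ := ∑ j, (vc b k j : ℝ) * θ j

/-- products of the windows -/
def La (D : SD 4) (e : Fin D.nb) (θ : Fin 4 → ℝ) : ℝ := ∏ j ∈ (D.bx e).S, ww D e j (θ j)

/-- coefficients -/
def Cf (b : Bool) (D : SD 4) (M : ℝ) : VI D → ℝ × (Fin 4 → ℝ) → ℂ
  | .inl i => fun q => cis (pp D i (q.2 i))
  | .inr (.inl k) => fun q => (M : ℂ) * cis (lin b k q.2)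
  | .inr (.inr e) => fun q => -((q.1 * (cc D e * La D e q.2) : ℝ) : ℂ)

/-- the path -/
def Fn (b : Bool) (D : SD 4) (M : ℝ) (q : ℝ × E4) : ℂ :=
  PF (EE b D) (Cf b D M) q - (((1 - q.1) * boxH D (D3 b) q.2 : ℝ) : ℂ)

section fn

variable (b : Bool) (D : SD 4)

theorem mag_box (e : Fin D.nb) (z : E4) :
    mag (EE b D (.inr (.inr e))) z = Gt (D.bx e).S (rr (D3 b) z) := by
  unfold mag Gt
  simp only [EE]
  rw [← Finset.prod_subset (Finset.subset_univ (D.bx e).S)]
  · refine prod_congr rfl fun j hj => ?_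
    rw [if_pos hj, abs_rr, rr, ← Real.rpow_mul (norm_nonneg _)]
    congr 1
    unfold cd
    ring
  · intro j _ hj
    rw [if_neg hj, Real.rpow_zero]

theorem boxP_eq (z : E4) : HubDefs_284.boxP D (D3 b) z =
    ∑ e, cc D e * (Gt (D.bx e).S (rr (D3 b) z) * La D e (ag z)) := by
  unfold HubDefs_284.boxP
  refine sum_congr rfl fun e _ => ?_
  congr 1
  rw [← mag_box b D e z]
  unfold La mag pol
  simp only [smul_eq_mul, EE]
  rw [Finset.prod_mul_distrib]
  congr 1
  rw [← Finset.prod_subset (Finset.subset_univ (D.bx e).S)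
    (f := fun i => ‖z i‖ ^ if i ∈ (D.bx e).S then D3 b i / cd D e else 0)]
  · refine prod_congr rfl fun j hj => ?_
    rw [if_pos hj]
  · intro j _ hj
    rw [if_neg hj, Real.rpow_zero]

theorem Fn_eq (M : ℝ) (q : ℝ × E4) :
    Fs b D Gs (fun _ => 0) (fun _ _ => M) (fun _ _ => M) (0, q.2) +
      (((1 - q.1) * (HubDefs_284.boxP D (D3 b) q.2 - boxH D (D3 b) q.2) : ℝ) : ℂ) = Fn b D M q := by
  have h1 : Fs b D Gs (fun _ => 0) (fun _ _ => M) (fun _ _ => M) (0, q.2) =
      PF (EE b D) (Cf b D M) q - (((1 - q.1) * HubDefs_284.boxP D (D3 b) q.2 : ℝ) : ℂ) := by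
    unfold Fs PF
    rw [Fintype.sum_sum_type, Fintype.sum_sum_type, Fintype.sum_sum_type, Fintype.sum_sum_type,
      add_sub_assoc, add_sub_assoc]
    congr 1
    congr 1
    · refine sum_congr rfl fun k _ => ?_
      simp only [PM, CC, Cf]
      congr 1
      congr 1
      · have : (HX b D Gs (fun _ _ => M) fun _ _ => M).amp k (0, ag q.2) = M := by
          simp only [HX]
          split_ifs <;> rfl
        rw [this]
      · congr 1
        simp [StairPh_739.path, lin]
    · rw [boxP_eq, Finset.mul_sum]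
      push_cast
      rw [← Finset.sum_sub_distrib]
      refine sum_congr rfl fun e _ => ?_
      have h2 : (HX b D Gs (fun _ _ => M) fun _ _ => M).La e (ag q.2) = La D e (ag q.2) := by
        unfold HubEng_370.Hub.La La
        simp only [HX]
        rw [← Finset.prod_subset (Finset.subset_univ (D.bx e).S)]
        · refine prod_congr rfl fun j hj => ?_
          rw [if_pos hj]
        · intro j _ hj
          rw [if_neg hj]
      have h3 : mag ((HX b D Gs (fun _ _ => M) fun _ _ => M).E (.inr (.inr e))) q.2 =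
          Gt (D.bx e).S (rr (D3 b) q.2) := mag_box b D e q.2
      simp only [PM, CC, Cf, HubEng_370.Hub.Cb]
      rw [h2, h3, mag_box b D e q.2]
      have h4 : (HX b D Gs (fun _ _ => M) fun _ _ => M).cb e = cc D e := rfl
      rw [h4]
      push_cast
      ring
  rw [h1]
  unfold Fn
  push_cast
  ring

end fn

/-! ### smoothness, periodicity, weights -/

section smooth

variable {b : Bool} {D : SD 4} (h : Hyp D)

include h

theorem contDiff_La (e : Fin D.nb) : ContDiff ℝ 2 (La D e) :=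
  contDiff_prod fun j hj => (contDiff_ww hj (h.lo e j hj)).comp (contDiff_apply ℝ ℝ j)

theorem coef (M : ℝ) (v : VI D) : Coef univ (EE b D v) (Cf b D M v) := by
  rcases v with i | k | e
  · refine ⟨fun j => ?_, ?_, ?_, ?_⟩
    · simp only [EE]
      by_cases hj : j = i
      · subst hj
        right
        rw [Pi.single_eq_same]
        linarith [D3_ge b j]
      · left
        rw [Pi.single_eq_of_ne hj]
    · refine ContDiff.contDiffOn ?_
      exact contDiff_cis.comp ((contDiff_pp D i).comp ((contDiff_apply ℝ ℝ i).comp contDiff_snd))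
    · intro t _ θ k
      simp only [Cf]
      by_cases hk : i = k
      · subst hk; rw [Function.update_self, cis_pp_per]
      · rw [Function.update_of_ne hk]
    · intro k hk t _ θ x
      simp only [Cf]
      have hk' : i ≠ k := by
        rintro rfl
        simp only [EE, Pi.single_eq_same] at hk
        exact (D3_pos b i).ne' hk
      rw [Function.update_of_ne hk']
  · refine ⟨fun j => vc_exp b k j, ?_, ?_, ?_⟩
    · refine ContDiff.contDiffOn ?_
      refine contDiff_const.mul (contDiff_cis.comp ?_)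
      unfold lin
      exact ContDiff.sum fun j _ => contDiff_const.mul ((contDiff_apply ℝ ℝ j).comp contDiff_snd)
    · intro t _ θ i
      simp only [Cf]
      congr 1
      have e1 : lin b k (Function.update θ i (θ i + 2 * Real.pi)) =
          lin b k θ + 2 * Real.pi * ((vc b k i : ℕ) : ℝ) := by
        unfold lin
        rw [← Finset.add_sum_erase _ _ (Finset.mem_univ i), ← Finset.add_sum_erase _ _
          (Finset.mem_univ i), Function.update_self]
        have : ∀ j ∈ Finset.univ.erase i, (vc b k j : ℝ) *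
            Function.update θ i (θ i + 2 * Real.pi) j = (vc b k j : ℝ) * θ j := fun j hj => by
          rw [Function.update_of_ne (Finset.ne_of_mem_erase hj)]
        rw [Finset.sum_congr rfl this]
        ring
      rw [e1, cis_per_nat]
    · intro i hi t _ θ x
      simp only [Cf]
      congr 2
      have hv : (vc b k i : ℝ) = 0 := by
        simp only [EE] at hi
        linarith
      unfold lin
      refine sum_congr rfl fun j _ => ?_
      by_cases hj : j = i
      · subst hj; rw [hv, zero_mul, zero_mul]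
      · rw [Function.update_of_ne hj]
  · refine ⟨fun j => ?_, ?_, ?_, ?_⟩
    · simp only [EE]
      split_ifs with hj
      · right
        have h1 := D3_ge b j
        have h2 := cd_le h e
        rw [lt_div_iff₀ (cd_pos e)]
        linarith
      · left; rfl
    · refine ContDiff.contDiffOn ?_
      refine ContDiff.neg (Complex.ofRealCLM.contDiff.comp ?_)
      exact contDiff_fst.mul (contDiff_const.mul ((contDiff_La h e).comp contDiff_snd))
    · intro t _ θ k
      simp only [Cf]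
      have : La D e (Function.update θ k (θ k + 2 * Real.pi)) = La D e θ := by
        unfold La
        refine prod_congr rfl fun j hj => ?_
        by_cases hk : j = k
        · subst hk
          rw [Function.update_self]
          exact per_ww hj (h.lo e j hj) _
        · rw [Function.update_of_ne hk]
      rw [this]
    · intro k hk t _ θ x
      simp only [Cf]
      have hk' : k ∉ (D.bx e).S := by
        intro hk'
        simp only [EE, if_pos hk'] at hk
        exact (div_pos (D3_pos b k) (cd_pos e)).ne' hk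
      have : La D e (Function.update θ k x) = La D e θ := by
        unfold La
        refine prod_congr rfl fun j hj => ?_
        rw [Function.update_of_ne]
        rintro rfl
        exact hk' hj
      rw [this]

omit h in
/-- weights -/
theorem weight (v : VI D) : ∑ i, (D3 b i)⁻¹ * EE b D v i = 1 := by
  rcases v with i | k | e
  · simp only [EE]
    rw [Finset.sum_eq_single i]
    · rw [Pi.single_eq_same, inv_mul_cancel₀ (D3_pos b i).ne']
    · intro j _ hj
      rw [Pi.single_eq_of_ne hj, mul_zero]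
    · intro h; exact absurd (Finset.mem_univ i) h
  · simp only [EE]
    unfold D3 DS vc
    rw [Fin.sum_univ_four]
    cases b <;> fin_cases k <;> simp <;> norm_num
  · simp only [EE]
    have h1 : ∀ i, (D3 b i)⁻¹ * (if i ∈ (D.bx e).S then D3 b i / cd D e else 0) =
        if i ∈ (D.bx e).S then (cd D e)⁻¹ else 0 := fun i => by
      have := (D3_pos b i).ne'
      have := (cd_pos e).ne'
      split_ifs
      · field_simp
      · rw [mul_zero]
    rw [Finset.sum_congr rfl fun i _ => h1 i, ← Finset.sum_filter, Finset.filter_mem_eq_inter,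
      Finset.univ_inter, Finset.sum_const, nsmul_eq_mul]
    exact mul_inv_cancel₀ (cd_pos e).ne'

theorem D3_two (e : Fin D.nb) : ∀ j ∈ (D.bx e).S, 2 < D3 b j := fun j _ => by
  linarith [D3_ge b j]

theorem contDiff_boxH : ContDiff ℝ 2 (boxH D (D3 b)) := by
  unfold boxH
  refine ContDiff.sum fun e _ => contDiff_const.mul ?_
  exact contDiff_HB (S_ne e) (D3_two h e) (fun j hj => per_ww hj (h.lo e j hj))
    fun j hj => contDiff_ww hj (h.lo e j hj)

omit h in
theorem boxH_act (s : ℝ) (z : E4) : boxH D (D3 b) (act (fun i => (D3 b i)⁻¹) s z) =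
    Real.exp s * boxH D (D3 b) z := by
  unfold boxH
  rw [Finset.mul_sum]
  refine sum_congr rfl fun e _ => ?_
  rw [HB_act _ (fun j _ => inv_mul_cancel₀ (D3_pos b j).ne')]
  ring

theorem contDiff_Fn (M : ℝ) : ContDiffOn ℝ 2 (Fn b D M) (univ ×ˢ univ) := by
  unfold Fn
  refine (PF_smooth isOpen_univ (coef h M)).sub ?_
  refine ContDiff.contDiffOn (Complex.ofRealCLM.contDiff.comp ?_)
  exact (contDiff_const.sub contDiff_fst).mul ((contDiff_boxH h).comp contDiff_snd)

omit h in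
theorem Fn_wh (M : ℝ) (t s : ℝ) (z : E4) : Fn b D M (t, act (fun i => (D3 b i)⁻¹) s z) =
    Real.exp s • Fn b D M (t, z) := by
  unfold Fn
  rw [PF_wh _ (weight (b := b) (D := D))]
  simp only
  rw [boxH_act, smul_sub, Complex.real_smul, Complex.real_smul]
  push_cast
  ring

/-! ### derivatives -/

theorem fderiv_Fn (M t : ℝ) (z y : E4) : fderiv ℝ (Fn b D M) (t, z) (0, y) =
    fderiv ℝ (PF (EE b D) (Cf b D M)) (t, z) (0, y) -
      (((1 - t) * fderiv ℝ (boxH D (D3 b)) z y : ℝ) : ℂ) := by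
  have h1 : HasFDerivAt (PF (EE b D) (Cf b D M)) (fderiv ℝ (PF (EE b D) (Cf b D M)) (t, z))
      (t, z) := by
    refine DifferentiableAt.hasFDerivAt ?_
    exact ((PF_smooth isOpen_univ (coef h M) (t, z) ⟨mem_univ _, mem_univ _⟩).contDiffAt
      (by simp)).differentiableAt (by norm_num)
  have h2 : HasFDerivAt (boxH D (D3 b)) (fderiv ℝ (boxH D (D3 b)) z) z :=
    ((contDiff_boxH h).differentiable (by norm_num) z).hasFDerivAt
  have h3 : HasFDerivAt (fun q : ℝ × E4 => boxH D (D3 b) q.2)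
      ((fderiv ℝ (boxH D (D3 b)) z).comp (ContinuousLinearMap.snd ℝ ℝ E4)) (t, z) :=
    HasFDerivAt.comp (t, z) (g := boxH D (D3 b)) (f := fun q : ℝ × E4 => q.2) h2 hasFDerivAt_snd
  have h4 : HasFDerivAt (fun q : ℝ × E4 => (1 - q.1))
      (-(ContinuousLinearMap.fst ℝ ℝ E4)) (t, z) := by
    have := (hasFDerivAt_fst (𝕜 := ℝ) (p := ((t, z) : ℝ × E4))).const_sub (1 : ℝ)
    exact this
  have h5 := h4.mul h3
  have h6 := Complex.ofRealCLM.hasFDerivAt.comp (t, z) h5
  have h7 := h1.sub h6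
  have h8 : HasFDerivAt (Fn b D M) _ (t, z) := h7
  rw [h8.fderiv]
  simp

theorem fderiv_boxH_rad (z : E4) (i : Fin 4) :
    fderiv ℝ (boxH D (D3 b)) z (Pi.single i (z i)) =
      ∑ e, cd D e * cc D e * (D3 b i * Hn (D.bx e).S i (rr (D3 b) z) * La D e (ag z)) := by
  have h1 : ∀ e : Fin D.nb, DifferentiableAt ℝ (HB (D.bx e).S (D3 b) (ww D e)) z := fun e =>
    (contDiff_HB (S_ne e) (D3_two h e) (fun j hj => per_ww hj (h.lo e j hj))
      fun j hj => contDiff_ww hj (h.lo e j hj)).differentiable (by norm_num) z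
  have h2 : HasFDerivAt (boxH D (D3 b))
      (∑ e, (cd D e * cc D e) • fderiv ℝ (HB (D.bx e).S (D3 b) (ww D e)) z) z := by
    unfold boxH
    exact HasFDerivAt.fun_sum fun e _ => (h1 e).hasFDerivAt.const_mul _
  rw [h2.fderiv, _root_.sum_apply]
  refine sum_congr rfl fun e _ => ?_
  rw [_root_.smul_apply, fderiv_HB_rad (S_ne e) (D3_two h e)
    (fun j hj => per_ww hj (h.lo e j hj)) fun j hj => contDiff_ww hj (h.lo e j hj), smul_eq_mul]
  rfl

theorem fderiv_boxH_ang (z : E4) (i : Fin 4) :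
    fderiv ℝ (boxH D (D3 b)) z (Pi.single i (Complex.I * z i)) =
      ∑ e, cd D e * cc D e * (Ht (D.bx e).S (rr (D3 b) z) * dL (D.bx e).S (ww D e) i (ag z)) := by
  have h1 : ∀ e : Fin D.nb, DifferentiableAt ℝ (HB (D.bx e).S (D3 b) (ww D e)) z := fun e =>
    (contDiff_HB (S_ne e) (D3_two h e) (fun j hj => per_ww hj (h.lo e j hj))
      fun j hj => contDiff_ww hj (h.lo e j hj)).differentiable (by norm_num) z
  have h2 : HasFDerivAt (boxH D (D3 b))
      (∑ e, (cd D e * cc D e) • fderiv ℝ (HB (D.bx e).S (D3 b) (ww D e)) z) z := by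
    unfold boxH
    exact HasFDerivAt.fun_sum fun e _ => (h1 e).hasFDerivAt.const_mul _
  rw [h2.fderiv, _root_.sum_apply]
  refine sum_congr rfl fun e _ => ?_
  rw [_root_.smul_apply, fderiv_HB_ang (S_ne e) (D3_two h e)
    (fun j hj => per_ww hj (h.lo e j hj)) fun j hj => contDiff_ww hj (h.lo e j hj), smul_eq_mul,
    Ht_rr]

/-! ### angular derivatives of the coefficients -/

omit h in
theorem dC_own (M t : ℝ) (θ : Fin 4 → ℝ) (i k : Fin 4) : dC (Cf b D M (.inl i)) t θ k =
      if k = i then ((deriv (pp D i) (θ i) : ℝ) : ℂ) * (Complex.I * cis (pp D i (θ i))) else 0 := by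
  unfold dC
  simp only [Cf]
  split_ifs with hk
  · subst hk
    simp only [Function.update_self]
    have h1 := (hasDerivAt_cis (pp D k (θ k))).scomp (θ k)
      ((contDiff_pp D k).differentiable (by norm_num) (θ k)).hasDerivAt
    rw [Complex.real_smul] at h1
    exact h1.deriv
  · simp only [Function.update_of_ne (Ne.symm hk)]
    exact deriv_const _ _

omit h in
theorem dC_cpl (M t : ℝ) (θ : Fin 4 → ℝ) (k : Fin 2) (i : Fin 4) :
    dC (Cf b D M (.inr (.inl k))) t θ i =
      (M : ℂ) * (((vc b k i : ℝ) : ℂ) * (Complex.I * cis (lin b k θ))) := by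
  unfold dC
  simp only [Cf]
  have h1 : HasDerivAt (fun x => lin b k (Function.update θ i x)) (vc b k i : ℝ) (θ i) := by
    have e1 : (fun x => lin b k (Function.update θ i x)) = fun x => (vc b k i : ℝ) * x +
        ∑ j ∈ Finset.univ.erase i, (vc b k j : ℝ) * θ j := by
      funext x
      unfold lin
      rw [← Finset.add_sum_erase _ _ (Finset.mem_univ i), Function.update_self]
      congr 1
      exact sum_congr rfl fun j hj => by rw [Function.update_of_ne (Finset.ne_of_mem_erase hj)]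
    rw [e1]
    simpa using ((hasDerivAt_id (θ i)).const_mul (vc b k i : ℝ)).add_const
      (∑ j ∈ Finset.univ.erase i, (vc b k j : ℝ) * θ j)
  have h2 : HasDerivAt cis (Complex.I * cis (lin b k θ))
      ((fun x => lin b k (Function.update θ i x)) (θ i)) := by
    simp only [Function.update_eq_self]
    exact hasDerivAt_cis _
  have h3 := h2.scomp (θ i) h1
  rw [Complex.real_smul] at h3
  exact (h3.const_mul (M : ℂ)).deriv

theorem dC_box (M t : ℝ) (θ : Fin 4 → ℝ) (e : Fin D.nb) (i : Fin 4) :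
    dC (Cf b D M (.inr (.inr e))) t θ i =
      -((t * (cc D e * dL (D.bx e).S (ww D e) i θ) : ℝ) : ℂ) := by
  unfold dC
  simp only [Cf]
  have h1 := hasDerivAt_prod_l (fun j hj => contDiff_ww hj (h.lo e j hj)) θ i
    (S := (D.bx e).S) (l := ww D e)
  have h2 : HasDerivAt (fun x => La D e (Function.update θ i x))
      (dL (D.bx e).S (ww D e) i θ) (θ i) := by
    have h3 : HasDerivAt (fun s : ℝ => La D e (Function.update θ i (θ i + s)))
        (dL (D.bx e).S (ww D e) i θ) (θ i - θ i) := by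
      rw [sub_self]; exact h1
    have h4 := h3.comp_sub_const (θ i) (θ i)
    refine h4.congr_of_eventuallyEq (Eventually.of_forall fun x => ?_)
    simp only [add_sub_cancel]
  exact ((h2.const_mul (cc D e)).const_mul t).ofReal_comp.neg.deriv

end smooth

/-! ### the system -/

/-- value of a mixed box (without windows) -/
def mv (D : SD 4) (e : Fin D.nb) (x : (ℝ × (Fin 4 → ℝ)) × (Fin 4 → ℝ)) : ℝ :=
  (1 - x.1.1) * (cd D e * cc D e * Ht (D.bx e).S x.2) + x.1.1 * (cc D e * Gt (D.bx e).S x.2)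

/-- Euler derivative of a mixed box (without windows) -/
def mn (D : SD 4) (e : Fin D.nb) (i : Fin 4) (x : (ℝ × (Fin 4 → ℝ)) × (Fin 4 → ℝ)) : ℝ :=
  (1 - x.1.1) * (cd D e * cc D e * Hn (D.bx e).S i x.2) + x.1.1 * (cc D e * Gn (D.bx e).S i x.2)

/-- the system -/
def sys (b : Bool) (D : SD 4) : Sys (Fin 4) (ℝ × (Fin 4 → ℝ)) where
  e i y := cis (pp D i (y.2 i))
  ea y := cis (lin b 0 y.2)
  eb y := cis (lin b 1 y.2)
  va i _ := sh b false i
  vb i _ := sh b true i
  q i y := deriv (pp D i) (y.2 i)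
  A i _ := (vc b 0 i : ℝ)
  B i _ := (vc b 1 i : ℝ)
  B0 x := ∑ e, mv D e x * La D e x.1.2
  N i x := ∑ e, mn D e i x * La D e x.1.2
  T i x := ∑ e, mv D e x * dL (D.bx e).S (ww D e) i x.1.2

section system

variable {b : Bool} {D : SD 4} (h : Hyp D)

theorem continuous_mv (e : Fin D.nb) : Continuous (mv D e) := by
  unfold mv
  exact ((continuous_const.sub (continuous_fst.comp continuous_fst)).mul
    (continuous_const.mul ((continuous_Ht (S_ne e)).comp continuous_snd))).add
    ((continuous_fst.comp continuous_fst).mul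
    (continuous_const.mul ((continuous_Gt (S_ne e)).comp continuous_snd)))

theorem continuous_mn (e : Fin D.nb) (i : Fin 4) : Continuous (mn D e i) := by
  unfold mn
  exact ((continuous_const.sub (continuous_fst.comp continuous_fst)).mul
    (continuous_const.mul ((continuous_Hn (S_ne e) i).comp continuous_snd))).add
    ((continuous_fst.comp continuous_fst).mul
    (continuous_const.mul ((continuous_Gn (S_ne e) i).comp continuous_snd)))

theorem continuous_lin (k : Fin 2) : Continuous (lin b k) := by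
  unfold lin
  exact continuous_finsetSum _ fun j _ => continuous_const.mul (continuous_apply j)

include h in
theorem continuous_La (e : Fin D.nb) : Continuous (La D e) := (contDiff_La h e).continuous

include h in
theorem continuous_dL (e : Fin D.nb) (i : Fin 4) : Continuous (dL (D.bx e).S (ww D e) i) := by
  unfold dL
  split_ifs with hi
  · refine Continuous.mul ?_ ?_
    · refine continuous_finsetProd _ fun j hj => ?_
      have hj' := Finset.mem_of_mem_erase hj
      exact (contDiff_ww hj' (h.lo e j hj')).continuous.comp (continuous_apply j)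
    · exact ((contDiff_ww hi (h.lo e i hi)).continuous_deriv (by norm_num)).comp
        (continuous_apply i)
  · exact continuous_const

include h in
theorem cont : (sys b D).Cont where
  e i := (contDiff_cis (n := 2)).continuous.comp ((contDiff_pp D i).continuous.comp
    ((continuous_apply i).comp continuous_snd))
  ea := (contDiff_cis (n := 2)).continuous.comp ((continuous_lin 0).comp continuous_snd)
  eb := (contDiff_cis (n := 2)).continuous.comp ((continuous_lin 1).comp continuous_snd)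
  va _ := continuous_const
  vb _ := continuous_const
  q i := ((contDiff_pp D i).continuous_deriv (by norm_num)).comp
    ((continuous_apply i).comp continuous_snd)
  A _ := continuous_const
  B _ := continuous_const
  B0 := by
    show Continuous fun x : (ℝ × (Fin 4 → ℝ)) × (Fin 4 → ℝ) => ∑ e, mv D e x * La D e x.1.2
    exact continuous_finsetSum _ fun e _ => (continuous_mv e).mul
      ((continuous_La h e).comp (continuous_snd.comp continuous_fst))
  N i := by
    show Continuous fun x : (ℝ × (Fin 4 → ℝ)) × (Fin 4 → ℝ) => ∑ e, mn D e i x * La D e x.1.2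
    exact continuous_finsetSum _ fun e _ => (continuous_mn e i).mul
      ((continuous_La h e).comp (continuous_snd.comp continuous_fst))
  T i := by
    show Continuous fun x : (ℝ × (Fin 4 → ℝ)) × (Fin 4 → ℝ) =>
      ∑ e, mv D e x * dL (D.bx e).S (ww D e) i x.1.2
    exact continuous_finsetSum _ fun e _ => (continuous_mv e).mul
      ((continuous_dL h e i).comp (continuous_snd.comp continuous_fst))

theorem mv_smul (e : Fin D.nb) (y : ℝ × (Fin 4 → ℝ)) (r : Fin 4 → ℝ) {c : ℝ} (hc : 0 < c) :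
    mv D e (y, c • r) = c * mv D e (y, r) := by
  simp only [mv]
  rw [Ht_smul hc, Gt_smul (S_ne e) hc]
  ring

theorem mn_smul (e : Fin D.nb) (i : Fin 4) (y : ℝ × (Fin 4 → ℝ)) (r : Fin 4 → ℝ) {c : ℝ}
    (hc : 0 < c) : mn D e i (y, c • r) = c * mn D e i (y, r) := by
  simp only [mn]
  rw [Hn_smul hc, Gn_smul (S_ne e) hc]
  ring

theorem hom : (sys b D).Hom where
  B0 y r c hc := by
    simp only [sys, mv_smul _ _ _ hc]
    rw [Finset.mul_sum]
    exact Finset.sum_congr rfl fun e _ => by ring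
  N i y r c hc := by
    simp only [sys, mn_smul _ _ _ _ hc]
    rw [Finset.mul_sum]
    exact Finset.sum_congr rfl fun e _ => by ring
  T i y r c hc := by
    simp only [sys, mv_smul _ _ _ hc]
    rw [Finset.mul_sum]
    exact Finset.sum_congr rfl fun e _ => by ring

theorem mv_nonneg (e : Fin D.nb) {t : ℝ} (ht : t ∈ Icc (0 : ℝ) 1) (θ r : Fin 4 → ℝ) :
    0 ≤ mv D e ((t, θ), r) := by
  simp only [mv]
  have h1 : 0 ≤ 1 - t := by linarith [ht.2]
  have h2 := (cd_pos e).le
  have h3 := (cc_pos e).le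
  exact add_nonneg (mul_nonneg h1 (mul_nonneg (mul_nonneg h2 h3) Ht_nonneg))
    (mul_nonneg ht.1 (mul_nonneg h3 Gt_nonneg))

theorem mn_nonneg (e : Fin D.nb) (i : Fin 4) {t : ℝ} (ht : t ∈ Icc (0 : ℝ) 1)
    (θ r : Fin 4 → ℝ) : 0 ≤ mn D e i ((t, θ), r) := by
  simp only [mn]
  have h1 : 0 ≤ 1 - t := by linarith [ht.2]
  have h2 := (cd_pos e).le
  have h3 := (cc_pos e).le
  exact add_nonneg (mul_nonneg h1 (mul_nonneg (mul_nonneg h2 h3) (Hn_nonneg _)))
    (mul_nonneg ht.1 (mul_nonneg h3 (Gn_nonneg _)))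

theorem mn_zero {e : Fin D.nb} {j : Fin 4} (hj : j ∈ (D.bx e).S) (i : Fin 4)
    (y : ℝ × (Fin 4 → ℝ)) {r : Fin 4 → ℝ} (hr : r j = 0) : mn D e i (y, r) = 0 := by
  simp only [mn]
  rw [Hn_zero hj hr, Gn_zero hj hr]
  ring

theorem mn_zero' {e : Fin D.nb} {i : Fin 4} (hi : i ∉ (D.bx e).S) (x) : mn D e i x = 0 := by
  simp only [mn, Hn, Gn, if_neg hi]
  ring

theorem mv_zero {e : Fin D.nb} {j : Fin 4} (hj : j ∈ (D.bx e).S)
    (y : ℝ × (Fin 4 → ℝ)) {r : Fin 4 → ℝ} (hr : r j = 0) : mv D e (y, r) = 0 := by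
  simp only [mv]
  rw [Ht_zero hj hr, Gt_zero hj hr]
  ring

theorem sum_mn (e : Fin D.nb) (x) : ∑ i, mn D e i x = mv D e x := by
  simp only [mn, mv]
  rw [Finset.sum_add_distrib, ← Finset.mul_sum, ← Finset.mul_sum, ← Finset.mul_sum,
    ← Finset.mul_sum, sum_Hn (S_ne e), sum_Gn (S_ne e)]

include h in
theorem La_nonneg (e : Fin D.nb) (θ : Fin 4 → ℝ) : 0 ≤ La D e θ :=
  Finset.prod_nonneg fun j hj => ww_nonneg hj (h.lo e j hj) _

theorem N_zero (y : ℝ × (Fin 4 → ℝ)) (r : Fin 4 → ℝ) (i : Fin 4) (hr : r i = 0) :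
    (sys b D).N i (y, r) = 0 := by
  show ∑ e, mn D e i (y, r) * La D e y.2 = 0
  refine Finset.sum_eq_zero fun e _ => ?_
  by_cases hi : i ∈ (D.bx e).S
  · rw [mn_zero hi i y hr, zero_mul]
  · rw [mn_zero' hi, zero_mul]

theorem T_zero (y : ℝ × (Fin 4 → ℝ)) (r : Fin 4 → ℝ) (i : Fin 4) (hr : r i = 0) :
    (sys b D).T i (y, r) = 0 := by
  show ∑ e, mv D e (y, r) * dL (D.bx e).S (ww D e) i y.2 = 0
  refine Finset.sum_eq_zero fun e _ => ?_
  by_cases hi : i ∈ (D.bx e).S
  · rw [mv_zero hi y hr, zero_mul]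
  · rw [dL, if_neg hi, mul_zero]

/-! ### own terms minus mixed boxes -/

include h in
theorem kill (e : Fin D.nb) {t : ℝ} (ht : t ∈ Icc (0 : ℝ) 1) (θ : Fin 4 → ℝ) {r : Fin 4 → ℝ}
    (hr : ∀ j ∈ (D.bx e).S, 0 < r j) :
    ∃ j ∈ (D.bx e).S, r j < mn D e j ((t, θ), r) := by
  obtain ⟨j, hj, hmin⟩ := Finset.exists_min_image (D.bx e).S r (S_ne e)
  refine ⟨j, hj, ?_⟩
  have a : ∀ i ∈ (D.bx e).S, |r i| = r i := fun i hi => abs_of_pos (hr i hi)
  have h1 := Hn_min (S_ne e) (fun i hi => by rw [a i hi]; exact hr i hi) hj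
    fun i hi => by rw [a i hi, a j hj]; exact hmin i hi
  have h2 := Gn_min (S_ne e) (r := r) hj fun i hi => by rw [a i hi, a j hj]; exact hmin i hi
  rw [a j hj] at h1 h2
  have h3 : ((D.bx e).S.card : ℝ) = cd D e := rfl
  rw [h3] at h1 h2
  have hn := Hn_nonneg (S := (D.bx e).S) (r := r) j
  have gn := Gn_nonneg (S := (D.bx e).S) (r := r) j
  have c0 := cd_pos e
  have c1 := cc_gt h e
  have hrj := hr j hj
  simp only [mn]
  set H := Hn (D.bx e).S j r
  set G := Gn (D.bx e).S j r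
  set k := cd D e
  set c := cc D e
  -- `k H k ≥ r`, `k G ≥ r`
  have e1 : c * r j ≤ k * (k * c * H) := by nlinarith
  have e2 : c * r j ≤ k * (c * G) := by nlinarith
  have e3 : c * r j ≤ k * ((1 - t) * (k * c * H) + t * (c * G)) := by
    have t0 : 0 ≤ 1 - t := by linarith [ht.2]
    have m1 := mul_le_mul_of_nonneg_left e1 t0
    have m2 := mul_le_mul_of_nonneg_left e2 ht.1
    linarith
  have e4 : k * r j < c * r j := mul_lt_mul_of_pos_right c1 hrj
  exact lt_of_mul_lt_mul_left (lt_of_lt_of_le e4 e3) c0.le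

include h in
/-- **own terms minus mixed boxes have no bad points** -/
theorem own_reg {t : ℝ} (ht : t ∈ Icc (0 : ℝ) 1) (θ r : Fin 4 → ℝ) (hr : ∀ i, 0 ≤ r i)
    (hr0 : r ≠ 0) {ζ : ℂ} (hζ : ‖ζ‖ = 1) : ¬ ((sys b D).pt (t, θ) r 0 0).Bad ζ := by
  intro hb
  refine OwnBox_896.own_boxes (V := Fin D.nb) (S := fun g => (D.bx g).S)
    (Nb := fun g i => mn D g i ((t, θ), r) * La D g θ) (r := r)
    (e := fun i => cis (pp D i (θ i))) (q := fun i => deriv (pp D i) (θ i))
    (T := fun i => ∑ e, mv D e ((t, θ), r) * dL (D.bx e).S (ww D e) i θ)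
    (B0 := ∑ e, mv D e ((t, θ), r) * La D e θ) (ζ := ζ)
    hr (fun i _ => norm_cis _) hr0 hζ (fun g i => ?_) ?_ (fun g i hi j hj => ?_)
    (fun g hg he hex => ?_) (fun i hi hre => ?_) ?_ (fun i => ?_) fun i => ?_
  · exact mul_nonneg (mn_nonneg g i ht θ r) (La_nonneg h g θ)
  · refine Finset.sum_congr rfl fun g _ => ?_
    rw [← Finset.sum_mul, sum_mn]
  · refine lt_of_le_of_ne (hr j) fun h0 => ?_
    have hi' : 0 < mn D g i ((t, θ), r) * La D g θ := hi
    rw [mn_zero hj i _ h0.symm, zero_mul] at hi'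
    exact lt_irrefl _ hi'
  · have hw : ∀ j ∈ (D.bx g).S, ww D g j (θ j) = 1 := by
      intro j hj
      rcases win01 hj (h.lo g j hj) (he j hj) with h1 | h1
      · exfalso
        obtain ⟨i, hi⟩ := hex
        have hi' : 0 < mn D g i ((t, θ), r) * La D g θ := hi
        have : La D g θ = 0 := Finset.prod_eq_zero hj h1
        rw [this, mul_zero] at hi'
        exact lt_irrefl _ hi'
      · exact h1
    have hL : La D g θ = 1 := Finset.prod_eq_one hw
    obtain ⟨j, hj, h2⟩ := kill h g ht θ hg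
    refine ⟨j, hj, ?_⟩
    show r j < mn D g j ((t, θ), r) * La D g θ
    rw [hL, mul_one]
    exact h2
  · have hq : deriv (pp D i) (θ i) ≠ 0 := by
      intro h0
      have h1 : 0 ≤ (cis (pp D i (θ i))).re := hre
      rw [cis_pp_flat D i h0] at h1
      norm_num at h1
    refine ⟨hq, Finset.sum_eq_zero fun e _ => ?_⟩
    unfold dL
    split_ifs with hi'
    · rw [win_const hi' (h.lo e i hi') hq, mul_zero, mul_zero]
    · rw [mul_zero]
  · have h1 := hb.zero
    simp only [Sys.pt, sys, Complex.ofReal_zero, zero_mul, add_zero] at h1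
    exact sub_eq_zero.1 h1
  · have h1 := hb.rad i
    simp only [Sys.pt, sys, zero_mul, mul_zero, add_zero] at h1
    exact h1
  · have h1 := hb.ang i
    simp only [Sys.pt, sys, zero_mul, mul_zero, add_zero] at h1
    exact h1

/-! ### from the conormal of the derivative to a bad point -/

theorem mag_own (z : E4) (i : Fin 4) : mag (EE b D (.inl i)) z = rr (D3 b) z i :=
  PolCpt_943.mag_single i (D3 b i) z

theorem mag_share {be : Fin 4 → ℝ} {E : Fin 4 → ℝ} (hE : ∀ j, E j = be j * D3 b j) (z : E4) :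
    mag E z = ∏ j, |rr (D3 b) z j| ^ be j := by
  rw [mag]
  refine Finset.prod_congr rfl fun j _ => ?_
  rw [abs_rr, rr, hE, mul_comm, Real.rpow_mul (norm_nonneg _)]

theorem mag_c0 (z : E4) : mag (EE b D (.inr (.inl 0))) z =
    ∏ j, |rr (D3 b) z j| ^ sh b false j := mag_share (vc_sh0 b) z

theorem mag_c1 (z : E4) : mag (EE b D (.inr (.inl 1))) z =
    ∏ j, |rr (D3 b) z j| ^ sh b true j := mag_share (vc_sh1 b) z

theorem re_term (ζ : ℂ) (a m : ℝ) (c : ℂ) :
    (conj ζ * ((a : ℂ) * ((m : ℂ) * c))).re = a * (m * (conj ζ * c).re) := by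
  have : conj ζ * ((a : ℂ) * ((m : ℂ) * c)) = ((a * m : ℝ) : ℂ) * (conj ζ * c) := by
    push_cast; ring
  rw [this, Complex.re_ofReal_mul, mul_assoc]

theorem re_term' (ζ : ℂ) (m : ℝ) (c : ℂ) :
    (conj ζ * ((m : ℂ) * c)).re = m * (conj ζ * c).re := by
  have : conj ζ * ((m : ℂ) * c) = ((m : ℝ) : ℂ) * (conj ζ * c) := by ring
  rw [this, Complex.re_ofReal_mul]

theorem re_ofReal (ζ : ℂ) (x : ℝ) : (conj ζ * (x : ℂ)).re = x * ζ.re := by
  rw [mul_comm, Complex.re_ofReal_mul, Complex.conj_re]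

include h in
theorem bridge (M : ℝ) {t : ℝ} {z : E4} (h0 : Fn b D M (t, z) = 0) {ζ : ℂ}
    (hc : ∀ y : E4, (conj ζ * fderiv ℝ (Fn b D M) (t, z) (0, y)).re = 0) :
    ((sys b D).pt (t, ag z) (rr (D3 b) z) (M * ∏ j, |rr (D3 b) z j| ^ sh b false j)
      (M * ∏ j, |rr (D3 b) z j| ^ sh b true j)).Bad ζ := by
  refine ⟨?_, fun i => ?_, fun i => ?_⟩
  · -- the value
    unfold Fn PF at h0
    simp only [PM, Fintype.sum_sum_type, Fin.sum_univ_two, mag_own, mag_c0, mag_c1, mag_box, Cf,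
      boxH, HB] at h0
    simp only [Sys.pt, sys, mv]
    rw [← h0]
    have e1 : ∀ e : Fin D.nb, Hm (D.bx e).S (rr (D3 b) z) * ∏ j ∈ (D.bx e).S,
        ww D e j (z j).arg = Ht (D.bx e).S (rr (D3 b) z) * La D e (ag z) := fun e => by
      rw [Ht_rr]; rfl
    simp only [e1]
    have e2 : (((1 - t) * ∑ e, cd D e * cc D e * (Ht (D.bx e).S (rr (D3 b) z) *
        La D e (ag z)) : ℝ) : ℂ) - ∑ e : Fin D.nb, ((Gt (D.bx e).S (rr (D3 b) z) : ℝ) : ℂ) *
          (-((t * (cc D e * La D e (ag z)) : ℝ) : ℂ)) =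
        ((∑ e, ((1 - t) * (cd D e * cc D e * Ht (D.bx e).S (rr (D3 b) z)) +
          t * (cc D e * Gt (D.bx e).S (rr (D3 b) z))) * La D e (ag z) : ℝ) : ℂ) := by
      rw [Finset.mul_sum]
      push_cast
      rw [← Finset.sum_sub_distrib]
      refine Finset.sum_congr rfl fun e _ => ?_
      ring
    rw [← e2]
    push_cast
    ring
  · -- radial
    have h1 := hc (Pi.single i (z i))
    rw [fderiv_Fn h, fderiv_radial isOpen_univ (coef h M) (mem_univ t), fderiv_boxH_rad h, mul_sub,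
      Complex.sub_re, re_ofReal, Finset.mul_sum, Complex.re_sum] at h1
    simp only [PM, re_term, Fintype.sum_sum_type, Fin.sum_univ_two, mag_own, mag_c0, mag_c1,
      mag_box, Cf] at h1
    simp only [EE] at h1
    rw [re_term', re_term'] at h1
    have e1 : ∑ x, (Pi.single x (D3 b x) : Fin 4 → ℝ) i * (rr (D3 b) z x *
        (conj ζ * cis (pp D x (ag z x))).re) =
        D3 b i * (rr (D3 b) z i * rp ζ (cis (pp D i (ag z i)))) := by
      rw [Finset.sum_eq_single i]
      · rw [Pi.single_eq_same]; rfl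
      · intro x _ hx
        rw [Pi.single_eq_of_ne (Ne.symm hx), zero_mul]
      · intro hi; exact absurd (Finset.mem_univ i) hi
    have e2 : ∑ e : Fin D.nb, (if i ∈ (D.bx e).S then D3 b i / cd D e else 0) *
        (Gt (D.bx e).S (rr (D3 b) z) *
          (conj ζ * (-((t * (cc D e * La D e (ag z)) : ℝ) : ℂ))).re) -
        (1 - t) * (∑ e, cd D e * cc D e * (D3 b i * Hn (D.bx e).S i (rr (D3 b) z) *
          La D e (ag z))) * ζ.re =
        -(D3 b i * ((∑ e, ((1 - t) * (cd D e * cc D e * Hn (D.bx e).S i (rr (D3 b) z)) +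
          t * (cc D e * Gn (D.bx e).S i (rr (D3 b) z))) * La D e (ag z)) * ζ.re)) := by
      rw [Finset.mul_sum, Finset.sum_mul, Finset.sum_mul, Finset.mul_sum,
        ← Finset.sum_sub_distrib, ← Finset.sum_neg_distrib]
      refine Finset.sum_congr rfl fun e _ => ?_
      rw [re_neg]
      have e3 : (if i ∈ (D.bx e).S then D3 b i / cd D e else 0) * Gt (D.bx e).S (rr (D3 b) z) =
          D3 b i * Gn (D.bx e).S i (rr (D3 b) z) := by
        unfold Gn
        split_ifs
        · unfold cd; ring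
        · ring
      linear_combination (-(t * (cc D e * La D e (ag z)) * ζ.re)) * e3
    simp only [Sys.pt, sys, mn]
    have hD := (D3_pos b i).ne'
    refine mul_left_cancel₀ hD ?_
    have v0 := vc_sh0 b i
    have v1 := vc_sh1 b i
    rw [e1, v0, v1] at h1
    have r0 : (conj ζ * cis (lin b 0 (ag z))).re = rp ζ (cis (lin b 0 (ag z))) := rfl
    have r1 : (conj ζ * cis (lin b 1 (ag z))).re = rp ζ (cis (lin b 1 (ag z))) := rfl
    rw [r0, r1] at h1
    linear_combination h1 - e2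
  · -- angular
    have h1 := hc (Pi.single i (Complex.I * z i))
    rw [fderiv_Fn h, fderiv_angular isOpen_univ (coef h M) (mem_univ t), fderiv_boxH_ang h,
      mul_sub, Complex.sub_re, re_ofReal, Finset.mul_sum, Complex.re_sum] at h1
    simp only [re_term', Fintype.sum_sum_type, Fin.sum_univ_two, mag_own, mag_c0, mag_c1,
      mag_box, dC_own, dC_cpl, dC_box h] at h1
    have e1 : ∑ x, rr (D3 b) z x * (conj ζ * (if i = x then
        ((deriv (pp D x) (ag z x) : ℝ) : ℂ) * (Complex.I * cis (pp D x (ag z x))) else 0)).re =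
        -(deriv (pp D i) (ag z i) * (rr (D3 b) z i * ip ζ (cis (pp D i (ag z i))))) := by
      rw [Finset.sum_eq_single i]
      · rw [if_pos rfl, re_I]; ring
      · intro x _ hx
        rw [if_neg (Ne.symm hx), mul_zero, Complex.zero_re, mul_zero]
      · intro hi; exact absurd (Finset.mem_univ i) hi
    rw [e1] at h1
    have e2 : ∑ e : Fin D.nb, Gt (D.bx e).S (rr (D3 b) z) *
        (conj ζ * (-((t * (cc D e * dL (D.bx e).S (ww D e) i (ag z)) : ℝ) : ℂ))).re -
        (1 - t) * (∑ e, cd D e * cc D e * (Ht (D.bx e).S (rr (D3 b) z) *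
          dL (D.bx e).S (ww D e) i (ag z))) * ζ.re =
        -((∑ e, ((1 - t) * (cd D e * cc D e * Ht (D.bx e).S (rr (D3 b) z)) +
          t * (cc D e * Gt (D.bx e).S (rr (D3 b) z))) *
            dL (D.bx e).S (ww D e) i (ag z)) * ζ.re) := by
      rw [Finset.mul_sum, Finset.sum_mul, Finset.sum_mul,
        ← Finset.sum_sub_distrib, ← Finset.sum_neg_distrib]
      refine Finset.sum_congr rfl fun e _ => ?_
      rw [re_neg]
      ring
    have e3 : ∀ w : ℂ, (conj ζ * (Complex.I * w)).re = -ip ζ w := fun w => by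
      have := re_I ζ w 1
      rwa [Complex.ofReal_one, one_mul, one_mul] at this
    rw [e3, e3] at h1
    simp only [Sys.pt, sys, mv]
    linear_combination -h1 + e2

/-! ### the arrow -/

include h in
theorem B0_nonneg {y : ℝ × (Fin 4 → ℝ)} (hy : y.1 ∈ Icc (0 : ℝ) 1) (r : Fin 4 → ℝ) :
    0 ≤ (sys b D).B0 (y, r) := by
  show 0 ≤ ∑ e, mv D e (y, r) * La D e y.2
  exact Finset.sum_nonneg fun e _ => mul_nonneg (mv_nonneg e hy y.2 r) (La_nonneg h e _)

include h in
/-- **arrow C3b, literal form**: harmonic boxes → product boxes. -/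
theorem boxP' : BoxP b D := by
  have hK : IsCompact (Icc (0 : ℝ) 1 ×ˢ (Set.pi univ fun _ : Fin 4 => Icc (-Real.pi) Real.pi)) :=
    isCompact_Icc.prod (isCompact_univ_pi fun _ => isCompact_Icc)
  obtain ⟨κ, hκ, H⟩ := Start_862.start b (sys b D) (cont h) hom hK (StLit_143.sh_al b)
    (StLit_143.sh_al b) (η := 1 / 2) (by norm_num) (fun y _ => norm_cis _) (fun y _ => norm_cis _)
    (fun y hy r _ => B0_nonneg h hy.1 r)
    (fun y _ r i hr => N_zero y r i hr) (fun y _ r i hr => T_zero y r i hr)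
    (fun y _ => StLit_143.nonDeg_sh b) (fun y _ => Or.inl (nonDeg_vc b))
    (fun y hy r hr hr0 ζ hζ => own_reg h hy.1 y.2 r hr hr0 hζ)
  refine ⟨2 / κ, fun M hM => ?_⟩
  have hM0 : 0 < M := lt_of_lt_of_le (by positivity) hM
  have hMκ : M⁻¹ < κ := by
    rw [inv_lt_comm₀ hM0 hκ]
    have : κ⁻¹ < 2 / κ := by
      rw [inv_eq_one_div]
      exact div_lt_div_of_pos_right (by norm_num) hκ
    exact this.trans_le hM
  have hF : (fun q : ℝ × E4 => Fs b D Gs (fun _ => 0) (fun _ _ => M) (fun _ _ => M) (0, q.2) +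
      (((1 - q.1) * (HubDefs_284.boxP D (D3 b) q.2 - boxH D (D3 b) q.2) : ℝ) : ℂ)) = Fn b D M :=
    funext fun q => Fn_eq b D M q
  rw [hF]
  refine ⟨⟨univ, isOpen_univ, subset_univ _, (contDiff_Fn h M).mono
    fun _ _ => ⟨mem_univ _, mem_univ _⟩⟩, fun t _ => ⟨fun i => (D3 b i)⁻¹,
    fun i => inv_pos.2 (D3_pos b i), fun s x => Fn_wh M t s x⟩, fun t ht z hz h0 c => ?_⟩
  by_contra hne
  push Not at hne
  let L : E4 →ₗ[ℝ] ℂ := ((fderiv ℝ (Fn b D M) (t, z)).comp
    (ContinuousLinearMap.inr ℝ ℝ E4)).toLinearMap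
  have hL : ∀ y, L y = fderiv ℝ (Fn b D M) (t, z) (0, y) := fun y => rfl
  obtain ⟨ζ, hζ, h1⟩ := exists_conormal L fun hall => by
    obtain ⟨y, hy⟩ := hall c
    exact hne y hy
  have hbad := bridge h M h0 (ζ := ζ) fun y => by rw [← hL]; exact h1 y
  have hr := rr_nonneg (D3 b) z
  have hpa : 0 ≤ ∏ j, |rr (D3 b) z j| ^ sh b false j :=
    Finset.prod_nonneg fun _ _ => Real.rpow_nonneg (abs_nonneg _) _
  have hpb : 0 ≤ ∏ j, |rr (D3 b) z j| ^ sh b true j :=
    Finset.prod_nonneg fun _ _ => Real.rpow_nonneg (abs_nonneg _) _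
  refine H M⁻¹ (inv_pos.2 hM0).le hMκ (t, ag z) ⟨ht, fun i _ => ?_⟩ (rr (D3 b) z) _ _ ζ
    ⟨hr, mul_nonneg hM0.le hpa, mul_nonneg hM0.le hpb, ?_⟩ hζ ?_ hbad
  · exact ⟨(Complex.neg_pi_lt_arg _).le, Complex.arg_le_pi _⟩
  · obtain ⟨i, hi⟩ : ∃ i, z i ≠ 0 := by
      by_contra h'
      push Not at h'
      exact hz (funext h')
    have h2 : 0 < rr (D3 b) z i := rr_pos hi
    have h3 : rr (D3 b) z i ≤ ∑ j, rr (D3 b) z j :=
      Finset.single_le_sum (fun j _ => hr j) (Finset.mem_univ i)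
    have h4 := mul_nonneg hM0.le hpa
    have h5 := mul_nonneg hM0.le hpb
    linarith
  · rw [StLit_143.prod_a hr, StLit_143.prod_b hr]
    exact Start_862.mem_Rel_pure b (t, ag z) hM0 (hr 0)

end system

/-- **arrow C3b** for `f` (`b = true`, `D = DfL`) and `g` (`b = false`, `D = DgL`). -/
theorem boxP (b : Bool) (D : SD 4)
    (hlo : ∀ e, ∀ j ∈ (D.bx e).S, (D.bx e).lo j ≤ (D.bx e).hi j)
    (hcd : ∀ e, (D.bx e).S.card ≤ 3) : BoxP b D := boxP' ⟨hlo, hcd⟩


end Crest.Agent.R267.HarmProd_896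
end
private theorem rz_bb47408499 : type_of% @_root_.Crest.Agent.R267.HarmProd_896.Cf.eq_1 := @_root_.Crest.Agent.R267.HarmProd_896.Cf.eq_1 -- L114
private theorem rz_4240ef5369 : type_of% @_root_.Crest.Agent.R267.HarmProd_896.EE.eq_1 := @_root_.Crest.Agent.R267.HarmProd_896.EE.eq_1 -- L102
end

-- ▼ part R267/BoxLit_896

/-!
# S0406, arrow C3b for 330's literal data (helper896)
-/

set_option autoImplicit false

noncomputable section

open Finset
open Crest.Agent.R267.T3aNDefs_88 Crest.Agent.R267.SFLDa_330 Crest.Agent.R267.SFLDb_330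
open Crest.Agent.R267.SFLD_330 Crest.Agent.R267.SFLDc_330 Crest.Agent.R267.HubDefs_284

namespace Crest.Agent.R267.BoxLit_896

theorem lo_mk {neg : Fin 4 → ℕ → Bool} {L : List B4} {h2 : ∀ b ∈ L, 2 ≤ (mkB b).S.card}
    {hhi : ∀ b ∈ L, ∀ j ∈ (mkB b).S, (mkB b).hi j ≤ MM j}
    (h : ∀ b ∈ L, ∀ j ∈ (mkB b).S, (mkB b).lo j ≤ (mkB b).hi j)
    (e : Fin (mkD neg L h2 hhi).nb) : ∀ j ∈ ((mkD neg L h2 hhi).bx e).S,
    ((mkD neg L h2 hhi).bx e).lo j ≤ ((mkD neg L h2 hhi).bx e).hi j :=
  h _ (List.get_mem L e)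

theorem lo_fL (e : Fin DfL.nb) : ∀ j ∈ (DfL.bx e).S, (DfL.bx e).lo j ≤ (DfL.bx e).hi j :=
  lo_mk (by decide +kernel) e

theorem lo_gL (e : Fin DgL.nb) : ∀ j ∈ (DgL.bx e).S, (DgL.bx e).lo j ≤ (DgL.bx e).hi j :=
  lo_mk (by decide +kernel) e

/-- **arrow C3b for `f`** -/
theorem boxP_f : BoxP true DfL := HarmProd_896.boxP true DfL lo_fL card_fL

/-- **arrow C3b for `g`** -/
theorem boxP_g : BoxP false DgL := HarmProd_896.boxP false DgL lo_gL card_gL

end Crest.Agent.R267.BoxLit_896
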