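import Crest.Agent.R267.Calc4_957

/-!
# Row 267, T3a: the derivatives of `G` in the region II in the form used for K1, K2 and R4
-/

set_option autoImplicit false

noncomputable section

namespace Crest.Agent.R267.Calc5_957

open Finset T3aDefs_957 Calc_957 Calc2_957 Calc3_957 Calc4_957

variable {N : ℕ} {D : LD N}

/-- value of the planar functions of a variable which is not in a window, or with `s ≤ 0`. -/
theorem pl_out {ga : ℝ} {z : Fin N → ℂ} {j : Fin N} (h : (z j).re ≤ 0 ∨ ¬ Wd D z j) :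
    pl ga (D.M j) (z j) = -((2 - ga : ℝ) : ℂ) * (z j).re - Complex.I * (z j).im := by
  rcases h with h | h
  · exact pl_of_nonpos h
  · rcases le_or_gt (z j).re 0 with h0 | h0
    · exact pl_of_nonpos h0
    · refine pl_of_far (Or.inl ?_)
      have h1 := le_K D j
      unfold Wd at h
      rw [not_le, abs_of_pos h0] at h
      nlinarith

theorem tau_out {z : Fin N → ℂ} {j : Fin N} (h0 : 0 < (z j).re) (h : ¬ Wd D z j) :
    8 * (D.M j : ℝ) + 1 ≤ tau z j ∨ tau z j ≤ 1 := by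
  have h1 := le_K D j
  unfold Wd at h
  rw [not_le, abs_of_pos h0] at h
  unfold tau
  rcases le_total 0 (z j).im with h2 | h2
  · rw [abs_of_nonneg h2] at h
    left
    rw [le_div_iff₀ h0]
    nlinarith
  · right
    rw [div_le_iff₀ h0]
    linarith

theorem pvd_high' {M : ℕ} {τ : ℝ} (h : 8 * (M : ℝ) + 1 ≤ τ) : pvd M τ = -Complex.I := by
  rw [pvd_high (by linarith), std_of_ge (by linarith)]
  simp


theorem pb_out {z : Fin N → ℂ} {j : Fin N} (h : (z j).re ≤ 0 ∨ ¬ Wd D z j) :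
    pb (D.M j) (z j) = -Complex.I := by
  unfold pb
  rcases le_or_gt (z j).re 0 with h0 | h0
  · rw [if_neg (not_lt.2 h0)]
  · rw [if_pos h0]
    rcases h with h | h
    · exact absurd h0 (not_lt.2 h)
    · rcases tau_out h0 h with h1 | h1
      · exact pvd_high' h1
      · exact pvd_low h1



theorem pb_in {z : Fin N → ℂ} {j : Fin N} (h0 : 0 < (z j).re) :
    pb (D.M j) (z j) = pvd (D.M j) (tau z j) := if_pos h0

theorem pl_in {ga : ℝ} {z : Fin N → ℂ} {j : Fin N} (h0 : 0 < (z j).re) :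
    pl ga (D.M j) (z j) = ((z j).re : ℂ) * pv ga (D.M j) (tau z j) := pl_of_pos h0


/-! ### the numbers `tB`, `HB` -/

theorem tB_out {cB ga d : ℝ} {z : Fin N → ℂ} {j : Fin N} (h : (z j).re ≤ 0 ∨ ¬ Wd D z j) :
    tB D cB ga d z j = 0 := by
  classical
  unfold tB
  rw [mul_eq_zero]
  right
  refine sum_eq_zero fun e _ => ?_
  have key : ∀ i, i = j → (z i).re ≤ 0 ∨ (0 < (z i).re ∧ ¬ Wd D z i) := by
    intro i hi
    subst hi
    rcases le_or_gt (z i).re 0 with h0 | h0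
    · exact Or.inl h0
    · rcases h with h | h
      · exact Or.inl h
      · exact Or.inr ⟨h0, h⟩
  by_cases a1 : e.1 = j
  · rcases key _ a1 with h1 | ⟨h1, h2⟩
    · rw [hh_of_left h1, zero_mul]
    · rw [(steep_left h1 h2).1, (steep_left h1 h2).2]
      simp
  · by_cases a2 : e.2.1 = j
    · rcases key _ a2 with h1 | ⟨h1, h2⟩
      · rw [hh_of_right h1, zero_mul]
      · rw [(steep_right h1 h2).1, (steep_right h1 h2).2]
        simp
    · simp [a1, a2]




/-! ### `dT` in the region II -/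

theorem dT_vt (ga d : ℝ) {z : Fin N → ℂ} (hII : II D z) (j : Fin N)
    (Y : Fin N → ℝ) : dT D ga d z j (LD.vt Y) =
      (Y j : ℂ) * (((chid d (D.xr z j) * (pt D.K (z j) / √(AA z)) : ℝ) : ℂ) *
        pl ga (D.M j) (z j) + (D.ch d z j : ℂ) * pb (D.M j) (z j)) := by
  rw [dT_apply, hII.dch_vt, vt_re, vt_im]
  push_cast
  ring

theorem dT_vt_single (ga d : ℝ) {z : Fin N → ℂ} (hII : II D z) (j : Fin N) :
    ∑ i, dT D ga d z i (LD.vt (Pi.single j (1 : ℝ))) =
      ((chid d (D.xr z j) * (pt D.K (z j) / √(AA z)) : ℝ) : ℂ) *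
        pl ga (D.M j) (z j) + (D.ch d z j : ℂ) * pb (D.M j) (z j) := by
  rw [sum_eq_single j]
  · rw [dT_vt ga d hII, Pi.single_eq_same]
    simp
  · intro i _ hi
    rw [dT_vt ga d hII, Pi.single_eq_of_ne hi]
    simp
  · intro h
    exact absurd (mem_univ j) h

/-- **the fibre derivatives of `G` in the region II.** -/
theorem w_gen (cB ga : ℝ) {d : ℝ} (hd : 0 < d) {z : Fin N → ℂ} (hz : z ≠ 0) (hII : II D z)
    (j : Fin N) : fderiv ℝ (D.G cB ga d) z (LD.vt (Pi.single j (1 : ℝ))) =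
      ((chid d (D.xr z j) * (pt D.K (z j) / √(AA z)) : ℝ) : ℂ) *
        pl ga (D.M j) (z j) + (D.ch d z j : ℂ) * pb (D.M j) (z j) -
      (tB D cB ga d z j : ℂ) := by
  rw [fderiv_G D cB ga hd hz, dG_apply, hII.sum_dBe_vt, dT_vt_single ga d hII]

/-- window variable, `s > 0`. -/
theorem w_pos (cB ga : ℝ) {d : ℝ} (hd : 0 < d) {z : Fin N → ℂ} (hz : z ≠ 0) (hII : II D z)
    {j : Fin N} (hj : 0 < (z j).re) (hW : Wd D z j) :
    fderiv ℝ (D.G cB ga d) z (LD.vt (Pi.single j (1 : ℝ))) =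
      (D.ch d z j : ℂ) * pvd (D.M j) (tau z j) - (tB D cB ga d z j : ℂ) := by
  rw [w_gen cB ga hd hz hII, pt_of_le (K_nonneg D) hW, pb_in hj]
  simp

/-- window variable, `s ≤ 0`. -/
theorem w_neg (cB ga : ℝ) {d : ℝ} (hd : 0 < d) {z : Fin N → ℂ} (hz : z ≠ 0) (hII : II D z)
    {j : Fin N} (hj : (z j).re ≤ 0) (hW : Wd D z j) :
    fderiv ℝ (D.G cB ga d) z (LD.vt (Pi.single j (1 : ℝ))) =
      -(Complex.I * (D.ch d z j : ℂ)) := by
  rw [w_gen cB ga hd hz hII, pt_of_le (K_nonneg D) hW, pb_out (Or.inl hj), tB_out (Or.inl hj)]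
  simp
  ring

/-- derivative of the cut-off in the direction `t_j`, steep variable. -/
def aO (D : LD N) (d : ℝ) (z : Fin N → ℂ) (j : Fin N) : ℝ :=
  chid d (D.xr z j) * (pt D.K (z j) / √(AA z))

/-- steep variable. -/
theorem w_out (cB ga : ℝ) {d : ℝ} (hd : 0 < d) {z : Fin N → ℂ} (hz : z ≠ 0) (hII : II D z)
    {j : Fin N} (hW : ¬ Wd D z j) :
    fderiv ℝ (D.G cB ga d) z (LD.vt (Pi.single j (1 : ℝ))) =
      -(Complex.I * (D.ch d z j : ℂ)) + (aO D d z j : ℂ) * pl ga (D.M j) (z j) := by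
  rw [w_gen cB ga hd hz hII, pb_out (Or.inr hW), tB_out (Or.inr hW)]
  unfold aO
  simp
  ring

/-- linearity in the fibre direction. -/
theorem w_vt (cB ga d : ℝ) (z : Fin N → ℂ) (Y : Fin N → ℝ) :
    fderiv ℝ (D.G cB ga d) z (LD.vt Y) =
      ∑ j, (Y j : ℂ) * fderiv ℝ (D.G cB ga d) z (LD.vt (Pi.single j (1 : ℝ))) := by
  rw [vt_eq_sum Y, map_sum]
  refine sum_congr rfl fun j _ => ?_
  rw [map_smul, Complex.real_smul]


/-! ### the direction `(-1, …, -1)` -/







/-! ### elementary bounds in the region II -/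


end Crest.Agent.R267.Calc5_957
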