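import Mathlib
import Crest.Agent.R267.FlowG_951
import Crest.Agent.R267.Reg_808
import Crest.Agent.R267.SphReg_808
import Crest.Agent.R267.Hm_951
import Crest.Agent.R267.T3aDefs_957

-- ▼ part R267/FlTop_363
section

/-!
# Row 267 (helper363): flow-line lemma, topological part

A flow `φ` on a compact Hausdorff space `X`, an invariant function `c`, and two continuous functions
`g, h` such that over `{|c| ≤ δ}` the sets `{g ≥ 0} ⊇ {h ≥ 0}` are strictly forward invariant and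
`φ_T {g ≥ 0} ⊆ {h ≥ 0}`. Then a homeomorphism of `X`, which preserves `c` and is the identity on
`{|c| ≥ δ}`, carries `{c = 0, g = 0}` to `{c = 0, h = 0}` and `{c = 0, g > 0}` to
`{c = 0, h > 0}`.
-/

set_option autoImplicit false
set_option linter.unusedSectionVars false
set_option linter.unusedVariables false

noncomputable section

open Set Filter Topology

namespace Crest.Agent.R267.FlTop_363

/-! ### the tent reparametrisation of the line -/

/-- the shift `ψ_D(u) - u` -/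
def sh (D u : ℝ) : ℝ := D * max 0 (min (u + 1) (1 - u / (D + 1)))

/-- the shift of the inverse -/
def shi (D v : ℝ) : ℝ := D * max 0 (min ((v + 1) / (D + 1)) (D + 1 - v))

theorem sh_nonneg {D : ℝ} (hD : 0 ≤ D) (u : ℝ) : 0 ≤ sh D u := mul_nonneg hD (le_max_left _ _)

theorem sh_le {D : ℝ} (hD : 0 ≤ D) (u : ℝ) : sh D u ≤ D := by
  unfold sh
  have h1 : max 0 (min (u + 1) (1 - u / (D + 1))) ≤ 1 := by
    refine max_le zero_le_one ?_
    by_cases hu : u ≤ 0
    · exact (min_le_left _ _).trans (by linarith)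
    · refine (min_le_right _ _).trans ?_
      have : 0 ≤ u / (D + 1) := div_nonneg (by linarith) (by linarith)
      linarith
  calc D * max 0 (min (u + 1) (1 - u / (D + 1))) ≤ D * 1 := mul_le_mul_of_nonneg_left h1 hD
    _ = D := mul_one D

theorem sh_zero (u : ℝ) : sh 0 u = 0 := by simp [sh]

theorem sh_of_le {D u : ℝ} (hu : u ≤ -1) : sh D u = 0 := by
  unfold sh
  rw [max_eq_left, mul_zero]
  exact (min_le_left _ _).trans (by linarith)

theorem sh_of_ge {D u : ℝ} (hD : 0 ≤ D) (hu : D + 1 ≤ u) : sh D u = 0 := by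
  unfold sh
  rw [max_eq_left, mul_zero]
  refine (min_le_right _ _).trans ?_
  have h1 : 1 ≤ u / (D + 1) := by
    rw [le_div_iff₀ (by linarith)]
    linarith
  linarith

theorem sh_of_mem1 {D u : ℝ} (hD : 0 ≤ D) (h1 : -1 ≤ u) (h2 : u ≤ 0) : sh D u = D * (u + 1) := by
  unfold sh
  have h3 : min (u + 1) (1 - u / (D + 1)) = u + 1 := by
    refine min_eq_left ?_
    have : u / (D + 1) ≤ 0 := div_nonpos_of_nonpos_of_nonneg h2 (by linarith)
    linarith
  rw [h3, max_eq_right (by linarith)]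

theorem sh_of_mem2 {D u : ℝ} (hD : 0 ≤ D) (h1 : 0 ≤ u) (h2 : u ≤ D + 1) :
    sh D u = D * (1 - u / (D + 1)) := by
  unfold sh
  have h3 : min (u + 1) (1 - u / (D + 1)) = 1 - u / (D + 1) := by
    refine min_eq_right ?_
    have : 0 ≤ u / (D + 1) := div_nonneg h1 (by linarith)
    linarith
  rw [h3, max_eq_right]
  have : u / (D + 1) ≤ 1 := by
    rw [div_le_one (by linarith)]
    exact h2
  linarith

theorem shi_of_le {D v : ℝ} (hD : 0 ≤ D) (hv : v ≤ -1) : shi D v = 0 := by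
  unfold shi
  rw [max_eq_left, mul_zero]
  exact (min_le_left _ _).trans (div_nonpos_of_nonpos_of_nonneg (by linarith) (by linarith))

theorem shi_of_ge {D v : ℝ} (hv : D + 1 ≤ v) : shi D v = 0 := by
  unfold shi
  rw [max_eq_left, mul_zero]
  exact (min_le_right _ _).trans (by linarith)

theorem shi_of_mem1 {D v : ℝ} (hD : 0 ≤ D) (h1 : -1 ≤ v) (h2 : v ≤ D) :
    shi D v = D * ((v + 1) / (D + 1)) := by
  unfold shi
  have h3 : min ((v + 1) / (D + 1)) (D + 1 - v) = (v + 1) / (D + 1) := by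
    refine min_eq_left ?_
    rw [div_le_iff₀ (by linarith)]
    nlinarith
  rw [h3, max_eq_right (div_nonneg (by linarith) (by linarith))]

theorem shi_of_mem2 {D v : ℝ} (hD : 0 ≤ D) (h1 : D ≤ v) (h2 : v ≤ D + 1) :
    shi D v = D * (D + 1 - v) := by
  unfold shi
  have h3 : min ((v + 1) / (D + 1)) (D + 1 - v) = D + 1 - v := by
    refine min_eq_right ?_
    rw [le_div_iff₀ (by linarith)]
    nlinarith
  rw [h3, max_eq_right (by linarith)]

/-- `ψ_D^{-1} (ψ_D u) = u` -/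
theorem sub_shi {D : ℝ} (hD : 0 ≤ D) (u : ℝ) : u + sh D u - shi D (u + sh D u) = u := by
  have hD1 : D + 1 ≠ 0 := by linarith
  rcases le_total u (-1) with h1 | h1
  · rw [sh_of_le h1, add_zero, shi_of_le hD h1, sub_zero]
  rcases le_total u 0 with h2 | h2
  · rw [sh_of_mem1 hD h1 h2, shi_of_mem1 hD (by nlinarith) (by nlinarith)]
    field_simp
    ring
  rcases le_total u (D + 1) with h3 | h3
  · have h4 : u / (D + 1) ≤ 1 := by
      rw [div_le_one (by linarith)]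
      exact h3
    have h5 : u / (D + 1) * (D + 1) = u := div_mul_cancel₀ u hD1
    have h6 : 0 ≤ u / (D + 1) := div_nonneg h2 (by linarith)
    have h7 : u + D * (1 - u / (D + 1)) = D + u / (D + 1) := by
      have : u = u / (D + 1) * (D + 1) := h5.symm
      linear_combination this
    rw [sh_of_mem2 hD h2 h3, h7, shi_of_mem2 hD (by linarith) (by linarith)]
    linear_combination h5
  · rw [sh_of_ge hD h3, add_zero, shi_of_ge h3, sub_zero]

/-- `ψ_D (ψ_D^{-1} v) = v` -/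
theorem add_sh {D : ℝ} (hD : 0 ≤ D) (v : ℝ) : v - shi D v + sh D (v - shi D v) = v := by
  have hD1 : D + 1 ≠ 0 := by linarith
  rcases le_total v (-1) with h1 | h1
  · rw [shi_of_le hD h1, sub_zero, sh_of_le h1, add_zero]
  rcases le_total v D with h2 | h2
  · have h5 : (v + 1) / (D + 1) * (D + 1) = v + 1 := div_mul_cancel₀ _ hD1
    have h6 : 0 ≤ (v + 1) / (D + 1) := div_nonneg (by linarith) (by linarith)
    have h4 : (v + 1) / (D + 1) ≤ 1 := by
      rw [div_le_one (by linarith)]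
      linarith
    have h7 : v - D * ((v + 1) / (D + 1)) = -1 + (v + 1) / (D + 1) := by linear_combination -h5
    rw [shi_of_mem1 hD h1 h2, h7, sh_of_mem1 hD (by linarith) (by linarith)]
    linear_combination h5
  rcases le_total v (D + 1) with h3 | h3
  · have h7 : v - D * (D + 1 - v) = (v - D) * (D + 1) := by ring
    rw [shi_of_mem2 hD h2 h3, h7, sh_of_mem2 hD (mul_nonneg (by linarith) (by linarith))
      (by nlinarith)]
    rw [mul_div_cancel_right₀ _ hD1]
    ring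
  · rw [shi_of_ge h3, sub_zero, sh_of_ge hD h3, add_zero]

/-- `ψ_D(u) - D` has the sign of `u` -/
theorem add_sh_lt_iff {D : ℝ} (hD : 0 ≤ D) (u : ℝ) : D < u + sh D u ↔ 0 < u := by
  rcases le_total u (-1) with h1 | h1
  · rw [sh_of_le h1]
    constructor <;> intro h <;> linarith
  rcases le_total u 0 with h2 | h2
  · rw [sh_of_mem1 hD h1 h2]
    constructor
    · intro h; nlinarith
    · intro h; nlinarith
  rcases le_total u (D + 1) with h3 | h3
  · have h5 : u / (D + 1) * (D + 1) = u := div_mul_cancel₀ u (by linarith)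
    rw [sh_of_mem2 hD h2 h3]
    have h7 : u + D * (1 - u / (D + 1)) = D + u / (D + 1) := by linear_combination -h5
    rw [h7]
    constructor
    · intro h
      have : 0 < u / (D + 1) := by linarith
      exact (div_pos_iff_of_pos_right (by linarith)).1 this
    · intro h
      have : 0 < u / (D + 1) := div_pos h (by linarith)
      linarith
  · rw [sh_of_ge hD h3]
    constructor <;> intro h <;> linarith

theorem add_sh_eq_iff {D : ℝ} (hD : 0 ≤ D) (u : ℝ) : u + sh D u = D ↔ u = 0 := by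
  constructor
  · intro h
    have h1 : sh D 0 = D := by rw [sh_of_mem1 hD (by norm_num) le_rfl]; ring
    have h2 := sub_shi hD u
    have h3 := sub_shi hD 0
    rw [h1, zero_add] at h3
    rw [h, h3] at h2
    exact h2.symm
  · rintro rfl
    rw [sh_of_mem1 hD (by norm_num) le_rfl]
    ring

theorem continuousOn_sh : ContinuousOn (fun p : ℝ × ℝ => sh p.1 p.2) {p | 0 ≤ p.1} := by
  unfold sh
  refine continuousOn_fst.mul (continuousOn_const.sup (ContinuousOn.inf (by fun_prop) ?_))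
  refine continuousOn_const.sub (continuousOn_snd.div (by fun_prop) fun p hp => ?_)
  have : (0 : ℝ) ≤ p.1 := hp
  linarith

/-! ### the flow-line lemma -/

section Top

variable {X : Type*} [TopologicalSpace X] [CompactSpace X] [T2Space X]

/-- hypotheses of the flow-line lemma -/
structure FL (φ : ℝ → X → X) (c g h : X → ℝ) (δ T : ℝ) : Prop where
  cφ : Continuous fun p : ℝ × X => φ p.1 p.2
  φ0 : ∀ x, φ 0 x = x
  φa : ∀ s t x, φ (s + t) x = φ s (φ t x)
  cc : Continuous c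
  cg : Continuous g
  ch : Continuous h
  inv : ∀ t x, c (φ t x) = c x
  hδ : 0 < δ
  hT : 0 ≤ T
  fg : ∀ x, |c x| ≤ δ → 0 ≤ g x → ∀ t, 0 < t → 0 < g (φ t x)
  fh : ∀ x, |c x| ≤ δ → 0 ≤ h x → ∀ t, 0 < t → 0 < h (φ t x)
  hg : ∀ x, |c x| ≤ δ → 0 ≤ h x → 0 ≤ g x
  gh : ∀ x, |c x| ≤ δ → 0 ≤ g x → 0 ≤ h (φ T x)

namespace FL

variable {φ : ℝ → X → X} {c g h : X → ℝ} {δ T : ℝ}

/-- points whose orbit meets `g = 0` -/
def W (φ : ℝ → X → X) (c g : X → ℝ) (δ : ℝ) : Set X := {x | |c x| ≤ δ ∧ ∃ t, g (φ t x) = 0}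

theorem cφx (H : FL φ c g h δ T) (x : X) : Continuous fun t => φ t x :=
  H.cφ.comp (by fun_prop : Continuous fun t : ℝ => (t, x))

theorem cφt (H : FL φ c g h δ T) (t : ℝ) : Continuous (φ t) :=
  H.cφ.comp (by fun_prop : Continuous fun x : X => (t, x))

theorem φneg (H : FL φ c g h δ T) (t : ℝ) (x : X) : φ (-t) (φ t x) = x := by
  rw [← H.φa, neg_add_cancel, H.φ0]

/-- sign of `g` along an orbit -/
theorem g_pos (H : FL φ c g h δ T) {x : X} (hx : |c x| ≤ δ) {s t : ℝ} (hs : 0 ≤ g (φ s x))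
    (hst : s < t) : 0 < g (φ t x) := by
  have h1 := H.fg (φ s x) (by rwa [H.inv]) hs (t - s) (by linarith)
  rwa [← H.φa, sub_add_cancel] at h1

theorem h_pos (H : FL φ c g h δ T) {x : X} (hx : |c x| ≤ δ) {s t : ℝ} (hs : 0 ≤ h (φ s x))
    (hst : s < t) : 0 < h (φ t x) := by
  have h1 := H.fh (φ s x) (by rwa [H.inv]) hs (t - s) (by linarith)
  rwa [← H.φa, sub_add_cancel] at h1

theorem g_neg (H : FL φ c g h δ T) {x : X} (hx : |c x| ≤ δ) {s t : ℝ} (hs : g (φ s x) ≤ 0)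
    (hst : t < s) : g (φ t x) < 0 := by
  by_contra h1
  exact absurd (H.g_pos hx (not_lt.1 h1) hst) (not_lt.2 hs)

theorem h_neg (H : FL φ c g h δ T) {x : X} (hx : |c x| ≤ δ) {s t : ℝ} (hs : h (φ s x) ≤ 0)
    (hst : t < s) : h (φ t x) < 0 := by
  by_contra h1
  exact absurd (H.h_pos hx (not_lt.1 h1) hst) (not_lt.2 hs)

/-- the time at which the orbit meets `g = 0` -/
def τ (φ : ℝ → X → X) (g : X → ℝ) (x : X) : ℝ :=
  open Classical in if h : ∃ t, g (φ t x) = 0 then h.choose else 0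

theorem τ_spec {x : X} (hx : ∃ t, g (φ t x) = 0) : g (φ (τ φ g x) x) = 0 := by
  unfold τ
  rw [dif_pos hx]
  exact hx.choose_spec

theorem exists_h (H : FL φ c g h δ T) {x : X} (hx : x ∈ W φ c g δ) : ∃ t, h (φ t x) = 0 := by
  obtain ⟨hc, t, ht⟩ := hx
  have h1 : h (φ (t - 1) x) ≤ 0 := by
    by_contra h2
    have h3 := H.hg (φ (t - 1) x) (by rwa [H.inv]) (not_le.1 h2).le
    exact absurd h3 (not_le.2 (H.g_neg hc ht.le (by linarith)))
  have h2 : 0 ≤ h (φ (T + t) x) := by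
    rw [H.φa]
    exact H.gh _ (by rwa [H.inv]) ht.ge
  have h3 : Continuous fun s => h (φ s x) := H.ch.comp (H.cφx x)
  obtain ⟨s, -, hs⟩ := intermediate_value_Icc (by linarith [H.hT] : t - 1 ≤ T + t) h3.continuousOn
    ⟨h1, h2⟩
  exact ⟨s, hs⟩

theorem τ_eq (H : FL φ c g h δ T) {x : X} (hx : |c x| ≤ δ) {t : ℝ} (ht : g (φ t x) = 0) :
    τ φ g x = t := by
  have h1 := τ_spec (φ := φ) ⟨t, ht⟩
  rcases lt_trichotomy (τ φ g x) t with h2 | h2 | h2
  · exact absurd (H.g_pos hx h1.ge h2) (by rw [ht]; exact lt_irrefl _)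
  · exact h2
  · exact absurd (H.g_pos hx ht.ge h2) (by rw [h1]; exact lt_irrefl _)

theorem τ'_eq (H : FL φ c g h δ T) {x : X} (hx : |c x| ≤ δ) {t : ℝ} (ht : h (φ t x) = 0) :
    τ φ h x = t := by
  have h1 := τ_spec (φ := φ) ⟨t, ht⟩
  rcases lt_trichotomy (τ φ h x) t with h2 | h2 | h2
  · exact absurd (H.h_pos hx h1.ge h2) (by rw [ht]; exact lt_irrefl _)
  · exact h2
  · exact absurd (H.h_pos hx ht.ge h2) (by rw [h1]; exact lt_irrefl _)

theorem le_τ' (H : FL φ c g h δ T) {x : X} (hx : x ∈ W φ c g δ) : τ φ g x ≤ τ φ h x := by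
  by_contra h1
  have h2 := τ_spec (H.exists_h hx)
  have h3 := H.hg (φ (τ φ h x) x) (by rw [H.inv]; exact hx.1) h2.ge
  exact absurd h3 (not_le.2 (H.g_neg hx.1 (τ_spec hx.2).le (not_le.1 h1)))

theorem τ'_le (H : FL φ c g h δ T) {x : X} (hx : x ∈ W φ c g δ) : τ φ h x ≤ τ φ g x + T := by
  by_contra h1
  have h2 := τ_spec (H.exists_h hx)
  have h3 : 0 ≤ h (φ (T + τ φ g x) x) := by
    rw [H.φa]
    exact H.gh _ (by rw [H.inv]; exact hx.1) (τ_spec hx.2).ge
  have h4 := H.h_neg hx.1 h2.le (by linarith [not_le.1 h1] : T + τ φ g x < τ φ h x)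
  linarith

theorem τ_flow (H : FL φ c g h δ T) {x : X} (hx : x ∈ W φ c g δ) (s : ℝ) :
    φ s x ∈ W φ c g δ ∧ τ φ g (φ s x) = τ φ g x - s ∧ τ φ h (φ s x) = τ φ h x - s := by
  have h1 : g (φ (τ φ g x - s) (φ s x)) = 0 := by
    rw [← H.φa, sub_add_cancel]
    exact τ_spec hx.2
  have h2 : h (φ (τ φ h x - s) (φ s x)) = 0 := by
    rw [← H.φa, sub_add_cancel]
    exact τ_spec (H.exists_h hx)
  have h3 : |c (φ s x)| ≤ δ := by rw [H.inv]; exact hx.1
  exact ⟨⟨h3, _, h1⟩, H.τ_eq h3 h1, H.τ'_eq h3 h2⟩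

/-- nearby points of `{|c| ≤ δ}` are in `W`, and `τ` is continuous -/
theorem near_τ (H : FL φ c g h δ T) {x : X} (hx : x ∈ W φ c g δ) {ε : ℝ} (hε : 0 < ε) :
    ∀ᶠ y in 𝓝 x, |c y| ≤ δ → y ∈ W φ c g δ ∧ |τ φ g y - τ φ g x| < ε := by
  have h1 : g (φ (τ φ g x - ε / 2) x) < 0 := H.g_neg hx.1 (τ_spec hx.2).le (by linarith)
  have h2 : 0 < g (φ (τ φ g x + ε / 2) x) := H.g_pos hx.1 (τ_spec hx.2).ge (by linarith)
  have c1 : Continuous fun y => g (φ (τ φ g x - ε / 2) y) := H.cg.comp (H.cφt _)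
  have c2 : Continuous fun y => g (φ (τ φ g x + ε / 2) y) := H.cg.comp (H.cφt _)
  filter_upwards [c1.continuousAt.eventually_lt continuousAt_const h1,
    continuousAt_const.eventually_lt c2.continuousAt h2] with y hy1 hy2 hc
  have h3 : Continuous fun s => g (φ s y) := H.cg.comp (H.cφx y)
  obtain ⟨s, hs1, hs2⟩ := intermediate_value_Icc
    (by linarith : τ φ g x - ε / 2 ≤ τ φ g x + ε / 2) h3.continuousOn ⟨hy1.le, hy2.le⟩
  refine ⟨⟨hc, s, hs2⟩, ?_⟩
  rw [H.τ_eq hc hs2, abs_lt]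
  constructor <;> linarith [hs1.1, hs1.2]

theorem near_τ' (H : FL φ c g h δ T) {x : X} (hx : x ∈ W φ c g δ) {ε : ℝ} (hε : 0 < ε) :
    ∀ᶠ y in 𝓝 x, |c y| ≤ δ → |τ φ h y - τ φ h x| < ε := by
  have h0 := τ_spec (H.exists_h hx)
  have h1 : h (φ (τ φ h x - ε / 2) x) < 0 := H.h_neg hx.1 h0.le (by linarith)
  have h2 : 0 < h (φ (τ φ h x + ε / 2) x) := H.h_pos hx.1 h0.ge (by linarith)
  have c1 : Continuous fun y => h (φ (τ φ h x - ε / 2) y) := H.ch.comp (H.cφt _)
  have c2 : Continuous fun y => h (φ (τ φ h x + ε / 2) y) := H.ch.comp (H.cφt _)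
  filter_upwards [c1.continuousAt.eventually_lt continuousAt_const h1,
    continuousAt_const.eventually_lt c2.continuousAt h2] with y hy1 hy2 hc
  have h3 : Continuous fun s => h (φ s y) := H.ch.comp (H.cφx y)
  obtain ⟨s, hs1, hs2⟩ := intermediate_value_Icc
    (by linarith : τ φ h x - ε / 2 ≤ τ φ h x + ε / 2) h3.continuousOn ⟨hy1.le, hy2.le⟩
  rw [H.τ'_eq hc hs2, abs_lt]
  constructor <;> linarith [hs1.1, hs1.2]

/-- the parameter `D` -/
def DD (φ : ℝ → X → X) (c g h : X → ℝ) (δ : ℝ) (x : X) : ℝ :=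
  max 0 (1 - |c x| / δ) * (τ φ h x - τ φ g x)

theorem DD_nonneg (H : FL φ c g h δ T) {x : X} (hx : x ∈ W φ c g δ) : 0 ≤ DD φ c g h δ x :=
  mul_nonneg (le_max_left _ _) (by linarith [H.le_τ' hx])

theorem DD_le (H : FL φ c g h δ T) {x : X} (hx : x ∈ W φ c g δ) : DD φ c g h δ x ≤ T := by
  have h1 : max 0 (1 - |c x| / δ) ≤ 1 := by
    refine max_le zero_le_one ?_
    have : 0 ≤ |c x| / δ := div_nonneg (abs_nonneg _) H.hδ.le
    linarith
  have h2 := H.le_τ' hx
  have h3 := H.τ'_le hx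
  calc DD φ c g h δ x ≤ 1 * (τ φ h x - τ φ g x) :=
        mul_le_mul_of_nonneg_right h1 (by linarith)
    _ ≤ T := by linarith

theorem DD_flow (H : FL φ c g h δ T) {x : X} (hx : x ∈ W φ c g δ) (s : ℝ) :
    DD φ c g h δ (φ s x) = DD φ c g h δ x := by
  obtain ⟨-, h1, h2⟩ := H.τ_flow hx s
  unfold DD
  rw [H.inv, h1, h2]
  ring

theorem DD_of_zero (H : FL φ c g h δ T) {x : X} (hx : c x = 0) :
    DD φ c g h δ x = τ φ h x - τ φ g x := by
  unfold DD
  rw [hx]
  simp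

open Classical in
/-- the time for which `x` is moved -/
def S (φ : ℝ → X → X) (c g h : X → ℝ) (δ : ℝ) (x : X) : ℝ :=
  if x ∈ W φ c g δ then sh (DD φ c g h δ x) (-τ φ g x) else 0

open Classical in
/-- the time of the inverse -/
def Si (φ : ℝ → X → X) (c g h : X → ℝ) (δ : ℝ) (x : X) : ℝ :=
  if x ∈ W φ c g δ then shi (DD φ c g h δ x) (-τ φ g x) else 0

theorem continuous_S (H : FL φ c g h δ T) : Continuous (S φ c g h δ) := by
  rw [continuous_iff_continuousAt]
  intro x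
  by_cases hxW : x ∈ W φ c g δ
  · -- points of `W`
    have hb : Continuous fun y => max 0 (1 - |c y| / δ) := by
      have := H.cc
      fun_prop
    by_cases hcx : |c x| = δ
    · -- boundary: `S` is small
      have hS0 : S φ c g h δ x = 0 := by
        unfold S
        rw [if_pos hxW]
        have : DD φ c g h δ x = 0 := by
          unfold DD
          rw [hcx, div_self H.hδ.ne']
          simp
        rw [this, sh_zero]
      unfold ContinuousAt
      rw [hS0]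
      have h1 : Tendsto (fun y => max 0 (1 - |c y| / δ) * T) (𝓝 x) (𝓝 0) := by
        have h2 : Tendsto (fun y => max 0 (1 - |c y| / δ) * T) (𝓝 x)
            (𝓝 (max 0 (1 - |c x| / δ) * T)) := (hb.mul continuous_const).continuousAt
        rw [hcx, div_self H.hδ.ne'] at h2
        simpa using h2
      refine squeeze_zero (fun y => ?_) (fun y => ?_) h1
      · unfold S
        split_ifs with hy
        · exact sh_nonneg (H.DD_nonneg hy) _
        · exact le_rfl
      · unfold S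
        split_ifs with hy
        · refine (sh_le (H.DD_nonneg hy) _).trans ?_
          exact mul_le_mul_of_nonneg_left (by linarith [H.τ'_le hy]) (le_max_left _ _)
        · exact mul_nonneg (le_max_left _ _) H.hT
    · -- interior
      have hlt : |c x| < δ := lt_of_le_of_ne hxW.1 hcx
      have hev : ∀ᶠ y in 𝓝 x, |c y| < δ := H.cc.abs.continuousAt.eventually_lt continuousAt_const hlt
      have hW : ∀ᶠ y in 𝓝 x, y ∈ W φ c g δ := by
        filter_upwards [hev, H.near_τ hxW one_pos] with y h1 h2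
        exact (h2 h1.le).1
      have t1 : ContinuousAt (τ φ g) x := by
        rw [Metric.continuousAt_iff']
        intro ε hε
        filter_upwards [hev, H.near_τ hxW hε] with y h1 h2
        exact (h2 h1.le).2
      have t2 : ContinuousAt (τ φ h) x := by
        rw [Metric.continuousAt_iff']
        intro ε hε
        filter_upwards [hev, H.near_τ' hxW hε] with y h1 h2
        exact h2 h1.le
      have t3 : ContinuousAt (DD φ c g h δ) x := hb.continuousAt.mul (t2.sub t1)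
      have t4 : ContinuousAt (fun y => (DD φ c g h δ y, -τ φ g y)) x := t3.prodMk t1.neg
      have t5 : Tendsto (fun y => (DD φ c g h δ y, -τ φ g y)) (𝓝 x)
          (𝓝[{p | 0 ≤ p.1}] (DD φ c g h δ x, -τ φ g x)) := by
        refine tendsto_nhdsWithin_iff.2 ⟨t4, ?_⟩
        filter_upwards [hW] with y hy
        exact H.DD_nonneg hy
      have t6 := (continuousOn_sh (DD φ c g h δ x, -τ φ g x) (H.DD_nonneg hxW)).tendsto.comp t5
      have t7 : S φ c g h δ x = sh (DD φ c g h δ x) (-τ φ g x) := by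
        unfold S
        rw [if_pos hxW]
      unfold ContinuousAt
      rw [t7]
      refine t6.congr' ?_
      filter_upwards [hW] with y hy
      show sh (DD φ c g h δ y) (-τ φ g y) = S φ c g h δ y
      unfold S
      rw [if_pos hy]
  · -- points outside `W`
    let Z : Set X := {y | |c y| ≤ δ ∧ ∃ t ∈ Icc (-1 : ℝ) (T + 1), g (φ (-t) y) = 0}
    have hZ : IsClosed Z := by
      have h1 : IsClosed {y : X | |c y| ≤ δ} := isClosed_le H.cc.abs continuous_const
      have h2 : IsClosed {p : ℝ × X | p.1 ∈ Icc (-1 : ℝ) (T + 1) ∧ g (φ (-p.1) p.2) = 0} := by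
        refine (isClosed_Icc.preimage continuous_fst).inter (isClosed_eq ?_ continuous_const)
        exact H.cg.comp (H.cφ.comp (by fun_prop : Continuous fun p : ℝ × X => (-p.1, p.2)))
      have h3 : IsCompact {p : ℝ × X | p.1 ∈ Icc (-1 : ℝ) (T + 1) ∧ g (φ (-p.1) p.2) = 0} :=
        (isCompact_Icc.prod isCompact_univ).of_isClosed_subset h2 fun p hp =>
          ⟨hp.1, mem_univ _⟩
      have h4 := (h3.image (continuous_snd : Continuous fun p : ℝ × X => p.2)).isClosed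
      have h5 : Z = {y : X | |c y| ≤ δ} ∩
          Prod.snd '' {p : ℝ × X | p.1 ∈ Icc (-1 : ℝ) (T + 1) ∧ g (φ (-p.1) p.2) = 0} := by
        ext y
        constructor
        · rintro ⟨hy, t, ht, hg⟩
          exact ⟨hy, (t, y), ⟨ht, hg⟩, rfl⟩
        · rintro ⟨hy, ⟨t, y'⟩, ⟨ht, hg⟩, rfl⟩
          exact ⟨hy, t, ht, hg⟩
      rw [h5]
      exact h1.inter h4
    have hx : x ∉ Z := by
      rintro ⟨hc, t, -, ht⟩
      exact hxW ⟨hc, _, ht⟩
    have hSx : S φ c g h δ x = 0 := by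
      unfold S
      rw [if_neg hxW]
    unfold ContinuousAt
    rw [hSx]
    refine tendsto_const_nhds.congr' ?_
    filter_upwards [hZ.isOpen_compl.mem_nhds hx] with y hy
    by_contra hne
    have hne' : S φ c g h δ y ≠ 0 := fun h => hne h.symm
    apply hy
    unfold S at hne'
    split_ifs at hne' with hyW
    · refine ⟨hyW.1, -τ φ g y, ⟨?_, ?_⟩, by rw [neg_neg]; exact τ_spec hyW.2⟩
      · by_contra h1
        exact hne' (sh_of_le (not_le.1 h1).le)
      · by_contra h1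
        exact hne' (sh_of_ge (H.DD_nonneg hyW) (by linarith [H.DD_le hyW, not_le.1 h1]))
    · exact absurd rfl hne'

/-- **the flow-line lemma** -/
theorem exists_homeo (H : FL φ c g h δ T) :
    ∃ F : X ≃ₜ X, (∀ x, δ ≤ |c x| → F x = x) ∧ (∀ x, c (F x) = c x) ∧
      ∀ x, c x = 0 → (0 < h (F x) ↔ 0 < g x) ∧ (h (F x) = 0 ↔ g x = 0) := by
  have hnW : ∀ {x : X} (s : ℝ), x ∉ W φ c g δ → φ s x ∉ W φ c g δ := by
    intro x s hx h1
    apply hx
    have := (H.τ_flow h1 (-s)).1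
    rwa [H.φneg] at this
  let F : X → X := fun x => φ (S φ c g h δ x) x
  let Fi : X → X := fun x => φ (-(Si φ c g h δ x)) x
  have hS : ∀ {x : X}, x ∈ W φ c g δ → S φ c g h δ x = sh (DD φ c g h δ x) (-τ φ g x) :=
    fun hx => if_pos hx
  have hSi : ∀ {x : X}, x ∈ W φ c g δ → Si φ c g h δ x = shi (DD φ c g h δ x) (-τ φ g x) :=
    fun hx => if_pos hx
  have hS' : ∀ {x : X}, x ∉ W φ c g δ → S φ c g h δ x = 0 := fun hx => if_neg hx
  have hSi' : ∀ {x : X}, x ∉ W φ c g δ → Si φ c g h δ x = 0 := fun hx => if_neg hx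
  have hl : ∀ x, Fi (F x) = x := by
    intro x
    show φ (-(Si φ c g h δ (φ (S φ c g h δ x) x))) (φ (S φ c g h δ x) x) = x
    by_cases hx : x ∈ W φ c g δ
    · obtain ⟨h1, h2, -⟩ := H.τ_flow hx (S φ c g h δ x)
      rw [hSi h1, H.DD_flow hx, h2, hS hx, ← H.φa]
      have h3 := sub_shi (H.DD_nonneg hx) (-τ φ g x)
      have h4 : -(τ φ g x - sh (DD φ c g h δ x) (-τ φ g x)) =
          -τ φ g x + sh (DD φ c g h δ x) (-τ φ g x) := by ring
      rw [h4]
      have h5 : -(shi (DD φ c g h δ x) (-τ φ g x + sh (DD φ c g h δ x) (-τ φ g x))) +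
          sh (DD φ c g h δ x) (-τ φ g x) = 0 := by linarith
      rw [h5, H.φ0]
    · have h1 := hnW (S φ c g h δ x) hx
      rw [hSi' h1, hS' hx, neg_zero, H.φ0, H.φ0]
  have hr : ∀ x, F (Fi x) = x := by
    intro x
    show φ (S φ c g h δ (φ (-(Si φ c g h δ x)) x)) (φ (-(Si φ c g h δ x)) x) = x
    by_cases hx : x ∈ W φ c g δ
    · obtain ⟨h1, h2, -⟩ := H.τ_flow hx (-(Si φ c g h δ x))
      rw [hS h1, H.DD_flow hx, h2, hSi hx, ← H.φa]
      have h3 := add_sh (H.DD_nonneg hx) (-τ φ g x)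
      have h4 : -(τ φ g x - -(shi (DD φ c g h δ x) (-τ φ g x))) =
          -τ φ g x - shi (DD φ c g h δ x) (-τ φ g x) := by ring
      rw [h4]
      have h5 : sh (DD φ c g h δ x) (-τ φ g x - shi (DD φ c g h δ x) (-τ φ g x)) +
          -(shi (DD φ c g h δ x) (-τ φ g x)) = 0 := by linarith
      rw [h5, H.φ0]
    · have h1 := hnW (-(Si φ c g h δ x)) hx
      rw [hS' h1, hSi' hx, neg_zero, H.φ0, H.φ0]
  have hFc : Continuous F :=
    H.cφ.comp (H.continuous_S.prodMk continuous_id : Continuous fun x => (S φ c g h δ x, x))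
  let e : X ≃ X := ⟨F, Fi, hl, hr⟩
  refine ⟨Continuous.homeoOfEquivCompactToT2 (f := e) hFc, fun x hx => ?_, fun x => H.inv _ _,
    fun x hx => ?_⟩
  · show φ (S φ c g h δ x) x = x
    have : S φ c g h δ x = 0 := by
      by_cases hxW : x ∈ W φ c g δ
      · rw [hS hxW]
        have h1 : DD φ c g h δ x = 0 := by
          unfold DD
          have : 1 - |c x| / δ ≤ 0 := by
            have : 1 ≤ |c x| / δ := by
              rw [le_div_iff₀ H.hδ]
              linarith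
            linarith
          rw [max_eq_left this, zero_mul]
        rw [h1, sh_zero]
      · exact hS' hxW
    rw [this, H.φ0]
  · show (0 < h (φ (S φ c g h δ x) x) ↔ 0 < g x) ∧ (h (φ (S φ c g h δ x) x) = 0 ↔ g x = 0)
    have hcx : |c x| ≤ δ := by rw [hx, abs_zero]; exact H.hδ.le
    have key : ∀ y : X, |c y| ≤ δ → y ∉ W φ c g δ → (0 < h y ↔ 0 < g y) ∧ (h y ≠ 0) ∧ g y ≠ 0 := by
      intro y hy hyW
      have g0 : ∀ t, g (φ t y) ≠ 0 := fun t ht => hyW ⟨hy, t, ht⟩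
      have gy : g y ≠ 0 := by have := g0 0; rwa [H.φ0] at this
      have cont : Continuous fun t => g (φ t y) := H.cg.comp (H.cφx y)
      have sgn : 0 < g y → ∀ t, 0 < g (φ t y) := by
        intro h1 t
        by_contra h2
        rcases lt_or_gt_of_ne (g0 t) with h3 | h3
        · have h4 : 0 < g (φ 0 y) := by rwa [H.φ0]
          obtain ⟨s, hs⟩ := mem_range_of_exists_le_of_exists_ge cont ⟨t, h3.le⟩ ⟨0, h4.le⟩
          exact g0 s hs
        · exact h2 h3
      have hy1 : 0 < g y → 0 < h y := by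
        intro h1
        have h2 := H.gh (φ (-T - 1) y) (by rwa [H.inv]) (sgn h1 _).le
        rw [← H.φa] at h2
        have h3 := H.h_pos hy h2 (by linarith : T + (-T - 1) < 0)
        rwa [H.φ0] at h3
      have hy2 : 0 ≤ h y → 0 < g y := fun h1 =>
        lt_of_le_of_ne (H.hg y hy h1) (Ne.symm gy)
      refine ⟨⟨fun h1 => hy2 h1.le, hy1⟩, fun h1 => ?_, gy⟩
      have := hy1 (hy2 h1.ge)
      linarith
    by_cases hxW : x ∈ W φ c g δ
    · obtain ⟨h1, h2, h3⟩ := H.τ_flow hxW (S φ c g h δ x)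
      set y := φ (S φ c g h δ x) x with hy
      have hyc := h1.1
      have hD : DD φ c g h δ x = τ φ h x - τ φ g x := H.DD_of_zero hx
      have hy0 : h (φ (τ φ h y) y) = 0 := τ_spec (H.exists_h h1)
      have hx0 : g (φ (τ φ g x) x) = 0 := τ_spec hxW.2
      have ey : 0 < h y ↔ τ φ h y < 0 := by
        constructor
        · intro h4
          by_contra h5
          rcases eq_or_lt_of_le (not_lt.1 h5) with h6 | h6
          · rw [← h6, H.φ0] at hy0
            linarith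
          · have := H.h_neg hyc hy0.le h6
            rw [H.φ0] at this
            linarith
        · intro h4
          have := H.h_pos hyc hy0.ge h4
          rwa [H.φ0] at this
      have ey0 : h y = 0 ↔ τ φ h y = 0 := by
        constructor
        · intro h4
          exact H.τ'_eq hyc (by rwa [H.φ0])
        · intro h4
          rw [h4, H.φ0] at hy0
          exact hy0
      have ex : 0 < g x ↔ τ φ g x < 0 := by
        constructor
        · intro h4
          by_contra h5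
          rcases eq_or_lt_of_le (not_lt.1 h5) with h6 | h6
          · rw [← h6, H.φ0] at hx0
            linarith
          · have := H.g_neg hxW.1 hx0.le h6
            rw [H.φ0] at this
            linarith
        · intro h4
          have := H.g_pos hxW.1 hx0.ge h4
          rwa [H.φ0] at this
      have ex0 : g x = 0 ↔ τ φ g x = 0 := by
        constructor
        · intro h4
          exact H.τ_eq hxW.1 (by rwa [H.φ0])
        · intro h4
          rw [h4, H.φ0] at hx0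
          exact hx0
      rw [ey, ey0, ex, ex0, h3, hS hxW]
      have k1 := add_sh_lt_iff (H.DD_nonneg hxW) (-τ φ g x)
      have k2 := add_sh_eq_iff (H.DD_nonneg hxW) (-τ φ g x)
      constructor
      · constructor
        · intro h4
          have := k1.1 (by rw [hD] at h4 ⊢; linarith)
          linarith
        · intro h4
          have := k1.2 (by linarith)
          rw [hD] at this ⊢
          linarith
      · constructor
        · intro h4
          have := k2.1 (by rw [hD] at h4 ⊢; linarith)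
          linarith
        · intro h4
          have := k2.2 (by linarith)
          rw [hD] at this ⊢
          linarith
    · rw [hS' hxW, H.φ0]
      obtain ⟨h1, h2, h3⟩ := key x hcx hxW
      exact ⟨h1, ⟨fun h => absurd h h2, fun h => absurd h h3⟩⟩

end FL

end Top

end Crest.Agent.R267.FlTop_363
end
end

-- ▼ part R267/FlowLine_363
section

/-!
# Row 267 (helper363): the flow-line theorem (FL), differentiable version on a level set `{ρ = 1}`
-/

set_option autoImplicit false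
set_option linter.unusedSectionVars false
set_option linter.unusedVariables false

noncomputable section

open Set Filter Topology Metric
open scoped NNReal ContDiff Manifold
open Crest.Agent.R267.Reg_808 Crest.Agent.R267.FlowG_951 Crest.Agent.R267.FlTop_363

namespace Crest.Agent.R267.FlowLine_363

/-! ### crossing -/

/-- `u` crosses `0` upwards at `t`. -/
def Cross (u : ℝ → ℝ) (t : ℝ) : Prop :=
  (∀ᶠ s in 𝓝[>] t, 0 < u s) ∧ (∀ᶠ s in 𝓝[<] t, u s < 0)

theorem cross_of_hasDerivAt {u : ℝ → ℝ} {t d : ℝ} (h : HasDerivAt u d t) (h0 : u t = 0)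
    (hd : 0 < d) : Cross u t := by
  have h1 := h.tendsto_slope
  have h2 : ∀ᶠ s in 𝓝[≠] t, 0 < slope u t s := h1.eventually_const_lt hd
  constructor
  · have h3 : ∀ᶠ s in 𝓝[>] t, 0 < slope u t s :=
      nhdsWithin_mono t (fun s (hs : t < s) => hs.ne') h2
    filter_upwards [h3, self_mem_nhdsWithin] with s hs hs'
    have hs'' : 0 < s - t := sub_pos.2 hs'
    rw [slope_def_field, h0, sub_zero] at hs
    have := mul_pos hs hs''
    rwa [div_mul_cancel₀ _ hs''.ne'] at this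
  · have h3 : ∀ᶠ s in 𝓝[<] t, 0 < slope u t s :=
      nhdsWithin_mono t (fun s (hs : s < t) => hs.ne) h2
    filter_upwards [h3, self_mem_nhdsWithin] with s hs hs'
    have hs'' : s - t < 0 := sub_neg.2 hs'
    rw [slope_def_field, h0, sub_zero] at hs
    have := mul_neg_of_pos_of_neg hs hs''
    rwa [div_mul_cancel₀ _ hs''.ne] at this

theorem pos_of_cross {u : ℝ → ℝ} (hu : Continuous u) (hc : ∀ t, u t = 0 → Cross u t)
    (h0 : 0 ≤ u 0) {t : ℝ} (ht : 0 < t) : 0 < u t := by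
  by_contra hneg
  have hneg' : u t ≤ 0 := not_lt.1 hneg
  -- a point with `u > 0`
  obtain ⟨r, hr0, hrt, hr⟩ : ∃ r, 0 ≤ r ∧ r < t ∧ 0 < u r := by
    rcases eq_or_lt_of_le h0 with h1 | h1
    · have h2 := (hc 0 h1.symm).1
      have h3 : ∀ᶠ s in 𝓝[>] (0 : ℝ), s < t := by
        filter_upwards [Ioo_mem_nhdsGT ht] with s hs using hs.2
      obtain ⟨s, hs1, hs2, hs3⟩ := (h2.and (h3.and self_mem_nhdsWithin)).exists
      exact ⟨s, le_of_lt hs3, hs2, hs1⟩
    · exact ⟨0, le_rfl, ht, h1⟩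
  -- the first zero after `r`
  let Z : Set ℝ := {s | s ∈ Icc r t ∧ u s ≤ 0}
  have hZc : IsCompact Z := by
    have h1 : IsClosed {s | u s ≤ 0} := isClosed_le hu continuous_const
    exact isCompact_Icc.inter_right h1
  have hZn : Z.Nonempty := ⟨t, ⟨hrt.le, le_rfl⟩, hneg'⟩
  have hs := hZc.sInf_mem hZn
  set s := sInf Z with hsdef
  have hbd : BddBelow Z := ⟨r, fun x hx => hx.1.1⟩
  have hlt : ∀ q, r ≤ q → q < s → 0 < u q := by
    intro q hq1 hq2
    by_contra h1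
    have h2 : q ∈ Z := ⟨⟨hq1, hq2.le.trans hs.1.2⟩, not_lt.1 h1⟩
    exact absurd (csInf_le hbd h2) (not_le.2 hq2)
  have hrs : r < s := by
    rcases eq_or_lt_of_le hs.1.1 with h1 | h1
    · have h2 := hs.2
      rw [← h1] at h2
      exact absurd hr (not_lt.2 h2)
    · exact h1
  have hs0 : u s = 0 := by
    refine le_antisymm hs.2 ?_
    have h1 : ∀ᶠ q in 𝓝[<] s, 0 ≤ u q := by
      filter_upwards [Ioo_mem_nhdsLT hrs] with q hq using (hlt q hq.1.le hq.2).le
    exact ge_of_tendsto (hu.continuousAt.mono_left nhdsWithin_le_nhds) h1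
  have h2 := (hc s hs0).2
  have h3 : ∀ᶠ q in 𝓝[<] s, 0 < u q := by
    filter_upwards [Ioo_mem_nhdsLT hrs] with q hq using hlt q hq.1.le hq.2
  obtain ⟨q, hq1, hq2⟩ := (h2.and h3).exists
  linarith

/-! ### Lipschitz fields of compact support -/

section Lip

variable {E F : Type*} [NormedAddCommGroup E] [NormedSpace ℝ E] [FiniteDimensional ℝ E]
  [NormedAddCommGroup F]

theorem lipschitz_of_compact_support {V : E → F} (hV : LocallyLipschitz V) {S : Set E}
    (hS : Bornology.IsBounded S) (h0 : ∀ x ∉ S, V x = 0) : ∃ K : ℝ≥0, LipschitzWith K V := by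
  have : ProperSpace E := FiniteDimensional.proper_real E
  obtain ⟨R, hR⟩ := hS.subset_closedBall (0 : E)
  have hcpt : IsCompact (closedBall (0 : E) (R + 1)) := isCompact_closedBall _ _
  obtain ⟨C, hC⟩ := (hV.locallyLipschitzOn (s := closedBall (0 : E) (R + 1))).exists_lipschitzOnWith_of_compact
    hcpt
  obtain ⟨M, hM⟩ := hcpt.exists_bound_of_continuousOn hV.continuous.continuousOn
  have hM' : ∀ x ∈ closedBall (0 : E) (R + 1), ‖V x‖ ≤ M.toNNReal := fun x hx =>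
    (hM x hx).trans (Real.le_coe_toNNReal M)
  have key : ∀ x y : E, x ∈ closedBall (0 : E) (R + 1) → y ∉ closedBall (0 : E) (R + 1) →
      dist (V x) (V y) ≤ (max C M.toNNReal : ℝ≥0) * dist x y := by
    intro x y hx hy
    have hyS : y ∉ S := fun h => hy (closedBall_subset_closedBall (by linarith) (hR h))
    rw [h0 y hyS]
    by_cases hxS : x ∈ S
    · have h1 : dist x 0 ≤ R := hR hxS
      have h2 : R + 1 < dist y 0 := by
        rw [mem_closedBall, not_le] at hy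
        exact hy
      have h3 : 1 ≤ dist x y := by
        have := dist_triangle_left y 0 x
        linarith
      rw [dist_zero_right]
      calc ‖V x‖ ≤ M.toNNReal := hM' x hx
        _ ≤ (max C M.toNNReal : ℝ≥0) := by exact_mod_cast le_max_right _ _
        _ ≤ (max C M.toNNReal : ℝ≥0) * dist x y := le_mul_of_one_le_right NNReal.zero_le_coe h3
    · rw [h0 x hxS, dist_self]
      positivity
  refine ⟨max C M.toNNReal, LipschitzWith.of_dist_le_mul fun x y => ?_⟩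
  by_cases hx : x ∈ closedBall (0 : E) (R + 1) <;> by_cases hy : y ∈ closedBall (0 : E) (R + 1)
  · refine (hC.dist_le_mul x hx y hy).trans ?_
    exact mul_le_mul_of_nonneg_right (by exact_mod_cast le_max_left _ _) dist_nonneg
  · exact key x y hx hy
  · rw [dist_comm, dist_comm x y]
    exact key y x hy hx
  · have hxS : x ∉ S := fun h => hx (closedBall_subset_closedBall (by linarith) (hR h))
    have hyS : y ∉ S := fun h => hy (closedBall_subset_closedBall (by linarith) (hR h))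
    rw [h0 x hxS, h0 y hyS, dist_self]
    positivity

end Lip

/-! ### the hypotheses -/

variable {E : Type*} [NormedAddCommGroup E] [NormedSpace ℝ E] [FiniteDimensional ℝ E]
variable {ι : Type*} [Fintype ι] [Nonempty ι]

/-- the maximum of the functions `a i` -/
def mx (a : ι → E → ℝ) (x : E) : ℝ := Finset.univ.sup' Finset.univ_nonempty fun i => a i x

theorem mx_le_iff {a : ι → E → ℝ} {x : E} {r : ℝ} : mx a x ≤ r ↔ ∀ i, a i x ≤ r := by
  unfold mx
  simp

theorem le_mx (a : ι → E → ℝ) (x : E) (i : ι) : a i x ≤ mx a x :=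
  Finset.le_sup' (fun i => a i x) (Finset.mem_univ i)

theorem exists_mx (a : ι → E → ℝ) (x : E) : ∃ i, mx a x = a i x := by
  obtain ⟨i, -, hi⟩ := Finset.exists_mem_eq_sup' Finset.univ_nonempty fun i => a i x
  exact ⟨i, hi⟩

theorem mx_lt_iff {a : ι → E → ℝ} {x : E} {r : ℝ} : mx a x < r ↔ ∀ i, a i x < r := by
  unfold mx
  simp

/-- `(dρ, dc)` -/
def dA (ρ c : E → ℝ) (x : E) : E →L[ℝ] ℝ × ℝ := (fderiv ℝ ρ x).prod (fderiv ℝ c x)

/-- projection to the kernel -/
def prj (A : E →L[ℝ] ℝ × ℝ) (y : E) : E := y - rinv A (A y)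

/-- invertibility of the Gram operator -/
def Good (A : E →L[ℝ] ℝ × ℝ) : Prop :=
  ∃ e : ((ℝ × ℝ) →L[ℝ] ℝ) ≃L[ℝ] ℝ × ℝ, (e : ((ℝ × ℝ) →L[ℝ] ℝ) →L[ℝ] ℝ × ℝ) = gram A

theorem prj_spec {A : E →L[ℝ] ℝ × ℝ} (h : Good A) (y : E) : A (prj A y) = 0 := by
  unfold prj
  rw [map_sub, rinv_spec h, sub_self]

theorem prj_of_ker {A : E →L[ℝ] ℝ × ℝ} {y : E} (h : A y = 0) : prj A y = y := by
  unfold prj
  rw [h, map_zero, sub_zero]

theorem prj_add (A : E →L[ℝ] ℝ × ℝ) (y z : E) : prj A (y + z) = prj A y + prj A z := by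
  unfold prj
  rw [map_add, map_add]
  abel

theorem prj_smul (A : E →L[ℝ] ℝ × ℝ) (r : ℝ) (y : E) : prj A (r • y) = r • prj A y := by
  unfold prj
  rw [map_smul, map_smul, smul_sub]

theorem contDiffAt_prj {q : (E →L[ℝ] ℝ × ℝ) × E} (h : Good q.1) :
    ContDiffAt ℝ 1 (fun q : (E →L[ℝ] ℝ × ℝ) × E => prj q.1 q.2) q := by
  unfold prj
  have h2 : ContDiffAt ℝ 1 (fun q : (E →L[ℝ] ℝ × ℝ) × E => rinv q.1) q :=
    ContDiffAt.comp (g := rinv) (f := fun q : (E →L[ℝ] ℝ × ℝ) × E => q.1) q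
      (contDiffAt_rinv h) contDiffAt_fst
  exact contDiffAt_snd.sub (h2.clm_apply (contDiffAt_fst.clm_apply contDiffAt_snd))

/-- hypotheses of the flow-line theorem -/
structure Hyp (ρ c g φ : E → ℝ) (a : ι → E → ℝ) (U : Set E) : Prop where
  cpt : IsCompact {x | ρ x = 1}
  oU : IsOpen U
  sub : ∀ x, ρ x = 1 → x ∈ U
  dρ : ∀ x ∈ U, DifferentiableAt ℝ ρ x
  dc : ∀ x ∈ U, DifferentiableAt ℝ c x
  lρ : LocallyLipschitzOn U (fderiv ℝ ρ)
  lc : LocallyLipschitzOn U (fderiv ℝ c)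
  cg : ContinuousOn g {x | ρ x = 1}
  ca : ∀ i, ContinuousOn (a i) {x | ρ x = 1}
  h1 : ∀ x, ρ x = 1 → c x = 0 → ∀ i, 0 ≤ a i x → 0 < g x
  h2 : ∀ x, ρ x = 1 → c x = 0 → 0 ≤ g x → (∀ i, a i x ≤ 0) →
    Function.Surjective (dA ρ c x) ∧ ContDiffAt ℝ 1 g x ∧ ContDiffAt ℝ 1 φ x ∧ 0 < φ x ∧
    ∃ y, fderiv ℝ ρ x y = 0 ∧ fderiv ℝ c x y = 0 ∧
      0 < φ x * fderiv ℝ g x y - g x * fderiv ℝ φ x y ∧
      ∀ i, a i x = 0 → ContDiffAt ℝ 1 (a i) x ∧ 0 < fderiv ℝ (a i) x y

namespace Hyp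

variable {ρ c g φ : E → ℝ} {a : ι → E → ℝ} {U : Set E}

/-- the part of the local condition not involving the vector -/
def Stat (ρ c g φ : E → ℝ) (U : Set E) (x : E) : Prop :=
  x ∈ U ∧ Good (dA ρ c x) ∧ ContDiffAt ℝ 1 g x ∧ ContDiffAt ℝ 1 φ x ∧ 0 < φ x

/-- the condition on the vector -/
def Cond (ρ c g φ : E → ℝ) (a : ι → E → ℝ) (x y : E) : Prop :=
  0 < φ x * fderiv ℝ g x (prj (dA ρ c x) y) - g x * fderiv ℝ φ x (prj (dA ρ c x) y) ∧
    ∀ i, ρ x = 1 → a i x = 0 →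
      DifferentiableAt ℝ (a i) x ∧ 0 < fderiv ℝ (a i) x (prj (dA ρ c x) y)

theorem convex_cond (x : E) : Convex ℝ {y | Cond ρ c g φ a x y} := by
  have key : ∀ (L : E → ℝ), (∀ y z, L (y + z) = L y + L z) → (∀ (r : ℝ) y, L (r • y) = r * L y) →
      Convex ℝ {y | 0 < L y} := by
    intro L h1 h2 y hy z hz s t hs ht hst
    simp only [mem_ofPred_eq] at *
    rw [h1, h2, h2]
    rcases eq_or_lt_of_le hs with h | h
    · have : t = 1 := by linarith
      rw [← h, this]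
      linarith
    · have h3 : 0 < s * L y := mul_pos h hy
      have h4 : 0 ≤ t * L z := mul_nonneg ht hz.le
      linarith
  have e : {y | Cond ρ c g φ a x y} =
      {y | 0 < φ x * fderiv ℝ g x (prj (dA ρ c x) y) - g x * fderiv ℝ φ x (prj (dA ρ c x) y)} ∩
      ⋂ i, {y | ρ x = 1 → a i x = 0 →
        DifferentiableAt ℝ (a i) x ∧ 0 < fderiv ℝ (a i) x (prj (dA ρ c x) y)} := by
    ext y
    simp only [Cond, mem_ofPred_eq, mem_inter_iff, mem_iInter]
  rw [e]
  refine Convex.inter ?_ (convex_iInter fun i => ?_)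
  · refine key (fun y => φ x * fderiv ℝ g x (prj (dA ρ c x) y) -
      g x * fderiv ℝ φ x (prj (dA ρ c x) y)) (fun y z => ?_) (fun r y => ?_)
    · simp only [prj_add, map_add]
      ring
    · simp only [prj_smul, map_smul, smul_eq_mul]
      ring
  · by_cases h1 : ρ x = 1 ∧ a i x = 0 ∧ DifferentiableAt ℝ (a i) x
    · have e2 : {y | ρ x = 1 → a i x = 0 →
          DifferentiableAt ℝ (a i) x ∧ 0 < fderiv ℝ (a i) x (prj (dA ρ c x) y)} =
          {y | 0 < fderiv ℝ (a i) x (prj (dA ρ c x) y)} := by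
        ext y
        exact ⟨fun h => (h h1.1 h1.2.1).2, fun h _ _ => ⟨h1.2.2, h⟩⟩
      rw [e2]
      refine key (fun y => fderiv ℝ (a i) x (prj (dA ρ c x) y)) (fun y z => ?_) (fun r y => ?_)
      · simp only [prj_add, map_add]
      · simp only [prj_smul, map_smul, smul_eq_mul]
    · intro y hy z hz s t _ _ _ h2 h3
      exact absurd ⟨h2, h3, (hy h2 h3).1⟩ h1

theorem continuousAt_dA (H : Hyp ρ c g φ a U) {x : E} (hx : x ∈ U) :
    ContinuousAt (dA ρ c) x := by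
  have h1 : ContinuousAt (fderiv ℝ ρ) x :=
    (H.lρ.continuousOn x hx).continuousAt (H.oU.mem_nhds hx)
  have h2 : ContinuousAt (fderiv ℝ c) x :=
    (H.lc.continuousOn x hx).continuousAt (H.oU.mem_nhds hx)
  have h3 : dA ρ c = fun x => ContinuousLinearMap.prodₗᵢ ℝ (fderiv ℝ ρ x, fderiv ℝ c x) := by
    funext x
    rfl
  rw [h3]
  exact (ContinuousLinearMap.prodₗᵢ ℝ).continuous.continuousAt.comp (h1.prodMk h2)

/-- the local condition near a point of `C₀` -/
theorem local_cond (H : Hyp ρ c g φ a U) {x : E} (hx : ρ x = 1) (hc : c x = 0) (hg : 0 ≤ g x)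
    (ha : ∀ i, a i x ≤ 0) :
    ∃ y, ∀ᶠ x' in 𝓝 x, Stat ρ c g φ U x' ∧ Cond ρ c g φ a x' y := by
  obtain ⟨hs, hdg, hdφ, hφ, y, hy1, hy2, hy3, hy4⟩ := H.h2 x hx hc hg ha
  have hxU := H.sub x hx
  have hgood : Good (dA ρ c x) := gram_invertible hs
  have hAy : dA ρ c x y = 0 := by
    show (fderiv ℝ ρ x y, fderiv ℝ c x y) = 0
    rw [hy1, hy2]
    rfl
  have hAc := H.continuousAt_dA hxU
  have hpc : ContinuousAt (fun x' => prj (dA ρ c x') y) x := by
    have h1 := (contDiffAt_prj (q := (dA ρ c x, y)) hgood).continuousAt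
    exact ContinuousAt.comp (g := fun q : (E →L[ℝ] ℝ × ℝ) × E => prj q.1 q.2)
      (f := fun x' => (dA ρ c x', y)) h1 (hAc.prodMk continuousAt_const)
  have hp : prj (dA ρ c x) y = y := prj_of_ker hAy
  have happ : ∀ {f : E → ℝ}, ContDiffAt ℝ 1 f x →
      ContinuousAt (fun x' => fderiv ℝ f x' (prj (dA ρ c x') y)) x := by
    intro f hf
    exact (hf.continuousAt_fderiv one_ne_zero).clm_apply hpc
  refine ⟨y, ?_⟩
  have e1 : ∀ᶠ x' in 𝓝 x, x' ∈ U := H.oU.mem_nhds hxU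
  have e2 : ∀ᶠ x' in 𝓝 x, Good (dA ρ c x') := hAc.preimage_mem_nhds (isOpen_good.mem_nhds hgood)
  have e3 : ∀ᶠ x' in 𝓝 x, ContDiffAt ℝ 1 g x' := hdg.eventually (by simp)
  have e4 : ∀ᶠ x' in 𝓝 x, ContDiffAt ℝ 1 φ x' := hdφ.eventually (by simp)
  have e5 : ∀ᶠ x' in 𝓝 x, 0 < φ x' := continuousAt_const.eventually_lt hdφ.continuousAt hφ
  have e6 : ∀ᶠ x' in 𝓝 x, 0 < φ x' * fderiv ℝ g x' (prj (dA ρ c x') y) -
      g x' * fderiv ℝ φ x' (prj (dA ρ c x') y) := by
    have h1 : ContinuousAt (fun x' => φ x' * fderiv ℝ g x' (prj (dA ρ c x') y) -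
        g x' * fderiv ℝ φ x' (prj (dA ρ c x') y)) x :=
      (hdφ.continuousAt.mul (happ hdg)).sub (hdg.continuousAt.mul (happ hdφ))
    refine continuousAt_const.eventually_lt h1 ?_
    rw [hp]
    exact hy3
  have e7 : ∀ i, ∀ᶠ x' in 𝓝 x, ρ x' = 1 → a i x' = 0 →
      DifferentiableAt ℝ (a i) x' ∧ 0 < fderiv ℝ (a i) x' (prj (dA ρ c x') y) := by
    intro i
    rcases eq_or_lt_of_le (ha i) with h | h
    · obtain ⟨k1, k2⟩ := hy4 i h
      have h1 := continuousAt_const.eventually_lt (happ k1) (by rw [hp]; exact k2)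
      have h2 : ∀ᶠ x' in 𝓝 x, ContDiffAt ℝ 1 (a i) x' := k1.eventually (by simp)
      filter_upwards [h1, h2] with x' h3 h4 _ _
      exact ⟨h4.differentiableAt one_ne_zero, h3⟩
    · have h1 : ∀ᶠ x' in 𝓝[{x | ρ x = 1}] x, a i x' < 0 :=
        (H.ca i x hx).eventually_lt continuousWithinAt_const h
      rw [eventually_nhdsWithin_iff] at h1
      filter_upwards [h1] with x' h2 h3 h4
      have := h2 h3
      linarith
  filter_upwards [e1, e2, e3, e4, e5, e6, eventually_all.2 e7] with x' h1 h2 h3 h4 h5 h6 h7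
  exact ⟨⟨h1, h2, h3, h4, h5⟩, h6, h7⟩

theorem cc (H : Hyp ρ c g φ a U) : ContinuousOn c {x | ρ x = 1} := fun x hx =>
  (H.dc x (H.sub x hx)).continuousAt.continuousWithinAt

theorem cm (H : Hyp ρ c g φ a U) : ContinuousOn (mx a) {x | ρ x = 1} := by
  have : ContinuousOn (fun x => Finset.univ.sup' Finset.univ_nonempty fun i => a i x)
      {x | ρ x = 1} := ContinuousOn.finset_sup'_apply Finset.univ_nonempty fun i _ => H.ca i
  exact this

/-- the open set of good points -/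
def N (ρ c g φ : E → ℝ) (a : ι → E → ℝ) (U : Set E) : Set E :=
  {x | ∃ y, ∀ᶠ x' in 𝓝 x, Stat ρ c g φ U x' ∧ Cond ρ c g φ a x' y}

theorem isOpen_N : IsOpen (N ρ c g φ a U) := by
  rw [isOpen_iff_mem_nhds]
  rintro x ⟨y, hy⟩
  filter_upwards [eventually_eventually_nhds.2 hy] with x' hx'
  exact ⟨y, hx'⟩

/-- the compact set on which the field is controlled -/
def KK (ρ c g : E → ℝ) (a : ι → E → ℝ) (δ : ℝ) : Set E :=
  {x | ρ x = 1 ∧ |c x| ≤ δ ∧ -δ ≤ g x ∧ mx a x ≤ δ}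

theorem exists_delta (H : Hyp ρ c g φ a U) :
    ∃ δ > 0, KK ρ c g a δ ⊆ N ρ c g φ a U ∧
      ∀ x, ρ x = 1 → |c x| ≤ δ → 0 ≤ mx a x → 0 < g x := by
  have hN := isOpen_N (ρ := ρ) (c := c) (g := g) (φ := φ) (a := a) (U := U)
  have c1 : ContinuousOn (fun x => max |c x| (max (-g x) (mx a x))) {x | ρ x = 1} :=
    H.cc.abs.sup (H.cg.neg.sup H.cm)
  have c2 : ContinuousOn (fun x => max |c x| (max (g x) (-mx a x))) {x | ρ x = 1} :=
    H.cc.abs.sup (H.cg.sup H.cm.neg)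
  obtain ⟨δ₁, hδ₁, h1⟩ : ∃ δ₁ > 0, ∀ x, ρ x = 1 → x ∉ N ρ c g φ a U →
      δ₁ ≤ max |c x| (max (-g x) (mx a x)) := by
    have hcp : IsCompact ({x | ρ x = 1} \ N ρ c g φ a U) := H.cpt.diff hN
    rcases ({x | ρ x = 1} \ N ρ c g φ a U).eq_empty_or_nonempty with he | hne
    · refine ⟨1, one_pos, fun x hx hxN => ?_⟩
      exact absurd (show x ∈ {x | ρ x = 1} \ N ρ c g φ a U from ⟨hx, hxN⟩) (by rw [he]; simp)
    · obtain ⟨x₀, hx₀, hmin⟩ := hcp.exists_isMinOn hne (c1.mono sdiff_subset)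
      refine ⟨max |c x₀| (max (-g x₀) (mx a x₀)), ?_, fun x hx hxN => hmin ⟨hx, hxN⟩⟩
      by_contra hneg
      have h2 := not_lt.1 hneg
      have h3 : |c x₀| ≤ 0 := (le_max_left _ _).trans h2
      have h4 : -g x₀ ≤ 0 := ((le_max_left _ _).trans (le_max_right _ _)).trans h2
      have h5 : mx a x₀ ≤ 0 := ((le_max_right _ _).trans (le_max_right _ _)).trans h2
      apply hx₀.2
      exact H.local_cond hx₀.1 (abs_nonpos_iff.1 h3) (by linarith) (mx_le_iff.1 h5)
  obtain ⟨δ₂, hδ₂, h2⟩ : ∃ δ₂ > 0, ∀ x, ρ x = 1 → δ₂ ≤ max |c x| (max (g x) (-mx a x)) := by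
    rcases ({x | ρ x = 1}).eq_empty_or_nonempty with he | hne
    · refine ⟨1, one_pos, fun x hx => ?_⟩
      exact absurd (show x ∈ {x | ρ x = 1} from hx) (by rw [he]; simp)
    · obtain ⟨x₀, hx₀, hmin⟩ := H.cpt.exists_isMinOn hne c2
      refine ⟨max |c x₀| (max (g x₀) (-mx a x₀)), ?_, fun x hx => hmin hx⟩
      by_contra hneg
      have h2 := not_lt.1 hneg
      have h3 : |c x₀| ≤ 0 := (le_max_left _ _).trans h2
      have h4 : g x₀ ≤ 0 := ((le_max_left _ _).trans (le_max_right _ _)).trans h2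
      have h5 : -mx a x₀ ≤ 0 := ((le_max_right _ _).trans (le_max_right _ _)).trans h2
      obtain ⟨i, hi⟩ := exists_mx a x₀
      have h6 := H.h1 x₀ hx₀ (abs_nonpos_iff.1 h3) i (by rw [← hi]; linarith)
      linarith
  refine ⟨min δ₁ δ₂ / 2, half_pos (lt_min hδ₁ hδ₂), ?_, ?_⟩
  · rintro x ⟨hx, k1, k2, k3⟩
    by_contra hxN
    have h3 := h1 x hx hxN
    have h4 : max |c x| (max (-g x) (mx a x)) ≤ min δ₁ δ₂ / 2 :=
      max_le k1 (max_le (by linarith) k3)
    have h5 := min_le_left δ₁ δ₂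
    have h6 := lt_min hδ₁ hδ₂
    linarith
  · intro x hx k1 k2
    have h3 := h2 x hx
    have h5 := min_le_right δ₁ δ₂
    have h6 := lt_min hδ₁ hδ₂
    rcases le_max_iff.1 h3 with h | h
    · linarith
    · rcases le_max_iff.1 h with h | h
      · linarith
      · linarith

theorem isCompact_KK (H : Hyp ρ c g φ a U) (δ : ℝ) : IsCompact (KK ρ c g a δ) := by
  have h1 : ContinuousOn (fun x => max (|c x| - δ) (max (-g x - δ) (mx a x - δ))) {x | ρ x = 1} :=
    (H.cc.abs.sub continuousOn_const).sup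
      ((H.cg.neg.sub continuousOn_const).sup (H.cm.sub continuousOn_const))
  obtain ⟨t, ht1, ht2⟩ := (continuousOn_iff_isClosed.1 h1) (Iic 0) isClosed_Iic
  have h2 : KK ρ c g a δ = {x | ρ x = 1} ∩ t := by
    ext x
    constructor
    · rintro ⟨hx, k1, k2, k3⟩
      refine ⟨hx, ?_⟩
      have h4 : max (|c x| - δ) (max (-g x - δ) (mx a x - δ)) ≤ 0 :=
        max_le (by linarith) (max_le (by linarith) (by linarith))
      have h3 : x ∈ (fun x => max (|c x| - δ) (max (-g x - δ) (mx a x - δ))) ⁻¹' Iic 0 ∩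
          {x | ρ x = 1} := ⟨h4, hx⟩
      rw [ht2] at h3
      exact h3.1
    · rintro ⟨hx, hxt⟩
      have h3 : x ∈ t ∩ {x | ρ x = 1} := ⟨hxt, hx⟩
      rw [← ht2] at h3
      have h4 : max (|c x| - δ) (max (-g x - δ) (mx a x - δ)) ≤ 0 := h3.1
      have k1 := (le_max_left _ _).trans h4
      have k2 := ((le_max_left _ _).trans (le_max_right _ _)).trans h4
      have k3 := ((le_max_right _ _).trans (le_max_right _ _)).trans h4
      exact ⟨hx, by linarith, by linarith, by linarith⟩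
  rw [h2]
  exact H.cpt.inter_right ht1

/-- the smooth choice of vectors -/
theorem exists_field (H : Hyp ρ c g φ a U) {δ : ℝ} (hK : KK ρ c g a δ ⊆ N ρ c g φ a U) :
    ∃ Y : E → E, ContDiff ℝ 1 Y ∧ ∀ x ∈ KK ρ c g a δ, Cond ρ c g φ a x (Y x) := by
  let t : E → Set E := fun x => {y | x ∈ KK ρ c g a δ → Cond ρ c g φ a x y}
  have ht : ∀ x, Convex ℝ (t x) := by
    intro x
    by_cases hx : x ∈ KK ρ c g a δ
    · have : t x = {y | Cond ρ c g φ a x y} := by
        ext y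
        exact ⟨fun h => h hx, fun h _ => h⟩
      rw [this]
      exact convex_cond x
    · have : t x = univ := by
        ext y
        exact ⟨fun _ => mem_univ _, fun _ h => absurd h hx⟩
      rw [this]
      exact convex_univ
  have hloc : ∀ x : E, ∃ y : E, ∀ᶠ x' in 𝓝 x, y ∈ t x' := by
    intro x
    by_cases hx : x ∈ KK ρ c g a δ
    · obtain ⟨y, hy⟩ := hK hx
      exact ⟨y, hy.mono fun x' h _ => h.2⟩
    · refine ⟨0, ?_⟩
      filter_upwards [(H.isCompact_KK δ).isClosed.isOpen_compl.mem_nhds hx] with x' hx' h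
      exact absurd h hx'
  obtain ⟨Y, hY⟩ := exists_contMDiffMap_forall_mem_convex_of_local_const (n := 1) 𝓘(ℝ, E) ht hloc
  exact ⟨Y, Y.contMDiff.contDiff, fun x hx => hY x hx⟩

/-- the field: Lipschitz, tangent to the levels of `ρ` and `c`, controlled on `KK` -/
theorem exists_lip_field (H : Hyp ρ c g φ a U) {δ : ℝ} (hK : KK ρ c g a δ ⊆ N ρ c g φ a U) :
    ∃ (V : E → E) (S : Set E), (∃ C : ℝ≥0, LipschitzWith C V) ∧ S ⊆ U ∧ (∀ x ∉ S, V x = 0) ∧
      (∀ x ∈ S, fderiv ℝ ρ x (V x) = 0 ∧ fderiv ℝ c x (V x) = 0) ∧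
      ∀ x ∈ KK ρ c g a δ, 0 < φ x * fderiv ℝ g x (V x) - g x * fderiv ℝ φ x (V x) ∧
        ∀ i, a i x = 0 → DifferentiableAt ℝ (a i) x ∧ 0 < fderiv ℝ (a i) x (V x) := by
  have : ProperSpace E := FiniteDimensional.proper_real E
  obtain ⟨Y, hY, hYc⟩ := H.exists_field hK
  have hKc := H.isCompact_KK δ
  -- the open set where everything is good
  let O : Set E := {x | x ∈ U ∧ Good (dA ρ c x)}
  have hO : IsOpen O := by
    rw [isOpen_iff_mem_nhds]
    rintro x ⟨hx, hg⟩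
    filter_upwards [H.oU.mem_nhds hx,
      (H.continuousAt_dA hx).preimage_mem_nhds (isOpen_good.mem_nhds hg)] with x' h1 h2
    exact ⟨h1, h2⟩
  have hKO : KK ρ c g a δ ⊆ O := by
    intro x hx
    obtain ⟨y, hy⟩ := hK hx
    have := hy.self_of_nhds.1
    exact ⟨this.1, this.2.1⟩
  obtain ⟨η, hη, hηO⟩ := hKc.exists_cthickening_subset_open hO hKO
  have hη2 : 0 < η / 2 := half_pos hη
  let θ : E → ℝ := fun x => (thickenedIndicator hη2 (KK ρ c g a δ) x : ℝ)
  have hθ1 : ∀ x ∈ KK ρ c g a δ, θ x = 1 := by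
    intro x hx
    have := thickenedIndicator_one hη2 (KK ρ c g a δ) hx
    show ((thickenedIndicator hη2 (KK ρ c g a δ) x : ℝ≥0) : ℝ) = 1
    rw [this]; rfl
  have hθ0 : ∀ x, x ∉ thickening (η / 2) (KK ρ c g a δ) → θ x = 0 := by
    intro x hx
    have := thickenedIndicator_zero hη2 (KK ρ c g a δ) hx
    show ((thickenedIndicator hη2 (KK ρ c g a δ) x : ℝ≥0) : ℝ) = 0
    rw [this]; rfl
  have hθlip : LipschitzWith (η / 2).toNNReal⁻¹ θ := by
    have h1 := lipschitzWith_thickenedIndicator hη2 (KK ρ c g a δ)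
    intro p q
    exact h1 p q
  let V : E → E := fun x => θ x • prj (dA ρ c x) (Y x)
  let S : Set E := thickening (η / 2) (KK ρ c g a δ)
  have hSO : ∀ x ∈ cthickening (η / 2) (KK ρ c g a δ), x ∈ O := fun x hx =>
    hηO (cthickening_mono (by linarith) _ hx)
  have hV0 : ∀ x ∉ S, V x = 0 := by
    intro x hx
    show θ x • prj (dA ρ c x) (Y x) = 0
    rw [hθ0 x hx, zero_smul]
  have hVloc : LocallyLipschitz V := by
    intro x
    by_cases hx : x ∈ cthickening (η / 2) (KK ρ c g a δ)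
    · obtain ⟨hxU, hxg⟩ := hSO x hx
      have hc1 : ContDiffAt ℝ 1 (fun q : ℝ × (E →L[ℝ] ℝ × ℝ) × E => q.1 • prj q.2.1 q.2.2)
          (θ x, dA ρ c x, Y x) := by
        have h1 : ContDiffAt ℝ 1 (fun q : ℝ × (E →L[ℝ] ℝ × ℝ) × E => prj q.2.1 q.2.2)
            (θ x, dA ρ c x, Y x) :=
          ContDiffAt.comp (g := fun q : (E →L[ℝ] ℝ × ℝ) × E => prj q.1 q.2)
            (f := fun q : ℝ × (E →L[ℝ] ℝ × ℝ) × E => q.2) (θ x, dA ρ c x, Y x)
            (contDiffAt_prj (q := (dA ρ c x, Y x)) hxg) contDiffAt_snd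
        exact contDiffAt_fst.smul h1
      obtain ⟨K₁, T₁, hT₁, hL₁⟩ := hc1.exists_lipschitzOnWith
      obtain ⟨K₂, T₂, hT₂, hL₂⟩ := H.lρ hxU
      obtain ⟨K₃, T₃, hT₃, hL₃⟩ := H.lc hxU
      obtain ⟨K₄, T₄, hT₄, hL₄⟩ := hY.locallyLipschitz x
      have hU' : 𝓝[U] x = 𝓝 x := H.oU.nhdsWithin_eq hxU
      rw [hU'] at hT₂ hT₃
      have hLA : LipschitzOnWith (max K₂ K₃) (dA ρ c) (T₂ ∩ T₃) := by
        have h1 : LipschitzOnWith (max K₂ K₃) (fun x => (fderiv ℝ ρ x, fderiv ℝ c x)) (T₂ ∩ T₃) :=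
          (hL₂.mono inter_subset_left).prodMk (hL₃.mono inter_subset_right)
        have h3 : dA ρ c = fun x => ContinuousLinearMap.prodₗᵢ ℝ (fderiv ℝ ρ x, fderiv ℝ c x) := by
          funext x
          rfl
        rw [h3]
        intro p hp q hq
        have hiso : Isometry (fun z : (E →L[ℝ] ℝ) × (E →L[ℝ] ℝ) =>
            ContinuousLinearMap.prodₗᵢ ℝ z) := (ContinuousLinearMap.prodₗᵢ ℝ).isometry
        have h4 := hiso.edist_eq (fderiv ℝ ρ p, fderiv ℝ c p) (fderiv ℝ ρ q, fderiv ℝ c q)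
        exact h4.le.trans (h1 hp hq)
      have hL : LipschitzOnWith (max (η / 2).toNNReal⁻¹ (max (max K₂ K₃) K₄))
          (fun x => (θ x, dA ρ c x, Y x)) (T₂ ∩ T₃ ∩ T₄) :=
        hθlip.lipschitzOnWith.prodMk
          ((hLA.mono inter_subset_left).prodMk (hL₄.mono inter_subset_right))
      have hcont : ContinuousAt (fun x => (θ x, dA ρ c x, Y x)) x :=
        hθlip.continuous.continuousAt.prodMk
          ((H.continuousAt_dA hxU).prodMk hY.continuous.continuousAt)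
      refine ⟨K₁ * max (η / 2).toNNReal⁻¹ (max (max K₂ K₃) K₄),
        T₂ ∩ T₃ ∩ T₄ ∩ ((fun x => (θ x, dA ρ c x, Y x)) ⁻¹' T₁),
        inter_mem (inter_mem (inter_mem hT₂ hT₃) hT₄) (hcont.preimage_mem_nhds hT₁), ?_⟩
      exact hL₁.comp (hL.mono inter_subset_left) fun q hq => hq.2
    · have hcl : IsClosed (cthickening (η / 2) (KK ρ c g a δ)) := isClosed_cthickening
      refine ⟨0, (cthickening (η / 2) (KK ρ c g a δ))ᶜ, hcl.isOpen_compl.mem_nhds hx, ?_⟩
      have h0 : ∀ q ∈ (cthickening (η / 2) (KK ρ c g a δ))ᶜ, V q = 0 := fun q hq =>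
        hV0 q fun h => hq (thickening_subset_cthickening _ _ h)
      intro q hq q' hq'
      rw [h0 q hq, h0 q' hq']
      simp
  have hbd : Bornology.IsBounded S := hKc.isBounded.thickening
  refine ⟨V, S, lipschitz_of_compact_support hVloc hbd hV0, fun x hx =>
    (hSO x (thickening_subset_cthickening _ _ hx)).1, hV0, fun x hx => ?_, fun x hx => ?_⟩
  · obtain ⟨hxU, hxg⟩ := hSO x (thickening_subset_cthickening _ _ hx)
    have h1 := prj_spec hxg (Y x)
    have h2 : dA ρ c x (V x) = 0 := by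
      show dA ρ c x (θ x • prj (dA ρ c x) (Y x)) = 0
      rw [map_smul, h1, smul_zero]
    exact ⟨congrArg Prod.fst h2, congrArg Prod.snd h2⟩
  · have h1 := hYc x hx
    have h2 : V x = prj (dA ρ c x) (Y x) := by
      show θ x • prj (dA ρ c x) (Y x) = _
      rw [hθ1 x hx, one_smul]
    rw [h2]
    exact ⟨h1.1, fun i hi => h1.2 i hx.1 hi⟩

end Hyp

/-- **THE FLOW-LINE THEOREM.** -/
theorem exists_homeo {ρ c g φ : E → ℝ} {a : ι → E → ℝ} {U : Set E} (H : Hyp ρ c g φ a U) :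
    ∃ F : {x : E // ρ x = 1} ≃ₜ {x : E // ρ x = 1}, (∀ x, c (F x) = c x) ∧
      ∀ x : {x : E // ρ x = 1}, c x = 0 →
        (0 < mx a (F x) ↔ 0 < g x) ∧ (mx a (F x) = 0 ↔ g x = 0) := by
  classical
  obtain ⟨δ, hδ, hKN, hpos⟩ := H.exists_delta
  obtain ⟨V, S, ⟨C, hC⟩, hSU, hV0, hVt, hVK⟩ := H.exists_lip_field hKN
  obtain ⟨Φ, hΦ0, hΦs, hΦc, hΦc', hΦu⟩ := exists_flow (X := fun _ => V)
    (hC.continuous.comp continuous_snd) (K := C) (fun _ => hC)
  have hsol : ∀ x t, HasDerivAt (fun t => Φ t x) (V (Φ t x)) t := fun x t => hΦs x t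
  have hadd : ∀ s t x, Φ (s + t) x = Φ s (Φ t x) := by
    intro s t x
    have h1 : Sol (fun _ => V) fun s => Φ (s + t) x := by
      intro s
      exact HasDerivAt.comp_add_const s t (hsol x (s + t))
    have h2 := hΦu _ h1 s
    simpa using h2
  -- along an orbit
  have hstat : ∀ x, V x = 0 → ∀ t, Φ t x = x := by
    intro x hx t
    have h1 : Sol (fun _ => V) fun _ : ℝ => x := by
      intro s
      show HasDerivAt (fun _ : ℝ => x) (V x) s
      rw [hx]
      exact hasDerivAt_const s x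
    exact (hΦu _ h1 t).symm
  have hconst : ∀ f : E → ℝ, (∀ x ∈ U, DifferentiableAt ℝ f x) →
      (∀ x ∈ S, fderiv ℝ f x (V x) = 0) → ∀ x t, f (Φ t x) = f x := by
    intro f hf hfV x t
    by_cases hx : V x = 0
    · rw [hstat x hx]
    · have hne : ∀ s, V (Φ s x) ≠ 0 := by
        intro s hs
        have h1 := hstat _ hs (-s)
        rw [← hadd, neg_add_cancel, hΦ0] at h1
        rw [← h1] at hs
        exact hx hs
      have hS : ∀ s, Φ s x ∈ S := fun s => by
        by_contra h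
        exact hne s (hV0 _ h)
      have hder : ∀ s, HasDerivAt (fun s => f (Φ s x)) 0 s := by
        intro s
        have h1 := (hf _ (hSU (hS s))).hasFDerivAt.comp_hasDerivAt s (hsol x s)
        rw [hfV _ (hS s)] at h1
        exact h1
      have h2 : Differentiable ℝ fun s => f (Φ s x) := fun s => (hder s).differentiableAt
      have h3 := is_const_of_deriv_eq_zero h2 (fun s => (hder s).deriv) t 0
      rw [h3, hΦ0]
  have hρ : ∀ x t, ρ (Φ t x) = ρ x := hconst ρ H.dρ fun x hx => (hVt x hx).1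
  have hc : ∀ x t, c (Φ t x) = c x := hconst c H.dc fun x hx => (hVt x hx).2
  -- the space
  let X := {x : E // ρ x = 1}
  have hXc : CompactSpace X := isCompact_iff_compactSpace.1 H.cpt
  let ψ : ℝ → X → X := fun t x => ⟨Φ t x, (hρ x t).trans x.2⟩
  have cψ : Continuous fun p : ℝ × X => ψ p.1 p.2 :=
    (hΦc.comp (continuous_fst.prodMk (continuous_subtype_val.comp continuous_snd) :
      Continuous fun p : ℝ × X => (p.1, p.2.1))).subtype_mk _
  have cg' : Continuous fun x : X => g x := continuousOn_iff_continuous_domRestrict.1 H.cg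
  have cm' : Continuous fun x : X => mx a x := continuousOn_iff_continuous_domRestrict.1 H.cm
  have ca' : ∀ i, Continuous fun x : X => a i x := fun i =>
    continuousOn_iff_continuous_domRestrict.1 (H.ca i)
  have cc' : Continuous fun x : X => c x := continuousOn_iff_continuous_domRestrict.1 H.cc
  have corb : ∀ x : X, Continuous fun t => ψ t x := fun x =>
    cψ.comp (by fun_prop : Continuous fun t : ℝ => (t, x))
  -- `g` crosses
  have hgK : ∀ x : X, |c x| ≤ δ → g x = 0 → (x : E) ∈ Hyp.KK ρ c g a δ := by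
    intro x hx h0
    refine ⟨x.2, hx, by rw [h0]; linarith, ?_⟩
    by_contra h1
    have := hpos x x.2 hx (by linarith [not_le.1 h1])
    linarith
  have hmK : ∀ x : X, |c x| ≤ δ → mx a x = 0 → (x : E) ∈ Hyp.KK ρ c g a δ := by
    intro x hx h0
    refine ⟨x.2, hx, ?_, by rw [h0]; exact hδ.le⟩
    have := hpos x x.2 hx h0.ge
    linarith
  have hstatK : ∀ x ∈ Hyp.KK ρ c g a δ, Hyp.Stat ρ c g φ U x := by
    intro x hx
    obtain ⟨y, hy⟩ := hKN hx
    exact hy.self_of_nhds.1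
  have crossg : ∀ x : X, |c x| ≤ δ → ∀ t, g (ψ t x) = 0 → Cross (fun t => g (ψ t x)) t := by
    intro x hx t ht
    have hmem := hgK (ψ t x) (by show |c (Φ t x)| ≤ δ; rw [hc]; exact hx) ht
    obtain ⟨-, -, hdg, -, hφ⟩ := hstatK _ hmem
    have h1 := (hVK _ hmem).1
    rw [ht, zero_mul, sub_zero] at h1
    have h2 : 0 < fderiv ℝ g (ψ t x) (V (ψ t x)) := (mul_pos_iff_of_pos_left hφ).1 h1
    have h3 : HasDerivAt (fun t => g (Φ t x)) (fderiv ℝ g (Φ t x) (V (Φ t x))) t :=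
      (hdg.differentiableAt one_ne_zero).hasFDerivAt.comp_hasDerivAt t (hsol x t)
    exact cross_of_hasDerivAt h3 ht h2
  have crossm : ∀ x : X, |c x| ≤ δ → ∀ t, mx a (ψ t x) = 0 →
      Cross (fun t => mx a (ψ t x)) t := by
    intro x hx t ht
    have hmem := hmK (ψ t x) (by show |c (Φ t x)| ≤ δ; rw [hc]; exact hx) ht
    have h1 := (hVK _ hmem).2
    have key : ∀ i, a i (ψ t x) = 0 → Cross (fun t => a i (ψ t x)) t := by
      intro i hi
      obtain ⟨h2, h3⟩ := h1 i hi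
      have h4 : HasDerivAt (fun t => a i (Φ t x)) (fderiv ℝ (a i) (Φ t x) (V (Φ t x))) t :=
        h2.hasFDerivAt.comp_hasDerivAt t (hsol x t)
      exact cross_of_hasDerivAt h4 hi h3
    have hle : ∀ i, a i (ψ t x) ≤ 0 := mx_le_iff.1 ht.le
    constructor
    · obtain ⟨i, hi⟩ := exists_mx a (ψ t x : E)
      have h2 := (key i (by rw [← hi]; exact ht)).1
      filter_upwards [h2] with s hs
      exact lt_of_lt_of_le hs (le_mx a _ i)
    · have h2 : ∀ i, ∀ᶠ s in 𝓝[<] t, a i (ψ s x) < 0 := by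
        intro i
        rcases eq_or_lt_of_le (hle i) with h | h
        · exact (key i h).2
        · have h3 : Continuous fun s => a i (ψ s x) := (ca' i).comp (corb x)
          exact (h3.continuousAt.eventually_lt continuousAt_const h).filter_mono
            nhdsWithin_le_nhds
      filter_upwards [eventually_all.2 h2] with s hs
      exact mx_lt_iff.2 hs
  have fg : ∀ x : X, |c x| ≤ δ → 0 ≤ g x → ∀ t, 0 < t → 0 < g (ψ t x) := by
    intro x hx h0 t ht
    refine pos_of_cross (u := fun t => g (ψ t x)) (cg'.comp (corb x)) (crossg x hx) ?_ ht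
    show 0 ≤ g (Φ 0 x)
    rwa [hΦ0]
  have fm : ∀ x : X, |c x| ≤ δ → 0 ≤ mx a x → ∀ t, 0 < t → 0 < mx a (ψ t x) := by
    intro x hx h0 t ht
    refine pos_of_cross (u := fun t => mx a (ψ t x)) (cm'.comp (corb x)) (crossm x hx) ?_ ht
    show 0 ≤ mx a (Φ 0 x)
    rwa [hΦ0]
  -- the Lyapunov function
  let K' : Set E := {x | x ∈ Hyp.KK ρ c g a δ ∧ 0 ≤ g x ∧ mx a x ≤ 0}
  obtain ⟨T, hT, hTK⟩ : ∃ T : ℝ, 0 < T ∧ ∀ x : X, |c x| ≤ δ → 0 ≤ g x → 0 ≤ mx a (ψ T x) := by
    have hK'c : IsCompact K' := by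
      have h1 : IsCompact {x : X | |c x| ≤ δ ∧ 0 ≤ g x ∧ mx a x ≤ 0} := by
        refine IsClosed.isCompact ?_
        exact (isClosed_le cc'.abs continuous_const).inter
          ((isClosed_le continuous_const cg').inter (isClosed_le cm' continuous_const))
      have h2 : K' = Subtype.val '' {x : X | |c x| ≤ δ ∧ 0 ≤ g x ∧ mx a x ≤ 0} := by
        ext x
        constructor
        · rintro ⟨⟨k0, k1, k2, k3⟩, k4, k5⟩
          exact ⟨⟨x, k0⟩, ⟨k1, k4, k5⟩, rfl⟩
        · rintro ⟨x, ⟨k1, k4, k5⟩, rfl⟩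
          exact ⟨⟨x.2, k1, by linarith, by linarith⟩, k4, k5⟩
      rw [h2]
      exact h1.image continuous_subtype_val
    let L : E → ℝ := fun x => g x / φ x
    let L' : E → ℝ := fun x =>
      (φ x * fderiv ℝ g x (V x) - g x * fderiv ℝ φ x (V x)) / φ x ^ 2
    have cL : ContinuousOn L K' := by
      intro x hx
      obtain ⟨-, -, hdg, hdφ, hφ⟩ := hstatK _ hx.1
      exact (hdg.continuousAt.div hdφ.continuousAt hφ.ne').continuousWithinAt
    have cL' : ContinuousOn L' K' := by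
      intro x hx
      obtain ⟨-, -, hdg, hdφ, hφ⟩ := hstatK _ hx.1
      have k1 : ContinuousAt (fun x => fderiv ℝ g x (V x)) x :=
        (hdg.continuousAt_fderiv one_ne_zero).clm_apply hC.continuous.continuousAt
      have k2 : ContinuousAt (fun x => fderiv ℝ φ x (V x)) x :=
        (hdφ.continuousAt_fderiv one_ne_zero).clm_apply hC.continuous.continuousAt
      exact (((hdφ.continuousAt.mul k1).sub (hdg.continuousAt.mul k2)).div
        (hdφ.continuousAt.pow 2) (pow_pos hφ 2).ne').continuousWithinAt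
    have pL' : ∀ x ∈ K', 0 < L' x := by
      intro x hx
      obtain ⟨-, -, -, -, hφ⟩ := hstatK _ hx.1
      exact div_pos (hVK x hx.1).1 (pow_pos hφ 2)
    obtain ⟨M, hM⟩ := hK'c.exists_bound_of_continuousOn cL
    obtain ⟨κ, hκ, hκL⟩ : ∃ κ > 0, ∀ x ∈ K', κ ≤ L' x := by
      rcases K'.eq_empty_or_nonempty with he | hne
      · exact ⟨1, one_pos, fun x hx => absurd hx (by rw [he]; simp)⟩
      · obtain ⟨x₀, hx₀, hmin⟩ := hK'c.exists_isMinOn hne cL'
        exact ⟨L' x₀, pL' x₀ hx₀, fun x hx => hmin hx⟩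
    have hM' : ∀ x ∈ K', |L x| ≤ |M| := fun x hx => (hM x hx).trans (le_abs_self M)
    refine ⟨(2 * |M| + 1) / κ, by positivity, fun x hx hgx => ?_⟩
    set T := (2 * |M| + 1) / κ with hTdef
    have hT0 : 0 < T := by positivity
    by_contra hneg
    have hneg' : mx a (ψ T x) < 0 := not_le.1 hneg
    have hin : ∀ t ∈ Icc (0 : ℝ) T, (ψ t x : E) ∈ K' := by
      intro t ht
      have k1 : |c (ψ t x)| ≤ δ := by show |c (Φ t x)| ≤ δ; rw [hc]; exact hx
      have k2 : 0 ≤ g (ψ t x) := by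
        rcases eq_or_lt_of_le ht.1 with h | h
        · rw [← h]
          show 0 ≤ g (Φ 0 x)
          rwa [hΦ0]
        · exact (fg x hx hgx t h).le
      have k3 : mx a (ψ t x) ≤ 0 := by
        by_contra h
        rcases eq_or_lt_of_le ht.2 with h4 | h4
        · rw [h4] at h
          exact h hneg'.le
        · have h5 := fm (ψ t x) k1 (not_le.1 h).le (T - t) (by linarith)
          have h6 : (ψ (T - t) (ψ t x)) = ψ T x := by
            apply Subtype.ext
            show Φ (T - t) (Φ t x) = Φ T x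
            rw [← hadd, sub_add_cancel]
          rw [h6] at h5
          linarith
      exact ⟨⟨(ψ t x).2, k1, by linarith, by linarith⟩, k2, k3⟩
    have hder : ∀ t ∈ Icc (0 : ℝ) T, HasDerivAt (fun t => L (Φ t x)) (L' (Φ t x)) t := by
      intro t ht
      obtain ⟨-, -, hdg, hdφ, hφ⟩ := hstatK _ (hin t ht).1
      have k1 : HasDerivAt (fun t => g (Φ t x)) (fderiv ℝ g (Φ t x) (V (Φ t x))) t :=
        (hdg.differentiableAt one_ne_zero).hasFDerivAt.comp_hasDerivAt t (hsol x t)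
      have k2 : HasDerivAt (fun t => φ (Φ t x)) (fderiv ℝ φ (Φ t x) (V (Φ t x))) t :=
        (hdφ.differentiableAt one_ne_zero).hasFDerivAt.comp_hasDerivAt t (hsol x t)
      have k3 := k1.div k2 hφ.ne'
      refine k3.congr_deriv ?_
      show _ = (φ (Φ t x) * fderiv ℝ g (Φ t x) (V (Φ t x)) -
        g (Φ t x) * fderiv ℝ φ (Φ t x) (V (Φ t x))) / φ (Φ t x) ^ 2
      congr 1
      ring
    -- mean value
    obtain ⟨t, ht, hmv⟩ := exists_hasDerivAt_eq_slope (fun t => L (Φ t x)) (fun t => L' (Φ t x)) hT0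
      (fun t ht => (hder t ht).continuousAt.continuousWithinAt)
      (fun t ht => hder t ⟨ht.1.le, ht.2.le⟩)
    have h1 := hκL _ (hin t ⟨ht.1.le, ht.2.le⟩)
    have h1' : κ ≤ L' (Φ t x) := h1
    rw [hmv, le_div_iff₀ (by linarith)] at h1'
    have h2 := hM' _ (hin T ⟨hT0.le, le_rfl⟩)
    have h3 := hM' _ (hin 0 ⟨le_rfl, hT0.le⟩)
    have h2' : L (Φ T x) ≤ |M| := (le_abs_self _).trans h2
    have h3' : -|M| ≤ L (Φ 0 x) := by
      have := neg_abs_le (L (Φ 0 x))
      have h4 : |L (Φ 0 x)| ≤ |M| := h3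
      linarith
    have h5 : κ * (T - 0) = 2 * |M| + 1 := by
      rw [hTdef, sub_zero]
      field_simp
    linarith
  have HFL : FL ψ (fun x : X => c x) (fun x : X => g x) (fun x : X => mx a x) δ T :=
    { cφ := cψ
      φ0 := fun x => Subtype.ext (hΦ0 x)
      φa := fun s t x => Subtype.ext (hadd s t x)
      cc := cc'
      cg := cg'
      ch := cm'
      inv := fun t x => hc x t
      hδ := hδ
      hT := hT.le
      fg := fg
      fh := fm
      hg := fun x hx h => (hpos x x.2 hx h).le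
      gh := hTK }
  obtain ⟨F, -, h2, h3⟩ := HFL.exists_homeo
  exact ⟨F, h2, h3⟩

end Crest.Agent.R267.FlowLine_363
end
end

-- ▼ part R267/Carve_363

/-!
# Row 267 (helper363): the abstract carve theorem

`G : ℂ^N → ℂ` homogeneous of degree one, `z j = s j + i t j`.  The flow-line theorem is applied to
`φ = ψ · exp (Λ h)`, `h = (∑ s j) / √(|s|² + κ |z|²)`, `κ = Λ⁻⁴`, `Λ` large.
-/

set_option autoImplicit false
set_option linter.unusedSectionVars false
set_option linter.unusedVariables false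

noncomputable section

open Set Filter Topology Metric
open scoped NNReal ContDiff InnerProductSpace
open Crest.Agent.R267.Cone_808 Crest.Agent.R267.SphReg_808 Crest.Agent.R267.Hm_951
open Crest.Agent.R267.FlowLine_363
open Crest.Agent.R267.T3aDefs_957.LD (vt vs)

namespace Crest.Agent.R267.Carve_363

variable {N : ℕ}

/-- `|s|²` -/
def S2 (x : Fin N → ℂ) : ℝ := ∑ j, (x j).re ^ 2

/-- `∑ s j` -/
def re1 (x : Fin N → ℂ) : ℝ := ∑ j, (x j).re

/-- the square of the gauge -/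
def qq (κ : ℝ) (x : Fin N → ℂ) : ℝ := S2 x + κ * nsq x

/-- the Lyapunov function -/
def hh (κ : ℝ) (x : Fin N → ℂ) : ℝ := re1 x / √(qq κ x)

theorem S2_nonneg (x : Fin N → ℂ) : 0 ≤ S2 x := Finset.sum_nonneg fun _ _ => sq_nonneg _

theorem re1_sq_le (x : Fin N → ℂ) : re1 x ^ 2 ≤ N * S2 x := by
  have := sq_sum_le_card_mul_sum_sq (s := (Finset.univ : Finset (Fin N))) (f := fun j => (x j).re)
  simpa [re1, S2] using this

theorem qq_pos {κ : ℝ} (hκ : 0 < κ) {x : Fin N → ℂ} (hx : x ≠ 0) : 0 < qq κ x :=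
  add_pos_of_nonneg_of_pos (S2_nonneg x) (mul_pos hκ (nsq_pos hx))

theorem contDiff_S2 {n : WithTop ℕ∞} : ContDiff ℝ n (S2 (N := N)) := by
  unfold S2
  refine ContDiff.sum fun j _ => ?_
  exact (Complex.reCLM.contDiff.comp (contDiff_apply ℝ ℂ j)).pow 2

theorem contDiff_re1 {n : WithTop ℕ∞} : ContDiff ℝ n (re1 (N := N)) := by
  unfold re1
  refine ContDiff.sum fun j _ => ?_
  exact Complex.reCLM.contDiff.comp (contDiff_apply ℝ ℂ j)

theorem contDiff_qq {n : WithTop ℕ∞} (κ : ℝ) : ContDiff ℝ n (qq (N := N) κ) := by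
  unfold qq
  exact contDiff_S2.add (contDiff_const.mul contDiff_nsq)

theorem contDiffAt_hh {n : WithTop ℕ∞} {κ : ℝ} (hκ : 0 < κ) {x : Fin N → ℂ} (hx : x ≠ 0) :
    ContDiffAt ℝ n (hh κ) x := by
  unfold hh
  have h := qq_pos hκ hx
  exact contDiff_re1.contDiffAt.div ((contDiff_qq κ).contDiffAt.sqrt h.ne')
    (Real.sqrt_ne_zero'.2 h)

theorem ip_expand (x y : Fin N → ℂ) (τ : ℝ) :
    nsq (x + τ • y) = nsq x + 2 * τ * ip x y + τ ^ 2 * nsq y := by
  rw [← ip_self (x + τ • y), ip_add_right, ip_smul_right]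
  have hc : ∀ u v : Fin N → ℂ, ip u v = ip v u := fun u v => by
    unfold ip
    exact Finset.sum_congr rfl fun i _ => real_inner_comm _ _
  rw [hc (x + τ • y) x, hc (x + τ • y) y, ip_add_right, ip_add_right, ip_smul_right,
    ip_smul_right, ip_self, ip_self, hc y x]
  ring

theorem S2_line (x y : Fin N → ℂ) (τ : ℝ) :
    S2 (x + τ • y) = S2 x + 2 * τ * (∑ j, (x j).re * (y j).re) + τ ^ 2 * S2 y := by
  unfold S2
  rw [Finset.mul_sum, Finset.mul_sum, ← Finset.sum_add_distrib, ← Finset.sum_add_distrib]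
  refine Finset.sum_congr rfl fun j _ => ?_
  simp
  ring

theorem re1_line (x y : Fin N → ℂ) (τ : ℝ) : re1 (x + τ • y) = re1 x + τ * re1 y := by
  unfold re1
  rw [Finset.mul_sum, ← Finset.sum_add_distrib]
  exact Finset.sum_congr rfl fun j _ => by simp

/-- derivative of `hh` -/
theorem fderiv_hh {κ : ℝ} (hκ : 0 < κ) {x : Fin N → ℂ} (hx : x ≠ 0) (y : Fin N → ℂ) :
    fderiv ℝ (hh κ) x y = (re1 y * qq κ x -
      re1 x * ((∑ j, (x j).re * (y j).re) + κ * ip x y)) / (qq κ x * √(qq κ x)) := by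
  have hq := qq_pos hκ hx
  have hs := Real.sqrt_pos.2 hq
  have h1 : HasDerivAt (fun τ : ℝ => re1 (x + τ • y)) (re1 y) 0 := by
    have : (fun τ : ℝ => re1 (x + τ • y)) = fun τ => re1 x + τ * re1 y := by
      funext τ; exact re1_line x y τ
    rw [this]
    simpa using ((hasDerivAt_id (0 : ℝ)).mul_const (re1 y)).const_add (re1 x)
  have h2 : HasDerivAt (fun τ : ℝ => qq κ (x + τ • y))
      (2 * ((∑ j, (x j).re * (y j).re) + κ * ip x y)) 0 := by
    have : (fun τ : ℝ => qq κ (x + τ • y)) = fun τ =>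
        qq κ x + τ * (2 * ((∑ j, (x j).re * (y j).re) + κ * ip x y)) + τ ^ 2 * qq κ y := by
      funext τ
      unfold qq
      rw [ip_expand, S2_line]
      ring
    rw [this]
    have h3 := ((hasDerivAt_id (0 : ℝ)).mul_const
      (2 * ((∑ j, (x j).re * (y j).re) + κ * ip x y))).const_add (qq κ x)
    have h4 := ((hasDerivAt_id (0 : ℝ)).pow 2).mul_const (qq κ y)
    have h5 := h3.fun_add h4
    simpa using h5
  have h0 : qq κ (x + (0 : ℝ) • y) = qq κ x := by rw [zero_smul, add_zero]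
  have h3 := h2.sqrt (by rw [h0]; exact hq.ne')
  have h4 := h1.div h3 (by rw [h0]; exact hs.ne')
  have h5 : HasDerivAt (fun τ : ℝ => hh κ (x + τ • y)) (fderiv ℝ (hh κ) x y) 0 := by
    have h6 : HasFDerivAt (hh κ) (fderiv ℝ (hh κ) x) (x + (0 : ℝ) • y) := by
      rw [zero_smul, add_zero]
      exact ((contDiffAt_hh (n := 1) hκ hx).differentiableAt one_ne_zero).hasFDerivAt
    have h7 : HasDerivAt (fun τ : ℝ => x + τ • y) y 0 := by
      simpa using ((hasDerivAt_id (0 : ℝ)).smul_const y).const_add x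
    exact h6.comp_hasDerivAt 0 h7
  have h6 := h5.unique h4
  rw [h6]
  simp only [zero_smul, add_zero]
  rw [Real.sq_sqrt hq.le]
  field_simp
  rw [Real.sq_sqrt hq.le]

theorem re1_vs (b : ℝ) (Y : Fin N → ℝ) : re1 (vs b Y) = -(b * N) := by
  unfold re1 vs
  simp [mul_comm]

theorem sum_vs (x : Fin N → ℂ) (b : ℝ) (Y : Fin N → ℝ) :
    (∑ j, (x j).re * (vs b Y j).re) = -(b * re1 x) := by
  unfold re1 vs
  rw [Finset.mul_sum, ← Finset.sum_neg_distrib]
  refine Finset.sum_congr rfl fun j _ => ?_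
  simp
  ring

theorem fderiv_hh_vs {κ : ℝ} (hκ : 0 < κ) {x : Fin N → ℂ} (hx : x ≠ 0) (b : ℝ) (Y : Fin N → ℝ) :
    fderiv ℝ (hh κ) x (vs b Y) = -((b * (N * qq κ x - re1 x ^ 2) + κ * re1 x * ip x (vs b Y)) /
      (qq κ x * √(qq κ x))) := by
  rw [fderiv_hh hκ hx, re1_vs, sum_vs, ← neg_div]
  congr 1
  ring

/-! ### Euler -/

theorem euler1 {f : (Fin N → ℂ) → ℝ} (hom : ∀ (r : ℝ) x, 0 < r → f (r • x) = r * f x)
    {x : Fin N → ℂ} (hf : DifferentiableAt ℝ f x) : fderiv ℝ f x x = f x := by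
  have h1 : HasDerivAt (fun r : ℝ => r • x) x 1 := by
    simpa using (hasDerivAt_id (1 : ℝ)).smul_const x
  have h2 : HasFDerivAt f (fderiv ℝ f x) ((1 : ℝ) • x) := by
    rw [one_smul]; exact hf.hasFDerivAt
  have h3 : HasDerivAt (fun r : ℝ => f (r • x)) (fderiv ℝ f x x) 1 := h2.comp_hasDerivAt 1 h1
  have h4 : HasDerivAt (fun r : ℝ => r * f x) (f x) 1 := by
    simpa using (hasDerivAt_id (1 : ℝ)).mul_const (f x)
  have h5 : (fun r : ℝ => f (r • x)) =ᶠ[𝓝 1] fun r => r * f x := by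
    filter_upwards [lt_mem_nhds (zero_lt_one' ℝ)] with r hr using hom r x hr
  exact h3.unique (h4.congr_of_eventuallyEq h5)

theorem fderiv_re {G : (Fin N → ℂ) → ℂ} {x : Fin N → ℂ} (h : DifferentiableAt ℝ G x)
    (y : Fin N → ℂ) : fderiv ℝ (fun x => (G x).re) x y = (fderiv ℝ G x y).re := by
  have h1 : HasFDerivAt (fun x => (G x).re) (Complex.reCLM.comp (fderiv ℝ G x)) x :=
    Complex.reCLM.hasFDerivAt.comp x h.hasFDerivAt
  rw [h1.fderiv]
  rfl

theorem fderiv_im {G : (Fin N → ℂ) → ℂ} {x : Fin N → ℂ} (h : DifferentiableAt ℝ G x)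
    (y : Fin N → ℂ) : fderiv ℝ (fun x => (G x).im) x y = (fderiv ℝ G x y).im := by
  have h1 : HasFDerivAt (fun x => (G x).im) (Complex.imCLM.comp (fderiv ℝ G x)) x :=
    Complex.imCLM.hasFDerivAt.comp x h.hasFDerivAt
  rw [h1.fderiv]
  rfl

/-! ### the expression -/

/-- `exp(-Λ h) (φ dg(y) - g dφ(y))` for `y = vs b Y`, `Λ = δ⁻¹`, `κ = δ⁴` -/
def Ex (G : (Fin N → ℂ) → ℂ) (ψ : (Fin N → ℂ) → ℝ) (δ : ℝ) (x : Fin N → ℂ) (b : ℝ)
    (y : Fin N → ℂ) : ℝ :=
  ψ x * (fderiv ℝ G x y).re - (G x).re * fderiv ℝ ψ x y +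
    ψ x * (G x).re * δ⁻¹ * ((b * (N * qq (δ ^ 4) x - re1 x ^ 2) + δ ^ 4 * re1 x * ip x y) /
      (qq (δ ^ 4) x * √(qq (δ ^ 4) x)))

theorem Ex_ge {G : (Fin N → ℂ) → ℂ} {ψ : (Fin N → ℂ) → ℝ} {δ : ℝ} {x : Fin N → ℂ} {b K : ℝ}
    {y : Fin N → ℂ} (hδ : 0 < δ) (hx : nsq x = 1) (hb : 0 ≤ b) (hg : 0 ≤ (G x).re)
    (hK0 : 0 ≤ K) (hK : (G x).re ≤ K * √(S2 x)) (hψ : 0 ≤ ψ x) :
    ψ x * (fderiv ℝ G x y).re - (G x).re * fderiv ℝ ψ x y -
      ψ x * (K * √N * |ip x y| * δ / 2) ≤ Ex G ψ δ x b y := by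
  have hx0 : x ≠ 0 := fun h => by rw [h] at hx; simp [nsq] at hx
  have hq := qq_pos (pow_pos hδ 4) hx0
  have hs := Real.sqrt_pos.2 hq
  have hqe : qq (δ ^ 4) x = S2 x + δ ^ 4 := by unfold qq; rw [hx, mul_one]
  have hS := S2_nonneg x
  have hsS := Real.sqrt_nonneg (S2 x)
  have h2 : 2 * (G x).re * δ ^ 2 ≤ K * qq (δ ^ 4) x := by
    have h3 : 2 * δ ^ 2 * √(S2 x) ≤ qq (δ ^ 4) x := by
      rw [hqe]
      nlinarith [sq_nonneg (√(S2 x) - δ ^ 2), Real.sq_sqrt hS]
    calc 2 * (G x).re * δ ^ 2 ≤ 2 * (K * √(S2 x)) * δ ^ 2 := by gcongr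
      _ = K * (2 * δ ^ 2 * √(S2 x)) := by ring
      _ ≤ K * qq (δ ^ 4) x := by gcongr
  have h1 : |re1 x| ≤ √N * √(qq (δ ^ 4) x) := by
    rw [← Real.sqrt_mul (Nat.cast_nonneg N)]
    apply Real.abs_le_sqrt
    refine (re1_sq_le x).trans ?_
    rw [hqe]
    have : (0 : ℝ) ≤ N := Nat.cast_nonneg N
    nlinarith [pow_pos hδ 4]
  have h3 : -(δ ^ 4 * √N * |ip x y| / qq (δ ^ 4) x) ≤
      (b * (N * qq (δ ^ 4) x - re1 x ^ 2) + δ ^ 4 * re1 x * ip x y) /
      (qq (δ ^ 4) x * √(qq (δ ^ 4) x)) := by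
    rw [le_div_iff₀ (by positivity)]
    have e : -(δ ^ 4 * √N * |ip x y| / qq (δ ^ 4) x) * (qq (δ ^ 4) x * √(qq (δ ^ 4) x)) =
        -(δ ^ 4 * (√N * √(qq (δ ^ 4) x) * |ip x y|)) := by field_simp
    rw [e]
    have h4 : |re1 x * ip x y| ≤ √N * √(qq (δ ^ 4) x) * |ip x y| := by
      rw [abs_mul]; gcongr
    have h5 := neg_abs_le (re1 x * ip x y)
    have h6 : 0 ≤ b * (N * qq (δ ^ 4) x - re1 x ^ 2) := by
      refine mul_nonneg hb ?_
      have h7 := re1_sq_le x
      have : (0 : ℝ) ≤ N := Nat.cast_nonneg N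
      rw [hqe]
      nlinarith [pow_pos hδ 4]
    have h7 := pow_pos hδ 4
    nlinarith
  have h4 : 0 ≤ ψ x * (G x).re * δ⁻¹ := by positivity
  have h5 := mul_le_mul_of_nonneg_left h3 h4
  have h6 : -(ψ x * (K * √N * |ip x y| * δ / 2)) ≤
      ψ x * (G x).re * δ⁻¹ * -(δ ^ 4 * √N * |ip x y| / qq (δ ^ 4) x) := by
    have e : ψ x * (G x).re * δ⁻¹ * -(δ ^ 4 * √N * |ip x y| / qq (δ ^ 4) x) =
        -(ψ x * (√N * |ip x y| * δ / 2) * (2 * (G x).re * δ ^ 2 / qq (δ ^ 4) x)) := by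
      field_simp
    rw [e]
    have h7 : 2 * (G x).re * δ ^ 2 / qq (δ ^ 4) x ≤ K := by rwa [div_le_iff₀ hq]
    have h8 : 0 ≤ ψ x * (√N * |ip x y| * δ / 2) := by positivity
    nlinarith [mul_le_mul_of_nonneg_left h7 h8]
  unfold Ex
  linarith

/-! ### linear bound for the real part -/

theorem exists_K {g : (Fin N → ℂ) → ℝ} {x₀ : Fin N → ℂ} (hg : ContDiffAt ℝ 1 g x₀)
    (S0 : ∀ x : Fin N → ℂ, (∀ j, (x j).re = 0) → g x = 0) :
    ∃ K : ℝ, 0 ≤ K ∧ ∀ᶠ x in 𝓝 x₀, g x ≤ K * √(S2 x) := by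
  rcases (S2_nonneg x₀).eq_or_lt with h | h
  · have hre : ∀ j, (x₀ j).re = 0 := by
      intro j
      have h1 := (Finset.sum_eq_zero_iff_of_nonneg (fun j _ => sq_nonneg ((x₀ j).re))).1 h.symm j
        (Finset.mem_univ j)
      exact pow_eq_zero_iff (two_ne_zero) |>.1 h1
    obtain ⟨K, t, ht, hK⟩ := hg.exists_lipschitzOnWith
    obtain ⟨r, hr, hrt⟩ := Metric.mem_nhds_iff.1 ht
    refine ⟨K, K.2, ?_⟩
    filter_upwards [Metric.ball_mem_nhds x₀ hr] with x hx
    let x' : Fin N → ℂ := fun j => Complex.I * ((x j).im : ℂ)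
    have hx' : x' ∈ ball x₀ r := by
      rw [mem_ball_iff_norm] at hx ⊢
      refine lt_of_le_of_lt ?_ hx
      rw [pi_norm_le_iff_of_nonneg (norm_nonneg _)]
      intro j
      have e : (x' - x₀) j = Complex.I * (((x - x₀) j).im : ℂ) := by
        apply Complex.ext <;> simp [x', hre j]
      rw [e, norm_mul, Complex.norm_I, one_mul, Complex.norm_real]
      exact (Complex.abs_im_le_norm _).trans (norm_le_pi_norm (x - x₀) j)
    have h1 := hK.dist_le_mul x (hrt hx) x' (hrt hx')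
    have h2 : g x' = 0 := S0 x' fun j => by simp [x']
    rw [h2, Real.dist_eq, sub_zero, dist_eq_norm] at h1
    refine (le_abs_self _).trans (h1.trans ?_)
    refine mul_le_mul_of_nonneg_left ?_ K.2
    rw [pi_norm_le_iff_of_nonneg (Real.sqrt_nonneg _)]
    intro j
    have e : (x - x') j = ((x j).re : ℂ) := by
      apply Complex.ext <;> simp [x']
    rw [e, Complex.norm_real]
    apply Real.abs_le_sqrt
    exact Finset.single_le_sum (f := fun j => (x j).re ^ 2) (fun j _ => sq_nonneg _)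
      (Finset.mem_univ j)
  · have hs := Real.sqrt_pos.2 h
    refine ⟨2 * (|g x₀| + 1) / √(S2 x₀), by positivity, ?_⟩
    have e1 : ∀ᶠ x in 𝓝 x₀, g x < |g x₀| + 1 :=
      hg.continuousAt.eventually_lt continuousAt_const (by linarith [le_abs_self (g x₀)])
    have e2 : ∀ᶠ x in 𝓝 x₀, √(S2 x₀) / 2 < √(S2 x) := by
      refine continuousAt_const.eventually_lt
        ((contDiff_S2 (n := 0)).continuous.sqrt.continuousAt) (by linarith)
    filter_upwards [e1, e2] with x h1 h2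
    rw [div_mul_eq_mul_div, le_div_iff₀ hs]
    nlinarith [abs_nonneg (g x₀)]

/-! ### the local claims -/

section loc

variable {κ : Type*} [Fintype κ] [Nonempty κ]
variable {G : (Fin N → ℂ) → ℂ} {ψ : (Fin N → ℂ) → ℝ} {a : κ → (Fin N → ℂ) → ℝ}

/-- a good vector at `x` -/
def Good (G : (Fin N → ℂ) → ℂ) (ψ : (Fin N → ℂ) → ℝ) (a : κ → (Fin N → ℂ) → ℝ) (δ : ℝ)
    (x : Fin N → ℂ) : Prop :=
  ∃ (b : ℝ) (Y : Fin N → ℝ), (fderiv ℝ G x (vs b Y)).im = 0 ∧ 0 < Ex G ψ δ x b (vs b Y) ∧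
    ∀ i, a i x = 0 → ContDiffAt ℝ 1 (a i) x ∧ 0 < fderiv ℝ (a i) x (vs b Y)

/-- the relevant points -/
def C0 (G : (Fin N → ℂ) → ℂ) (a : κ → (Fin N → ℂ) → ℝ) (x : Fin N → ℂ) : Prop :=
  nsq x = 1 ∧ (G x).im = 0 ∧ 0 ≤ (G x).re ∧ ∀ i, a i x ≤ 0

/-- corrected vector -/
def cor (G : (Fin N → ℂ) → ℂ) (b : ℝ) (Y V : Fin N → ℝ) (x : Fin N → ℂ) : Fin N → ℂ :=
  vs b Y - ((fderiv ℝ G x (vs b Y)).im / (fderiv ℝ G x (vt V)).im) • vt V

theorem cor_eq (b : ℝ) (Y V : Fin N → ℝ) (x : Fin N → ℂ) : ∃ Y', cor G b Y V x = vs b Y' := by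
  refine ⟨fun j => Y j - (fderiv ℝ G x (vs b Y)).im / (fderiv ℝ G x (vt V)).im * V j, ?_⟩
  funext j
  unfold cor vs vt
  simp only [Pi.sub_apply, Pi.smul_apply, Complex.real_smul]
  push_cast
  ring

theorem im_cor {b : ℝ} {Y V : Fin N → ℝ} {x : Fin N → ℂ} (h : (fderiv ℝ G x (vt V)).im ≠ 0) :
    (fderiv ℝ G x (cor G b Y V x)).im = 0 := by
  unfold cor
  rw [map_sub, map_smul, Complex.sub_im, Complex.smul_im, smul_eq_mul, div_mul_cancel₀ _ h,
    sub_self]

theorem cor_self {b : ℝ} {Y V : Fin N → ℝ} {x : Fin N → ℂ} (h : (fderiv ℝ G x (vs b Y)).im = 0) :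
    cor G b Y V x = vs b Y := by
  unfold cor
  rw [h, zero_div, zero_smul, sub_zero]

theorem continuousAt_fd {F : Type*} [NormedAddCommGroup F] [NormedSpace ℝ F]
    {f : (Fin N → ℂ) → F} {x : Fin N → ℂ} (h : ContDiffAt ℝ 1 f x) :
    ContinuousAt (fderiv ℝ f) x := h.continuousAt_fderiv one_ne_zero

theorem continuousAt_cor {b : ℝ} {Y V : Fin N → ℝ} {x : Fin N → ℂ} (hG : ContDiffAt ℝ 1 G x)
    (h : (fderiv ℝ G x (vt V)).im ≠ 0) : ContinuousAt (cor G b Y V) x := by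
  have h1 : ∀ y : Fin N → ℂ, ContinuousAt (fun x => (fderiv ℝ G x y).im) x := fun y =>
    Complex.continuous_im.continuousAt.comp ((continuousAt_fd hG).clm_apply continuousAt_const)
  unfold cor
  exact continuousAt_const.sub (((h1 _).div (h1 _) h).smul continuousAt_const)

theorem continuous_ip : Continuous fun p : (Fin N → ℂ) × (Fin N → ℂ) => ip p.1 p.2 := by
  unfold ip
  refine continuous_finsetSum _ fun i _ => ?_
  exact ((continuous_apply i).comp continuous_fst).inner ((continuous_apply i).comp continuous_snd)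

/-- the part of the expression without `Λ` -/
def Dx (G : (Fin N → ℂ) → ℂ) (ψ : (Fin N → ℂ) → ℝ) (x y : Fin N → ℂ) : ℝ :=
  ψ x * (fderiv ℝ G x y).re - (G x).re * fderiv ℝ ψ x y

theorem continuousAt_Dx {b : ℝ} {Y V : Fin N → ℝ} {x : Fin N → ℂ} (hG : ContDiffAt ℝ 1 G x)
    (hψ : ContDiffAt ℝ 1 ψ x) (h : (fderiv ℝ G x (vt V)).im ≠ 0) :
    ContinuousAt (fun x => Dx G ψ x (cor G b Y V x)) x := by
  unfold Dx
  have h1 := continuousAt_cor (b := b) (Y := Y) hG h
  refine (hψ.continuousAt.mul (Complex.continuous_re.continuousAt.comp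
    ((continuousAt_fd hG).clm_apply h1))).sub ?_
  exact (Complex.continuous_re.continuousAt.comp hG.continuousAt).mul
    ((continuousAt_fd hψ).clm_apply h1)

/-- the active constraints persist -/
theorem ev_active (ca : ∀ i, ContinuousOn (a i) {0}ᶜ) {b : ℝ} {Y V : Fin N → ℝ} {x₀ : Fin N → ℂ}
    (hx₀ : x₀ ≠ 0) (hG : ContDiffAt ℝ 1 G x₀) (hV : (fderiv ℝ G x₀ (vt V)).im ≠ 0)
    (h0 : (fderiv ℝ G x₀ (vs b Y)).im = 0) (ha : ∀ i, a i x₀ ≤ 0)
    (hA : ∀ i, a i x₀ = 0 → ContDiffAt ℝ 1 (a i) x₀ ∧ 0 < fderiv ℝ (a i) x₀ (vs b Y)) :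
    ∀ᶠ x in 𝓝 x₀, ∀ i, a i x = 0 →
      ContDiffAt ℝ 1 (a i) x ∧ 0 < fderiv ℝ (a i) x (cor G b Y V x) := by
  rw [eventually_all]
  intro i
  have hc := continuousAt_cor (b := b) (Y := Y) hG hV
  rcases eq_or_lt_of_le (ha i) with h | h
  · obtain ⟨k1, k2⟩ := hA i h
    have h1 : ContinuousAt (fun x => fderiv ℝ (a i) x (cor G b Y V x)) x₀ :=
      (continuousAt_fd k1).clm_apply hc
    have h2 := continuousAt_const.eventually_lt h1 (by rw [cor_self h0]; exact k2)
    have h3 : ∀ᶠ x in 𝓝 x₀, ContDiffAt ℝ 1 (a i) x := k1.eventually (by simp)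
    filter_upwards [h2, h3] with x h4 h5 _
    exact ⟨h5, h4⟩
  · have h1 : ContinuousAt (a i) x₀ := (ca i x₀ hx₀).continuousAt (isOpen_compl_singleton.mem_nhds hx₀)
    filter_upwards [h1.eventually_lt continuousAt_const h] with x h2 h3
    exact absurd h3 h2.ne

theorem local_alpha (sm : ContDiffOn ℝ 2 G {0}ᶜ)
    (S0 : ∀ x : Fin N → ℂ, (∀ j, (x j).re = 0) → (G x).re = 0)
    (sψ : ContDiffOn ℝ 1 ψ {0}ᶜ) (ψ0 : ∀ x, x ≠ 0 → 0 < ψ x)
    (ca : ∀ i, ContinuousOn (a i) {0}ᶜ) {x₀ : Fin N → ℂ} (hx₀ : x₀ ≠ 0) {V : Fin N → ℝ}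
    (hV : (fderiv ℝ G x₀ (vt V)).im ≠ 0) (ha : ∀ i, a i x₀ ≤ 0) {b : ℝ} {Y : Fin N → ℝ}
    (hb : 0 ≤ b) (h0 : (fderiv ℝ G x₀ (vs b Y)).im = 0) (hD : 0 < Dx G ψ x₀ (vs b Y))
    (hA : ∀ i, a i x₀ = 0 → ContDiffAt ℝ 1 (a i) x₀ ∧ 0 < fderiv ℝ (a i) x₀ (vs b Y)) :
    ∀ᶠ p in 𝓝 x₀ ×ˢ 𝓝[>] (0 : ℝ), C0 G a p.1 → Good G ψ a p.2 p.1 := by
  have hn : ({0}ᶜ : Set (Fin N → ℂ)) ∈ 𝓝 x₀ := isOpen_compl_singleton.mem_nhds hx₀
  have hG2 : ContDiffAt ℝ 2 G x₀ := sm.contDiffAt hn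
  have hG : ContDiffAt ℝ 1 G x₀ := hG2.of_le one_le_two
  have hψ : ContDiffAt ℝ 1 ψ x₀ := sψ.contDiffAt hn
  have hg : ContDiffAt ℝ 1 (fun x => (G x).re) x₀ :=
    Complex.reCLM.contDiff.contDiffAt.comp x₀ hG
  obtain ⟨K, hK0, hK⟩ := exists_K hg S0
  have hc := continuousAt_cor (b := b) (Y := Y) hG hV
  have hF : ContinuousAt (fun p : (Fin N → ℂ) × ℝ => Dx G ψ p.1 (cor G b Y V p.1) -
      ψ p.1 * (K * √N * |ip p.1 (cor G b Y V p.1)| * p.2 / 2)) (x₀, 0) := by
    have h1 : ContinuousAt (fun p : (Fin N → ℂ) × ℝ => Dx G ψ p.1 (cor G b Y V p.1)) (x₀, 0) :=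
      ContinuousAt.comp (g := fun x => Dx G ψ x (cor G b Y V x))
        (f := fun p : (Fin N → ℂ) × ℝ => p.1) (continuousAt_Dx hG hψ hV) continuousAt_fst
    have h2 : ContinuousAt (fun p : (Fin N → ℂ) × ℝ => ψ p.1) (x₀, 0) :=
      ContinuousAt.comp (g := ψ) (f := fun p : (Fin N → ℂ) × ℝ => p.1) hψ.continuousAt
        continuousAt_fst
    have h3 : ContinuousAt (fun p : (Fin N → ℂ) × ℝ => cor G b Y V p.1) (x₀, 0) :=
      ContinuousAt.comp (g := cor G b Y V) (f := fun p : (Fin N → ℂ) × ℝ => p.1) hc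
        continuousAt_fst
    have h4 : ContinuousAt (fun p : (Fin N → ℂ) × ℝ => ip p.1 (cor G b Y V p.1)) (x₀, 0) :=
      ContinuousAt.comp (g := fun p : (Fin N → ℂ) × (Fin N → ℂ) => ip p.1 p.2)
        (f := fun p : (Fin N → ℂ) × ℝ => (p.1, cor G b Y V p.1)) continuous_ip.continuousAt
        (continuousAt_fst.prodMk h3)
    exact h1.sub (h2.mul (((continuousAt_const.mul h4.abs).mul continuousAt_snd).div_const 2))
  have e1 : ∀ᶠ p in 𝓝 x₀ ×ˢ 𝓝[>] (0 : ℝ), 0 < Dx G ψ p.1 (cor G b Y V p.1) -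
      ψ p.1 * (K * √N * |ip p.1 (cor G b Y V p.1)| * p.2 / 2) := by
    have h1 := continuousAt_const.eventually_lt hF (by
      simp only [mul_zero, zero_div, sub_zero]
      rw [cor_self h0]; exact hD)
    rw [nhds_prod_eq] at h1
    exact h1.filter_mono (Filter.prod_mono le_rfl nhdsWithin_le_nhds)
  have e2 : ∀ᶠ x in 𝓝 x₀, (fderiv ℝ G x (vt V)).im ≠ 0 :=
    (Complex.continuous_im.continuousAt.comp
      ((continuousAt_fd hG).clm_apply continuousAt_const)).eventually_ne hV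
  have e3 := ev_active (b := b) (Y := Y) ca hx₀ hG hV h0 ha hA
  have e4 := (((hK.and e2).and e3).and hn).prod_inl (𝓝[>] (0 : ℝ))
  have e5 : ∀ᶠ p in 𝓝 x₀ ×ˢ 𝓝[>] (0 : ℝ), 0 < p.2 :=
    Eventually.prod_inr self_mem_nhdsWithin _
  filter_upwards [e1, e4, e5] with p h1 h2 h3 hp
  obtain ⟨⟨⟨k1, k2⟩, k3⟩, k4⟩ := h2
  obtain ⟨Y', hY'⟩ := cor_eq (G := G) b Y V p.1
  refine ⟨b, Y', ?_, ?_, ?_⟩
  · rw [← hY']; exact im_cor k2
  · rw [← hY']
    refine lt_of_lt_of_le h1 (Ex_ge h3 hp.1 hb hp.2.2.1 hK0 k1 (ψ0 _ k4).le)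
  · rw [← hY']; exact k3

theorem local_beta (sm : ContDiffOn ℝ 2 G {0}ᶜ)
    (sψ : ContDiffOn ℝ 1 ψ {0}ᶜ) (ψ0 : ∀ x, x ≠ 0 → 0 < ψ x)
    (ca : ∀ i, ContinuousOn (a i) {0}ᶜ) {x₀ : Fin N → ℂ} (hx₀ : x₀ ≠ 0) {V : Fin N → ℝ}
    (hV : (fderiv ℝ G x₀ (vt V)).im ≠ 0) (ha : ∀ i, a i x₀ ≤ 0) {Y : Fin N → ℝ}
    (h0 : (fderiv ℝ G x₀ (vs 1 Y)).im = 0) (hg : 0 < (G x₀).re) (hs : re1 x₀ ^ 2 < N * S2 x₀)
    (hA : ∀ i, a i x₀ = 0 → ContDiffAt ℝ 1 (a i) x₀ ∧ 0 < fderiv ℝ (a i) x₀ (vs 1 Y)) :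
    ∀ᶠ p in 𝓝 x₀ ×ˢ 𝓝[>] (0 : ℝ), C0 G a p.1 → Good G ψ a p.2 p.1 := by
  have hn : ({0}ᶜ : Set (Fin N → ℂ)) ∈ 𝓝 x₀ := isOpen_compl_singleton.mem_nhds hx₀
  have hG2 : ContDiffAt ℝ 2 G x₀ := sm.contDiffAt hn
  have hG : ContDiffAt ℝ 1 G x₀ := hG2.of_le one_le_two
  have hψ : ContDiffAt ℝ 1 ψ x₀ := sψ.contDiffAt hn
  have hc := continuousAt_cor (b := 1) (Y := Y) hG hV
  have hS : 0 < S2 x₀ := by
    have h1 := S2_nonneg x₀
    rcases h1.eq_or_lt with h2 | h2
    · rw [← h2, mul_zero] at hs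
      exact absurd hs (not_lt.2 (sq_nonneg _))
    · exact h2
  have hF : ContinuousAt (fun p : (Fin N → ℂ) × ℝ => p.2 * Dx G ψ p.1 (cor G 1 Y V p.1) +
      ψ p.1 * (G p.1).re * ((1 * (N * qq (p.2 ^ 4) p.1 - re1 p.1 ^ 2) +
        p.2 ^ 4 * re1 p.1 * ip p.1 (cor G 1 Y V p.1)) /
      (qq (p.2 ^ 4) p.1 * √(qq (p.2 ^ 4) p.1)))) (x₀, 0) := by
    have h1 : ContinuousAt (fun p : (Fin N → ℂ) × ℝ => Dx G ψ p.1 (cor G 1 Y V p.1)) (x₀, 0) :=
      ContinuousAt.comp (g := fun x => Dx G ψ x (cor G 1 Y V x))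
        (f := fun p : (Fin N → ℂ) × ℝ => p.1) (continuousAt_Dx hG hψ hV) continuousAt_fst
    have h2 : ContinuousAt (fun p : (Fin N → ℂ) × ℝ => ψ p.1) (x₀, 0) :=
      ContinuousAt.comp (g := ψ) (f := fun p : (Fin N → ℂ) × ℝ => p.1) hψ.continuousAt
        continuousAt_fst
    have h3 : ContinuousAt (fun p : (Fin N → ℂ) × ℝ => cor G 1 Y V p.1) (x₀, 0) :=
      ContinuousAt.comp (g := cor G 1 Y V) (f := fun p : (Fin N → ℂ) × ℝ => p.1) hc
        continuousAt_fst
    have h4 : ContinuousAt (fun p : (Fin N → ℂ) × ℝ => ip p.1 (cor G 1 Y V p.1)) (x₀, 0) :=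
      ContinuousAt.comp (g := fun p : (Fin N → ℂ) × (Fin N → ℂ) => ip p.1 p.2)
        (f := fun p : (Fin N → ℂ) × ℝ => (p.1, cor G 1 Y V p.1)) continuous_ip.continuousAt
        (continuousAt_fst.prodMk h3)
    have h5 : ContinuousAt (fun p : (Fin N → ℂ) × ℝ => (G p.1).re) (x₀, 0) :=
      ContinuousAt.comp (g := fun x => (G x).re) (f := fun p : (Fin N → ℂ) × ℝ => p.1)
        (Complex.continuous_re.continuousAt.comp hG.continuousAt) continuousAt_fst
    have h6 : ContinuousAt (fun p : (Fin N → ℂ) × ℝ => re1 p.1) (x₀, 0) :=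
      ((contDiff_re1 (n := 0)).continuous.comp continuous_fst).continuousAt
    have h7 : ContinuousAt (fun p : (Fin N → ℂ) × ℝ => qq (p.2 ^ 4) p.1) (x₀, 0) := by
      unfold qq
      have : Continuous fun p : (Fin N → ℂ) × ℝ => S2 p.1 + p.2 ^ 4 * nsq p.1 :=
        ((contDiff_S2 (n := 0)).continuous.comp continuous_fst).add
          ((continuous_snd.pow 4).mul (continuous_nsq.comp continuous_fst))
      exact this.continuousAt
    have h8 : qq ((0 : ℝ) ^ 4) x₀ = S2 x₀ := by unfold qq; simp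
    refine (continuousAt_snd.mul h1).add ((h2.mul h5).mul ?_)
    refine ContinuousAt.div ?_ (h7.mul h7.sqrt) ?_
    · exact (continuousAt_const.mul ((continuousAt_const.mul h7).sub (h6.pow 2))).add
        (((continuousAt_snd.pow 4).mul h6).mul h4)
    · simp only [h8]
      exact (mul_pos hS (Real.sqrt_pos.2 hS)).ne'
  have e1 : ∀ᶠ p in 𝓝 x₀ ×ˢ 𝓝[>] (0 : ℝ), 0 < p.2 * Dx G ψ p.1 (cor G 1 Y V p.1) +
      ψ p.1 * (G p.1).re * ((1 * (N * qq (p.2 ^ 4) p.1 - re1 p.1 ^ 2) +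
        p.2 ^ 4 * re1 p.1 * ip p.1 (cor G 1 Y V p.1)) /
      (qq (p.2 ^ 4) p.1 * √(qq (p.2 ^ 4) p.1))) := by
    have h8 : qq ((0 : ℝ) ^ 4) x₀ = S2 x₀ := by unfold qq; simp
    have h1 := continuousAt_const.eventually_lt hF (by
      simp only [h8, zero_mul, zero_add]
      have h9 := ψ0 _ hx₀
      have h10 : 0 < N * S2 x₀ - re1 x₀ ^ 2 := by linarith
      have h11 := Real.sqrt_pos.2 hS
      have h12 : (0 : ℝ) ^ 4 = 0 := by norm_num
      rw [h12]
      simp only [zero_mul, add_zero, one_mul]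
      positivity)
    rw [nhds_prod_eq] at h1
    exact h1.filter_mono (Filter.prod_mono le_rfl nhdsWithin_le_nhds)
  have e2 : ∀ᶠ x in 𝓝 x₀, (fderiv ℝ G x (vt V)).im ≠ 0 :=
    (Complex.continuous_im.continuousAt.comp
      ((continuousAt_fd hG).clm_apply continuousAt_const)).eventually_ne hV
  have e3 := ev_active (b := 1) (Y := Y) ca hx₀ hG hV h0 ha hA
  have e4 := ((e2.and e3).and hn).prod_inl (𝓝[>] (0 : ℝ))
  have e5 : ∀ᶠ p in 𝓝 x₀ ×ˢ 𝓝[>] (0 : ℝ), 0 < p.2 :=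
    Eventually.prod_inr self_mem_nhdsWithin _
  filter_upwards [e1, e4, e5] with p h1 h2 h3 hp
  obtain ⟨⟨k2, k3⟩, k4⟩ := h2
  obtain ⟨Y', hY'⟩ := cor_eq (G := G) 1 Y V p.1
  refine ⟨1, Y', ?_, ?_, ?_⟩
  · rw [← hY']; exact im_cor k2
  · rw [← hY']
    have e : p.2⁻¹ * (p.2 * Dx G ψ p.1 (cor G 1 Y V p.1) +
      ψ p.1 * (G p.1).re * ((1 * (N * qq (p.2 ^ 4) p.1 - re1 p.1 ^ 2) +
        p.2 ^ 4 * re1 p.1 * ip p.1 (cor G 1 Y V p.1)) /
      (qq (p.2 ^ 4) p.1 * √(qq (p.2 ^ 4) p.1)))) = Ex G ψ p.2 p.1 1 (cor G 1 Y V p.1) := by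
      unfold Ex Dx
      rw [mul_add, inv_mul_cancel_left₀ h3.ne']
      ring
    rw [← e]
    exact mul_pos (inv_pos.2 h3) h1
  · rw [← hY']; exact k3

theorem isClosed_C0 (sm : ContDiffOn ℝ 2 G {0}ᶜ) (ca : ∀ i, ContinuousOn (a i) {0}ᶜ)
    {x₀ : Fin N → ℂ} (hx₀ : nsq x₀ = 1) (h : ¬ C0 G a x₀) :
    ∀ᶠ x in 𝓝 x₀, ¬ C0 G a x := by
  have hx0 : x₀ ≠ 0 := fun h => by rw [h] at hx₀; simp [nsq] at hx₀
  have hn : ({0}ᶜ : Set (Fin N → ℂ)) ∈ 𝓝 x₀ := isOpen_compl_singleton.mem_nhds hx0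
  have hG : ContinuousAt G x₀ := (sm.contDiffAt hn).continuousAt
  have hc : ContinuousAt (fun x => (G x).im) x₀ := Complex.continuous_im.continuousAt.comp hG
  have hg : ContinuousAt (fun x => (G x).re) x₀ := Complex.continuous_re.continuousAt.comp hG
  by_cases h1 : (G x₀).im = 0
  · by_cases h2 : 0 ≤ (G x₀).re
    · by_cases h3 : ∀ i, a i x₀ ≤ 0
      · exact absurd ⟨hx₀, h1, h2, h3⟩ h
      · push Not at h3
        obtain ⟨i, hi⟩ := h3
        have h4 : ContinuousAt (a i) x₀ := (ca i x₀ hx0).continuousAt hn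
        filter_upwards [continuousAt_const.eventually_lt h4 hi] with x hx hC
        exact absurd (hC.2.2.2 i) (not_le.2 hx)
    · filter_upwards [hg.eventually_lt continuousAt_const (not_le.1 h2)] with x hx hC
      exact absurd hC.2.2.1 (not_le.2 hx)
  · filter_upwards [hc.eventually_ne h1] with x hx hC
    exact hx hC.2.1

theorem exists_delta (sm : ContDiffOn ℝ 2 G {0}ᶜ)
    (S0 : ∀ x : Fin N → ℂ, (∀ j, (x j).re = 0) → (G x).re = 0)
    (K1 : ∀ x, nsq x = 1 → (G x).im = 0 → 0 ≤ (G x).re →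
      ∃ V : Fin N → ℝ, (fderiv ℝ G x (vt V)).im ≠ 0)
    (sψ : ContDiffOn ℝ 1 ψ {0}ᶜ) (ψ0 : ∀ x, x ≠ 0 → 0 < ψ x)
    (ca : ∀ i, ContinuousOn (a i) {0}ᶜ)
    (hp : ∀ x, nsq x = 1 → (G x).im = 0 → 0 ≤ (G x).re → (∀ i, a i x ≤ 0) →
      (∃ (b : ℝ) (Y : Fin N → ℝ), 0 ≤ b ∧ (fderiv ℝ G x (vs b Y)).im = 0 ∧
        0 < ψ x * (fderiv ℝ G x (vs b Y)).re - (G x).re * fderiv ℝ ψ x (vs b Y) ∧
        ∀ i, a i x = 0 → ContDiffAt ℝ 1 (a i) x ∧ 0 < fderiv ℝ (a i) x (vs b Y)) ∨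
      (0 < (G x).re ∧ re1 x ^ 2 < N * S2 x ∧ ∃ Y : Fin N → ℝ,
        (fderiv ℝ G x (vs 1 Y)).im = 0 ∧
        ∀ i, a i x = 0 → ContDiffAt ℝ 1 (a i) x ∧ 0 < fderiv ℝ (a i) x (vs 1 Y))) :
    ∃ δ : ℝ, 0 < δ ∧ ∀ x, C0 G a x → Good G ψ a δ x := by
  have key : ∀ᶠ δ in 𝓝[>] (0 : ℝ), ∀ x ∈ (nsq (ι := Fin N) ⁻¹' {1}), C0 G a x → Good G ψ a δ x := by
    refine IsCompact.induction_on (p := fun s => ∀ᶠ δ in 𝓝[>] (0 : ℝ), ∀ x ∈ s, C0 G a x →
      Good G ψ a δ x) isCompact_sph ?_ ?_ ?_ ?_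
    · exact Eventually.of_forall fun δ x hx => absurd hx (by simp)
    · intro s t hst ht
      filter_upwards [ht] with δ h x hx using h x (hst hx)
    · intro s t hs ht
      filter_upwards [hs, ht] with δ h1 h2 x hx
      rcases hx with hx | hx
      · exact h1 x hx
      · exact h2 x hx
    · intro x₀ hx₀
      have hx₀' : nsq x₀ = 1 := hx₀
      have hx0 : x₀ ≠ 0 := fun h => by rw [h] at hx₀'; simp [nsq] at hx₀'
      have e : ∀ᶠ p in 𝓝 x₀ ×ˢ 𝓝[>] (0 : ℝ), C0 G a p.1 → Good G ψ a p.2 p.1 := by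
        by_cases hC : C0 G a x₀
        · obtain ⟨V, hV⟩ := K1 x₀ hx₀' hC.2.1 hC.2.2.1
          rcases hp x₀ hx₀' hC.2.1 hC.2.2.1 hC.2.2.2 with
            ⟨b, Y, hb, h1, h2, h3⟩ | ⟨h1, h2, Y, h3, h4⟩
          · exact local_alpha sm S0 sψ ψ0 ca hx0 hV hC.2.2.2 hb h1 h2 h3
          · exact local_beta sm sψ ψ0 ca hx0 hV hC.2.2.2 h3 h1 h2 h4
        · have h1 := (isClosed_C0 sm ca hx₀' hC).prod_inl (𝓝[>] (0 : ℝ))
          filter_upwards [h1] with p h2 h3
          exact absurd h3 h2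
      obtain ⟨pa, hpa, pb, hpb, h⟩ := eventually_prod_iff.1 e
      refine ⟨{x | pa x}, mem_nhdsWithin_of_mem_nhds hpa, ?_⟩
      filter_upwards [hpb] with δ hδ x hx
      exact h hx hδ
  obtain ⟨δ, h1, h2⟩ := (key.and self_mem_nhdsWithin).exists
  exact ⟨δ, h2, fun x hx => h1 x hx.1 hx⟩

/-- **THE ABSTRACT CARVE THEOREM.** -/
theorem carve (sm : ContDiffOn ℝ 2 G {0}ᶜ) (hom : ∀ (r : ℝ) x, 0 < r → G (r • x) = r • G x)
    (S0 : ∀ x : Fin N → ℂ, (∀ j, (x j).re = 0) → (G x).re = 0)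
    (K1 : ∀ x, nsq x = 1 → (G x).im = 0 → 0 ≤ (G x).re →
      ∃ V : Fin N → ℝ, (fderiv ℝ G x (vt V)).im ≠ 0)
    (sψ : ContDiffOn ℝ 1 ψ {0}ᶜ) (ψ0 : ∀ x, x ≠ 0 → 0 < ψ x)
    (hψ : ∀ (r : ℝ) x, 0 < r → ψ (r • x) = r * ψ x)
    (ca : ∀ i, ContinuousOn (a i) {0}ᶜ) (ha : ∀ i (r : ℝ) x, 0 < r → a i (r • x) = r * a i x)
    (H1 : ∀ i x, nsq x = 1 → (G x).im = 0 → 0 ≤ a i x → 0 < (G x).re)
    (hp : ∀ x, nsq x = 1 → (G x).im = 0 → 0 ≤ (G x).re → (∀ i, a i x ≤ 0) →
      (∃ (b : ℝ) (Y : Fin N → ℝ), 0 ≤ b ∧ (fderiv ℝ G x (vs b Y)).im = 0 ∧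
        0 < ψ x * (fderiv ℝ G x (vs b Y)).re - (G x).re * fderiv ℝ ψ x (vs b Y) ∧
        ∀ i, a i x = 0 → ContDiffAt ℝ 1 (a i) x ∧ 0 < fderiv ℝ (a i) x (vs b Y)) ∨
      (0 < (G x).re ∧ re1 x ^ 2 < N * S2 x ∧ ∃ Y : Fin N → ℝ,
        (fderiv ℝ G x (vs 1 Y)).im = 0 ∧
        ∀ i, a i x = 0 → ContDiffAt ℝ 1 (a i) x ∧ 0 < fderiv ℝ (a i) x (vs 1 Y))) :
    ∃ F : Sph (Fin N) ≃ₜ Sph (Fin N), (∀ x : Sph (Fin N), (G (F x)).im = (G x).im) ∧
      ∀ x : Sph (Fin N), (G x).im = 0 →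
        (0 < mx a (F x) ↔ 0 < (G x).re) ∧ (mx a (F x) = 0 ↔ (G x).re = 0) := by
  obtain ⟨δ, hδ, hgood⟩ := exists_delta sm S0 K1 sψ ψ0 ca hp
  have hn : ∀ x : Fin N → ℂ, x ≠ 0 → ({0}ᶜ : Set (Fin N → ℂ)) ∈ 𝓝 x := fun x hx =>
    isOpen_compl_singleton.mem_nhds hx
  have hne : ∀ x : Fin N → ℂ, nsq x = 1 → x ≠ 0 := fun x hx h => by rw [h] at hx; simp [nsq] at hx
  have hG : ∀ x : Fin N → ℂ, x ≠ 0 → ContDiffAt ℝ 2 G x := fun x hx => sm.contDiffAt (hn x hx)
  have hGd : ∀ x : Fin N → ℂ, x ≠ 0 → DifferentiableAt ℝ G x := fun x hx =>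
    (hG x hx).differentiableAt two_ne_zero
  have hκ : 0 < δ ^ 4 := pow_pos hδ 4
  let φ : (Fin N → ℂ) → ℝ := fun x => ψ x * Real.exp (δ⁻¹ * hh (δ ^ 4) x)
  have sφ : ∀ x, x ≠ 0 → ContDiffAt ℝ 1 φ x := fun x hx =>
    (sψ.contDiffAt (hn x hx)).mul ((contDiffAt_const.mul (contDiffAt_hh hκ hx)).exp)
  have dφ : ∀ x, x ≠ 0 → ∀ y, fderiv ℝ φ x y = Real.exp (δ⁻¹ * hh (δ ^ 4) x) *
      (fderiv ℝ ψ x y + ψ x * (δ⁻¹ * fderiv ℝ (hh (δ ^ 4)) x y)) := by
    intro x hx y
    have h1 : HasFDerivAt ψ (fderiv ℝ ψ x) x :=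
      ((sψ.contDiffAt (hn x hx)).differentiableAt one_ne_zero).hasFDerivAt
    have h2 : HasFDerivAt (hh (δ ^ 4)) (fderiv ℝ (hh (δ ^ 4)) x) x :=
      ((contDiffAt_hh (n := 1) hκ hx).differentiableAt one_ne_zero).hasFDerivAt
    have h3 := h1.mul (h2.const_mul δ⁻¹).exp
    have h4 : fderiv ℝ φ x = _ := h3.fderiv
    rw [h4]
    simp
    ring
  have cd2 : ∀ (f : ℂ →L[ℝ] ℝ), LocallyLipschitzOn {0}ᶜ (fderiv ℝ fun x => f (G x)) := by
    intro f x hx
    have h1 : ContDiffAt ℝ 2 (fun x => f (G x)) x := f.contDiff.contDiffAt.comp x (hG x hx)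
    have h2 : ContDiffAt ℝ 1 (fderiv ℝ fun x => f (G x)) x := h1.fderiv_right (by norm_num)
    obtain ⟨K, t, ht, hK⟩ := h2.exists_lipschitzOnWith
    exact ⟨K, t, mem_nhdsWithin_of_mem_nhds ht, hK⟩
  have H : Hyp (nsq (ι := Fin N)) (fun x => (G x).im) (fun x => (G x).re) φ a {0}ᶜ :=
    { cpt := isCompact_sph
      oU := isOpen_compl_singleton
      sub := fun x hx => hne x hx
      dρ := fun x _ => (contDiff_nsq (n := 1)).differentiable one_ne_zero x
      dc := fun x hx => Complex.imCLM.differentiableAt.comp x (hGd x hx)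
      lρ := by
        intro x hx
        have h2 : ContDiffAt ℝ 1 (fderiv ℝ (nsq (ι := Fin N))) x :=
          (contDiff_nsq (n := 2)).contDiffAt.fderiv_right (by norm_num)
        obtain ⟨K, t, ht, hK⟩ := h2.exists_lipschitzOnWith
        exact ⟨K, t, mem_nhdsWithin_of_mem_nhds ht, hK⟩
      lc := cd2 Complex.imCLM
      cg := fun x hx => (Complex.continuous_re.continuousAt.comp
        (hG x (hne x hx)).continuousAt).continuousWithinAt
      ca := fun i => (ca i).mono fun x hx => hne x hx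
      h1 := fun x hx hc i hi => H1 i x hx hc hi
      h2 := by
        intro x hx hc hg hai
        have hx0 := hne x hx
        have hgd : ContDiffAt ℝ 1 (fun x => (G x).re) x :=
          Complex.reCLM.contDiff.contDiffAt.comp x ((hG x hx0).of_le one_le_two)
        obtain ⟨V, hV⟩ := K1 x hx hc hg
        refine ⟨?_, hgd, sφ x hx0, mul_pos (ψ0 x hx0) (Real.exp_pos _), ?_⟩
        · -- surjectivity
          intro p
          let v : Fin N → ℂ := vt V
          let y : Fin N → ℂ := (p.2 / (fderiv ℝ G x v).im) • (v - ip x v • x) + (p.1 / 2) • x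
          have hcx : (fderiv ℝ G x x).im = 0 := by
            rw [← fderiv_im (hGd x hx0), euler1 (f := fun x => (G x).im) _
              (Complex.imCLM.differentiableAt.comp x (hGd x hx0))]
            · exact hc
            · intro r z hr
              rw [hom r z hr, Complex.smul_im, smul_eq_mul]
          refine ⟨y, ?_⟩
          show (fderiv ℝ nsq x y, fderiv ℝ (fun x => (G x).im) x y) = p
          rw [fderiv_nsq, fderiv_im (hGd x hx0)]
          refine Prod.ext ?_ ?_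
          · show 2 * ip x y = p.1
            simp only [y]
            rw [ip_add_right, ip_smul_right, ip_smul_right, sub_eq_add_neg, ip_add_right,
              ← neg_smul, ip_smul_right, ip_self, hx]
            ring
          · show (fderiv ℝ G x y).im = p.2
            simp only [y]
            rw [map_add, map_smul, map_smul, map_sub, map_smul, Complex.add_im, Complex.smul_im,
              Complex.smul_im, Complex.sub_im, Complex.smul_im, hcx]
            simp only [smul_eq_mul, mul_zero, sub_zero, add_zero]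
            exact div_mul_cancel₀ _ hV
        · obtain ⟨b, Y, g1, g2, g3⟩ := hgood x ⟨hx, hc, hg, hai⟩
          refine ⟨vs b Y - ip x (vs b Y) • x, ?_, ?_, ?_, ?_⟩
          · rw [fderiv_nsq, sub_eq_add_neg, ip_add_right, ← neg_smul, ip_smul_right, ip_self, hx]
            ring
          · have hcx : fderiv ℝ (fun x => (G x).im) x x = 0 := by
              rw [euler1 (f := fun x => (G x).im) _
                (Complex.imCLM.differentiableAt.comp x (hGd x hx0))]
              · exact hc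
              · intro r z hr
                rw [hom r z hr, Complex.smul_im, smul_eq_mul]
            rw [map_sub, map_smul, hcx, smul_zero, sub_zero, fderiv_im (hGd x hx0), g1]
          · have hgx : fderiv ℝ (fun x => (G x).re) x x = (G x).re := by
              rw [euler1 (f := fun x => (G x).re) _
                (Complex.reCLM.differentiableAt.comp x (hGd x hx0))]
              intro r z hr
              rw [hom r z hr, Complex.smul_re, smul_eq_mul]
            have hψx : fderiv ℝ ψ x x = ψ x :=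
              euler1 hψ ((sψ.contDiffAt (hn x hx0)).differentiableAt one_ne_zero)
            have hhx : fderiv ℝ (hh (δ ^ 4)) x x = 0 := by
              rw [fderiv_hh hκ hx0, ip_self]
              have : (∑ j, (x j).re * (x j).re) = S2 x := by
                unfold S2
                exact Finset.sum_congr rfl fun j _ => by ring
              rw [this]
              unfold qq
              rw [sub_self, zero_div]
            rw [map_sub, map_sub, map_smul, map_smul, hgx, dφ x hx0 x, hψx, hhx,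
              dφ x hx0 (vs b Y), fderiv_hh_vs hκ hx0, fderiv_re (hGd x hx0)]
            have e : φ x * ((fderiv ℝ G x (vs b Y)).re - ip x (vs b Y) • (G x).re) -
                (G x).re * (Real.exp (δ⁻¹ * hh (δ ^ 4) x) * (fderiv ℝ ψ x (vs b Y) +
                  ψ x * (δ⁻¹ * -((b * (N * qq (δ ^ 4) x - re1 x ^ 2) +
                    δ ^ 4 * re1 x * ip x (vs b Y)) / (qq (δ ^ 4) x * √(qq (δ ^ 4) x))))) -
                  ip x (vs b Y) • (Real.exp (δ⁻¹ * hh (δ ^ 4) x) *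
                    (ψ x + ψ x * (δ⁻¹ * 0)))) =
                Real.exp (δ⁻¹ * hh (δ ^ 4) x) * Ex G ψ δ x b (vs b Y) := by
              unfold Ex
              simp only [φ, smul_eq_mul]
              ring
            rw [e]
            exact mul_pos (Real.exp_pos _) g2
          · intro i hi
            obtain ⟨k1, k2⟩ := g3 i hi
            refine ⟨k1, ?_⟩
            have hax : fderiv ℝ (a i) x x = 0 := by
              rw [euler1 (ha i) (k1.differentiableAt one_ne_zero), hi]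
            rw [map_sub, map_smul, hax, smul_zero, sub_zero]
            exact k2 }
  exact exists_homeo H

end loc

end Crest.Agent.R267.Carve_363
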