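import Crest.Agent.R267.DraftB_808

/-!
# The normal form for the move `e_i ↦ e_j - e_i` (row 267, DRAFT B part 3)

`NFD n m i j`: data. `xp, nup` (resp. `xm, num`): cores and normals of the systems `G₊`, `G₋`.
Props `LemM`, `T2Core`, and the assembly `t2_of`.
-/

set_option autoImplicit false

namespace Crest.Agent.R267.NF_808

open Set Metric
open scoped RealInnerProductSpace
open Crest.Agent.R267.GS_808 Crest.Agent.R267.DraftB_808
open Crest.Agent.R267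

/-- the variable `s = u 1` replaced. -/
def us {n : ℕ} (u : Bc (n + 2)) (s : ℝ) : Bc (n + 2) := Function.update u 1 s


/-- reflection in the hyperplane orthogonal to the unit vector `w`. -/
noncomputable def refl {V : Type*} [NormedAddCommGroup V] [InnerProductSpace ℝ V] (w v : V) : V :=
  v - (2 * ⟪v, w⟫) • w

/-- a path datum: `om` = direction, `M` = normal, path parameter `u 1`. -/
structure PathD (n : ℕ) where
  om : Bc (n + 2) → Vc (n + 2)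
  M : Bc (n + 2) → Vc (n + 2)
  c_om : Continuous om
  c_M : Continuous M
  n_om : ∀ u, ‖om u‖ = 1
  n_M : ∀ u, ‖M u‖ = 1
  rest_om : IsRest (hc (n + 1)) om
  rest_M : IsRest (ec (n + 2)) M
  wall_om : ∀ u, 1 ≤ ‖u‖ → ⟪ec (n + 2), om u⟫ = 0
  wall_M : ∀ u, 1 ≤ ‖u‖ → M u = ec (n + 2)

/-- a frame field along the cube. -/
structure FrameD (n : ℕ) where
  Rf : Bc (n + 2) → Vc (n + 2) ≃ₗᵢ[ℝ] Vc (n + 2)
  c_Rf : Continuous fun p : Bc (n + 2) × Vc (n + 2) => Rf p.1 p.2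
  c_Rf' : Continuous fun p : Bc (n + 2) × Vc (n + 2) => (Rf p.1).symm p.2
  rest : ∀ u, RestAt u → Rf u = LinearIsometryEquiv.refl ℝ _
  wall : ∀ u, 1 ≤ ‖u‖ → Rf u (ec (n + 2)) = ec (n + 2)

/-- the other strands: distinct, in rest form with rest points `p k` (`p j = 0`), the strand `j`
constantly `0`; the strand `i` is ignored. -/
structure OthD (n m : ℕ) (j : Fin m) where
  y : Fin m → Bc (n + 2) → Vc (n + 2)
  N : Fin m → Bc (n + 2) → Vc (n + 2)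
  p : Fin m → Vc (n + 2)
  c_y : ∀ k, Continuous (y k)
  c_N : ∀ k, Continuous (N k)
  n_N : ∀ k u, ‖N k u‖ = 1
  yj : ∀ u, y j u = 0
  sep : ∀ k l u, k ≠ l → y k u ≠ y l u
  far : ∀ k u, k ≠ j → 1 / 2 ≤ ‖y k u‖
  p_e : ∀ k, ⟪ec (n + 2), p k⟫ = 0
  p_h : ∀ k, ⟪hc (n + 1), p k⟫ = 0
  p_norm : ∀ k, k ≠ j → 1 ≤ ‖p k‖
  rest_y : ∀ k, IsRest (p k) (y k)
  rest_N : ∀ k, IsRest (ec (n + 2)) (N k)
  wall_y : ∀ k u, 1 ≤ ‖u‖ → ⟪ec (n + 2), y k u⟫ = 0
  wall_N : ∀ k u, 1 ≤ ‖u‖ → N k u = ec (n + 2)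

/-- all data of the normal form. -/
structure NFD (n m : ℕ) (i j : Fin m) extends OthD n m j where
  P : PathD n
  F : FrameD n
  hij : i ≠ j
  mid_y : ∀ k u, |u 1| ≤ 1 / 2 → y k u = p k
  mid_N : ∀ k u, |u 1| ≤ 1 / 2 → N k u = ec (n + 2)
  mid_F : ∀ u, |u 1| ≤ 1 / 2 → F.Rf u = LinearIsometryEquiv.refl ℝ _

variable {n m : ℕ} {i j : Fin m}

/-- radius function: `rho` for `s ≥ 1/4`, `R1` for `s ≤ -1/4`, exponential in between. -/
noncomputable def rp (rho R1 s : ℝ) : ℝ :=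
  Real.exp ((1 / 2 + 2 * max (-(1 / 4)) (min (1 / 4) s)) * Real.log rho +
    (1 / 2 - 2 * max (-(1 / 4)) (min (1 / 4) s)) * Real.log R1)

open Classical in
/-- frame on the right half only. -/
noncomputable def fr (D : NFD n m i j) (u : Bc (n + 2)) : Vc (n + 2) ≃ₗᵢ[ℝ] Vc (n + 2) :=
  if 0 ≤ u 1 then D.F.Rf u else LinearIsometryEquiv.refl ℝ _

open Classical in
/-- frame on the left half only. -/
noncomputable def fl (D : NFD n m i j) (u : Bc (n + 2)) : Vc (n + 2) ≃ₗᵢ[ℝ] Vc (n + 2) :=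
  if u 1 ≤ 0 then D.F.Rf u else LinearIsometryEquiv.refl ℝ _

/-- cores of `G₊`. -/
noncomputable def xp (D : NFD n m i j) (rho R1 : ℝ) (k : Fin m) (u : Bc (n + 2)) : Vc (n + 2) :=
  if k = i then rp rho R1 (u 1) • fr D u (D.P.om (us u (16 * u 1 - 1))) else D.y k u

/-- normals of `G₊`. -/
noncomputable def nup (D : NFD n m i j) (k : Fin m) (u : Bc (n + 2)) : Vc (n + 2) :=
  if k = i then fr D u (D.P.M (us u (16 * u 1 - 1)))
  else if k = j then D.F.Rf u (ec (n + 2)) else D.N k u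

/-- cores of `G₋`. -/
noncomputable def xm (D : NFD n m i j) (rho R1 : ℝ) (k : Fin m) (u : Bc (n + 2)) : Vc (n + 2) :=
  if k = i then rp rho R1 (-(u 1)) • fl D u (D.P.om (us u (-(16 * u 1) - 1))) else D.y k u

/-- normals of `G₋`. -/
noncomputable def num (D : NFD n m i j) (k : Fin m) (u : Bc (n + 2)) : Vc (n + 2) :=
  if k = i then fl D u
    (refl (D.P.om (us u (-(16 * u 1) - 1))) (D.P.M (us u (-(16 * u 1) - 1))))
  else if k = j then D.F.Rf u (ec (n + 2)) else D.N k u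

/-- the system `G` has the given data over the cube. -/
def Has (G : S n m) (x nu : Fin m → Bc (n + 2) → Vc (n + 2)) : Prop :=
  ∀ k u, ‖u‖ ≤ 1 → G.x k u = x k u ∧ G.nu k u = nu k u

/-- **LEMMA M**: for suitable (tiny) `rho` and (large) `R1`, and some radii, the links of `G₊` and
`G₋` are equivalent. -/
def LemM (n : ℕ) : Prop :=
  ∀ (m : ℕ) (i j : Fin m) (D : NFD n m i j), ∃ (rho R1 : ℝ) (G G' : S n m),
    0 < rho ∧ rho < 1 / 4 ∧ 1 < R1 ∧ rho * R1 < 1 / 16 ∧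
    (∀ k u, k ≠ i → ‖u‖ ≤ 1 → ‖D.y k u‖ < R1) ∧
    Has G (xp D rho R1) (nup D) ∧ Has G' (xm D rho R1) (num D) ∧ Eqv G.K G'.K

/-- **CLS**: for every matrix there are data such that `G₊` has matrix `A` and `G₋` has matrix
`Rᵀ A R` (for all radii as in `LemM`). -/
def ClsProp (n : ℕ) : Prop :=
  ∀ (m : ℕ) (A : Matrix (Fin m) (Fin m) ℤ) (i j : Fin m), i ≠ j →
    ∃ D : NFD n m i j, ∀ (rho R1 : ℝ) (G G' : S n m), 0 < rho → rho < 1 / 4 → 1 < R1 →
      rho * R1 < 1 / 16 → (∀ k u, k ≠ i → ‖u‖ ≤ 1 → ‖D.y k u‖ < R1) →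
      Has G (xp D rho R1) (nup D) → Has G' (xm D rho R1) (num D) →
      HasMat G A ∧ HasMat G' ((T2alg1_684.Rm i j).transpose * A * T2alg1_684.Rm i j)

/-- **assembly of T2.** -/
theorem t2_of (n : ℕ)
    (h1 : ∀ m : ℕ, 0 < m → ∀ G G' : S n m, Isot G G' → Eqv G.K G'.K) (h2 : ClassProp n)
    (hM : LemM n) (hC : ClsProp n) : T2Prop n := by
  intro m G A i j hG hij
  obtain ⟨D, hD⟩ := hC m A i j hij
  obtain ⟨rho, R1, Gp, Gm, a1, a2, a3, a4, a5, a6, a7, a8⟩ := hM m i j D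
  obtain ⟨b1, b2⟩ := hD rho R1 Gp Gm a1 a2 a3 a4 a5 a6 a7
  exact ⟨Gm, b2, (h1 m i.pos G Gp (h2 m G Gp A hG b1)).trans a8⟩

/-! ### leaves of CLS -/

/-- **T2-1 REAL**. -/
def RealProp (n : ℕ) : Prop :=
  ∀ (m : ℕ) (j : Fin m), ∃ p : Fin m → Vc (n + 2), ∀ A : Matrix (Fin m) (Fin m) ℤ,
    ∃ O : OthD n m j, O.p = p ∧
      (∀ k l, l < k → Typ n (fun u => O.y k u - O.y l u) (A k l) (A l k)) ∧
      ∀ k, TypN n (O.N k) (A k k)

/-- **T2-2 FRAME**. -/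
def FrameProp (n : ℕ) : Prop :=
  ∀ d : ℤ, ∃ F : FrameD n, TypN n (fun u => F.Rf u (ec (n + 2))) d ∧
    Typ n (fun u => F.Rf u (hc (n + 1))) d d

/-- **T2-3 PATH**. -/
def PathProp (n : ℕ) : Prop :=
  ∀ a b c : ℤ, ∃ P : PathD n, Typ n P.om a b ∧ TypN n P.M c ∧
    TypN n (fun u => refl (P.om u) (P.M u)) (a + b - c)

/-- **T2-4**. -/
def ClsOfProp (n : ℕ) : Prop := RealProp n → FrameProp n → PathProp n → ClsProp n

end Crest.Agent.R267.NF_808
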