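import Crest.Agent.R267.BallExt_88
import Crest.Agent.R267.Triv_88
import Crest.Agent.R267.DraftB_808
import Crest.Agent.R267.NF_808
import Crest.Agent.R267.Norm_855

-- ▼ part R267/GenPos_88
section

/-!
General position: a continuous map `V → W` with `dim V < dim W` can be perturbed off a finite set.
-/

set_option autoImplicit false
set_option linter.unusedSectionVars false
open Topology Filter Set Module

namespace Crest.Agent.R267.GenPos_88

open BallExt_88

variable {V W : Type*} [NormedAddCommGroup V] [NormedSpace ℝ V] [FiniteDimensional ℝ V]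
  [NormedAddCommGroup W] [NormedSpace ℝ W] [FiniteDimensional ℝ W]

theorem exists_perturb (hd : finrank ℝ V < finrank ℝ W) {F : V → W} (hF : Continuous F)
    (T : Set W) (hT : T.Countable) {ε : ℝ} (hε : 0 < ε) :
    ∃ G : V → W, Continuous G ∧ (∀ x, ‖G x - F x‖ < ε) ∧ ∀ x, G x ∉ T := by
  obtain ⟨G, hG, hGF, -⟩ := hF.exists_contDiff_approx 1 (ε := fun _ => ε / 2) continuous_const
    (fun _ => by positivity)
  have hG' : ContDiff ℝ 1 G := by simpa using hG
  have hdim : dimH (⋃ t ∈ T, (fun x => t - G x) '' univ) < finrank ℝ W := by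
    rw [dimH_bUnion hT]
    refine lt_of_le_of_lt (iSup₂_le fun t _ => ?_) (Nat.cast_lt.2 hd)
    rw [image_univ]
    exact (ContDiff.dimH_range_le (contDiff_const.sub hG'))
  have hdense := dense_compl_of_dimH_lt_finrank hdim
  obtain ⟨c, hc, hc'⟩ := hdense.inter_open_nonempty (Metric.ball (0:W) (ε/2)) Metric.isOpen_ball
    ⟨0, by simpa using half_pos hε⟩
  refine ⟨fun x => G x + c, hG'.continuous.add continuous_const, fun x => ?_, fun x hx => ?_⟩
  · have h1 : ‖G x - F x‖ < ε / 2 := by simpa [dist_eq_norm] using hGF x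
    have h2 : ‖c‖ < ε / 2 := by simpa using hc
    calc ‖G x + c - F x‖ = ‖(G x - F x) + c‖ := by congr 1; abel
      _ ≤ ‖G x - F x‖ + ‖c‖ := norm_add_le _ _
      _ < ε := by linarith
  · apply hc'
    simp only [mem_iUnion]
    exact ⟨G x + c, hx, x, mem_univ _, by simp⟩


end Crest.Agent.R267.GenPos_88
end

-- ▼ part R267/Wedge_88
section

/-!
The wedge lemma: a map of the unit sphere of `V` into `E` minus a finite set `Q` extends over the
ball as soon as it extends missing each single point of `Q`  (`dim V < 2 dim E - 2`).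
-/

set_option autoImplicit false
set_option linter.unusedSectionVars false
open Topology Filter Set Module

namespace Crest.Agent.R267.Wedge_88

open BallExt_88 GenPos_88

variable {V E : Type*} [NormedAddCommGroup V] [NormedSpace ℝ V] [FiniteDimensional ℝ V]
  [NormedAddCommGroup E] [NormedSpace ℝ E] [FiniteDimensional ℝ E]

/-- projection along `e` onto the kernel of `l` -/
noncomputable def proj (l : E →ₗ[ℝ] ℝ) (e : E) (he : l e = 1) : E →ₗ[ℝ] LinearMap.ker l where
  toFun y := ⟨y - l y • e, by simp [he]⟩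
  map_add' x y := by ext; simp only [map_add, Submodule.coe_add]; module
  map_smul' a x := by
    ext; simp only [map_smul, smul_eq_mul, RingHom.id_apply, Submodule.coe_smul]; module

theorem proj_coe (l : E →ₗ[ℝ] ℝ) (e : E) (he : l e = 1) (y : E) :
    ((proj l e he y : LinearMap.ker l) : E) = y - l y • e := rfl

theorem proj_add_smul (l : E →ₗ[ℝ] ℝ) (e : E) (he : l e = 1) (y : E) (t : ℝ) :
    proj l e he (y + t • e) = proj l e he y := by
  ext
  rw [proj_coe, proj_coe, map_add, map_smul, he, smul_eq_mul, mul_one]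
  module

theorem proj_ker (l : E →ₗ[ℝ] ℝ) (e : E) (he : l e = 1) (y : LinearMap.ker l) :
    proj l e he (y : E) = y := by
  ext
  rw [proj_coe, LinearMap.mem_ker.1 y.2]; simp


theorem finrank_ker (l : E →ₗ[ℝ] ℝ) (e : E) (he : l e = 1) :
    finrank ℝ (LinearMap.ker l) + 1 = finrank ℝ E := by
  have hs : Function.Surjective l := by
    intro t; exact ⟨t • e, by simp [he]⟩
  have h1 := LinearMap.finrank_range_add_finrank_ker l
  rw [LinearMap.range_eq_top.2 hs, finrank_top, finrank_self] at h1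
  omega

/-- Core of the wedge lemma: two maps `A, B` which agree on the sphere, `A` misses the finite set
`Q'` in `{l < c}`, `B` misses `q` with `c < l q`. -/
theorem wedge_core (hd : finrank ℝ V + 2 < 2 * finrank ℝ E)
    (l : E →ₗ[ℝ] ℝ) (e : E) (he : l e = 1) (c : ℝ) (Q' : Set E) (hQ'fin : Q'.Finite)
    (hQ' : ∀ p ∈ Q', l p < c) (q : E) (hq : c < l q)
    {A B : V → E} (hA : Continuous A) (hB : Continuous B)
    (hAQ : ∀ x, A x ∉ Q') (hBq : ∀ x, B x ≠ q) (hAB : ∀ x, ‖x‖ = 1 → A x = B x) :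
    BallExt A (insert q Q') := by
  classical
  have hl : Continuous l := l.continuous_of_finiteDimensional
  let π := proj l e he
  have hπ : Continuous π := π.continuous_of_finiteDimensional
  -- the rays
  let R' : Set E := ⋃ p ∈ Q', {y | π y = π p ∧ l y ≤ l p}
  let Rq : Set E := {y | π y = π q ∧ l q ≤ l y}
  have hR'c : IsClosed R' := by
    refine hQ'fin.isClosed_biUnion fun p _ => ?_
    exact (isClosed_eq hπ continuous_const).inter (isClosed_le hl continuous_const)
  have hRqc : IsClosed Rq :=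
    (isClosed_eq hπ continuous_const).inter (isClosed_le continuous_const hl)
  have memR' : ∀ y, y ∈ R' ↔ ∃ p ∈ Q', π y = π p ∧ l y ≤ l p := by
    intro y; simp only [R', mem_iUnion, mem_ofPred_eq, exists_prop]
  -- replace `A, B` by the versions which are radial near the sphere
  let A1 : V → E := fun x => A (retr ((2:ℝ) • x))
  let B1 : V → E := fun x => B (retr ((2:ℝ) • x))
  have hr2 : Continuous (fun x : V => retr ((2:ℝ) • x)) :=
    continuous_retr.comp (continuous_const_smul _)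
  have hA1 : Continuous A1 := hA.comp hr2
  have hB1 : Continuous B1 := hB.comp hr2
  -- margins
  have hO0 : IsOpen {z : E × E | z.1 ∉ Q' ∧ z.2 ≠ q} := by
    refine IsOpen.inter ?_ ?_
    · exact hQ'fin.isClosed.isOpen_compl.preimage continuous_fst
    · exact isOpen_ne.preimage continuous_snd
  have hO1 : IsOpen {z : E × E | ¬ (z.1 ∈ R' ∧ z.2 ∈ Rq)} := by
    have : IsClosed {z : E × E | z.1 ∈ R' ∧ z.2 ∈ Rq} :=
      (hR'c.preimage continuous_fst).inter (hRqc.preimage continuous_snd)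
    exact this.isOpen_compl
  have hABc : Continuous (fun x => (A x, B x)) := hA.prodMk hB
  obtain ⟨δ0, hδ0, hsub0⟩ :=
    ((isCompact_closedBall (0:V) 1).image hABc).exists_thickening_subset_open hO0
    (by rintro _ ⟨x, hx, rfl⟩; exact ⟨hAQ x, hBq x⟩)
  obtain ⟨δ1, hδ1, hsub1⟩ :=
    ((isCompact_sphere (0:V) 1).image hABc).exists_thickening_subset_open hO1
    (by
      rintro _ ⟨x, hx, rfl⟩ ⟨h1, h2⟩
      have hx1 : ‖x‖ = 1 := by simpa using hx
      simp only at h1 h2
      rw [memR'] at h1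
      obtain ⟨p, hp, -, hlp⟩ := h1
      have h3 := h2.2
      rw [← hAB x hx1] at h3
      have := hQ' p hp
      linarith)
  -- perturbation in `ker l × ker l`
  let F : V → LinearMap.ker l × LinearMap.ker l := fun x => (π (A1 x), π (B1 x))
  have hF : Continuous F := (hπ.comp hA1).prodMk (hπ.comp hB1)
  have hdim : finrank ℝ V < finrank ℝ (LinearMap.ker l × LinearMap.ker l) := by
    rw [Module.finrank_prod]
    have := finrank_ker l e he
    omega
  obtain ⟨G, hG, hGF, hGT⟩ := exists_perturb hdim hF ((fun p => (π p, π q)) '' Q')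
    (hQ'fin.image _).countable (lt_min hδ0 hδ1)
  let χ : V → ℝ := fun x => clamp (2 - 2 * ‖x‖)
  have hχ : Continuous χ := continuous_clamp.comp (by fun_prop)
  let A2 : V → E := fun x => A1 x + χ x • (((G x).1 - π (A1 x) : LinearMap.ker l) : E)
  let B2 : V → E := fun x => B1 x + χ x • (((G x).2 - π (B1 x) : LinearMap.ker l) : E)
  have hA2 : Continuous A2 := hA1.add (hχ.smul
    (continuous_subtype_val.comp ((continuous_fst.comp hG).sub (hπ.comp hA1))))
  have hB2 : Continuous B2 := hB1.add (hχ.smul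
    (continuous_subtype_val.comp ((continuous_snd.comp hG).sub (hπ.comp hB1))))
  -- closeness
  have hclose : ∀ x, dist (A2 x, B2 x) (A1 x, B1 x) < min δ0 δ1 := by
    intro x
    have hχ0 : 0 ≤ χ x := clamp_nonneg _
    have hχ1 : χ x ≤ 1 := clamp_le_one _
    have h1 : ‖(G x).1 - π (A1 x)‖ < min δ0 δ1 := lt_of_le_of_lt (norm_fst_le (G x - F x)) (hGF x)
    have h2 : ‖(G x).2 - π (B1 x)‖ < min δ0 δ1 := lt_of_le_of_lt (norm_snd_le (G x - F x)) (hGF x)
    rw [Prod.dist_eq, dist_eq_norm, dist_eq_norm]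
    refine max_lt ?_ ?_
    · have : A2 x - A1 x = χ x • (((G x).1 - π (A1 x) : LinearMap.ker l) : E) := by
        simp only [A2, add_sub_cancel_left]
      simp only [this, norm_smul, Real.norm_of_nonneg hχ0]
      refine lt_of_le_of_lt ?_ h1
      exact mul_le_of_le_one_left (norm_nonneg _) hχ1
    · have : B2 x - B1 x = χ x • (((G x).2 - π (B1 x) : LinearMap.ker l) : E) := by
        simp only [B2, add_sub_cancel_left]
      simp only [this, norm_smul, Real.norm_of_nonneg hχ0]
      refine lt_of_le_of_lt ?_ h2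
      exact mul_le_of_le_one_left (norm_nonneg _) hχ1
  have hgood0 : ∀ x, A2 x ∉ Q' ∧ B2 x ≠ q := by
    intro x
    have : (A2 x, B2 x) ∈ Metric.thickening δ0 ((fun x => (A x, B x)) '' Metric.closedBall (0:V) 1) := by
      rw [Metric.mem_thickening_iff]
      refine ⟨(A1 x, B1 x), ⟨retr ((2:ℝ) • x), ?_, rfl⟩, (hclose x).trans_le (min_le_left _ _)⟩
      simpa using norm_retr_le _
    exact hsub0 this
  have hgood1 : ∀ x, ¬ (A2 x ∈ R' ∧ B2 x ∈ Rq) := by
    intro x
    by_cases hx : 1/2 ≤ ‖x‖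
    · have : (A2 x, B2 x) ∈ Metric.thickening δ1 ((fun x => (A x, B x)) '' Metric.sphere (0:V) 1) := by
        rw [Metric.mem_thickening_iff]
        refine ⟨(A1 x, B1 x), ⟨retr ((2:ℝ) • x), ?_, rfl⟩, (hclose x).trans_le (min_le_right _ _)⟩
        simpa using norm_retr_two_smul hx
      exact hsub1 this
    · push Not at hx
      have hχx : χ x = 1 := clamp_of_one_le (by linarith)
      rintro ⟨h1, h2⟩
      have hA2x : A2 x = A1 x + (((G x).1 - π (A1 x) : LinearMap.ker l) : E) := by
        simp only [A2, hχx, one_smul]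
      have hB2x : B2 x = B1 x + (((G x).2 - π (B1 x) : LinearMap.ker l) : E) := by
        simp only [B2, hχx, one_smul]
      have hpA : π (A2 x) = (G x).1 := by
        rw [hA2x, map_add]
        show π (A1 x) + proj l e he _ = _
        rw [proj_ker]; abel
      have hpB : π (B2 x) = (G x).2 := by
        rw [hB2x, map_add]
        show π (B1 x) + proj l e he _ = _
        rw [proj_ker]; abel
      rw [memR'] at h1
      obtain ⟨p, hp, hp1, -⟩ := h1
      apply hGT x
      refine ⟨p, hp, ?_⟩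
      ext1
      · show π p = (G x).1
        rw [← hpA, hp1]
      · show π q = (G x).2
        rw [← hpB, h2.1]
  -- push into the half spaces
  let A3 : V → E := fun x => A2 x - max (l (A2 x) - c) 0 • e
  let B3 : V → E := fun x => B2 x + max (c - l (B2 x)) 0 • e
  have hA3 : Continuous A3 := hA2.sub (Continuous.smul
    (((hl.comp hA2).sub continuous_const).max continuous_const) continuous_const)
  have hB3 : Continuous B3 := hB2.add (Continuous.smul
    ((continuous_const.sub (hl.comp hB2)).max continuous_const) continuous_const)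
  have lA3 : ∀ x, l (A3 x) = min (l (A2 x)) c := by
    intro x
    simp only [A3, map_sub, map_smul, he, smul_eq_mul, mul_one]
    rcases le_total (l (A2 x)) c with h | h
    · rw [max_eq_right (by linarith), min_eq_left h]; ring
    · rw [max_eq_left (by linarith), min_eq_right h]; ring
  have lB3 : ∀ x, l (B3 x) = max (l (B2 x)) c := by
    intro x
    simp only [B3, map_add, map_smul, he, smul_eq_mul, mul_one]
    rcases le_total (l (B2 x)) c with h | h
    · rw [max_eq_left (by linarith), max_eq_right h]; ring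
    · rw [max_eq_right (by linarith), max_eq_left h]; ring
  have A3eq : ∀ x, l (A2 x) ≤ c → A3 x = A2 x := by
    intro x h
    simp only [A3]; rw [max_eq_right (by linarith)]; simp
  have B3eq : ∀ x, c ≤ l (B2 x) → B3 x = B2 x := by
    intro x h
    simp only [B3]; rw [max_eq_right (by linarith)]; simp
  have hA3Q : ∀ x, A3 x ∉ Q' := by
    intro x hx
    rcases le_total (l (A2 x)) c with h | h
    · rw [A3eq x h] at hx; exact (hgood0 x).1 hx
    · have h1 := hQ' _ hx
      rw [lA3, min_eq_right h] at h1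
      exact lt_irrefl _ h1
  have hB3q : ∀ x, B3 x ≠ q := by
    intro x hx
    rcases le_total (l (B2 x)) c with h | h
    · have h1 := lB3 x
      rw [hx, max_eq_right h] at h1
      linarith
    · rw [B3eq x h] at hx; exact (hgood0 x).2 hx
  have hA3R : ∀ x, A3 x ∈ R' → A2 x ∈ R' := by
    intro x hx
    rcases le_total (l (A2 x)) c with h | h
    · rwa [A3eq x h] at hx
    · rw [memR'] at hx
      obtain ⟨p, hp, -, h2⟩ := hx
      rw [lA3, min_eq_right h] at h2
      have := hQ' p hp; linarith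
  have hB3R : ∀ x, B3 x ∈ Rq → B2 x ∈ Rq := by
    intro x hx
    rcases le_total (l (B2 x)) c with h | h
    · have h2 := hx.2
      rw [lB3, max_eq_right h] at h2
      linarith
    · rwa [B3eq x h] at hx
  have hdisj : Disjoint (A3 ⁻¹' R') (B3 ⁻¹' Rq) := by
    rw [Set.disjoint_left]
    intro x h1 h2
    exact hgood1 x ⟨hA3R x h1, hB3R x h2⟩
  obtain ⟨u, hu0, hu1, -⟩ := exists_continuous_zero_one_of_isClosed (hR'c.preimage hA3)
    (hRqc.preimage hB3) hdisj
  -- points pushed to the wall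
  let As : V → E := fun x => A3 x + (c - l (A3 x)) • e
  let Bs : V → E := fun x => B3 x + (c - l (B3 x)) • e
  have hAs : Continuous As := hA3.add ((continuous_const.sub (hl.comp hA3)).smul continuous_const)
  have hBs : Continuous Bs := hB3.add ((continuous_const.sub (hl.comp hB3)).smul continuous_const)
  have lAs : ∀ x, l (As x) = c := by intro x; simp [As, he]
  have lBs : ∀ x, l (Bs x) = c := by intro x; simp [Bs, he]
  let α : V → ℝ := fun x => clamp (3 * u x)
  let β : V → ℝ := fun x => clamp (3 * u x - 1)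
  let γ : V → ℝ := fun x => clamp (3 * u x - 2)
  have hα : Continuous α := continuous_clamp.comp (by fun_prop)
  have hβ : Continuous β := continuous_clamp.comp (by fun_prop)
  have hγ : Continuous γ := continuous_clamp.comp (by fun_prop)
  let C : V → E := fun x => A3 x + α x • (As x - A3 x) + β x • (Bs x - As x) + γ x • (B3 x - Bs x)
  have hC : Continuous C := ((hA3.add (hα.smul (hAs.sub hA3))).add (hβ.smul (hBs.sub hAs))).add
    (hγ.smul (hB3.sub hBs))
  have lA3c : ∀ x, l (A3 x) ≤ c := fun x => by rw [lA3]; exact min_le_right _ _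
  have lB3c : ∀ x, c ≤ l (B3 x) := fun x => by rw [lB3]; exact le_max_right _ _
  -- key facts: moving along the ray
  have key1 : ∀ x, ∀ t ∈ Icc (0:ℝ) 1, (t = 0 ∨ A3 x ∉ R') → A3 x + t • (As x - A3 x) ∉ insert q Q' := by
    intro x t ht h
    have e1 : A3 x + t • (As x - A3 x) = A3 x + (t * (c - l (A3 x))) • e := by
      simp only [As]; module
    have e2 : l (A3 x + t • (As x - A3 x)) = l (A3 x) + t * (c - l (A3 x)) := by
      rw [e1]; simp [he]
    have h3 : 0 ≤ c - l (A3 x) := by linarith [lA3c x]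
    have h4 : l (A3 x + t • (As x - A3 x)) ≤ c := by
      rw [e2]; nlinarith [ht.1, ht.2]
    rw [mem_insert_iff]
    rintro (h5 | h5)
    · rw [h5] at h4; linarith
    · rcases h with h | h
      · rw [h] at h5; simp only [zero_smul, add_zero] at h5; exact hA3Q x h5
      · apply h
        rw [memR']
        refine ⟨_, h5, ?_, ?_⟩
        · rw [e1]; exact (proj_add_smul l e he _ _).symm
        · rw [e2]; nlinarith [ht.1]
  have key2 : ∀ x, ∀ t ∈ Icc (0:ℝ) 1, (t = 1 ∨ B3 x ∉ Rq) → Bs x + t • (B3 x - Bs x) ∉ insert q Q' := by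
    intro x t ht h
    have e1 : Bs x + t • (B3 x - Bs x) = B3 x + ((1 - t) * (c - l (B3 x))) • e := by
      simp only [Bs]; module
    have e2 : l (Bs x + t • (B3 x - Bs x)) = l (B3 x) + (1 - t) * (c - l (B3 x)) := by
      rw [e1]; simp [he]
    have h3 : c - l (B3 x) ≤ 0 := by linarith [lB3c x]
    have h4 : c ≤ l (Bs x + t • (B3 x - Bs x)) := by
      rw [e2]; nlinarith [ht.1, ht.2]
    rw [mem_insert_iff]
    rintro (h5 | h5)
    · rcases h with h | h
      · rw [h] at h5
        have : Bs x + (1:ℝ) • (B3 x - Bs x) = B3 x := by module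
        rw [this] at h5; exact hB3q x h5
      · apply h
        refine ⟨?_, ?_⟩
        · rw [← h5, e1]; exact (proj_add_smul l e he _ _).symm
        · rw [← h5, e2]; nlinarith [ht.2]
    · have := hQ' _ h5; linarith
  have hwall : ∀ y, l y = c → y ∉ insert q Q' := by
    intro y hy
    rw [mem_insert_iff]
    rintro (h5 | h5)
    · rw [h5] at hy; linarith
    · have := hQ' _ h5; linarith
  have hCcase : ∀ x, C x ∉ insert q Q' := by
    intro x
    rcases le_total (u x) (1/3) with h | h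
    · have hb : β x = 0 := clamp_of_nonpos (by linarith)
      have hc : γ x = 0 := clamp_of_nonpos (by linarith)
      have : C x = A3 x + α x • (As x - A3 x) := by simp only [C, hb, hc]; module
      rw [this]
      apply key1 x _ (clamp_mem _)
      by_cases hx : A3 x ∈ R'
      · left
        have : u x = 0 := hu0 hx
        show clamp (3 * u x) = 0
        rw [this]; exact clamp_of_nonpos (by norm_num)
      · right; exact hx
    · rcases le_total (u x) (2/3) with h' | h'
      · have ha : α x = 1 := clamp_of_one_le (by linarith)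
        have hc : γ x = 0 := clamp_of_nonpos (by linarith)
        apply hwall
        have : C x = As x + β x • (Bs x - As x) := by simp only [C, ha, hc]; module
        rw [this, map_add, map_smul, map_sub, lAs, lBs]; simp
      · have ha : α x = 1 := clamp_of_one_le (by linarith)
        have hb : β x = 1 := clamp_of_one_le (by linarith)
        have : C x = Bs x + γ x • (B3 x - Bs x) := by simp only [C, ha, hb]; module
        rw [this]
        apply key2 x _ (clamp_mem _)
        by_cases hx : B3 x ∈ Rq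
        · left
          have : u x = 1 := hu1 hx
          show clamp (3 * u x - 2) = 1
          rw [this]; exact clamp_of_one_le (by norm_num)
        · right; exact hx
  -- on the sphere
  refine ballExt_of_segment hA hC (fun x _ => hCcase x) ?_
  intro x hx t ht
  have hχx : χ x = 0 := clamp_of_nonpos (by rw [hx]; norm_num)
  have hA2x : A2 x = A x := by
    simp only [A2, A1, hχx, zero_smul, add_zero, retr_two_smul_of_norm_eq hx]
  have hB2x : B2 x = A x := by
    simp only [B2, B1, hχx, zero_smul, add_zero, retr_two_smul_of_norm_eq hx, hAB x hx]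
  rcases le_total (l (A x)) c with h | h
  · have a3 : A3 x = A x := by rw [A3eq x (by rw [hA2x]; exact h), hA2x]
    have b3 : B3 x = As x := by
      simp only [B3, As, a3, hB2x]
      rw [max_eq_left (by linarith)]
    have bs : Bs x = As x := by
      have hb3l : l (B3 x) = c := by rw [b3, lAs]
      show B3 x + (c - l (B3 x)) • e = As x
      rw [hb3l, b3]; simp
    have hCx : C x = A3 x + α x • (As x - A3 x) := by
      simp only [C, b3, bs]; module
    have : AffineMap.lineMap (C x) (A x) t = A3 x + ((1 - t) * α x) • (As x - A3 x) := by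
      rw [AffineMap.lineMap_apply_module', hCx, a3]; module
    rw [this]
    have hα0 := clamp_nonneg (3 * u x)
    have hα1 := clamp_le_one (3 * u x)
    apply key1
    · constructor
      · exact mul_nonneg (by linarith [ht.2]) hα0
      · exact mul_le_one₀ (by linarith [ht.1]) hα0 hα1
    · by_cases hx' : A3 x ∈ R'
      · left
        have : u x = 0 := hu0 hx'
        have h0 : α x = 0 := by
          show clamp (3 * u x) = 0
          rw [this]; exact clamp_of_nonpos (by norm_num)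
        rw [h0]; ring
      · right; exact hx'
  · have b3 : B3 x = A x := by rw [B3eq x (by rw [hB2x]; exact h), hB2x]
    have bs : A3 x = Bs x := by
      simp only [A3, Bs, b3, hA2x]
      rw [max_eq_left (by linarith)]; module
    have as : As x = Bs x := by
      have hb3l : l (A3 x) = c := by rw [bs, lBs]
      show A3 x + (c - l (A3 x)) • e = Bs x
      rw [hb3l, bs]; simp
    have hCx : C x = Bs x + γ x • (B3 x - Bs x) := by
      simp only [C, bs, as]; module
    have : AffineMap.lineMap (C x) (A x) t = Bs x + (γ x + t * (1 - γ x)) • (B3 x - Bs x) := by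
      rw [AffineMap.lineMap_apply_module', hCx, b3]; module
    rw [this]
    have hγ0 : 0 ≤ γ x := clamp_nonneg (3 * u x - 2)
    have hγ1 : γ x ≤ 1 := clamp_le_one (3 * u x - 2)
    apply key2
    · constructor
      · have := mul_nonneg ht.1 (by linarith : 0 ≤ 1 - γ x); linarith
      · have := mul_le_mul ht.2 (le_refl (1 - γ x)) (by linarith) zero_le_one
        linarith
    · by_cases hx' : B3 x ∈ Rq
      · left
        have : u x = 1 := hu1 hx'
        have h0 : γ x = 1 := by
          show clamp (3 * u x - 2) = 1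
          rw [this]; exact clamp_of_one_le (by norm_num)
        rw [h0]; ring
      · right; exact hx'

/-- **Wedge lemma.** -/
theorem wedge (hd : finrank ℝ V + 2 < 2 * finrank ℝ E) (Q : Set E) (hQ : Q.Finite) {h : V → E}
    (hext : ∀ q ∈ Q, BallExt h {q}) (hh : Continuous h) : BallExt h Q := by
  classical
  -- a linear form injective on `Q`
  obtain ⟨l, hl⟩ : ∃ l : E →ₗ[ℝ] ℝ, ∀ i : {z : Q × Q // z.1 ≠ z.2},
      l ((i.1.1 : E) - (i.1.2 : E)) ≠ 0 := by
    have : Finite Q := hQ
    exact Module.exists_dual_forall_apply_ne_zero (K := ℝ)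
      (fun i : {z : Q × Q // z.1 ≠ z.2} => ((i.1.1 : E) - (i.1.2 : E)))
      (fun i => sub_ne_zero.2 (fun h => i.2 (Subtype.ext h)))
  have hinj : ∀ a ∈ Q, ∀ b ∈ Q, a ≠ b → l a ≠ l b := by
    intro a ha b hb hab heq
    apply hl ⟨(⟨a, ha⟩, ⟨b, hb⟩), fun h => hab (congrArg Subtype.val h)⟩
    simp [heq]
  by_cases hnt : ∃ a ∈ Q, ∃ b ∈ Q, a ≠ b
  · obtain ⟨a, ha, b, hb, hab⟩ := hnt
    -- `l ≠ 0`: choose `e`
    obtain ⟨e, he⟩ : ∃ e : E, l e = 1 := by
      have h0 : l (a - b) ≠ 0 := by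
        rw [map_sub, sub_ne_zero]; exact hinj a ha b hb hab
      exact ⟨(l (a - b))⁻¹ • (a - b), by rw [map_smul, smul_eq_mul, inv_mul_cancel₀ h0]⟩
    -- induction on subsets
    have main : ∀ s : Finset E, (∀ x ∈ s, x ∈ Q) → BallExt h (s : Set E) := by
      intro s
      induction s using Finset.induction_on_max_value (f := l) with
      | empty => intro _; exact ⟨h, hh, by simp, fun _ _ => rfl⟩
      | insert q s hqs hmax ih =>
        intro hsub
        obtain ⟨A, hA, hAs, hAh⟩ := ih (fun x hx => hsub x (Finset.mem_insert_of_mem hx))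
        have hqQ : q ∈ Q := hsub q (Finset.mem_insert_self _ _)
        obtain ⟨B, hB, hBq, hBh⟩ := hext q hqQ
        -- level c
        obtain ⟨c, hc1, hc2⟩ : ∃ c : ℝ, (∀ p ∈ s, l p < c) ∧ c < l q := by
          have hlt : ∀ p ∈ s, l p < l q := by
            intro p hp
            refine lt_of_le_of_ne (hmax p hp) ?_
            apply hinj p (hsub p (Finset.mem_insert_of_mem hp)) q hqQ
            rintro rfl; exact hqs hp
          by_cases hs : s.Nonempty
          · obtain ⟨p0, hp0, hp0'⟩ := s.exists_max_image l hs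
            refine ⟨(l p0 + l q) / 2, fun p hp => ?_, ?_⟩
            · have := hp0' p hp; have := hlt p0 hp0; linarith
            · have := hlt p0 hp0; linarith
          · rw [Finset.not_nonempty_iff_eq_empty] at hs
            subst hs
            exact ⟨l q - 1, by simp, by linarith⟩
        have := wedge_core hd l e he c (s : Set E) s.finite_toSet (by simpa using hc1) q hc2 hA hB
          hAs (by simpa using hBq) (fun x hx => (hAh x hx).trans (hBh x hx).symm)
        rw [Finset.coe_insert]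
        exact this.congr hAh
    have := main hQ.toFinset (by simp)
    simpa using this
  · -- at most one point
    push Not at hnt
    rcases Q.eq_empty_or_nonempty with rfl | ⟨a, ha⟩
    · exact ⟨h, hh, by simp, fun _ _ => rfl⟩
    · exact (hext a ha).mono (fun b hb => (hnt b hb a ha) ▸ rfl)

end Crest.Agent.R267.Wedge_88
end

-- ▼ part R267/ConfExt_88
section

/-!
# The extension theorem for configurations (node T1/K' of row 267)

`conf_ext`: let `V, E` be finite-dimensional real normed spaces with `dim V + 2 < 2 dim E`.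
A system `g_0,…,g_{m-1}` of pairwise distinct continuous maps from the unit sphere of `V` to `E`
extends over the unit ball to a system of pairwise distinct maps as soon as every difference
`g_i - g_j` extends over the ball without zero.
-/

set_option autoImplicit false
set_option linter.unusedSectionVars false
open Topology Filter Set Module

namespace Crest.Agent.R267.ConfExt_88

open BallExt_88 GenPos_88 Wedge_88 Triv_88

variable {V E : Type*} [NormedAddCommGroup V] [NormedSpace ℝ V] [FiniteDimensional ℝ V]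
  [NormedAddCommGroup E] [NormedSpace ℝ E] [FiniteDimensional ℝ E]

/-- Extension of one more point, the first ones being already extended. -/
theorem ext_one {ι : Type*} [Fintype ι] (hd : finrank ℝ V + 2 < 2 * finrank ℝ E)
    (P : ι → V → E) (hP : ∀ j, Continuous (P j)) (hne : ∀ x, ∀ i j, i ≠ j → P i x ≠ P j x)
    {g : V → E} (hg : Continuous g)
    (hext : ∀ j, BallExt (fun x => g x - P j x) {0}) :
    ∃ G : V → E, Continuous G ∧ (∀ x, ‖x‖ ≤ 1 → ∀ j, G x ≠ P j x) ∧ ∀ x, ‖x‖ = 1 → G x = g x := by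
  classical
  obtain ⟨Θ, Ψ, hΘ, hΨ, h1, h2, h3⟩ := exists_triv P hP (fun x _ => hne x)
  have hΘc : ∀ {f : V → E}, Continuous f → Continuous (fun x => Θ x (f x)) := fun hf =>
    hΘ.comp (continuous_id.prodMk hf)
  have hΨc : ∀ {f : V → E}, Continuous f → Continuous (fun x => Ψ x (f x)) := fun hf =>
    hΨ.comp (continuous_id.prodMk hf)
  have hw : BallExt (fun x => Θ x (g x)) (Set.range (fun j => P j 0)) := by
    apply wedge hd _ (Set.finite_range _)
    · rintro _ ⟨j, rfl⟩
      obtain ⟨D, hD, hD0, hDg⟩ := hext j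
      refine ballExt_of_closedBall (A := fun x => Θ x (P j x + D x))
        (hΘc ((hP j).add hD)).continuousOn ?_ ?_
      · intro x hx hmem
        rw [mem_singleton_iff] at hmem
        beta_reduce at hmem
        rw [← h3 x hx j] at hmem
        have h4 : P j x + D x = P j x := by
          have := congrArg (Ψ x) hmem
          rwa [h1, h1] at this
        apply hD0 x
        rw [mem_singleton_iff]
        simpa using h4
      · intro x hx
        show Θ x (P j x + D x) = Θ x (g x)
        rw [hDg x hx]; congr 1; exact add_sub_cancel _ _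
    · exact hΘc hg
  obtain ⟨A, hA, hAP, hAg⟩ := hw
  refine ⟨fun x => Ψ x (A x), hΨc hA, ?_, ?_⟩
  · intro x hx j hx2
    apply hAP x
    refine ⟨j, ?_⟩
    have := congrArg (Θ x) hx2
    rw [h2, h3 x hx j] at this
    exact this.symm
  · intro x hx
    show Ψ x (A x) = g x
    rw [hAg x hx, h1]

theorem conf_ext_aux (hd : finrank ℝ V + 2 < 2 * finrank ℝ E) (m : ℕ) :
    ∀ (g : Fin m → V → E), (∀ i, Continuous (g i)) →
    (∀ i j, i ≠ j → BallExt (fun x => g i x - g j x) {0}) →
    ∃ G : Fin m → V → E, (∀ i, Continuous (G i)) ∧ (∀ x, ∀ i j, i ≠ j → G i x ≠ G j x) ∧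
      ∀ i, ∀ x, ‖x‖ = 1 → G i x = g i x := by
  induction m with
  | zero =>
    intro g _ _
    exact ⟨g, fun i => i.elim0, fun _ i => i.elim0, fun i => i.elim0⟩
  | succ m ih =>
    intro g hg hext
    obtain ⟨G, hG, hGne, hGg⟩ := ih (fun i => g i.castSucc) (fun i => hg _)
      (fun i j hij => hext _ _ (by simpa using hij))
    obtain ⟨H, hH, hHne, hHg⟩ := ext_one hd G hG hGne (hg (Fin.last m)) (fun j => by
      refine (hext (Fin.last m) j.castSucc (Fin.castSucc_lt_last j).ne').congr fun x hx => ?_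
      show g _ x - g _ x = g _ x - G j x
      rw [hGg j x hx])
    refine ⟨Fin.lastCases (fun x => H (retr x)) (fun i x => G i (retr x)), ?_, ?_, ?_⟩
    · intro i
      refine Fin.lastCases ?_ (fun i => ?_) i
      · simp only [Fin.lastCases_last]; exact hH.comp continuous_retr
      · simp only [Fin.lastCases_castSucc]; exact (hG i).comp continuous_retr
    · intro x i j
      refine Fin.lastCases ?_ (fun i => ?_) i
      · refine Fin.lastCases ?_ (fun j => ?_) j
        · intro h; exact absurd rfl h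
        · intro _; simp only [Fin.lastCases_last, Fin.lastCases_castSucc]
          exact hHne _ (norm_retr_le x) j
      · refine Fin.lastCases ?_ (fun j => ?_) j
        · intro _; simp only [Fin.lastCases_last, Fin.lastCases_castSucc]
          exact (hHne _ (norm_retr_le x) i).symm
        · intro h; simp only [Fin.lastCases_castSucc]
          exact hGne _ i j (by simpa using h)
    · intro i x hx
      refine Fin.lastCases ?_ (fun i => ?_) i
      · simp only [Fin.lastCases_last]; rw [retr_eq hx.le]; exact hHg x hx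
      · simp only [Fin.lastCases_castSucc]; rw [retr_eq hx.le]; exact hGg i x hx

/-- every continuous map on the unit sphere extends continuously to all of `V` (values in `E`). -/
theorem exists_cont_ext {g : V → E} (hg : ContinuousOn g (Metric.sphere 0 1)) :
    ∃ g' : V → E, Continuous g' ∧ ∀ x, ‖x‖ = 1 → g' x = g x := by
  refine ⟨fun x => ‖x‖ • g (‖x‖⁻¹ • x), ?_, fun x hx => by simp [hx]⟩
  obtain ⟨M, hM⟩ : ∃ M, ∀ x, ‖x‖ = 1 → ‖g x‖ ≤ M := by
    obtain ⟨M, hM⟩ := ((isCompact_sphere (0:V) 1).image_of_continuousOn hg).isBounded.exists_norm_le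
    exact ⟨M, fun x hx => hM _ ⟨x, by simpa using hx, rfl⟩⟩
  rw [continuous_iff_continuousAt]
  intro x
  by_cases hx : x = 0
  · subst hx
    rw [ContinuousAt, tendsto_iff_norm_sub_tendsto_zero]
    simp only [norm_zero, zero_smul, sub_zero]
    have hM0 : ∀ y : V, ‖‖y‖ • g (‖y‖⁻¹ • y)‖ ≤ ‖y‖ * |M| := by
      intro y
      by_cases hy : y = 0
      · simp [hy]
      · rw [norm_smul, norm_norm]
        gcongr
        refine (hM _ ?_).trans (le_abs_self M)
        rw [norm_smul, norm_inv, norm_norm, inv_mul_cancel₀ (norm_ne_zero_iff.2 hy)]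
    refine squeeze_zero (fun _ => norm_nonneg _) hM0 ?_
    have : Continuous (fun y : V => ‖y‖ * |M|) := by fun_prop
    have h := this.tendsto 0
    simpa using h
  · refine ContinuousAt.smul continuous_norm.continuousAt ?_
    have h1 : ContinuousOn (fun x : V => g (‖x‖⁻¹ • x)) ({0}ᶜ) := by
      refine hg.comp ?_ ?_
      · intro y hy
        refine ContinuousAt.continuousWithinAt ?_
        exact (ContinuousAt.inv₀ continuous_norm.continuousAt (by simpa using hy)).smul
          continuousAt_id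
      · intro y hy
        have hy' : y ≠ 0 := by simpa using hy
        simp [norm_smul, inv_mul_cancel₀ (norm_ne_zero_iff.2 hy')]
    exact h1.continuousAt (isOpen_compl_singleton.mem_nhds (by simpa using hx))

/-- **Extension theorem for configurations** (functions on the closed ball / sphere). -/
theorem conf_ext (hd : finrank ℝ V + 2 < 2 * finrank ℝ E) {m : ℕ} (g : Fin m → V → E)
    (hg : ∀ i, ContinuousOn (g i) (Metric.sphere 0 1))
    (hext : ∀ i j, i ≠ j → ∃ D : V → E, ContinuousOn D (Metric.closedBall 0 1) ∧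
      (∀ x ∈ Metric.closedBall (0:V) 1, D x ≠ 0) ∧
      ∀ x ∈ Metric.sphere (0:V) 1, D x = g i x - g j x) :
    ∃ G : Fin m → V → E, (∀ i, Continuous (G i)) ∧ (∀ x, ∀ i j, i ≠ j → G i x ≠ G j x) ∧
      ∀ i, ∀ x ∈ Metric.sphere (0:V) 1, G i x = g i x := by
  choose g' hg' hgg' using fun i => exists_cont_ext (hg i)
  obtain ⟨G, h1, h2, h3⟩ := conf_ext_aux hd m g' hg' (fun i j hij => by
    obtain ⟨D, hD, hD0, hDg⟩ := hext i j hij
    refine ballExt_of_closedBall hD (fun x hx => ?_) (fun x hx => ?_)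
    · simpa using hD0 x (by simpa using hx)
    · rw [hDg x (by simpa using hx), hgg' i x hx, hgg' j x hx])
  refine ⟨G, h1, h2, fun i x hx => ?_⟩
  have hx' : ‖x‖ = 1 := by simpa using hx
  rw [h3 i x hx', hgg' i x hx']

end Crest.Agent.R267.ConfExt_88
end

-- ▼ part R267/Class1_184
section

/-!
# CLASS1 (row 267, D3 of #1777): systems with homotopic pairwise differences are isotopic

Base `B = Fin (m+1) → ℝ` (sup norm, cube = unit ball), fibre `F = B × ℝ`, `H = {v.2 = 0}`,
`e = (0,1)`.  Everything is at rest on the boundary of the cube except on the open face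
`u 0 = -1`, where the cores are in `H`.  The normals are `e` on the whole boundary.

`class1`: if for every pair `k ≠ l` the differences `x k - x l` and `x' k - x' l` are homotopic
(as maps to `F - 0`, constant on the boundary minus the face, in `H - 0` on the face) and the
normals are homotopic rel boundary, then the two systems are isotopic.  `m ≥ 2`.
-/

set_option autoImplicit false
set_option linter.unusedSectionVars false
open Topology Filter Set Module

namespace Crest.Agent.R267.Class1_184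

open BallExt_88 ConfExt_88

/-- base -/
abbrev B (m : ℕ) := Fin (m+1) → ℝ
/-- fibre -/
abbrev F (m : ℕ) := B m × ℝ

variable {m μ : ℕ}

/-- (on the boundary of the cube) the complement of the open face `u 0 = -1`, a closed set -/
def Off (u : B m) : Prop := u 0 = 1 ∨ ‖Fin.tail u‖ = 1

/-- a point of the closed face -/
def fc (w : Fin m → ℝ) : B m := Fin.cons (-1) w

lemma norm_eq_max (u : B m) : ‖u‖ = max |u 0| ‖Fin.tail u‖ := by
  apply le_antisymm
  · rw [pi_norm_le_iff_of_nonneg (le_max_of_le_left (abs_nonneg _))]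
    intro i
    refine Fin.cases ?_ (fun j => ?_) i
    · exact le_max_left _ _
    · exact le_max_of_le_right (norm_le_pi_norm (Fin.tail u) j)
  · apply max_le
    · exact norm_le_pi_norm u 0
    · rw [pi_norm_le_iff_of_nonneg (norm_nonneg _)]
      intro j
      exact norm_le_pi_norm u j.succ

lemma norm_fc (w : Fin m → ℝ) : ‖fc w‖ = max 1 ‖w‖ := by
  rw [norm_eq_max]; simp [fc]

lemma fc_tail {u : B m} (h : u 0 = -1) : fc (Fin.tail u) = u := by
  rw [fc, ← h, Fin.cons_self_tail]

@[simp] lemma tail_fc (w : Fin m → ℝ) : Fin.tail (fc w) = w := by simp [fc]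
@[simp] lemma fc_zero (w : Fin m → ℝ) : fc w 0 = -1 := by simp [fc]

lemma continuous_fc : Continuous (fc : (Fin m → ℝ) → B m) := by
  unfold fc
  fun_prop

lemma continuous_tail : Continuous (Fin.tail : B m → (Fin m → ℝ)) :=
  continuous_pi fun i => continuous_apply i.succ

/-- boundary conditions -/
structure Bdry (p : Fin μ → B m) (x ν : Fin μ → B m → F m) : Prop where
  off : ∀ k u, ‖u‖ = 1 → Off u → x k u = (p k, 0)
  face : ∀ k u, ‖u‖ = 1 → (x k u).2 = 0
  nu : ∀ k u, ‖u‖ = 1 → ν k u = (0, 1)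

/-- systems -/
structure Sys (p : Fin μ → B m) (x ν : Fin μ → B m → F m) : Prop extends Bdry p x ν where
  cx : ∀ k, ContinuousOn (x k) (Metric.closedBall 0 1)
  cnu : ∀ k, ContinuousOn (ν k) (Metric.closedBall 0 1)
  ne : ∀ u, ‖u‖ ≤ 1 → ∀ k l, k ≠ l → x k u ≠ x l u
  nu_ne : ∀ u, ‖u‖ ≤ 1 → ∀ k, ν k u ≠ 0

/-- homotopy between the differences (time in `[-1,1]`) -/
structure DiffHom (q : B m) (d d' : B m → F m) (D : B m × ℝ → F m) : Prop where
  cont : ContinuousOn D (Metric.closedBall 0 1)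
  ne : ∀ z, ‖z‖ ≤ 1 → D z ≠ 0
  start : ∀ u, ‖u‖ ≤ 1 → D (u, -1) = d u
  fin : ∀ u, ‖u‖ ≤ 1 → D (u, 1) = d' u
  off : ∀ u s, ‖u‖ = 1 → |s| ≤ 1 → Off u → D (u, s) = (q, 0)
  face : ∀ u s, ‖u‖ = 1 → |s| ≤ 1 → (D (u, s)).2 = 0

/-- homotopy between the normals (time in `[-1,1]`) -/
structure NuHom (d d' : B m → F m) (D : B m × ℝ → F m) : Prop where
  cont : ContinuousOn D (Metric.closedBall 0 1)
  ne : ∀ z, ‖z‖ ≤ 1 → D z ≠ 0
  start : ∀ u, ‖u‖ ≤ 1 → D (u, -1) = d u
  fin : ∀ u, ‖u‖ ≤ 1 → D (u, 1) = d' u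
  off : ∀ u s, ‖u‖ = 1 → |s| ≤ 1 → D (u, s) = (0, 1)

/-- isotopy of systems (time in `[-1,1]`) -/
structure Isot (p : Fin μ → B m) (x ν x' ν' : Fin μ → B m → F m)
    (X N : Fin μ → B m × ℝ → F m) : Prop where
  cX : ∀ k, Continuous (X k)
  cN : ∀ k, Continuous (N k)
  ne : ∀ z, ∀ k l, k ≠ l → X k z ≠ X l z
  N_ne : ∀ z, ∀ k, N k z ≠ 0
  bdry : ∀ s, |s| ≤ 1 → Bdry p (fun k u => X k (u, s)) (fun k u => N k (u, s))
  X_start : ∀ k u, ‖u‖ ≤ 1 → X k (u, -1) = x k u
  X_fin : ∀ k u, ‖u‖ ≤ 1 → X k (u, 1) = x' k u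
  N_start : ∀ k u, ‖u‖ ≤ 1 → N k (u, -1) = ν k u
  N_fin : ∀ k u, ‖u‖ ≤ 1 → N k (u, 1) = ν' k u

/-! ### step 1: the face -/

/-- boundary values on the face (times `[-1,1]`) -/
noncomputable def faceB (p : Fin μ → B m) (x x' : Fin μ → B m → F m) (k : Fin μ)
    (z : (Fin m → ℝ) × ℝ) : B m :=
  open Classical in
  if z.2 = 1 then (x' k (fc z.1)).1 else if z.2 = -1 then (x k (fc z.1)).1 else p k

lemma norm_le_one_iff {E : Type*} [NormedAddCommGroup E] (z : E × ℝ) :
    ‖z‖ ≤ 1 ↔ ‖z.1‖ ≤ 1 ∧ |z.2| ≤ 1 := by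
  rw [Prod.norm_def, max_le_iff, Real.norm_eq_abs]

lemma norm_eq_one_iff {E : Type*} [NormedAddCommGroup E] (z : E × ℝ) :
    ‖z‖ = 1 ↔ ‖z.1‖ ≤ 1 ∧ |z.2| ≤ 1 ∧ (‖z.1‖ = 1 ∨ z.2 = 1 ∨ z.2 = -1) := by
  rw [Prod.norm_def, Real.norm_eq_abs]
  constructor
  · intro h
    have h1 : ‖z.1‖ ≤ 1 := (le_max_left _ _).trans h.le
    have h2 : |z.2| ≤ 1 := (le_max_right _ _).trans h.le
    refine ⟨h1, h2, ?_⟩
    rcases max_choice ‖z.1‖ |z.2| with h3 | h3
    · left; rw [← h, h3]
    · right
      have : |z.2| = 1 := by rw [← h, h3]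
      rcases (abs_eq (by norm_num : (0:ℝ) ≤ 1)).1 this with h | h
      · left; exact h
      · right; exact h
  · rintro ⟨h1, h2, h3⟩
    apply le_antisymm (max_le h1 h2)
    rcases h3 with h | h | h
    · exact h.ge.trans (le_max_left _ _)
    · rw [h]; simp
    · rw [h]; simp

section
variable {p : Fin μ → B m} {x ν x' ν' : Fin μ → B m → F m}

lemma norm_fc_le {w : Fin m → ℝ} (h : ‖w‖ ≤ 1) : ‖fc w‖ = 1 := by
  rw [norm_fc, max_eq_left h]

lemma off_fc {w : Fin m → ℝ} (h : ‖w‖ = 1) : Off (fc w) := Or.inr (by simpa using h)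

lemma faceB_top (k : Fin μ) (w : Fin m → ℝ) : faceB p x x' k (w, 1) = (x' k (fc w)).1 := by
  simp [faceB]

lemma faceB_bot (k : Fin μ) (w : Fin m → ℝ) : faceB p x x' k (w, -1) = (x k (fc w)).1 := by
  simp only [faceB, if_true]
  rw [if_neg (by norm_num)]

lemma faceB_off (S : Bdry p x ν) (S' : Bdry p x' ν') (k : Fin μ) (w : Fin m → ℝ) (s : ℝ)
    (hw : ‖w‖ = 1) : faceB p x x' k (w, s) = p k := by
  simp only [faceB]
  split_ifs
  · rw [S'.off k _ (norm_fc_le hw.le) (off_fc hw)]
  · rw [S.off k _ (norm_fc_le hw.le) (off_fc hw)]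
  · rfl

lemma continuousOn_faceB (S : Sys p x ν) (S' : Sys p x' ν') (k : Fin μ) :
    ContinuousOn (faceB p x x' k) (Metric.sphere 0 1) := by
  have e : Metric.sphere (0 : (Fin m → ℝ) × ℝ) 1 =
      (Metric.sphere 0 1 ∩ {z | ‖z.1‖ = 1}) ∪
        ((Metric.sphere 0 1 ∩ {z | z.2 = 1}) ∪ (Metric.sphere 0 1 ∩ {z | z.2 = -1})) := by
    ext z
    simp only [mem_sphere_zero_iff_norm, mem_union, mem_inter_iff, Set.mem_ofPred_eq]
    constructor
    · intro h
      have := ((norm_eq_one_iff z).1 h).2.2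
      tauto
    · tauto
  have hs : IsClosed (Metric.sphere (0 : (Fin m → ℝ) × ℝ) 1) := Metric.isClosed_sphere
  have c1 : IsClosed {z : (Fin m → ℝ) × ℝ | ‖z.1‖ = 1} :=
    isClosed_eq (by fun_prop) continuous_const
  have c2 : IsClosed {z : (Fin m → ℝ) × ℝ | z.2 = 1} := isClosed_eq (by fun_prop) continuous_const
  have c3 : IsClosed {z : (Fin m → ℝ) × ℝ | z.2 = -1} := isClosed_eq (by fun_prop) continuous_const
  rw [e]
  refine ContinuousOn.union_of_isClosed ?_ (ContinuousOn.union_of_isClosed ?_ ?_ (hs.inter c2)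
    (hs.inter c3)) (hs.inter c1) ((hs.inter c2).union (hs.inter c3))
  · refine (continuousOn_const (c := p k)).congr ?_
    rintro ⟨w, s⟩ ⟨_, hw⟩
    exact faceB_off S.toBdry S'.toBdry k w s hw
  · have : ContinuousOn (fun z : (Fin m → ℝ) × ℝ => (x' k (fc z.1)).1)
        (Metric.sphere 0 1 ∩ {z | z.2 = 1}) := by
      refine continuous_fst.comp_continuousOn ((S'.cx k).comp
        (continuous_fc.comp continuous_fst).continuousOn ?_)
      rintro z ⟨hz, _⟩
      have := ((norm_eq_one_iff z).1 (by simpa using hz)).1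
      simpa using (norm_fc_le this).le
    refine this.congr ?_
    rintro ⟨w, s⟩ ⟨_, hw⟩
    obtain rfl : s = 1 := hw
    exact faceB_top k w
  · have : ContinuousOn (fun z : (Fin m → ℝ) × ℝ => (x k (fc z.1)).1)
        (Metric.sphere 0 1 ∩ {z | z.2 = -1}) := by
      refine continuous_fst.comp_continuousOn ((S.cx k).comp
        (continuous_fc.comp continuous_fst).continuousOn ?_)
      rintro z ⟨hz, _⟩
      have := ((norm_eq_one_iff z).1 (by simpa using hz)).1
      simpa using (norm_fc_le this).le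
    refine this.congr ?_
    rintro ⟨w, s⟩ ⟨_, hw⟩
    obtain rfl : s = -1 := hw
    exact faceB_bot k w

/-- step 1. -/
lemma step1 (hm : 2 ≤ m) (S : Sys p x ν) (S' : Sys p x' ν')
    (hD : ∀ k l, k ≠ l → ∃ D, DiffHom (p k - p l) (fun u => x k u - x l u)
      (fun u => x' k u - x' l u) D) :
    ∃ G : Fin μ → (Fin m → ℝ) × ℝ → B m, (∀ k, Continuous (G k)) ∧
      (∀ z k l, k ≠ l → G k z ≠ G l z) ∧
      (∀ k w, ‖w‖ ≤ 1 → G k (w, 1) = (x' k (fc w)).1) ∧
      (∀ k w, ‖w‖ ≤ 1 → G k (w, -1) = (x k (fc w)).1) ∧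
      (∀ k w s, ‖w‖ = 1 → |s| ≤ 1 → G k (w, s) = p k) := by
  obtain ⟨G, h1, h2, h3⟩ := conf_ext (V := (Fin m → ℝ) × ℝ) (E := B m) (by simp; omega)
    (faceB p x x') (continuousOn_faceB S S') (by
    intro k l hkl
    obtain ⟨D, hD⟩ := hD k l hkl
    refine ⟨fun z => (D (fc z.1, z.2)).1, ?_, ?_, ?_⟩
    · refine continuous_fst.comp_continuousOn (hD.cont.comp ?_ ?_)
      · exact ((continuous_fc.comp continuous_fst).prodMk continuous_snd).continuousOn
      · intro z hz
        have hz' := (norm_le_one_iff z).1 (by simpa using hz)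
        rw [mem_closedBall_zero_iff, norm_le_one_iff]
        exact ⟨(norm_fc_le hz'.1).le, hz'.2⟩
    · intro z hz h0
      have hz' := (norm_le_one_iff z).1 (by simpa using hz)
      refine hD.ne (fc z.1, z.2) ((norm_le_one_iff _).2 ⟨(norm_fc_le hz'.1).le, hz'.2⟩) ?_
      exact Prod.ext h0 (hD.face _ _ (norm_fc_le hz'.1) hz'.2)
    · rintro ⟨w, s⟩ hz
      have hz' := (norm_eq_one_iff (w, s)).1 (by simpa using hz)
      obtain ⟨hw, hs, h⟩ := hz'
      simp only at hw hs h ⊢
      rcases h with h | h | h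
      · rw [faceB_off S.toBdry S'.toBdry k w s h, faceB_off S.toBdry S'.toBdry l w s h,
          hD.off _ _ (norm_fc_le hw) hs (off_fc h)]
      · subst h
        rw [faceB_top, faceB_top, hD.fin _ (norm_fc_le hw).le]; rfl
      · subst h
        rw [faceB_bot, faceB_bot, hD.start _ (norm_fc_le hw).le]; rfl)
  refine ⟨G, h1, h2, ?_, ?_, ?_⟩
  · intro k w hw
    rw [h3 k _ (by simpa using (norm_eq_one_iff (w, (1:ℝ))).2 ⟨hw, by simp, by simp⟩), faceB_top]
  · intro k w hw
    rw [h3 k _ (by simpa using (norm_eq_one_iff (w, (-1:ℝ))).2 ⟨hw, by simp, by simp⟩), faceB_bot]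
  · intro k w s hw hs
    rw [h3 k _ (by simpa using (norm_eq_one_iff (w, s)).2 ⟨hw.le, hs, by simp [hw]⟩),
      faceB_off S.toBdry S'.toBdry k w s hw]

/-! ### step 2: the cube -/

/-- boundary values on the boundary of `cube × [-1,1]`. -/
noncomputable def cubeB (p : Fin μ → B m) (x x' : Fin μ → B m → F m)
    (G : Fin μ → (Fin m → ℝ) × ℝ → B m) (k : Fin μ) (z : B m × ℝ) : F m :=
  open Classical in
  if z.2 = 1 then x' k z.1 else if z.2 = -1 then x k z.1 else
    if z.1 0 = -1 then (G k (Fin.tail z.1, z.2), 0) else (p k, 0)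

/-- the data of step 1 -/
structure FaceG (p : Fin μ → B m) (x x' : Fin μ → B m → F m)
    (G : Fin μ → (Fin m → ℝ) × ℝ → B m) : Prop where
  cont : ∀ k, Continuous (G k)
  ne : ∀ z k l, k ≠ l → G k z ≠ G l z
  top : ∀ k w, ‖w‖ ≤ 1 → G k (w, 1) = (x' k (fc w)).1
  bot : ∀ k w, ‖w‖ ≤ 1 → G k (w, -1) = (x k (fc w)).1
  off : ∀ k w s, ‖w‖ = 1 → |s| ≤ 1 → G k (w, s) = p k

variable {G : Fin μ → (Fin m → ℝ) × ℝ → B m}

lemma norm_tail_le (u : B m) : ‖Fin.tail u‖ ≤ ‖u‖ := by
  rw [norm_eq_max u]; exact le_max_right _ _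

lemma abs_zero_le (u : B m) : |u 0| ≤ ‖u‖ := by
  rw [norm_eq_max u]; exact le_max_left _ _

lemma bdry_cases {u : B m} (h : ‖u‖ = 1) : u 0 = -1 ∨ Off u := by
  rw [norm_eq_max] at h
  rcases max_choice |u 0| ‖Fin.tail u‖ with h3 | h3
  · have : |u 0| = 1 := by rw [← h, h3]
    rcases (abs_eq (by norm_num : (0:ℝ) ≤ 1)).1 this with h | h
    · exact Or.inr (Or.inl h)
    · exact Or.inl h
  · exact Or.inr (Or.inr (by rw [← h, h3]))

lemma cubeB_top (k : Fin μ) (u : B m) : cubeB p x x' G k (u, 1) = x' k u := by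
  simp [cubeB]

lemma cubeB_bot (k : Fin μ) (u : B m) : cubeB p x x' G k (u, -1) = x k u := by
  simp only [cubeB, if_true]
  rw [if_neg (by norm_num)]

lemma norm_of_zero {u : B m} (hu : ‖u‖ ≤ 1) (h : u 0 = -1) : ‖u‖ = 1 := by
  apply le_antisymm hu
  have := abs_zero_le u
  rw [h] at this
  simpa using this

lemma cubeB_face (S : Bdry p x ν) (S' : Bdry p x' ν') (hG : FaceG p x x' G) (k : Fin μ) (u : B m)
    (s : ℝ) (hu : ‖u‖ ≤ 1) (h : u 0 = -1) :
    cubeB p x x' G k (u, s) = (G k (Fin.tail u, s), 0) := by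
  have h1 := norm_of_zero hu h
  have ht := (norm_tail_le u).trans hu
  simp only [cubeB]
  split_ifs with h2 h3
  · subst h2
    rw [hG.top k _ ht, fc_tail h]
    exact Prod.ext rfl (S'.face k u h1)
  · subst h3
    rw [hG.bot k _ ht, fc_tail h]
    exact Prod.ext rfl (S.face k u h1)
  · rfl

lemma cubeB_off (S : Bdry p x ν) (S' : Bdry p x' ν') (hG : FaceG p x x' G) (k : Fin μ) (u : B m)
    (s : ℝ) (hu : ‖u‖ = 1) (hs : |s| ≤ 1) (h : Off u) :
    cubeB p x x' G k (u, s) = (p k, 0) := by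
  by_cases h1 : u 0 = -1
  · rw [cubeB_face S S' hG k u s hu.le h1]
    rcases h with h | h
    · rw [h1] at h; norm_num at h
    · rw [hG.off k _ s h hs]
  · simp only [cubeB]
    split_ifs
    · exact S'.off k u hu h
    · exact S.off k u hu h
    · rfl

lemma continuousOn_cubeB (S : Sys p x ν) (S' : Sys p x' ν') (hG : FaceG p x x' G) (k : Fin μ) :
    ContinuousOn (cubeB p x x' G k) (Metric.sphere 0 1) := by
  have hs : IsClosed (Metric.sphere (0 : B m × ℝ) 1) := Metric.isClosed_sphere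
  have ct : Continuous (fun z : B m × ℝ => Fin.tail z.1) := continuous_tail.comp continuous_fst
  have c1 : IsClosed {z : B m × ℝ | ‖z.1‖ = 1 ∧ Off z.1} := by
    have e : {z : B m × ℝ | ‖z.1‖ = 1 ∧ Off z.1} =
      {z : B m × ℝ | ‖z.1‖ = 1} ∩ ({z : B m × ℝ | z.1 0 = 1} ∪ {z : B m × ℝ | ‖Fin.tail z.1‖ = 1}) :=
      rfl
    rw [e]
    refine IsClosed.inter (isClosed_eq (by fun_prop) continuous_const)
      (IsClosed.union (isClosed_eq (by fun_prop) continuous_const) (isClosed_eq ct.norm continuous_const))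
  have c2 : IsClosed {z : B m × ℝ | z.2 = 1} := isClosed_eq (by fun_prop) continuous_const
  have c3 : IsClosed {z : B m × ℝ | z.2 = -1} := isClosed_eq (by fun_prop) continuous_const
  have c4 : IsClosed {z : B m × ℝ | z.1 0 = -1} := isClosed_eq (by fun_prop) continuous_const
  have e : Metric.sphere (0 : B m × ℝ) 1 =
      (Metric.sphere 0 1 ∩ {z | ‖z.1‖ = 1 ∧ Off z.1}) ∪
        ((Metric.sphere 0 1 ∩ {z | z.2 = 1}) ∪ ((Metric.sphere 0 1 ∩ {z | z.2 = -1}) ∪
          (Metric.sphere 0 1 ∩ {z | z.1 0 = -1}))) := by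
    ext z
    simp only [mem_sphere_zero_iff_norm, mem_union, mem_inter_iff, Set.mem_ofPred_eq]
    constructor
    · intro h
      have := ((norm_eq_one_iff z).1 h).2.2
      rcases this with h1 | h1 | h1
      · rcases bdry_cases h1 with h2 | h2
        · tauto
        · tauto
      · tauto
      · tauto
    · tauto
  rw [e]
  refine ContinuousOn.union_of_isClosed ?_ (ContinuousOn.union_of_isClosed ?_
    (ContinuousOn.union_of_isClosed ?_ ?_ (hs.inter c3) (hs.inter c4)) (hs.inter c2)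
    ((hs.inter c3).union (hs.inter c4))) (hs.inter c1)
    ((hs.inter c2).union ((hs.inter c3).union (hs.inter c4)))
  · refine (continuousOn_const (c := ((p k, 0) : F m))).congr ?_
    rintro ⟨u, s⟩ ⟨hz, hu, ho⟩
    have hz' := (norm_eq_one_iff (u, s)).1 (by simpa using hz)
    exact cubeB_off S.toBdry S'.toBdry hG k u s hu hz'.2.1 ho
  · have : ContinuousOn (fun z : B m × ℝ => x' k z.1)
        (Metric.sphere 0 1 ∩ {z | z.2 = 1}) := by
      refine (S'.cx k).comp continuous_fst.continuousOn ?_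
      rintro z ⟨hz, _⟩
      simpa using ((norm_eq_one_iff z).1 (by simpa using hz)).1
    refine this.congr ?_
    rintro ⟨w, s⟩ ⟨_, hw⟩
    obtain rfl : s = 1 := hw
    exact cubeB_top k w
  · have : ContinuousOn (fun z : B m × ℝ => x k z.1)
        (Metric.sphere 0 1 ∩ {z | z.2 = -1}) := by
      refine (S.cx k).comp continuous_fst.continuousOn ?_
      rintro z ⟨hz, _⟩
      simpa using ((norm_eq_one_iff z).1 (by simpa using hz)).1
    refine this.congr ?_
    rintro ⟨w, s⟩ ⟨_, hw⟩
    obtain rfl : s = -1 := hw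
    exact cubeB_bot k w
  · have : ContinuousOn (fun z : B m × ℝ => ((G k (Fin.tail z.1, z.2), 0) : F m))
        (Metric.sphere 0 1 ∩ {z | z.1 0 = -1}) :=
      ((((hG.cont k).comp (ct.prodMk continuous_snd)).prodMk continuous_const)).continuousOn
    refine this.congr ?_
    rintro ⟨u, s⟩ ⟨hz, hw⟩
    have hz' := (norm_eq_one_iff (u, s)).1 (by simpa using hz)
    exact cubeB_face S.toBdry S'.toBdry hG k u s hz'.1 hw

/-- `p` is injective -/
lemma p_ne (S : Sys p x ν) {k l : Fin μ} (h : k ≠ l) : p k ≠ p l := by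
  intro he
  have h1 : ‖(fun _ => 1 : B m)‖ = 1 := by simp
  have h2 := S.ne (fun _ => 1) h1.le k l h
  rw [S.off k _ h1 (Or.inl rfl), S.off l _ h1 (Or.inl rfl), he] at h2
  exact h2 rfl

lemma cubeB_ne (S : Sys p x ν) (S' : Sys p x' ν') (hG : FaceG p x x' G) {k l : Fin μ}
    (hkl : k ≠ l) (z : B m × ℝ) (hz : ‖z‖ = 1) :
    cubeB p x x' G k z ≠ cubeB p x x' G l z := by
  obtain ⟨u, s⟩ := z
  obtain ⟨hu, hs, h⟩ := (norm_eq_one_iff (u, s)).1 hz
  simp only at hu hs h
  rcases h with h | h | h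
  · rcases bdry_cases h with h1 | h1
    · rw [cubeB_face S.toBdry S'.toBdry hG k u s hu h1, cubeB_face S.toBdry S'.toBdry hG l u s hu h1]
      intro he
      exact hG.ne _ k l hkl (congrArg Prod.fst he)
    · rw [cubeB_off S.toBdry S'.toBdry hG k u s h hs h1, cubeB_off S.toBdry S'.toBdry hG l u s h hs h1]
      intro he
      exact p_ne S hkl (congrArg Prod.fst he)
  · subst h
    rw [cubeB_top, cubeB_top]; exact S'.ne u hu k l hkl
  · subst h
    rw [cubeB_bot, cubeB_bot]; exact S.ne u hu k l hkl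

/-- bump function, positive exactly on the open face -/
noncomputable def hb (z : B m × ℝ) : ℝ := max 0 (-(z.1 0) - ‖(Fin.tail z.1, z.2)‖)

lemma continuous_hb : Continuous (hb : B m × ℝ → ℝ) := by
  have ct : Continuous (fun z : B m × ℝ => Fin.tail z.1) := continuous_tail.comp continuous_fst
  unfold hb
  have := (ct.prodMk (continuous_snd (X := B m) (Y := ℝ))).norm
  fun_prop

lemma hb_nonneg (z : B m × ℝ) : 0 ≤ hb z := le_max_left _ _

/-- on the sphere either we are on the face, or `hb = 0` and the differences are the homotopy -/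
lemma hb_cases (z : B m × ℝ) (hz : ‖z‖ = 1) :
    (z.1 0 = -1 ∧ 0 < hb z) ∨
    (hb z = 0 ∧ ((‖z.1‖ = 1 ∧ Off z.1) ∨ z.2 = 1 ∨ z.2 = -1)) := by
  obtain ⟨hu, hs, h⟩ := (norm_eq_one_iff z).1 hz
  by_cases hh : 0 < hb z
  · left
    refine ⟨?_, hh⟩
    unfold hb at hh
    rw [lt_max_iff] at hh
    rcases hh with hh | hh
    · exact absurd hh (lt_irrefl _)
    · by_contra h0
      have hu0 : -1 < z.1 0 := lt_of_le_of_ne (by
        have := (abs_le.1 ((abs_zero_le z.1).trans hu)).1; linarith) (Ne.symm h0)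
      have h1 : ‖(Fin.tail z.1, z.2)‖ < 1 := by linarith
      rw [Prod.norm_def, max_lt_iff, Real.norm_eq_abs] at h1
      simp only at h1
      rcases h with h | h | h
      · rcases bdry_cases h with h2 | h2 | h2
        · exact h0 h2
        · have : (0:ℝ) ≤ ‖(Fin.tail z.1, z.2)‖ := norm_nonneg _
          linarith
        · linarith [h1.1]
      · rw [h] at h1; simp at h1
      · rw [h] at h1; simp at h1
  · right
    have h0 : hb z = 0 := le_antisymm (not_lt.1 hh) (hb_nonneg z)
    refine ⟨h0, ?_⟩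
    by_cases hs1 : z.2 = 1 ∨ z.2 = -1
    · right; exact hs1
    · left
      have hn : ‖z.1‖ = 1 := by tauto
      refine ⟨hn, ?_⟩
      rcases bdry_cases hn with h2 | h2
      · right
        unfold hb at h0
        have h3 : -(z.1 0) - ‖(Fin.tail z.1, z.2)‖ ≤ 0 := by
          rw [← h0]; exact le_max_right _ _
        rw [h2, Prod.norm_def, Real.norm_eq_abs] at h3
        simp only at h3
        have h4 : 1 ≤ max ‖Fin.tail z.1‖ |z.2| := by linarith
        rcases le_max_iff.1 h4 with h5 | h5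
        · exact le_antisymm ((norm_tail_le _).trans hu) h5
        · exfalso
          have h6 : |z.2| = 1 := le_antisymm hs h5
          rcases (abs_eq (by norm_num : (0:ℝ) ≤ 1)).1 h6 with h | h
          · exact hs1 (Or.inl h)
          · exact hs1 (Or.inr h)
      · exact h2

lemma pair_ext (S : Sys p x ν) (S' : Sys p x' ν') (hG : FaceG p x x' G) {k l : Fin μ}
    (hkl : k ≠ l) {D : B m × ℝ → F m} (hD : DiffHom (p k - p l) (fun u => x k u - x l u)
      (fun u => x' k u - x' l u) D) :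
    BallExt (fun z => cubeB p x x' G k z - cubeB p x x' G l z) {0} := by
  obtain ⟨bk, hbk, hbk'⟩ := exists_cont_ext (continuousOn_cubeB S S' hG k)
  obtain ⟨bl, hbl, hbl'⟩ := exists_cont_ext (continuousOn_cubeB S S' hG l)
  set e : F m := (0, 1) with he
  -- values of D
  have hDval : ∀ z, ‖z‖ = 1 → hb z = 0 → D z = bk z - bl z := by
    intro z hz h0
    rw [hbk' z hz, hbl' z hz]
    have hz1 := (norm_eq_one_iff z).1 hz
    rcases hb_cases z hz with ⟨_, h⟩ | ⟨_, h⟩
    · exact absurd h0 h.ne'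
    · obtain ⟨u, s⟩ := z
      simp only at h hz1
      rcases h with ⟨h1, h2⟩ | h | h
      · rw [hD.off u s h1 hz1.2.1 h2, cubeB_off S.toBdry S'.toBdry hG k u s h1 hz1.2.1 h2,
          cubeB_off S.toBdry S'.toBdry hG l u s h1 hz1.2.1 h2]
        simp
      · subst h; rw [hD.fin u hz1.1, cubeB_top, cubeB_top]
      · subst h; rw [hD.start u hz1.1, cubeB_bot, cubeB_bot]
  have hDface : ∀ z, ‖z‖ = 1 → 0 < hb z → (D z).2 = 0 := by
    intro z hz h0
    have hz1 := (norm_eq_one_iff z).1 hz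
    rcases hb_cases z hz with ⟨h, _⟩ | ⟨h, _⟩
    · exact hD.face z.1 z.2 (norm_of_zero hz1.1 h) hz1.2.1
    · exact absurd h h0.ne'
  have hbface : ∀ z, ‖z‖ = 1 → 0 < hb z → (bk z).2 = 0 ∧ (bl z).2 = 0 ∧ (bk z).1 ≠ (bl z).1 := by
    intro z hz h0
    rw [hbk' z hz, hbl' z hz]
    have hz1 := (norm_eq_one_iff z).1 hz
    rcases hb_cases z hz with ⟨h, _⟩ | ⟨h, _⟩
    · obtain ⟨u, s⟩ := z
      simp only at h hz1
      rw [cubeB_face S.toBdry S'.toBdry hG k u s hz1.1 h,
        cubeB_face S.toBdry S'.toBdry hG l u s hz1.1 h]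
      exact ⟨rfl, rfl, hG.ne _ k l hkl⟩
    · exact absurd h h0.ne'
  have cD : Continuous (fun z => D (retr z)) :=
    hD.cont.comp_continuous continuous_retr (fun x => by simpa using norm_retr_le x)
  -- segment 1
  obtain ⟨A1, cA1, nA1, eA1⟩ : BallExt (fun z => D (retr z) + hb z • e) {0} := by
    refine ballExt_of_segment (cD.add (continuous_hb.smul continuous_const)) cD
      (fun z hz => ?_) (fun z hz t ht => ?_)
    · exact hD.ne _ (norm_retr_le z)
    · rw [AffineMap.lineMap_apply_module', retr_eq hz.le, mem_singleton_iff]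
      intro h
      have h' : D z + (t * hb z) • e = 0 := by
        rw [← h]; module
      rcases (hb_nonneg z).eq_or_lt with h0 | h0
      · rw [← h0] at h'
        simp only [mul_zero, zero_smul, add_zero] at h'
        exact hD.ne z hz.le h'
      · have h1 := congrArg Prod.fst h'
        simp only [Prod.fst_add, Prod.smul_fst, he, smul_zero, add_zero, Prod.fst_zero] at h1
        exact hD.ne z hz.le (Prod.ext h1 (hDface z hz h0))
  have eA1 : ∀ z, ‖z‖ = 1 → A1 z = D (retr z) + hb z • e := eA1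
  -- segment 2
  obtain ⟨A2, cA2, nA2, eA2⟩ : BallExt (fun z => (bk z - bl z) + hb z • e) {0} := by
    refine ballExt_of_segment ((hbk.sub hbl).add (continuous_hb.smul continuous_const)) cA1
      (fun z hz => nA1 z) (fun z hz t ht => ?_)
    rw [AffineMap.lineMap_apply_module', eA1 z hz, retr_eq hz.le, mem_singleton_iff]
    intro h
    rcases (hb_nonneg z).eq_or_lt with h0 | h0
    · rw [← h0, hDval z hz h0.symm] at h
      simp only [zero_smul, add_zero, sub_self, smul_zero, zero_add] at h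
      rw [← hDval z hz h0.symm] at h
      exact hD.ne z hz.le h
    · obtain ⟨h2, h3, h4⟩ := hbface z hz h0
      have h1 := congrArg Prod.snd h
      simp only [Prod.snd_add, Prod.smul_snd, Prod.snd_sub, he, h2, h3, hDface z hz h0,
        smul_eq_mul, Prod.snd_zero] at h1
      nlinarith
  have eA2 : ∀ z, ‖z‖ = 1 → A2 z = (bk z - bl z) + hb z • e := eA2
  -- segment 3
  obtain ⟨A3, cA3, nA3, eA3⟩ : BallExt (fun z => bk z - bl z) {0} := by
    refine ballExt_of_segment (hbk.sub hbl) cA2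
      (fun z hz => nA2 z) (fun z hz t ht => ?_)
    rw [AffineMap.lineMap_apply_module', eA2 z hz, mem_singleton_iff]
    intro h
    rcases (hb_nonneg z).eq_or_lt with h0 | h0
    · rw [← h0] at h
      simp only [zero_smul, add_zero, sub_self, smul_zero, zero_add] at h
      rw [hbk' z hz, hbl' z hz] at h
      exact cubeB_ne S S' hG hkl z hz (sub_eq_zero.1 h)
    · obtain ⟨h2, h3, h4⟩ := hbface z hz h0
      have h' : (bk z - bl z) + ((1 - t) * hb z) • e = 0 := by
        rw [← h]; module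
      have h1 := congrArg Prod.fst h'
      simp only [Prod.fst_add, Prod.smul_fst, Prod.fst_sub, he, smul_zero, add_zero,
        Prod.fst_zero] at h1
      exact h4 (sub_eq_zero.1 h1)
  have eA3 : ∀ z, ‖z‖ = 1 → A3 z = bk z - bl z := eA3
  exact ⟨A3, cA3, nA3, fun z hz => by rw [eA3 z hz, hbk' z hz, hbl' z hz]⟩

/-- index of the doubled configuration -/
noncomputable def dbl (p : Fin μ → B m) (x x' : Fin μ → B m → F m)
    (G : Fin μ → (Fin m → ℝ) × ℝ → B m) (Nh : Fin μ → B m × ℝ → F m) (δ : ℝ)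
    (i : Fin μ × Fin 2) (z : B m × ℝ) : F m :=
  cubeB p x x' G i.1 z + ((i.2 : ℕ) : ℝ) • (δ • Nh i.1 z)

/-- **CLASS1** -/
theorem class1 (hm : 2 ≤ m) (S : Sys p x ν) (S' : Sys p x' ν')
    (hD : ∀ k l, k ≠ l → ∃ D, DiffHom (p k - p l) (fun u => x k u - x l u)
      (fun u => x' k u - x' l u) D)
    (hN : ∀ k, ∃ D, NuHom (ν k) (ν' k) D) :
    ∃ X N : Fin μ → B m × ℝ → F m, Isot p x ν x' ν' X N := by
  obtain ⟨G, g1, g2, g3, g4, g5⟩ := step1 hm S S' hD
  have hG : FaceG p x x' G := ⟨g1, g2, g3, g4, g5⟩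
  choose Nh hNh using hN
  -- global continuous extensions
  choose b hb1 hb2 using fun k => exists_cont_ext (continuousOn_cubeB S S' hG k)
  have cN : ∀ k, Continuous (fun z => Nh k (retr z)) := fun k =>
    (hNh k).cont.comp_continuous continuous_retr (fun x => by simpa using norm_retr_le x)
  have hcomp : IsCompact (Metric.sphere (0 : B m × ℝ) 1) := isCompact_sphere _ _
  have hne : (Metric.sphere (0 : B m × ℝ) 1).Nonempty :=
    ⟨(0, 1), by simp⟩
  -- constants
  have hc : ∀ q : Fin μ × Fin μ, ∃ c : ℝ, 0 < c ∧ (q.1 ≠ q.2 →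
      ∀ z, ‖z‖ = 1 → c ≤ ‖b q.1 z - b q.2 z‖) := by
    rintro ⟨k, l⟩
    by_cases hkl : k = l
    · exact ⟨1, one_pos, fun h => absurd hkl h⟩
    · obtain ⟨z0, hz0, hmin⟩ := hcomp.exists_isMinOn hne
        (((hb1 k).sub (hb1 l)).norm.continuousOn)
      have hz0' : ‖z0‖ = 1 := by simpa using hz0
      refine ⟨‖b k z0 - b l z0‖, ?_, fun _ z hz => hmin (by simpa using hz)⟩
      rw [norm_pos_iff, sub_ne_zero, hb2 k z0 hz0', hb2 l z0 hz0']
      exact cubeB_ne S S' hG hkl z0 hz0'
  choose c hc0 hc1 using hc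
  have hC : ∀ k, ∃ C : ℝ, ∀ z, ‖z‖ = 1 → ‖Nh k z‖ ≤ C := by
    intro k
    obtain ⟨C, hC⟩ := (hcomp.image_of_continuousOn (cN k).continuousOn).isBounded.exists_norm_le
    refine ⟨C, fun z hz => ?_⟩
    have := hC _ (mem_image_of_mem _ (show z ∈ Metric.sphere (0 : B m × ℝ) 1 by simpa using hz))
    rwa [retr_eq hz.le] at this
  choose C hC using hC
  obtain ⟨δ, hδ0, hδ⟩ : ∃ δ : ℝ, 0 < δ ∧ ∀ k l, δ * (|C k| + |C l|) < c (k, l) := by
    have h1 : ∀ q : Fin μ × Fin μ, ∀ᶠ δ in 𝓝[>] (0:ℝ), δ * (|C q.1| + |C q.2|) < c q := by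
      intro q
      have h2 : Tendsto (fun δ : ℝ => δ * (|C q.1| + |C q.2|)) (𝓝[>] 0) (𝓝 (0 * (|C q.1| + |C q.2|))) :=
        (Continuous.tendsto (by fun_prop) 0).mono_left nhdsWithin_le_nhds
      rw [zero_mul] at h2
      exact h2.eventually_lt_const (hc0 q)
    have h3 := (eventually_all.2 h1).and (self_mem_nhdsWithin (a := (0:ℝ)) (s := Ioi 0))
    obtain ⟨δ, h4, h5⟩ := h3.exists
    exact ⟨δ, h5, fun k l => h4 (k, l)⟩
  -- the doubled configuration
  have hcont : ∀ i, ContinuousOn (dbl p x x' G Nh δ i) (Metric.sphere 0 1) := by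
    intro i
    refine (continuousOn_cubeB S S' hG i.1).add ?_
    exact (((hNh i.1).cont.mono Metric.sphere_subset_closedBall).const_smul δ).const_smul
      (((i.2 : ℕ) : ℝ))
  have hpair : ∀ i j : Fin μ × Fin 2, i ≠ j →
      BallExt (fun z => dbl p x x' G Nh δ i z - dbl p x x' G Nh δ j z) {0} := by
    rintro ⟨k, i⟩ ⟨l, j⟩ hij
    by_cases hkl : k = l
    · subst hkl
      have hij' : i ≠ j := fun h => hij (by rw [h])
      set a : ℝ := ((i : ℕ) : ℝ) - ((j : ℕ) : ℝ) with ha
      have ha0 : a ≠ 0 := by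
        rw [ha, sub_ne_zero]
        intro h
        exact hij' (Fin.ext (by exact_mod_cast h))
      refine ⟨fun z => a • (δ • Nh k (retr z)), ((cN k).const_smul δ).const_smul a, ?_, ?_⟩
      · intro z hz
        rw [mem_singleton_iff, smul_eq_zero, smul_eq_zero] at hz
        rcases hz with h | h | h
        · exact ha0 h
        · exact hδ0.ne' h
        · exact (hNh k).ne _ (norm_retr_le z) h
      · intro z hz
        simp only [dbl, retr_eq hz.le, ha]
        module
    · obtain ⟨D, hD'⟩ := hD k l hkl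
      obtain ⟨A, cA, nA, eA⟩ := pair_ext S S' hG hkl hD'
      have hh : BallExt (fun z => (b k z + ((i : ℕ) : ℝ) • (δ • Nh k (retr z))) -
          (b l z + ((j : ℕ) : ℝ) • (δ • Nh l (retr z)))) {0} := by
        refine ballExt_of_segment ?_ cA (fun z _ => nA z) (fun z hz t ht => ?_)
        · exact Continuous.sub
            (f := fun z => b k z + ((i : ℕ) : ℝ) • (δ • Nh k (retr z)))
            (g := fun z => b l z + ((j : ℕ) : ℝ) • (δ • Nh l (retr z)))
            ((hb1 k).add (((cN k).const_smul δ).const_smul (((i : ℕ) : ℝ))))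
            ((hb1 l).add (((cN l).const_smul δ).const_smul (((j : ℕ) : ℝ))))
        · rw [AffineMap.lineMap_apply_module', mem_singleton_iff]
          have e1 : A z = b k z - b l z := by
            rw [eA z hz, hb2 k z hz, hb2 l z hz]
          rw [e1, retr_eq hz.le]
          intro h
          have h1 : b k z - b l z = -(t • (δ • ((((i : ℕ) : ℝ)) • Nh k z - (((j : ℕ) : ℝ)) • Nh l z))) := by
            rw [eq_neg_iff_add_eq_zero, ← h]; module
          have hi : |((i : ℕ) : ℝ)| ≤ 1 := by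
            rw [abs_of_nonneg (Nat.cast_nonneg _)]
            exact_mod_cast Nat.lt_succ_iff.1 i.2
          have hj : |((j : ℕ) : ℝ)| ≤ 1 := by
            rw [abs_of_nonneg (Nat.cast_nonneg _)]
            exact_mod_cast Nat.lt_succ_iff.1 j.2
          have h2 : ‖b k z - b l z‖ ≤ δ * (|C k| + |C l|) := by
            rw [h1, norm_neg, norm_smul, norm_smul, Real.norm_of_nonneg ht.1,
              Real.norm_of_nonneg hδ0.le]
            have h3 : ‖(((i : ℕ) : ℝ)) • Nh k z - (((j : ℕ) : ℝ)) • Nh l z‖ ≤ |C k| + |C l| := by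
              refine (norm_sub_le _ _).trans (add_le_add ?_ ?_)
              · rw [norm_smul, Real.norm_eq_abs]
                calc |((i : ℕ) : ℝ)| * ‖Nh k z‖ ≤ 1 * |C k| :=
                      mul_le_mul hi ((hC k z hz).trans (le_abs_self _)) (norm_nonneg _) zero_le_one
                  _ = |C k| := one_mul _
              · rw [norm_smul, Real.norm_eq_abs]
                calc |((j : ℕ) : ℝ)| * ‖Nh l z‖ ≤ 1 * |C l| :=
                      mul_le_mul hj ((hC l z hz).trans (le_abs_self _)) (norm_nonneg _) zero_le_one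
                  _ = |C l| := one_mul _
            calc t * (δ * ‖(((i : ℕ) : ℝ)) • Nh k z - (((j : ℕ) : ℝ)) • Nh l z‖)
                ≤ 1 * (δ * (|C k| + |C l|)) := by
                  refine mul_le_mul ht.2 (mul_le_mul_of_nonneg_left h3 hδ0.le)
                    (mul_nonneg hδ0.le (norm_nonneg _)) zero_le_one
              _ = _ := one_mul _
          have h4 := hc1 (k, l) hkl z hz
          have h5 := hδ k l
          exact absurd (h4.trans h2) (not_le.2 h5)
      refine hh.congr fun z hz => ?_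
      simp only [dbl, retr_eq hz.le, hb2 k z hz, hb2 l z hz]
  obtain ⟨W, w1, w2, w3⟩ := conf_ext (V := B m × ℝ) (E := F m) (by simp; omega)
    (fun i : Fin (μ * 2) => dbl p x x' G Nh δ (finProdFinEquiv.symm i)) (fun i => hcont _) (by
      intro i j hij
      obtain ⟨A, cA, nA, eA⟩ := hpair (finProdFinEquiv.symm i) (finProdFinEquiv.symm j)
        (fun h => hij (finProdFinEquiv.symm.injective h))
      exact ⟨A, cA.continuousOn, fun z _ => nA z, fun z hz => eA z (by simpa using hz)⟩)
  -- clamp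
  let cl : B m × ℝ → B m × ℝ := fun z => (retr z.1, max (-1) (min 1 z.2))
  have ccl : Continuous cl := by
    refine (continuous_retr.comp continuous_fst).prodMk ?_
    fun_prop
  have hcl : ∀ (u : B m) (s : ℝ), ‖u‖ ≤ 1 → |s| ≤ 1 → cl (u, s) = (u, s) := by
    intro u s hu hs
    have := abs_le.1 hs
    simp only [cl, retr_eq hu, min_eq_right this.2, max_eq_right this.1]
  let X : Fin μ → B m × ℝ → F m := fun k z => W (finProdFinEquiv (k, 0)) (cl z)
  let Y : Fin μ → B m × ℝ → F m := fun k z => W (finProdFinEquiv (k, 1)) (cl z)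
  have hne2 : ∀ k z, Y k z - X k z ≠ 0 := by
    intro k z h
    refine w2 (cl z) _ _ ?_ (sub_eq_zero.1 h)
    intro h
    have := finProdFinEquiv.injective h
    simp at this
  have eX : ∀ k u s, ‖(u, s)‖ = 1 → X k (u, s) = cubeB p x x' G k (u, s) := by
    intro k u s hz
    have hz' := (norm_eq_one_iff (u, s)).1 hz
    simp only [X]
    rw [hcl u s hz'.1 hz'.2.1, w3 _ _ (by simpa using hz)]
    simp [dbl]
  have eY : ∀ k u s, ‖(u, s)‖ = 1 → Y k (u, s) = cubeB p x x' G k (u, s) + δ • Nh k (u, s) := by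
    intro k u s hz
    have hz' := (norm_eq_one_iff (u, s)).1 hz
    simp only [Y]
    rw [hcl u s hz'.1 hz'.2.1, w3 _ _ (by simpa using hz)]
    simp [dbl]
  have eN : ∀ k u s, ‖(u, s)‖ = 1 → δ⁻¹ • (Y k (u, s) - X k (u, s)) = Nh k (u, s) := by
    intro k u s hz
    rw [eX k u s hz, eY k u s hz, add_sub_cancel_left, inv_smul_smul₀ hδ0.ne']
  refine ⟨X, fun k z => δ⁻¹ • (Y k z - X k z), ?_⟩
  constructor
  · exact fun k => (w1 _).comp ccl
  · exact fun k => Continuous.const_smul (g := fun z => Y k z - X k z)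
      (((w1 _).comp ccl).sub ((w1 _).comp ccl)) δ⁻¹
  · intro z k l hkl
    refine w2 (cl z) _ _ ?_
    intro h
    have := finProdFinEquiv.injective h
    simp at this
    exact hkl this
  · intro z k h
    rw [smul_eq_zero] at h
    rcases h with h | h
    · exact (inv_ne_zero hδ0.ne') h
    · exact hne2 k z h
  · intro s hs
    have hz : ∀ u : B m, ‖u‖ = 1 → ‖(u, s)‖ = 1 := fun u hu =>
      (norm_eq_one_iff (u, s)).2 ⟨hu.le, hs, Or.inl hu⟩
    constructor
    · intro k u hu ho
      show X k (u, s) = _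
      rw [eX k u s (hz u hu), cubeB_off S.toBdry S'.toBdry hG k u s hu hs ho]
    · intro k u hu
      show (X k (u, s)).2 = 0
      rw [eX k u s (hz u hu)]
      rcases bdry_cases hu with h | h
      · rw [cubeB_face S.toBdry S'.toBdry hG k u s hu.le h]
      · rw [cubeB_off S.toBdry S'.toBdry hG k u s hu hs h]
    · intro k u hu
      show δ⁻¹ • (Y k (u, s) - X k (u, s)) = _
      rw [eN k u s (hz u hu), (hNh k).off u s hu hs]
  · intro k u hu
    rw [eX k u (-1) ((norm_eq_one_iff (u, (-1:ℝ))).2 ⟨hu, by simp, by simp⟩), cubeB_bot]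
  · intro k u hu
    rw [eX k u 1 ((norm_eq_one_iff (u, (1:ℝ))).2 ⟨hu, by simp, by simp⟩), cubeB_top]
  · intro k u hu
    show δ⁻¹ • (Y k (u, -1) - X k (u, -1)) = _
    rw [eN k u (-1) ((norm_eq_one_iff (u, (-1:ℝ))).2 ⟨hu, by simp, by simp⟩), (hNh k).start u hu]
  · intro k u hu
    show δ⁻¹ • (Y k (u, 1) - X k (u, 1)) = _
    rw [eN k u 1 ((norm_eq_one_iff (u, (1:ℝ))).2 ⟨hu, by simp, by simp⟩), (hNh k).fin u hu]

end

end Crest.Agent.R267.Class1_184
end

-- ▼ part R267/Class1P_184
section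

/-!
# Task TB-B2 (row 267): `Class1Prop n` for `1 ≤ n`
-/

set_option autoImplicit false
set_option linter.unusedSectionVars false
open Topology Filter Set Module
open scoped RealInnerProductSpace

namespace Crest.Agent.R267.Class1P_184

open Crest.Agent.R267

/-- coordinates of the fibre: horizontal part and height. -/
noncomputable def LV (n : ℕ) : GS_808.Vc n ≃L[ℝ] (Fin n → ℝ) × ℝ :=
  LinearEquiv.toContinuousLinearEquiv
    { toFun := fun v => (fun i => v (Fin.castSucc i), v (Fin.last n))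
      map_add' := fun v w => by ext <;> simp
      map_smul' := fun c v => by ext <;> simp
      invFun := fun p => WithLp.toLp 2 (Fin.snoc (α := fun _ => ℝ) p.1 p.2)
      left_inv := fun v => by
        ext i
        refine Fin.lastCases ?_ (fun j => ?_) i <;> simp
      right_inv := fun p => by ext <;> simp }

lemma LV_apply {n : ℕ} (v : GS_808.Vc n) :
    LV n v = (fun i => v (Fin.castSucc i), v (Fin.last n)) := rfl

lemma inner_ec {n : ℕ} (v : GS_808.Vc n) : ⟪GS_808.ec n, v⟫ = (LV n v).2 := by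
  rw [GS_808.ec, EuclideanSpace.inner_single_left]
  simp [LV_apply]

lemma LV_ec (n : ℕ) : LV n (GS_808.ec n) = (0, 1) := by
  rw [LV_apply]
  ext i
  · simp [GS_808.ec, (Fin.castSucc_lt_last i).ne]
  · simp [GS_808.ec]

lemma LV_ne_zero {n : ℕ} {v : GS_808.Vc n} (h : v ≠ 0) : LV n v ≠ 0 := fun h0 =>
  h (by simpa using congrArg (LV n).symm h0)

lemma norm_ec (n : ℕ) : ‖GS_808.ec n‖ = 1 := by simp [GS_808.ec]

lemma restAt_of_off {n : ℕ} {u : Fin (n+1) → ℝ} (h : Class1_184.Off (m := n) u) :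
    GS_808.RestAt u := by
  rcases h with h | h
  · exact Or.inl h.ge
  · right
    by_contra hc
    push Not at hc
    have : ‖Fin.tail u‖ < 1 := by
      rw [pi_norm_lt_iff one_pos]
      intro i
      exact hc i.succ (Fin.succ_ne_zero i)
    rw [h] at this
    exact lt_irrefl _ this

/-- unit vector -/
noncomputable def un {V : Type*} [NormedAddCommGroup V] [NormedSpace ℝ V] (v : V) : V := ‖v‖⁻¹ • v

lemma norm_un {V : Type*} [NormedAddCommGroup V] [NormedSpace ℝ V] {v : V} (h : v ≠ 0) :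
    ‖un v‖ = 1 := by
  rw [un, norm_smul, norm_inv, norm_norm, inv_mul_cancel₀ (norm_ne_zero_iff.2 h)]

lemma un_of_norm {V : Type*} [NormedAddCommGroup V] [NormedSpace ℝ V] {v : V} (h : ‖v‖ = 1) :
    un v = v := by rw [un, h, inv_one, one_smul]

lemma continuous_un {V X : Type*} [NormedAddCommGroup V] [NormedSpace ℝ V] [TopologicalSpace X]
    {f : X → V} (hf : Continuous f) (h : ∀ x, f x ≠ 0) : Continuous fun x => un (f x) :=
  (hf.norm.inv₀ fun x => norm_ne_zero_iff.2 (h x)).smul hf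

theorem class1Prop (n : ℕ) (hn : 1 ≤ n) : DraftB_808.Class1Prop n := by
  intro m G G' p hG hG' hD hN
  have pH : ∀ k, (LV (n+2) (p k)).2 = 0 := by
    intro k
    have h1 : GS_808.RestAt (fun _ => (1:ℝ) : GS_808.Bc (n+2)) := Or.inl le_rfl
    have h2 : ‖(fun _ => (1:ℝ) : GS_808.Bc (n+2))‖ = 1 := by simp
    rw [← inner_ec, ← hG k _ h1]
    exact G.wall_x k _ h2.ge
  have pE : ∀ k, LV (n+2) (p k) = ((LV (n+2) (p k)).1, 0) := fun k => Prod.ext rfl (pH k)
  have mkSys : ∀ G : DraftB_808.S n m, (∀ k, GS_808.IsRest (p k) (G.x k)) →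
      Class1_184.Sys (m := n+1) (fun k => (LV (n+2) (p k)).1) (fun k u => LV (n+2) (G.x k u))
        (fun k u => LV (n+2) (G.nu k u)) := by
    intro G hG
    refine { off := ?_, face := ?_, nu := ?_, cx := ?_, cnu := ?_, ne := ?_, nu_ne := ?_ }
    · intro k u hu ho
      show LV (n+2) (G.x k u) = _
      rw [hG k u (restAt_of_off ho)]
      exact pE k
    · intro k u hu
      show (LV (n+2) (G.x k u)).2 = 0
      rw [← inner_ec]; exact G.wall_x k u hu.ge
    · intro k u hu
      show LV (n+2) (G.nu k u) = _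
      rw [G.wall_nu k u hu.ge, LV_ec]
    · intro k
      exact ((LV (n+2)).continuous.comp (G.cx k)).continuousOn
    · intro k
      exact ((LV (n+2)).continuous.comp (G.cnu k)).continuousOn
    · intro u hu k l hkl h
      have h1 : G.x k u = G.x l u := (LV (n+2)).injective h
      have h2 := G.sep k l u hkl
      rw [h1, sub_self, norm_zero] at h2
      linarith [G.hr]
    · intro u hu k h
      have h1 : G.nu k u = 0 := by simpa using congrArg (LV (n+2)).symm h
      have h2 := G.norm_nu k u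
      rw [h1, norm_zero] at h2
      exact zero_ne_one h2
  have cτ : Continuous fun z : GS_808.Bc (n+2) × ℝ => ((1 + z.2) / 2, z.1) := by fun_prop
  have mτ : ∀ z : GS_808.Bc (n+2) × ℝ, ‖z‖ ≤ 1 →
      (((1 + z.2) / 2, z.1) : ℝ × GS_808.Bc (n+2)) ∈ Icc (0:ℝ) 1 ×ˢ Metric.closedBall 0 1 := by
    intro z hz
    rw [Class1_184.norm_le_one_iff] at hz
    have := abs_le.1 hz.2
    exact ⟨⟨by linarith, by linarith⟩, by simpa using hz.1⟩
  -- difference homotopies
  have hDH : ∀ k l, k ≠ l → ∃ D, Class1_184.DiffHom (m := n+1)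
      ((LV (n+2) (p k)).1 - (LV (n+2) (p l)).1)
      (fun u => LV (n+2) (G.x k u) - LV (n+2) (G.x l u))
      (fun u => LV (n+2) (G'.x k u) - LV (n+2) (G'.x l u)) D := by
    have main : ∀ k l, l < k → ∃ D, Class1_184.DiffHom (m := n+1)
      ((LV (n+2) (p k)).1 - (LV (n+2) (p l)).1)
      (fun u => LV (n+2) (G.x k u) - LV (n+2) (G.x l u))
      (fun u => LV (n+2) (G'.x k u) - LV (n+2) (G'.x l u)) D := by
      intro k l hkl
      obtain ⟨E, e1, e2, e3, e4, e5, e6⟩ := hD k l hkl
      refine ⟨fun z => LV (n+2) (E ((1 + z.2) / 2, z.1)), ?_⟩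
      refine { cont := ?_, ne := ?_, start := ?_, fin := ?_, off := ?_, face := ?_ }
      · exact ((LV (n+2)).continuous.comp (e1.comp cτ)).continuousOn
      · intro z hz; exact LV_ne_zero (e2 _)
      · intro u hu
        have h1 : E ((1 + -1) / 2, u) = G.x k u - G.x l u := by
          norm_num
          exact e5 u
        show LV (n+2) (E ((1 + -1) / 2, u)) = _
        rw [h1, map_sub]
      · intro u hu
        have h1 : E ((1 + 1) / 2, u) = G'.x k u - G'.x l u := by
          norm_num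
          exact e6 u
        show LV (n+2) (E ((1 + 1) / 2, u)) = _
        rw [h1, map_sub]
      · intro u s hu hs ho
        show LV (n+2) (E ((1 + s) / 2, u)) = _
        rw [e4 _ u (restAt_of_off ho), map_sub]
        refine Prod.ext rfl ?_
        rw [Prod.snd_sub, pH, pH, sub_zero]
      · intro u s hu hs
        show (LV (n+2) (E ((1 + s) / 2, u))).2 = 0
        rw [← inner_ec]
        exact e3 _ u hu.ge
    intro k l hkl
    rcases lt_or_gt_of_ne hkl with h | h
    · obtain ⟨D, hD⟩ := main l k h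
      refine ⟨fun z => - D z, ?_⟩
      refine { cont := hD.cont.neg, ne := ?_, start := ?_, fin := ?_, off := ?_, face := ?_ }
      · intro z hz h0; exact hD.ne z hz (neg_eq_zero.1 h0)
      · intro u hu; simp only [hD.start u hu]; abel
      · intro u hu; simp only [hD.fin u hu]; abel
      · intro u s hu hs ho
        simp only [hD.off u s hu hs ho]
        ext <;> simp
      · intro u s hu hs
        simp only [Prod.snd_neg, hD.face u s hu hs, neg_zero]
    · exact main k l h
  -- normals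
  have hNH : ∀ k, ∃ D, Class1_184.NuHom (m := n+1) (fun u => LV (n+2) (G.nu k u))
      (fun u => LV (n+2) (G'.nu k u)) D := by
    intro k
    obtain ⟨E, e1, e2, e3, e4, e5⟩ := hN k
    refine ⟨fun z => LV (n+2) (E ((1 + z.2) / 2, z.1)), ?_⟩
    have ht : ∀ s : ℝ, |s| ≤ 1 → (1 + s) / 2 ∈ Icc (0:ℝ) 1 := by
      intro s hs
      have := abs_le.1 hs
      exact ⟨by linarith, by linarith⟩
    refine { cont := ?_, ne := ?_, start := ?_, fin := ?_, off := ?_ }
    · refine (LV (n+2)).continuous.comp_continuousOn (e1.comp cτ.continuousOn ?_)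
      intro z hz
      exact mτ z (by simpa using hz)
    · intro z hz
      have := (Class1_184.norm_le_one_iff z).1 hz
      exact LV_ne_zero (e2 _ (ht _ this.2) _ this.1)
    · intro u hu
      simp only
      norm_num
      exact e4 u hu
    · intro u hu
      simp only
      norm_num
      exact e5 u hu
    · intro u s hu hs
      show LV (n+2) (E ((1 + s) / 2, u)) = _
      rw [e3 _ (ht s hs) u hu, LV_ec]
  obtain ⟨X, N, hI⟩ := Class1_184.class1 (m := n+1) (by omega) (mkSys G hG) (mkSys G' hG') hDH hNH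
  have cσ : Continuous fun z : ℝ × GS_808.Bc (n+2) => (z.2, 2 * z.1 - 1) := by fun_prop
  have hNne : ∀ k (z : GS_808.Bc (n+2) × ℝ), (LV (n+2)).symm (N k z) ≠ 0 := by
    intro k z h
    exact hI.N_ne z k (by simpa using congrArg (LV (n+2)) h)
  refine ⟨fun k z => (LV (n+2)).symm (X k (z.2, 2 * z.1 - 1)),
    fun k z => un ((LV (n+2)).symm (N k (z.2, 2 * z.1 - 1))), ?_, ?_, ?_, ?_, ?_, ?_, ?_⟩
  · intro k
    exact ((LV (n+2)).symm.continuous.comp ((hI.cX k).comp cσ)).continuousOn
  · intro k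
    exact (continuous_un ((LV (n+2)).symm.continuous.comp ((hI.cN k).comp cσ))
      (fun z => hNne k _)).continuousOn
  · intro k t ht u hu
    exact norm_un (hNne k _)
  · intro k l hkl t ht u hu h
    exact hI.ne (u, 2 * t - 1) k l hkl ((LV (n+2)).symm.injective h)
  · intro k t ht u hu
    have hs : |2 * t - 1| ≤ 1 := by rw [abs_le]; constructor <;> linarith [ht.1, ht.2]
    have hb := hI.bdry (2 * t - 1) hs
    constructor
    · show ⟪GS_808.ec (n+2), (LV (n+2)).symm (X k (u, 2 * t - 1))⟫ = 0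
      rw [inner_ec, ContinuousLinearEquiv.apply_symm_apply]
      exact hb.face k u hu
    · show un ((LV (n+2)).symm (N k (u, 2 * t - 1))) = _
      have h1 : N k (u, 2 * t - 1) = (0, 1) := hb.nu k u hu
      rw [h1, ← LV_ec (n+2), ContinuousLinearEquiv.symm_apply_apply, un_of_norm (norm_ec _)]
  · intro k u hu
    constructor
    · show (LV (n+2)).symm (X k (u, 2 * 0 - 1)) = _
      have h1 : X k (u, 2 * 0 - 1) = LV (n+2) (G.x k u) := by
        norm_num
        exact hI.X_start k u hu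
      rw [h1, ContinuousLinearEquiv.symm_apply_apply]
    · show un ((LV (n+2)).symm (N k (u, 2 * 0 - 1))) = _
      have h1 : N k (u, 2 * 0 - 1) = LV (n+2) (G.nu k u) := by
        norm_num
        exact hI.N_start k u hu
      rw [h1, ContinuousLinearEquiv.symm_apply_apply, un_of_norm (G.norm_nu k u)]
  · intro k u hu
    constructor
    · show (LV (n+2)).symm (X k (u, 2 * 1 - 1)) = _
      have h1 : X k (u, 2 * 1 - 1) = LV (n+2) (G'.x k u) := by
        norm_num
        exact hI.X_fin k u hu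
      rw [h1, ContinuousLinearEquiv.symm_apply_apply]
    · show un ((LV (n+2)).symm (N k (u, 2 * 1 - 1))) = _
      have h1 : N k (u, 2 * 1 - 1) = LV (n+2) (G'.nu k u) := by
        norm_num
        exact hI.N_fin k u hu
      rw [h1, ContinuousLinearEquiv.symm_apply_apply, un_of_norm (G'.norm_nu k u)]

end Crest.Agent.R267.Class1P_184
end

-- ▼ part R267/Real_855

/-!
# T2-1 REAL (row 267): every integer matrix is the matrix of a family of strands

`realProp (hn : 1 ≤ n) : RealProp n`.  The set of realised matrices is closed under `+` (`cat`) and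
`-` (`rev`), and contains the matrix units: strand `a` runs along the segment from `p a` to the unit
ball around `p b` and does `± al` there; the points `p k` lie on a parabola, so all other
differences stay in open half spaces.
-/

set_option autoImplicit false

namespace Crest.Agent.R267.Real_855

open Set Metric Filter Topology
open scoped RealInnerProductSpace
open Crest.Agent.R267.GS_808 Crest.Agent.R267.DraftB_808 Crest.Agent.R267.NF_808
open Crest.Agent.R267.Norm_855

noncomputable section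

variable {n : ℕ}

/-! ### `cat` and `rev` -/

lemma one_ne : (1 : Fin (n + 2)) ≠ 0 := by
  intro h; have := congrArg Fin.val h; simp at this

lemma exists_coord {k : ℕ} {u : Bc k} (hu : 1 ≤ ‖u‖) : ∃ i, 1 ≤ |u i| := by
  by_contra hc
  push Not at hc
  have : ‖u‖ < 1 := (pi_norm_lt_iff zero_lt_one).2 fun i => by
    rw [Real.norm_eq_abs]; exact hc i
  linarith

lemma norm_of_coord {k : ℕ} {u : Bc k} {i : Fin k} (hi : 1 ≤ |u i|) : 1 ≤ ‖u‖ :=
  hi.trans (norm_le_pi_norm u i)

lemma coordL {u : Bc (n + 2)} (h1 : u 1 ≤ 0) {i : Fin (n + 2)} (hi : 1 ≤ |u i|) :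
    1 ≤ |blowL u i| := by
  unfold blowL
  by_cases h : i = 1
  · subst h
    rw [Function.update_self]
    rw [abs_of_nonpos h1] at hi
    rw [abs_of_nonpos (by linarith)]
    linarith
  · rwa [Function.update_of_ne h]

lemma coordR {u : Bc (n + 2)} (h1 : 0 ≤ u 1) {i : Fin (n + 2)} (hi : 1 ≤ |u i|) :
    1 ≤ |blowR u i| := by
  unfold blowR
  by_cases h : i = 1
  · subst h
    rw [Function.update_self]
    rw [abs_of_nonneg h1] at hi
    rw [abs_of_nonneg (by linarith)]
    linarith
  · rwa [Function.update_of_ne h]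

lemma restL {u : Bc (n + 2)} (h1 : u 1 ≤ 0) (h : RestAt u) : RestAt (blowL u) := by
  rcases h with h | ⟨i, hi, h⟩
  · left
    unfold blowL
    rwa [Function.update_of_ne one_ne.symm]
  · exact Or.inr ⟨i, hi, coordL h1 h⟩

lemma restR {u : Bc (n + 2)} (h1 : 0 ≤ u 1) (h : RestAt u) : RestAt (blowR u) := by
  rcases h with h | ⟨i, hi, h⟩
  · left
    unfold blowR
    rwa [Function.update_of_ne one_ne.symm]
  · exact Or.inr ⟨i, hi, coordR h1 h⟩

lemma normL {u : Bc (n + 2)} (h1 : u 1 ≤ 0) (h : 1 ≤ ‖u‖) : 1 ≤ ‖blowL u‖ := by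
  obtain ⟨i, hi⟩ := exists_coord h
  exact norm_of_coord (coordL h1 hi)

lemma normR {u : Bc (n + 2)} (h1 : 0 ≤ u 1) (h : 1 ≤ ‖u‖) : 1 ≤ ‖blowR u‖ := by
  obtain ⟨i, hi⟩ := exists_coord h
  exact norm_of_coord (coordR h1 hi)

lemma continuous_blowL : Continuous (blowL (n := n)) := by
  unfold blowL
  exact continuous_id.update 1 (by fun_prop)

lemma continuous_blowR : Continuous (blowR (n := n)) := by
  unfold blowR
  exact continuous_id.update 1 (by fun_prop)

section

variable {X : Type*} {f g : Bc (n + 2) → X} {y : X}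

lemma mid_blowL {u : Bc (n + 2)} (h : u 1 = 0) : RestAt (blowL u) := by
  refine Or.inr ⟨1, one_ne, ?_⟩
  unfold blowL
  rw [Function.update_self, h]; norm_num

lemma mid_blowR {u : Bc (n + 2)} (h : u 1 = 0) : RestAt (blowR u) := by
  refine Or.inr ⟨1, one_ne, ?_⟩
  unfold blowR
  rw [Function.update_self, h]; norm_num

lemma continuous_cat [TopologicalSpace X] (hf : Continuous f) (hg : Continuous g)
    (rf : IsRest y f) (rg : IsRest y g) : Continuous (cat f g) := by
  unfold cat
  refine Continuous.if_le (hf.comp continuous_blowL) (hg.comp continuous_blowR)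
    (continuous_apply 1) continuous_const fun u hu => ?_
  rw [rf _ (mid_blowL hu), rg _ (mid_blowR hu)]

lemma rest_cat (rf : IsRest y f) (rg : IsRest y g) : IsRest y (cat f g) := by
  intro u hu
  unfold cat
  split_ifs with h
  · exact rf _ (restL h hu)
  · exact rg _ (restR (not_le.1 h).le hu)

lemma wall_cat (P : X → Prop) (hf : ∀ u, 1 ≤ ‖u‖ → P (f u)) (hg : ∀ u, 1 ≤ ‖u‖ → P (g u)) :
    ∀ u, 1 ≤ ‖u‖ → P (cat f g u) := by
  intro u hu
  unfold cat
  split_ifs with h
  · exact hf _ (normL h hu)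
  · exact hg _ (normR (not_le.1 h).le hu)

/-- the reversed point -/
def rv (u : Bc (n + 2)) : Bc (n + 2) := Function.update u 1 (-(u 1))


lemma continuous_rv : Continuous (rv (n := n)) := by
  unfold rv
  exact continuous_id.update 1 (by fun_prop)

lemma coord_rv {u : Bc (n + 2)} {i : Fin (n + 2)} (hi : 1 ≤ |u i|) : 1 ≤ |rv u i| := by
  unfold rv
  by_cases h : i = 1
  · subst h
    rwa [Function.update_self, abs_neg]
  · rwa [Function.update_of_ne h]

lemma rest_rv {u : Bc (n + 2)} (h : RestAt u) : RestAt (rv u) := by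
  rcases h with h | ⟨i, hi, h⟩
  · left
    unfold rv
    rwa [Function.update_of_ne one_ne.symm]
  · exact Or.inr ⟨i, hi, coord_rv h⟩

lemma norm_rv {u : Bc (n + 2)} (h : 1 ≤ ‖u‖) : 1 ≤ ‖rv u‖ := by
  obtain ⟨i, hi⟩ := exists_coord h
  exact norm_of_coord (coord_rv hi)

end

/-! ### realised matrices -/

/-- `A` is the matrix of a family with rest points `p`. -/
def Rl {m : ℕ} (j : Fin m) (p : Fin m → Vc (n + 2)) (A : Matrix (Fin m) (Fin m) ℤ) : Prop :=
  ∃ O : OthD n m j, O.p = p ∧
    (∀ k l, l < k → Typ n (fun u => O.y k u - O.y l u) (A k l) (A l k)) ∧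
    ∀ k, TypN n (O.N k) (A k k)

variable {m : ℕ} {j : Fin m} {p : Fin m → Vc (n + 2)}

lemma adm_of (O : OthD n m j) {k l : Fin m} (h : k ≠ l) :
    Adm (n + 2) (fun u => O.y k u - O.y l u) where
  cont := (O.c_y k).sub (O.c_y l)
  ne u := sub_ne_zero.2 (O.sep k l u h)
  hor u hu := by rw [inner_sub_right, O.wall_y k u hu, O.wall_y l u hu, sub_zero]

lemma rest_sub (O : OthD n m j) (k l : Fin m) :
    IsRest (O.p k - O.p l) (fun u => O.y k u - O.y l u) := fun u hu => by
  show O.y k u - O.y l u = _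
  rw [O.rest_y k u hu, O.rest_y l u hu]

lemma N_ne (O : OthD n m j) (k : Fin m) (u : Bc (n + 2)) : O.N k u ≠ 0 := by
  intro h
  have := O.n_N k u
  rw [h, norm_zero] at this
  exact zero_ne_one this

lemma Rl.add {A A' : Matrix (Fin m) (Fin m) ℤ} (h : Rl j p A) (h' : Rl j p A') :
    Rl j p (A + A') := by
  obtain ⟨O, hp, hT, hN⟩ := h
  obtain ⟨O', hp', hT', hN'⟩ := h'
  have rest' : ∀ k, IsRest (O.p k) (O'.y k) := fun k => by rw [hp, ← hp']; exact O'.rest_y k
  refine ⟨{
    y := fun k => cat (O.y k) (O'.y k)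
    N := fun k => cat (O.N k) (O'.N k)
    p := O.p
    c_y := fun k => continuous_cat (O.c_y k) (O'.c_y k) (O.rest_y k) (rest' k)
    c_N := fun k => continuous_cat (O.c_N k) (O'.c_N k) (O.rest_N k) (O'.rest_N k)
    n_N := fun k u => by
      unfold cat; split_ifs
      · exact O.n_N k _
      · exact O'.n_N k _
    yj := fun u => by
      unfold cat; split_ifs
      · exact O.yj _
      · exact O'.yj _
    sep := fun k l u hkl => by
      unfold cat; split_ifs
      · exact O.sep k l _ hkl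
      · exact O'.sep k l _ hkl
    far := fun k u hk => by
      unfold cat; split_ifs
      · exact O.far k _ hk
      · exact O'.far k _ hk
    p_e := O.p_e
    p_h := O.p_h
    p_norm := O.p_norm
    rest_y := fun k => rest_cat (O.rest_y k) (rest' k)
    rest_N := fun k => rest_cat (O.rest_N k) (O'.rest_N k)
    wall_y := fun k => wall_cat (fun v => ⟪ec (n + 2), v⟫ = 0) (O.wall_y k) (O'.wall_y k)
    wall_N := fun k => wall_cat (fun v => v = ec (n + 2)) (O.wall_N k) (O'.wall_N k) }, hp,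
    fun k l hlk => ?_, fun k => ?_⟩
  · have h1 := Typ.cat (O.p k - O.p l) (adm_of O hlk.ne') (adm_of O' hlk.ne') (rest_sub O k l)
      (by have := rest_sub O' k l; rw [hp', ← hp] at this; exact this)
      (hT k l hlk) (hT' k l hlk)
    have h2 : (cat (fun u => O.y k u - O.y l u) (fun u => O'.y k u - O'.y l u)) =
        fun u => cat (O.y k) (O'.y k) u - cat (O.y l) (O'.y l) u := by
      funext u
      unfold cat
      split_ifs <;> rfl
    rw [h2] at h1
    exact h1
  · exact TypN.cat (O.c_N k) (O'.c_N k) (N_ne O k) (N_ne O' k) (O.wall_N k) (O'.wall_N k)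
      (hN k) (hN' k)

lemma Rl.neg {A : Matrix (Fin m) (Fin m) ℤ} (h : Rl j p A) : Rl j p (-A) := by
  obtain ⟨O, hp, hT, hN⟩ := h
  refine ⟨{
    y := fun k => rev (O.y k)
    N := fun k => rev (O.N k)
    p := O.p
    c_y := fun k => (O.c_y k).comp continuous_rv
    c_N := fun k => (O.c_N k).comp continuous_rv
    n_N := fun k u => O.n_N k _
    yj := fun u => O.yj _
    sep := fun k l u hkl => O.sep k l _ hkl
    far := fun k u hk => O.far k _ hk
    p_e := O.p_e
    p_h := O.p_h
    p_norm := O.p_norm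
    rest_y := fun k u hu => O.rest_y k _ (rest_rv hu)
    rest_N := fun k u hu => O.rest_N k _ (rest_rv hu)
    wall_y := fun k u hu => O.wall_y k _ (norm_rv hu)
    wall_N := fun k u hu => O.wall_N k _ (norm_rv hu) }, hp,
    fun k l hlk => Typ.rev (O.p k - O.p l) (adm_of O hlk.ne') (rest_sub O k l) (hT k l hlk),
    fun k => TypN.rev (O.c_N k) (N_ne O k) (O.wall_N k) (hN k)⟩

/-! ### the elementary loop -/

/-- blow up the complement of the collar of the rest part -/
def blw (t : ℝ) (u : Bc (n + 2)) : Bc (n + 2) := fun i =>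
  if i = 0 then u 0 + t * (u 0 + 1) / 3 else (1 + t) * u i

lemma continuous_blw : Continuous fun p : ℝ × Bc (n + 2) => blw p.1 p.2 := by
  unfold blw
  refine continuous_pi fun i => ?_
  by_cases h : i = 0
  · simp only [h, if_true]; fun_prop
  · simp only [h, if_false]; fun_prop

lemma blw_zero (u : Bc (n + 2)) : blw 0 u = u := by
  funext i
  unfold blw
  by_cases h : i = 0
  · simp [h]
  · simp [h]

lemma coord_blw {t : ℝ} (ht : 0 ≤ t) {u : Bc (n + 2)} {i : Fin (n + 2)} (hi : 1 ≤ |u i|) :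
    1 ≤ |blw t u i| := by
  unfold blw
  by_cases h : i = 0
  · subst h
    rw [if_pos rfl]
    rcases le_abs.1 hi with h1 | h1
    · rw [le_abs]; left
      have : 0 ≤ t * (u 0 + 1) := mul_nonneg ht (by linarith)
      linarith
    · rw [le_abs]; right
      have : 0 ≤ t * (-(u 0) - 1) := mul_nonneg ht (by linarith)
      linarith
  · rw [if_neg h, abs_mul, abs_of_nonneg (by linarith : (0 : ℝ) ≤ 1 + t)]
    nlinarith

lemma norm_blw {t : ℝ} (ht : 0 ≤ t) {u : Bc (n + 2)} (hu : 1 ≤ ‖u‖) : 1 ≤ ‖blw t u‖ := by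
  obtain ⟨i, hi⟩ := exists_coord hu
  exact norm_of_coord (coord_blw ht hi)

lemma rest_blw {u : Bc (n + 2)} (hu : 1 / 2 < rho u) : RestAt (blw 1 u) := by
  rcases lt_max_iff.1 hu with h | h
  · obtain ⟨i, hi⟩ : ∃ i : Fin (n + 1), 1 / 2 < |u i.succ| := by
      by_contra hc
      push Not at hc
      have : ‖fun i : Fin (n + 1) => u i.succ‖ ≤ 1 / 2 :=
        (pi_norm_le_iff_of_nonneg (by norm_num)).2 hc
      linarith
    refine Or.inr ⟨i.succ, Fin.succ_ne_zero i, ?_⟩
    unfold blw
    rw [if_neg (Fin.succ_ne_zero i), abs_mul, abs_of_pos (by norm_num : (0 : ℝ) < 1 + 1)]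
    linarith
  · left
    unfold blw
    rw [if_pos rfl]
    linarith

lemma rho_ge {u : Bc (n + 2)} (h : RestAt u) : 1 ≤ rho u := by
  rcases h with h | ⟨i, hi, h⟩
  · exact h.trans (le_max_right _ _)
  · obtain ⟨k, rfl⟩ := Fin.exists_succ_eq.2 hi
    have h1 := norm_le_pi_norm (fun i : Fin (n + 1) => u i.succ) k
    exact (h.trans h1).trans (le_max_left _ _)

/-- collar coordinate -/
def tau (u : Bc (n + 2)) : ℝ := max 0 (min 1 (2 * rho u - 1))

lemma continuous_tau : Continuous (tau (n := n)) := by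
  unfold tau
  have := continuous_rho (n := n + 1)
  fun_prop

lemma tau_nonneg (u : Bc (n + 2)) : 0 ≤ tau u := le_max_left _ _

lemma tau_le (u : Bc (n + 2)) : tau u ≤ 1 := max_le zero_le_one (min_le_left _ _)

lemma tau_rest {u : Bc (n + 2)} (h : RestAt u) : tau u = 1 := by
  have := rho_ge h
  unfold tau
  rw [min_eq_left (by linarith), max_eq_right zero_le_one]

lemma rest_of_tau {u : Bc (n + 2)} (h : tau u ≠ 0) : RestAt (blw 1 u) := by
  apply rest_blw
  by_contra hc
  push Not at hc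
  apply h
  unfold tau
  exact max_eq_left ((min_le_right _ _).trans (by linarith))

/-! ### `pt`, `al` -/

lemma pt_last {k : ℕ} (u : Bc k) (z : ℝ) : (pt u z : Vc k) (Fin.last k) = z := by
  simp [pt]

lemma pt_castSucc {k : ℕ} (u : Bc k) (z : ℝ) (i : Fin k) : (pt u z : Vc k) i.castSucc = u i := by
  simp [pt]

lemma continuous_pt {k : ℕ} : Continuous fun p : Bc k × ℝ => (pt p.1 p.2 : Vc k) := by
  unfold pt
  refine (PiLp.continuous_toLp 2 _).comp ?_
  refine continuous_pi fun i => ?_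
  refine Fin.lastCases ?_ (fun i => ?_) i
  · simp only [Fin.snoc_last]; exact continuous_snd
  · simp only [Fin.snoc_castSucc]; exact (continuous_apply i).comp continuous_fst

lemma continuous_al {k : ℕ} : Continuous (al (n := k)) := by
  unfold al
  exact continuous_pt.comp (continuous_id.prodMk (by fun_prop))

lemma al_height {k : ℕ} {u : Bc k} (hu : ‖u‖ = 1) : ⟪ec k, al u⟫ = 0 := by
  rw [inner_ec, al, pt_last, hu, sub_self]

lemma half_le_al {k : ℕ} (u : Bc k) : 1 / 2 ≤ ‖al u‖ := by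
  rcases le_or_gt ‖u‖ (1 / 2) with h | h
  · have h1 := EuclideanSpace.norm_eq (al u)
    have h2 : ‖(al u : Vc k) (Fin.last k)‖ ≤ ‖al u‖ := PiLp.norm_apply_le _ _
    rw [al, pt_last, ← al, Real.norm_eq_abs] at h2
    exact le_trans (by linarith [le_abs_self (1 - ‖u‖)]) h2
  · obtain ⟨i, hi⟩ : ∃ i, 1 / 2 ≤ |u i| := by
      by_contra hc
      push Not at hc
      have : ‖u‖ ≤ 1 / 2 := (pi_norm_le_iff_of_nonneg (by norm_num)).2 fun i => (hc i).le
      linarith
    have h2 : ‖(al u : Vc k) i.castSucc‖ ≤ ‖al u‖ := PiLp.norm_apply_le _ _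
    rw [al, pt_castSucc, ← al, Real.norm_eq_abs] at h2
    exact hi.trans h2

lemma al_ne {k : ℕ} (u : Bc k) : al u ≠ 0 := by
  intro h
  have := half_le_al u
  rw [h, norm_zero] at this
  linarith

lemma al_e0 {k : ℕ} : al (e0 : Bc (k + 1)) = hc k := by
  rw [al, norm_e0, sub_self]
  ext i
  refine Fin.lastCases ?_ (fun i => ?_) i
  · rw [pt_last, hc]
    have : (Fin.last (k + 1) : Fin (k + 1 + 1)) ≠ 0 := by
      intro h; have := congrArg Fin.val h; simp at this
    simp [this]
  · rw [pt_castSucc, hc]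
    by_cases hi : i = 0
    · subst hi; simp [e0]
    · have : i.castSucc ≠ (0 : Fin (k + 1 + 1)) := by
        intro h
        apply hi
        exact Fin.castSucc_injective _ (h.trans Fin.castSucc_zero.symm)
      rw [e0_ne hi]
      simp [this]

lemma exists_bound_al (k : ℕ) : ∃ C : ℝ, 1 ≤ C ∧ ∀ u : Bc k, ‖u‖ ≤ 1 → ‖al u‖ ≤ C := by
  obtain ⟨C, hC⟩ := (isCompact_closedBall (0 : Bc k) 1).exists_bound_of_continuousOn
    (continuous_al (k := k)).continuousOn
  refine ⟨max C 1, le_max_right _ _, fun u hu => ?_⟩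
  exact (hC u (mem_closedBall_zero_iff.2 hu)).trans (le_max_left _ _)

/-! ### the elementary loop, continued -/

/-- `al` in rest form and blown up -/
def fb (u : Bc (n + 2)) : Vc (n + 2) := al (cc (blw 1 u))

lemma continuous_fb : Continuous (fb (n := n)) := by
  unfold fb
  have h : Continuous fun u : Bc (n + 2) => ((1 : ℝ), u) := by fun_prop
  exact continuous_al.comp (continuous_cc.comp (continuous_blw.comp h))

lemma fb_of_tau {u : Bc (n + 2)} (h : tau u ≠ 0) : fb u = hc (n + 1) := by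
  unfold fb
  rw [cc_rest (rest_of_tau h), al_e0]

lemma fb_ne (u : Bc (n + 2)) : fb u ≠ 0 := al_ne _

lemma fb_height {u : Bc (n + 2)} (hu : 1 ≤ ‖u‖) : ⟪ec (n + 2), fb u⟫ = 0 :=
  al_height (norm_cc (norm_blw zero_le_one hu))

lemma inner_hc (v : Vc (n + 2)) : ⟪hc (n + 1), v⟫ = v 0 := by
  rw [hc, EuclideanSpace.inner_single_left]; simp

lemma hc_hc : ⟪hc (n + 1), hc (n + 1)⟫ = 1 := by
  rw [inner_hc, hc]; simp

lemma ec_hc : ⟪ec (n + 2), hc (n + 1)⟫ = 0 := by
  rw [inner_ec, hc]
  have : (Fin.last (n + 2) : Fin (n + 2 + 1)) ≠ 0 := by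
    intro h; have := congrArg Fin.val h; simp at this
  simp [this]

lemma hc_ne : hc (n + 1) ≠ 0 := by
  intro h
  have := hc_hc (n := n)
  rw [h, inner_zero_left] at this
  exact zero_ne_one this

/-- the elementary loop with a parameter -/
def els (s σ : ℝ) (q : Vc (n + 2)) (u : Bc (n + 2)) : Vc (n + 2) :=
  σ • fb u + (s * tau u) • (q - σ • hc (n + 1))

/-- the elementary loop: class `al` (`σ = 1`) or `-al` (`σ = -1`), rest value `q`. -/
def ell (σ : ℝ) (q : Vc (n + 2)) (u : Bc (n + 2)) : Vc (n + 2) :=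
  σ • fb u + tau u • (q - σ • hc (n + 1))

lemma els_ne {s σ : ℝ} (hσ : σ ≠ 0) {q : Vc (n + 2)} (hq : q ≠ 0) (hqh : ⟪hc (n + 1), q⟫ = 0)
    (u : Bc (n + 2)) : els s σ q u ≠ 0 := by
  unfold els
  by_cases h : tau u = 0
  · rw [h, mul_zero, zero_smul, add_zero]
    exact smul_ne_zero hσ (fb_ne u)
  · rw [fb_of_tau h]
    intro h0
    have h1 := congrArg (fun v => ⟪hc (n + 1), v⟫) h0
    simp only [inner_add_right, inner_smul_right, inner_sub_right, hc_hc, hqh, inner_zero_right]
      at h1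
    have h2 : σ * (1 - s * tau u) = 0 := by linarith
    have h3 : s * tau u = 1 := by
      rcases mul_eq_zero.1 h2 with h4 | h4
      · exact absurd h4 hσ
      · linarith
    rw [h3, one_smul, add_sub_cancel] at h0
    exact hq h0

lemma els_one (σ : ℝ) (q : Vc (n + 2)) (u : Bc (n + 2)) : els 1 σ q u = ell σ q u := by
  unfold els ell; rw [one_mul]

lemma els_zero (σ : ℝ) (q : Vc (n + 2)) (u : Bc (n + 2)) : els 0 σ q u = σ • fb u := by
  unfold els; rw [zero_mul, zero_smul, add_zero]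

lemma ell_ne {σ : ℝ} (hσ : σ ≠ 0) {q : Vc (n + 2)} (hq : q ≠ 0) (hqh : ⟪hc (n + 1), q⟫ = 0)
    (u : Bc (n + 2)) : ell σ q u ≠ 0 := by
  rw [← els_one]; exact els_ne hσ hq hqh u

lemma continuous_els (σ : ℝ) (q : Vc (n + 2)) :
    Continuous fun p : ℝ × Bc (n + 2) => els p.1 σ q p.2 := by
  unfold els
  have h1 := continuous_fb (n := n)
  have h2 := continuous_tau (n := n)
  fun_prop

lemma continuous_ell (σ : ℝ) (q : Vc (n + 2)) : Continuous (ell σ q) := by
  unfold ell
  have h1 := continuous_fb (n := n)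
  have h2 := continuous_tau (n := n)
  fun_prop

lemma ell_rest (σ : ℝ) (q : Vc (n + 2)) : IsRest q (ell σ q) := by
  intro u hu
  unfold ell
  have h := tau_rest hu
  rw [fb_of_tau (by rw [h]; exact one_ne_zero), h, one_smul, add_sub_cancel]

lemma els_height (s σ : ℝ) {q : Vc (n + 2)} (hq : ⟪ec (n + 2), q⟫ = 0) {u : Bc (n + 2)}
    (hu : 1 ≤ ‖u‖) : ⟪ec (n + 2), els s σ q u⟫ = 0 := by
  unfold els
  rw [inner_add_right, inner_smul_right, inner_smul_right, inner_sub_right, inner_smul_right,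
    fb_height hu, hq, ec_hc]
  ring

lemma ell_height (σ : ℝ) {q : Vc (n + 2)} (hq : ⟪ec (n + 2), q⟫ = 0) {u : Bc (n + 2)}
    (hu : 1 ≤ ‖u‖) : ⟪ec (n + 2), ell σ q u⟫ = 0 := by
  rw [← els_one]; exact els_height 1 σ hq hu

lemma neg_ell (σ : ℝ) (q : Vc (n + 2)) (u : Bc (n + 2)) : -(ell σ q u) = ell (-σ) (-q) u := by
  unfold ell
  module

lemma fh_fb {σ : ℝ} (hσ : σ ≠ 0) :
    FH (ec (n + 2)) (fun u : Bc (n + 2) => σ • al u) (fun u => σ • fb u) := by
  refine ⟨fun p => σ • al (cn p.1 (cl (blw p.1 p.2))), ?_, fun t ht u _ => ?_,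
    fun t ht u hu => ?_, fun u hu => ?_, fun u _ => rfl⟩
  · have h1 : Continuous fun p : ℝ × Bc (n + 2) => (p.1, cl (blw p.1 p.2)) :=
      continuous_fst.prodMk (continuous_cl.comp continuous_blw)
    have h2 := (continuousOn_cn (n := n + 1)).comp (h1.continuousOn
      (s := Icc (0 : ℝ) 1 ×ˢ closedBall (0 : Bc (n + 2)) 1)) fun p hp => ⟨hp.1, mem_univ _⟩
    exact (continuous_al.comp_continuousOn h2).const_smul σ
  · exact smul_ne_zero hσ (al_ne _)
  · show ⟪ec (n + 2), σ • al (cn t (cl (blw t u)))⟫ = 0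
    rw [inner_smul_right, al_height, mul_zero]
    rw [norm_cn ht, norm_cl (norm_blw ht.1 hu.ge)]
  · show σ • al (cn 0 (cl (blw 0 u))) = σ • al u
    rw [cn_zero, blw_zero, cl_of_le hu]

lemma fh_ell {σ : ℝ} (hσ : σ ≠ 0) {q : Vc (n + 2)} (hq : q ≠ 0) (hqh : ⟪hc (n + 1), q⟫ = 0)
    (hqe : ⟪ec (n + 2), q⟫ = 0) :
    FH (ec (n + 2)) (fun u : Bc (n + 2) => σ • fb u) (ell σ q) :=
  ⟨fun p => els p.1 σ q p.2, (continuous_els σ q).continuousOn,
    fun _ _ u _ => els_ne hσ hq hqh u, fun t _ _ hu => els_height t σ hqe hu.ge,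
    fun u _ => els_zero σ q u, fun u _ => els_one σ q u⟩

lemma typ_ell_one {q : Vc (n + 2)} (hq : q ≠ 0) (hqh : ⟪hc (n + 1), q⟫ = 0)
    (hqe : ⟪ec (n + 2), q⟫ = 0) : Typ n (ell 1 q) 1 0 := by
  have h : Typ n (fun u : Bc (n + 2) => (1 : ℝ) • al u) 1 0 := by
    simp only [one_smul]; exact Typ.al
  exact (h.congr (fh_fb one_ne_zero)).congr (fh_ell one_ne_zero hq hqh hqe)

lemma typ_ell_neg {q : Vc (n + 2)} (hq : q ≠ 0) (hqh : ⟪hc (n + 1), q⟫ = 0)
    (hqe : ⟪ec (n + 2), q⟫ = 0) : Typ n (ell (-1) q) 0 1 := by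
  have h : Typ n (fun u : Bc (n + 2) => (-1 : ℝ) • al u) 0 1 := by
    simp only [neg_smul, one_smul]; exact Typ.be
  have h1 : (-1 : ℝ) ≠ 0 := by norm_num
  exact (h.congr (fh_fb h1)).congr (fh_ell h1 hq hqh hqe)

/-- trivial differences -/
lemma typ_triv {g : Bc (n + 2) → Vc (n + 2)} (hg : Continuous g)
    (he : ∀ u, 1 ≤ ‖u‖ → ⟪ec (n + 2), g u⟫ = 0) {w : Vc (n + 2)} (hw : ⟪w, hc (n + 1)⟫ = 0)
    (h : ∀ u, ⟪w, g u⟫ ≠ 0) : Typ n g 0 0 := by
  refine Typ.zero.congr ⟨fun p => (1 - p.1) • hc (n + 1) + p.1 • g p.2, ?_, fun t _ u _ => ?_,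
    fun t _ u hu => ?_, fun u _ => ?_, fun u _ => ?_⟩
  · exact Continuous.continuousOn (by fun_prop)
  · intro h0
    have h1 := congrArg (fun v => ⟪w, v⟫) h0
    simp only [inner_add_right, inner_smul_right, hw, inner_zero_right, mul_zero, zero_add] at h1
    rcases mul_eq_zero.1 h1 with h2 | h2
    · subst h2
      simp only [sub_zero, one_smul, zero_smul, add_zero] at h0
      exact hc_ne h0
    · exact h u h2
  · show ⟪ec (n + 2), (1 - t) • hc (n + 1) + t • g u⟫ = 0
    rw [inner_add_right, inner_smul_right, inner_smul_right, ec_hc, he u hu.ge]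
    ring
  · show (1 - (0 : ℝ)) • hc (n + 1) + (0 : ℝ) • g u = hc (n + 1)
    rw [sub_zero, one_smul, zero_smul, add_zero]
  · show (1 - (1 : ℝ)) • hc (n + 1) + (1 : ℝ) • g u = g u
    rw [sub_self, one_smul, zero_smul, zero_add]

/-! ### good rest points -/

/-- rest points in convex position (with margin `C`) -/
structure Pts (C : ℝ) (j : Fin m) (p : Fin m → Vc (n + 2)) : Prop where
  pe : ∀ k, ⟪ec (n + 2), p k⟫ = 0
  ph : ∀ k, ⟪hc (n + 1), p k⟫ = 0
  sup : ∀ l, ∃ w : Vc (n + 2), ⟪w, hc (n + 1)⟫ = 0 ∧ ∀ k, k ≠ l → ‖w‖ * C < ⟪w, p k - p l⟫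
  pj : p j = 0
  nrm : ∀ k, k ≠ j → 1 ≤ ‖p k‖
  far : ∃ w : Vc (n + 2), ⟪w, hc (n + 1)⟫ = 0 ∧ ‖w‖ ≤ 1 ∧ ∀ k, k ≠ j → C + 1 / 2 ≤ ⟪w, p k⟫

lemma Pts.inj {C : ℝ} (hC : 1 ≤ C) (P : Pts C j p) {k l : Fin m} (h : k ≠ l) : p k - p l ≠ 0 := by
  obtain ⟨w, -, hw⟩ := P.sup l
  intro h0
  have := hw k h
  rw [h0, inner_zero_right] at this
  have h2 : 0 ≤ ‖w‖ * C := mul_nonneg (norm_nonneg _) (by linarith)
  linarith

/-- position of the moving strand -/
def mv (p : Fin m → Vc (n + 2)) (a b : Fin m) (σ : ℝ) (u : Bc (n + 2)) : Vc (n + 2) :=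
  p b + ell σ (p a - p b) u

lemma inner_mv (a b : Fin m) (σ : ℝ) {w : Vc (n + 2)} (hw : ⟪w, hc (n + 1)⟫ = 0)
    (u : Bc (n + 2)) :
    ⟪w, mv p a b σ u⟫ = (1 - tau u) * ⟪w, p b⟫ + tau u * ⟪w, p a⟫ + σ * ⟪w, fb u⟫ := by
  unfold mv ell
  simp only [inner_add_right, inner_smul_right, inner_sub_right, hw]
  ring

lemma inner_fb_le {C : ℝ} (hb : ∀ u : Bc (n + 2), ‖u‖ ≤ 1 → ‖al u‖ ≤ C) {σ : ℝ} (hσ : |σ| = 1)
    (w : Vc (n + 2)) (u : Bc (n + 2)) : -(‖w‖ * C) ≤ σ * ⟪w, fb u⟫ := by
  have h1 : |σ * ⟪w, fb u⟫| ≤ ‖w‖ * C := by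
    rw [abs_mul, hσ, one_mul]
    refine (abs_real_inner_le_norm _ _).trans ?_
    exact mul_le_mul_of_nonneg_left (hb _ (norm_cc_le _)) (norm_nonneg _)
  exact (abs_le.1 h1).1

lemma mv_sup {C : ℝ} (hb : ∀ u : Bc (n + 2), ‖u‖ ≤ 1 → ‖al u‖ ≤ C) {σ : ℝ} (hσ : |σ| = 1)
    {a b l : Fin m} {w : Vc (n + 2)} (hw : ⟪w, hc (n + 1)⟫ = 0)
    (ha : ‖w‖ * C < ⟪w, p a - p l⟫) (hb' : ‖w‖ * C < ⟪w, p b - p l⟫) (u : Bc (n + 2)) :
    0 < ⟪w, mv p a b σ u - p l⟫ := by
  rw [inner_sub_right, inner_mv a b σ hw]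
  rw [inner_sub_right] at ha hb'
  have h1 := inner_fb_le hb hσ w u
  have h2 := tau_nonneg u
  have h3 := tau_le u
  have h4 : 0 < (1 - tau u) * (⟪w, p b⟫ - ⟪w, p l⟫ - ‖w‖ * C) +
      tau u * (⟪w, p a⟫ - ⟪w, p l⟫ - ‖w‖ * C) := by
    rcases h2.eq_or_lt with h5 | h5
    · rw [← h5]; linarith
    · have h6 := mul_pos h5 (sub_pos.2 ha)
      have h7 := mul_nonneg (sub_nonneg.2 h3) (sub_pos.2 hb').le
      linarith
  linarith

lemma mv_far {C : ℝ} (hC : 1 ≤ C) (hb : ∀ u : Bc (n + 2), ‖u‖ ≤ 1 → ‖al u‖ ≤ C) {σ : ℝ}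
    (hσ : |σ| = 1) (P : Pts C j p) {a b : Fin m} (haj : a ≠ j) (u : Bc (n + 2)) :
    1 / 2 ≤ ‖mv p a b σ u‖ := by
  obtain ⟨w, hw, hw1, hwk⟩ := P.far
  have hle : ∀ v : Vc (n + 2), ⟪w, v⟫ ≤ ‖v‖ := fun v =>
    (real_inner_le_norm _ _).trans (by
      have := mul_le_mul_of_nonneg_right hw1 (norm_nonneg v)
      linarith)
  have h1 := inner_fb_le hb hσ w u
  have h2 := tau_nonneg u
  have h3 := tau_le u
  have h4 := hwk a haj
  have h5 : ‖w‖ * C ≤ C := by
    have := mul_le_mul_of_nonneg_right hw1 (by linarith : (0 : ℝ) ≤ C)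
    linarith
  by_cases hbj : b = j
  · by_cases ht : tau u = 0
    · unfold mv ell
      rw [hbj, P.pj, ht, zero_smul, add_zero, zero_add, norm_smul, Real.norm_eq_abs, hσ, one_mul]
      exact half_le_al _
    · rcases le_or_gt (tau u) (1 / 2) with h | h
      · have h6 : ⟪hc (n + 1), mv p a b σ u⟫ = σ * (1 - tau u) := by
          unfold mv ell
          rw [fb_of_tau ht, hbj, P.pj]
          simp only [inner_add_right, inner_smul_right, inner_sub_right, hc_hc, P.ph,
            inner_zero_right]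
          ring
        have h7 : |⟪hc (n + 1), mv p a b σ u⟫| ≤ ‖mv p a b σ u‖ := by
          have h8 : ‖hc (n + 1)‖ = 1 := by
            have := real_inner_self_eq_norm_sq (hc (n + 1))
            rw [hc_hc] at this
            nlinarith [norm_nonneg (hc (n + 1))]
          have := abs_real_inner_le_norm (hc (n + 1)) (mv p a b σ u)
          rwa [h8, one_mul] at this
        rw [h6, abs_mul, hσ, one_mul, abs_of_nonneg (by linarith)] at h7
        linarith
      · have h6 := hle (mv p a b σ u)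
        rw [inner_mv a b σ hw, fb_of_tau ht, hw, hbj, P.pj, inner_zero_right] at h6
        rw [hbj]
        nlinarith
  · have h6 := hle (mv p a b σ u)
    rw [inner_mv a b σ hw] at h6
    have h7 := hwk b hbj
    nlinarith

/-! ### the elementary families -/

lemma mv_rest (a b : Fin m) (σ : ℝ) : IsRest (p a) (mv p a b σ) := by
  intro u hu
  unfold mv
  rw [ell_rest σ _ u hu, add_sub_cancel]

lemma mv_height {C : ℝ} (P : Pts C j p) (a b : Fin m) (σ : ℝ) {u : Bc (n + 2)} (hu : 1 ≤ ‖u‖) :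
    ⟪ec (n + 2), mv p a b σ u⟫ = 0 := by
  unfold mv
  rw [inner_add_right, P.pe, ell_height σ (by rw [inner_sub_right, P.pe, P.pe, sub_zero]) hu,
    add_zero]

lemma continuous_mv (a b : Fin m) (σ : ℝ) : Continuous (mv p a b σ) :=
  continuous_const.add (continuous_ell σ _)

/-- the strands of the elementary family -/
def fy (p : Fin m → Vc (n + 2)) (a b : Fin m) (σ : ℝ) (k : Fin m) (u : Bc (n + 2)) : Vc (n + 2) :=
  if k = a then mv p a b σ u else p k

lemma norm_ec : ‖ec (n + 2)‖ = 1 := by simp [ec]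

/-- difference of two strands is nonzero, with a witness if it is trivial -/
lemma fy_sup {C : ℝ} (hC : 1 ≤ C) (hb : ∀ u : Bc (n + 2), ‖u‖ ≤ 1 → ‖al u‖ ≤ C) {σ : ℝ}
    (hσ : |σ| = 1) (P : Pts C j p) {a b k l : Fin m} (hkl : k ≠ l)
    (h1 : ¬ (k = a ∧ l = b)) (h2 : ¬ (k = b ∧ l = a)) :
    ∃ w : Vc (n + 2), ⟪w, hc (n + 1)⟫ = 0 ∧ ∀ u, ⟪w, fy p a b σ k u - fy p a b σ l u⟫ ≠ 0 := by
  have hpos : ∀ w : Vc (n + 2), 0 ≤ ‖w‖ * C := fun w =>
    mul_nonneg (norm_nonneg _) (by linarith)
  by_cases hk : k = a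
  · subst hk
    have hlb : b ≠ l := fun h => h1 ⟨rfl, h.symm⟩
    obtain ⟨w, hw, hs⟩ := P.sup l
    refine ⟨w, hw, fun u => ?_⟩
    unfold fy
    rw [if_pos rfl, if_neg hkl.symm]
    exact (mv_sup hb hσ hw (hs k hkl) (hs b hlb) u).ne'
  · by_cases hl : l = a
    · subst hl
      have hkb : b ≠ k := fun h => h2 ⟨h.symm, rfl⟩
      obtain ⟨w, hw, hs⟩ := P.sup k
      refine ⟨w, hw, fun u => ?_⟩
      unfold fy
      rw [if_pos rfl, if_neg hk]
      have := mv_sup hb hσ hw (hs l hkl.symm) (hs b hkb) u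
      rw [← neg_sub, inner_neg_right]
      exact (neg_neg_of_pos this).ne
    · obtain ⟨w, hw, hs⟩ := P.sup l
      refine ⟨w, hw, fun u => ?_⟩
      unfold fy
      rw [if_neg hk, if_neg hl]
      exact ((hpos w).trans_lt (hs k hkl)).ne'

lemma ph_sub {C : ℝ} (P : Pts C j p) (a b : Fin m) : ⟪hc (n + 1), p a - p b⟫ = 0 := by
  rw [inner_sub_right, P.ph, P.ph, sub_zero]

lemma pe_sub {C : ℝ} (P : Pts C j p) (a b : Fin m) : ⟪ec (n + 2), p a - p b⟫ = 0 := by
  rw [inner_sub_right, P.pe, P.pe, sub_zero]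

lemma fy_ab (a b : Fin m) (hab : a ≠ b) (σ : ℝ) (u : Bc (n + 2)) :
    fy p a b σ a u - fy p a b σ b u = ell σ (p a - p b) u := by
  unfold fy mv
  rw [if_pos rfl, if_neg hab.symm, add_sub_cancel_left]

lemma fy_ba (a b : Fin m) (hab : a ≠ b) (σ : ℝ) (u : Bc (n + 2)) :
    fy p a b σ b u - fy p a b σ a u = ell (-σ) (p b - p a) u := by
  rw [← neg_sub, fy_ab a b hab, neg_ell, neg_sub]

/-- the elementary family. -/
def fam {C : ℝ} (hC : 1 ≤ C) (hb : ∀ u : Bc (n + 2), ‖u‖ ≤ 1 → ‖al u‖ ≤ C) (P : Pts C j p)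
    (a b : Fin m) (hab : a ≠ b) (haj : a ≠ j) {σ : ℝ} (hσ : |σ| = 1) : OthD n m j where
  y := fy p a b σ
  N := fun _ _ => ec (n + 2)
  p := p
  c_y k := by
    unfold fy
    split_ifs
    · exact continuous_mv a b σ
    · exact continuous_const
  c_N _ := continuous_const
  n_N _ _ := norm_ec
  yj u := by
    unfold fy
    rw [if_neg haj.symm, P.pj]
  sep k l u hkl := by
    have hσ0 : σ ≠ 0 := by
      intro h; rw [h, abs_zero] at hσ; exact zero_ne_one hσ
    by_cases h1 : k = a ∧ l = b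
    · obtain ⟨rfl, rfl⟩ := h1
      exact sub_ne_zero.1 (by
        rw [fy_ab _ _ hab]; exact ell_ne hσ0 (P.inj hC hab) (ph_sub P _ _) u)
    · by_cases h2 : k = b ∧ l = a
      · obtain ⟨rfl, rfl⟩ := h2
        exact sub_ne_zero.1 (by
          rw [fy_ba _ _ hab]
          exact ell_ne (neg_ne_zero.2 hσ0) (P.inj hC hab.symm) (ph_sub P _ _) u)
      · obtain ⟨w, -, hw⟩ := fy_sup hC hb hσ P hkl h1 h2
        intro h
        apply hw u
        rw [h, sub_self, inner_zero_right]
  far k u hk := by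
    unfold fy
    split_ifs with h
    · exact mv_far hC hb hσ P haj u
    · linarith [P.nrm k hk]
  p_e := P.pe
  p_h := P.ph
  p_norm := P.nrm
  rest_y k := by
    intro u hu
    unfold fy
    split_ifs with h
    · rw [h]; exact mv_rest a b σ u hu
    · rfl
  rest_N _ _ _ := rfl
  wall_y k u hu := by
    unfold fy
    split_ifs
    · exact mv_height P a b σ hu
    · exact P.pe k
  wall_N _ _ _ := rfl

lemma rl_pos {C : ℝ} (hC : 1 ≤ C) (hb : ∀ u : Bc (n + 2), ‖u‖ ≤ 1 → ‖al u‖ ≤ C) (P : Pts C j p)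
    {a b : Fin m} (hab : a ≠ b) (haj : a ≠ j) : Rl j p (Matrix.single a b 1) := by
  have hσ : |(1 : ℝ)| = 1 := abs_one
  refine ⟨fam hC hb P a b hab haj hσ, rfl, fun k l hlk => ?_, fun k => ?_⟩
  · show Typ n (fun u => fy p a b 1 k u - fy p a b 1 l u) _ _
    by_cases h1 : k = a ∧ l = b
    · obtain ⟨rfl, rfl⟩ := h1
      rw [Matrix.single_apply_same, Matrix.single_apply_of_row_ne hab.symm.symm]
      simp only [fy_ab _ _ hab]
      exact typ_ell_one (P.inj hC hab) (ph_sub P _ _) (pe_sub P _ _)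
    · by_cases h2 : k = b ∧ l = a
      · obtain ⟨rfl, rfl⟩ := h2
        rw [Matrix.single_apply_same, Matrix.single_apply_of_row_ne hab]
        simp only [fy_ba _ _ hab]
        exact typ_ell_neg (P.inj hC hab.symm) (ph_sub P _ _) (pe_sub P _ _)
      · rw [Matrix.single_apply_of_ne _ _ _ _ _ (by rintro ⟨rfl, rfl⟩; exact h1 ⟨rfl, rfl⟩),
          Matrix.single_apply_of_ne _ _ _ _ _ (by rintro ⟨rfl, rfl⟩; exact h2 ⟨rfl, rfl⟩)]
        obtain ⟨w, hw, hne⟩ := fy_sup hC hb hσ P hlk.ne' h1 h2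
        have A := adm_of (fam hC hb P a b hab haj hσ) hlk.ne'
        exact typ_triv A.cont A.hor hw hne
  · rw [Matrix.single_apply_of_ne _ _ _ _ _ (by rintro ⟨rfl, h⟩; exact hab h.symm)]
    exact TypN.zero

lemma rl_neg' {C : ℝ} (hC : 1 ≤ C) (hb : ∀ u : Bc (n + 2), ‖u‖ ≤ 1 → ‖al u‖ ≤ C) (P : Pts C j p)
    {a b : Fin m} (hab : a ≠ b) (haj : a ≠ j) : Rl j p (Matrix.single b a 1) := by
  have hσ : |(-1 : ℝ)| = 1 := by norm_num
  refine ⟨fam hC hb P a b hab haj hσ, rfl, fun k l hlk => ?_, fun k => ?_⟩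
  · show Typ n (fun u => fy p a b (-1) k u - fy p a b (-1) l u) _ _
    by_cases h1 : k = a ∧ l = b
    · obtain ⟨rfl, rfl⟩ := h1
      rw [Matrix.single_apply_same, Matrix.single_apply_of_row_ne hab.symm]
      simp only [fy_ab _ _ hab]
      exact typ_ell_neg (P.inj hC hab) (ph_sub P _ _) (pe_sub P _ _)
    · by_cases h2 : k = b ∧ l = a
      · obtain ⟨rfl, rfl⟩ := h2
        rw [Matrix.single_apply_same, Matrix.single_apply_of_row_ne hab.symm.symm.symm]
        simp only [fy_ba _ _ hab, neg_neg]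
        exact typ_ell_one (P.inj hC hab.symm) (ph_sub P _ _) (pe_sub P _ _)
      · rw [Matrix.single_apply_of_ne _ _ _ _ _ (by rintro ⟨rfl, rfl⟩; exact h2 ⟨rfl, rfl⟩),
          Matrix.single_apply_of_ne _ _ _ _ _ (by rintro ⟨rfl, rfl⟩; exact h1 ⟨rfl, rfl⟩)]
        obtain ⟨w, hw, hne⟩ := fy_sup hC hb hσ P hlk.ne' h1 h2
        have A := adm_of (fam hC hb P a b hab haj hσ) hlk.ne'
        exact typ_triv A.cont A.hor hw hne
  · rw [Matrix.single_apply_of_ne _ _ _ _ _ (by rintro ⟨rfl, h⟩; exact hab h)]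
    exact TypN.zero

/-! ### the diagonal -/

lemma pt_zero_one {k : ℕ} : (pt 0 1 : Vc k) = ec k := by
  ext i
  refine Fin.lastCases ?_ (fun i => ?_) i
  · rw [pt_last, ec]; simp
  · rw [pt_castSucc, ec]
    have : i.castSucc ≠ Fin.last k := (Fin.castSucc_lt_last i).ne
    simp [this]

lemma ga_one {u : Bc (n + 2)} (hu : ‖u‖ = 1) : ga u = ec (n + 2) := by
  rw [ga, hu, sub_self, mul_zero, neg_zero, zero_smul, ← pt_zero_one]
  congr 1
  norm_num

lemma ga_ne (u : Bc (n + 2)) : ga u ≠ 0 := by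
  intro h
  have h1 : (ga u : Vc (n + 2)) (Fin.last _) = 0 := by rw [h]; rfl
  rw [ga, pt_last] at h1
  have h2 : u = 0 := by
    funext i
    have h3 : (ga u : Vc (n + 2)) i.castSucc = 0 := by rw [h]; rfl
    rw [ga, pt_castSucc, Pi.smul_apply, smul_eq_mul] at h3
    rcases mul_eq_zero.1 h3 with h4 | h4
    · exfalso; linarith
    · exact h4
  rw [h2, norm_zero] at h1
  norm_num at h1

lemma continuous_ga {k : ℕ} : Continuous (ga (n := k)) := by
  unfold ga
  have h : Continuous fun u : Bc k => ((-(4 * (1 - ‖u‖))) • u, 2 * ‖u‖ - 1) := by fun_prop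
  exact continuous_pt.comp h

/-- unit normal of class `γ` -/
def gn (u : Bc (n + 2)) : Vc (n + 2) := ‖ga (cl u)‖⁻¹ • ga (cl u)

lemma continuous_gn : Continuous (gn (n := n)) := by
  have h : Continuous fun u : Bc (n + 2) => ga (cl u) := continuous_ga.comp continuous_cl
  exact (h.norm.inv₀ fun u => (norm_pos_iff.2 (ga_ne _)).ne').smul h

lemma norm_gn (u : Bc (n + 2)) : ‖gn u‖ = 1 := by
  rw [gn, norm_smul, norm_inv, norm_norm, inv_mul_cancel₀ (norm_pos_iff.2 (ga_ne _)).ne']

lemma gn_wall {u : Bc (n + 2)} (hu : 1 ≤ ‖u‖) : gn u = ec (n + 2) := by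
  rw [gn, ga_one (norm_cl hu), norm_ec, inv_one, one_smul]

lemma typN_gn : TypN n (gn (n := n)) 1 := by
  refine TypN.ga.congr ⟨fun p => ((1 - p.1) + p.1 * ‖ga (cl p.2)‖⁻¹) • ga (cl p.2), ?_,
    fun t ht u _ => ?_, fun t _ u hu => ?_, fun u hu => ?_, fun u _ => ?_⟩
  · have h : Continuous fun p : ℝ × Bc (n + 2) => ga (cl p.2) :=
      continuous_ga.comp (continuous_cl.comp continuous_snd)
    have h1 : Continuous fun p : ℝ × Bc (n + 2) => ‖ga (cl p.2)‖⁻¹ :=
      h.norm.inv₀ fun p => (norm_pos_iff.2 (ga_ne _)).ne'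
    exact Continuous.continuousOn (by fun_prop)
  · refine smul_ne_zero (ne_of_gt ?_) (ga_ne _)
    have h1 : 0 < ‖ga (cl u)‖⁻¹ := inv_pos.2 (norm_pos_iff.2 (ga_ne _))
    rcases ht.2.eq_or_lt with h | h
    · rw [h]; linarith
    · have := mul_nonneg ht.1 h1.le
      linarith
  · show ((1 - t) + t * ‖ga (cl u)‖⁻¹) • ga (cl u) = ec (n + 2)
    rw [ga_one (norm_cl hu.ge), norm_ec, inv_one]
    rw [mul_one, sub_add_cancel, one_smul]
  · show ((1 - (0 : ℝ)) + 0 * ‖ga (cl u)‖⁻¹) • ga (cl u) = ga u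
    rw [zero_mul, sub_zero, add_zero, one_smul, cl_of_le hu]
  · show ((1 - (1 : ℝ)) + 1 * ‖ga (cl u)‖⁻¹) • ga (cl u) = gn u
    rw [sub_self, zero_add, one_mul, gn]

lemma const_sup {C : ℝ} (hC : 1 ≤ C) (P : Pts C j p) {k l : Fin m} (h : k ≠ l) :
    ∃ w : Vc (n + 2), ⟪w, hc (n + 1)⟫ = 0 ∧ ⟪w, p k - p l⟫ ≠ 0 := by
  obtain ⟨w, hw, hs⟩ := P.sup l
  have : 0 ≤ ‖w‖ * C := mul_nonneg (norm_nonneg _) (by linarith)
  exact ⟨w, hw, (this.trans_lt (hs k h)).ne'⟩

lemma rl_diag {C : ℝ} (hC : 1 ≤ C) (P : Pts C j p) (a : Fin m) :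
    Rl j p (Matrix.single a a 1) := by
  refine ⟨{
    y := fun k _ => p k
    N := fun k u => if k = a then gn u else ec (n + 2)
    p := p
    c_y := fun k => continuous_const
    c_N := fun k => by split_ifs; exacts [continuous_gn, continuous_const]
    n_N := fun k u => by split_ifs; exacts [norm_gn u, norm_ec]
    yj := fun u => P.pj
    sep := fun k l u hkl h => P.inj hC hkl (sub_eq_zero.2 h)
    far := fun k u hk => by linarith [P.nrm k hk]
    p_e := P.pe
    p_h := P.ph
    p_norm := P.nrm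
    rest_y := fun k u _ => rfl
    rest_N := fun k u hu => by
      show (if k = a then gn u else ec (n + 2)) = _
      split_ifs; exacts [gn_wall (rest_norm hu), rfl]
    wall_y := fun k u _ => P.pe k
    wall_N := fun k u hu => by split_ifs; exacts [gn_wall hu, rfl] }, rfl,
    fun k l hlk => ?_, fun k => ?_⟩
  · rw [Matrix.single_apply_of_ne _ _ _ _ _ (by rintro ⟨h, h'⟩; exact hlk.ne (h'.symm.trans h)),
      Matrix.single_apply_of_ne _ _ _ _ _ (by rintro ⟨h, h'⟩; exact hlk.ne (h.symm.trans h'))]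
    obtain ⟨w, hw, hne⟩ := const_sup hC P hlk.ne'
    exact typ_triv (g := fun _ => p k - p l) continuous_const (fun u _ => pe_sub P k l) hw
      fun _ => hne
  · by_cases h : k = a
    · subst h
      simp only [if_true, Matrix.single_apply_same]
      exact typN_gn
    · simp only [if_neg h]
      rw [Matrix.single_apply_of_ne _ _ _ _ _ (by rintro ⟨h', -⟩; exact h h'.symm)]
      exact TypN.zero

/-! ### the parabola -/

lemma sq_ge_one {k l : Fin m} (h : k ≠ l) : (1 : ℝ) ≤ (((k : ℕ) : ℝ) - ((l : ℕ) : ℝ)) ^ 2 := by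
  rcases lt_or_gt_of_ne (fun h' => h (Fin.ext h') : (k : ℕ) ≠ (l : ℕ)) with h1 | h1
  · have : ((k : ℕ) : ℝ) + 1 ≤ ((l : ℕ) : ℝ) := by exact_mod_cast h1
    nlinarith
  · have : ((l : ℕ) : ℝ) + 1 ≤ ((k : ℕ) : ℝ) := by exact_mod_cast h1
    nlinarith

lemma exists_pts (hn : 1 ≤ n) {C : ℝ} (hC : 1 ≤ C) (j : Fin m) :
    ∃ p : Fin m → Vc (n + 2), Pts C j p := by
  set E1 : Vc (n + 2) := EuclideanSpace.single 1 1 with hE1
  set E2 : Vc (n + 2) := EuclideanSpace.single 2 1 with hE2
  have i1 : ∀ v : Vc (n + 2), ⟪E1, v⟫ = v 1 := fun v => by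
    rw [hE1, EuclideanSpace.inner_single_left]; simp
  have i2 : ∀ v : Vc (n + 2), ⟪E2, v⟫ = v 2 := fun v => by
    rw [hE2, EuclideanSpace.inner_single_left]; simp
  have v2 : ((2 : Fin (n + 2 + 1)) : ℕ) = 2 := Fin.val_two
  have v1 : ((1 : Fin (n + 2 + 1)) : ℕ) = 1 := by simp
  have v0 : ((0 : Fin (n + 2 + 1)) : ℕ) = 0 := rfl
  have vl : ((Fin.last (n + 2) : Fin (n + 2 + 1)) : ℕ) = n + 2 := rfl
  have h10 : (1 : Fin (n + 2 + 1)) ≠ 0 := by
    intro h; have := congrArg Fin.val h; omega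
  have h20 : (2 : Fin (n + 2 + 1)) ≠ 0 := by
    intro h; have := congrArg Fin.val h; omega
  have h21 : (2 : Fin (n + 2 + 1)) ≠ 1 := by
    intro h; have := congrArg Fin.val h; omega
  have h1l : (1 : Fin (n + 2 + 1)) ≠ Fin.last _ := by
    intro h; have := congrArg Fin.val h; omega
  have h2l : (2 : Fin (n + 2 + 1)) ≠ Fin.last _ := by
    intro h; have := congrArg Fin.val h; omega
  have e11 : ⟪E1, E1⟫ = 1 := by rw [i1, hE1]; simp
  have e12 : ⟪E1, E2⟫ = 0 := by rw [i1, hE2]; simp [h21.symm]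
  have e21 : ⟪E2, E1⟫ = 0 := by rw [i2, hE1]; simp [h21]
  have e22 : ⟪E2, E2⟫ = 1 := by rw [i2, hE2]; simp
  have c1 : ⟪ec (n + 2), E1⟫ = 0 := by rw [inner_ec, hE1]; simp [h1l.symm]
  have c2 : ⟪ec (n + 2), E2⟫ = 0 := by rw [inner_ec, hE2]; simp [h2l.symm]
  have d1 : ⟪hc (n + 1), E1⟫ = 0 := by rw [inner_hc, hE1]; simp [h10.symm]
  have d2 : ⟪hc (n + 1), E2⟫ = 0 := by rw [inner_hc, hE2]; simp [h20.symm]
  have n1 : ‖E1‖ = 1 := by simp [hE1]
  have n2 : ‖E2‖ = 1 := by simp [hE2]
  set x : Fin m → ℝ := fun k => ((k : ℕ) : ℝ) - ((j : ℕ) : ℝ) with hx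
  have hxm : ∀ k, |x k| ≤ m := fun k => by
    have a1 : ((k : ℕ) : ℝ) ≤ m := by exact_mod_cast k.2.le
    have a2 : ((j : ℕ) : ℝ) ≤ m := by exact_mod_cast j.2.le
    have a3 : (0 : ℝ) ≤ ((k : ℕ) : ℝ) := Nat.cast_nonneg _
    have a4 : (0 : ℝ) ≤ ((j : ℕ) : ℝ) := Nat.cast_nonneg _
    rw [hx, abs_le]
    constructor <;> simp only <;> linarith
  set T : ℝ := (2 * m + 1) * C + C + 1 with hT
  have hm0 : (0 : ℝ) ≤ m := Nat.cast_nonneg _
  have hT0 : 0 < T := by positivity
  have hTC : C + 1 ≤ T := by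
    have : 0 ≤ (2 * (m : ℝ) + 1) * C := by positivity
    linarith
  set p : Fin m → Vc (n + 2) := fun k => T • (x k • E1 + (x k) ^ 2 • E2) with hp
  have q2 : ∀ k, ⟪E2, p k⟫ = T * (x k) ^ 2 := fun k => by
    rw [hp]; simp only [inner_smul_right, inner_add_right, e21, e22]; ring
  have q1 : ∀ k, ⟪E1, p k⟫ = T * x k := fun k => by
    rw [hp]; simp only [inner_smul_right, inner_add_right, e11, e12]; ring
  have hxj : ∀ k, k ≠ j → 1 ≤ (x k) ^ 2 := fun k hk => sq_ge_one hk
  refine ⟨p, ⟨fun k => ?_, fun k => ?_, fun l => ?_, ?_, fun k hk => ?_, ?_⟩⟩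
  · rw [hp]; simp only [inner_smul_right, inner_add_right, c1, c2]; ring
  · rw [hp]; simp only [inner_smul_right, inner_add_right, d1, d2]; ring
  · refine ⟨(-(2 * x l)) • E1 + E2, ?_, fun k hk => ?_⟩
    · rw [real_inner_comm]
      simp only [inner_smul_right, inner_add_right, d1, d2]; ring
    · have a1 : ‖(-(2 * x l)) • E1 + E2‖ ≤ 2 * m + 1 := by
        refine (norm_add_le _ _).trans ?_
        rw [norm_smul, n1, n2, mul_one, norm_neg, norm_mul, Real.norm_two, Real.norm_eq_abs]
        linarith [hxm l]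
      have a2 : ⟪(-(2 * x l)) • E1 + E2, p k - p l⟫ = T * (x k - x l) ^ 2 := by
        rw [inner_add_left, inner_smul_left, inner_sub_right, inner_sub_right, q1, q1, q2, q2]
        simp only [conj_trivial]
        ring
      have a3 : 1 ≤ (x k - x l) ^ 2 := by
        have := sq_ge_one hk
        rw [hx]; simp only
        convert this using 2
        ring
      have a4 : ‖(-(2 * x l)) • E1 + E2‖ * C ≤ (2 * m + 1) * C :=
        mul_le_mul_of_nonneg_right a1 (by linarith)
      rw [a2]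
      nlinarith
  · rw [hp, hx]; simp
  · have a1 := real_inner_le_norm E2 (p k)
    rw [n2, one_mul, q2] at a1
    have a2 := hxj k hk
    nlinarith
  · refine ⟨E2, ?_, n2.le, fun k hk => ?_⟩
    · rw [real_inner_comm]; exact d2
    · rw [q2]
      have a2 := hxj k hk
      nlinarith

/-- **T2-1 REAL.** -/
theorem realProp (hn : 1 ≤ n) : RealProp n := by
  intro m j
  obtain ⟨C, hC, hb⟩ := exists_bound_al (n + 2)
  obtain ⟨p, P⟩ := exists_pts hn hC j
  refine ⟨p, fun A => ?_⟩
  have h1 : ∀ a b : Fin m, Rl j p (Matrix.single a b 1) := by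
    intro a b
    by_cases hab : a = b
    · subst hab
      exact rl_diag hC P a
    · by_cases haj : a = j
      · exact rl_neg' hC hb P (a := b) (b := a) (Ne.symm hab) (fun h => hab (haj.trans h.symm))
      · exact rl_pos hC hb P hab haj
  have h0 : Rl j p (0 : Matrix (Fin m) (Fin m) ℤ) := by
    have := (h1 j j).add (h1 j j).neg
    rwa [add_neg_cancel] at this
  let K : AddSubgroup (Matrix (Fin m) (Fin m) ℤ) :=
    { carrier := {A | Rl j p A}
      add_mem' := fun h h' => h.add h'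
      zero_mem' := h0
      neg_mem' := fun h => h.neg }
  have h2 : A ∈ K := by
    rw [Matrix.matrix_eq_sum_single A]
    refine K.sum_mem fun a _ => K.sum_mem fun b _ => ?_
    have h3 : Matrix.single a b (A a b) = (A a b) • Matrix.single a b (1 : ℤ) := by
      rw [Matrix.smul_single, smul_eq_mul, mul_one]
    rw [h3]
    exact K.zsmul_mem (h1 a b) _
  exact h2

end

end Crest.Agent.R267.Real_855
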