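import Crest.Agent.R267.LemDA_527
import Crest.Agent.R267.NF_808
import Crest.Agent.R267.Rad_118
import Mathlib
import Crest.Agent.R267.LM_808

-- ▼ part R267/LemD_527
section

/-!
# Row 267, TB-B7c-D (helper527): LEMMA D

If `ν` has class `γ^d` and `δ` is a nonvanishing section of `ν⊥` over the cube, then `δ` has class
`α^d β^d`.
-/

set_option autoImplicit false
set_option linter.unusedSectionVars false

namespace Crest.Agent.R267.LemD_527

open Set Metric
open scoped RealInnerProductSpace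
open Crest.Agent.R267.GS_808 Crest.Agent.R267.LemDA_527

/-! ### the cube -/

/-- coordinatewise retraction to the cube. -/
def clamp {N : ℕ} (u : Bc N) : Bc N := fun i => max (-1) (min 1 (u i))

lemma continuous_clamp {N : ℕ} : Continuous (clamp (N := N)) :=
  continuous_pi fun i => continuous_const.max (continuous_const.min (continuous_apply i))

lemma norm_clamp {N : ℕ} (u : Bc N) : ‖clamp u‖ ≤ 1 := by
  rw [pi_norm_le_iff_of_nonneg zero_le_one]
  intro i
  rw [Real.norm_eq_abs, abs_le]
  exact ⟨le_max_left _ _, max_le (by norm_num) (min_le_left _ _)⟩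

lemma abs_le_of_norm {N : ℕ} {u : Bc N} (h : ‖u‖ ≤ 1) (i : Fin N) : |u i| ≤ 1 :=
  (norm_le_pi_norm u i).trans h

lemma clamp_eq {N : ℕ} {u : Bc N} (h : ‖u‖ ≤ 1) : clamp u = u := by
  funext i
  have := abs_le.1 (abs_le_of_norm h i)
  show max (-1) (min 1 (u i)) = u i
  rw [min_eq_right this.2, max_eq_right this.1]

lemma exists_abs_of_norm {N : ℕ} {u : Bc N} (h : 1 ≤ ‖u‖) : ∃ i, 1 ≤ |u i| := by
  by_contra hn
  push Not at hn
  exact absurd ((pi_norm_lt_iff zero_lt_one).2 hn) (not_lt.2 h)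

lemma one_le_norm {N : ℕ} {u : Bc N} {i : Fin N} (h : 1 ≤ |u i|) : 1 ≤ ‖u‖ :=
  h.trans (norm_le_pi_norm u i)

lemma abs_clamp_of {N : ℕ} {u : Bc N} {i : Fin N} (h : 1 ≤ |u i|) : |clamp u i| = 1 := by
  show |max (-1) (min 1 (u i))| = 1
  rcases le_abs.1 h with h1 | h1
  · rw [min_eq_left h1, max_eq_right (by norm_num), abs_one]
  · rw [min_eq_right (by linarith), max_eq_left (by linarith), abs_neg, abs_one]

lemma norm_clamp_of {N : ℕ} {u : Bc N} (h : 1 ≤ ‖u‖) : ‖clamp u‖ = 1 := by
  obtain ⟨i, hi⟩ := exists_abs_of_norm h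
  exact le_antisymm (norm_clamp u) (one_le_norm (i := i) (abs_clamp_of hi).ge)

lemma rest_clamp {N : ℕ} {u : Bc (N + 1)} (h : RestAt u) : RestAt (clamp u) := by
  rcases h with h | ⟨i, hi, h⟩
  · left
    show 1 ≤ max (-1) (min 1 (u 0))
    rw [min_eq_left h]
    exact le_max_right _ _
  · exact Or.inr ⟨i, hi, (abs_clamp_of h).ge⟩

lemma rest_norm {N : ℕ} {u : Bc (N + 1)} (h : RestAt u) : 1 ≤ ‖u‖ := by
  rcases h with h | ⟨i, -, h⟩
  · exact one_le_norm (i := 0) (h.trans (le_abs_self _))
  · exact one_le_norm h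

/-- the norm of an update. -/
lemma norm_update_le {N : ℕ} {u : Bc N} (hu : ‖u‖ ≤ 1) (i : Fin N) {x : ℝ} (hx : |x| ≤ 1) :
    ‖Function.update u i x‖ ≤ 1 := by
  rw [pi_norm_le_iff_of_nonneg zero_le_one]
  intro j
  by_cases h : j = i
  · rw [h, Function.update_self]
    exact hx
  · rw [Function.update_of_ne h]
    exact abs_le_of_norm hu j


lemma norm_update_neg {N : ℕ} (u : Bc N) (i : Fin N) : ‖Function.update u i (-(u i))‖ = ‖u‖ := by
  have h : ∀ v : Bc N, ‖Function.update v i (-(v i))‖ ≤ ‖v‖ := by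
    intro v
    rw [pi_norm_le_iff_of_nonneg (norm_nonneg _)]
    intro j
    by_cases h : j = i
    · rw [h, Function.update_self, norm_neg]
      exact norm_le_pi_norm v i
    · rw [Function.update_of_ne h]
      exact norm_le_pi_norm v j
  refine le_antisymm (h u) ?_
  have := h (Function.update u i (-(u i)))
  simpa using this

/-! ### the fibre -/

section fibre
variable {n : ℕ}

@[simp] lemma pt_castSucc (u : Bc n) (z : ℝ) (i : Fin n) : pt u z (Fin.castSucc i) = u i := by
  simp [pt]

@[simp] lemma pt_last (u : Bc n) (z : ℝ) : pt u z (Fin.last n) = z := by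
  simp [pt]

lemma inner_ec (x : Vc n) : ⟪ec n, x⟫ = x (Fin.last n) := by
  simp [ec, EuclideanSpace.inner_single_left]

lemma inner_ec' (x : Vc n) : ⟪x, ec n⟫ = x (Fin.last n) := by
  rw [real_inner_comm, inner_ec]

lemma ec_ne : ec n ≠ 0 := by
  intro h
  have := congrArg (fun x : Vc n => x (Fin.last n)) h
  simp [ec] at this

lemma continuous_pt {X : Type*} [TopologicalSpace X] {u : X → Bc n} {z : X → ℝ}
    (hu : Continuous u) (hz : Continuous z) : Continuous fun p => pt (u p) (z p) := by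
  unfold pt
  refine (PiLp.continuous_toLp 2 _).comp (continuous_pi fun i => ?_)
  refine Fin.lastCases ?_ (fun j => ?_) i
  · simpa using hz
  · simp only [Fin.snoc_castSucc]
    exact (continuous_apply j).comp hu

lemma hc_ne : hc n ≠ 0 := by
  intro h
  have := congrArg (fun x : Vc (n + 1) => x 0) h
  simp [hc] at this

lemma hc_last : hc n (Fin.last (n + 1)) = 0 := by
  simp [hc, Fin.last_eq_zero_iff]

lemma finrank_Vc : 3 ≤ Module.finrank ℝ (Vc (n + 2)) := by
  rw [finrank_euclideanSpace_fin]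
  omega

end fibre

/-! ### sections with rest value -/

section rest
variable {n : ℕ}

/-- pushing in the direction of the first coordinate. -/
def push (p : ℝ × Bc (n + 2)) : Bc (n + 2) :=
  Function.update p.2 0 (min 1 (p.2 0 + 2 * (1 - p.1)))

lemma continuous_push : Continuous (push (n := n)) := by
  refine continuous_snd.update 0 ?_
  exact continuous_const.min (((continuous_apply 0).comp continuous_snd).add
    (continuous_const.mul (continuous_const.sub continuous_fst)))

lemma push_mem {t : ℝ} (ht : t ∈ Icc (0 : ℝ) 1) {u : Bc (n + 2)} (hu : ‖u‖ ≤ 1) :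
    ‖push (t, u)‖ ≤ 1 := by
  refine norm_update_le hu 0 ?_
  have h1 := abs_le.1 (abs_le_of_norm hu 0)
  rw [abs_le]
  refine ⟨le_min (by norm_num) ?_, min_le_left _ _⟩
  simp only
  linarith [ht.2]

lemma push_rest {t : ℝ} (ht : t ∈ Icc (0 : ℝ) 1) {u : Bc (n + 2)} (h : RestAt u) :
    RestAt (push (t, u)) := by
  rcases h with h | ⟨i, hi, h⟩
  · left
    unfold push
    rw [Function.update_self]
    refine le_min le_rfl ?_
    simp only
    linarith [ht.2]
  · right
    refine ⟨i, hi, ?_⟩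
    unfold push
    rwa [Function.update_of_ne hi]

lemma push_zero {u : Bc (n + 2)} (hu : ‖u‖ ≤ 1) : RestAt (push (0, u)) := by
  left
  unfold push
  rw [Function.update_self]
  have h1 := abs_le.1 (abs_le_of_norm hu 0)
  refine le_min le_rfl ?_
  simp only
  linarith [h1.1]

lemma push_one {u : Bc (n + 2)} (hu : ‖u‖ ≤ 1) : push (1, u) = u := by
  unfold push
  have h1 := abs_le.1 (abs_le_of_norm hu 0)
  simp only [sub_self, mul_zero, add_zero]
  rw [min_eq_right h1.2, Function.update_eq_self]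

/-- **existence of a section with rest value `h`.** -/
theorem exists_rest {ν : Bc (n + 2) → Vc (n + 2)} (hν : NzE (ec (n + 2)) ν) :
    ∃ δ, Adm (n + 2) δ ∧ IsRest (hc (n + 1)) δ ∧ Sec ν δ := by
  have hrestν : ∀ u : Bc (n + 2), ‖u‖ ≤ 1 → RestAt u → ν u = ec (n + 2) := fun u hu h =>
    hν.sph u (le_antisymm hu (rest_norm h))
  have hmaps : MapsTo (push (n := n)) (Icc 0 1 ×ˢ closedBall 0 1) (closedBall 0 1) := by
    rintro ⟨t, u⟩ ⟨ht, hu⟩
    simpa using push_mem ht (by simpa using hu)
  have hc1 : ContinuousOn (fun p : ℝ × Bc (n + 2) => ν (push p)) (Icc 0 1 ×ˢ closedBall 0 1) :=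
    hν.cont.comp continuous_push.continuousOn hmaps
  have hne : ∀ t ∈ Icc (0 : ℝ) 1, ∀ u : Bc (n + 2), ‖u‖ ≤ 1 → ν (push (t, u)) ≠ 0 :=
    fun t ht u hu => hν.ne _ (push_mem ht hu)
  have heh : ⟪ec (n + 2), hc (n + 1)⟫ = 0 := by
    rw [inner_ec]
    exact hc_last
  have key := chain hc1 hne
    (fun μ => ∃ δ, Sec μ δ ∧ ∀ u, ‖u‖ ≤ 1 → RestAt u → δ u = hc (n + 1))
    (fun t ht t' ht' hpos hδ => by
      obtain ⟨δ, hδ, hr⟩ := hδ
      have hNz : Nz (fun u : Bc (n + 2) => ν (push (t', u))) :=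
        ⟨hc1.comp (Continuous.prodMk_right t').continuousOn fun u hu => ⟨ht', hu⟩, hne t' ht'⟩
      refine ⟨_, Sec.proj hNz (fun u hu => ?_) hδ, fun u hu hru => ?_⟩
      · rw [real_inner_comm]
        exact hpos u hu
      · show P (ν (push (t', u))) (δ u) = _
        rw [hrestν _ (push_mem ht' hu) (push_rest ht' hru), hr u hu hru]
        exact P_self heh)
    (by
      refine ⟨fun _ => hc (n + 1), ⟨continuousOn_const, fun _ _ => hc_ne, fun u hu => ?_⟩,
        fun _ _ _ => rfl⟩
      show ⟪ν (push (0, u)), hc (n + 1)⟫ = 0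
      rw [hrestν _ (push_mem ⟨le_rfl, zero_le_one⟩ hu) (push_zero hu)]
      exact heh)
  obtain ⟨δ, hδ, hr⟩ := key
  have horth : ∀ u, ‖u‖ ≤ 1 → ⟪ν u, δ u⟫ = 0 := by
    intro u hu
    have := hδ.orth u hu
    simp only [push_one hu] at this
    exact this
  refine ⟨fun u => δ (clamp u), ⟨?_, fun u => hδ.ne _ (norm_clamp u), fun u hu => ?_⟩,
    fun u hu => hr _ (norm_clamp u) (rest_clamp hu), ?_, fun u _ => hδ.ne _ (norm_clamp u),
    fun u hu => ?_⟩
  · exact hδ.cont.comp_continuous continuous_clamp fun u => by simpa using norm_clamp u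
  · have := horth _ (norm_clamp u)
    rwa [hν.sph _ (norm_clamp_of hu)] at this
  · exact (hδ.cont.comp_continuous continuous_clamp
      fun u => by simpa using norm_clamp u).continuousOn
  · rw [clamp_eq hu]
    exact horth u hu

end rest

/-! ### concatenation and reversal -/

section cat
variable {n : ℕ} {X : Type*}

lemma continuous_blowL : Continuous (blowL (n := n)) :=
  continuous_id.update 1 ((continuous_const.mul (continuous_apply 1)).add continuous_const)

lemma continuous_blowR : Continuous (blowR (n := n)) :=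
  continuous_id.update 1 ((continuous_const.mul (continuous_apply 1)).sub continuous_const)

lemma continuous_cat [TopologicalSpace X] {f g : Bc (n + 2) → X} (cf : Continuous f)
    (cg : Continuous g) (h : ∀ u, u 1 = 0 → f (blowL u) = g (blowR u)) :
    Continuous (cat f g) :=
  Continuous.if_le (cf.comp continuous_blowL) (cg.comp continuous_blowR) (continuous_apply 1)
    continuous_const h

lemma blowL_one (u : Bc (n + 2)) : blowL u 1 = 2 * u 1 + 1 := Function.update_self _ _ _

lemma blowR_one (u : Bc (n + 2)) : blowR u 1 = 2 * u 1 - 1 := Function.update_self _ _ _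

lemma restL {u : Bc (n + 2)} (h : u 1 = 0) : RestAt (blowL u) := by
  right
  refine ⟨1, by simp, ?_⟩
  rw [blowL_one, h]
  norm_num

lemma restR {u : Bc (n + 2)} (h : u 1 = 0) : RestAt (blowR u) := by
  right
  refine ⟨1, by simp, ?_⟩
  rw [blowR_one, h]
  norm_num

lemma norm_blowL {u : Bc (n + 2)} (hu : ‖u‖ ≤ 1) (h : u 1 ≤ 0) : ‖blowL u‖ ≤ 1 := by
  refine norm_update_le hu 1 ?_
  have := abs_le.1 (abs_le_of_norm hu 1)
  rw [abs_le]
  constructor <;> linarith [this.1]

lemma norm_blowR {u : Bc (n + 2)} (hu : ‖u‖ ≤ 1) (h : 0 < u 1) : ‖blowR u‖ ≤ 1 := by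
  refine norm_update_le hu 1 ?_
  have := abs_le.1 (abs_le_of_norm hu 1)
  rw [abs_le]
  constructor <;> linarith [this.2]

lemma blowL_sph {u : Bc (n + 2)} (hu : 1 ≤ ‖u‖) (h : u 1 ≤ 0) : 1 ≤ ‖blowL u‖ := by
  obtain ⟨i, hi⟩ := exists_abs_of_norm hu
  by_cases h1 : i = 1
  · subst h1
    refine one_le_norm (i := 1) ?_
    rw [blowL_one]
    rw [abs_of_nonpos h] at hi
    rw [abs_of_nonpos (by linarith)]
    linarith
  · refine one_le_norm (i := i) ?_
    rw [blowL, Function.update_of_ne h1]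
    exact hi

lemma blowR_sph {u : Bc (n + 2)} (hu : 1 ≤ ‖u‖) (h : 0 < u 1) : 1 ≤ ‖blowR u‖ := by
  obtain ⟨i, hi⟩ := exists_abs_of_norm hu
  by_cases h1 : i = 1
  · subst h1
    refine one_le_norm (i := 1) ?_
    rw [blowR_one]
    rw [abs_of_pos h] at hi
    rw [abs_of_nonneg (by linarith)]
    linarith
  · refine one_le_norm (i := i) ?_
    rw [blowR, Function.update_of_ne h1]
    exact hi

/-- sections of `cat`. -/
lemma Sec.cat {f g δ δ' : Bc (n + 2) → Vc (n + 2)} (hc : Continuous (cat δ δ'))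
    (hδ : Sec f δ) (hδ' : Sec g δ') : Sec (cat f g) (cat δ δ') := by
  refine ⟨hc.continuousOn, fun u hu => ?_, fun u hu => ?_⟩
  · by_cases h : u 1 ≤ 0
    · simp only [GS_808.cat, if_pos h]
      exact hδ.ne _ (norm_blowL hu h)
    · simp only [GS_808.cat, if_neg h]
      exact hδ'.ne _ (norm_blowR hu (not_le.1 h))
  · by_cases h : u 1 ≤ 0
    · simp only [GS_808.cat, if_pos h]
      exact hδ.orth _ (norm_blowL hu h)
    · simp only [GS_808.cat, if_neg h]
      exact hδ'.orth _ (norm_blowR hu (not_le.1 h))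

/-- the class of sections. -/
def TT (n : ℕ) (ν : Bc (n + 2) → Vc (n + 2)) (c : ℤ) : Prop :=
  T (ec (n + 2)) (fun δ => Typ n δ c c) ν

lemma hQ (c : ℤ) : ∀ f g : Bc (n + 2) → Vc (n + 2), Typ n f c c → FH (ec (n + 2)) f g →
    Typ n g c c := fun _ _ h H => h.congr H

lemma TT_zero : TT n (fun _ => ec (n + 2)) 0 := by
  refine T_of_one finrank_Vc (hQ 0) (δ := fun _ => hc (n + 1))
    { cont := continuousOn_const, ne := fun _ _ => ec_ne, sph := fun _ _ => rfl }
    ⟨continuousOn_const, fun _ _ => hc_ne, fun _ _ => ?_⟩ Typ.zero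
  rw [inner_ec]
  exact hc_last

lemma TT_cat {f g : Bc (n + 2) → Vc (n + 2)} {c c' : ℤ}
    (cf : Continuous f) (cg : Continuous g) (nf : ∀ u, f u ≠ 0) (ng : ∀ u, g u ≠ 0)
    (rf : ∀ u, 1 ≤ ‖u‖ → f u = ec (n + 2)) (rg : ∀ u, 1 ≤ ‖u‖ → g u = ec (n + 2))
    (h : TT n f c) (h' : TT n g c') : TT n (cat f g) (c + c') := by
  obtain ⟨δ, a1, r1, s1⟩ := exists_rest h.1
  obtain ⟨δ', a2, r2, s2⟩ := exists_rest h'.1
  have hcd : Continuous (cat δ δ') := continuous_cat a1.cont a2.cont fun u hu => by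
    rw [r1 _ (restL hu), r2 _ (restR hu)]
  refine T_of_one finrank_Vc (hQ (c + c')) (δ := cat δ δ') ?_ (Sec.cat hcd s1 s2)
    (Typ.cat (hc (n + 1)) a1 a2 r1 r2 (h.2 δ s1) (h'.2 δ' s2))
  have hcf : Continuous (cat f g) := continuous_cat cf cg fun u hu => by
    rw [rf _ (rest_norm (restL hu)), rg _ (rest_norm (restR hu))]
  refine { cont := hcf.continuousOn, ne := fun u _ => ?_, sph := fun u hu => ?_ }
  · unfold GS_808.cat
    split_ifs
    · exact nf _
    · exact ng _
  · by_cases h : u 1 ≤ 0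
    · simp only [GS_808.cat, if_pos h]
      exact rf _ (blowL_sph hu.ge h)
    · simp only [GS_808.cat, if_neg h]
      exact rg _ (blowR_sph hu.ge (not_le.1 h))

lemma TT_rev {f : Bc (n + 2) → Vc (n + 2)} {c : ℤ} (cf : Continuous f) (nf : ∀ u, f u ≠ 0)
    (rf : ∀ u, 1 ≤ ‖u‖ → f u = ec (n + 2)) (h : TT n f c) : TT n (rev f) (-c) := by
  obtain ⟨δ, a1, r1, s1⟩ := exists_rest h.1
  have hr : Continuous fun u : Bc (n + 2) => Function.update u 1 (-(u 1)) :=
    continuous_id.update 1 (continuous_apply 1).neg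
  refine T_of_one finrank_Vc (hQ (-c)) (δ := rev δ) ?_ ⟨(a1.cont.comp hr).continuousOn,
    fun u _ => a1.ne _, fun u hu => s1.orth _ (by rw [norm_update_neg]; exact hu)⟩
    (Typ.rev (hc (n + 1)) a1 r1 (h.2 δ s1))
  exact { cont := (cf.comp hr).continuousOn, ne := fun u _ => nf _,
          sph := fun u hu => rf _ (by rw [norm_update_neg]; exact hu.ge) }

end cat

/-! ### reflections -/

section refl
variable {V : Type*} [NormedAddCommGroup V] [InnerProductSpace ℝ V]

/-- reflection in `a⊥`. -/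
noncomputable def R (a x : V) : V := x - (2 * ⟪a, x⟫ / ⟪a, a⟫) • a

lemma inner_R {a : V} (ha : a ≠ 0) (x y : V) : ⟪R a x, R a y⟫ = ⟪x, y⟫ := by
  have h := inner_self_ne ha
  unfold R
  rw [inner_sub_left, inner_sub_right, inner_sub_right, inner_smul_left, inner_smul_left,
    inner_smul_right, inner_smul_right, real_inner_comm a x]
  simp only [conj_trivial]
  rw [real_inner_comm x a]
  field_simp
  ring

lemma R_ne {a x : V} (ha : a ≠ 0) (hx : x ≠ 0) : R a x ≠ 0 := by
  intro h
  have := inner_R ha x x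
  rw [h, inner_zero_left] at this
  exact inner_self_ne hx this.symm

lemma R_of_orth {a x : V} (h : ⟪a, x⟫ = 0) : R a x = x := by
  rw [R, h, mul_zero, zero_div, zero_smul, sub_zero]

lemma continuousOn_R {X : Type*} [TopologicalSpace X] {s : Set X} {a : X → V} {x : V}
    (ha : ContinuousOn a s) (h0 : ∀ p ∈ s, a p ≠ 0) :
    ContinuousOn (fun p => R (a p) x) s := by
  unfold R
  exact continuousOn_const.sub (((continuousOn_const.mul (ha.inner continuousOn_const)).div
    (ha.inner ha) fun p hp => inner_self_ne (h0 p hp)).smul ha)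

lemma continuous_R {X : Type*} [TopologicalSpace X] {a : X → V} {x : V}
    (ha : Continuous a) (h0 : ∀ p, a p ≠ 0) : Continuous fun p => R (a p) x := by
  rw [← continuousOn_univ]
  exact continuousOn_R ha.continuousOn fun p _ => h0 p

/-- reflections of the height in a homotopy of maps of pairs. -/
lemma FN_R {B : Type*} [NormedAddCommGroup B] [NormedSpace ℝ B] {e : V} (he : e ≠ 0)
    {a b : B → V} (h : FH e a b) : FN e (fun u => R (a u) e) (fun u => R (b u) e) := by
  obtain ⟨F, h1, h2, h3, h4, h5⟩ := h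
  refine ⟨fun p => R (F p) e, continuousOn_R h1 ?_, fun t ht u hu => R_ne (h2 t ht u hu) he,
    fun t ht u hu => R_of_orth ?_, fun u hu => ?_, fun u hu => ?_⟩
  · rintro ⟨t, u⟩ ⟨ht, hu⟩
    exact h2 t ht u (by simpa using hu)
  · rw [real_inner_comm]
    exact h3 t ht u hu
  · simp only [h4 u hu]
  · simp only [h5 u hu]

/-- straight line homotopy of maps of pairs. -/
lemma FH_line {B : Type*} [NormedAddCommGroup B] [NormedSpace ℝ B] {e : V} {a b : B → V}
    (ca : ContinuousOn a (closedBall 0 1)) (cb : ContinuousOn b (closedBall 0 1))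
    (hne : ∀ t ∈ Icc (0 : ℝ) 1, ∀ u, ‖u‖ ≤ 1 → (1 - t) • a u + t • b u ≠ 0)
    (ha : ∀ u, ‖u‖ = 1 → ⟪e, a u⟫ = 0) (hb : ∀ u, ‖u‖ = 1 → ⟪e, b u⟫ = 0) : FH e a b := by
  have hs2 : MapsTo (fun p : ℝ × B => p.2) (Icc (0 : ℝ) 1 ×ˢ closedBall (0 : B) 1)
      (closedBall 0 1) := fun p hp => hp.2
  refine ⟨fun p => (1 - p.1) • a p.2 + p.1 • b p.2, ?_, hne, fun t _ u hu => ?_,
    fun u _ => by simp, fun u _ => by simp⟩
  · exact ((continuousOn_const.sub continuousOn_fst).smul (ca.comp continuousOn_snd hs2)).add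
      (continuousOn_fst.smul (cb.comp continuousOn_snd hs2))
  · simp only
    rw [inner_add_right, inner_smul_right, inner_smul_right, ha u hu, hb u hu]
    simp

end refl

/-! ### the base case -/

section base
variable {n : ℕ}

/-- the direction of the second coordinate. -/
noncomputable def kc (n : ℕ) : Vc (n + 2) := EuclideanSpace.single 1 1

lemma inner_kc (x : Vc (n + 2)) : ⟪x, kc n⟫ = x 1 := by
  simp [kc, EuclideanSpace.inner_single_right]

/-- `max` of the other coordinates and `(u 0 + 1) / 2`. -/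
noncomputable def mm (u : Bc (n + 2)) : ℝ := max ‖Function.update u 0 0‖ ((u 0 + 1) / 2)

/-- horizontal part of `aa`. -/
noncomputable def av (u : Bc (n + 2)) : Bc (n + 2) :=
  Function.update ((4 * (1 - mm u)) • u) 0 (2 * mm u - 1)

/-- the class `α` in rest form. -/
noncomputable def aa (u : Bc (n + 2)) : Vc (n + 2) := pt (av u) (1 - ‖u‖)

lemma continuous_mm : Continuous (mm (n := n)) :=
  ((continuous_id.update 0 continuous_const).norm).max
    (((continuous_apply 0).add continuous_const).div_const 2)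

lemma continuous_aa : Continuous (aa (n := n)) := by
  refine continuous_pt ?_ (continuous_const.sub continuous_norm)
  exact ((continuous_const.mul (continuous_const.sub continuous_mm)).smul continuous_id).update 0
    ((continuous_const.mul continuous_mm).sub continuous_const)

lemma mm_le {u : Bc (n + 2)} (hu : ‖u‖ ≤ 1) : mm u ≤ 1 := by
  refine max_le (norm_update_le hu 0 (by simp)) ?_
  have := (abs_le.1 (abs_le_of_norm hu 0)).2
  linarith

lemma mm_nonneg (u : Bc (n + 2)) : 0 ≤ mm u := (norm_nonneg _).trans (le_max_left _ _)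

lemma mm_one_of {u : Bc (n + 2)} (hu : ‖u‖ ≤ 1) (h : RestAt u) : mm u = 1 := by
  refine le_antisymm (mm_le hu) ?_
  rcases h with h | ⟨i, hi, h⟩
  · refine le_trans ?_ (le_max_right _ _)
    linarith
  · refine le_trans ?_ (le_max_left _ _)
    refine one_le_norm (i := i) ?_
    rwa [Function.update_of_ne hi]

lemma aa_zero (u : Bc (n + 2)) : aa u 0 = 2 * mm u - 1 := by
  have : (0 : Fin (n + 2 + 1)) = Fin.castSucc 0 := by simp
  rw [aa, this, pt_castSucc, av, Function.update_self]

lemma aa_succ (u : Bc (n + 2)) {i : Fin (n + 2)} (hi : i ≠ 0) :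
    aa u (Fin.castSucc i) = 4 * (1 - mm u) * u i := by
  rw [aa, pt_castSucc, av, Function.update_of_ne hi]
  rfl

lemma aa_one (u : Bc (n + 2)) : aa u 1 = 4 * (1 - mm u) * u 1 := by
  have : (1 : Fin (n + 2 + 1)) = Fin.castSucc 1 := by simp
  rw [this, aa_succ u (by simp)]

lemma aa_last (u : Bc (n + 2)) : aa u (Fin.last (n + 2)) = 1 - ‖u‖ := by
  rw [aa, pt_last]

lemma al_succ (u : Bc (n + 2)) (i : Fin (n + 2)) : al u (Fin.castSucc i) = u i := by
  rw [al, pt_castSucc]

lemma al_zero (u : Bc (n + 2)) : al u 0 = u 0 := by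
  have : (0 : Fin (n + 2 + 1)) = Fin.castSucc 0 := by simp
  rw [this, al_succ]

lemma al_last (u : Bc (n + 2)) : al u (Fin.last (n + 2)) = 1 - ‖u‖ := by
  rw [al, pt_last]

lemma continuous_al : Continuous (al (n := n)) :=
  continuous_pt continuous_id (continuous_const.sub continuous_norm)

/-- the segments from `aa` to `al` avoid `0`. -/
lemma seg_aa_al {t : ℝ} (ht : t ∈ Icc (0 : ℝ) 1) {u : Bc (n + 2)} (hu : ‖u‖ ≤ 1) :
    (1 - t) • aa u + t • al u ≠ 0 := by
  intro h
  have hcoord : ∀ j, (1 - t) * aa u j + t * al u j = 0 := fun j => by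
    have := congrArg (fun x : Vc (n + 2) => x j) h
    simpa using this
  have hl := hcoord (Fin.last (n + 2))
  rw [aa_last, al_last] at hl
  have hu1 : ‖u‖ = 1 := by linarith
  have h0 := hcoord 0
  rw [aa_zero, al_zero] at h0
  have hm1 := mm_le hu
  have hm0 := mm_nonneg u
  have hi : ∀ i : Fin (n + 2), i ≠ 0 → u i = 0 := by
    intro i hi
    have h1 := hcoord (Fin.castSucc i)
    rw [aa_succ u hi, al_succ] at h1
    have h2 : ((1 - t) * (4 * (1 - mm u)) + t) * u i = 0 := by linarith
    rcases mul_eq_zero.1 h2 with h3 | h3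
    · exfalso
      have p1 : 0 ≤ (1 - t) * (4 * (1 - mm u)) :=
        mul_nonneg (by linarith [ht.2]) (by linarith)
      have p2 : t = 0 := by linarith [ht.1]
      subst p2
      have p3 : mm u = 1 := by linarith
      rw [p3] at h0
      linarith
    · exact h3
  have hW : ‖Function.update u 0 0‖ = 0 := by
    rw [norm_eq_zero]
    funext i
    by_cases h1 : i = 0
    · subst h1
      simp
    · rw [Function.update_of_ne h1, hi i h1]
      rfl
  have habs : |u 0| = 1 := by
    refine le_antisymm (abs_le_of_norm hu 0) ?_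
    obtain ⟨i, h1⟩ := exists_abs_of_norm hu1.ge
    by_cases h2 : i = 0
    · rwa [h2] at h1
    · rw [hi i h2] at h1
      norm_num at h1
  rcases (abs_eq zero_le_one).1 habs with h1 | h1
  · have : mm u = 1 := by
      rw [mm, hW, h1]
      norm_num
    rw [this, h1] at h0
    linarith
  · have : mm u = 0 := by
      rw [mm, hW, h1]
      norm_num
    rw [this, h1] at h0
    linarith

lemma FH_aa_al : FH (ec (n + 2)) (aa (n := n)) al := by
  refine FH_line continuous_aa.continuousOn continuous_al.continuousOn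
    (fun t ht u hu => seg_aa_al ht hu) (fun u hu => ?_) (fun u hu => ?_)
  · rw [inner_ec, aa_last, hu, sub_self]
  · rw [inner_ec, al_last, hu, sub_self]

lemma aa_ne (u : Bc (n + 2)) : aa u ≠ 0 := by
  by_cases h : ‖u‖ = 1
  · have := seg_aa_al (t := 0) ⟨le_rfl, zero_le_one⟩ h.le
    simpa using this
  · intro h1
    have := congrArg (fun x : Vc (n + 2) => x (Fin.last (n + 2))) h1
    simp only [aa_last] at this
    apply h
    simp at this
    linarith

lemma al_ne (u : Bc (n + 2)) : al u ≠ 0 := by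
  by_cases h : ‖u‖ = 1
  · have := seg_aa_al (t := 1) ⟨zero_le_one, le_rfl⟩ h.le
    simpa using this
  · intro h1
    have := congrArg (fun x : Vc (n + 2) => x (Fin.last (n + 2))) h1
    simp only [al_last] at this
    apply h
    simp at this
    linarith

/-! #### the normal -/

/-- the normal attached to `aa`. -/
noncomputable def na (u : Bc (n + 2)) : Vc (n + 2) := R (aa u) (ec (n + 2))

/-- the section attached to `aa`. -/
noncomputable def da (u : Bc (n + 2)) : Vc (n + 2) := -R (aa u) (kc n)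

lemma kc_ne : kc n ≠ 0 := by
  intro h
  have := congrArg (fun x : Vc (n + 2) => x 1) h
  simp [kc] at this

lemma kc_last : kc n (Fin.last (n + 2)) = 0 := by
  have h : Fin.last (n + 2) ≠ 1 := by
    intro h
    have := congrArg Fin.val h
    simp at this
  simp [kc, h]

lemma continuous_na : Continuous (na (n := n)) := continuous_R continuous_aa aa_ne

lemma continuous_da : Continuous (da (n := n)) := (continuous_R continuous_aa aa_ne).neg

lemma da_ne (u : Bc (n + 2)) : da u ≠ 0 := neg_ne_zero.2 (R_ne (aa_ne u) kc_ne)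

lemma na_da (u : Bc (n + 2)) : ⟪na u, da u⟫ = 0 := by
  rw [na, da, inner_neg_right, inner_R (aa_ne u), inner_ec, kc_last, neg_zero]

lemma NzE_na : NzE (ec (n + 2)) (na (n := n)) :=
  { cont := continuous_na.continuousOn
    ne := fun u _ => R_ne (aa_ne u) ec_ne
    sph := fun u hu => R_of_orth (by rw [inner_ec', aa_last, hu, sub_self]) }

lemma inner_al (u : Bc (n + 2)) : ⟪al u, al u⟫ = (∑ i, u i ^ 2) + (1 - ‖u‖) ^ 2 := by
  rw [PiLp.inner_apply, Fin.sum_univ_castSucc]
  simp only [al_succ, al_last]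
  simp [sq]

lemma FN_al_ga : FN (ec (n + 2)) (fun u : Bc (n + 2) => R (al u) (ec (n + 2))) ga := by
  have cR : Continuous fun u : Bc (n + 2) => R (al u) (ec (n + 2)) :=
    continuous_R continuous_al al_ne
  have cga : Continuous (ga : Bc (n + 2) → Vc (n + 2)) :=
    continuous_pt (((continuous_const.mul (continuous_const.sub continuous_norm)).neg).smul
      continuous_id) ((continuous_const.mul continuous_norm).sub continuous_const)
  have gl : ∀ u : Bc (n + 2), (ga u : Vc (n + 2)) (Fin.last (n + 2)) = 2 * ‖u‖ - 1 := by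
    intro u
    rw [ga, pt_last]
  have gs : ∀ (u : Bc (n + 2)) (i : Fin (n + 2)), (ga u : Vc (n + 2)) (Fin.castSucc i) =
      -(4 * (1 - ‖u‖)) * u i := by
    intro u i
    rw [ga, pt_castSucc]
    rfl
  have hel : (ec (n + 2)) (Fin.last (n + 2)) = 1 := by simp [ec]
  have hes : ∀ i : Fin (n + 2), (ec (n + 2)) (Fin.castSucc i) = 0 := by
    intro i
    have : Fin.castSucc i ≠ Fin.last (n + 2) := (Fin.castSucc_lt_last i).ne
    simp [ec, this]
  have Rl : ∀ u : Bc (n + 2), (R (al u) (ec (n + 2))) (Fin.last (n + 2)) =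
      1 - 2 * (1 - ‖u‖) / ⟪al u, al u⟫ * (1 - ‖u‖) := by
    intro u
    unfold R
    rw [PiLp.sub_apply, PiLp.smul_apply, hel, al_last, inner_ec', al_last, smul_eq_mul]
  have Rs : ∀ (u : Bc (n + 2)) (i : Fin (n + 2)), (R (al u) (ec (n + 2))) (Fin.castSucc i) =
      -(2 * (1 - ‖u‖) / ⟪al u, al u⟫ * u i) := by
    intro u i
    unfold R
    rw [PiLp.sub_apply, PiLp.smul_apply, hes, al_succ, inner_ec', al_last, smul_eq_mul, zero_sub]
  refine ⟨fun p => (1 - p.1) • R (al p.2) (ec (n + 2)) + p.1 • ga p.2, ?_, fun t ht u hu => ?_,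
    fun t ht u hu => ?_, fun u _ => by simp, fun u _ => by simp⟩
  · exact (((continuous_const.sub continuous_fst).smul (cR.comp continuous_snd)).add
      (continuous_fst.smul (cga.comp continuous_snd))).continuousOn
  · intro h
    have hcoord : ∀ j, (1 - t) * (R (al u) (ec (n + 2))) j + t * (ga u : Vc (n + 2)) j = 0 :=
      fun j => by
        have := congrArg (fun x : Vc (n + 2) => x j) h
        simpa using this
    have hl := hcoord (Fin.last (n + 2))
    rw [Rl, gl] at hl
    have hs : 0 < ⟪al u, al u⟫ := real_inner_self_pos.2 (al_ne u)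
    by_cases hu1 : ‖u‖ = 1
    · rw [hu1] at hl
      simp at hl
      linarith
    · have hlt : ‖u‖ < 1 := lt_of_le_of_ne hu hu1
      have hi : ∀ i, u i = 0 := by
        intro i
        have h1 := hcoord (Fin.castSucc i)
        rw [Rs, gs] at h1
        have h2 : ((1 - t) * (2 * (1 - ‖u‖) / ⟪al u, al u⟫) + t * (4 * (1 - ‖u‖))) * u i = 0 := by
          linarith
        rcases mul_eq_zero.1 h2 with h3 | h3
        · exfalso
          have q1 : 0 < 2 * (1 - ‖u‖) / ⟪al u, al u⟫ := by
            apply div_pos _ hs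
            linarith
          have q2 : 0 < 4 * (1 - ‖u‖) := by linarith
          rcases eq_or_lt_of_le ht.1 with h4 | h4
          · rw [← h4] at h3
            simp only [sub_zero, one_mul, zero_mul, add_zero] at h3
            exact q1.ne' h3
          · have q3 : 0 ≤ (1 - t) * (2 * (1 - ‖u‖) / ⟪al u, al u⟫) :=
              mul_nonneg (by linarith [ht.2]) q1.le
            have q4 := mul_pos h4 q2
            linarith
        · exact h3
      have hu0 : u = 0 := by
        funext i
        exact hi i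
      rw [inner_al] at hl
      subst hu0
      simp at hl
      linarith
  · simp only
    have h1 : R (al u) (ec (n + 2)) = ec (n + 2) :=
      R_of_orth (by rw [inner_ec', al_last, hu, sub_self])
    have h2 : (ga u : Vc (n + 2)) = ec (n + 2) := by
      ext j
      refine Fin.lastCases ?_ (fun i => ?_) j
      · rw [gl, hel, hu]
        norm_num
      · rw [gs, hes, hu]
        simp
    rw [h1, h2, ← add_smul]
    simp

lemma FN_na_ga : FN (ec (n + 2)) (na (n := n)) (fun u => R (al u) (ec (n + 2))) :=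
  FN_R ec_ne FH_aa_al

/-! #### the right half of the section -/

/-- `blowR⁻¹`. -/
noncomputable def half (v : Bc (n + 2)) : Bc (n + 2) := Function.update v 1 ((v 1 + 1) / 2)

lemma continuous_half : Continuous (half (n := n)) :=
  continuous_id.update 1 (((continuous_apply 1).add continuous_const).div_const 2)

lemma half_one (v : Bc (n + 2)) : half v 1 = (v 1 + 1) / 2 := Function.update_self _ _ _

lemma half_of_ne (v : Bc (n + 2)) {i : Fin (n + 2)} (hi : i ≠ 1) : half v i = v i :=
  Function.update_of_ne hi _ _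

lemma norm_half {v : Bc (n + 2)} (hv : ‖v‖ ≤ 1) : ‖half v‖ ≤ 1 := by
  refine norm_update_le hv 1 ?_
  have := abs_le.1 (abs_le_of_norm hv 1)
  rw [abs_le]
  constructor <;> linarith [this.1, this.2]

lemma a1_zero {v : Bc (n + 2)} (hv : ‖v‖ ≤ 1) (h : RestAt v) : aa (half v) 1 = 0 := by
  have h10 : (0 : Fin (n + 2)) ≠ 1 := by simp
  rw [aa_one]
  have key : RestAt (half v) ∨ half v 1 = 0 := by
    rcases h with h | ⟨i, hi, h⟩
    · left; left
      rwa [half_of_ne v h10]
    · by_cases h1 : i = 1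
      · subst h1
        have h2 : |v 1| = 1 := le_antisymm (abs_le_of_norm hv 1) h
        rcases (abs_eq zero_le_one).1 h2 with h3 | h3
        · left; right
          refine ⟨1, hi, ?_⟩
          rw [half_one, h3]
          norm_num
        · right
          rw [half_one, h3]
          norm_num
      · left; right
        exact ⟨i, hi, by rwa [half_of_ne v h1]⟩
  rcases key with h1 | h1
  · rw [mm_one_of (norm_half hv) h1]
    ring
  · rw [h1, mul_zero]

lemma da_apply (u : Bc (n + 2)) (j : Fin (n + 2 + 1)) :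
    da u j = 2 * aa u 1 / ⟪aa u, aa u⟫ * aa u j - kc n j := by
  unfold da R
  rw [PiLp.neg_apply, PiLp.sub_apply, PiLp.smul_apply, inner_kc, smul_eq_mul]
  ring

lemma da_of {u : Bc (n + 2)} (h : aa u 1 = 0) : da u = -kc n := by
  rw [da, R_of_orth (by rw [inner_kc, h])]

/-- the last coordinate of `da (half v)` vanishes on the sphere. -/
lemma da_half_last {v : Bc (n + 2)} (hv : ‖v‖ = 1) : da (half v) (Fin.last (n + 2)) = 0 := by
  rw [da_apply, aa_last, kc_last, sub_zero]
  obtain ⟨i, hi⟩ := exists_abs_of_norm hv.ge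
  by_cases h1 : i = 1
  · subst h1
    have : aa (half v) 1 = 0 := a1_zero hv.le (Or.inr ⟨1, by simp, hi⟩)
    rw [this]
    simp
  · have : ‖half v‖ = 1 := by
      refine le_antisymm (norm_half hv.le) (one_le_norm (i := i) ?_)
      rwa [half_of_ne v h1]
    rw [this]
    simp

/-- rotation in the plane of the first two coordinates. -/
noncomputable def rot (t : ℝ) (x : Vc (n + 2)) : Vc (n + 2) :=
  x + t • ((-(x 1) - x 0) • hc (n + 1) + (x 0 - x 1) • kc n)

lemma hk_zero : (hc (n + 1)) 0 = 1 ∧ kc n 0 = 0 ∧ (hc (n + 1)) 1 = 0 ∧ kc n 1 = 1 := by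
  refine ⟨by simp [hc], by simp [kc], by simp [hc], by simp [kc]⟩

lemma rot_zero (t : ℝ) (x : Vc (n + 2)) : rot t x 0 = (1 - t) * x 0 - t * x 1 := by
  obtain ⟨a, b, c, d⟩ := hk_zero (n := n)
  unfold rot
  simp only [PiLp.add_apply, PiLp.smul_apply, smul_eq_mul, a, b]
  ring

lemma rot_one (t : ℝ) (x : Vc (n + 2)) : rot t x 1 = (1 - t) * x 1 + t * x 0 := by
  obtain ⟨a, b, c, d⟩ := hk_zero (n := n)
  unfold rot
  simp only [PiLp.add_apply, PiLp.smul_apply, smul_eq_mul, c, d]
  ring

lemma rot_of_ne (t : ℝ) (x : Vc (n + 2)) {j : Fin (n + 2 + 1)} (h0 : j ≠ 0) (h1 : j ≠ 1) :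
    rot t x j = x j := by
  unfold rot
  simp only [PiLp.add_apply, PiLp.smul_apply, smul_eq_mul, hc, kc]
  simp [h0, h1]

lemma last_ne_zero : Fin.last (n + 2) ≠ 0 := by
  intro h
  have := congrArg Fin.val h
  simp at this

lemma last_ne_one : Fin.last (n + 2) ≠ 1 := by
  intro h
  have := congrArg Fin.val h
  simp at this

lemma rot_ne (t : ℝ) {x : Vc (n + 2)} (hx : x ≠ 0) : rot t x ≠ 0 := by
  intro h
  apply hx
  have e0 : (1 - t) * x 0 - t * x 1 = 0 := by rw [← rot_zero, h]; rfl
  have e1 : (1 - t) * x 1 + t * x 0 = 0 := by rw [← rot_one, h]; rfl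
  have hD : (1 - t) ^ 2 + t ^ 2 ≠ 0 := by nlinarith [sq_nonneg (1 - t), sq_nonneg t]
  have x0 : x 0 = 0 := by
    have : ((1 - t) ^ 2 + t ^ 2) * x 0 = 0 := by linear_combination (1 - t) * e0 + t * e1
    exact (mul_eq_zero.1 this).resolve_left hD
  have x1 : x 1 = 0 := by
    have : ((1 - t) ^ 2 + t ^ 2) * x 1 = 0 := by linear_combination (1 - t) * e1 - t * e0
    exact (mul_eq_zero.1 this).resolve_left hD
  ext j
  by_cases h0 : j = 0
  · rw [h0, x0]; rfl
  · by_cases h1 : j = 1
    · rw [h1, x1]; rfl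
    · rw [← rot_of_ne t x h0 h1, h]

lemma continuous_rot {X : Type*} [TopologicalSpace X] {t : X → ℝ} {x : X → Vc (n + 2)}
    (ht : Continuous t) (hx : Continuous x) : Continuous fun p => rot (t p) (x p) := by
  unfold rot
  have c : ∀ j, Continuous fun p => x p j := fun j => (PiLp.continuous_apply 2 _ j).comp hx
  exact hx.add (ht.smul ((((c 1).neg.sub (c 0)).smul continuous_const).add
    (((c 0).sub (c 1)).smul continuous_const)))

/-- the segments from `al` to the rotated half section avoid `0`. -/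
lemma seg_al_rot {t : ℝ} (ht : t ∈ Icc (0 : ℝ) 1) {v : Bc (n + 2)} (hv : ‖v‖ ≤ 1) :
    (1 - t) • al v + t • rot 1 (da (half v)) ≠ 0 := by
  rcases eq_or_lt_of_le ht.1 with t0 | t0
  · rw [← t0]
    simpa using al_ne v
  rcases eq_or_lt_of_le ht.2 with t1 | t1
  · rw [t1]
    simpa using rot_ne 1 (da_ne (half v))
  intro h
  have h10 : (0 : Fin (n + 2)) ≠ 1 := by simp
  obtain ⟨q, hq⟩ : ∃ q : ℝ, q = 2 * aa (half v) 1 / ⟪aa (half v), aa (half v)⟫ := ⟨_, rfl⟩
  have hD : ∀ j, da (half v) j = q * aa (half v) j - kc n j := fun j => by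
    rw [da_apply, hq]
  have hs : 0 < ⟪aa (half v), aa (half v)⟫ := real_inner_self_pos.2 (aa_ne _)
  have hm1 := mm_le (norm_half hv)
  have hu1 : 0 ≤ half v 1 := by
    rw [half_one]
    have := (abs_le.1 (abs_le_of_norm hv 1)).1
    linarith
  have ha1 : 0 ≤ aa (half v) 1 := by
    rw [aa_one]
    exact mul_nonneg (by linarith) hu1
  have hq0 : 0 ≤ q := by
    rw [hq]
    positivity
  have hcoord : ∀ j, (1 - t) * al v j + t * rot 1 (da (half v)) j = 0 := fun j => by
    have := congrArg (fun x : Vc (n + 2) => x j) h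
    simpa using this
  obtain ⟨k1, k2, k3, k4⟩ := hk_zero (n := n)
  have hv1 : ‖v‖ = 1 := by
    have := hcoord (Fin.last (n + 2))
    rw [al_last, rot_of_ne _ _ last_ne_zero last_ne_one, hD, aa_last, kc_last, sub_zero] at this
    have p1 : 0 ≤ q * (1 - ‖half v‖) := mul_nonneg hq0 (by linarith [norm_half hv])
    have p2 : 0 ≤ t * (q * (1 - ‖half v‖)) := mul_nonneg t0.le p1
    have p3 : 0 ≤ (1 - t) * (1 - ‖v‖) := mul_nonneg (by linarith) (by linarith)
    have p4 : (1 - t) * (1 - ‖v‖) = 0 := by linarith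
    rcases mul_eq_zero.1 p4 with p5 | p5 <;> linarith
  have c0 : (1 - t) * v 0 + t * (1 - q * aa (half v) 1) = 0 := by
    have := hcoord 0
    rw [al_zero, rot_zero, hD, hD, k2, k4] at this
    linarith
  have c1 : (1 - t) * v 1 + t * (q * (2 * mm (half v) - 1)) = 0 := by
    have := hcoord 1
    have h1 : (1 : Fin (n + 2 + 1)) = Fin.castSucc 1 := by simp
    rw [rot_one, hD, hD, k2, k4, aa_zero] at this
    rw [h1, al_succ] at this
    linarith
  have ci : ∀ i : Fin (n + 2), i ≠ 0 → i ≠ 1 → v i = 0 := by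
    intro i hi0 hi1
    have := hcoord (Fin.castSucc i)
    have n0 : Fin.castSucc i ≠ 0 := by simpa using hi0
    have n1 : Fin.castSucc i ≠ 1 := by
      intro h
      apply hi1
      have h1 : (1 : Fin (n + 2 + 1)) = Fin.castSucc 1 := by simp
      rw [h1] at h
      exact Fin.castSucc_injective _ h
    have hk : kc n (Fin.castSucc i) = 0 := by simp [kc, n1]
    rw [al_succ, rot_of_ne _ _ n0 n1, hD, aa_succ _ hi0, half_of_ne v hi1, hk, sub_zero] at this
    have h2 : ((1 - t) + t * (q * (4 * (1 - mm (half v))))) * v i = 0 := by linarith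
    rcases mul_eq_zero.1 h2 with h3 | h3
    · exfalso
      have p1 : 0 ≤ t * (q * (4 * (1 - mm (half v)))) :=
        mul_nonneg t0.le (mul_nonneg hq0 (by linarith))
      linarith
    · exact h3
  -- the first coordinate is `-1`
  have hrest : RestAt v → False := by
    intro hr
    have h0 := a1_zero hv1.le hr
    have hq' : q = 0 := by rw [hq, h0]; simp
    rw [hq'] at c0 c1
    simp only [zero_mul, sub_zero, mul_zero, add_zero, mul_one] at c0 c1
    have hv1' : v 1 = 0 := (mul_eq_zero.1 c1).resolve_left (by linarith)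
    rcases hr with hr | ⟨i, hi, hr⟩
    · nlinarith
    · by_cases h1 : i = 1
      · rw [h1, hv1'] at hr
        norm_num at hr
      · rw [ci i hi h1] at hr
        norm_num at hr
  have hv0 : v 0 = -1 := by
    obtain ⟨i, hi⟩ := exists_abs_of_norm hv1.ge
    by_cases h0 : i = 0
    · subst h0
      have h2 : |v 0| = 1 := le_antisymm (abs_le_of_norm hv1.le 0) hi
      rcases (abs_eq zero_le_one).1 h2 with h3 | h3
      · exact (hrest (Or.inl h3.ge)).elim
      · exact h3
    · exact (hrest (Or.inr ⟨i, h0, hi⟩)).elim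
  have hmm : mm (half v) = half v 1 := by
    have hW : ‖Function.update (half v) 0 0‖ = half v 1 := by
      refine le_antisymm ?_ ?_
      · rw [pi_norm_le_iff_of_nonneg hu1]
        intro j
        by_cases h0 : j = 0
        · rw [h0, Function.update_self, norm_zero]
          exact hu1
        · rw [Function.update_of_ne h0]
          by_cases h1 : j = 1
          · rw [h1, Real.norm_eq_abs, abs_of_nonneg hu1]
          · rw [half_of_ne v h1, ci j h0 h1, norm_zero]
            exact hu1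
      · have := norm_le_pi_norm (Function.update (half v) 0 0) 1
        rw [Function.update_of_ne (by simp), Real.norm_eq_abs, abs_of_nonneg hu1] at this
        exact this
    rw [mm, hW, half_of_ne v h10, hv0]
    norm_num
    exact hu1
  have hv1' : v 1 = 0 := by
    rw [hmm, half_one] at c1
    have h2 : ((1 - t) + t * q) * v 1 = 0 := by linarith
    rcases mul_eq_zero.1 h2 with h3 | h3
    · exfalso
      have := mul_nonneg t0.le hq0
      linarith
    · exact h3
  have haa : aa (half v) = kc n := by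
    have hh : half v 1 = 1 / 2 := by rw [half_one, hv1']; norm_num
    have hnh : ‖half v‖ = 1 := by
      refine le_antisymm (norm_half hv1.le) (one_le_norm (i := 0) ?_)
      rw [half_of_ne v h10, hv0]
      norm_num
    ext j
    refine Fin.lastCases ?_ (fun i => ?_) j
    · rw [aa_last, hnh, kc_last, sub_self]
    · by_cases h0 : i = 0
      · subst h0
        have h1 : Fin.castSucc (0 : Fin (n + 2)) = 0 := by simp
        rw [h1, aa_zero, k2, hmm, hh]
        norm_num
      · by_cases h1 : i = 1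
        · subst h1
          have h2 : Fin.castSucc (1 : Fin (n + 2)) = 1 := by simp
          rw [h2, aa_one, k4, hmm, hh]
          norm_num
        · have n1 : Fin.castSucc i ≠ 1 := by
            intro h
            apply h1
            have h3 : (1 : Fin (n + 2 + 1)) = Fin.castSucc 1 := by simp
            rw [h3] at h
            exact Fin.castSucc_injective _ h
          rw [aa_succ _ h0, half_of_ne v h1, ci i h0 h1, mul_zero]
          simp [kc, n1]
  have hkk : ⟪kc n, kc n⟫ = 1 := by rw [inner_kc, k4]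
  have hq2 : q = 2 := by rw [hq, haa, hkk, k4]; norm_num
  rw [haa, k4, hq2, hv0] at c0
  linarith

/-- the right half, in rest form. -/
noncomputable def gg (v : Bc (n + 2)) : Vc (n + 2) := da (half (clamp v))

lemma continuous_gg : Continuous (gg (n := n)) :=
  continuous_da.comp (continuous_half.comp continuous_clamp)

lemma adm_gg : Adm (n + 2) (gg (n := n)) :=
  ⟨continuous_gg, fun _ => da_ne _, fun v hv => by
    rw [inner_ec]
    exact da_half_last (norm_clamp_of hv)⟩

lemma rest_gg : IsRest (-kc n) (gg (n := n)) := fun v hv =>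
  da_of (a1_zero (norm_clamp v) (rest_clamp hv))

lemma FH_al_rot : FH (ec (n + 2)) (al (n := n + 2)) (fun v => rot 1 (gg v)) := by
  refine FH_line continuous_al.continuousOn
    (continuous_rot continuous_const continuous_gg).continuousOn (fun t ht u hu => ?_)
    (fun u hu => ?_) (fun u hu => ?_)
  · rw [gg, clamp_eq hu]
    exact seg_al_rot ht hu
  · rw [inner_ec, al_last, hu, sub_self]
  · rw [inner_ec, rot_of_ne _ _ last_ne_zero last_ne_one, gg, clamp_eq hu.le]
    exact da_half_last hu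

lemma FH_rot_gg : FH (ec (n + 2)) (fun v => rot 1 (gg v)) (gg (n := n)) := by
  refine ⟨fun p => rot (1 - p.1) (gg p.2), ?_, fun t _ u _ => rot_ne _ (da_ne _),
    fun t _ u hu => ?_, fun u _ => by simp, fun u _ => ?_⟩
  · exact (continuous_rot (continuous_const.sub continuous_fst)
      (continuous_gg.comp continuous_snd)).continuousOn
  · rw [inner_ec, rot_of_ne _ _ last_ne_zero last_ne_one, gg, clamp_eq hu.le]
    exact da_half_last hu
  · simp [rot]

lemma Typ_gg : Typ n gg 1 0 := (Typ.al.congr FH_al_rot).congr FH_rot_gg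

/-! #### the left half -/

/-- `x ↦ -refl_k x`. -/
noncomputable def sk (x : Vc (n + 2)) : Vc (n + 2) := -R (kc n) x

lemma hkk : ⟪kc n, kc n⟫ = 1 := by rw [inner_kc, hk_zero.2.2.2]

lemma R_kc (x : Vc (n + 2)) : R (kc n) x = x - (2 * x 1) • kc n := by
  unfold R
  rw [hkk, real_inner_comm, inner_kc, div_one]

lemma sk_apply (x : Vc (n + 2)) (j : Fin (n + 2 + 1)) : sk x j = 2 * x 1 * kc n j - x j := by
  unfold sk
  rw [R_kc]
  simp

lemma continuous_sk : Continuous (sk (n := n)) := by
  have : (sk : Vc (n + 2) → Vc (n + 2)) = fun x => -(x - (2 * x 1) • kc n) := by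
    funext x
    rw [sk, R_kc]
  rw [this]
  have c : Continuous fun x : Vc (n + 2) => x 1 := PiLp.continuous_apply 2 _ 1
  exact (continuous_id.sub ((continuous_const.mul c).smul continuous_const)).neg

lemma sk_ne {x : Vc (n + 2)} (hx : x ≠ 0) : sk x ≠ 0 := neg_ne_zero.2 (R_ne kc_ne hx)

lemma sk_last (x : Vc (n + 2)) : sk x (Fin.last (n + 2)) = -x (Fin.last (n + 2)) := by
  rw [sk_apply, kc_last, mul_zero, zero_sub]

lemma FH_sk {a b : Bc (n + 2) → Vc (n + 2)} (h : FH (ec (n + 2)) a b) :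
    FH (ec (n + 2)) (fun u => sk (rev a u)) (fun u => sk (rev b u)) := by
  obtain ⟨F, h1, h2, h3, h4, h5⟩ := h
  have hn : ∀ u : Bc (n + 2), ‖Function.update u 1 (-(u 1))‖ = ‖u‖ := fun u =>
    norm_update_neg u 1
  have hr : Continuous fun p : ℝ × Bc (n + 2) =>
      ((p.1, Function.update p.2 1 (-(p.2 1))) : ℝ × Bc (n + 2)) :=
    continuous_fst.prodMk (continuous_snd.update 1 ((continuous_apply 1).comp continuous_snd).neg)
  refine ⟨fun p => sk (F (p.1, Function.update p.2 1 (-(p.2 1)))), ?_,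
    fun t ht u hu => sk_ne (h2 t ht _ (by rw [hn]; exact hu)), fun t ht u hu => ?_,
    fun u hu => ?_, fun u hu => ?_⟩
  · refine continuous_sk.comp_continuousOn (h1.comp hr.continuousOn ?_)
    rintro ⟨t, u⟩ ⟨ht, hu⟩
    refine ⟨ht, ?_⟩
    simp only [mem_closedBall, dist_zero_right] at hu ⊢
    rw [hn]
    exact hu
  · have := h3 t ht (Function.update u 1 (-(u 1))) (by rw [hn]; exact hu)
    rw [inner_ec] at this ⊢
    rw [sk_last, this, neg_zero]
  · show sk (F (0, _)) = sk (a _)
    rw [h4 _ (by rw [hn]; exact hu)]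
  · show sk (F (1, _)) = sk (b _)
    rw [h5 _ (by rw [hn]; exact hu)]

lemma sk_al : (fun u : Bc (n + 2) => sk (rev al u)) = fun u => -al u := by
  funext u
  ext j
  show sk (al (Function.update u 1 (-(u 1)))) j = (-al u) j
  have h1 : (1 : Fin (n + 2 + 1)) = Fin.castSucc 1 := by simp
  have e1 : al (Function.update u 1 (-(u 1))) 1 = -(u 1) := by
    rw [h1, al_succ, Function.update_self]
  rw [sk_apply, e1, PiLp.neg_apply]
  refine Fin.lastCases ?_ (fun i => ?_) j
  · rw [kc_last, al_last, al_last, norm_update_neg]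
    ring
  · rw [al_succ, al_succ]
    by_cases hi : i = 1
    · subst hi
      rw [← h1, hk_zero.2.2.2, Function.update_self]
      ring
    · have n1 : Fin.castSucc i ≠ 1 := by
        intro h
        rw [h1] at h
        exact hi (Fin.castSucc_injective _ h)
      have hk : kc n (Fin.castSucc i) = 0 := by simp [kc, n1]
      rw [hk, Function.update_of_ne hi]
      ring

/-- the left half, in rest form. -/
noncomputable def ff (u : Bc (n + 2)) : Vc (n + 2) := sk (rev gg u)

lemma Typ_ff : Typ n ff 0 1 := by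
  have h := Typ.be (n := n)
  rw [← sk_al] at h
  exact (h.congr (FH_sk FH_al_rot)).congr (FH_sk FH_rot_gg)

lemma continuous_flip : Continuous fun u : Bc (n + 2) => Function.update u 1 (-(u 1)) :=
  continuous_id.update 1 (continuous_apply 1).neg

lemma adm_ff : Adm (n + 2) (ff (n := n)) :=
  ⟨continuous_sk.comp (continuous_gg.comp continuous_flip), fun _ => sk_ne (da_ne _),
    fun v hv => by
      have := adm_gg.hor (Function.update v 1 (-(v 1))) (by rw [norm_update_neg]; exact hv)
      rw [inner_ec] at this ⊢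
      show sk (gg (Function.update v 1 (-(v 1)))) _ = 0
      rw [sk_last, this, neg_zero]⟩

lemma rest_flip {v : Bc (n + 2)} (h : RestAt v) : RestAt (Function.update v 1 (-(v 1))) := by
  rcases h with h | ⟨i, hi, h⟩
  · left
    rwa [Function.update_of_ne (by simp)]
  · right
    refine ⟨i, hi, ?_⟩
    by_cases h1 : i = 1
    · subst h1
      rwa [Function.update_self, abs_neg]
    · rwa [Function.update_of_ne h1]

lemma sk_kc : sk (-kc n) = -kc n := by
  ext j
  rw [sk_apply, PiLp.neg_apply, PiLp.neg_apply, hk_zero.2.2.2]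
  ring

lemma rest_ff : IsRest (-kc n) (ff (n := n)) := fun v hv => by
  show sk (gg (Function.update v 1 (-(v 1)))) = _
  rw [rest_gg _ (rest_flip hv), sk_kc]

/-! #### `cat ff gg` is a section of `na⊥` -/

lemma R_sub (a x y : Vc (n + 2)) : R a (x - y) = R a x - R a y := by
  unfold R
  rw [inner_sub_right, mul_sub, sub_div, sub_smul]
  abel

lemma R_smul (a : Vc (n + 2)) (c : ℝ) (x : Vc (n + 2)) : R a (c • x) = c • R a x := by
  unfold R
  rw [inner_smul_right, smul_sub, smul_smul]
  congr 2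
  ring

lemma R_R {a : Vc (n + 2)} (ha : a ≠ 0) (x : Vc (n + 2)) : R a (R a x) = x := by
  have h := inner_self_ne ha
  have h1 : R a a = -a := by
    unfold R
    rw [mul_div_assoc, div_self h, mul_one, two_smul]
    abel
  conv_lhs => rw [show R a x = x - (2 * ⟪a, x⟫ / ⟪a, a⟫) • a from rfl]
  rw [R_sub, R_smul, h1]
  unfold R
  rw [smul_neg]
  abel

lemma R_conj {b a : Vc (n + 2)} (hb : b ≠ 0) (x : Vc (n + 2)) :
    R (R b a) (R b x) = R b (R a x) := by
  conv_lhs => unfold R
  rw [show (b : Vc (n + 2)) = b from rfl]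
  have e1 : ⟪R b a, R b x⟫ = ⟪a, x⟫ := inner_R hb a x
  have e2 : ⟪R b a, R b a⟫ = ⟪a, a⟫ := inner_R hb a a
  change R b x - (2 * ⟪R b a, R b x⟫ / ⟪R b a, R b a⟫) • R b a = _
  rw [e1, e2, show R a x = x - (2 * ⟪a, x⟫ / ⟪a, a⟫) • a from rfl, R_sub, R_smul]

lemma aa_flip (u : Bc (n + 2)) : aa (Function.update u 1 (-(u 1))) = R (kc n) (aa u) := by
  have h10 : (0 : Fin (n + 2)) ≠ 1 := by simp
  have hm : mm (Function.update u 1 (-(u 1))) = mm u := by
    unfold mm
    rw [Function.update_of_ne h10, Function.update_comm h10.symm]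
    have := norm_update_neg (Function.update u 0 0) 1
    rw [Function.update_of_ne h10.symm] at this
    rw [this]
  rw [R_kc]
  ext j
  rw [PiLp.sub_apply, PiLp.smul_apply, smul_eq_mul]
  have h1 : (1 : Fin (n + 2 + 1)) = Fin.castSucc 1 := by simp
  refine Fin.lastCases ?_ (fun i => ?_) j
  · rw [aa_last, aa_last, norm_update_neg, kc_last]
    ring
  · by_cases h0 : i = 0
    · subst h0
      have h2 : Fin.castSucc (0 : Fin (n + 2)) = 0 := by simp
      rw [h2, aa_zero, aa_zero, hm, hk_zero.2.1]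
      ring
    · by_cases hi : i = 1
      · subst hi
        rw [← h1, aa_one, aa_one, hm, Function.update_self, hk_zero.2.2.2]
        ring
      · have n1 : Fin.castSucc i ≠ 1 := by
          intro h
          rw [h1] at h
          exact hi (Fin.castSucc_injective _ h)
        have hk : kc n (Fin.castSucc i) = 0 := by simp [kc, n1]
        rw [aa_succ _ h0, aa_succ _ h0, hm, Function.update_of_ne hi, hk]
        ring

lemma sk_da (u : Bc (n + 2)) : sk (da (Function.update u 1 (-(u 1)))) = da u := by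
  have h1 : R (kc n) (kc n) = -kc n := by
    rw [R_kc, hk_zero.2.2.2, mul_one, two_smul]
    abel
  have hneg : ∀ a x : Vc (n + 2), R a (-x) = -R a x := by
    intro a x
    have := R_smul a (-1) x
    simpa using this
  unfold da sk
  rw [aa_flip, hneg, neg_neg]
  have h2 : R (R (kc n) (aa u)) (kc n) = -R (kc n) (R (aa u) (kc n)) := by
    rw [← R_conj kc_ne, h1, hneg, neg_neg]
  rw [h2, hneg, R_R kc_ne]

lemma cat_eq {u : Bc (n + 2)} (hu : ‖u‖ ≤ 1) : cat ff gg u = da u := by
  by_cases h : u 1 ≤ 0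
  · simp only [GS_808.cat, if_pos h]
    show sk (gg (Function.update (blowL u) 1 (-(blowL u 1)))) = _
    have h1 : Function.update (blowL u) 1 (-(blowL u 1)) =
        Function.update u 1 (-(2 * u 1 + 1)) := by
      rw [blowL_one, blowL, Function.update_idem]
    have h2 : ‖Function.update u 1 (-(2 * u 1 + 1))‖ ≤ 1 := by
      refine norm_update_le hu 1 ?_
      have := abs_le.1 (abs_le_of_norm hu 1)
      rw [abs_le]
      constructor <;> linarith [this.1]
    have h3 : half (Function.update u 1 (-(2 * u 1 + 1))) = Function.update u 1 (-(u 1)) := by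
      rw [half, Function.update_self, Function.update_idem]
      congr 1
      ring
    rw [h1, gg, clamp_eq h2, h3, sk_da]
  · simp only [GS_808.cat, if_neg h]
    have h2 := norm_blowR hu (not_le.1 h)
    have h3 : half (blowR u) = u := by
      rw [half, blowR_one, blowR, Function.update_idem]
      have : (2 * u 1 - 1 + 1) / 2 = u 1 := by ring
      rw [this, Function.update_eq_self]
    rw [gg, clamp_eq h2, h3]

lemma TT_na : TT n na 1 := by
  refine T_of_one finrank_Vc (hQ 1) (δ := cat ff gg) NzE_na ⟨?_, fun u hu => ?_, fun u hu => ?_⟩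
    (Typ.cat (-kc n) adm_ff adm_gg rest_ff rest_gg Typ_ff Typ_gg)
  · exact continuous_da.continuousOn.congr fun u hu => cat_eq (by simpa using hu)
  · rw [cat_eq hu]
    exact da_ne u
  · rw [cat_eq hu]
    exact na_da u

lemma TT_ga : TT n ga 1 := T_congr (hQ 1) (T_congr (hQ 1) TT_na FN_na_ga) FN_al_ga

end base

/-- **LEMMA D**, all sections. -/
theorem TT_of_typN {n : ℕ} {ν : Bc (n + 2) → Vc (n + 2)} {c : ℤ} (h : TypN n ν c) :
    TT n ν c := by
  induction h with
  | zero => exact TT_zero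
  | ga => exact TT_ga
  | congr _ H ih => exact T_congr (hQ _) ih H
  | cat cf cg nf ng rf rg _ _ ih ih' => exact TT_cat cf cg nf ng rf rg ih ih'
  | rev cf nf rf _ ih => exact TT_rev cf nf rf ih

/-- **LEMMA D**: a nonvanishing section of `ν⊥`, `ν` of class `γ^d`, has class `α^d β^d`. -/
theorem lemD {n : ℕ} {ν δ : Bc (n + 2) → Vc (n + 2)} {d : ℤ} (h : TypN n ν d)
    (hc : ContinuousOn δ (closedBall 0 1)) (hne : ∀ u, ‖u‖ ≤ 1 → δ u ≠ 0)
    (horth : ∀ u, ‖u‖ ≤ 1 → ⟪ν u, δ u⟫ = 0) : Typ n δ d d :=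
  (TT_of_typN h).2 δ ⟨hc, hne, horth⟩

end Crest.Agent.R267.LemD_527
end

-- ▼ part R267/Frame_527
section

/-!
# Row 267, TB-T2-2 (helper527): FrameProp

For every `d` a frame field `Rf` with `Rf e` of class `γ^d` and `Rf h` of class `α^d β^d`.
-/

set_option autoImplicit false
set_option linter.unusedSectionVars false

namespace Crest.Agent.R267.Frame_527

open Set Metric
open scoped RealInnerProductSpace
open Crest.Agent.R267.GS_808 Crest.Agent.R267.NF_808
open Crest.Agent.R267.LemDA_527 Crest.Agent.R267.LemD_527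

/-- free homotopies of normals can be reversed. -/
lemma FN.symm {B V : Type*} [NormedAddCommGroup B] [NormedSpace ℝ B] [NormedAddCommGroup V]
    [InnerProductSpace ℝ V] {e : V} {f g : B → V} (h : FN e f g) : FN e g f := by
  obtain ⟨F, h1, h2, h3, h4, h5⟩ := h
  have hm : ∀ t ∈ Icc (0 : ℝ) 1, 1 - t ∈ Icc (0 : ℝ) 1 := fun t ht =>
    ⟨by linarith [ht.2], by linarith [ht.1]⟩
  refine ⟨fun p => F (1 - p.1, p.2), ?_, fun t ht u hu => h2 _ (hm t ht) u hu,
    fun t ht u hu => h3 _ (hm t ht) u hu, fun u hu => ?_, fun u hu => ?_⟩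
  · exact h1.comp ((continuous_const.sub continuous_fst).prodMk continuous_snd).continuousOn
      fun p hp => ⟨hm _ hp.1, hp.2⟩
  · simpa using h5 u hu
  · simpa using h4 u hu

/-- constant homotopy. -/
lemma FN.of_eq {B V : Type*} [NormedAddCommGroup B] [NormedSpace ℝ B] [NormedAddCommGroup V]
    [InnerProductSpace ℝ V] {e : V} {f g : B → V} (hf : NzE e f)
    (h : ∀ u, ‖u‖ ≤ 1 → f u = g u) : FN e f g := by
  refine ⟨fun p => f p.2, hf.cont.comp continuousOn_snd fun p hp => hp.2, fun t _ u hu =>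
    hf.ne u hu, fun t _ u hu => hf.sph u hu, fun u _ => rfl, fun u hu => h u hu⟩

variable {n : ℕ}

/-! ### reflections as isometries -/

lemma R_add (a x y : Vc (n + 2)) : R a (x + y) = R a x + R a y := by
  unfold R
  rw [inner_add_right, mul_add, add_div, add_smul]
  abel

/-- the reflection as a linear isometry equivalence. -/
noncomputable def RL (a : Vc (n + 2)) (ha : a ≠ 0) : Vc (n + 2) ≃ₗᵢ[ℝ] Vc (n + 2) where
  toFun := R a
  map_add' := R_add a
  map_smul' := fun c x => R_smul a c x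
  invFun := R a
  left_inv := R_R ha
  right_inv := R_R ha
  norm_map' := fun x => by
    have h := inner_R ha x x
    rw [real_inner_self_eq_norm_sq, real_inner_self_eq_norm_sq] at h
    exact (sq_eq_sq₀ (norm_nonneg _) (norm_nonneg _)).1 h



lemma continuous_R2 {X : Type*} [TopologicalSpace X] {a x : X → Vc (n + 2)}
    (ha : Continuous a) (hx : Continuous x) (h0 : ∀ p, a p ≠ 0) :
    Continuous fun p => R (a p) (x p) := by
  unfold R
  exact hx.sub (((continuous_const.mul (ha.inner hx)).div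
    (ha.inner ha) fun p => inner_self_ne (h0 p)).smul ha)

/-! ### frame fields -/

/-- the identity frame. -/
noncomputable def idF (n : ℕ) : FrameD n where
  Rf := fun _ => LinearIsometryEquiv.refl ℝ _
  c_Rf := continuous_snd
  c_Rf' := continuous_snd
  rest := fun _ _ => rfl
  wall := fun _ _ => rfl

lemma aa_rest {u : Bc (n + 2)} (hu : ‖u‖ ≤ 1) (h : RestAt u) : aa u = hc (n + 1) := by
  have hm := mm_one_of hu h
  have hn : ‖u‖ = 1 := le_antisymm hu (rest_norm h)
  ext j
  refine Fin.lastCases ?_ (fun i => ?_) j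
  · rw [aa_last, hn, sub_self]
    exact hc_last.symm
  · by_cases h0 : i = 0
    · subst h0
      have h1 : Fin.castSucc (0 : Fin (n + 2)) = 0 := by simp
      rw [h1, aa_zero, hm, hk_zero.1]
      norm_num
    · have n0 : Fin.castSucc i ≠ 0 := by simpa using h0
      rw [aa_succ _ h0, hm]
      simp [hc, n0]

/-- the frame of class one: `refl_{aa} ∘ refl_h`. -/
noncomputable def oneF (n : ℕ) : FrameD n where
  Rf := fun u => (RL (hc (n + 1)) hc_ne).trans (RL (aa (clamp u)) (aa_ne _))
  c_Rf := by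
    have h1 : Continuous fun p : Bc (n + 2) × Vc (n + 2) => R (hc (n + 1)) p.2 :=
      continuous_R2 continuous_const continuous_snd fun _ => hc_ne
    exact continuous_R2 (continuous_aa.comp (continuous_clamp.comp continuous_fst)) h1
      fun _ => aa_ne _
  c_Rf' := by
    have h1 : Continuous fun p : Bc (n + 2) × Vc (n + 2) => R (aa (clamp p.1)) p.2 :=
      continuous_R2 (continuous_aa.comp (continuous_clamp.comp continuous_fst)) continuous_snd
        fun _ => aa_ne _
    exact continuous_R2 continuous_const h1 fun _ => hc_ne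
  rest := fun u hu => by
    apply LinearIsometryEquiv.ext
    intro x
    show R (aa (clamp u)) (R (hc (n + 1)) x) = x
    rw [aa_rest (norm_clamp u) (rest_clamp hu), R_R hc_ne]
  wall := fun u hu => by
    show R (aa (clamp u)) (R (hc (n + 1)) (ec (n + 2))) = _
    rw [R_of_orth (a := hc (n + 1)) (by rw [inner_ec']; exact hc_last), R_of_orth]
    rw [inner_ec', aa_last, norm_clamp_of hu, sub_self]

lemma rest_blowL {u : Bc (n + 2)} (h : RestAt u) (h1 : u 1 ≤ 0) : RestAt (blowL u) := by
  rcases h with h | ⟨i, hi, h⟩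
  · left
    rwa [blowL, Function.update_of_ne (by simp)]
  · right
    refine ⟨i, hi, ?_⟩
    by_cases h2 : i = 1
    · subst h2
      rw [blowL_one]
      rw [abs_of_nonpos h1] at h
      rw [abs_of_nonpos (by linarith)]
      linarith
    · rwa [blowL, Function.update_of_ne h2]

lemma rest_blowR {u : Bc (n + 2)} (h : RestAt u) (h1 : 0 < u 1) : RestAt (blowR u) := by
  rcases h with h | ⟨i, hi, h⟩
  · left
    rwa [blowR, Function.update_of_ne (by simp)]
  · right
    refine ⟨i, hi, ?_⟩
    by_cases h2 : i = 1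
    · subst h2
      rw [blowR_one]
      rw [abs_of_pos h1] at h
      rw [abs_of_nonneg (by linarith)]
      linarith
    · rwa [blowR, Function.update_of_ne h2]

open Classical in
/-- concatenation of frames. -/
noncomputable def catF (F G : FrameD n) : FrameD n where
  Rf := fun u => if u 1 ≤ 0 then F.Rf (blowL u) else G.Rf (blowR u)
  c_Rf := by
    have e : (fun p : Bc (n + 2) × Vc (n + 2) =>
        (if p.1 1 ≤ 0 then F.Rf (blowL p.1) else G.Rf (blowR p.1)) p.2) =
        fun p => if p.1 1 ≤ 0 then F.Rf (blowL p.1) p.2 else G.Rf (blowR p.1) p.2 := by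
      funext p
      split_ifs <;> rfl
    rw [e]
    refine Continuous.if_le
      (F.c_Rf.comp ((continuous_blowL.comp continuous_fst).prodMk continuous_snd))
      (G.c_Rf.comp ((continuous_blowR.comp continuous_fst).prodMk continuous_snd))
      ((continuous_apply 1).comp continuous_fst) continuous_const fun p hp => ?_
    rw [F.rest _ (restL hp), G.rest _ (restR hp)]
  c_Rf' := by
    have e : (fun p : Bc (n + 2) × Vc (n + 2) =>
        (if p.1 1 ≤ 0 then F.Rf (blowL p.1) else G.Rf (blowR p.1)).symm p.2) =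
        fun p => if p.1 1 ≤ 0 then (F.Rf (blowL p.1)).symm p.2
          else (G.Rf (blowR p.1)).symm p.2 := by
      funext p
      split_ifs <;> rfl
    rw [e]
    refine Continuous.if_le
      (F.c_Rf'.comp ((continuous_blowL.comp continuous_fst).prodMk continuous_snd))
      (G.c_Rf'.comp ((continuous_blowR.comp continuous_fst).prodMk continuous_snd))
      ((continuous_apply 1).comp continuous_fst) continuous_const fun p hp => ?_
    rw [F.rest _ (restL hp), G.rest _ (restR hp)]
  rest := fun u hu => by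
    by_cases h : u 1 ≤ 0
    · rw [if_pos h, F.rest _ (rest_blowL hu h)]
    · rw [if_neg h, G.rest _ (rest_blowR hu (not_le.1 h))]
  wall := fun u hu => by
    by_cases h : u 1 ≤ 0
    · rw [if_pos h, F.wall _ (blowL_sph hu h)]
    · rw [if_neg h, G.wall _ (blowR_sph hu (not_le.1 h))]

/-- reversal of a frame. -/
noncomputable def revF (F : FrameD n) : FrameD n where
  Rf := fun u => F.Rf (Function.update u 1 (-(u 1)))
  c_Rf := F.c_Rf.comp ((continuous_flip.comp continuous_fst).prodMk continuous_snd)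
  c_Rf' := F.c_Rf'.comp ((continuous_flip.comp continuous_fst).prodMk continuous_snd)
  rest := fun u hu => F.rest _ (rest_flip hu)
  wall := fun u hu => F.wall _ (by rw [norm_update_neg]; exact hu)

/-- the normal of a frame. -/
noncomputable def nrm (F : FrameD n) (u : Bc (n + 2)) : Vc (n + 2) := F.Rf u (ec (n + 2))

lemma continuous_nrm (F : FrameD n) : Continuous (nrm F) :=
  F.c_Rf.comp (continuous_id.prodMk continuous_const)

lemma nrm_ne (F : FrameD n) (u : Bc (n + 2)) : nrm F u ≠ 0 := by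
  unfold nrm
  intro h
  exact ec_ne ((F.Rf u).injective (by rw [h, map_zero]))

lemma TypN_idF : TypN n (nrm (idF n)) 0 := TypN.zero

lemma TypN_oneF : TypN n (nrm (oneF n)) 1 := by
  have h1 : TypN n na 1 := (TypN.ga.congr (FN.symm FN_al_ga)).congr (FN.symm FN_na_ga)
  refine h1.congr (FN.of_eq NzE_na fun u hu => ?_)
  show R (aa u) (ec (n + 2)) = R (aa (clamp u)) (R (hc (n + 1)) (ec (n + 2)))
  rw [clamp_eq hu, R_of_orth (a := hc (n + 1)) (by rw [inner_ec']; exact hc_last)]

lemma TypN_catF {F G : FrameD n} {c c' : ℤ} (h : TypN n (nrm F) c) (h' : TypN n (nrm G) c') :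
    TypN n (nrm (catF F G)) (c + c') := by
  have := TypN.cat (continuous_nrm F) (continuous_nrm G) (nrm_ne F) (nrm_ne G) F.wall G.wall h h'
  have e : nrm (catF F G) = cat (nrm F) (nrm G) := by
    funext u
    unfold nrm catF GS_808.cat
    simp only
    split_ifs <;> rfl
  rw [e]
  exact this

lemma TypN_revF {F : FrameD n} {c : ℤ} (h : TypN n (nrm F) c) : TypN n (nrm (revF F)) (-c) :=
  TypN.rev (continuous_nrm F) (nrm_ne F) F.wall h

lemma exists_nat (d : ℕ) : ∃ F : FrameD n, TypN n (nrm F) d := by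
  induction d with
  | zero => exact ⟨idF n, TypN_idF⟩
  | succ d ih =>
    obtain ⟨F, hF⟩ := ih
    refine ⟨catF F (oneF n), ?_⟩
    have := TypN_catF hF (TypN_oneF (n := n))
    simpa using this

/-- **T2-2: FrameProp.** -/
theorem frameProp (n : ℕ) : FrameProp n := by
  intro d
  have key : ∃ F : FrameD n, TypN n (nrm F) d := by
    obtain ⟨k, rfl | rfl⟩ := Int.eq_nat_or_neg d
    · exact exists_nat k
    · obtain ⟨F, hF⟩ := exists_nat (n := n) k
      exact ⟨revF F, TypN_revF hF⟩
  obtain ⟨F, hF⟩ := key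
  refine ⟨F, hF, lemD hF ?_ (fun u _ h => ?_) fun u _ => ?_⟩
  · exact (F.c_Rf.comp (continuous_id.prodMk continuous_const)).continuousOn
  · exact hc_ne ((F.Rf u).injective (by rw [h, map_zero]))
  · show ⟪F.Rf u (ec (n + 2)), F.Rf u (hc (n + 1))⟫ = 0
    rw [LinearIsometryEquiv.inner_map_map, inner_ec]
    exact hc_last

end Crest.Agent.R267.Frame_527
end

-- ▼ part R267/KX_118
section

/-!
# Links with radius functions (row 267, leaf M0 of LEMMA M)

`KX R x nu rr`: the link of a system with cores `x`, normals `nu` and radius FUNCTIONS `rr`.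
`change`: any two admissible radius functions give equivalent links.
-/

set_option autoImplicit false

namespace Crest.Agent.R267.KX_118

open Set Metric
open scoped RealInnerProductSpace
open Crest.Agent.R267.GS_808 Crest.Agent.R267.Move_118 Crest.Agent.R267.T1_118
open Crest.Agent.R267.Rad_118

variable {B V : Type*} [NormedAddCommGroup B] [NormedSpace ℝ B]
  [NormedAddCommGroup V] [InnerProductSpace ℝ V]

/-- the link with radius functions -/
def KX {ι : Type*} (e : V) (R : ℝ) (x nu : ι → B → V) (rr : ι → B → ℝ) : Set (B × V) :=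
  {p | (⟪e, p.2⟫ = 0 ∧ ‖p.1‖ = 1 ∧ ‖p.2‖ ≤ R ∧ ∀ k, rr k p.1 ≤ ‖p.2 - x k p.1‖) ∨
    (⟪e, p.2⟫ = 0 ∧ ‖p.1‖ ≤ 1 ∧ ‖p.2‖ = R) ∨
    ∃ k, ‖p.1‖ ≤ 1 ∧ ‖p.2 - x k p.1‖ = rr k p.1 ∧ ⟪nu k p.1, p.2 - x k p.1⟫ = 0}


/-- **several disjoint balls with radius functions** -/
theorem exists_radial' {X ι : Type*} [TopologicalSpace X] [Fintype ι] {R0 : ℝ} (h0 : 0 < R0)
    {a b ρ : ι → X → ℝ} {x : ι → X → V} (ha : ∀ i, Continuous (a i)) (hb : ∀ i, Continuous (b i))
    (hρ : ∀ i, Continuous (ρ i))
    (hx : ∀ i, Continuous (x i)) (a1 : ∀ i p, R0 < a i p) (a2 : ∀ i p, a i p < ρ i p)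
    (b1 : ∀ i p, R0 < b i p) (b2 : ∀ i p, b i p < ρ i p)
    (sep : ∀ p i j, i ≠ j → ρ i p + ρ j p ≤ ‖x i p - x j p‖) :
    ∃ Θ : FHom X V,
      (∀ p y, (∀ i, ρ i p ≤ ‖y - x i p‖) → Θ.fwd p y = y) ∧
      (∀ p y, (∀ i, a i p = b i p) → Θ.fwd p y = y) ∧
      (∀ p y i, ‖y - x i p‖ < ρ i p →
        Θ.fwd p y = x i p + ((y - x i p) + rd R0 (ρ i p) (a i p) (b i p) (y - x i p))) := by
  classical
  -- the general form of the map
  have form : ∀ a b : ι → X → ℝ, (∀ i p, R0 < a i p) → (∀ i p, a i p < ρ i p) →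
      (∀ i p, R0 < b i p) → (∀ i p, b i p < ρ i p) →
      ∀ p y i, ‖y - x i p‖ < ρ i p → y + ∑ j, rd R0 (ρ j p) (a j p) (b j p) (y - x j p) =
        x i p + ((y - x i p) + rd R0 (ρ i p) (a i p) (b i p) (y - x i p)) := by
    intro a b a1 a2 b1 b2 p y i hy
    rw [Finset.sum_eq_single i]
    · abel
    · intro j _ hji
      refine rd_high (a2 j p) ?_
      have h1 := sep p i j (Ne.symm hji)
      have h2 : ‖x i p - x j p‖ ≤ ‖y - x i p‖ + ‖y - x j p‖ := by
        have e : x i p - x j p = (y - x j p) - (y - x i p) := by abel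
        rw [e]
        exact (norm_sub_le _ _).trans (by rw [add_comm])
      linarith
    · simp
  have far : ∀ a b : ι → X → ℝ, (∀ i p, R0 < a i p) → (∀ i p, a i p < ρ i p) →
      ∀ p y, (∀ i, ρ i p ≤ ‖y - x i p‖) →
        y + ∑ j, rd R0 (ρ j p) (a j p) (b j p) (y - x j p) = y := by
    intro a b a1 a2 p y hy
    rw [Finset.sum_eq_zero fun j _ => rd_high (a2 j p) (hy j), add_zero]
  have inv : ∀ a b : ι → X → ℝ, (∀ i p, R0 < a i p) → (∀ i p, a i p < ρ i p) →
      (∀ i p, R0 < b i p) → (∀ i p, b i p < ρ i p) → ∀ p y,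
      (y + ∑ j, rd R0 (ρ j p) (a j p) (b j p) (y - x j p)) +
        ∑ j, rd R0 (ρ j p) (b j p) (a j p)
          ((y + ∑ j, rd R0 (ρ j p) (a j p) (b j p) (y - x j p)) - x j p) = y := by
    intro a b a1 a2 b1 b2 p y
    by_cases h : ∀ i, ρ i p ≤ ‖y - x i p‖
    · rw [far a b a1 a2 p y h, far b a b1 b2 p y h]
    · push Not at h
      obtain ⟨i, hi⟩ := h
      rw [form a b a1 a2 b1 b2 p y i hi, form b a b1 b2 a1 a2 p _ i]
      · rw [add_sub_cancel_left, rd_rd h0 (a1 i p) (a2 i p) (b1 i p) (b2 i p)]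
        abel
      · rw [add_sub_cancel_left, norm_rd h0 (a1 i p) (a2 i p) (b1 i p) (b2 i p)]
        exact phi_lt (a1 i p) (a2 i p) (b1 i p) (b2 i p) hi
  have cont : ∀ a b : ι → X → ℝ, (∀ i, Continuous (a i)) → (∀ i, Continuous (b i)) →
      (∀ i p, R0 < a i p) → (∀ i p, a i p < ρ i p) →
      Continuous fun z : X × V => z.2 + ∑ j, rd R0 (ρ j z.1) (a j z.1) (b j z.1) (z.2 - x j z.1) := by
    intro a b ha hb a1 a2
    refine continuous_snd.add (continuous_finsetSum _ fun j _ => ?_)
    unfold rd hat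
    have hv : Continuous fun z : X × V => z.2 - x j z.1 :=
      continuous_snd.sub ((hx j).comp continuous_fst)
    have ha' : Continuous fun z : X × V => a j z.1 := (ha j).comp continuous_fst
    have hb' : Continuous fun z : X × V => b j z.1 := (hb j).comp continuous_fst
    have hρ' : Continuous fun z : X × V => ρ j z.1 := (hρ j).comp continuous_fst
    refine Continuous.smul (Continuous.div ?_ (by fun_prop) fun p => ?_) hv
    · refine Continuous.mul (by fun_prop) (continuous_const.max (Continuous.min ?_ ?_))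
      · exact Continuous.div (by fun_prop) (by fun_prop) fun p => by linarith [a1 j p.1]
      · exact Continuous.div (by fun_prop) (by fun_prop) fun p => by linarith [a2 j p.1]
    · exact (h0.trans_le (le_max_left _ _)).ne'
  refine ⟨⟨fun p y => y + ∑ j, rd R0 (ρ j p) (a j p) (b j p) (y - x j p),
    fun p y => y + ∑ j, rd R0 (ρ j p) (b j p) (a j p) (y - x j p),
    cont a b ha hb a1 a2, cont b a hb ha b1 b2, inv a b a1 a2 b1 b2,
    inv b a b1 b2 a1 a2⟩, far a b a1 a2, ?_, form a b a1 a2 b1 b2⟩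
  intro p y h
  show y + ∑ j, rd R0 (ρ j p) (a j p) (b j p) (y - x j p) = y
  rw [Finset.sum_eq_zero fun j _ => rd_eq (h j) _, add_zero]

/-- admissible data over the closed unit ball -/
structure AdmX {ι : Type*} (e : V) (R : ℝ) (x : ι → B → V) (rr : ι → B → ℝ) : Prop where
  cx : ∀ k, Continuous (x k)
  cr : ∀ k, Continuous (rr k)
  pos : ∀ k u, ‖u‖ ≤ 1 → 0 < rr k u
  sep : ∀ k l u, ‖u‖ ≤ 1 → k ≠ l → rr k u + rr l u < ‖x k u - x l u‖
  bd : ∀ k u, ‖u‖ ≤ 1 → ‖x k u‖ + rr k u < R
  wall : ∀ k u, ‖u‖ = 1 → ⟪e, x k u⟫ = 0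

/-- thinner radius functions -/
theorem thinner [ProperSpace B] [ProperSpace V] {ι : Type*} [Fintype ι] {e : V} {R : ℝ}
    {x nu : ι → B → V} {rr rr' : ι → B → ℝ} (h : AdmX e R x rr) (cr' : ∀ k, Continuous (rr' k))
    (pos' : ∀ k u, ‖u‖ ≤ 1 → 0 < rr' k u) (hle : ∀ k u, ‖u‖ ≤ 1 → rr' k u ≤ rr k u) :
    Eqv (KX e R x nu rr) (KX e R x nu rr') := by
  have hK : IsCompact (closedBall (0 : B) 1) := isCompact_closedBall _ _
  obtain ⟨δ, hδ, hδ'⟩ := exists_lower (ι := {q : ι × ι // q.1 ≠ q.2}) hK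
    (fun q u => ‖x q.1.1 u - x q.1.2 u‖ - (rr q.1.1 u + rr q.1.2 u))
    (fun q => (((h.cx _).sub (h.cx _)).norm.sub ((h.cr _).add (h.cr _))).continuousOn)
    (fun q u hu => by
      have := h.sep _ _ u (mem_closedBall_zero_iff.1 hu) q.2
      linarith)
  obtain ⟨δ1, hδ1, hδ1'⟩ := exists_lower hK (fun k u => R - ‖x k u‖ - rr k u)
    (fun k => ((continuous_const.sub (h.cx k).norm).sub (h.cr k)).continuousOn)
    (fun k u hu => by have := h.bd k u (mem_closedBall_zero_iff.1 hu); linarith)
  obtain ⟨δ2, hδ2, hδ2'⟩ := exists_lower hK (fun k u => rr' k u)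
    (fun k => (cr' k).continuousOn)
    (fun k u hu => pos' k u (mem_closedBall_zero_iff.1 hu))
  set η := min (δ / 2) δ1 with hηdef
  have m1 : η ≤ δ / 2 := min_le_left _ _
  have m2 : η ≤ δ1 := min_le_right _ _
  have m3 : 0 < η := lt_min (by positivity) hδ1
  have sep : ∀ k l u, k ≠ l → ‖u‖ ≤ 1 → (rr k u + η) + (rr l u + η) ≤ ‖x k u - x l u‖ := by
    intro k l u hkl hu
    have := hδ' ⟨(k, l), hkl⟩ u (mem_closedBall_zero_iff.2 hu)
    simp only at this
    linarith
  have bd : ∀ k u, ‖u‖ ≤ 1 → ‖x k u‖ + (rr k u + η) ≤ R := by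
    intro k u hu
    have := hδ1' k u (mem_closedBall_zero_iff.2 hu)
    linarith
  have low : ∀ k u, ‖u‖ ≤ 1 → δ2 ≤ rr' k u := fun k u hu => hδ2' k u (mem_closedBall_zero_iff.2 hu)
  -- the radii
  have hcl : ∀ u : B, 0 ≤ cl (2 - ‖u‖) ∧ cl (2 - ‖u‖) ≤ 1 := fun u => cl_mem _
  set b : ι → B → ℝ := fun k u => rr k (ret u) + cl (2 - ‖u‖) * (rr' k (ret u) - rr k (ret u))
    with hbdef
  have b1 : ∀ k u, rr' k (ret u) ≤ b k u := fun k u => by
    have h1 := hcl u
    have h2 := hle k (ret u) (norm_ret_le u)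
    simp only [hbdef]
    nlinarith
  have b2 : ∀ k u, b k u ≤ rr k (ret u) := fun k u => by
    have h1 := hcl u
    have h2 := hle k (ret u) (norm_ret_le u)
    simp only [hbdef]
    nlinarith
  have hb : ∀ k, Continuous (b k) := by
    intro k
    have h1 : Continuous fun u : B => cl (2 - ‖u‖) := continuous_cl.comp (by fun_prop)
    have h2 := (h.cr k).comp continuous_ret
    have h3 := (cr' k).comp continuous_ret
    exact h2.add (h1.mul (h3.sub h2))
  obtain ⟨Θ, t1, t2, t3⟩ := exists_radial' (V := V) (R0 := δ2 / 2)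
    (by positivity) (a := fun k u => rr k (ret u)) (b := b)
    (ρ := fun k u => rr k (ret u) + η) (x := fun k u => x k (ret u))
    (fun k => (h.cr k).comp continuous_ret) hb
    (fun k => ((h.cr k).comp continuous_ret).add continuous_const)
    (fun k => (h.cx k).comp continuous_ret)
    (fun k u => by
      have h1 := low k (ret u) (norm_ret_le u)
      have h2 := hle k (ret u) (norm_ret_le u)
      linarith)
    (fun k u => by linarith)
    (fun k u => by
      have h1 := low k (ret u) (norm_ret_le u)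
      have h2 := b1 k u
      linarith)
    (fun k u => by
      have h2 := b2 k u
      linarith)
    (fun u i j hij => sep i j _ hij (norm_ret_le u))
  have hfix : ∀ u y, R ≤ ‖y‖ → Θ.fwd u y = y := by
    intro u y hy
    refine t1 u y fun k => ?_
    have h1 := bd k (ret u) (norm_ret_le u)
    have h3 := norm_sub_norm_le y (x k (ret u))
    linarith
  have hfar : ∀ u y, 2 ≤ ‖u‖ → Θ.fwd u y = y := by
    intro u y hu
    refine t2 u y fun k => ?_
    show rr k (ret u) = rr k (ret u) + cl (2 - ‖u‖) * (rr' k (ret u) - rr k (ret u))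
    rw [cl_of_nonpos (by linarith)]
    ring
  -- over the ball
  have key : ∀ u, ‖u‖ ≤ 1 → ∀ y, (Θ.fwd u y = y ∧ ∀ k, rr k u < ‖y - x k u‖) ∨
      ∃ k, ∃ c : ℝ, 0 < c ∧ Θ.fwd u y = x k u + c • (y - x k u) ∧
        c * ‖y - x k u‖ = phi (δ2 / 2) (rr k u + η) (rr k u) (rr' k u) ‖y - x k u‖ ∧
        (∀ l, l ≠ k → rr l u < ‖y - x l u‖ ∧ rr l u < ‖Θ.fwd u y - x l u‖) := by
    intro u hu y
    by_cases h1 : ∀ k, rr k u + η ≤ ‖y - x k u‖
    · exact Or.inl ⟨t1 u y fun k => by simpa only [ret_of_le hu] using h1 k,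
        fun k => by linarith [h1 k]⟩
    · right
      push Not at h1
      obtain ⟨k, hk⟩ := h1
      have h1 := t3 u y k (by simpa only [ret_of_le hu] using hk)
      have hbu : b k u = rr' k u := by
        simp only [hbdef, ret_of_le hu]
        rw [cl_of_one_le (by linarith)]
        ring
      simp only [ret_of_le hu, hbu] at h1
      have l1 := low k u hu
      have l2 := hle k u hu
      obtain ⟨c, hc, c1, c2⟩ := rd_spec (V := V) (R0 := δ2 / 2) (ρ := rr k u + η) (a := rr k u)
        (b := rr' k u) (by positivity) (by linarith) (by linarith) (by linarith) (by linarith)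
        (y - x k u)
      rw [c1] at h1
      refine ⟨k, c, hc, h1, c2, fun l hl => ?_⟩
      have hs := sep k l u (Ne.symm hl) hu
      have aux : ∀ z : V, ‖z - x k u‖ < rr k u + η → rr l u < ‖z - x l u‖ := by
        intro z hz
        have e : x k u - x l u = (z - x l u) - (z - x k u) := by abel
        have h2 : ‖x k u - x l u‖ ≤ ‖z - x l u‖ + ‖z - x k u‖ := by
          rw [e]; exact norm_sub_le _ _
        linarith
      refine ⟨aux y hk, aux _ ?_⟩
      rw [h1, add_sub_cancel_left, norm_smul, Real.norm_of_nonneg hc.le, c2]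
      exact phi_lt (by linarith) (by linarith) (by linarith) (by linarith) hk
  have hnorm : ∀ u, ‖u‖ ≤ 1 → ∀ y k,
      (rr' k u ≤ ‖Θ.fwd u y - x k u‖ ↔ rr k u ≤ ‖y - x k u‖) ∧
      ((‖Θ.fwd u y - x k u‖ = rr' k u ∧ ⟪nu k u, Θ.fwd u y - x k u⟫ = 0) ↔
        (‖y - x k u‖ = rr k u ∧ ⟪nu k u, y - x k u⟫ = 0)) := by
    intro u hu y k
    have l1 := low k u hu
    have l2 := hle k u hu
    rcases key u hu y with ⟨h1, h2⟩ | ⟨l, c, hc, h1, h2, h3⟩
    · rw [h1]
      have := h2 k
      refine ⟨⟨fun _ => by linarith, fun _ => by linarith⟩, ⟨fun h => ?_, fun h => ?_⟩⟩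
      · linarith [h.1]
      · linarith [h.1]
    · rcases eq_or_ne k l with rfl | hkl
      · rw [h1, add_sub_cancel_left, norm_smul, Real.norm_of_nonneg hc.le, h2, inner_smul_right]
        have e1 := phi_eq_iff (R0 := δ2 / 2) (ρ := rr k u + η) (a := rr k u) (b := rr' k u)
          (t := ‖y - x k u‖) (by linarith) (by linarith) (by linarith) (by linarith)
        have e2 := phi_le_iff (R0 := δ2 / 2) (ρ := rr k u + η) (a := rr' k u) (b := rr k u)
          (t := phi (δ2 / 2) (rr k u + η) (rr k u) (rr' k u) ‖y - x k u‖)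
          (by linarith) (by linarith) (by linarith) (by linarith)
        rw [phi_phi (by linarith) (by linarith) (by linarith) (by linarith)] at e2
        have e3 := phi_le_iff (R0 := δ2 / 2) (ρ := rr k u + η) (a := rr k u) (b := rr' k u)
          (t := ‖y - x k u‖) (by linarith) (by linarith) (by linarith) (by linarith)
        refine ⟨?_, ?_⟩
        · constructor
          · intro h
            by_contra hc'
            have h4 := e3.2 (not_le.1 hc').le
            have h5 := e1.1 (le_antisymm h4 h)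
            linarith [not_le.1 hc']
          · intro h
            by_contra hc'
            have h4 := e2.2 (not_le.1 hc').le
            have h6 := e1.2 (le_antisymm h4 h)
            linarith [not_le.1 hc']
        · rw [e1, mul_eq_zero, or_iff_right hc.ne']
      · have h4 := h3 k hkl
        refine ⟨⟨fun _ => by linarith [h4.1], fun _ => by linarith [h4.2]⟩,
          ⟨fun h => ?_, fun h => ?_⟩⟩
        · linarith [h.1, h4.2]
        · linarith [h.1, h4.1]
  have hwall : ∀ u, ‖u‖ = 1 → ∀ y, ⟪e, Θ.fwd u y⟫ = 0 ↔ ⟪e, y⟫ = 0 := by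
    intro u hu y
    rcases key u hu.le y with ⟨h1, _⟩ | ⟨k, c, hc, h1, _, _⟩
    · rw [h1]
    · have hx := h.wall k u hu
      rw [h1, inner_add_right, inner_smul_right, inner_sub_right, hx, sub_zero, zero_add,
        mul_eq_zero, or_iff_right hc.ne']
  refine ⟨Θ.homeo, ⟨closedBall 0 2 ×ˢ closedBall 0 R,
    (isCompact_closedBall _ _).prod (isCompact_closedBall _ _), ?_⟩, ?_⟩
  · rintro ⟨u, y⟩ hp
    show (u, Θ.fwd u y) = (u, y)
    rw [mem_prod, mem_closedBall_zero_iff, mem_closedBall_zero_iff, not_and_or, not_le,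
      not_le] at hp
    rcases hp with hp | hp
    · rw [hfar u y hp.le]
    · rw [hfix u y hp.le]
  · rintro ⟨u, y⟩
    show (u, y) ∈ KX e R x nu rr ↔ (u, Θ.fwd u y) ∈ KX e R x nu rr'
    simp only [KX, mem_ofPred_eq]
    have a1 := norm_le_iff Θ (hfix u) y
    have a2 := norm_eq_iff Θ (hfix u) y
    rw [a1, a2]
    refine or_congr ?_ (or_congr ?_ ?_)
    · constructor
      · rintro ⟨c1, c2, c3, c4⟩
        exact ⟨(hwall u c2 y).2 c1, c2, c3, fun k => (hnorm u c2.le y k).1.2 (c4 k)⟩
      · rintro ⟨c1, c2, c3, c4⟩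
        exact ⟨(hwall u c2 y).1 c1, c2, c3, fun k => (hnorm u c2.le y k).1.1 (c4 k)⟩
    · constructor
      · rintro ⟨c1, c2, c3⟩
        exact ⟨by rw [hfix u y c3.ge, c1], c2, c3⟩
      · rintro ⟨c1, c2, c3⟩
        exact ⟨by rw [← hfix u y c3.ge, c1], c2, c3⟩
    · refine exists_congr fun k => ?_
      constructor
      · rintro ⟨c1, c2⟩
        exact ⟨c1, (hnorm u c1 y k).2.2 c2⟩
      · rintro ⟨c1, c2⟩
        exact ⟨c1, (hnorm u c1 y k).2.1 c2⟩

/-- **change of the radius functions** -/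
theorem change [ProperSpace B] [ProperSpace V] {ι : Type*} [Fintype ι] {e : V} {R : ℝ}
    {x nu : ι → B → V} {rr rr' : ι → B → ℝ} (h : AdmX e R x rr) (h' : AdmX e R x rr') :
    Eqv (KX e R x nu rr) (KX e R x nu rr') := by
  have c : ∀ k, Continuous fun u => min (rr k u) (rr' k u) := fun k => (h.cr k).min (h'.cr k)
  have p : ∀ k u, ‖u‖ ≤ 1 → 0 < min (rr k u) (rr' k u) := fun k u hu =>
    lt_min (h.pos k u hu) (h'.pos k u hu)
  exact (thinner h c p fun k u _ => min_le_left _ _).trans
    (thinner h' c p fun k u _ => min_le_right _ _).symm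

end Crest.Agent.R267.KX_118
end

-- ▼ part R267/Inv_118
section

/-!
# Inversions reverse round discs (row 267, leaf M2 of LEMMA M)

`B = ball (c w) (ε c)`, `Σ(M) = {v ∈ ∂B | ⟪M, v - c w⟫ = -ε² c ⟪M, w⟫}` is the standard disc
boundary with normal `M`, core `c (w - ε² ⟪M, w⟫ M)` and radius `ε c √(1 - ε² ⟪M, w⟫²)`.
The inversion `v ↦ c² (1 - ε²) v / |v|²` preserves `∂B` (and its inside) and carries `Σ(M)` to
`Σ(M - 2 ⟪M, w⟫ w)`.
-/

set_option autoImplicit false

namespace Crest.Agent.R267.Inv_118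

open scoped RealInnerProductSpace

variable {V : Type*} [NormedAddCommGroup V] [InnerProductSpace ℝ V]

/-- the inversion -/
noncomputable def inv (c ε : ℝ) (v : V) : V := (c ^ 2 * (1 - ε ^ 2) / ‖v‖ ^ 2) • v

/-- the core -/
noncomputable def cor (c ε : ℝ) (w M : V) : V := c • (w - (ε ^ 2 * ⟪M, w⟫) • M)

/-- the radius -/
noncomputable def rds (c ε : ℝ) (w M : V) : ℝ := ε * c * √(1 - ε ^ 2 * ⟪M, w⟫ ^ 2)



theorem sq_lt_iff {a b : ℝ} (ha : 0 ≤ a) (hb : 0 ≤ b) : a ^ 2 - b ^ 2 < 0 ↔ a < b := by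
  rw [sub_neg]
  exact pow_lt_pow_iff_left₀ ha hb two_ne_zero

theorem sq_eq_iff' {a b : ℝ} (ha : 0 ≤ a) (hb : 0 ≤ b) : a ^ 2 - b ^ 2 = 0 ↔ a = b := by
  rw [sub_eq_zero]
  exact pow_left_inj₀ ha hb two_ne_zero





/-- `Σ(M)` is the standard disc boundary with core `cor` and radius `rds` -/
theorem sigma_iff {c ε : ℝ} (hc : 0 < c) (h0 : 0 < ε) (h1 : ε < 1) {w M : V} (hw : ‖w‖ = 1)
    (hM : ‖M‖ = 1) (v : V) :
    (‖v - cor c ε w M‖ = rds c ε w M ∧ ⟪M, v - cor c ε w M⟫ = 0) ↔
      (‖v - c • w‖ = ε * c ∧ ⟪M, v - c • w⟫ = -(ε ^ 2 * c * ⟪M, w⟫)) := by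
  have hMM : ⟪M, M⟫ = 1 := by rw [real_inner_self_eq_norm_sq, hM]; norm_num
  have ha : ⟪M, w⟫ ^ 2 ≤ 1 := by
    have := abs_real_inner_le_norm M w
    rw [hw, hM, one_mul] at this
    rw [← sq_abs]
    nlinarith [abs_nonneg ⟪M, w⟫]
  have e1 : v - cor c ε w M = (v - c • w) + (ε ^ 2 * c * ⟪M, w⟫) • M := by
    unfold cor
    rw [smul_sub, smul_smul]
    have : c * (ε ^ 2 * ⟪M, w⟫) = ε ^ 2 * c * ⟪M, w⟫ := by ring
    rw [this]
    abel
  have e2 : ⟪M, v - cor c ε w M⟫ = ⟪M, v - c • w⟫ + ε ^ 2 * c * ⟪M, w⟫ := by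
    rw [e1, inner_add_right, inner_smul_right, hMM, mul_one]
  rw [e2, add_eq_zero_iff_eq_neg]
  refine and_congr_left fun h => ?_
  have h3 : 0 ≤ 1 - ε ^ 2 * ⟪M, w⟫ ^ 2 := by nlinarith [sq_nonneg ⟪M, w⟫]
  rw [← sq_eq_iff' (norm_nonneg _) (by unfold rds; positivity),
    ← sq_eq_iff' (norm_nonneg _) (by positivity)]
  have e3 : ‖v - cor c ε w M‖ ^ 2 = ‖v - c • w‖ ^ 2 - (ε ^ 2 * c * ⟪M, w⟫) ^ 2 := by
    have e5 : ⟪v - c • w, M⟫ = -(ε ^ 2 * c * ⟪M, w⟫) := by rw [real_inner_comm, h]
    rw [e1, norm_add_sq_real, inner_smul_right, e5, norm_smul, hM, mul_one,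
      Real.norm_eq_abs, sq_abs]
    ring
  have e4 : rds c ε w M ^ 2 = (ε * c) ^ 2 * (1 - ε ^ 2 * ⟪M, w⟫ ^ 2) := by
    unfold rds
    rw [mul_pow, Real.sq_sqrt h3]
  rw [e3, e4]
  have : ‖v - c • w‖ ^ 2 - (ε ^ 2 * c * ⟪M, w⟫) ^ 2 - (ε * c) ^ 2 * (1 - ε ^ 2 * ⟪M, w⟫ ^ 2) =
      ‖v - c • w‖ ^ 2 - (ε * c) ^ 2 := by ring
  rw [this]

end Crest.Agent.R267.Inv_118
end

-- ▼ part R267/Shape_118

/-!
# Leaf SHAPE of LEMMA M (row 267)
-/

set_option autoImplicit false

namespace Crest.Agent.R267.Shape_118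

open Set Metric
open scoped RealInnerProductSpace
open Crest.Agent.R267.GS_808 Crest.Agent.R267.DraftB_808 Crest.Agent.R267.NF_808
open Crest.Agent.R267.LM_808 Crest.Agent.R267.KX_118 Crest.Agent.R267.Inv_118
open Crest.Agent.R267.T1_118 Crest.Agent.R267.Rad_118 Crest.Agent.R267.Move_118
open Crest.Agent.R267

/-! ### the strand `i` -/

variable {n m : ℕ} {i j : Fin m}

theorem continuous_us {n : ℕ} : Continuous fun u : Bc (n + 2) => us u (16 * u 1 - 1) := by
  unfold us
  exact continuous_id.update 1 (by fun_prop)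

theorem continuous_fr_aux (D : NFD n m i j) {f : Bc (n + 2) → Vc (n + 2)} (hf : Continuous f) :
    Continuous fun u => fr D u (f u) := by
  have e : (fun u => fr D u (f u)) = fun u => if 0 ≤ u 1 then D.F.Rf u (f u) else f u := by
    funext u
    unfold fr
    split_ifs <;> rfl
  rw [e]
  refine Continuous.if_le (D.F.c_Rf.comp (continuous_id.prodMk hf)) hf continuous_const
    (continuous_apply 1) fun u hu => ?_
  rw [D.mid_F u (by rw [← hu]; norm_num)]
  rfl

theorem continuous_w1 (D : NFD n m i j) : Continuous (w1 D) :=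
  continuous_fr_aux D (D.P.c_om.comp continuous_us)

theorem continuous_M1 (D : NFD n m i j) : Continuous (M1 D) :=
  continuous_fr_aux D (D.P.c_M.comp continuous_us)

theorem norm_w1 (D : NFD n m i j) (u : Bc (n + 2)) : ‖w1 D u‖ = 1 := by
  unfold w1
  rw [LinearIsometryEquiv.norm_map, D.P.n_om]

theorem norm_M1 (D : NFD n m i j) (u : Bc (n + 2)) : ‖M1 D u‖ = 1 := by
  unfold M1
  rw [LinearIsometryEquiv.norm_map, D.P.n_M]

theorem norm_us {u : Bc (n + 2)} (h : ‖u‖ = 1) : 1 ≤ ‖us u (16 * u 1 - 1)‖ := by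
  obtain ⟨k, hk⟩ : ∃ k, 1 ≤ |u k| := by
    by_contra hc
    push Not at hc
    have : ‖u‖ < 1 := (pi_norm_lt_iff one_pos).2 fun k => by simpa using hc k
    linarith
  by_cases h1 : k = 1
  · subst h1
    have h2 : |us u (16 * u 1 - 1) 1| ≤ ‖us u (16 * u 1 - 1)‖ := by
      rw [← Real.norm_eq_abs]; exact norm_le_pi_norm _ _
    have h3 : us u (16 * u 1 - 1) 1 = 16 * u 1 - 1 := by simp [us]
    rw [h3] at h2
    refine le_trans ?_ h2
    rcases le_abs.1 hk with h4 | h4
    · exact le_abs.2 (Or.inl (by linarith))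
    · exact le_abs.2 (Or.inr (by linarith))
  · have h2 : |us u (16 * u 1 - 1) k| ≤ ‖us u (16 * u 1 - 1)‖ := by
      rw [← Real.norm_eq_abs]; exact norm_le_pi_norm _ _
    have h3 : us u (16 * u 1 - 1) k = u k := by simp [us, Function.update_of_ne h1]
    rw [h3] at h2
    exact hk.trans h2

theorem fr_wall (D : NFD n m i j) {u : Bc (n + 2)} (h : 1 ≤ ‖u‖) :
    fr D u (ec (n + 2)) = ec (n + 2) := by
  unfold fr
  split_ifs
  · exact D.F.wall u h
  · rfl

theorem M1_wall (D : NFD n m i j) {u : Bc (n + 2)} (h : ‖u‖ = 1) : M1 D u = ec (n + 2) := by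
  unfold M1
  rw [D.P.wall_M _ (norm_us h), fr_wall D h.ge]

theorem w1_wall (D : NFD n m i j) {u : Bc (n + 2)} (h : ‖u‖ = 1) :
    ⟪ec (n + 2), w1 D u⟫ = 0 := by
  unfold w1
  rw [← fr_wall D h.ge, LinearIsometryEquiv.inner_map_map]
  exact D.P.wall_om _ (norm_us h)

theorem rest_us {u : Bc (n + 2)} (h : 1 ≤ |16 * u 1 - 1|) :
    RestAt (us u (16 * u 1 - 1) : Bc (n + 1 + 1)) := by
  refine Or.inr ⟨1, by simp, ?_⟩
  simpa [us] using h

theorem w1_left (D : NFD n m i j) {u : Bc (n + 2)} (h : u 1 < 0) : w1 D u = hc (n + 1) := by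
  unfold w1 fr
  rw [if_neg (by linarith), D.P.rest_om _ (rest_us (le_abs.2 (Or.inr (by linarith))))]
  rfl

theorem M1_left (D : NFD n m i j) {u : Bc (n + 2)} (h : u 1 < 0) : M1 D u = ec (n + 2) := by
  unfold M1 fr
  rw [if_neg (by linarith), D.P.rest_M _ (rest_us (le_abs.2 (Or.inr (by linarith))))]
  rfl

theorem inner_ec_hc : ⟪ec (n + 2), hc (n + 1)⟫ = 0 := by
  unfold ec hc
  rw [EuclideanSpace.inner_single_left]
  simp [Fin.ext_iff]

/-! ### the radius profile -/


/-- the radius of the strand `i` of `G₊` -/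
noncomputable def el (q : Rad) (s : ℝ) : ℝ := Real.exp (lamc q.rho q.R1 (1 / 4) (1 / 4) s)

theorem el_pos (q : Rad) (s : ℝ) : 0 < el q s := Real.exp_pos _

section par

variable {D : NFD n m i j} {q : Rad} (hq : Par D q)
include hq

theorem log_lt : Real.log q.rho < Real.log q.R1 :=
  Real.log_lt_log hq.rho_pos (by linarith [hq.rho_lt, hq.R1_gt])

theorem el_ge (s : ℝ) : q.rho ≤ el q s := by
  have h := log_lt hq
  rw [← Real.exp_log hq.rho_pos]
  refine Real.exp_le_exp.2 ?_
  unfold lamc lam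
  have h1 : max (-(1 / 4)) (min (1 / 4) s) ≤ 1 / 4 := max_le (by norm_num) (min_le_left _ _)
  nlinarith

theorem el_le (s : ℝ) : el q s ≤ q.R1 := by
  have h := log_lt hq
  have hR : 0 < q.R1 := by linarith [hq.R1_gt]
  rw [← Real.exp_log hR]
  refine Real.exp_le_exp.2 ?_
  unfold lamc lam
  have h1 : -(1 / 4) ≤ max (-(1 / 4)) (min (1 / 4) s) := le_max_left _ _
  nlinarith

theorem el_left {s : ℝ} (hs : s ≤ -(1 / 4)) : el q s = q.R1 := by
  have hR : 0 < q.R1 := by linarith [hq.R1_gt]
  unfold el lamc lam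
  rw [min_eq_right (by linarith), max_eq_left hs]
  have : (1 / 2 + 2 * -(1 / 4)) * Real.log q.rho + (1 / 2 - 2 * -(1 / 4)) * Real.log q.R1 =
    Real.log q.R1 := by ring
  rw [this, Real.exp_log hR]

theorem el_right {s : ℝ} (hs : 0 ≤ s) : el q s < 1 / 1000 := by
  have h := log_lt hq
  have hR : 0 < q.R1 := by linarith [hq.R1_gt]
  have h1 : 0 ≤ max (-(1 / 4)) (min (1 / 4) s) := le_max_of_le_right (le_min (by norm_num) hs)
  have h2 : el q s ^ 2 ≤ q.rho * q.R1 := by
    have e : q.rho * q.R1 = Real.exp (Real.log q.rho + Real.log q.R1) := by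
      rw [Real.exp_add, Real.exp_log hq.rho_pos, Real.exp_log hR]
    rw [e]
    unfold el
    rw [← Real.exp_nat_mul]
    refine Real.exp_le_exp.2 ?_
    unfold lamc lam
    push_cast
    nlinarith
  have h3 := hq.prod_lt
  have h4 := el_pos q s
  nlinarith

theorem sa_pos : 0 < sa q := by
  have h1 := hq.eps_pos
  have h2 := hq.eps_lt
  unfold sa
  exact Real.sqrt_pos.2 (by nlinarith)

theorem sa_sq : sa q ^ 2 = 1 - q.eps ^ 2 := by
  have h1 := hq.eps_pos
  have h2 := hq.eps_lt
  unfold sa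
  exact Real.sq_sqrt (by nlinarith)

theorem sa_le : sa q ≤ 1 := by
  have h1 := sa_sq hq
  have h2 := sa_pos hq
  have h3 := hq.eps_pos
  nlinarith

theorem sa_ge : 999 / 1000 ≤ sa q := by
  have h1 := sa_sq hq
  have h2 := sa_pos hq
  have h3 := hq.eps_pos
  have h4 := hq.eps_lt
  nlinarith

/-- the centre radius -/
theorem c_ge (s : ℝ) : el q s ≤ el q s / sa q := by
  rw [le_div_iff₀ (sa_pos hq)]
  have := sa_le hq
  have := el_pos q s
  nlinarith

theorem c_le (s : ℝ) : el q s / sa q ≤ 101 / 100 * el q s := by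
  rw [div_le_iff₀ (sa_pos hq)]
  have := sa_ge hq
  have := el_pos q s
  nlinarith

theorem r_small (s : ℝ) : q.r < el q s / 4000 := by
  have h1 := el_ge hq s
  have h2 := hq.r_eps
  have h3 := hq.eps_lt
  have h4 := hq.rho_pos
  nlinarith

theorem R_big : 2 * q.R1 ≤ q.R := by
  have hR : 0 < q.R1 := by linarith [hq.R1_gt]
  have h1 := hq.log_R
  have h2 := hq.kap_gt
  have h3 : q.R = q.R1 * Real.exp (kap q / 16) := by
    rw [← Real.exp_log hq.R_pos, h1, Real.exp_add, Real.exp_log hR]
  have h4 := Real.add_one_le_exp (kap q / 16)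
  rw [h3]
  nlinarith

/-- **the gap** between strand `i` (in all positions needed) and the others -/
theorem gap {u : Bc (n + 2)} (hu : ‖u‖ ≤ 1) {k : Fin m} (hk : k ≠ i) {κ σ : ℝ}
    (h1 : el q (u 1) ≤ κ) (h2 : κ ≤ 101 / 100 * el q (u 1)) (h3 : 0 ≤ σ)
    (h4 : σ ≤ el q (u 1) / 1000) :
    1 / 500 * el q (u 1) + q.r < ‖(κ • w1 D u - (σ * ⟪M1 D u, w1 D u⟫) • M1 D u) - D.y k u‖ := by
  have hel := el_pos q (u 1)
  have hr := r_small hq (u 1)
  have hM : |⟪M1 D u, w1 D u⟫| ≤ 1 := by
    have := abs_real_inner_le_norm (M1 D u) (w1 D u)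
    rwa [norm_M1, norm_w1, one_mul] at this
  have hκ : 0 < κ := hel.trans_le h1
  have e1 : ‖κ • w1 D u‖ = κ := by rw [norm_smul, norm_w1, Real.norm_of_nonneg hκ.le, mul_one]
  have e2 : ‖(σ * ⟪M1 D u, w1 D u⟫) • M1 D u‖ ≤ σ := by
    rw [norm_smul, norm_M1, mul_one, norm_mul, Real.norm_of_nonneg h3, Real.norm_eq_abs]
    nlinarith
  have up : ‖κ • w1 D u - (σ * ⟪M1 D u, w1 D u⟫) • M1 D u‖ ≤ κ + σ := by
    refine (norm_sub_le _ _).trans ?_
    rw [e1]; linarith
  have low : κ - σ ≤ ‖κ • w1 D u - (σ * ⟪M1 D u, w1 D u⟫) • M1 D u‖ := by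
    have := norm_sub_norm_le (κ • w1 D u) ((σ * ⟪M1 D u, w1 D u⟫) • M1 D u)
    rw [e1] at this
    linarith
  set P := κ • w1 D u - (σ * ⟪M1 D u, w1 D u⟫) • M1 D u with hP
  by_cases hkj : k = j
  · subst hkj
    rw [D.yj, sub_zero]
    linarith
  rcases le_or_gt 0 (u 1) with hs | hs
  · have h5 := el_right hq hs
    have h6 := D.far k u hkj
    have h7 : ‖D.y k u‖ - ‖P‖ ≤ ‖P - D.y k u‖ := by
      have := norm_sub_norm_le (D.y k u) P
      rwa [norm_sub_rev (D.y k u) P] at this
    linarith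
  · have hP' : P = κ • hc (n + 1) := by
      rw [hP, w1_left D hs, M1_left D hs, inner_ec_hc, mul_zero, zero_smul, sub_zero]
    rcases le_or_gt (-(1 / 2)) (u 1) with hs' | hs'
    · have hy : D.y k u = D.p k := D.mid_y k u (abs_le.2 ⟨hs', by linarith⟩)
      have h6 := D.p_norm k hkj
      have h8 : ‖P - D.y k u‖ ^ 2 = κ ^ 2 + ‖D.p k‖ ^ 2 := by
        have hh : ‖(hc (n + 1) : Vc (n + 2))‖ = 1 := by
          rw [← w1_left D hs, norm_w1]
        rw [hP', hy, norm_sub_sq_real, inner_smul_left, D.p_h k, norm_smul, hh,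
          Real.norm_of_nonneg hκ.le]
        ring
      have h9 : 0 ≤ ‖P - D.y k u‖ := norm_nonneg _
      have h10 := hq.r_pos
      by_contra hc
      have h11 : ‖P - D.y k u‖ ^ 2 ≤ (1 / 500 * el q (u 1) + q.r) ^ 2 :=
        pow_le_pow_left₀ h9 (not_lt.1 hc) 2
      nlinarith
    · have h5 := el_left hq (s := u 1) (by linarith)
      have h6 := hq.y_lt k u hk hu
      have h7 := norm_sub_norm_le P (D.y k u)
      rw [h5] at h1 h2 h4 hel hr ⊢
      linarith

end par

/-! ### the data of the strand `i` with round discs adapted to the inversion -/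

/-- cores -/
noncomputable def xs (D : NFD n m i j) (q : Rad) (k : Fin m) (u : Bc (n + 2)) : Vc (n + 2) :=
  if k = i then cor (el q (u 1) / sa q) q.eps (w1 D u) (M1 D u) else D.y k u

/-- radii -/
noncomputable def rs (D : NFD n m i j) (q : Rad) (k : Fin m) (u : Bc (n + 2)) : ℝ :=
  if k = i then rds (el q (u 1) / sa q) q.eps (w1 D u) (M1 D u) else q.r

theorem continuous_el (q : Rad) : Continuous fun u : Bc (n + 2) => el q (u 1) := by
  unfold el lamc lam
  fun_prop

theorem continuous_xs (D : NFD n m i j) (q : Rad) (k : Fin m) : Continuous (xs D q k) := by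
  unfold xs
  split_ifs with h
  · have h1 := continuous_w1 D
    have h2 := continuous_M1 D
    have h3 : Continuous fun u : Bc (n + 2) => el q (u 1) / sa q := (continuous_el q).div_const _
    have h4 : Continuous fun u => ⟪M1 D u, w1 D u⟫ := h2.inner h1
    unfold cor
    exact h3.smul (h1.sub ((continuous_const.mul h4).smul h2))
  · exact D.c_y k

theorem continuous_rs (D : NFD n m i j) (q : Rad) (k : Fin m) : Continuous (rs D q k) := by
  unfold rs
  split_ifs with h
  · have h1 := continuous_w1 D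
    have h2 := continuous_M1 D
    have h3 : Continuous fun u : Bc (n + 2) => el q (u 1) / sa q := (continuous_el q).div_const _
    have h4 : Continuous fun u => ⟪M1 D u, w1 D u⟫ := h2.inner h1
    unfold rds
    exact (continuous_const.mul h3).mul
      (Real.continuous_sqrt.comp (continuous_const.sub (continuous_const.mul (h4.pow 2))))
  · exact continuous_const

theorem continuous_nup (D : NFD n m i j) (k : Fin m) : Continuous (nup D k) := by
  unfold nup
  split_ifs with h h'
  · exact continuous_M1 D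
  · exact D.F.c_Rf.comp (continuous_id.prodMk continuous_const)
  · exact D.c_N k

theorem norm_nup (D : NFD n m i j) (k : Fin m) (u : Bc (n + 2)) : ‖nup D k u‖ = 1 := by
  unfold nup
  split_ifs with h h'
  · exact norm_M1 D u
  · rw [LinearIsometryEquiv.norm_map]
    simp [ec]
  · exact D.n_N k u

theorem nup_wall (D : NFD n m i j) (k : Fin m) {u : Bc (n + 2)} (h : ‖u‖ = 1) :
    nup D k u = ec (n + 2) := by
  unfold nup
  split_ifs with h1 h2
  · exact M1_wall D h
  · exact D.F.wall u h.ge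
  · exact D.wall_N k u h.ge

section par2

variable {D : NFD n m i j} {q : Rad} (hq : Par D q)
include hq

theorem c_pos (s : ℝ) : 0 < el q s / sa q := div_pos (el_pos q s) (sa_pos hq)

omit hq in
theorem inner_sq_le (u : Bc (n + 2)) : ⟪M1 D u, w1 D u⟫ ^ 2 ≤ 1 := by
  have := abs_real_inner_le_norm (M1 D u) (w1 D u)
  rw [norm_M1, norm_w1, one_mul] at this
  rw [← sq_abs]
  nlinarith [abs_nonneg ⟪M1 D u, w1 D u⟫]

theorem sqrt_mem (u : Bc (n + 2)) : 0 < √(1 - q.eps ^ 2 * ⟪M1 D u, w1 D u⟫ ^ 2) ∧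
    √(1 - q.eps ^ 2 * ⟪M1 D u, w1 D u⟫ ^ 2) ≤ 1 := by
  have h1 := inner_sq_le (D := D) u
  have h2 := hq.eps_pos
  have h3 := hq.eps_lt
  have h4 : q.eps ^ 2 < 1 / 2 := by nlinarith
  have h5 := sq_nonneg ⟪M1 D u, w1 D u⟫
  refine ⟨Real.sqrt_pos.2 (by nlinarith), Real.sqrt_le_one.2 ?_⟩
  nlinarith [sq_nonneg q.eps]

theorem rs_pos (k : Fin m) (u : Bc (n + 2)) : 0 < rs D q k u := by
  unfold rs
  split_ifs with h
  · unfold rds
    exact mul_pos (mul_pos hq.eps_pos (c_pos hq _)) (sqrt_mem hq u).1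
  · exact hq.r_pos

theorem rs_i_le (u : Bc (n + 2)) : rs D q i u ≤ 1 / 500 * el q (u 1) := by
  unfold rs
  rw [if_pos rfl]
  unfold rds
  have h1 := sqrt_mem hq u
  have h2 := hq.eps_pos
  have h3 := hq.eps_lt
  have h4 := c_le hq (u 1)
  have h5 := c_pos hq (u 1)
  have h6 := el_pos q (u 1)
  calc q.eps * (el q (u 1) / sa q) * √(1 - q.eps ^ 2 * ⟪M1 D u, w1 D u⟫ ^ 2)
      ≤ q.eps * (el q (u 1) / sa q) * 1 := by
        gcongr
        exact h1.2
    _ ≤ 1 / 1000 * (101 / 100 * el q (u 1)) := by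
        rw [mul_one]
        gcongr
    _ ≤ 1 / 500 * el q (u 1) := by nlinarith

omit hq in
theorem xs_i (u : Bc (n + 2)) : xs D q i u = (el q (u 1) / sa q) • w1 D u -
    ((el q (u 1) / sa q * q.eps ^ 2) * ⟪M1 D u, w1 D u⟫) • M1 D u := by
  unfold xs cor
  rw [if_pos rfl, smul_sub, smul_smul]
  congr 2
  ring

theorem sig_le (s : ℝ) : el q s / sa q * q.eps ^ 2 ≤ el q s / 1000 := by
  have h2 := hq.eps_pos
  have h3 := hq.eps_lt
  have h4 := c_le hq s
  have h5 := c_pos hq s
  have h6 := el_pos q s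
  have h7 : q.eps ^ 2 ≤ 1 / 1000 * (1 / 1000) := by nlinarith
  calc el q s / sa q * q.eps ^ 2 ≤ (101 / 100 * el q s) * (1 / 1000 * (1 / 1000)) := by gcongr
    _ ≤ el q s / 1000 := by nlinarith

theorem gap_i {u : Bc (n + 2)} (hu : ‖u‖ ≤ 1) {k : Fin m} (hk : k ≠ i) :
    1 / 500 * el q (u 1) + q.r < ‖xs D q i u - D.y k u‖ := by
  rw [xs_i]
  exact gap hq hu hk (c_ge hq _) (c_le hq _)
    (mul_nonneg (c_pos hq _).le (sq_nonneg _)) (sig_le hq _)

theorem norm_XS_i (u : Bc (n + 2)) : ‖xs D q i u‖ ≤ 102 / 100 * el q (u 1) := by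
  rw [xs_i]
  have h1 := c_le hq (u 1)
  have h2 := sig_le hq (u 1)
  have h3 := c_pos hq (u 1)
  have h4 := el_pos q (u 1)
  have hM : |⟪M1 D u, w1 D u⟫| ≤ 1 := by
    have := abs_real_inner_le_norm (M1 D u) (w1 D u)
    rwa [norm_M1, norm_w1, one_mul] at this
  refine (norm_sub_le _ _).trans ?_
  have h5 : 0 ≤ el q (u 1) / sa q * q.eps ^ 2 := mul_nonneg h3.le (sq_nonneg _)
  rw [norm_smul, norm_smul, norm_w1, norm_M1, mul_one, mul_one, norm_mul,
    Real.norm_of_nonneg h3.le, Real.norm_of_nonneg h5, Real.norm_eq_abs]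
  have h6 : el q (u 1) / sa q * q.eps ^ 2 * |⟪M1 D u, w1 D u⟫| ≤
      el q (u 1) / sa q * q.eps ^ 2 * 1 := by gcongr
  linarith

theorem xs_wall (k : Fin m) {u : Bc (n + 2)} (h : ‖u‖ = 1) : ⟪ec (n + 2), xs D q k u⟫ = 0 := by
  by_cases hk : k = i
  · subst hk
    rw [xs_i, M1_wall D h, w1_wall D h, mul_zero, zero_smul, sub_zero, inner_smul_right,
      w1_wall D h, mul_zero]
  · unfold xs
    rw [if_neg hk]
    exact D.wall_y k u h.ge

theorem sep_two {k l : Fin m} {u : Bc (n + 2)} (hu : ‖u‖ ≤ 1) (hkl : k ≠ l) :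
    rs D q k u + rs D q l u < ‖xs D q k u - xs D q l u‖ ∧
      2 * q.r < ‖xs D q k u - xs D q l u‖ := by
  have hr := r_small hq (u 1)
  have hel := el_pos q (u 1)
  by_cases hk : k = i
  · subst hk
    have hl : l ≠ k := Ne.symm hkl
    have h1 := gap_i hq hu hl
    have h2 := rs_i_le hq u
    have h3 : xs D q l u = D.y l u := by unfold xs; rw [if_neg hl]
    have h4 : rs D q l u = q.r := by unfold rs; rw [if_neg hl]
    rw [h3, h4]
    exact ⟨by linarith, by linarith⟩
  · by_cases hl : l = i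
    · subst hl
      have h1 := gap_i hq hu hk
      have h2 := rs_i_le hq u
      have h3 : xs D q k u = D.y k u := by unfold xs; rw [if_neg hk]
      have h4 : rs D q k u = q.r := by unfold rs; rw [if_neg hk]
      rw [h3, h4, norm_sub_rev]
      exact ⟨by linarith, by linarith⟩
    · have h1 := hq.sep k l u hk hl hkl hu
      have h3 : xs D q l u = D.y l u := by unfold xs; rw [if_neg hl]
      have h4 : rs D q l u = q.r := by unfold rs; rw [if_neg hl]
      have h5 : xs D q k u = D.y k u := by unfold xs; rw [if_neg hk]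
      have h6 : rs D q k u = q.r := by unfold rs; rw [if_neg hk]
      have h7 := hq.r_pos
      rw [h3, h4, h5, h6]
      exact ⟨by linarith, by linarith⟩

theorem bd_two {k : Fin m} {u : Bc (n + 2)} (hu : ‖u‖ ≤ 1) :
    ‖xs D q k u‖ + rs D q k u < q.R ∧ ‖xs D q k u‖ + q.r < q.R := by
  have hR := R_big hq
  have hR1 := hq.R1_gt
  have hr := hq.r_lt
  have h0 := el_le hq (u 1)
  by_cases hk : k = i
  · subst hk
    have h1 := norm_XS_i hq u
    have h2 := rs_i_le hq u
    exact ⟨by linarith, by linarith⟩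
  · have h1 := hq.y_lt k u hk hu
    have h3 : xs D q k u = D.y k u := by unfold xs; rw [if_neg hk]
    have h4 : rs D q k u = q.r := by unfold rs; rw [if_neg hk]
    have h5 := norm_nonneg (D.y k u)
    rw [h3, h4]
    exact ⟨by linarith, by linarith⟩

set_option linter.unusedVariables false in
/-- the system with the moved core -/
noncomputable def G1 : S n m where
  x k u := xs D q k (ret u)
  nu k u := nup D k (ret u)
  r := q.r
  R := q.R
  hr := hq.r_pos
  cx k := (continuous_xs D q k).comp continuous_ret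
  cnu k := (continuous_nup D k).comp continuous_ret
  norm_nu k u := norm_nup D k _
  sep k l u h := (sep_two hq (norm_ret_le u) h).2
  bd k u := (bd_two hq (norm_ret_le u)).2
  wall_x k u h := xs_wall hq k (norm_ret_of_ge h)
  wall_nu k u h := nup_wall D k (norm_ret_of_ge h)

set_option linter.unusedVariables false in
theorem isot (G : S n m) (hG : Has G (xp D q.rho q.R1) (nup D)) : Isot G (G1 hq) := by
  refine ⟨fun k p => if k = i then
      ((1 - p.1) * el q (p.2 1) + p.1 * (el q (p.2 1) / sa q)) • w1 D p.2 -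
        (p.1 * (el q (p.2 1) / sa q * q.eps ^ 2) * ⟪M1 D p.2, w1 D p.2⟫) • M1 D p.2
      else D.y k p.2, fun k p => nup D k p.2, ?_, ?_, ?_, ?_, ?_, ?_, ?_⟩
  · intro k
    refine Continuous.continuousOn ?_
    by_cases h : k = i
    · simp only [if_pos h]
      have h1 : Continuous fun p : ℝ × Bc (n + 2) => w1 D p.2 :=
        (continuous_w1 D).comp continuous_snd
      have h2 : Continuous fun p : ℝ × Bc (n + 2) => M1 D p.2 :=
        (continuous_M1 D).comp continuous_snd
      have h3 : Continuous fun p : ℝ × Bc (n + 2) => el q (p.2 1) :=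
        (continuous_el (n := n) q).comp continuous_snd
      have h4 : Continuous fun p : ℝ × Bc (n + 2) => ⟪M1 D p.2, w1 D p.2⟫ := h2.inner h1
      have h6 : Continuous fun p : ℝ × Bc (n + 2) =>
          (1 - p.1) * el q (p.2 1) + p.1 * (el q (p.2 1) / sa q) :=
        ((continuous_const.sub continuous_fst).mul h3).add
          (continuous_fst.mul (h3.div_const _))
      have h7 : Continuous fun p : ℝ × Bc (n + 2) =>
          p.1 * (el q (p.2 1) / sa q * q.eps ^ 2) * ⟪M1 D p.2, w1 D p.2⟫ :=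
        (continuous_fst.mul ((h3.div_const _).mul continuous_const)).mul h4
      exact (h6.smul h1).sub (h7.smul h2)
    · simp only [if_neg h]
      exact (D.c_y k).comp continuous_snd
  · intro k
    exact ((continuous_nup D k).comp continuous_snd).continuousOn
  · intro k t _ u _
    exact norm_nup D k u
  · intro k l hkl t ht u hu
    have hcm : ∀ s, el q s ≤ (1 - t) * el q s + t * (el q s / sa q) ∧
        (1 - t) * el q s + t * (el q s / sa q) ≤ 101 / 100 * el q s := by
      intro s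
      have h1 := c_ge hq s
      have h2 := c_le hq s
      have h3 := el_pos q s
      have h4 := ht.1
      have h5 := ht.2
      constructor <;> nlinarith
    have hcs : ∀ s, 0 ≤ t * (el q s / sa q * q.eps ^ 2) ∧
        t * (el q s / sa q * q.eps ^ 2) ≤ el q s / 1000 := by
      intro s
      have h1 := sig_le hq s
      have h2 : 0 ≤ el q s / sa q * q.eps ^ 2 := mul_nonneg (c_pos hq s).le (sq_nonneg _)
      have h4 := ht.1
      have h5 := ht.2
      refine ⟨mul_nonneg h4 h2, ?_⟩
      nlinarith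
    have key : ∀ l, l ≠ i → ((1 - t) * el q (u 1) + t * (el q (u 1) / sa q)) • w1 D u -
        (t * (el q (u 1) / sa q * q.eps ^ 2) * ⟪M1 D u, w1 D u⟫) • M1 D u ≠ D.y l u := by
      intro l hl he
      have h1 := gap hq hu hl (hcm _).1 (hcm _).2 (hcs _).1 (hcs _).2
      rw [he, sub_self, norm_zero] at h1
      have h2 := el_pos q (u 1)
      have h3 := hq.r_pos
      linarith
    by_cases hk : k = i
    · subst hk
      simp only [if_true, if_neg (Ne.symm hkl)]
      exact key l (Ne.symm hkl)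
    · by_cases hl : l = i
      · subst hl
        simp only [if_true, if_neg hk]
        exact (key k hk).symm
      · simp only [if_neg hk, if_neg hl]
        exact D.sep k l u hkl
  · intro k t _ u hu
    refine ⟨?_, nup_wall D k hu⟩
    by_cases hk : k = i
    · simp only [if_pos hk]
      rw [M1_wall D hu, w1_wall D hu, mul_zero, zero_smul, sub_zero, inner_smul_right,
        w1_wall D hu, mul_zero]
    · simp only [if_neg hk]
      exact D.wall_y k u hu.ge
  · intro k u hu
    obtain ⟨g1, g2⟩ := hG k u hu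
    refine ⟨?_, g2.symm⟩
    rw [g1]
    unfold xp
    by_cases hk : k = i
    · simp only [if_pos hk, sub_zero, one_mul, zero_mul, add_zero, zero_smul]
      rfl
    · simp only [if_neg hk]
  · intro k u hu
    show _ = xs D q k (ret u) ∧ _ = nup D k (ret u)
    rw [ret_of_le hu]
    refine ⟨?_, rfl⟩
    by_cases hk : k = i
    · subst hk
      rw [xs_i]
      simp only [if_true, sub_self, zero_mul, one_mul, zero_add]
    · unfold xs
      simp only [if_neg hk]

omit hq in
/-- the ball condition -/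
theorem ball_key {c a l : ℝ} (ha : 0 < a) (hc : c = Real.exp l / a) {ε : ℝ}
    (haε : a ^ 2 = 1 - ε ^ 2) {v w : Vc (n + 2)} (hv : v ≠ 0) (hw : ‖w‖ = 1) :
    ‖v - c • w‖ ^ 2 - (ε * c) ^ 2 =
      (2 * c) * (a * Real.cosh (Real.log ‖v‖ - l) * ‖v‖ - ⟪v, w⟫) := by
  have hn : 0 < ‖v‖ := norm_pos_iff.2 hv
  have hE : 0 < Real.exp l := Real.exp_pos l
  rw [Real.cosh_eq, neg_sub, Real.exp_sub, Real.exp_sub, Real.exp_log hn, norm_sub_sq_real,
    norm_smul, hw, inner_smul_right, mul_one, Real.norm_eq_abs, sq_abs, hc]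
  have h1 : (ε * (Real.exp l / a)) ^ 2 = (1 - a ^ 2) * (Real.exp l / a) ^ 2 := by
    rw [mul_pow, haε]; ring
  rw [h1]
  field_simp
  ring

theorem inD_iff {u : Bc (n + 2)} {v : Vc (n + 2)} (hv : v ≠ 0) :
    inD D q (lamc q.rho q.R1 (1 / 4) (1 / 4)) (u, v) ↔
      ‖v - (el q (u 1) / sa q) • w1 D u‖ < q.eps * (el q (u 1) / sa q) := by
  have h := ball_key (n := n) (c := el q (u 1) / sa q) (sa_pos hq) rfl (sa_sq hq) hv
    (norm_w1 D u)
  have hc := c_pos hq (u 1)
  rw [← Inv_118.sq_lt_iff (norm_nonneg _) (mul_nonneg hq.eps_pos.le hc.le), h]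
  unfold inD
  constructor
  · intro h1
    exact mul_neg_of_pos_of_neg (by linarith) (by linarith)
  · intro h1
    have := neg_of_mul_neg_right h1 (by linarith : (0:ℝ) ≤ 2 * (el q (u 1) / sa q))
    linarith

theorem onD_iff {u : Bc (n + 2)} {v : Vc (n + 2)} (hv : v ≠ 0) :
    onD D q (lamc q.rho q.R1 (1 / 4) (1 / 4)) (u, v) ↔
      (‖v - (el q (u 1) / sa q) • w1 D u‖ = q.eps * (el q (u 1) / sa q) ∧
        ⟪M1 D u, v - (el q (u 1) / sa q) • w1 D u⟫ =
          -(q.eps ^ 2 * (el q (u 1) / sa q) * ⟪M1 D u, w1 D u⟫)) := by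
  have h := ball_key (n := n) (c := el q (u 1) / sa q) (sa_pos hq) rfl (sa_sq hq) hv
    (norm_w1 D u)
  have hc := c_pos hq (u 1)
  have hs := sa_pos hq
  rw [← Inv_118.sq_eq_iff' (norm_nonneg _) (mul_nonneg hq.eps_pos.le hc.le), h]
  unfold onD
  refine and_congr ?_ ?_
  · rw [mul_eq_zero, or_iff_right (by positivity), sub_eq_zero]
  · rw [inner_sub_right, inner_smul_right]
    have e1 : sa q * Real.exp (lamc q.rho q.R1 (1 / 4) (1 / 4) (u 1)) =
        (1 - q.eps ^ 2) * (el q (u 1) / sa q) := by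
      rw [← sa_sq hq]
      unfold el
      field_simp
    show ⟪M1 D u, v⟫ = sa q * Real.exp (lamc q.rho q.R1 (1 / 4) (1 / 4) (u 1)) *
      ⟪M1 D u, w1 D u⟫ ↔ _
    rw [e1]
    constructor <;> intro h2 <;> linarith

/-- **SHAPE** -/
theorem shape (G : S n m) (hG : Has G (xp D q.rho q.R1) (nup D)) :
    Eqv G.K (KE D q (lamc q.rho q.R1 (1 / 4) (1 / 4))) := by
  have hm : 0 < m := i.pos
  have s1 : Eqv G.K (G1 hq).K := Rad_118.T1 hm G (G1 hq) (isot hq G hG)
  have a1 : AdmX (ec (n + 2)) q.R (G1 hq).x (fun _ _ => q.r) :=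
    ⟨(G1 hq).cx, fun _ => continuous_const, fun _ _ _ => hq.r_pos,
      fun k l u _ hkl => by
        have := (G1 hq).sep k l u hkl
        have h2 : (G1 hq).r = q.r := rfl
        linarith, fun k u _ => (G1 hq).bd k u, fun k u h => (G1 hq).wall_x k u h.ge⟩
  have a2 : AdmX (ec (n + 2)) q.R (G1 hq).x (fun k u => rs D q k (ret u)) :=
    ⟨(G1 hq).cx, fun k => (continuous_rs D q k).comp continuous_ret, fun k u _ => rs_pos hq k _,
      fun k l u _ hkl => (sep_two hq (norm_ret_le u) hkl).1,
      fun k u _ => (bd_two hq (norm_ret_le u)).1, fun k u h => (G1 hq).wall_x k u h.ge⟩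
  have s2 : Eqv (G1 hq).K (KX (ec (n + 2)) q.R (G1 hq).x (G1 hq).nu
      (fun k u => rs D q k (ret u))) := change a1 a2
  have s3 : KX (ec (n + 2)) q.R (G1 hq).x (G1 hq).nu (fun k u => rs D q k (ret u)) =
      KE D q (lamc q.rho q.R1 (1 / 4) (1 / 4)) := by
    ext ⟨u, v⟩
    show ((⟪ec (n + 2), v⟫ = 0 ∧ ‖u‖ = 1 ∧ ‖v‖ ≤ q.R ∧
        ∀ k, rs D q k (ret u) ≤ ‖v - xs D q k (ret u)‖) ∨
      (⟪ec (n + 2), v⟫ = 0 ∧ ‖u‖ ≤ 1 ∧ ‖v‖ = q.R) ∨
      ∃ k, ‖u‖ ≤ 1 ∧ ‖v - xs D q k (ret u)‖ = rs D q k (ret u) ∧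
        ⟪nup D k (ret u), v - xs D q k (ret u)⟫ = 0) ↔ _
    simp only [KE, mem_ofPred_eq]
    by_cases hu : ‖u‖ ≤ 1
    swap
    · have h1 : ¬ ‖u‖ = 1 := fun h => hu h.le
      simp only [hu, h1, false_and, and_false, or_false, exists_false]
    rw [ret_of_le hu]
    have hel := el_pos q (u 1)
    have hcp := c_pos hq (u 1)
    have hcge := c_ge hq (u 1)
    have hcle := c_le hq (u 1)
    have hr := r_small hq (u 1)
    have hrp := hq.r_pos
    have hRb := R_big hq
    have hle := el_le hq (u 1)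
    have hR1 := hq.R1_gt
    have hε := hq.eps_pos
    have hε' := hq.eps_lt
    have hεc : q.eps * (el q (u 1) / sa q) ≤ 1 / 500 * el q (u 1) := by
      calc q.eps * (el q (u 1) / sa q) ≤ 1 / 1000 * (101 / 100 * el q (u 1)) := by gcongr
        _ ≤ 1 / 500 * el q (u 1) := by nlinarith
    have hnw : ‖(el q (u 1) / sa q) • w1 D u‖ = el q (u 1) / sa q := by
      rw [norm_smul, norm_w1, mul_one, Real.norm_of_nonneg hcp.le]
    -- points of the closed ball have moderate norm
    have hball : ‖v - (el q (u 1) / sa q) • w1 D u‖ ≤ q.eps * (el q (u 1) / sa q) →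
        q.r < ‖v‖ ∧ ‖v‖ < q.R := by
      intro h
      have h1 := norm_sub_norm_le ((el q (u 1) / sa q) • w1 D u) v
      rw [hnw, norm_sub_rev] at h1
      have h2 := norm_sub_norm_le v ((el q (u 1) / sa q) • w1 D u)
      rw [hnw] at h2
      exact ⟨by linarith, by linarith⟩
    have hxj : xs D q j u = 0 := by
      unfold xs
      rw [if_neg (Ne.symm D.hij), D.yj]
    have hrj : rs D q j u = q.r := by
      unfold rs
      rw [if_neg (Ne.symm D.hij)]
    have hnj : nup D j u = D.F.Rf u (ec (n + 2)) := by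
      unfold nup
      rw [if_neg (Ne.symm D.hij), if_pos rfl]
    have hxk : ∀ k, k ≠ i → xs D q k u = D.y k u := fun k hk => by unfold xs; rw [if_neg hk]
    have hrk : ∀ k, k ≠ i → rs D q k u = q.r := fun k hk => by unfold rs; rw [if_neg hk]
    have hnk : ∀ k, k ≠ i → k ≠ j → nup D k u = D.N k u := fun k hk hkj => by
      unfold nup; rw [if_neg hk, if_neg hkj]
    have hi : (‖v - xs D q i u‖ = rs D q i u ∧ ⟪nup D i u, v - xs D q i u⟫ = 0) ↔
        (‖v - (el q (u 1) / sa q) • w1 D u‖ = q.eps * (el q (u 1) / sa q) ∧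
        ⟪M1 D u, v - (el q (u 1) / sa q) • w1 D u⟫ =
          -(q.eps ^ 2 * (el q (u 1) / sa q) * ⟪M1 D u, w1 D u⟫)) := by
      have := sigma_iff (c := el q (u 1) / sa q) (ε := q.eps) hcp hε (by linarith)
        (norm_w1 D u) (norm_M1 D u) v
      rw [← this]
      unfold xs rs nup
      simp only [if_true]
      rfl
    refine or_congr ?_ (or_congr ?_ ?_)
    · -- walls
      constructor
      · rintro ⟨b1, b2, b3, b4⟩
        have h1 := b4 j
        rw [hxj, hrj, sub_zero] at h1
        have hv : v ≠ 0 := by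
          rintro rfl
          rw [norm_zero] at h1
          linarith
        refine ⟨b1, b2, h1, b3, fun k hk hkj => ?_, ?_⟩
        · have h2 := b4 k
          rwa [hxk k hk, hrk k hk] at h2
        · rw [inD_iff hq hv, not_lt]
          have h2 := b4 i
          rw [xs_i, M1_wall D b2, w1_wall D b2, mul_zero, zero_smul, sub_zero] at h2
          have h3 : rs D q i u = q.eps * (el q (u 1) / sa q) := by
            unfold rs rds
            rw [if_pos rfl, M1_wall D b2, w1_wall D b2]
            simp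
          rwa [h3] at h2
      · rintro ⟨b1, b2, b3, b4, b5, b6⟩
        have hv : v ≠ 0 := by
          rintro rfl
          rw [norm_zero] at b3
          linarith
        refine ⟨b1, b2, b4, fun k => ?_⟩
        by_cases hk : k = i
        · subst hk
          rw [inD_iff hq hv, not_lt] at b6
          rw [xs_i, M1_wall D b2, w1_wall D b2, mul_zero, zero_smul, sub_zero]
          have h3 : rs D q k u = q.eps * (el q (u 1) / sa q) := by
            unfold rs rds
            rw [if_pos rfl, M1_wall D b2, w1_wall D b2]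
            simp
          rwa [h3]
        · by_cases hkj : k = j
          · subst hkj
            rw [hxj, hrj, sub_zero]
            exact b3
          · rw [hxk k hk, hrk k hk]
            exact b5 k hk hkj
    · -- outer boundary
      constructor
      · rintro ⟨b1, b2, b3⟩
        refine ⟨b1, b2, b3, ?_⟩
        have hv : v ≠ 0 := by
          rintro rfl
          rw [norm_zero] at b3
          linarith
        rw [inD_iff hq hv]
        intro h
        have := (hball h.le).2
        linarith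
      · rintro ⟨b1, b2, b3, _⟩
        exact ⟨b1, b2, b3⟩
    · constructor
      · rintro ⟨k, b1, b2, b3⟩
        by_cases hk : k = i
        · subst hk
          right; right
          have h1 := hi.1 ⟨b2, b3⟩
          have h2 := hball h1.1.le
          have hv : v ≠ 0 := by
            rintro rfl
            rw [norm_zero] at h2
            linarith [h2.1]
          exact ⟨b1, h2.1.le, h2.2.le, (onD_iff hq hv).2 h1⟩
        · by_cases hkj : k = j
          · subst hkj
            left
            rw [hxj, hrj, sub_zero] at b2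
            rw [hxj, hnj, sub_zero] at b3
            refine ⟨b1, b2, b3, ?_⟩
            have hv : v ≠ 0 := by
              rintro rfl
              rw [norm_zero] at b2
              linarith
            rw [inD_iff hq hv]
            intro h
            have := (hball h.le).1
            linarith
          · right; left
            rw [hxk k hk, hrk k hk] at b2
            rw [hxk k hk, hnk k hk hkj] at b3
            exact ⟨k, hk, hkj, b1, b2, b3⟩
      · rintro (⟨b1, b2, b3, _⟩ | ⟨k, hk, hkj, b1, b2, b3⟩ | ⟨b1, b2, b3, b4⟩)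
        · refine ⟨j, b1, ?_, ?_⟩
          · rw [hxj, hrj, sub_zero]; exact b2
          · rw [hxj, hnj, sub_zero]; exact b3
        · refine ⟨k, b1, ?_, ?_⟩
          · rw [hxk k hk, hrk k hk]; exact b2
          · rw [hxk k hk, hnk k hk hkj]; exact b3
        · have hv : v ≠ 0 := by
            rintro rfl
            rw [norm_zero] at b2
            linarith
          obtain ⟨h1, h2⟩ := hi.2 ((onD_iff hq hv).1 b4)
          exact ⟨i, b1, h1, h2⟩
  rw [← s3]
  exact s1.trans s2

end par2

/-- **leaf SHAPE of LM_808** -/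
theorem shapeP (n : ℕ) : ShapeP n := fun _ _ _ _ _ hq G hG _ _ => shape hq G hG

end Crest.Agent.R267.Shape_118
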