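import Crest.Agent.R267.ClsC_253
import Crest.Agent.R267.LM_808
import Crest.Agent.R267.Path_224
import Crest.Agent.R267.Move_118
import Crest.Agent.R267.GS_808

-- ▼ part R267/ClsD_253
section

/-!
# Differences of strands for T2-4 (row 267, DRAFT B part 3, task 439)
-/

set_option autoImplicit false

namespace Crest.Agent.R267.ClsD_253

open Set Metric
open scoped RealInnerProductSpace
open Crest.Agent.R267.GS_808 Crest.Agent.R267.DraftB_808 Crest.Agent.R267.NF_808
open Crest.Agent.R267.IsotB_92 Crest.Agent.R267.ClsA_253 Crest.Agent.R267.ClsB_253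
open Crest.Agent.R267.ClsC_253

variable {n m : ℕ} {i j : Fin m}

/-! ### differences of a system -/

lemma ne_of_sep (G : S n m) {k l : Fin m} (hkl : k ≠ l) (u : Bc (n + 2)) : G.x k u ≠ G.x l u := by
  intro h
  have h1 := G.sep k l u hkl
  rw [h, sub_self, norm_zero] at h1
  linarith [G.hr]

lemma adm_sub (G : S n m) {k l : Fin m} (hkl : k ≠ l) :
    Adm (n + 2) fun u => G.x k u - G.x l u where
  cont := (G.cx k).sub (G.cx l)
  ne u := sub_ne_zero.2 (ne_of_sep G hkl u)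
  hor u hu := by rw [inner_sub_right, G.wall_x k u hu, G.wall_x l u hu, sub_zero]

lemma fh_refl' {f : Bc (n + 2) → Vc (n + 2)} (hf : Adm (n + 2) f) : FH (ec (n + 2)) f f :=
  fh_refl hf.cont.continuousOn (fun u _ => hf.ne u) fun u hu => hf.hor u hu.ge

lemma typ_of_eq {f g : Bc (n + 2) → Vc (n + 2)} {a b : ℤ} (hg : Adm (n + 2) g) (h : Typ n f a b)
    (he : ∀ u, ‖u‖ ≤ 1 → g u = f u) : Typ n g a b :=
  h.congr (IsotB_92.FH.congr (fh_refl' hg) he fun _ _ => rfl)

lemma typN_of_eq {f g : Bc (n + 2) → Vc (n + 2)} {c : ℤ} (cg : Continuous g) (hg : ∀ u, g u ≠ 0)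
    (wg : ∀ u, 1 ≤ ‖u‖ → g u = ec (n + 2)) (h : TypN n f c) (he : ∀ u, ‖u‖ ≤ 1 → g u = f u) :
    TypN n g c :=
  h.congr (IsotB_92.FN.congr (fn_refl cg.continuousOn (fun u _ => hg u) fun u hu => wg u hu.ge) he
    fun _ _ => rfl)

lemma typN_sys (G : S n m) (k : Fin m) {f : Bc (n + 2) → Vc (n + 2)} {c : ℤ} (h : TypN n f c)
    (he : ∀ u, ‖u‖ ≤ 1 → G.nu k u = f u) : TypN n (G.nu k) c :=
  typN_of_eq (G.cnu k)
    (fun u => by rw [← norm_ne_zero_iff, G.norm_nu]; exact one_ne_zero) (G.wall_nu k) h he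

theorem hasMat_of (G : S n m) (B : Matrix (Fin m) (Fin m) ℤ) (i : Fin m)
    (h1 : ∀ k l, k ≠ i → l ≠ i → k ≠ l → Typ n (fun u => G.x k u - G.x l u) (B k l) (B l k))
    (h2 : ∀ k, k ≠ i → Typ n (fun u => G.x i u - G.x k u) (B i k) (B k i))
    (h3 : ∀ k, TypN n (G.nu k) (B k k)) : HasMat G B := by
  refine ⟨fun k l hkl => ?_, h3⟩
  by_cases hk : k = i
  · subst hk; exact h2 l hkl.ne
  · by_cases hl : l = i
    · subst hl
      have := typ_neg (h2 k hk)
      simpa only [neg_sub] using this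
    · exact h1 k l hk hl hkl.ne'

/-! ### the other strands -/

lemma adm_oth (P : OthD n m j) {k l : Fin m} (hkl : k ≠ l) :
    Adm (n + 2) fun u => P.y k u - P.y l u where
  cont := (P.c_y k).sub (P.c_y l)
  ne u := sub_ne_zero.2 (P.sep k l u hkl)
  hor u hu := by rw [inner_sub_right, P.wall_y k u hu, P.wall_y l u hu, sub_zero]

lemma rest_oth (P : OthD n m j) (k l : Fin m) : IsRest (P.p k - P.p l) fun u => P.y k u - P.y l u :=
  fun u hu => by
    show P.y k u - P.y l u = _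
    rw [P.rest_y k u hu, P.rest_y l u hu]

lemma typ_all {P : OthD n m j} {A : Matrix (Fin m) (Fin m) ℤ}
    (h : ∀ k l, l < k → Typ n (fun u => P.y k u - P.y l u) (A k l) (A l k)) {k l : Fin m}
    (hkl : k ≠ l) : Typ n (fun u => P.y k u - P.y l u) (A k l) (A l k) := by
  rcases lt_or_gt_of_ne hkl with h1 | h1
  · have := typ_neg (h l k h1)
    simpa only [neg_sub] using this
  · exact h k l h1

theorem typ_yy {P Q : OthD n m j} (hp : Q.p = P.p) {A A' : Matrix (Fin m) (Fin m) ℤ}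
    (hP : ∀ k l, l < k → Typ n (fun u => P.y k u - P.y l u) (A k l) (A l k))
    (hQ : ∀ k l, l < k → Typ n (fun u => Q.y k u - Q.y l u) (A' k l) (A' l k)) {k l : Fin m}
    (hkl : k ≠ l) :
    Typ n (fun u => yy P Q k u - yy P Q l u) (A' k l + A k l) (A' l k + A l k) := by
  have h := typ_join (P.p k - P.p l) (adm_oth Q hkl) (adm_oth P hkl) (hp ▸ rest_oth Q k l)
    (rest_oth P k l) (typ_all hQ hkl) (typ_all hP hkl)
  have e : (fun u => yy P Q k u - yy P Q l u) = fun u : Bc (n + 2) =>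
      Q.y k (us u (4 * u 1 + 3)) - Q.y l (us u (4 * u 1 + 3)) +
      (P.y k (us u (4 * u 1 - 3)) - P.y l (us u (4 * u 1 - 3))) - (P.p k - P.p l) := by
    funext u
    unfold yy
    abel
  rw [e]
  exact h

theorem typN_NN {P Q : OthD n m j} {k : Fin m} {c c' : ℤ}
    (hP : TypN n (P.N k) c) (hQ : TypN n (Q.N k) c') : TypN n (NN P Q k) (c' + c) :=
  typN_join (Q.c_N k) (P.c_N k)
    (fun u => by rw [← norm_ne_zero_iff, Q.n_N]; exact one_ne_zero)
    (fun u => by rw [← norm_ne_zero_iff, P.n_N]; exact one_ne_zero) (Q.wall_N k) (P.wall_N k) hQ hP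

lemma p_ne (P : OthD n m j) {k : Fin m} (hk : k ≠ j) : P.p k ≠ 0 := by
  rw [← norm_ne_zero_iff]; linarith [P.p_norm k hk]

/-- the moving strand against another one: `x - y ~ -y'`. -/
theorem fh_pair (P : OthD n m j) {k : Fin m} (hk : k ≠ j) (G : S n m) (hki : k ≠ i) {R1 : ℝ}
    (hR : 1 < R1) {y' : Bc (n + 2) → Vc (n + 2)} (cy' : Continuous y')
    (hy' : ∀ u, ‖u‖ = 1 → ⟪ec (n + 2), y' u⟫ = 0)
    (h1 : ∀ u, ‖u‖ ≤ 1 → G.x k u = y' u ∨
      (G.x i u = R1 • hc (n + 1) ∧ ‖G.x k u‖ < R1 ∧ ‖y' u‖ < R1))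
    (h2 : ∀ u, ‖u‖ ≤ 1 → (‖G.x i u‖ ≤ 1 / 4 ∧ 1 / 2 ≤ ‖y' u‖) ∨
      ((∃ c : ℝ, G.x i u = c • hc (n + 1)) ∧ y' u = P.p k)) :
    FH (ec (n + 2)) (fun u => G.x i u - G.x k u) (fun u => -(y' u)) := by
  refine fh_shrink (G.cx i) (G.cx k) cy' (fun u hu => G.wall_x i u hu.ge)
    (fun u hu => G.wall_x k u hu.ge) hy' (fun u hu t ht => ?_) fun u hu t ht => ?_
  · rcases h1 u hu with h | ⟨h3, h4, h5⟩
    · rw [h, ← add_smul, sub_add_cancel, one_smul, ← h]
      exact (ne_of_sep G hki u).symm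
    · intro h6
      have h7 : ‖G.x i u‖ = R1 := by
        rw [h3, norm_smul, norm_h, mul_one, Real.norm_of_nonneg (by linarith)]
      have h8 : ‖(1 - t) • G.x k u + t • y' u‖ ≤ (1 - t) * ‖G.x k u‖ + t * ‖y' u‖ := by
        refine (norm_add_le _ _).trans ?_
        rw [norm_smul, norm_smul, Real.norm_of_nonneg ht.1,
          Real.norm_of_nonneg (by linarith [ht.2])]
      rw [← h6, h7] at h8
      have h9 : (1 - t) * ‖G.x k u‖ + t * ‖y' u‖ < R1 := by
        rcases eq_or_lt_of_le ht.1 with h10 | h10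
        · rw [← h10]; linarith
        · nlinarith [mul_lt_mul_of_pos_left h5 h10,
            mul_le_mul_of_nonneg_left h4.le (by linarith [ht.2] : (0 : ℝ) ≤ 1 - t)]
      linarith
  · rcases h2 u hu with ⟨h3, h4⟩ | ⟨⟨c, h3⟩, h4⟩
    · intro h6
      have h7 : ‖(1 - t) • G.x i u‖ ≤ 1 / 4 := by
        rw [norm_smul, Real.norm_of_nonneg (by linarith [ht.2])]
        nlinarith [norm_nonneg (G.x i u), ht.1, ht.2]
      rw [h6] at h7
      linarith
    · intro h6
      rw [h3, h4] at h6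
      have h7 : ⟪(1 - t) • c • hc (n + 1), P.p k⟫ = ⟪P.p k, P.p k⟫ := by rw [h6]
      rw [inner_smul_left, inner_smul_left, P.p_h k, real_inner_self_eq_norm_sq] at h7
      have := norm_pos_iff.2 (p_ne P hk)
      rw [mul_zero, mul_zero] at h7
      nlinarith

lemma adm_path (D : PathD n) : Adm (n + 2) D.om :=
  ⟨D.c_om, fun u => by rw [← norm_ne_zero_iff, D.n_om]; exact one_ne_zero, D.wall_om⟩

lemma norm_refl {w v : Vc (n + 2)} (hw : ‖w‖ = 1) : ‖NF_808.refl w v‖ = ‖v‖ := by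
  have h : ‖NF_808.refl w v‖ ^ 2 = ‖v‖ ^ 2 := by
    unfold NF_808.refl
    rw [norm_sub_sq_real, inner_smul_right, norm_smul, hw, Real.norm_eq_abs, mul_one, sq_abs]
    ring
  exact (sq_eq_sq₀ (norm_nonneg _) (norm_nonneg _)).1 h

end Crest.Agent.R267.ClsD_253
end

-- ▼ part R267/Cls_253
section

/-!
# T2-4: the matrices of `G₊` and `G₋` (row 267, DRAFT B part 3, task 439)

`cls_of : ClsOfProp n`.
-/

set_option autoImplicit false

namespace Crest.Agent.R267.Cls_253

open Set Metric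
open scoped RealInnerProductSpace
open Crest.Agent.R267.GS_808 Crest.Agent.R267.DraftB_808 Crest.Agent.R267.NF_808
open Crest.Agent.R267.IsotB_92 Crest.Agent.R267.ClsA_253 Crest.Agent.R267.ClsB_253
open Crest.Agent.R267.ClsC_253 Crest.Agent.R267.ClsD_253

variable {n m : ℕ} {i j : Fin m}

/-- one strand of `P` against the central one. -/
theorem typ_side (P : OthD n m j) {k : Fin m} (hk : k ≠ j) {a b : ℝ} (ok : Ok2 a b 1 0) {α β : ℤ}
    (h : Typ n (fun u => P.y j u - P.y k u) α β) :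
    Typ n (fun u => -(P.y k (us u (a * u 1 + b)))) α β := by
  have h1 : (fun u => P.y j u - P.y k u) = fun u => -(P.y k u) := by
    funext u; rw [P.yj, zero_sub]
  have h2 : Adm (n + 2) fun u => -(P.y k u) := by
    rw [← h1]; exact adm_oth P hk.symm
  rw [h1] at h
  refine h.congr (IsotB_92.FH.symm ?_)
  have := fh_lin h2 ok
  simpa only [one_mul, add_zero, us_self] using this

section main

variable {P Q : OthD n m j} (hpp : Q.p = P.p) (D : PathD n) (F : FrameD n) (hij : i ≠ j)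
  {rho R1 : ℝ} (h0 : 0 < rho) (h1 : rho < 1 / 4) (h2 : 1 < R1) (h3 : rho * R1 < 1 / 16)
  (h4 : ∀ k u, k ≠ i → ‖u‖ ≤ 1 → ‖(nfd P Q hpp D F hij).y k u‖ < R1)

include h4 in
lemma p_lt {k : Fin m} (hk : k ≠ i) : ‖P.p k‖ < R1 := by
  have h5 := h4 k (us 0 0) hk (by
    rw [pi_norm_le_iff_of_nonneg zero_le_one]
    intro l
    by_cases hl : l = 1
    · subst hl; rw [us_apply]; simp
    · rw [us_ne _ _ hl]; simp)
  have h6 : (nfd P Q hpp D F hij).y k (us 0 0) = P.p k :=
    (nfd P Q hpp D F hij).mid_y k (us 0 0) (by rw [us_apply]; norm_num)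
  rwa [h6] at h5

/-- core of the moving strand of `G₊`. -/
lemma xp_i (u : Bc (n + 2)) : xp (nfd P Q hpp D F hij) rho R1 i u
    = rp rho R1 (u 1) • D.om (us u (16 * u 1 + -1)) := by
  unfold xp
  rw [if_pos rfl, fr_eq, ← sub_eq_add_neg]; rfl

lemma xp_k {k : Fin m} (hk : k ≠ i) (u : Bc (n + 2)) :
    xp (nfd P Q hpp D F hij) rho R1 k u = yy P Q k u := by
  unfold xp
  rw [if_neg hk]; rfl

/-- core of the moving strand of `G₋`. -/
lemma xm_i (u : Bc (n + 2)) : xm (nfd P Q hpp D F hij) rho R1 i u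
    = rp rho R1 (-(u 1)) • F.Rf (us u (4 * u 1 + 3)) (D.om (us u (-16 * u 1 + -1))) := by
  unfold xm
  rw [if_pos rfl, fl_eq, neg_mul, ← sub_eq_add_neg]; rfl

lemma xm_k {k : Fin m} (hk : k ≠ i) (u : Bc (n + 2)) :
    xm (nfd P Q hpp D F hij) rho R1 k u = yy P Q k u := by
  unfold xm
  rw [if_neg hk]; rfl

include h0 h1 h2 h3 h4 in
/-- the moving strand of `G₊` against strand `k`. -/
theorem pair_p (G : S n m) (hG : Has G (xp (nfd P Q hpp D F hij) rho R1) (nup (nfd P Q hpp D F hij)))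
    {k : Fin m} (hk : k ≠ j) (hki : k ≠ i) :
    FH (ec (n + 2)) (fun u => G.x i u - G.x k u) (fun u => -(P.y k (us u (4 * u 1 + -3)))) := by
  have hpl := p_lt hpp D F hij h4 hki
  have ei : ∀ u, ‖u‖ ≤ 1 → G.x i u = rp rho R1 (u 1) • D.om (us u (16 * u 1 + -1)) :=
    fun u hu => (hG i u hu).1.trans (xp_i hpp D F hij u)
  have ek : ∀ u, ‖u‖ ≤ 1 → G.x k u = yy P Q k u := fun u hu =>
    (hG k u hu).1.trans (xp_k hpp D F hij hki u)
  refine fh_pair P hk G hki (R1 := R1) h2 ((P.c_y k).comp (cont_us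
    ((continuous_const.mul cont1).add continuous_const))) (fun u hu => P.wall_y k _
      (norm_us u hu.ge fun h => by rw [← sub_eq_add_neg]; exact absR h)) (fun u hu => ?_)
      fun u hu => ?_
  · by_cases hc : -(1 / 2) ≤ u 1
    · left
      rw [ek u hu, yy_right P Q hpp k hc, ← sub_eq_add_neg]
    · right
      push Not at hc
      refine ⟨?_, ?_, ?_⟩
      · rw [ei u hu, rp_eq h2 (by linarith),
          D.rest_om _ (rest_us u (le_abs_of_le_neg (by linarith)))]
      · rw [ek u hu]; exact h4 k u hki hu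
      · rw [P.rest_y k _ (rest_us u (le_abs_of_le_neg (by linarith)))]; exact hpl
  · rcases le_total 0 (u 1) with hc | hc
    · left
      refine ⟨?_, P.far k _ hk⟩
      rw [ei u hu, norm_smul, D.n_om, mul_one, Real.norm_of_nonneg (rp_pos _ _ _).le]
      exact rp_le h0 h1 h2 h3 hc
    · right
      refine ⟨⟨rp rho R1 (u 1), ?_⟩, ?_⟩
      · rw [ei u hu, D.rest_om _ (rest_us u (le_abs_of_le_neg (by linarith)))]
      · exact P.rest_y k _ (rest_us u (le_abs_of_le_neg (by linarith)))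

include h0 h1 h2 h3 h4 in
/-- the moving strand of `G₋` against strand `k`. -/
theorem pair_m (G : S n m) (hG : Has G (xm (nfd P Q hpp D F hij) rho R1) (num (nfd P Q hpp D F hij)))
    {k : Fin m} (hk : k ≠ j) (hki : k ≠ i) :
    FH (ec (n + 2)) (fun u => G.x i u - G.x k u) (fun u => -(Q.y k (us u (4 * u 1 + 3)))) := by
  have hpl := p_lt hpp D F hij h4 hki
  have ei : ∀ u, ‖u‖ ≤ 1 → G.x i u
      = rp rho R1 (-(u 1)) • F.Rf (us u (4 * u 1 + 3)) (D.om (us u (-16 * u 1 + -1))) :=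
    fun u hu => (hG i u hu).1.trans (xm_i hpp D F hij u)
  have ek : ∀ u, ‖u‖ ≤ 1 → G.x k u = yy P Q k u := fun u hu =>
    (hG k u hu).1.trans (xm_k hpp D F hij hki u)
  have er : ∀ u : Bc (n + 2), 0 ≤ u 1 → F.Rf (us u (4 * u 1 + 3)) (D.om (us u (-16 * u 1 + -1)))
      = hc (n + 1) := fun u hu => by
    rw [D.rest_om _ (rest_us u (le_abs_of_le_neg (by linarith))),
      F.rest _ (rest_us u (le_abs_of_le (by linarith)))]; rfl
  refine fh_pair P hk G hki (R1 := R1) h2 ((Q.c_y k).comp (cont_us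
    ((continuous_const.mul cont1).add continuous_const))) (fun u hu => Q.wall_y k _
      (norm_us u hu.ge absL)) (fun u hu => ?_) fun u hu => ?_
  · by_cases hc : u 1 ≤ 1 / 2
    · left
      rw [ek u hu, yy_left P Q k hc]
    · right
      push Not at hc
      refine ⟨?_, ?_, ?_⟩
      · rw [ei u hu, rp_eq h2 (by linarith), er u (by linarith)]
      · rw [ek u hu]; exact h4 k u hki hu
      · rw [Q.rest_y k _ (rest_us u (le_abs_of_le (by linarith))), hpp]; exact hpl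
  · rcases le_total 0 (u 1) with hc | hc
    · right
      refine ⟨⟨rp rho R1 (-(u 1)), ?_⟩, ?_⟩
      · rw [ei u hu, er u hc]
      · rw [← hpp]; exact Q.rest_y k _ (rest_us u (le_abs_of_le (by linarith)))
    · left
      refine ⟨?_, Q.far k _ hk⟩
      rw [ei u hu, norm_smul, LinearIsometryEquiv.norm_map, D.n_om, mul_one,
        Real.norm_of_nonneg (rp_pos _ _ _).le]
      exact rp_le h0 h1 h2 h3 (by linarith)

end main

lemma fh_scale {f : Bc (n + 2) → Vc (n + 2)} (hf : ContinuousOn f (closedBall 0 1))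
    (h0 : ∀ u, ‖u‖ ≤ 1 → f u ≠ 0) (h1 : ∀ u, ‖u‖ = 1 → ⟪ec (n + 2), f u⟫ = 0)
    {c : Bc (n + 2) → ℝ} (cc : Continuous c) (hc : ∀ u, 0 < c u) :
    FH (ec (n + 2)) f (fun u => c u • f u) :=
  fh_smul cc.continuousOn (fun u _ => hc u) hf h0 h1

lemma typ_smul {f g : Bc (n + 2) → Vc (n + 2)} {a b : ℤ} (h : Typ n f a b) (hf : Adm (n + 2) f)
    (hg : Adm (n + 2) g) {c : Bc (n + 2) → ℝ} (cc : Continuous c) (hc : ∀ u, 0 < c u)
    (he : ∀ u, ‖u‖ ≤ 1 → g u = c u • f u) : Typ n g a b :=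
  typ_of_eq hg (h.congr (fh_scale hf.cont.continuousOn (fun u _ => hf.ne u)
    (fun u hu => hf.hor u hu.ge) cc hc)) he

lemma abs16 {s : ℝ} (h : 1 ≤ |s|) : 1 ≤ |16 * s + -1| := by
  rcases le_total 0 s with h0 | h0
  · rw [abs_of_nonneg h0] at h; exact le_abs_of_le (by linarith)
  · rw [abs_of_nonpos h0] at h; exact le_abs_of_le_neg (by linarith)

lemma abs16' {s : ℝ} (h : 1 ≤ |s|) : 1 ≤ |-16 * s + -1| := by
  rcases le_total 0 s with h0 | h0
  · rw [abs_of_nonneg h0] at h; exact le_abs_of_le_neg (by linarith)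
  · rw [abs_of_nonpos h0] at h; exact le_abs_of_le (by linarith)

lemma refl_cont (D : PathD n) : Continuous fun u => NF_808.refl (D.om u) (D.M u) := by
  unfold NF_808.refl
  have h : Continuous fun u => (2 : ℝ) * ⟪D.M u, D.om u⟫ :=
    continuous_const.mul (D.c_M.inner D.c_om)
  exact D.c_M.sub (h.smul D.c_om)

lemma refl_wall (D : PathD n) (u : Bc (n + 2)) (hu : 1 ≤ ‖u‖) :
    NF_808.refl (D.om u) (D.M u) = ec (n + 2) := by
  unfold NF_808.refl
  rw [D.wall_M u hu, D.wall_om u hu]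
  simp

/-! ### the theorem -/

/-- the matrix of the part over `s ≥ 1/2`. -/
def A1 (A : Matrix (Fin m) (Fin m) ℤ) (i j : Fin m) : Matrix (Fin m) (Fin m) ℤ := fun k l =>
  if k = j then (if l = j then 0 else A i l) else if l = j then A k i else 0

theorem cls_of (n : ℕ) : ClsOfProp n := by
  intro hReal hFrame hPath m A i j hij
  obtain ⟨p, hp⟩ := hReal m j
  obtain ⟨P, hPp, hP, hPN⟩ := hp (A1 A i j)
  obtain ⟨Q, hQp, hQ, hQN⟩ := hp (A - A1 A i j)
  obtain ⟨F, hF1, hF2⟩ := hFrame (A j j)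
  obtain ⟨D, hD1, hD2, hD3⟩ := hPath (A i j) (A j i) (A i i)
  have hpp : Q.p = P.p := hQp.trans hPp.symm
  refine ⟨nfd P Q hpp D F hij, ?_⟩
  intro rho R1 G G' h0 h1 h2 h3 h4 hG hG'
  -- pairs away from `i`
  have far : ∀ (G : S n m), (∀ k u, k ≠ i → ‖u‖ ≤ 1 → G.x k u = yy P Q k u) →
      ∀ k l, k ≠ i → l ≠ i → k ≠ l → Typ n (fun u => G.x k u - G.x l u) (A k l) (A l k) := by
    intro G hG k l hk hl hkl
    have := typ_yy hpp hP hQ hkl
    rw [Matrix.sub_apply, Matrix.sub_apply, sub_add_cancel, sub_add_cancel] at this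
    exact typ_of_eq (adm_sub G hkl) this fun u hu => by rw [hG k u hk hu, hG l u hl hu]
  -- normals away from `i`
  have nor : ∀ (G : S n m), (∀ k u, k ≠ i → k ≠ j → ‖u‖ ≤ 1 → G.nu k u = NN P Q k u) →
      (∀ u, ‖u‖ ≤ 1 → G.nu j u = F.Rf (us u (4 * u 1 + 3)) (ec (n + 2))) →
      ∀ k, k ≠ i → TypN n (G.nu k) (A k k) := by
    intro G hG1 hG2 k hk
    by_cases hkj : k = j
    · subst hkj
      refine typN_sys G k (hF1.congr (IsotB_92.FN.symm ?_)) hG2
      have := fn_lin (f := fun u => F.Rf u (ec (n + 2)))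
        (F.c_Rf.comp (continuous_id.prodMk continuous_const))
        (fun u => by
          rw [← norm_ne_zero_iff, LinearIsometryEquiv.norm_map, norm_e]; exact one_ne_zero)
        F.wall okL1
      simpa only [one_mul, add_zero, us_self] using this
    · have := typN_NN (hPN k) (hQN k)
      rw [Matrix.sub_apply, sub_add_cancel] at this
      exact typN_sys G k this fun u hu => hG1 k u hk hkj hu
  -- the path at the right half
  have oka : Adm (n + 2) fun u => D.om (us u (16 * u 1 + -1)) :=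
    ⟨D.c_om.comp (cont_us ((continuous_const.mul cont1).add continuous_const)),
      fun u => by rw [← norm_ne_zero_iff, D.n_om]; exact one_ne_zero,
      fun u hu => D.wall_om _ (norm_us u hu abs16)⟩
  have okb : Adm (n + 2) fun u => F.Rf (us u (4 * u 1 + 3)) (D.om (us u (-16 * u 1 + -1))) := by
    refine ⟨?_, fun u => ?_, fun u hu => frame_e F (norm_us u hu absL)
      (D.wall_om _ (norm_us u hu abs16'))⟩
    · have e1 : Continuous fun u : Bc (n + 2) => us u (4 * u 1 + 3) :=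
        cont_us ((continuous_const.mul cont1).add continuous_const)
      have e2 : Continuous fun u : Bc (n + 2) => us u (-16 * u 1 + -1) :=
        cont_us ((continuous_const.mul cont1).add continuous_const)
      exact F.c_Rf.comp (e1.prodMk (D.c_om.comp e2))
    · rw [← norm_ne_zero_iff, LinearIsometryEquiv.norm_map, D.n_om]; exact one_ne_zero
  have a1 : ∀ k, k ≠ j → A1 A i j j k = A i k := fun k hk => by
    unfold A1; rw [if_pos rfl, if_neg hk]
  have a2 : ∀ k, k ≠ j → A1 A i j k j = A k i := fun k hk => by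
    unfold A1; rw [if_neg hk, if_pos rfl]
  constructor
  · refine hasMat_of G A i (far G fun k u hk hu => (hG k u hu).1.trans (xp_k hpp D F hij hk u))
      (fun k hk => ?_) fun k => ?_
    · by_cases hkj : k = j
      · subst hkj
        have e : Typ n (fun u => D.om (us u (16 * u 1 + -1))) (A i k) (A k i) := by
          refine hD1.congr (IsotB_92.FH.symm ?_)
          have := fh_lin (adm_path D) okP
          simpa only [one_mul, add_zero, us_self] using this
        refine typ_smul (c := fun u => rp rho R1 (u 1)) e oka (adm_sub G hk.symm)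
          ((continuous_rp _ _).comp cont1) (fun u => rp_pos _ _ _) fun u hu => ?_
        rw [(hG i u hu).1, (hG k u hu).1, xp_i hpp D F hij u, xp_k hpp D F hij hk u]
        have : yy P Q k u = 0 := (nfd P Q hpp D F hij).yj u
        rw [this, sub_zero]
      · have e := typ_side P hkj okR1 (typ_all hP (Ne.symm hkj))
        rw [a1 k hkj, a2 k hkj] at e
        exact e.congr (IsotB_92.FH.symm (pair_p hpp D F hij h0 h1 h2 h3 h4 G hG hkj hk))
    · by_cases hk : k = i
      · subst hk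
        have e : TypN n (fun u => D.M (us u (16 * u 1 + -1))) (A k k) := by
          refine hD2.congr (IsotB_92.FN.symm ?_)
          have := fn_lin D.c_M (fun u => by
            rw [← norm_ne_zero_iff, D.n_M]; exact one_ne_zero) D.wall_M okP
          simpa only [one_mul, add_zero, us_self] using this
        refine typN_sys G k e fun u hu => ?_
        rw [(hG k u hu).2]
        unfold nup
        rw [if_pos rfl, fr_eq, ← sub_eq_add_neg]; rfl
      · refine nor G (fun k u hk hkj hu => ?_) (fun u hu => ?_) k hk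
        · rw [(hG k u hu).2]
          unfold nup
          rw [if_neg hk, if_neg hkj]; rfl
        · rw [(hG j u hu).2]
          unfold nup
          rw [if_neg hij.symm, if_pos rfl]; rfl
  · have c1 : ∀ k l, k ≠ i → l ≠ i → ((T2alg1_684.Rm i j).transpose * A * T2alg1_684.Rm i j) k l
        = A k l := fun k l hk hl => by rw [mul_Rm, if_neg hl, RmT_mul, if_neg hk]
    have c2 : ∀ k, k ≠ i → ((T2alg1_684.Rm i j).transpose * A * T2alg1_684.Rm i j) i k
        = A j k - A i k := fun k hk => by rw [mul_Rm, if_neg hk, RmT_mul, if_pos rfl]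
    have c3 : ∀ k, k ≠ i → ((T2alg1_684.Rm i j).transpose * A * T2alg1_684.Rm i j) k i
        = A k j - A k i := fun k hk => by
      rw [mul_Rm, if_pos rfl, RmT_mul, RmT_mul, if_neg hk, if_neg hk]
    have c4 : ((T2alg1_684.Rm i j).transpose * A * T2alg1_684.Rm i j) i i
        = A j j - (A i j + A j i - A i i) := by
      rw [mul_Rm, if_pos rfl, RmT_mul, RmT_mul, if_pos rfl, if_pos rfl]; ring
    refine hasMat_of G' _ i (fun k l hk hl hkl => ?_) (fun k hk => ?_) fun k => ?_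
    · rw [c1 k l hk hl, c1 l k hl hk]
      exact far G' (fun k u hk hu => (hG' k u hu).1.trans (xm_k hpp D F hij hk u)) k l hk hl hkl
    · rw [c2 k hk, c3 k hk]
      by_cases hkj : k = j
      · subst hkj
        have e := typ_frame F (adm_path D) D.rest_om hF2 hD1
        refine typ_smul (c := fun u => rp rho R1 (-(u 1))) e okb (adm_sub G' hk.symm)
          ((continuous_rp _ _).comp cont1.neg) (fun u => rp_pos _ _ _) fun u hu => ?_
        rw [(hG' i u hu).1, (hG' k u hu).1, xm_i hpp D F hij u, xm_k hpp D F hij hk u]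
        have : yy P Q k u = 0 := (nfd P Q hpp D F hij).yj u
        rw [this, sub_zero]
      · have e := typ_side Q hkj okL1 (typ_all hQ (Ne.symm hkj))
        rw [Matrix.sub_apply, Matrix.sub_apply, a1 k hkj, a2 k hkj] at e
        exact e.congr (IsotB_92.FH.symm (pair_m hpp D F hij h0 h1 h2 h3 h4 G' hG' hkj hk))
    · by_cases hk : k = i
      · subst hk
        rw [c4]
        have e := typN_frame F (refl_cont D) (fun u => by
          rw [← norm_ne_zero_iff, norm_refl (D.n_om u), D.n_M]; exact one_ne_zero)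
          (refl_wall D) hF1 hD3
        refine typN_sys G' k e fun u hu => ?_
        rw [(hG' k u hu).2]
        unfold num
        rw [if_pos rfl, fl_eq, neg_mul, ← sub_eq_add_neg]; rfl
      · rw [c1 k k hk hk]
        refine nor G' (fun k u hk hkj hu => ?_) (fun u hu => ?_) k hk
        · rw [(hG' k u hu).2]
          unfold num
          rw [if_neg hk, if_neg hkj]; rfl
        · rw [(hG' j u hu).2]
          unfold num
          rw [if_neg hij.symm, if_pos rfl]; rfl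

end Crest.Agent.R267.Cls_253
end

-- ▼ part R267/SysP_224
section

/-!
# SYS (row 267, DRAFT B part 4): mirror data, good radii, systems

`sysP n : SysP n`.
-/

set_option autoImplicit false
set_option linter.unusedSectionVars false
set_option linter.unusedVariables false

namespace Crest.Agent.R267.SysP_224

open Set Metric Filter Topology
open scoped RealInnerProductSpace
open Crest.Agent.R267.GS_808 Crest.Agent.R267.DraftB_808 Crest.Agent.R267.NF_808
open Crest.Agent.R267.LM_808 Crest.Agent.R267.Norm_855 Crest.Agent.R267.LemR_224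
open Crest.Agent.R267.Path_224
open Crest.Agent.R267

noncomputable section

variable {n m : ℕ} {i j : Fin m}

/-! ### the mirror -/

lemma mu_one (u : Bc (n + 2)) : mu u 1 = -(u 1) := by simp [mu, us]

lemma mu_ne (u : Bc (n + 2)) {k : Fin (n + 2)} (hk : k ≠ 1) : mu u k = u k := by
  simp [mu, us, hk]

lemma norm_mu (u : Bc (n + 2)) : ‖mu u‖ = ‖u‖ := norm_flip u

lemma us_mu (u : Bc (n + 2)) (s : ℝ) : us (mu u) s = us u s := by
  unfold mu
  exact us_us u _ s

lemma rest_mu {u : Bc (n + 2)} (h : RestAt u) : RestAt (mu u) :=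
  rest_of (fun k hk => mu_ne u hk) h fun h => by rw [mu_one, abs_neg]; exact h

lemma refl_norm {V : Type*} [NormedAddCommGroup V] [InnerProductSpace ℝ V] {w : V}
    (hw : ‖w‖ = 1) (v : V) : ‖NF_808.refl w v‖ = ‖v‖ := by
  rw [refl_eq_rf hw, norm_rf]

/-- the mirror path. -/
def mirPath (P : PathD n) : PathD n where
  om := P.om
  M := fun u => NF_808.refl (P.om u) (P.M u)
  c_om := P.c_om
  c_M := by
    have h1 : Continuous fun u => 2 * ⟪P.M u, P.om u⟫ :=
      continuous_const.mul (P.c_M.inner P.c_om)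
    exact P.c_M.sub (h1.smul P.c_om)
  n_om := P.n_om
  n_M := fun u => by rw [refl_norm (P.n_om u), P.n_M]
  rest_om := P.rest_om
  rest_M := fun u hu => by
    show NF_808.refl (P.om u) (P.M u) = ec (n + 2)
    rw [P.rest_om u hu, P.rest_M u hu, NF_808.refl, ec_hc]
    simp
  wall_om := P.wall_om
  wall_M := fun u hu => by
    rw [P.wall_M u hu, NF_808.refl, P.wall_om u hu]
    simp

/-- the mirror frame. -/
def mirFrame (F : FrameD n) : FrameD n where
  Rf := fun u => F.Rf (mu u)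
  c_Rf := by
    have h : Continuous fun p : Bc (n + 2) × Vc (n + 2) => (mu p.1, p.2) :=
      (continuous_mu.comp continuous_fst).prodMk continuous_snd
    exact F.c_Rf.comp h
  c_Rf' := by
    have h : Continuous fun p : Bc (n + 2) × Vc (n + 2) => (mu p.1, p.2) :=
      (continuous_mu.comp continuous_fst).prodMk continuous_snd
    exact F.c_Rf'.comp h
  rest := fun u hu => F.rest _ (rest_mu hu)
  wall := fun u hu => F.wall _ (by rw [norm_mu]; exact hu)

/-- the mirror data. -/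
def mirD (D : NFD n m i j) : NFD n m i j where
  y := fun k u => D.y k (mu u)
  N := fun k u => D.N k (mu u)
  p := D.p
  c_y := fun k => (D.c_y k).comp continuous_mu
  c_N := fun k => (D.c_N k).comp continuous_mu
  n_N := fun k u => D.n_N k _
  yj := fun u => D.yj _
  sep := fun k l u h => D.sep k l _ h
  far := fun k u h => D.far k _ h
  p_e := D.p_e
  p_h := D.p_h
  p_norm := D.p_norm
  rest_y := fun k u hu => D.rest_y k _ (rest_mu hu)
  rest_N := fun k u hu => D.rest_N k _ (rest_mu hu)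
  wall_y := fun k u hu => D.wall_y k _ (by rw [norm_mu]; exact hu)
  wall_N := fun k u hu => D.wall_N k _ (by rw [norm_mu]; exact hu)
  P := mirPath D.P
  F := mirFrame D.F
  hij := D.hij
  mid_y := fun k u hu => D.mid_y k _ (by rw [mu_one, abs_neg]; exact hu)
  mid_N := fun k u hu => D.mid_N k _ (by rw [mu_one, abs_neg]; exact hu)
  mid_F := fun u hu => D.mid_F _ (by rw [mu_one, abs_neg]; exact hu)

lemma isMir_mirD (D : NFD n m i j) : IsMir D (mirD D) :=
  ⟨fun _ _ => rfl, fun _ _ => rfl, fun _ => rfl, fun _ => rfl, fun _ => rfl⟩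

/-! ### the frame on half the cube -/

lemma fr_eq (D : NFD n m i j) (u : Bc (n + 2)) : fr D u = D.F.Rf (us u (max 0 (u 1))) := by
  by_cases h : 0 ≤ u 1
  · rw [fr, if_pos h, max_eq_right h, us_self]
  · rw [fr, if_neg h, D.mid_F]
    rw [us_one, max_eq_left (not_le.1 h).le]
    norm_num

lemma continuous_fr (D : NFD n m i j) {f : Bc (n + 2) → Vc (n + 2)} (hf : Continuous f) :
    Continuous fun u => fr D u (f u) := by
  have h1 : Continuous fun u : Bc (n + 2) => us u (max 0 (u 1)) := by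
    have h : Continuous fun u : Bc (n + 2) => (u, max 0 (u 1)) := by fun_prop
    exact continuous_us.comp h
  have h2 := D.F.c_Rf.comp (h1.prodMk hf)
  have h3 : (fun u => fr D u (f u)) = fun u => D.F.Rf (us u (max 0 (u 1))) (f u) := by
    funext u
    rw [fr_eq]
  rw [h3]
  exact h2

lemma fr_wall (D : NFD n m i j) {u : Bc (n + 2)} (hu : 1 ≤ ‖u‖) :
    fr D u (ec (n + 2)) = ec (n + 2) := by
  unfold fr
  split_ifs with h
  · exact D.F.wall u hu
  · rfl

lemma fr_hor (D : NFD n m i j) {u : Bc (n + 2)} (hu : 1 ≤ ‖u‖) (v : Vc (n + 2)) :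
    ⟪ec (n + 2), fr D u v⟫ = ⟪ec (n + 2), v⟫ := by
  conv_lhs => rw [← fr_wall D hu]
  exact (fr D u).inner_map_map _ _

lemma path_norm {u : Bc (n + 2)} (hu : 1 ≤ ‖u‖) : 1 ≤ ‖us u (16 * u 1 - 1)‖ := by
  refine one_le_of (fun k hk => us_ne u _ hk) hu fun h => ?_
  rw [us_one]
  rcases le_abs.1 h with h | h
  · exact le_abs.2 (Or.inl (by linarith))
  · exact le_abs.2 (Or.inr (by linarith))

/-! ### the data of `G₊` -/

lemma continuous_rp (rho R1 : ℝ) : Continuous (rp rho R1) := by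
  unfold rp
  fun_prop

lemma rp_pos (rho R1 s : ℝ) : 0 < rp rho R1 s := Real.exp_pos _

lemma continuous_xp (D : NFD n m i j) (rho R1 : ℝ) (k : Fin m) : Continuous (xp D rho R1 k) := by
  unfold xp
  by_cases hk : k = i
  · simp only [hk, if_true]
    have h : Continuous fun u : Bc (n + 2) => (u, 16 * u 1 - 1) := by fun_prop
    exact ((continuous_rp rho R1).comp (continuous_apply 1)).smul
      (continuous_fr D (D.P.c_om.comp (continuous_us.comp h)))
  · simp only [hk, if_false]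
    exact D.c_y k

lemma continuous_nup (D : NFD n m i j) (k : Fin m) : Continuous (nup D k) := by
  unfold nup
  by_cases hk : k = i
  · simp only [hk, if_true]
    have h : Continuous fun u : Bc (n + 2) => (u, 16 * u 1 - 1) := by fun_prop
    exact continuous_fr D (D.P.c_M.comp (continuous_us.comp h))
  · simp only [hk, if_false]
    by_cases hj : k = j
    · simp only [hj, if_true]
      exact D.F.c_Rf.comp (continuous_id.prodMk continuous_const)
    · simp only [hj, if_false]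
      exact D.c_N k

lemma norm_nup (D : NFD n m i j) (k : Fin m) (u : Bc (n + 2)) : ‖nup D k u‖ = 1 := by
  unfold nup
  split_ifs
  · rw [LinearIsometryEquiv.norm_map, D.P.n_M]
  · rw [LinearIsometryEquiv.norm_map, norm_ec]
  · exact D.n_N k u

lemma xp_hor (D : NFD n m i j) (rho R1 : ℝ) (k : Fin m) {u : Bc (n + 2)} (hu : 1 ≤ ‖u‖) :
    ⟪ec (n + 2), xp D rho R1 k u⟫ = 0 := by
  unfold xp
  split_ifs
  · rw [inner_smul_right, fr_hor D hu, D.P.wall_om _ (path_norm hu), mul_zero]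
  · exact D.wall_y k u hu

lemma nup_wall (D : NFD n m i j) (k : Fin m) {u : Bc (n + 2)} (hu : 1 ≤ ‖u‖) :
    nup D k u = ec (n + 2) := by
  unfold nup
  split_ifs
  · rw [D.P.wall_M _ (path_norm hu)]
    exact fr_wall D hu
  · exact D.F.wall u hu
  · exact D.wall_N k u hu

lemma norm_xp_i (D : NFD n m i j) (rho R1 : ℝ) (u : Bc (n + 2)) :
    ‖xp D rho R1 i u‖ = rp rho R1 (u 1) := by
  rw [xp, if_pos rfl, norm_smul, LinearIsometryEquiv.norm_map, D.P.n_om, mul_one, Real.norm_eq_abs,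
    abs_of_pos (rp_pos _ _ _)]

lemma xp_ne_aux (D : NFD n m i j) {q : Rad} (hq : Par D q) {k : Fin m} (hk : k ≠ i)
    {u : Bc (n + 2)} (hu : ‖u‖ ≤ 1) : xp D q.rho q.R1 i u ≠ xp D q.rho q.R1 k u := by
  have hxk : xp D q.rho q.R1 k u = D.y k u := by rw [xp, if_neg hk]
  intro h
  rw [hxk] at h
  have hN := norm_xp_i D q.rho q.R1 u
  rw [h] at hN
  by_cases hj : k = j
  · subst hj
    rw [D.yj, norm_zero] at hN
    exact absurd hN.symm (rp_pos _ _ _).ne'
  have hR1 : 0 < q.R1 := by linarith [hq.R1_gt]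
  rcases lt_or_ge (u 1) (-(1 / 2)) with h1 | h1
  · -- far left: the strand is outermost
    have e1 : max (-(1 / 4) : ℝ) (min (1 / 4) (u 1)) = -(1 / 4) := by
      rw [max_eq_left]
      exact (min_le_right _ _).trans (by linarith)
    have e2 : rp q.rho q.R1 (u 1) = q.R1 := by
      rw [rp, e1]
      have : (1 / 2 + 2 * -(1 / 4 : ℝ)) * Real.log q.rho + (1 / 2 - 2 * -(1 / 4 : ℝ)) *
          Real.log q.R1 = Real.log q.R1 := by ring
      rw [this, Real.exp_log hR1]
    rw [e2] at hN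
    have := hq.y_lt k u hk hu
    linarith
  rcases lt_or_ge (1 / 4) (u 1) with h2 | h2
  · -- right: the strand is near the origin
    have e1 : max (-(1 / 4) : ℝ) (min (1 / 4) (u 1)) = 1 / 4 := by
      rw [min_eq_left h2.le]
      exact max_eq_right (by norm_num)
    have e2 : rp q.rho q.R1 (u 1) = q.rho := by
      rw [rp, e1]
      have : (1 / 2 + 2 * (1 / 4 : ℝ)) * Real.log q.rho + (1 / 2 - 2 * (1 / 4 : ℝ)) *
          Real.log q.R1 = Real.log q.rho := by ring
      rw [this, Real.exp_log hq.rho_pos]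
    rw [e2] at hN
    have := D.far k u hj
    have := hq.rho_lt
    linarith
  -- the middle
  have h3 : |u 1| ≤ 1 / 2 := abs_le.2 ⟨h1, by linarith⟩
  have hy : D.y k u = D.p k := D.mid_y k u h3
  have hfr : fr D u = LinearIsometryEquiv.refl ℝ _ := by
    unfold fr
    split_ifs
    · exact D.mid_F u h3
    · rfl
  rcases le_or_gt (u 1) 0 with h4 | h4
  · -- the direction is `h`
    have h5 : RestAt (us u (16 * u 1 - 1)) := restAt_one (by
      rw [us_one]
      exact le_abs.2 (Or.inr (by linarith)))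
    rw [hy, xp, if_pos rfl, hfr, D.P.rest_om _ h5] at h
    have h6 := D.p_h k
    rw [← h] at h6
    rw [LinearIsometryEquiv.coe_refl, id_eq, inner_smul_right, real_inner_self_eq_norm_sq,
      norm_hc, one_pow, mul_one] at h6
    exact (rp_pos _ _ _).ne' h6
  · -- the radius is small
    rw [hy] at hN
    have h5 := D.p_norm k hj
    have e1 : max (-(1 / 4) : ℝ) (min (1 / 4) (u 1)) = u 1 := by
      rw [min_eq_right h2]
      exact max_eq_right (by linarith)
    have h6 : (1 / 2 + 2 * u 1) * Real.log q.rho + (1 / 2 - 2 * u 1) * Real.log q.R1 < 0 := by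
      have h7 : Real.log q.rho + Real.log q.R1 < 0 := by
        rw [← Real.log_mul hq.rho_pos.ne' hR1.ne']
        exact Real.log_neg (mul_pos hq.rho_pos hR1) (by linarith [hq.prod_lt])
      have h8 : 0 < Real.log q.R1 := Real.log_pos (by linarith [hq.R1_gt])
      nlinarith
    have h9 : rp q.rho q.R1 (u 1) < 1 := by
      rw [rp, e1]
      have h10 := Real.exp_lt_exp.2 h6
      rwa [Real.exp_zero] at h10
    linarith

lemma rp_le {q : Rad} (h : 0 < q.rho) (h' : q.rho < q.R1) (s : ℝ) :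
    rp q.rho q.R1 s ≤ q.R1 := by
  have hR1 : 0 < q.R1 := h.trans h'
  have h1 : Real.log q.rho ≤ Real.log q.R1 := Real.log_le_log h h'.le
  have h2 : -(1 / 4) ≤ max (-(1 / 4) : ℝ) (min (1 / 4) s) := le_max_left _ _
  rw [rp]
  calc Real.exp _ ≤ Real.exp (Real.log q.R1) := by
        refine Real.exp_le_exp.2 ?_
        nlinarith
    _ = q.R1 := Real.exp_log hR1

lemma R_gt {D : NFD n m i j} {q : Rad} (hq : Par D q) : q.R1 + q.r < q.R := by
  have hR1 : 0 < q.R1 := by linarith [hq.R1_gt]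
  have h1 : q.R = q.R1 * Real.exp (kap q / 16) := by
    rw [← Real.exp_log hq.R_pos, hq.log_R, Real.exp_add, Real.exp_log hR1]
  have h2 : kap q / 16 + 1 ≤ Real.exp (kap q / 16) := Real.add_one_le_exp _
  have h3 := hq.kap_gt
  have h4 := hq.r_lt
  rw [h1]
  nlinarith [hq.R1_gt]

/-- the system `G₊`. -/
theorem exists_G (D : NFD n m i j) {q : Rad} (hq : Par D q) :
    ∃ G : S n m, Has G (xp D q.rho q.R1) (nup D) ∧ G.r ≤ q.r ∧ G.R = q.R := by
  have hd : ∀ k l, k ≠ l → ∀ u : Bc (n + 2),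
      xp D q.rho q.R1 k (cl u) ≠ xp D q.rho q.R1 l (cl u) := by
    intro k l hkl u
    have hu := norm_cl_le u
    by_cases hk : k = i
    · subst hk
      exact xp_ne_aux D hq (Ne.symm hkl) hu
    · by_cases hl : l = i
      · subst hl
        exact (xp_ne_aux D hq hk hu).symm
      · rw [xp, if_neg hk, xp, if_neg hl]
        exact D.sep k l _ hkl
  have hcl : ∀ k, ∀ u : Bc (n + 2),
      xp D q.rho q.R1 k (cl (cl u)) = xp D q.rho q.R1 k (cl u) := by
    intro k u
    rw [cl_of_le (norm_cl_le u)]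
  obtain ⟨G, hx, hn⟩ := exists_sys (fun k u => xp D q.rho q.R1 k (cl u))
    (fun k u => nup D k (cl u)) (fun k => (continuous_xp D q.rho q.R1 k).comp continuous_cl)
    (fun k => (continuous_nup D k).comp continuous_cl) (fun k u => norm_nup D k _) hd hcl
    (fun k u hu => xp_hor D _ _ k (norm_cl hu).ge) (fun k u hu => nup_wall D k (norm_cl hu).ge)
  refine ⟨⟨G.x, G.nu, min G.r q.r, q.R, lt_min G.hr hq.r_pos, G.cx, G.cnu, G.norm_nu,
    fun k l u h => ?_, fun k u => ?_, G.wall_x, G.wall_nu⟩, fun k u hu => ⟨?_, ?_⟩,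
    min_le_right _ _, rfl⟩
  · have h1 := G.sep k l u h
    have h2 := min_le_left G.r q.r
    linarith
  · have h2 := min_le_right G.r q.r
    have h3 := R_gt hq
    have h4 : ‖G.x k u‖ ≤ q.R1 := by
      rw [hx]
      show ‖xp D q.rho q.R1 k (cl u)‖ ≤ q.R1
      by_cases hk : k = i
      · subst hk
        rw [norm_xp_i]
        exact rp_le hq.rho_pos (by linarith [hq.rho_lt, hq.R1_gt]) _
      · rw [xp, if_neg hk]
        have := hq.y_lt k (cl u) hk (norm_cl_le u)
        linarith [norm_nonneg (D.y k (cl u))]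
    linarith
  · show G.x k u = _
    rw [hx]
    show xp D q.rho q.R1 k (cl u) = _
    rw [cl_of_le hu]
  · show G.nu k u = _
    rw [hn]
    show nup D k (cl u) = _
    rw [cl_of_le hu]

/-- the mirror system. -/
def mirS (G : S n m) : S n m where
  x := fun k u => G.x k (mu u)
  nu := fun k u => G.nu k (mu u)
  r := G.r
  R := G.R
  hr := G.hr
  cx := fun k => (G.cx k).comp continuous_mu
  cnu := fun k => (G.cnu k).comp continuous_mu
  norm_nu := fun k u => G.norm_nu k _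
  sep := fun k l u h => G.sep k l _ h
  bd := fun k u => G.bd k _
  wall_x := fun k u hu => G.wall_x k _ (by rw [norm_mu]; exact hu)
  wall_nu := fun k u hu => G.wall_nu k _ (by rw [norm_mu]; exact hu)

lemma mirS_K (G : S n m) : (mirS G).K = mir G.K := by
  ext p
  simp only [Sys.K, mir, mirS, mem_ofPred_eq, norm_mu]

lemma fr_mir (D : NFD n m i j) (u : Bc (n + 2)) : fr (mirD D) (mu u) = fl D u := by
  unfold fr fl
  rw [mu_one]
  have h1 : (mirD D).F.Rf (mu u) = D.F.Rf u := by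
    show D.F.Rf (mu (mu u)) = _
    rw [mu_mu]
  rw [h1]
  simp only [Left.nonneg_neg_iff]

lemma has_mir (D : NFD n m i j) (rho R1 : ℝ) {G : S n m}
    (h : Has G (xp (mirD D) rho R1) (nup (mirD D))) :
    Has (mirS G) (xm D rho R1) (num D) := by
  intro k u hu
  obtain ⟨h1, h2⟩ := h k (mu u) (by rw [norm_mu]; exact hu)
  refine ⟨?_, ?_⟩
  · show G.x k (mu u) = _
    rw [h1]
    unfold xp xm
    split_ifs with hk
    · rw [fr_mir, mu_one, us_mu]
      have : (16 * -u 1 - 1) = -(16 * u 1) - 1 := by ring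
      rw [this]
      rfl
    · show D.y k (mu (mu u)) = _
      rw [mu_mu]
  · show G.nu k (mu u) = _
    rw [h2]
    unfold nup num
    split_ifs with hk hj
    · rw [fr_mir, mu_one, us_mu]
      have : (16 * -u 1 - 1) = -(16 * u 1) - 1 := by ring
      rw [this]
      rfl
    · show D.F.Rf (mu (mu u)) _ = _
      rw [mu_mu]
    · show D.N k (mu (mu u)) = _
      rw [mu_mu]

/-! ### radii -/

lemma exists_bounds (D : NFD n m i j) : ∃ C δ : ℝ, 0 < C ∧ 0 < δ ∧
    (∀ k u, ‖u‖ ≤ 1 → ‖D.y k u‖ ≤ C) ∧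
    ∀ k l u, k ≠ l → ‖u‖ ≤ 1 → δ ≤ ‖D.y k u - D.y l u‖ := by
  have hK : IsCompact (closedBall (0 : Bc (n + 2)) 1) := isCompact_closedBall _ _
  have h1 : ∀ k, ∀ᶠ C in atTop, ∀ u : Bc (n + 2), ‖u‖ ≤ 1 → ‖D.y k u‖ ≤ C := by
    intro k
    obtain ⟨C, hC⟩ := hK.exists_bound_of_continuousOn (D.c_y k).continuousOn
    filter_upwards [eventually_ge_atTop C] with R hR u hu
    exact (hC u (mem_closedBall_zero_iff.2 hu)).trans hR
  obtain ⟨C, hC, hC0⟩ := ((eventually_all.2 h1).and (eventually_gt_atTop 0)).exists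
  have h2 : ∀ k l, ∀ᶠ r in 𝓝[>] (0 : ℝ), k ≠ l → ∀ u : Bc (n + 2), ‖u‖ ≤ 1 →
      r ≤ ‖D.y k u - D.y l u‖ := by
    intro k l
    by_cases hkl : k = l
    · exact Eventually.of_forall fun r h => absurd hkl h
    obtain ⟨a, ha, hle⟩ := hK.exists_forall_le' (f := fun u => ‖D.y k u - D.y l u‖) (a := 0)
      ((D.c_y k).sub (D.c_y l)).norm.continuousOn
      fun u _ => norm_pos_iff.2 (sub_ne_zero.2 (D.sep k l u hkl))
    filter_upwards [Ioo_mem_nhdsGT ha] with r hr _ u hu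
    exact hr.2.le.trans (hle u (mem_closedBall_zero_iff.2 hu))
  obtain ⟨δ, hδ, hδ0⟩ := ((eventually_all.2 fun k => eventually_all.2 fun l => h2 k l).and
    self_mem_nhdsWithin).exists
  exact ⟨C, δ, hC0, hδ0, hC, fun k l u hkl hu => hδ k l hkl u hu⟩

/-- radii which are good for all data with the bounds `C`, `δ`. -/
theorem exists_q {C δ : ℝ} (hC : 0 < C) (hδ : 0 < δ) :
    ∃ q : Rad, ∀ (D : NFD n m i j), (∀ k u, ‖u‖ ≤ 1 → ‖D.y k u‖ ≤ C) →
      (∀ k l u, k ≠ l → ‖u‖ ≤ 1 → δ ≤ ‖D.y k u - D.y l u‖) → Par D q := by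
  set R1 : ℝ := 2 * C + 1001 with hR1
  have hR1p : 0 < R1 := by positivity
  have hR1g : 1000 < R1 := by linarith
  have e1 : ∀ᶠ rho in 𝓝[>] (0 : ℝ), rho < 1 / 1000 := by
    filter_upwards [Ioo_mem_nhdsGT (show (0 : ℝ) < 1 / 1000 by norm_num)] with r hr using hr.2
  have e2 : ∀ᶠ rho in 𝓝[>] (0 : ℝ), rho < 1 / (1000000 * R1) := by
    filter_upwards [Ioo_mem_nhdsGT (show (0 : ℝ) < 1 / (1000000 * R1) by positivity)] with r hr
      using hr.2
  have e3 : ∀ᶠ rho in 𝓝[>] (0 : ℝ), rho < δ / 4 := by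
    filter_upwards [Ioo_mem_nhdsGT (show (0 : ℝ) < δ / 4 by positivity)] with r hr using hr.2
  have e4 : ∀ᶠ rho in 𝓝[>] (0 : ℝ), Real.log rho < Real.log R1 - 1000000 :=
    Real.tendsto_log_nhdsGT_zero.eventually_lt_atBot _
  obtain ⟨rho, ⟨⟨⟨⟨h1, h2⟩, h3⟩, h4⟩, h0⟩⟩ :=
    ((((e1.and e2).and e3).and e4).and self_mem_nhdsWithin).exists
  have h0 : 0 < rho := h0
  set K : ℝ := 2 * (Real.log R1 - Real.log rho) with hK
  have hKg : 1000000 < K := by
    rw [hK]; linarith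
  have hK16 : 62500 < K / 16 := by linarith
  have hexp : Real.exp (-(K / 16)) < 1 / 10000 := by
    have h5 : K / 16 + 1 ≤ Real.exp (K / 16) := Real.add_one_le_exp _
    rw [Real.exp_neg, inv_eq_one_div]
    exact one_div_lt_one_div_of_lt (by norm_num) (by linarith)
  have hexp0 : 0 < Real.exp (-(K / 16)) := Real.exp_pos _
  have hr : Real.exp (Real.log rho - K / 16) = rho * Real.exp (-(K / 16)) := by
    rw [sub_eq_add_neg, Real.exp_add, Real.exp_log h0]
  refine ⟨⟨rho, R1, Real.exp (Real.log rho - K / 16), Real.exp (Real.log R1 + K / 16), 1 / 2000⟩,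
    fun D hyC hyδ => ?_⟩
  have hkap : kap ⟨rho, R1, Real.exp (Real.log rho - K / 16), Real.exp (Real.log R1 + K / 16),
      1 / 2000⟩ = K := rfl
  refine
    { rho_pos := h0
      rho_lt := h1
      R1_gt := hR1g
      prod_lt := ?_
      y_lt := ?_
      eps_pos := by norm_num
      eps_lt := by norm_num
      r_pos := Real.exp_pos _
      R_pos := Real.exp_pos _
      log_r := ?_
      log_R := ?_
      kap_gt := ?_
      r_lt := ?_
      r_eps := ?_
      sep := ?_ }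
  · show rho * R1 < 1 / 1000000
    have h5 : rho * R1 < 1 / (1000000 * R1) * R1 := mul_lt_mul_of_pos_right h2 hR1p
    have h6 : 1 / (1000000 * R1) * R1 = 1 / 1000000 := by field_simp
    rwa [h6] at h5
  · intro k u _ hu
    show 2 * ‖D.y k u‖ < R1
    have := hyC k u hu
    rw [hR1]
    linarith
  · rw [hkap]
    exact Real.log_exp _
  · rw [hkap]
    exact Real.log_exp _
  · rw [hkap]
    exact hKg
  · show Real.exp (Real.log rho - K / 16) < 1 / 1000000
    rw [hr]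
    nlinarith
  · show 4 * Real.exp (Real.log rho - K / 16) < rho * (1 / 2000)
    rw [hr]
    nlinarith
  · intro k l u _ _ hkl hu
    show 4 * Real.exp (Real.log rho - K / 16) < _
    have h5 := hyδ k l u hkl hu
    rw [hr]
    nlinarith

/-- **SYS**. -/
theorem sysP (n : ℕ) : SysP n := by
  intro m i j D
  obtain ⟨C, δ, hC, hδ, h1, h2⟩ := exists_bounds D
  obtain ⟨q, hq⟩ := exists_q (n := n) (m := m) (i := i) (j := j) hC hδ
  have hD : Par D q := hq D h1 h2
  have hD' : Par (mirD D) q :=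
    hq (mirD D) (fun k u hu => h1 k _ (by rw [norm_mu]; exact hu))
      (fun k l u hkl hu => h2 k l _ hkl (by rw [norm_mu]; exact hu))
  obtain ⟨G, a1, a2, a3⟩ := exists_G D hD
  obtain ⟨G', b1, b2, b3⟩ := exists_G (mirD D) hD'
  exact ⟨mirD D, q, G, G', mirS G', isMir_mirD D, hD, hD', a1, a2, a3, b1, b2, b3,
    has_mir D _ _ b1, mirS_K G'⟩

end

end Crest.Agent.R267.SysP_224
end

-- ▼ part R267/Tilt_88
section

/-!
# The tilt (row 267, T2-5 M2): SLIDE and SHIFT

Base `ι → ℝ` with a distinguished coordinate `i0` (the variable `s`), fibre `V`.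
-/

set_option autoImplicit false

namespace Crest.Agent.R267.Tilt_88

open Set Topology Function Metric
open Crest.Agent.R267
open scoped RealInnerProductSpace
open Crest.Agent.R267.Move_118

/-! ### trapezoids -/

/-- `1` for `t ≤ α`, `0` for `β ≤ t`. -/
noncomputable def tz (α β t : ℝ) : ℝ := max 0 (min 1 ((β - t) / (β - α)))

theorem tz_nonneg (α β t : ℝ) : 0 ≤ tz α β t := le_max_left _ _
theorem tz_le_one (α β t : ℝ) : tz α β t ≤ 1 := max_le zero_le_one (min_le_left _ _)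

theorem tz_eq_one {α β t : ℝ} (h : α < β) (ht : t ≤ α) : tz α β t = 1 := by
  have : 1 ≤ (β - t) / (β - α) := (one_le_div (sub_pos.2 h)).2 (by linarith)
  unfold tz
  rw [min_eq_left this, max_eq_right zero_le_one]

theorem tz_eq_zero {α β t : ℝ} (h : α < β) (ht : β ≤ t) : tz α β t = 0 := by
  have : (β - t) / (β - α) ≤ 0 := div_nonpos_of_nonpos_of_nonneg (by linarith) (by linarith)
  unfold tz
  rw [min_eq_right (by linarith), max_eq_left this]

theorem continuous_tz (α β : ℝ) : Continuous (tz α β) := by unfold tz; fun_prop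

theorem abs_tz_sub {α β : ℝ} (h : α < β) (s t : ℝ) :
    |tz α β s - tz α β t| ≤ |s - t| / (β - α) := by
  unfold tz
  have h1 : |max 0 (min 1 ((β - s) / (β - α))) - max 0 (min 1 ((β - t) / (β - α)))| ≤
      |min 1 ((β - s) / (β - α)) - min 1 ((β - t) / (β - α))| := by
    refine (abs_max_sub_max_le_max (0 : ℝ) (min 1 ((β - s) / (β - α))) 0
      (min 1 ((β - t) / (β - α)))).trans ?_
    rw [sub_self, abs_zero]
    exact max_le (abs_nonneg _) le_rfl
  refine h1.trans ((abs_min_sub_min_le_max _ _ _ _).trans ?_)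
  rw [sub_self, abs_zero]
  have h0 : 0 < β - α := sub_pos.2 h
  refine max_le (by positivity) ?_
  rw [← sub_div, abs_div, abs_of_pos h0, show (β - s) - (β - t) = -(s - t) by ring, abs_neg]

theorem tz_ne_zero {α β t : ℝ} (h : α < β) (ht : tz α β t ≠ 0) : t < β := by
  by_contra hc
  exact ht (tz_eq_zero h (not_lt.1 hc))

/-! ### one-dimensional fibrewise homeomorphisms -/

/-- `s ↦ s + φ x s` for a contraction `φ x`. -/
theorem exists_one {X : Type*} [TopologicalSpace X] (φ : X → ℝ → ℝ)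
    (hφ : Continuous (Function.uncurry φ)) (hL : ∀ x s t, |φ x s - φ x t| ≤ 1 / 2 * |s - t|) :
    ∃ Θ : FHom X ℝ, ∀ x s, Θ.fwd x s = s + φ x s := by
  have hL' : ∀ x, LipschitzWith (1 / 2) (φ x) := fun x => by
    refine LipschitzWith.of_dist_le_mul fun s t => ?_
    rw [Real.dist_eq, Real.dist_eq]
    have : ((1 / 2 : NNReal) : ℝ) = 1 / 2 := by norm_num
    rw [this]
    exact hL x s t
  obtain ⟨Ψ, h1, h2, h3⟩ := Triv_88.exists_param_inverse φ hφ hL'
  exact ⟨⟨fun x s => s + φ x s, Ψ, continuous_snd.add hφ, h1, h2, h3⟩, fun _ _ => rfl⟩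

/-- powers of a fibrewise homeomorphism. -/
def pow {X W : Type*} [TopologicalSpace X] [TopologicalSpace W] (Θ : FHom X W) : ℕ → FHom X W
  | 0 => FHom.refl
  | k + 1 => (pow Θ k).trans Θ

theorem pow_succ_fwd {X W : Type*} [TopologicalSpace X] [TopologicalSpace W] (Θ : FHom X W)
    (k : ℕ) (x : X) (y : W) : (pow Θ (k + 1)).fwd x y = Θ.fwd x ((pow Θ k).fwd x y) := rfl

/-- **the shift**: translation by `- 2 σ` near `σ` and with support in `|s| ≤ 1/2`. -/
theorem exists_shift {X : Type*} [TopologicalSpace X] (σ : X → ℝ) (hσ : Continuous σ)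
    (hb : ∀ x, |σ x| ≤ 3 / 8) :
    ∃ Θ : FHom X ℝ, (∀ x s, |s - σ x| ≤ 1 / 16 → Θ.fwd x s = s - 2 * σ x) ∧
      (∀ x s, 1 / 2 ≤ |s| → Θ.fwd x s = s) ∧ (∀ x s, σ x = 0 → Θ.fwd x s = s) := by
  obtain ⟨Θ, hΘ⟩ := exists_one (fun x s => -(2 * σ x / 24) * tz (7 / 16) (1 / 2) |s|)
    (by
      have := continuous_tz (7 / 16) (1 / 2)
      unfold Function.uncurry
      fun_prop)
    (fun x s t => by
      rw [← mul_sub, abs_mul, abs_neg]
      have h1 := abs_tz_sub (show (7 / 16 : ℝ) < 1 / 2 by norm_num) |s| |t|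
      have h2 := abs_abs_sub_abs_le s t
      have h3 : |2 * σ x / 24| ≤ 1 / 32 := by
        rw [abs_div, abs_mul]
        have := hb x
        norm_num
        linarith
      calc |2 * σ x / 24| * |tz (7 / 16) (1 / 2) (|s|) - tz (7 / 16) (1 / 2) (|t|)|
          ≤ 1 / 32 * (|(|s| - |t|)| / (1 / 2 - 7 / 16)) := by gcongr
        _ ≤ 1 / 32 * (|s - t| / (1 / 2 - 7 / 16)) := by gcongr
        _ = 1 / 2 * |s - t| := by ring)
  refine ⟨pow Θ 24, ?_, ?_, ?_⟩
  · intro x s hs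
    have key : ∀ j : ℕ, j ≤ 24 → (pow Θ j).fwd x s = s - 2 * σ x * (j / 24) := by
      intro j
      induction j with
      | zero => intro _; simp [pow, FHom.refl]
      | succ j ih =>
        intro hj
        rw [pow_succ_fwd, ih (by omega), hΘ]
        have hj' : (j : ℝ) ≤ 24 := by exact_mod_cast (by omega : j ≤ 24)
        have hj0 : (0 : ℝ) ≤ j := Nat.cast_nonneg j
        have hc : |s - 2 * σ x * (j / 24)| ≤ 7 / 16 := by
          have h1 := abs_le.1 hs
          have h2 := abs_le.1 (hb x)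
          set c : ℝ := j / 24 with hcdef
          have hc0 : 0 ≤ c := by positivity
          have hc1 : c ≤ 1 := by rw [hcdef, div_le_one (by norm_num)]; exact hj'
          rw [abs_le]
          constructor <;> nlinarith
        rw [tz_eq_one (by norm_num) hc]
        push_cast
        ring
    rw [key 24 le_rfl]
    push_cast
    ring
  · intro x s hs
    have key : ∀ j : ℕ, (pow Θ j).fwd x s = s := by
      intro j
      induction j with
      | zero => rfl
      | succ j ih => rw [pow_succ_fwd, ih, hΘ, tz_eq_zero (by norm_num) hs]; ring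
    exact key 24
  · intro x s hs
    have key : ∀ j : ℕ, (pow Θ j).fwd x s = s := by
      intro j
      induction j with
      | zero => rfl
      | succ j ih => rw [pow_succ_fwd, ih, hΘ, hs]; ring
    exact key 24

/-! ### lifting to the total space -/

variable {ι : Type*} [Fintype ι] [DecidableEq ι] {V : Type*} [NormedAddCommGroup V]
  [InnerProductSpace ℝ V]

/-- move the coordinate `i0` by `θ` and scale the fibre by `exp (-b (s' - s))`. -/
noncomputable def mv (i0 : ι) (b : ℝ) (θ : (ι → ℝ) × V → ℝ) (p : (ι → ℝ) × V) : (ι → ℝ) × V :=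
  (update p.1 i0 (θ p), Real.exp (-b * (θ p - p.1 i0)) • p.2)

theorem continuous_mv (i0 : ι) (b : ℝ) {θ : (ι → ℝ) × V → ℝ} (hθ : Continuous θ) :
    Continuous (mv (V := V) i0 b θ) := by
  unfold mv
  refine (continuous_fst.update i0 hθ).prodMk ?_
  have : Continuous fun p : (ι → ℝ) × V => p.1 i0 := (continuous_apply i0).comp continuous_fst
  fun_prop

/-- the lifted homeomorphism. -/
noncomputable def lift {X : Type*} [TopologicalSpace X] (i0 : ι) (b : ℝ) (Θ : FHom X ℝ)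
    (π : (ι → ℝ) × V → X) (hπ : Continuous π)
    (h1 : ∀ p, π (mv i0 b (fun p => Θ.fwd (π p) (p.1 i0)) p) = π p)
    (h2 : ∀ p, π (mv i0 b (fun p => Θ.bwd (π p) (p.1 i0)) p) = π p) :
    ((ι → ℝ) × V) ≃ₜ ((ι → ℝ) × V) where
  toFun := mv i0 b (fun p => Θ.fwd (π p) (p.1 i0))
  invFun := mv i0 b (fun p => Θ.bwd (π p) (p.1 i0))
  left_inv p := by
    set q := mv i0 b (fun p => Θ.fwd (π p) (p.1 i0)) p with hq
    have e1 : π q = π p := h1 p
    have e2 : q.1 i0 = Θ.fwd (π p) (p.1 i0) := by rw [hq]; simp [mv]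
    have e3 : Θ.bwd (π q) (q.1 i0) = p.1 i0 := by rw [e1, e2, Θ.bwd_fwd]
    refine Prod.ext ?_ ?_
    · show update q.1 i0 (Θ.bwd (π q) (q.1 i0)) = p.1
      rw [e3, hq]; simp [mv]
    · show Real.exp (-b * (Θ.bwd (π q) (q.1 i0) - q.1 i0)) • q.2 = p.2
      rw [e3, e2, hq]
      simp only [mv]
      rw [smul_smul, ← Real.exp_add]
      rw [show -b * (p.1 i0 - Θ.fwd (π p) (p.1 i0)) + -b * (Θ.fwd (π p) (p.1 i0) - p.1 i0) = 0
        by ring, Real.exp_zero, one_smul]
  right_inv p := by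
    set q := mv i0 b (fun p => Θ.bwd (π p) (p.1 i0)) p with hq
    have e1 : π q = π p := h2 p
    have e2 : q.1 i0 = Θ.bwd (π p) (p.1 i0) := by rw [hq]; simp [mv]
    have e3 : Θ.fwd (π q) (q.1 i0) = p.1 i0 := by rw [e1, e2, Θ.fwd_bwd]
    refine Prod.ext ?_ ?_
    · show update q.1 i0 (Θ.fwd (π q) (q.1 i0)) = p.1
      rw [e3, hq]; simp [mv]
    · show Real.exp (-b * (Θ.fwd (π q) (q.1 i0) - q.1 i0)) • q.2 = p.2
      rw [e3, e2, hq]
      simp only [mv]
      rw [smul_smul, ← Real.exp_add]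
      rw [show -b * (p.1 i0 - Θ.bwd (π p) (p.1 i0)) + -b * (Θ.bwd (π p) (p.1 i0) - p.1 i0) = 0
        by ring, Real.exp_zero, one_smul]
  continuous_toFun := continuous_mv i0 b (Θ.cont_fwd.comp
    (hπ.prodMk ((continuous_apply i0).comp continuous_fst)))
  continuous_invFun := continuous_mv i0 b (Θ.cont_bwd.comp
    (hπ.prodMk ((continuous_apply i0).comp continuous_fst)))

/-! ### parameters -/

/-- `exp (a - b s)` = radius of the sphere of inversion at time `s`, `[sa, sb]` = winding part. -/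
structure Par where
  a : ℝ
  b : ℝ
  r : ℝ
  R : ℝ
  sa : ℝ
  sb : ℝ
  w : ℝ
  eps : ℝ
  hb : 0 < b
  hr : 0 < r
  hrR : r < R
  hw : 0 < w
  hw1 : w ≤ 1 / 2
  heps : 0 < eps
  heps1 : eps < 1
  h1 : Real.log r < a - b * (sb + 3 * w)
  h2 : a - b * (sa - 3 * w) < Real.log R
  h3 : a - b * (3 / 8) ≤ Real.log r
  h4 : Real.log R ≤ a + b * (3 / 8)
  hY : Real.log ((1 + eps) / (1 - eps)) / 2 ≤ b * w / 8

namespace Par

variable (P : Par)

/-- displacement of the slide. -/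
noncomputable def phi (x : ℝ × ℝ) (s : ℝ) : ℝ :=
  (2 / P.b * tz 1 2 x.2 * (tz (P.b * P.w / 8) (P.b * P.w / 4) |x.1| * x.1)) *
    tz P.w (2 * P.w) (max (P.sa - s) (s - P.sb))

theorem abs_aux (y : ℝ) :
    |tz (P.b * P.w / 8) (P.b * P.w / 4) |y| * y| ≤ P.b * P.w / 4 := by
  have h0 : 0 < P.b * P.w := mul_pos P.hb P.hw
  by_cases h : P.b * P.w / 4 ≤ |y|
  · rw [tz_eq_zero (by linarith) h, zero_mul, abs_zero]
    positivity
  · push Not at h
    rw [abs_mul, abs_of_nonneg (tz_nonneg _ _ _)]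
    calc tz (P.b * P.w / 8) (P.b * P.w / 4) |y| * |y| ≤ 1 * |y| := by
          gcongr
          exact tz_le_one _ _ _
      _ ≤ P.b * P.w / 4 := by linarith

theorem abs_coef (x : ℝ × ℝ) :
    |2 / P.b * tz 1 2 x.2 * (tz (P.b * P.w / 8) (P.b * P.w / 4) |x.1| * x.1)| ≤ P.w / 2 := by
  have hb := P.hb
  rw [abs_mul, abs_mul, abs_of_nonneg (tz_nonneg _ _ _), abs_of_pos (by positivity : 0 < 2 / P.b)]
  calc 2 / P.b * tz 1 2 x.2 * |tz (P.b * P.w / 8) (P.b * P.w / 4) |x.1| * x.1|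
      ≤ 2 / P.b * 1 * (P.b * P.w / 4) := by
        gcongr
        · exact tz_le_one _ _ _
        · exact P.abs_aux _
    _ = P.w / 2 := by field_simp; ring

theorem abs_phi_le (x : ℝ × ℝ) (s : ℝ) : |P.phi x s| ≤ P.w / 2 := by
  unfold phi
  rw [abs_mul, abs_of_nonneg (tz_nonneg _ _ _)]
  exact (mul_le_mul (P.abs_coef x) (tz_le_one _ _ _) (tz_nonneg _ _ _)
    (by have := P.hw; positivity)).trans (mul_one _).le

theorem phi_lip (x : ℝ × ℝ) (s t : ℝ) : |P.phi x s - P.phi x t| ≤ 1 / 2 * |s - t| := by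
  have hw := P.hw
  unfold phi
  rw [← mul_sub, abs_mul]
  have h2 : |max (P.sa - s) (s - P.sb) - max (P.sa - t) (t - P.sb)| ≤ |s - t| := by
    refine (abs_max_sub_max_le_max _ _ _ _).trans ?_
    refine max_le (le_of_eq ?_) (le_of_eq ?_)
    · rw [show P.sa - s - (P.sa - t) = -(s - t) by ring, abs_neg]
    · rw [show s - P.sb - (t - P.sb) = s - t by ring]
  calc _ ≤ P.w / 2 * (|max (P.sa - s) (s - P.sb) - max (P.sa - t) (t - P.sb)| /
          (2 * P.w - P.w)) := by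
        gcongr
        · exact P.abs_coef x
        · exact abs_tz_sub (by linarith) _ _
    _ ≤ P.w / 2 * (|s - t| / (2 * P.w - P.w)) := by
        have : 0 < 2 * P.w - P.w := by linarith
        gcongr
    _ = 1 / 2 * |s - t| := by
        rw [show 2 * P.w - P.w = P.w by ring]
        field_simp

theorem continuous_phi : Continuous (Function.uncurry P.phi) := by
  unfold phi Function.uncurry
  have h1 := continuous_tz 1 2
  have h2 := continuous_tz (P.b * P.w / 8) (P.b * P.w / 4)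
  have h3 := continuous_tz P.w (2 * P.w)
  fun_prop

theorem phi_ne {x : ℝ × ℝ} {s : ℝ} (h : P.phi x s ≠ 0) :
    |x.1| < P.b * P.w / 4 ∧ P.sa - 2 * P.w < s ∧ s < P.sb + 2 * P.w ∧ x.2 < 2 := by
  have hw := P.hw
  have h0 : 0 < P.b * P.w := mul_pos P.hb P.hw
  unfold phi at h
  have h1 := tz_ne_zero (by linarith) (right_ne_zero_of_mul h)
  have h2 := tz_ne_zero (by linarith) (left_ne_zero_of_mul (right_ne_zero_of_mul
    (left_ne_zero_of_mul h)))
  have h3 := tz_ne_zero (by norm_num) (right_ne_zero_of_mul (left_ne_zero_of_mul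
    (left_ne_zero_of_mul h)))
  have h4 := (le_max_left _ _).trans_lt h1
  have h5 := (le_max_right _ _).trans_lt h1
  exact ⟨h2, by linarith, by linarith, h3⟩

/-- the logarithmic distance from the curve. -/
noncomputable def yy (i0 : ι) (p : (ι → ℝ) × V) : ℝ :=
  Real.log (max ‖p.2‖ P.r) - P.a + P.b * p.1 i0

theorem continuous_yy (i0 : ι) : Continuous (P.yy (V := V) i0) := by
  unfold yy
  have h : Continuous fun p : (ι → ℝ) × V => Real.log (max ‖p.2‖ P.r) := by
    refine Continuous.log (by fun_prop) fun p => ?_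
    have := P.hr
    have h2 := le_max_right ‖p.2‖ P.r
    positivity
  have h2 : Continuous fun p : (ι → ℝ) × V => p.1 i0 := (continuous_apply i0).comp continuous_fst
  fun_prop

theorem log_aux {v : V} {y s s' : ℝ} (h : Real.log (max ‖v‖ P.r) = y + P.a - P.b * s)
    (h1 : Real.log P.r < y + P.a - P.b * s) (h2 : Real.log P.r < y + P.a - P.b * s') :
    Real.log (max ‖Real.exp (-P.b * (s' - s)) • v‖ P.r) = y + P.a - P.b * s' ∧
      P.r < ‖v‖ ∧ P.r < ‖Real.exp (-P.b * (s' - s)) • v‖ := by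
  have hr := P.hr
  have h3 : P.r < ‖v‖ := by
    by_contra hc
    rw [max_eq_right (not_lt.1 hc)] at h
    linarith
  have h4 : 0 < ‖v‖ := hr.trans h3
  rw [max_eq_left h3.le] at h
  have h5 : Real.log ‖Real.exp (-P.b * (s' - s)) • v‖ = y + P.a - P.b * s' := by
    rw [norm_smul, Real.norm_eq_abs, Real.abs_exp, Real.log_mul (Real.exp_pos _).ne' h4.ne',
      Real.log_exp, h]
    ring
  have h6 : P.r < ‖Real.exp (-P.b * (s' - s)) • v‖ := by
    have h7 : 0 < ‖Real.exp (-P.b * (s' - s)) • v‖ := by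
      rw [norm_smul, Real.norm_eq_abs, Real.abs_exp]
      exact mul_pos (Real.exp_pos _) h4
    exact (Real.log_lt_log_iff hr h7).1 (by rw [h5]; exact h2)
  refine ⟨?_, h3, h6⟩
  rw [max_eq_left h6.le, h5]

/-- everything about a point moved by the slide. -/
theorem moved {y s s' : ℝ} (hy : |y| < P.b * P.w / 4) (hs : s < P.sb + 2 * P.w)
    (hs2 : |s' - s| ≤ P.w / 2) :
    Real.log P.r < y + P.a - P.b * s ∧ Real.log P.r < y + P.a - P.b * s' := by
  have hb := P.hb
  have hw := P.hw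
  have h1 := P.h1
  have h2 := abs_lt.1 hy
  have h3 := abs_le.1 hs2
  constructor
  · have : P.b * s ≤ P.b * (P.sb + 2 * P.w) := by gcongr
    nlinarith
  · have : P.b * s' ≤ P.b * (P.sb + 2 * P.w + P.w / 2) := by gcongr; linarith
    nlinarith

end Par

/-- the parameter of the slide -/
noncomputable def piS (P : Par) (i0 : ι) (p : (ι → ℝ) × V) : ℝ × ℝ :=
  (P.yy i0 p, ‖update p.1 i0 0‖)

theorem continuous_piS (P : Par) (i0 : ι) : Continuous (piS (V := V) P i0) :=
  (P.continuous_yy i0).prodMk ((continuous_fst.update i0 continuous_const).norm)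

/-- **the slide**. -/
theorem exists_slide (P : Par) (i0 : ι) :
    ∃ Φ : ((ι → ℝ) × V) ≃ₜ ((ι → ℝ) × V), ∀ p, ∃ δ : ℝ, δ = P.phi (piS P i0 p) (p.1 i0) ∧
      Φ p = (update p.1 i0 (p.1 i0 + δ), Real.exp (-P.b * δ) • p.2) ∧
      P.yy i0 (Φ p) = P.yy i0 p := by
  obtain ⟨Θ, hΘ⟩ := exists_one P.phi P.continuous_phi P.phi_lip
  have hup : ∀ (u : ι → ℝ) (s : ℝ), update (update u i0 s) i0 0 = update u i0 0 :=
    fun u s => update_idem _ _ _
  have k1 : ∀ p : (ι → ℝ) × V, P.yy i0 (mv i0 P.b (fun p => Θ.fwd (piS P i0 p) (p.1 i0)) p) =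
      P.yy i0 p := by
    intro p
    have hx : (mv i0 P.b (fun p => Θ.fwd (piS P i0 p) (p.1 i0)) p).1 i0 =
        Θ.fwd (piS P i0 p) (p.1 i0) := by simp [mv]
    unfold Par.yy
    rw [hx]
    show Real.log (max ‖Real.exp (-P.b * (Θ.fwd (piS P i0 p) (p.1 i0) - p.1 i0)) • p.2‖ P.r) -
      P.a + P.b * Θ.fwd (piS P i0 p) (p.1 i0) = _
    rw [hΘ]
    by_cases h0 : P.phi (piS P i0 p) (p.1 i0) = 0
    · rw [h0, add_zero, sub_self, mul_zero, Real.exp_zero, one_smul]
    · obtain ⟨a1, a2, a3, a4⟩ := P.phi_ne h0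
      have hy : Real.log (max ‖p.2‖ P.r) = P.yy i0 p + P.a - P.b * p.1 i0 := by
        unfold Par.yy; ring
      obtain ⟨b1, b2⟩ := P.moved (s := p.1 i0) (s' := p.1 i0 + P.phi (piS P i0 p) (p.1 i0)) a1 a3
        (by rw [add_sub_cancel_left]; exact P.abs_phi_le _ _)
      rw [(P.log_aux hy b1 b2).1, hy]
      ring
  have k2 : ∀ p : (ι → ℝ) × V, P.yy i0 (mv i0 P.b (fun p => Θ.bwd (piS P i0 p) (p.1 i0)) p) =
      P.yy i0 p := by
    intro p
    have hx : (mv i0 P.b (fun p => Θ.bwd (piS P i0 p) (p.1 i0)) p).1 i0 =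
        Θ.bwd (piS P i0 p) (p.1 i0) := by simp [mv]
    unfold Par.yy
    rw [hx]
    show Real.log (max ‖Real.exp (-P.b * (Θ.bwd (piS P i0 p) (p.1 i0) - p.1 i0)) • p.2‖ P.r) -
      P.a + P.b * Θ.bwd (piS P i0 p) (p.1 i0) = _
    obtain ⟨s, hs⟩ : ∃ s, s = Θ.bwd (piS P i0 p) (p.1 i0) := ⟨_, rfl⟩
    have hs' : p.1 i0 = s + P.phi (piS P i0 p) s := by
      rw [← hΘ, hs, Θ.fwd_bwd]
    rw [← hs]
    by_cases h0 : P.phi (piS P i0 p) s = 0
    · have : s = p.1 i0 := by rw [hs', h0, add_zero]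
      rw [this, sub_self, mul_zero, Real.exp_zero, one_smul]
    · obtain ⟨a1, a2, a3, a4⟩ := P.phi_ne h0
      have hy : Real.log (max ‖p.2‖ P.r) = P.yy i0 p + P.a - P.b * p.1 i0 := by
        unfold Par.yy; ring
      obtain ⟨b1, b2⟩ := P.moved (y := P.yy i0 p) (s := s) (s' := p.1 i0) a1 a3
        (by rw [hs', add_sub_cancel_left]; exact P.abs_phi_le _ _)
      rw [(P.log_aux hy b2 b1).1, hy]
      ring
  have j1 : ∀ p : (ι → ℝ) × V, piS P i0 (mv i0 P.b (fun p => Θ.fwd (piS P i0 p) (p.1 i0)) p) =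
      piS P i0 p := fun p => Prod.ext (k1 p) (by show ‖update (update _ _ _) _ _‖ = _; rw [hup]; rfl)
  have j2 : ∀ p : (ι → ℝ) × V, piS P i0 (mv i0 P.b (fun p => Θ.bwd (piS P i0 p) (p.1 i0)) p) =
      piS P i0 p := fun p => Prod.ext (k2 p) (by show ‖update (update _ _ _) _ _‖ = _; rw [hup]; rfl)
  refine ⟨lift i0 P.b Θ (piS P i0) (continuous_piS P i0) j1 j2, fun p =>
    ⟨P.phi (piS P i0 p) (p.1 i0), rfl, ?_, k1 p⟩⟩
  show mv i0 P.b (fun p => Θ.fwd (piS P i0 p) (p.1 i0)) p = _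
  unfold mv
  simp only [hΘ, add_sub_cancel_left]

/-- the radius at which the curve is at time `0`, clamped: `σ`. -/
noncomputable def sig (P : Par) (x : ℝ × ℝ) : ℝ :=
  tz 1 2 x.1 * tz P.R (2 * P.R) x.2 * ((P.a - Real.log (max P.r (min P.R x.2))) / P.b)

theorem continuous_sig (P : Par) : Continuous (sig P) := by
  unfold sig
  have h1 := continuous_tz 1 2
  have h2 := continuous_tz P.R (2 * P.R)
  have h3 : Continuous fun x : ℝ × ℝ => Real.log (max P.r (min P.R x.2)) := by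
    refine Continuous.log (by fun_prop) fun p => ?_
    have := P.hr
    have h2 := le_max_left P.r (min P.R p.2)
    exact (this.trans_le h2).ne'
  fun_prop

theorem abs_sig_le (P : Par) (x : ℝ × ℝ) : |sig P x| ≤ 3 / 8 := by
  have hr := P.hr
  have hb := P.hb
  have h1 : P.r ≤ max P.r (min P.R x.2) := le_max_left _ _
  have h2 : max P.r (min P.R x.2) ≤ P.R := max_le P.hrR.le (min_le_left _ _)
  have h3 := Real.log_le_log hr h1
  have h4 := Real.log_le_log (hr.trans_le h1) h2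
  have h5 : |(P.a - Real.log (max P.r (min P.R x.2))) / P.b| ≤ 3 / 8 := by
    rw [abs_le]
    have := P.h3
    have := P.h4
    constructor
    · rw [le_div_iff₀ hb]; linarith
    · rw [div_le_iff₀ hb]; linarith
  unfold sig
  rw [abs_mul, abs_mul, abs_of_nonneg (tz_nonneg _ _ _), abs_of_nonneg (tz_nonneg _ _ _)]
  calc _ ≤ 1 * 1 * (3 / 8 : ℝ) := by
        refine mul_le_mul ?_ h5 (abs_nonneg _) (by norm_num)
        exact mul_le_mul (tz_le_one _ _ _) (tz_le_one _ _ _) (tz_nonneg _ _ _) zero_le_one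
    _ = 3 / 8 := by norm_num

theorem sig_eq (P : Par) {t ρ : ℝ} (ht : t ≤ 1) (h1 : P.r ≤ ρ) (h2 : ρ ≤ P.R) :
    sig P (t, ρ) = (P.a - Real.log ρ) / P.b := by
  have hR : 0 < P.R := P.hr.trans P.hrR
  unfold sig
  simp only
  rw [tz_eq_one (by norm_num) ht, tz_eq_one (by linarith) h2, min_eq_right h2, max_eq_right h1]
  ring

/-- **the shift of the total space.** -/
theorem exists_shiftV (P : Par) (i0 : ι) :
    ∃ Φ : ((ι → ℝ) × V) ≃ₜ ((ι → ℝ) × V), ∃ f : (ι → ℝ) × V → ℝ,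
      (∀ p, Φ p = (update p.1 i0 (f p), p.2)) ∧
      (∀ p, |p.1 i0 - sig P (‖update p.1 i0 0‖, ‖p.2‖)| ≤ 1 / 16 →
        f p = p.1 i0 - 2 * sig P (‖update p.1 i0 0‖, ‖p.2‖)) ∧
      (∀ p, 1 / 2 ≤ |p.1 i0| → f p = p.1 i0) ∧
      (∀ p, sig P (‖update p.1 i0 0‖, ‖p.2‖) = 0 → f p = p.1 i0) := by
  obtain ⟨Θ, h1, h2, h3⟩ := exists_shift (sig P) (continuous_sig P) (abs_sig_le P)
  have hup : ∀ (u : ι → ℝ) (s : ℝ), update (update u i0 s) i0 0 = update u i0 0 :=
    fun u s => update_idem _ _ _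
  set π : (ι → ℝ) × V → ℝ × ℝ := fun p => (‖update p.1 i0 0‖, ‖p.2‖) with hπ
  have cπ : Continuous π := ((continuous_fst.update i0 continuous_const).norm).prodMk
    continuous_snd.norm
  have e : ∀ (θ : (ι → ℝ) × V → ℝ) (p), mv i0 0 θ p = (update p.1 i0 (θ p), p.2) := by
    intro θ p
    unfold mv
    rw [neg_zero, zero_mul, Real.exp_zero, one_smul]
  refine ⟨lift i0 0 Θ π cπ (fun p => ?_) (fun p => ?_), fun p => Θ.fwd (π p) (p.1 i0),
    fun p => ?_, fun p hp => h1 _ _ hp, fun p hp => h2 _ _ hp, fun p hp => h3 _ _ hp⟩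
  · rw [e, hπ]; simp only; rw [hup]
  · rw [e, hπ]; simp only; rw [hup]
  · exact e (fun p => Θ.fwd (π p) (p.1 i0)) p

/-! ### inversion -/

theorem inv_sq (ω v : V) (hω : ‖ω‖ = 1) {κ ρ ε : ℝ} (hκ : 0 < κ) (hκ2 : κ ^ 2 = 1 - ε ^ 2) :
    ‖v - (ρ / κ) • ω‖ ^ 2 - (ε * (ρ / κ)) ^ 2 = ‖v‖ ^ 2 - 2 * (ρ / κ) * ⟪v, ω⟫ + ρ ^ 2 := by
  rw [norm_sub_sq_real, norm_smul, hω, mul_one, Real.norm_eq_abs, sq_abs, inner_smul_right]
  have h : (ρ / κ) ^ 2 - (ε * (ρ / κ)) ^ 2 = ρ ^ 2 := by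
    field_simp
    rw [hκ2]
  linarith

/-- spheres are carried to spheres by the inversion. -/
theorem inv_ball (ω v : V) (hω : ‖ω‖ = 1) {κ ρ ρ' ε l : ℝ} (hκ : 0 < κ)
    (hκ2 : κ ^ 2 = 1 - ε ^ 2) (hρ : 0 < ρ) (hl : l * ‖v‖ ^ 2 = ρ * ρ') :
    ‖l • v - (ρ' / κ) • ω‖ ^ 2 - (ε * (ρ' / κ)) ^ 2 =
      (l * ρ' / ρ) * (‖v - (ρ / κ) • ω‖ ^ 2 - (ε * (ρ / κ)) ^ 2) := by
  rw [inv_sq ω _ hω hκ hκ2, inv_sq ω _ hω hκ hκ2, norm_smul, mul_pow, Real.norm_eq_abs, sq_abs,
    inner_smul_left]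
  simp only [conj_trivial]
  have h1 : l ^ 2 * ‖v‖ ^ 2 = l * (ρ * ρ') := by rw [← hl]; ring
  have h2 : l * ρ' / ρ * ‖v‖ ^ 2 = ρ' ^ 2 := by
    rw [show l * ρ' / ρ * ‖v‖ ^ 2 = (l * ‖v‖ ^ 2) * ρ' / ρ by ring, hl]
    field_simp
  rw [h1, mul_add, mul_sub, h2]
  field_simp
  ring

/-- discs are carried to discs by the inversion. -/
theorem inv_disc (ω M v : V) (hω : ‖ω‖ = 1) {κ ρ ρ' ε l : ℝ} (hκ : 0 < κ)
    (hκ2 : κ ^ 2 = 1 - ε ^ 2) (hρ : 0 < ρ) (hl0 : 0 < l) (hl : l * ‖v‖ ^ 2 = ρ * ρ')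
    (h0 : ‖v - (ρ / κ) • ω‖ ^ 2 = (ε * (ρ / κ)) ^ 2) :
    ⟪M - (2 * ⟪M, ω⟫) • ω, l • v - (ρ' / κ) • ω⟫ =
        -(ε ^ 2 * (ρ' / κ)) * ⟪M - (2 * ⟪M, ω⟫) • ω, ω⟫ ↔
      ⟪M, v - (ρ / κ) • ω⟫ = -(ε ^ 2 * (ρ / κ)) * ⟪M, ω⟫ := by
  have hn := inv_sq ω v hω hκ hκ2 (ρ := ρ)
  rw [h0, sub_self] at hn
  have hωω : ⟪ω, ω⟫ = 1 := by rw [real_inner_self_eq_norm_sq, hω, one_pow]
  have e1 : ⟪v, ω⟫ = κ * (‖v‖ ^ 2 + ρ ^ 2) / (2 * ρ) := by
    field_simp at hn ⊢
    linarith
  have e2 : ⟪ω, v⟫ = κ * (‖v‖ ^ 2 + ρ ^ 2) / (2 * ρ) := by rw [real_inner_comm, e1]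
  have A : ⟪M - (2 * ⟪M, ω⟫) • ω, ω⟫ = -⟪M, ω⟫ := by
    rw [inner_sub_left, inner_smul_left, hωω]; simp; ring
  have B : ⟪M - (2 * ⟪M, ω⟫) • ω, l • v - (ρ' / κ) • ω⟫ =
      l * (⟪M, v⟫ - 2 * ⟪M, ω⟫ * ⟪ω, v⟫) + (ρ' / κ) * ⟪M, ω⟫ := by
    rw [inner_sub_right, inner_smul_right, inner_smul_right, A, inner_sub_left, inner_smul_left]
    simp only [conj_trivial]
    ring
  have C : ⟪M, v - (ρ / κ) • ω⟫ = ⟪M, v⟫ - (ρ / κ) * ⟪M, ω⟫ := by
    rw [inner_sub_right, inner_smul_right]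
  rw [A, B, C, e2]
  have D : l * (⟪M, v⟫ - 2 * ⟪M, ω⟫ * (κ * (‖v‖ ^ 2 + ρ ^ 2) / (2 * ρ))) + ρ' / κ * ⟪M, ω⟫ -
      -(ε ^ 2 * (ρ' / κ)) * -⟪M, ω⟫ =
      l * (⟪M, v⟫ - ρ / κ * ⟪M, ω⟫ - -(ε ^ 2 * (ρ / κ)) * ⟪M, ω⟫) := by
    have h3 : ε ^ 2 = 1 - κ ^ 2 := by rw [hκ2]; ring
    have h4 : l * (2 * ⟪M, ω⟫ * (κ * (‖v‖ ^ 2 + ρ ^ 2) / (2 * ρ))) =
        ⟪M, ω⟫ * κ * (ρ' + l * ρ) := by
      have : l * (2 * ⟪M, ω⟫ * (κ * (‖v‖ ^ 2 + ρ ^ 2) / (2 * ρ))) =
          ⟪M, ω⟫ * κ * ((l * ‖v‖ ^ 2) / ρ + l * ρ) := by field_simp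
      rw [this, hl]
      field_simp
    rw [h3, mul_sub, h4]
    field_simp
    ring
  constructor
  · intro h
    have : l * (⟪M, v⟫ - ρ / κ * ⟪M, ω⟫ - -(ε ^ 2 * (ρ / κ)) * ⟪M, ω⟫) = 0 := by
      rw [← D, h, sub_self]
    have := (mul_eq_zero.1 this).resolve_left hl0.ne'
    linarith
  · intro h
    rw [h, sub_self, mul_zero] at D
    linarith

/-! ### the strand and the sets -/

namespace Par

variable (P : Par)

noncomputable def kap : ℝ := Real.sqrt (1 - P.eps ^ 2)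

/-- radius of the sphere of inversion. -/
noncomputable def rad (s : ℝ) : ℝ := Real.exp (P.a - P.b * s)

/-- radius of the centre. -/
noncomputable def cc (s : ℝ) : ℝ := P.rad s / P.kap

theorem kap_sq : P.kap ^ 2 = 1 - P.eps ^ 2 := by
  have h1 := P.heps
  have h2 := P.heps1
  exact Real.sq_sqrt (by nlinarith)

theorem kap_pos : 0 < P.kap := by
  have h1 := P.heps
  have h2 := P.heps1
  exact Real.sqrt_pos.2 (by nlinarith)

theorem rad_pos (s : ℝ) : 0 < P.rad s := Real.exp_pos _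

theorem cc_pos (s : ℝ) : 0 < P.cc s := div_pos (P.rad_pos s) P.kap_pos

/-- the open ball around the strand. -/
def Ball (s : ℝ) (ω v : V) : Prop := ‖v - P.cc s • ω‖ < P.eps * P.cc s

/-- the boundary of the thick disc. -/
def Tube (s : ℝ) (ω M v : V) : Prop :=
  ‖v - P.cc s • ω‖ = P.eps * P.cc s ∧ ⟪M, v - P.cc s • ω⟫ = -(P.eps ^ 2 * P.cc s) * ⟪M, ω⟫

theorem ball_iff (s : ℝ) (ω v : V) :
    P.Ball s ω v ↔ ‖v - P.cc s • ω‖ ^ 2 - (P.eps * P.cc s) ^ 2 < 0 := by
  have h1 : 0 < P.eps * P.cc s := mul_pos P.heps (P.cc_pos s)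
  unfold Ball
  rw [sub_neg]
  exact ⟨fun h => by gcongr, fun h => lt_of_pow_lt_pow_left₀ 2 h1.le h⟩

theorem norm_eq_iff (s : ℝ) (ω v : V) :
    ‖v - P.cc s • ω‖ = P.eps * P.cc s ↔
      ‖v - P.cc s • ω‖ ^ 2 - (P.eps * P.cc s) ^ 2 = 0 := by
  have h1 : 0 < P.eps * P.cc s := mul_pos P.heps (P.cc_pos s)
  rw [sub_eq_zero]
  exact ⟨fun h => by rw [h], fun h => by
    rwa [pow_left_inj₀ (norm_nonneg _) h1.le two_ne_zero] at h⟩

theorem exchange {s s' : ℝ} {ω M v : V} {l : ℝ} (hω : ‖ω‖ = 1) (hl0 : 0 < l)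
    (hl : l * ‖v‖ ^ 2 = P.rad s * P.rad s') :
    (P.Ball s ω v ↔ P.Ball s' ω (l • v)) ∧
      (P.Tube s ω M v ↔ P.Tube s' ω (M - (2 * ⟪M, ω⟫) • ω) (l • v)) := by
  have h1 := inv_ball ω v hω P.kap_pos P.kap_sq (P.rad_pos s) hl
  have hpos : 0 < l * P.rad s' / P.rad s := by
    have := P.rad_pos s
    have := P.rad_pos s'
    positivity
  constructor
  · rw [ball_iff, ball_iff]
    unfold cc
    rw [h1]
    constructor
    · intro h; exact mul_neg_of_pos_of_neg hpos h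
    · intro h
      by_contra hc
      have := mul_nonneg hpos.le (not_lt.1 hc)
      linarith
  · unfold Tube
    rw [norm_eq_iff, norm_eq_iff]
    unfold cc
    rw [h1, mul_eq_zero, or_iff_right hpos.ne']
    refine and_congr_right fun h0 => ?_
    exact (inv_disc ω M v hω P.kap_pos P.kap_sq (P.rad_pos s) hl0 hl (by linarith)).symm

/-- points of the closed ball are close to the sphere of inversion. -/
theorem log_bound {s : ℝ} {ω v : V} (hω : ‖ω‖ = 1)
    (h : ‖v - P.cc s • ω‖ ≤ P.eps * P.cc s) :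
    |Real.log ‖v‖ - P.a + P.b * s| ≤ P.b * P.w / 8 := by
  have he := P.heps
  have he1 := P.heps1
  have hc := P.cc_pos s
  have hn : ‖P.cc s • ω‖ = P.cc s := by
    rw [norm_smul, hω, mul_one, Real.norm_eq_abs, abs_of_pos hc]
  have h1 : ‖v‖ ≤ (1 + P.eps) * P.cc s := by
    have := norm_le_norm_add_norm_sub (P.cc s • ω) v
    rw [norm_sub_rev] at this
    linarith
  have h2 : (1 - P.eps) * P.cc s ≤ ‖v‖ := by
    have := norm_le_norm_add_norm_sub v (P.cc s • ω)
    linarith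
  have hv : 0 < ‖v‖ := (mul_pos (by linarith) hc).trans_le h2
  have hlc : Real.log (P.cc s) = P.a - P.b * s - Real.log (1 - P.eps ^ 2) / 2 := by
    have hk := P.kap_pos
    unfold cc rad
    rw [Real.log_div (Real.exp_pos _).ne' hk.ne', Real.log_exp]
    unfold kap
    rw [Real.log_sqrt (by nlinarith)]
  have hl2 : Real.log (1 - P.eps ^ 2) = Real.log (1 + P.eps) + Real.log (1 - P.eps) := by
    rw [← Real.log_mul (by linarith) (by linarith)]
    congr 1
    ring
  have hY := P.hY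
  rw [Real.log_div (by linarith) (by linarith)] at hY
  have h3 := Real.log_le_log hv h1
  have h4 := Real.log_le_log (mul_pos (by linarith) hc) h2
  rw [Real.log_mul (by linarith) hc.ne', hlc, hl2] at h3 h4
  rw [abs_le]
  constructor <;> linarith

end Par

/-! ### the composition -/

set_option maxHeartbeats 1600000 in
theorem exists_tilt (P : Par) (i0 : ι) :
    ∃ Φ : ((ι → ℝ) × V) ≃ₜ ((ι → ℝ) × V),
      (∀ p, 1 / 2 ≤ |p.1 i0| → Φ p = p) ∧
      (∀ p, (2 ≤ ‖update p.1 i0 0‖ ∨ 2 * P.R ≤ ‖p.2‖) → Φ p = p) ∧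
      (∀ p : (ι → ℝ) × V, ∃ s' l : ℝ, 0 < l ∧ Φ p = (update p.1 i0 s', l • p.2) ∧
        (l = 1 ∨ (|p.1 i0| ≤ 1 / 2 ∧
          (P.a - P.b * (P.sb + 3 * P.w) ≤ Real.log ‖p.2‖ ∧
            Real.log ‖p.2‖ ≤ P.a - P.b * (P.sa - 3 * P.w)) ∧
          (P.a - P.b * (P.sb + 3 * P.w) ≤ Real.log ‖l • p.2‖ ∧
            Real.log ‖l • p.2‖ ≤ P.a - P.b * (P.sa - 3 * P.w)))) ∧
        (‖update p.1 i0 0‖ ≤ 1 → P.r ≤ ‖p.2‖ → ‖p.2‖ ≤ P.R →
          (|Real.log ‖p.2‖ - P.a + P.b * p.1 i0| ≤ P.b * P.w / 8 →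
            l * ‖p.2‖ ^ 2 = P.rad (p.1 i0) * P.rad (-s') ∧
            ((P.sa - P.w ≤ p.1 i0 ∧ p.1 i0 ≤ P.sb + P.w) → -s' = p.1 i0) ∧
            |-s' - p.1 i0| ≤ P.w / 4) ∧
          (|Real.log ‖l • p.2‖ - P.a + P.b * (-s')| ≤ P.b * P.w / 8 →
            |Real.log ‖p.2‖ - P.a + P.b * p.1 i0| ≤ P.b * P.w / 8))) := by
  obtain ⟨S, hS⟩ := exists_slide (V := V) P i0
  obtain ⟨T, f, hT, hf1, hf2, hf3⟩ := exists_shiftV (V := V) P i0
  have hb := P.hb
  have hw := P.hw
  have hw1 := P.hw1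
  have hr := P.hr
  have hrR := P.hrR
  have hh1 := P.h1
  have hh2 := P.h2
  have hh3 := P.h3
  have hh4 := P.h4
  have hbw : 0 < P.b * P.w := mul_pos hb hw
  have hup : ∀ (u : ι → ℝ) (s : ℝ), update (update u i0 s) i0 0 = update u i0 0 :=
    fun u s => update_idem _ _ _
  -- the interval of winding lies well inside
  have hsb : P.sb + 3 * P.w < 3 / 8 := by
    by_contra hc
    have : P.b * (3 / 8) ≤ P.b * (P.sb + 3 * P.w) := by
      have := not_lt.1 hc
      gcongr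
    linarith
  have hsa : -(3 / 8) < P.sa - 3 * P.w := by
    by_contra hc
    have : P.b * (P.sa - 3 * P.w) ≤ P.b * (-(3 / 8)) := by
      have := not_lt.1 hc
      gcongr
    linarith
  -- data of the slide
  have key : ∀ p : (ι → ℝ) × V, P.phi (piS P i0 p) (p.1 i0) ≠ 0 →
      (|p.1 i0| < 1 / 2 ∧ ‖update p.1 i0 0‖ < 2) ∧ P.r < ‖p.2‖ ∧ P.r < ‖(S p).2‖ ∧
      (P.a - P.b * (P.sb + 3 * P.w) ≤ Real.log ‖p.2‖ ∧
            Real.log ‖p.2‖ ≤ P.a - P.b * (P.sa - 3 * P.w)) ∧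
          (P.a - P.b * (P.sb + 3 * P.w) ≤ Real.log ‖(S p).2‖ ∧
            Real.log ‖(S p).2‖ ≤ P.a - P.b * (P.sa - 3 * P.w)) := by
    intro p hp
    obtain ⟨a1, a2, a3, a4⟩ := P.phi_ne hp
    obtain ⟨δ, hδ, e1, e2⟩ := hS p
    have hδ2 : |δ| ≤ P.w / 2 := by rw [hδ]; exact P.abs_phi_le _ _
    have hy : Real.log (max ‖p.2‖ P.r) = P.yy i0 p + P.a - P.b * p.1 i0 := by
      unfold Par.yy; ring
    obtain ⟨b1, b2⟩ := P.moved (y := P.yy i0 p) (s := p.1 i0) (s' := p.1 i0 + δ) a1 a3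
      (by rw [add_sub_cancel_left]; exact hδ2)
    obtain ⟨c1, c2, c3⟩ := P.log_aux hy b1 b2
    rw [add_sub_cancel_left] at c1 c3
    have e3 : (S p).2 = Real.exp (-P.b * δ) • p.2 := by rw [e1]
    rw [e3]
    rw [max_eq_left c2.le] at hy
    rw [max_eq_left c3.le] at c1
    have a1' := abs_lt.1 (show |P.yy i0 p| < P.b * P.w / 4 from a1)
    have hδ3 := abs_le.1 hδ2
    have m1 : P.b * p.1 i0 ≤ P.b * (P.sb + 2 * P.w) := by gcongr
    have m2 : P.b * (P.sa - 2 * P.w) ≤ P.b * p.1 i0 := by gcongr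
    have m3 : P.b * (p.1 i0 + δ) ≤ P.b * (P.sb + 2 * P.w + P.w / 2) := by
      gcongr
      exact hδ3.2
    have m4 : P.b * (P.sa - 2 * P.w - P.w / 2) ≤ P.b * (p.1 i0 + δ) := by
      gcongr
      linarith
    refine ⟨⟨abs_lt.2 ⟨by linarith, by linarith⟩, a4⟩, c2, c3, ⟨?_, ?_⟩, ?_, ?_⟩
    · rw [hy]; nlinarith
    · rw [hy]; nlinarith
    · rw [c1]; nlinarith
    · rw [c1]; nlinarith
  have hS0 : ∀ p : (ι → ℝ) × V, P.phi (piS P i0 p) (p.1 i0) = 0 → S p = p := by
    intro p hp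
    obtain ⟨δ, hδ, e1, e2⟩ := hS p
    rw [hp] at hδ
    rw [e1, hδ, add_zero, update_eq_self, mul_zero, Real.exp_zero, one_smul]
  have hltR : ∀ v : V, P.r < ‖v‖ → Real.log ‖v‖ ≤ P.a - P.b * (P.sa - 3 * P.w) → ‖v‖ < P.R := by
    intro v hv h
    exact (Real.log_lt_log_iff (hr.trans hv) (hr.trans hrR)).1 (h.trans_lt hh2)
  refine ⟨S.trans T, ?_, ?_, ?_⟩
  · intro p hp
    have h0 : P.phi (piS P i0 p) (p.1 i0) = 0 := by
      by_contra hc
      have := (key p hc).1.1
      linarith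
    show T (S p) = p
    rw [hS0 p h0, hT, hf2 p hp, update_eq_self]
  · intro p hp
    have h0 : P.phi (piS P i0 p) (p.1 i0) = 0 := by
      by_contra hc
      obtain ⟨k1, k2, k3, k4, k5⟩ := key p hc
      rcases hp with hp | hp
      · linarith [k1.2]
      · have := hltR p.2 k2 k4.2
        linarith
    have h1 : sig P (‖update p.1 i0 0‖, ‖p.2‖) = 0 := by
      unfold sig
      rcases hp with hp | hp
      · rw [tz_eq_zero (by norm_num) hp, zero_mul, zero_mul]
      · rw [tz_eq_zero (α := P.R) (β := 2 * P.R) (by linarith) hp, mul_zero, zero_mul]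
    show T (S p) = p
    rw [hS0 p h0, hT, hf3 p h1, update_eq_self]
  · intro p
    obtain ⟨δ, hδ, e1, e2⟩ := hS p
    have hs1 : (S p).1 i0 = p.1 i0 + δ := by rw [e1]; simp
    have hv1 : (S p).2 = Real.exp (-P.b * δ) • p.2 := by rw [e1]
    have hu1 : update (S p).1 i0 0 = update p.1 i0 0 := by rw [e1]; exact hup _ _
    refine ⟨f (S p), Real.exp (-P.b * δ), Real.exp_pos _, ?_, ?_, ?_⟩
    · show T (S p) = _
      rw [hT, hv1]
      congr 1
      rw [e1]
      simp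
    · by_cases h0 : P.phi (piS P i0 p) (p.1 i0) = 0
      · left
        rw [hδ, h0, mul_zero, Real.exp_zero]
      · right
        obtain ⟨k1, k2, k3, k4, k5⟩ := key p h0
        rw [hv1] at k5
        exact ⟨k1.1.le, k4, k5⟩
    · intro hu hv hv'
      have hn1 : P.r ≤ ‖(S p).2‖ ∧ ‖(S p).2‖ ≤ P.R := by
        by_cases h0 : P.phi (piS P i0 p) (p.1 i0) = 0
        · rw [hS0 p h0]; exact ⟨hv, hv'⟩
        · obtain ⟨k1, k2, k3, k4, k5⟩ := key p h0
          exact ⟨k3.le, (hltR _ k3 k5.2).le⟩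
      have hsig : sig P (‖update (S p).1 i0 0‖, ‖(S p).2‖) = (P.a - Real.log ‖(S p).2‖) / P.b :=
        sig_eq P (by rw [hu1]; exact hu) hn1.1 hn1.2
      have hy1 : P.yy i0 (S p) = Real.log ‖(S p).2‖ - P.a + P.b * (S p).1 i0 := by
        unfold Par.yy
        rw [max_eq_left hn1.1]
      have hy0 : P.yy i0 p = Real.log ‖p.2‖ - P.a + P.b * p.1 i0 := by
        unfold Par.yy
        rw [max_eq_left hv]
      have hv0 : 0 < ‖p.2‖ := hr.trans_le hv
      obtain ⟨y, hy⟩ : ∃ y, y = P.yy i0 p := ⟨_, rfl⟩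
      have hsig' : sig P (‖update (S p).1 i0 0‖, ‖(S p).2‖) = (S p).1 i0 - y / P.b := by
        rw [hsig, hy, ← e2, hy1]
        field_simp
        ring
      constructor
      · intro hY
        rw [← hy0, ← hy] at hY
        have hf : f (S p) = (S p).1 i0 - 2 * ((S p).1 i0 - y / P.b) := by
          rw [hf1 (S p) ?_, hsig']
          rw [hsig', sub_sub_cancel, abs_div, abs_of_pos hb, div_le_iff₀ hb]
          have : P.b * P.w ≤ P.b * (1 / 2) := by gcongr
          linarith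
        have hneg : -f (S p) = p.1 i0 + δ - 2 * y / P.b := by
          rw [hf, hs1]; ring
        have hδy : δ = 2 / P.b * y * tz P.w (2 * P.w) (max (P.sa - p.1 i0) (p.1 i0 - P.sb)) := by
          rw [hδ]
          unfold Par.phi piS
          simp only
          rw [← hy, tz_eq_one (by norm_num) hu, tz_eq_one (by linarith) hY]
          ring
        refine ⟨?_, ?_, ?_⟩
        · have h2 : ‖p.2‖ ^ 2 = Real.exp (2 * (y + P.a - P.b * p.1 i0)) := by
            rw [hy, hy0, two_mul, Real.exp_add, ← sq]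
            congr 1
            rw [show Real.log ‖p.2‖ - P.a + P.b * p.1 i0 + P.a - P.b * p.1 i0 = Real.log ‖p.2‖ by
              ring, Real.exp_log hv0]
          unfold Par.rad
          rw [h2, hneg, ← Real.exp_add, ← Real.exp_add]
          congr 1
          field_simp
          ring
        · intro hz
          have : max (P.sa - p.1 i0) (p.1 i0 - P.sb) ≤ P.w := max_le (by linarith) (by linarith)
          rw [tz_eq_one (by linarith) this] at hδy
          rw [hneg, hδy]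
          ring
        · rw [hneg, hδy]
          have h3 : p.1 i0 + 2 / P.b * y * tz P.w (2 * P.w)
              (max (P.sa - p.1 i0) (p.1 i0 - P.sb)) - 2 * y / P.b - p.1 i0 =
              2 / P.b * (y * (tz P.w (2 * P.w) (max (P.sa - p.1 i0) (p.1 i0 - P.sb)) - 1)) := by
            ring
          rw [h3, abs_mul, abs_mul, abs_of_pos (by positivity : 0 < 2 / P.b)]
          have h4 : |tz P.w (2 * P.w) (max (P.sa - p.1 i0) (p.1 i0 - P.sb)) - 1| ≤ 1 := by
            have a := tz_nonneg P.w (2 * P.w) (max (P.sa - p.1 i0) (p.1 i0 - P.sb))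
            have b := tz_le_one P.w (2 * P.w) (max (P.sa - p.1 i0) (p.1 i0 - P.sb))
            rw [abs_le]
            constructor <;> linarith
          calc 2 / P.b * (|y| * |tz P.w (2 * P.w) (max (P.sa - p.1 i0) (p.1 i0 - P.sb)) - 1|)
              ≤ 2 / P.b * (P.b * P.w / 8 * 1) := by gcongr
            _ = P.w / 4 := by field_simp; ring
      · intro hY
        rw [← hv1] at hY
        obtain ⟨σ, hσ⟩ : ∃ σ, σ = (P.a - Real.log ‖(S p).2‖) / P.b := ⟨_, rfl⟩
        have hσb : P.b * σ = P.a - Real.log ‖(S p).2‖ := by rw [hσ]; field_simp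
        set p2 : (ι → ℝ) × V := (update (S p).1 i0 (f (S p) + 2 * σ), (S p).2) with hp2
        have q1 : p2.1 i0 = f (S p) + 2 * σ := by rw [hp2]; simp
        have q2 : sig P (‖update p2.1 i0 0‖, ‖p2.2‖) = σ := by
          rw [hp2]
          simp only
          rw [hup, hsig, hσ]
        have q3 : |p2.1 i0 - sig P (‖update p2.1 i0 0‖, ‖p2.2‖)| ≤ 1 / 16 := by
          rw [q1, q2]
          have h5 : |P.b * (f (S p) + 2 * σ - σ)| ≤ P.b * P.w / 8 := by
            rw [← abs_neg]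
            convert hY using 2
            rw [show Real.log ‖(S p).2‖ = P.a - P.b * σ by rw [hσb]; ring]
            ring
          rw [abs_mul, abs_of_pos hb] at h5
          have h6 : P.b * |f (S p) + 2 * σ - σ| ≤ P.b * (1 / 16) := by
            have : P.b * P.w ≤ P.b * (1 / 2) := by gcongr
            linarith
          exact le_of_mul_le_mul_left h6 hb
        have q4 : f p2 = f (S p) := by rw [hf1 p2 q3, q2, q1]; ring
        have q5 : T p2 = T (S p) := by
          rw [hT, hT, q4, hp2]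
          simp
        have q6 : p2 = S p := T.injective q5
        have q7 : (S p).1 i0 = f (S p) + 2 * σ := by rw [← q1, q6]
        rw [← hy0, ← e2, hy1, q7]
        rw [← abs_neg]
        convert hY using 2
        rw [show Real.log ‖(S p).2‖ = P.a - P.b * σ by rw [hσb]; ring]
        ring

/-! ### the theorem -/

/-- the set of the right hand system: `K0` (all other strands) outside the ball of the strand,
and the boundary of the thick disc of the strand in `P.r ≤ ‖v‖ ≤ P.R`. -/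
def KMp (P : Par) (i0 : ι) (K0 : Set ((ι → ℝ) × V)) (om M : (ι → ℝ) → V) : Set ((ι → ℝ) × V) :=
  {p | (p ∈ K0 ∧ ¬ P.Ball (p.1 i0) (om p.1) p.2) ∨
    (‖p.1‖ ≤ 1 ∧ P.r ≤ ‖p.2‖ ∧ ‖p.2‖ ≤ P.R ∧ P.Tube (p.1 i0) (om p.1) (M p.1) p.2)}

/-- the mirror image with reflected normals. -/
def KMm (P : Par) (i0 : ι) (K0 : Set ((ι → ℝ) × V)) (om M : (ι → ℝ) → V) : Set ((ι → ℝ) × V) :=
  {p | (p ∈ K0 ∧ ¬ P.Ball (-(p.1 i0)) (om (update p.1 i0 (-(p.1 i0)))) p.2) ∨
    (‖p.1‖ ≤ 1 ∧ P.r ≤ ‖p.2‖ ∧ ‖p.2‖ ≤ P.R ∧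
      P.Tube (-(p.1 i0)) (om (update p.1 i0 (-(p.1 i0))))
        (M (update p.1 i0 (-(p.1 i0))) -
          (2 * ⟪M (update p.1 i0 (-(p.1 i0))), om (update p.1 i0 (-(p.1 i0)))⟫) •
            om (update p.1 i0 (-(p.1 i0)))) p.2)}

/-- the zone of radii in which the slide moves. -/
def Zone (P : Par) (v : V) : Prop :=
  P.a - P.b * (P.sb + 3 * P.w) ≤ Real.log ‖v‖ ∧ Real.log ‖v‖ ≤ P.a - P.b * (P.sa - 3 * P.w)

theorem Par.no_ball (P : Par) {s : ℝ} {ω v : V} (hω : ‖ω‖ = 1) (hr : P.r ≤ ‖v‖) (hR : ‖v‖ ≤ P.R)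
    (hs : 1 / 2 ≤ |s|) : ¬ ‖v - P.cc s • ω‖ ≤ P.eps * P.cc s := by
  intro h
  have h1 := abs_le.1 (P.log_bound hω h)
  have h2 := Real.log_le_log P.hr hr
  have h3 := Real.log_le_log (P.hr.trans_le hr) hR
  have h4 := P.h3
  have h5 := P.h4
  have hb := P.hb
  have hw1 : P.b * P.w ≤ P.b * (1 / 2) := by have := P.hw1; gcongr
  rcases le_abs.1 hs with h6 | h6
  · have : P.b * (1 / 2) ≤ P.b * s := by gcongr
    linarith
  · have : P.b * (1 / 2) ≤ P.b * (-s) := by gcongr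
    linarith

/-- the balls and discs of the strand correspond. -/
theorem corr (P : Par) (i0 : ι) {om M : (ι → ℝ) → V} {h e : V} (n_om : ∀ u, ‖om u‖ = 1)
    (rest : ∀ u, (u i0 ≤ P.sa ∨ P.sb ≤ u i0) → om u = h ∧ M u = e)
    {u : ι → ℝ} {v : V} {s' l : ℝ} (hl0 : 0 < l)
    (hA : |Real.log ‖v‖ - P.a + P.b * u i0| ≤ P.b * P.w / 8 →
            l * ‖v‖ ^ 2 = P.rad (u i0) * P.rad (-s') ∧
            ((P.sa - P.w ≤ u i0 ∧ u i0 ≤ P.sb + P.w) → -s' = u i0) ∧
            |-s' - u i0| ≤ P.w / 4)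
    (hB : |Real.log ‖l • v‖ - P.a + P.b * (-s')| ≤ P.b * P.w / 8 →
            |Real.log ‖v‖ - P.a + P.b * u i0| ≤ P.b * P.w / 8) :
    (P.Ball (u i0) (om u) v ↔ P.Ball (-s') (om (update u i0 (-s'))) (l • v)) ∧
    (P.Tube (u i0) (om u) (M u) v ↔ P.Tube (-s') (om (update u i0 (-s')))
        (M (update u i0 (-s')) - (2 * ⟪M (update u i0 (-s')), om (update u i0 (-s'))⟫) •
            om (update u i0 (-s'))) (l • v)) := by
  have hw := P.hw
  by_cases hy : |Real.log ‖v‖ - P.a + P.b * u i0| ≤ P.b * P.w / 8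
  · obtain ⟨a1, a2, a3⟩ := hA hy
    have hom : om (update u i0 (-s')) = om u ∧ M (update u i0 (-s')) = M u := by
      by_cases hz : P.sa - P.w ≤ u i0 ∧ u i0 ≤ P.sb + P.w
      · rw [a2 hz, update_eq_self]
        exact ⟨rfl, rfl⟩
      · have h3 := abs_le.1 a3
        have h4 : (u i0 ≤ P.sa ∧ -s' ≤ P.sa) ∨ (P.sb ≤ u i0 ∧ P.sb ≤ -s') := by
          rw [not_and_or, not_le, not_le] at hz
          rcases hz with hz | hz
          · left; constructor <;> linarith
          · right; constructor <;> linarith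
        have h5 : om u = h ∧ M u = e := rest u (h4.imp And.left And.left)
        have h6 : om (update u i0 (-s')) = h ∧ M (update u i0 (-s')) = e := by
          refine rest _ ?_
          rw [update_self]
          exact h4.imp And.right And.right
        exact ⟨h6.1.trans h5.1.symm, h6.2.trans h5.2.symm⟩
    rw [hom.1, hom.2]
    exact P.exchange (n_om u) hl0 a1
  · have n1 : ¬ ‖v - P.cc (u i0) • om u‖ ≤ P.eps * P.cc (u i0) := fun h =>
      hy (P.log_bound (n_om u) h)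
    have n2 : ¬ ‖l • v - P.cc (-s') • om (update u i0 (-s'))‖ ≤ P.eps * P.cc (-s') := fun h =>
      hy (hB (P.log_bound (n_om _) h))
    exact ⟨⟨fun h => (n1 (le_of_lt h)).elim, fun h => (n2 (le_of_lt h)).elim⟩,
      ⟨fun h => (n1 h.1.le).elim, fun h => (n2 h.1.le).elim⟩⟩

set_option maxHeartbeats 1600000 in
/-- **THE TILT.** -/
theorem tilt_eqv [ProperSpace V] (P : Par) (i0 : ι) {K0 : Set ((ι → ℝ) × V)}
    {om M : (ι → ℝ) → V} {h e : V} (n_om : ∀ u, ‖om u‖ = 1)
    (rest : ∀ u, (u i0 ≤ P.sa ∨ P.sb ≤ u i0) → om u = h ∧ M u = e)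
    (hK1 : ∀ p ∈ K0, ‖p.1‖ ≤ 1 ∧ P.r ≤ ‖p.2‖ ∧ ‖p.2‖ ≤ P.R)
    (hK2 : ∀ (u : ι → ℝ) (v : V) (s : ℝ), |u i0| ≤ 1 / 2 → |s| ≤ 1 / 2 →
      ((update u i0 s, v) ∈ K0 ↔ (u, v) ∈ K0))
    (hK3 : ∀ (u : ι → ℝ) (v : V) (l : ℝ), |u i0| ≤ 1 / 2 → 0 < l → Zone P v → Zone P (l • v) →
      ((u, l • v) ∈ K0 ↔ (u, v) ∈ K0)) :
    GS_808.Eqv (KMp P i0 K0 om M) (KMm P i0 K0 om M) := by
  obtain ⟨Φ, h1, h2, h3⟩ := exists_tilt (V := V) P i0
  have hr := P.hr
  have hrR := P.hrR
  refine ⟨Φ, ⟨closedBall 0 2 ×ˢ closedBall 0 (2 * P.R),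
    (isCompact_closedBall _ _).prod (isCompact_closedBall _ _), ?_⟩, ?_⟩
  · intro p hp
    by_cases ha : 1 / 2 ≤ |p.1 i0|
    · exact h1 p ha
    · push Not at ha
      refine h2 p ?_
      by_contra hc
      push Not at hc
      apply hp
      refine ⟨?_, ?_⟩
      · rw [mem_closedBall_zero_iff, pi_norm_le_iff_of_nonneg (by norm_num)]
        intro k
        by_cases hk : k = i0
        · rw [hk, Real.norm_eq_abs]; linarith
        · have := norm_le_pi_norm (update p.1 i0 0) k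
          rw [update_of_ne hk] at this
          linarith [hc.1]
      · rw [mem_closedBall_zero_iff]
        exact hc.2.le
  · intro p
    by_cases ha : 1 / 2 ≤ |p.1 i0|
    · -- outside of the collar
      rw [h1 p ha]
      unfold KMp KMm
      simp only [mem_setOf_eq]
      have ha' : 1 / 2 ≤ |-(p.1 i0)| := by rwa [abs_neg]
      constructor
      · rintro (⟨hp, -⟩ | ⟨-, h4, h5, h6⟩)
        · left
          refine ⟨hp, fun hb => ?_⟩
          exact P.no_ball (n_om _) (hK1 p hp).2.1 (hK1 p hp).2.2 ha' (le_of_lt hb)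
        · exact (P.no_ball (n_om _) h4 h5 ha h6.1.le).elim
      · rintro (⟨hp, -⟩ | ⟨-, h4, h5, h6⟩)
        · left
          refine ⟨hp, fun hb => ?_⟩
          exact P.no_ball (n_om _) (hK1 p hp).2.1 (hK1 p hp).2.2 ha (le_of_lt hb)
        · exact (P.no_ball (n_om _) h4 h5 ha' h6.1.le).elim
    · push Not at ha
      obtain ⟨s', l, hl0, hΦ, hl, hex⟩ := h3 p
      -- the new time
      have hs' : |s'| ≤ 1 / 2 := by
        by_contra hc
        push Not at hc
        have h4 : (Φ p).1 i0 = s' := by rw [hΦ]; simp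
        have h5 : Φ (Φ p) = Φ p := h1 _ (by rw [h4]; exact hc.le)
        have h6 : Φ p = p := Φ.injective h5
        rw [h6] at h4
        rw [h4] at ha
        linarith
      have hnorm : ‖(update p.1 i0 s' : ι → ℝ)‖ ≤ 1 ↔ ‖p.1‖ ≤ 1 := by
        rw [pi_norm_le_iff_of_nonneg zero_le_one, pi_norm_le_iff_of_nonneg zero_le_one]
        constructor
        · intro H k
          by_cases hk : k = i0
          · rw [hk, Real.norm_eq_abs]; linarith
          · have := H k
            rwa [update_of_ne hk] at this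
        · intro H k
          by_cases hk : k = i0
          · rw [hk, update_self, Real.norm_eq_abs]; linarith
          · rw [update_of_ne hk]; exact H k
      have hnorm0 : ‖p.1‖ ≤ 1 → ‖update p.1 i0 0‖ ≤ 1 := by
        intro H
        rw [pi_norm_le_iff_of_nonneg zero_le_one]
        intro k
        by_cases hk : k = i0
        · rw [hk, update_self, norm_zero]; exact zero_le_one
        · rw [update_of_ne hk]
          exact (norm_le_pi_norm _ _).trans H
      have hzR : ∀ v : V, P.r ≤ ‖v‖ ∨ 0 < ‖v‖ → Zone P v → P.r ≤ ‖v‖ ∧ ‖v‖ ≤ P.R := by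
        intro v hv0 hz
        have hv : 0 < ‖v‖ := hv0.elim (fun h => hr.trans_le h) id
        have g1 : Real.log P.r < Real.log ‖v‖ := P.h1.trans_le hz.1
        have g2 : Real.log ‖v‖ < Real.log P.R := hz.2.trans_lt P.h2
        exact ⟨((Real.log_lt_log_iff hr hv).1 g1).le,
          ((Real.log_lt_log_iff hv (hr.trans hrR)).1 g2).le⟩
      have hrange : (P.r ≤ ‖l • p.2‖ ∧ ‖l • p.2‖ ≤ P.R) ↔ (P.r ≤ ‖p.2‖ ∧ ‖p.2‖ ≤ P.R) := by
        rcases hl with hl | ⟨-, hz1, hz2⟩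
        · rw [hl, one_smul]
        · by_cases hv : ‖p.2‖ = 0
          · have : p.2 = 0 := norm_eq_zero.1 hv
            rw [this, smul_zero]
          · have hv0 : 0 < ‖p.2‖ := lt_of_le_of_ne (norm_nonneg _) (Ne.symm hv)
            have hlv : 0 < ‖l • p.2‖ := by
              rw [norm_smul, Real.norm_eq_abs, abs_of_pos hl0]
              exact mul_pos hl0 hv0
            exact ⟨fun _ => hzR _ (Or.inr hv0) hz1, fun _ => hzR _ (Or.inr hlv) hz2⟩
      have hK : (update p.1 i0 s', l • p.2) ∈ K0 ↔ p ∈ K0 := by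
        rw [hK2 p.1 (l • p.2) s' ha.le hs']
        rcases hl with hl | ⟨-, hz1, hz2⟩
        · rw [hl, one_smul]
        · exact hK3 p.1 p.2 l ha.le hl0 hz1 hz2
      -- comparison
      rw [hΦ]
      unfold KMp KMm
      simp only [mem_setOf_eq, update_self, update_idem]
      rw [hK, hnorm]
      by_cases hin : ‖p.1‖ ≤ 1 ∧ P.r ≤ ‖p.2‖ ∧ ‖p.2‖ ≤ P.R
      · obtain ⟨c1, c2⟩ := corr P i0 n_om rest hl0 (hex (hnorm0 hin.1) hin.2.1 hin.2.2).1
          (hex (hnorm0 hin.1) hin.2.1 hin.2.2).2 (M := M)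
        refine or_congr (and_congr_right' (not_congr c1)) (and_congr_right' ?_)
        rw [← and_assoc, ← and_assoc, hrange]
        exact and_congr_right' c2
      · have hnK : p ∉ K0 := fun hc => hin (hK1 p hc)
        constructor
        · rintro (⟨hc, -⟩ | ⟨g1, g2, g3, -⟩)
          · exact (hnK hc).elim
          · exact (hin ⟨g1, g2, g3⟩).elim
        · rintro (⟨hc, -⟩ | ⟨g1, g2, g3, -⟩)
          · exact (hnK hc).elim
          · exact (hin ⟨g1, hrange.1 ⟨g2, g3⟩⟩).elim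

end Crest.Agent.R267.Tilt_88
private theorem rz_f03f488821 : type_of% @_root_.Crest.Agent.R267.Tilt_88.pow.eq_def := @_root_.Crest.Agent.R267.Tilt_88.pow.eq_def -- L74
private theorem rz_ff7cf7107f : type_of% @_root_.Crest.Agent.R267.Tilt_88.pow.eq_1 := @_root_.Crest.Agent.R267.Tilt_88.pow.eq_1 -- L74
end

-- ▼ part R267/TiltP_88

/-!
# `TiltP` of LM_808 from `Tilt_88.tilt_eqv`
-/

set_option autoImplicit false

namespace Crest.Agent.R267.TiltP_88

open Set Metric
open scoped RealInnerProductSpace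
open Crest.Agent.R267.GS_808 Crest.Agent.R267.DraftB_808 Crest.Agent.R267.NF_808
open Crest.Agent.R267.LM_808
open Crest.Agent.R267

variable {n m : ℕ} {i j : Fin m}

theorem cosh_aux {x l : ℝ} (hx : 0 < x) :
    Real.cosh (Real.log x - l) * x = (x ^ 2 + Real.exp l ^ 2) / (2 * Real.exp l) := by
  have h1 : Real.exp (Real.log x - l) = x / Real.exp l := by rw [Real.exp_sub, Real.exp_log hx]
  have h2 : Real.exp (-(Real.log x - l)) = Real.exp l / x := by
    rw [neg_sub, Real.exp_sub, Real.exp_log hx]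
  rw [Real.cosh_eq, h1, h2]
  have := Real.exp_pos l
  field_simp

section par

variable {D : NFD n m i j} {q : Rad}

theorem kap_pos (hq : LM_808.Par D q) : 0 < kap q := by linarith [hq.kap_gt]

/-- the parameters of the tilt. -/
noncomputable def tp (hq : LM_808.Par D q) : Tilt_88.Par where
  a := (Real.log q.rho + Real.log q.R1) / 2
  b := kap q
  r := q.r
  R := q.R
  sa := 0
  sb := 1 / 8
  w := 1 / (3 * kap q)
  eps := q.eps
  hb := kap_pos hq
  hr := hq.r_pos
  hrR := by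
    rw [← Real.log_lt_log_iff hq.r_pos hq.R_pos, hq.log_r, hq.log_R]
    have := hq.kap_gt
    have h : kap q = 2 * (Real.log q.R1 - Real.log q.rho) := rfl
    linarith
  hw := by have := kap_pos hq; positivity
  hw1 := by
    have := hq.kap_gt
    rw [div_le_div_iff₀ (by linarith) (by norm_num)]
    linarith
  heps := hq.eps_pos
  heps1 := by linarith [hq.eps_lt]
  h1 := by
    have h0 := kap_pos hq
    have := hq.kap_gt
    have h : kap q = 2 * (Real.log q.R1 - Real.log q.rho) := rfl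
    have e : kap q * (1 / 8 + 3 * (1 / (3 * kap q))) = kap q / 8 + 1 := by field_simp
    rw [e, hq.log_r]
    linarith
  h2 := by
    have h0 := kap_pos hq
    have := hq.kap_gt
    have h : kap q = 2 * (Real.log q.R1 - Real.log q.rho) := rfl
    have e : kap q * (0 - 3 * (1 / (3 * kap q))) = -1 := by field_simp; ring
    rw [e, hq.log_R]
    linarith
  h3 := by
    have := hq.kap_gt
    have h : kap q = 2 * (Real.log q.R1 - Real.log q.rho) := rfl
    rw [hq.log_r]
    linarith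
  h4 := by
    have := hq.kap_gt
    have h : kap q = 2 * (Real.log q.R1 - Real.log q.rho) := rfl
    rw [hq.log_R]
    linarith
  hY := by
    have h0 := kap_pos hq
    have h1 := hq.eps_pos
    have h2 := hq.eps_lt
    have e : kap q * (1 / (3 * kap q)) / 8 = 1 / 24 := by field_simp; norm_num
    rw [e]
    have h3 : Real.log ((1 + q.eps) / (1 - q.eps)) ≤ (1 + q.eps) / (1 - q.eps) - 1 :=
      Real.log_le_sub_one_of_pos (div_pos (by linarith) (by linarith))
    have h4 : (1 + q.eps) / (1 - q.eps) ≤ 1 + 1 / 100 := by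
      rw [div_le_iff₀ (by linarith)]
      linarith
    linarith

theorem lam_eq (hq : LM_808.Par D q) (s : ℝ) : lam q.rho q.R1 s = (tp hq).a - (tp hq).b * s := by
  show lam q.rho q.R1 s = (Real.log q.rho + Real.log q.R1) / 2 - kap q * s
  unfold lam kap
  ring

theorem kap_eq (hq : LM_808.Par D q) : (tp hq).kap = sa q := rfl

theorem sa_pos (hq : LM_808.Par D q) : 0 < sa q := (tp hq).kap_pos

theorem sa_gt (hq : LM_808.Par D q) : 999 / 1000 < sa q := by
  have h := (tp hq).kap_sq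
  rw [kap_eq] at h
  have h1 := hq.eps_lt
  have h0 := hq.eps_pos
  have h2 : (tp hq).eps = q.eps := rfl
  rw [h2] at h
  have := sa_pos hq
  by_contra hc
  push Not at hc
  nlinarith

/-- the ball condition in terms of `cosh`. -/
theorem ball_iff (hq : LM_808.Par D q) {s : ℝ} {ω v : Vc (n + 2)} (hω : ‖ω‖ = 1) (hv : 0 < ‖v‖) :
    sa q * Real.cosh (Real.log ‖v‖ - lam q.rho q.R1 s) * ‖v‖ < ⟪v, ω⟫ ↔
      (tp hq).Ball s ω v := by
  rw [Tilt_88.Par.ball_iff]
  unfold Tilt_88.Par.cc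
  rw [Tilt_88.inv_sq ω v hω (tp hq).kap_pos (tp hq).kap_sq, kap_eq, lam_eq hq]
  have hρ := (tp hq).rad_pos s
  have hk := sa_pos hq
  have e1 : Real.cosh (Real.log ‖v‖ - ((tp hq).a - (tp hq).b * s)) * ‖v‖ =
      (‖v‖ ^ 2 + (tp hq).rad s ^ 2) / (2 * (tp hq).rad s) := cosh_aux hv
  rw [mul_assoc, e1]
  constructor
  · intro h
    have h2 : sa q * (‖v‖ ^ 2 + (tp hq).rad s ^ 2) < 2 * (tp hq).rad s * ⟪v, ω⟫ := by
      have := mul_lt_mul_of_pos_left h (by positivity : 0 < 2 * (tp hq).rad s)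
      refine lt_of_eq_of_lt ?_ this
      field_simp
    have h3 : ‖v‖ ^ 2 + (tp hq).rad s ^ 2 < 2 * ((tp hq).rad s / sa q) * ⟪v, ω⟫ := by
      have := mul_lt_mul_of_pos_left h2 (inv_pos.2 hk)
      refine lt_of_eq_of_lt ?_ (this.trans_eq ?_)
      · field_simp
      · field_simp
    linarith
  · intro h
    have h3 : ‖v‖ ^ 2 + (tp hq).rad s ^ 2 < 2 * ((tp hq).rad s / sa q) * ⟪v, ω⟫ := by linarith
    have := mul_lt_mul_of_pos_left h3 (by positivity : 0 < sa q / (2 * (tp hq).rad s))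
    refine lt_of_eq_of_lt ?_ (this.trans_eq ?_)
    · field_simp
    · field_simp

theorem norm_iff (hq : LM_808.Par D q) {s : ℝ} {ω v : Vc (n + 2)} (hω : ‖ω‖ = 1) (hv : 0 < ‖v‖) :
    sa q * Real.cosh (Real.log ‖v‖ - lam q.rho q.R1 s) * ‖v‖ = ⟪v, ω⟫ ↔
      ‖v - (tp hq).cc s • ω‖ = (tp hq).eps * (tp hq).cc s := by
  rw [Tilt_88.Par.norm_eq_iff]
  unfold Tilt_88.Par.cc
  rw [Tilt_88.inv_sq ω v hω (tp hq).kap_pos (tp hq).kap_sq, kap_eq, lam_eq hq]
  have hρ := (tp hq).rad_pos s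
  have hk := sa_pos hq
  have e1 : Real.cosh (Real.log ‖v‖ - ((tp hq).a - (tp hq).b * s)) * ‖v‖ =
      (‖v‖ ^ 2 + (tp hq).rad s ^ 2) / (2 * (tp hq).rad s) := cosh_aux hv
  rw [mul_assoc, e1]
  constructor
  · intro h
    rw [← h]
    field_simp
    ring
  · intro h
    have h3 : ‖v‖ ^ 2 + (tp hq).rad s ^ 2 = 2 * ((tp hq).rad s / sa q) * ⟪v, ω⟫ := by linarith
    rw [h3]
    field_simp

theorem tube_iff (hq : LM_808.Par D q) {s : ℝ} {ω M v : Vc (n + 2)} (hω : ‖ω‖ = 1)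
    (hv : 0 < ‖v‖) :
    (sa q * Real.cosh (Real.log ‖v‖ - lam q.rho q.R1 s) * ‖v‖ = ⟪v, ω⟫ ∧
      ⟪M, v⟫ = sa q * Real.exp (lam q.rho q.R1 s) * ⟪M, ω⟫) ↔ (tp hq).Tube s ω M v := by
  unfold Tilt_88.Par.Tube
  refine and_congr (norm_iff hq hω hv) ?_
  rw [inner_sub_right, inner_smul_right, lam_eq hq]
  show _ = sa q * (tp hq).rad s * _ ↔ _
  have hk := sa_pos hq
  have h2 : (tp hq).eps ^ 2 = 1 - sa q ^ 2 := by
    have := (tp hq).kap_sq
    rw [kap_eq] at this
    linarith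
  have h3 : (tp hq).cc s = (tp hq).rad s / sa q := rfl
  rw [h2, h3]
  have h4 : (1 - sa q ^ 2) * ((tp hq).rad s / sa q) =
      (tp hq).rad s / sa q - sa q * (tp hq).rad s := by
    field_simp
  rw [h4]
  constructor
  · intro h; rw [h]; ring
  · intro h; linarith

/-- far from the curve nothing happens. -/
theorem far (hq : LM_808.Par D q) {l : ℝ} {ω v : Vc (n + 2)} (hω : ‖ω‖ = 1) (hv : 0 < ‖v‖)
    (hy : 1 ≤ |Real.log ‖v‖ - l|) :
    ⟪v, ω⟫ < sa q * Real.cosh (Real.log ‖v‖ - l) * ‖v‖ := by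
  have h1 : ⟪v, ω⟫ ≤ ‖v‖ := by
    have := real_inner_le_norm v ω
    rwa [hω, mul_one] at this
  have h2 := sa_gt hq
  have h3 : 3 / 2 ≤ Real.cosh (Real.log ‖v‖ - l) := by
    rw [← Real.cosh_abs]
    have h4 : Real.cosh 1 ≤ Real.cosh |Real.log ‖v‖ - l| := by
      rw [Real.cosh_le_cosh, abs_one, abs_abs]
      exact hy
    have h5 : (3 : ℝ) / 2 ≤ Real.cosh 1 := by
      rw [Real.cosh_eq]
      have h6 := Real.add_one_le_exp (1 : ℝ)
      have h7 := Real.exp_one_gt_d9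
      have h8 : (0.3 : ℝ) < Real.exp (-1) := by
        have := Real.exp_neg_one_gt_d9
        linarith
      linarith
    linarith
  have h4 : 1 < sa q * Real.cosh (Real.log ‖v‖ - l) := by nlinarith
  nlinarith

end par

/-! ### the collar -/

open Classical in
/-- direction, extended constantly outside of the collar. -/
noncomputable def omt (D : NFD n m i j) (u : Bc (n + 2)) : Vc (n + 2) :=
  if |u 1| ≤ 1 / 2 then w1 D u else hc (n + 1)

open Classical in
/-- normal, extended constantly outside of the collar. -/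
noncomputable def Mt (D : NFD n m i j) (u : Bc (n + 2)) : Vc (n + 2) :=
  if |u 1| ≤ 1 / 2 then M1 D u else ec (n + 2)

theorem fr_collar (D : NFD n m i j) {u : Bc (n + 2)} (hu : |u 1| ≤ 1 / 2) :
    fr D u = LinearIsometryEquiv.refl ℝ _ := by
  unfold fr
  split_ifs
  · exact D.mid_F u hu
  · rfl

theorem w1_collar (D : NFD n m i j) {u : Bc (n + 2)} (hu : |u 1| ≤ 1 / 2) :
    w1 D u = D.P.om (us u (16 * u 1 - 1)) := by
  unfold w1
  rw [fr_collar D hu]
  rfl

theorem M1_collar (D : NFD n m i j) {u : Bc (n + 2)} (hu : |u 1| ≤ 1 / 2) :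
    M1 D u = D.P.M (us u (16 * u 1 - 1)) := by
  unfold M1
  rw [fr_collar D hu]
  rfl

theorem norm_w1 (D : NFD n m i j) (u : Bc (n + 2)) : ‖w1 D u‖ = 1 := by
  unfold w1
  rw [LinearIsometryEquiv.norm_map]
  exact D.P.n_om _

theorem norm_hc : ‖hc (n + 1)‖ = 1 := by
  unfold hc
  simp

theorem norm_omt (D : NFD n m i j) (u : Bc (n + 2)) : ‖omt D u‖ = 1 := by
  unfold omt
  split_ifs
  · exact norm_w1 D u
  · exact norm_hc

theorem restAt_us {u : Bc (n + 2)} {s : ℝ} (hs : 1 ≤ |s|) : RestAt (us u s) := by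
  right
  exact ⟨1, by simp, by simpa [us] using hs⟩

theorem rest_omt (D : NFD n m i j) (u : Bc (n + 2)) (h : u 1 ≤ 0 ∨ 1 / 8 ≤ u 1) :
    omt D u = hc (n + 1) ∧ Mt D u = ec (n + 2) := by
  unfold omt Mt
  split_ifs with hu
  · have h1 : 1 ≤ |16 * u 1 - 1| := by
      rcases h with h | h
      · rw [le_abs]; right; linarith
      · rw [le_abs]; left; linarith
    rw [w1_collar D hu, M1_collar D hu]
    exact ⟨D.P.rest_om _ (restAt_us h1), D.P.rest_M _ (restAt_us h1)⟩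
  · exact ⟨rfl, rfl⟩

section par

variable {D : NFD n m i j} {q : Rad}

theorem le_of_log {x y : ℝ} (hx : 0 < x) (hy : 0 < y) (h : Real.log x < Real.log y) : x < y :=
  (Real.log_lt_log_iff hx hy).1 h

/-- the end parts of the profile are far outside. -/
theorem far_end (hq : LM_808.Par D q) {s : ℝ} (hs : 3 / 8 ≤ |s|) {v : Vc (n + 2)}
    (h1 : q.r ≤ ‖v‖) (h2 : ‖v‖ ≤ q.R) :
    1 ≤ |Real.log ‖v‖ - lamc q.rho q.R1 (3 / 8) (3 / 8) s| ∧
      1 ≤ |Real.log ‖v‖ - lam q.rho q.R1 s| := by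
  have hr := hq.r_pos
  have g1 := Real.log_le_log hr h1
  have g2 := Real.log_le_log (hr.trans_le h1) h2
  have g3 := hq.log_r
  have g4 := hq.log_R
  have g5 := hq.kap_gt
  have g6 : kap q = 2 * (Real.log q.R1 - Real.log q.rho) := rfl
  have hl : ∀ t, lam q.rho q.R1 t = (Real.log q.rho + Real.log q.R1) / 2 - kap q * t := by
    intro t; unfold lam kap; ring
  rcases le_abs.1 hs with h | h
  · have e : lamc q.rho q.R1 (3 / 8) (3 / 8) s = lam q.rho q.R1 (3 / 8) := by
      unfold lamc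
      rw [min_eq_left h, max_eq_right (by norm_num)]
    have h3 : kap q * (3 / 8) ≤ kap q * s := by
      have : 0 < kap q := by linarith
      gcongr
    rw [e, hl, hl]
    constructor
    · rw [le_abs]; left; linarith
    · rw [le_abs]; left; linarith
  · have e : lamc q.rho q.R1 (3 / 8) (3 / 8) s = lam q.rho q.R1 (-(3 / 8)) := by
      unfold lamc
      rw [min_eq_right (by linarith), max_eq_left (by linarith)]
    have h3 : kap q * (3 / 8) ≤ kap q * (-s) := by
      have : 0 < kap q := by linarith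
      gcongr
    rw [e, hl, hl]
    constructor
    · rw [le_abs]; right; linarith
    · rw [le_abs]; right; linarith

theorem lamc_eq {s : ℝ} (hs : |s| ≤ 3 / 8) :
    lamc q.rho q.R1 (3 / 8) (3 / 8) s = lam q.rho q.R1 s := by
  have := abs_le.1 hs
  unfold lamc
  rw [min_eq_right this.2, max_eq_right this.1]

theorem not_ball_end (hq : LM_808.Par D q) {s : ℝ} (hs : 3 / 8 ≤ |s|) {ω v : Vc (n + 2)}
    (hω : ‖ω‖ = 1) (h1 : q.r ≤ ‖v‖) (h2 : ‖v‖ ≤ q.R) :
    ¬ ‖v - (tp hq).cc s • ω‖ ≤ (tp hq).eps * (tp hq).cc s := by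
  intro h
  have h3 := (tp hq).log_bound hω h
  have h4 := (far_end hq hs h1 h2).2
  have h0 := kap_pos hq
  have e : (tp hq).b * (tp hq).w / 8 = 1 / 24 := by
    show kap q * (1 / (3 * kap q)) / 8 = _
    field_simp; norm_num
  rw [e] at h3
  rw [lam_eq hq, ← sub_add] at h4
  linarith

theorem inD_iff (hq : LM_808.Par D q) {u : Bc (n + 2)} {v : Vc (n + 2)} (h1 : q.r ≤ ‖v‖)
    (h2 : ‖v‖ ≤ q.R) :
    inD D q (lamc q.rho q.R1 (3 / 8) (3 / 8)) (u, v) ↔ (tp hq).Ball (u 1) (omt D u) v := by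
  have hv : 0 < ‖v‖ := hq.r_pos.trans_le h1
  by_cases hs : |u 1| ≤ 3 / 8
  · unfold inD
    simp only
    have e : omt D u = w1 D u := by
      unfold omt
      rw [if_pos (by linarith)]
    rw [lamc_eq hs, e]
    exact ball_iff hq (norm_w1 D u) hv
  · push Not at hs
    constructor
    · intro h
      have := far hq (norm_w1 D u) hv (far_end hq hs.le h1 h2).1
      unfold inD at h
      simp only at h
      linarith
    · intro h
      exact (not_ball_end hq hs.le (norm_omt D u) h1 h2 (le_of_lt h)).elim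

theorem onD_iff (hq : LM_808.Par D q) {u : Bc (n + 2)} {v : Vc (n + 2)} (h1 : q.r ≤ ‖v‖)
    (h2 : ‖v‖ ≤ q.R) :
    onD D q (lamc q.rho q.R1 (3 / 8) (3 / 8)) (u, v) ↔
      (tp hq).Tube (u 1) (omt D u) (Mt D u) v := by
  have hv : 0 < ‖v‖ := hq.r_pos.trans_le h1
  by_cases hs : |u 1| ≤ 3 / 8
  · unfold onD
    simp only
    have e : omt D u = w1 D u := by
      unfold omt
      rw [if_pos (by linarith)]
    have e' : Mt D u = M1 D u := by
      unfold Mt
      rw [if_pos (by linarith)]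
    rw [lamc_eq hs, e, e']
    exact tube_iff hq (norm_w1 D u) hv
  · push Not at hs
    constructor
    · intro h
      have := far hq (norm_w1 D u) hv (far_end hq hs.le h1 h2).1
      have h3 := h.1
      simp only at h3
      linarith
    · intro h
      exact (not_ball_end hq hs.le (norm_omt D u) h1 h2 h.1.le).elim

theorem a_lt (hq : LM_808.Par D q) : (tp hq).a < -2 := by
  show (Real.log q.rho + Real.log q.R1) / 2 < -2
  have h1 := hq.prod_lt
  have h2 := hq.rho_pos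
  have h3 : 0 < q.R1 := by linarith [hq.R1_gt]
  rw [← Real.log_mul h2.ne' h3.ne']
  have h4 : Real.log (q.rho * q.R1) < Real.log (1 / 1000000) :=
    Real.log_lt_log (mul_pos h2 h3) h1
  have h5 : Real.log (1 / 1000000) ≤ -4 := by
    rw [Real.log_le_iff_le_exp (by norm_num), Real.exp_neg,
      show (4 : ℝ) = ((4 : ℕ) : ℝ) * 1 by norm_num, Real.exp_nat_mul]
    have h6 := Real.exp_one_lt_d9
    have h7 : Real.exp 1 ^ 4 ≤ 3 ^ 4 := by
      have := Real.exp_pos 1
      gcongr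
      linarith
    rw [one_div]
    refine inv_anti₀ (by positivity) ?_
    linarith
  linarith

/-- the other discs never meet the ball of the strand. -/
theorem other (hq : LM_808.Par D q) {u : Bc (n + 2)} {v : Vc (n + 2)} {k : Fin m} (hk : k ≠ i)
    (hkj : k ≠ j) (hu : ‖u‖ ≤ 1) (h : ‖v - D.y k u‖ = q.r) :
    (q.r ≤ ‖v‖ ∧ ‖v‖ ≤ q.R) ∧ ¬ (tp hq).Ball (u 1) (omt D u) v := by
  have hr := hq.r_pos
  have hr2 := hq.r_lt
  have hy1 := D.far k u hkj
  have hy2 := hq.y_lt k u hk hu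
  have n1 : ‖D.y k u‖ ≤ ‖v‖ + q.r := by
    have := norm_sub_le v (v - D.y k u)
    rw [sub_sub_cancel, h] at this
    exact this
  have n2 : ‖v‖ ≤ ‖D.y k u‖ + q.r := by
    have := norm_add_le (D.y k u) (v - D.y k u)
    rw [add_sub_cancel, h] at this
    exact this
  have hR : q.R1 ≤ q.R := by
    have := hq.log_R
    have := hq.kap_gt
    exact (le_of_log (by linarith [hq.R1_gt]) hq.R_pos (by linarith)).le
  have hrange : q.r ≤ ‖v‖ ∧ ‖v‖ ≤ q.R := ⟨by linarith, by linarith [hq.R1_gt]⟩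
  refine ⟨hrange, fun hB => ?_⟩
  have hv : 0 < ‖v‖ := hr.trans_le hrange.1
  by_cases hs : |u 1| ≤ 1 / 2
  · rw [D.mid_y k u hs] at h n1
    have hp := D.p_norm k hkj
    have hv1 : 9 / 10 ≤ ‖v‖ := by linarith
    by_cases hz : u 1 ≤ 0 ∨ 1 / 8 ≤ u 1
    · rw [(rest_omt D u hz).1, ← ball_iff hq norm_hc hv] at hB
      have e : ⟪v, hc (n + 1)⟫ = ⟪v - D.p k, hc (n + 1)⟫ := by
        rw [inner_sub_left, real_inner_comm (hc (n + 1)) (D.p k), D.p_h k, sub_zero]
      have h3 : ⟪v - D.p k, hc (n + 1)⟫ ≤ q.r := by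
        have := real_inner_le_norm (v - D.p k) (hc (n + 1))
        rwa [h, norm_hc, mul_one] at this
      have h4 := Real.one_le_cosh (Real.log ‖v‖ - lam q.rho q.R1 (u 1))
      have h5 := sa_gt hq
      rw [e] at hB
      have h6 : 999 / 1000 ≤ sa q * Real.cosh (Real.log ‖v‖ - lam q.rho q.R1 (u 1)) := by
        nlinarith
      nlinarith
    · push Not at hz
      rw [← ball_iff hq (norm_omt D u) hv] at hB
      have h3 : 1 ≤ |Real.log ‖v‖ - lam q.rho q.R1 (u 1)| := by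
        rw [lam_eq hq, le_abs]
        left
        have h4 := a_lt hq
        have h5 : 0 < (tp hq).b * u 1 := mul_pos (tp hq).hb hz.1
        have h6 := Real.one_sub_inv_le_log_of_pos hv
        have h7 : ‖v‖⁻¹ ≤ 10 / 9 := by
          rw [inv_le_comm₀ hv (by norm_num)]
          linarith
        linarith
      have := far hq (norm_omt D u) hv h3
      linarith
  · push Not at hs
    exact not_ball_end hq (by linarith) (norm_omt D u) hrange.1 hrange.2 (le_of_lt hB)

end par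

/-- everything except the strand `i`. -/
def K0 (D : NFD n m i j) (q : Rad) : Set (Bc (n + 2) × Vc (n + 2)) :=
  {p | (⟪ec (n + 2), p.2⟫ = 0 ∧ ‖p.1‖ = 1 ∧ q.r ≤ ‖p.2‖ ∧ ‖p.2‖ ≤ q.R ∧
      (∀ k, k ≠ i → k ≠ j → q.r ≤ ‖p.2 - D.y k p.1‖)) ∨
    (⟪ec (n + 2), p.2⟫ = 0 ∧ ‖p.1‖ ≤ 1 ∧ ‖p.2‖ = q.R) ∨
    (‖p.1‖ ≤ 1 ∧ ‖p.2‖ = q.r ∧ ⟪D.F.Rf p.1 (ec (n + 2)), p.2⟫ = 0) ∨
    (∃ k, k ≠ i ∧ k ≠ j ∧ ‖p.1‖ ≤ 1 ∧ ‖p.2 - D.y k p.1‖ = q.r ∧
      ⟪D.N k p.1, p.2 - D.y k p.1⟫ = 0)}

section par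

variable {D : NFD n m i j} {q : Rad}

theorem r_le_R (hq : LM_808.Par D q) : q.r ≤ q.R := (tp hq).hrR.le

theorem K0_range (hq : LM_808.Par D q) : ∀ p ∈ K0 D q, ‖p.1‖ ≤ 1 ∧ q.r ≤ ‖p.2‖ ∧ ‖p.2‖ ≤ q.R := by
  have hrR := r_le_R hq
  rintro p (⟨-, h2, h3, h4, -⟩ | ⟨-, h2, h3⟩ | ⟨h1, h2, -⟩ | ⟨k, h1, h2, h3, h4, -⟩)
  · exact ⟨h2.le, h3, h4⟩
  · exact ⟨h2, by rw [h3]; exact hrR, h3.le⟩
  · exact ⟨h1, h2.ge, by rw [h2]; exact hrR⟩
  · exact ⟨h3, (other hq h1 h2 h3 h4).1⟩

theorem KE_eq (hq : LM_808.Par D q) :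
    KE D q (lamc q.rho q.R1 (3 / 8) (3 / 8)) =
      Tilt_88.KMp (tp hq) 1 (K0 D q) (omt D) (Mt D) := by
  ext ⟨u, v⟩
  by_cases hin : q.r ≤ ‖v‖ ∧ ‖v‖ ≤ q.R
  · have e1 := inD_iff hq (u := u) hin.1 hin.2
    have e2 := onD_iff hq (u := u) hin.1 hin.2
    have e3 : ∀ k, k ≠ i → k ≠ j → ‖u‖ ≤ 1 → ‖v - D.y k u‖ = q.r →
        ¬ (tp hq).Ball (u 1) (omt D u) v := fun k h1 h2 h3 h4 => (other hq h1 h2 h3 h4).2
    constructor
    · rintro (⟨a1, a2, a3, a4, a5, a6⟩ | ⟨a1, a2, a3, a6⟩ | ⟨a1, a2, a3, a6⟩ |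
        ⟨k, a1, a2, a3, a4, a5⟩ | ⟨a1, a2, a3, a4⟩)
      · exact Or.inl ⟨Or.inl ⟨a1, a2, a3, a4, a5⟩, fun h => a6 (e1.2 h)⟩
      · exact Or.inl ⟨Or.inr (Or.inl ⟨a1, a2, a3⟩), fun h => a6 (e1.2 h)⟩
      · exact Or.inl ⟨Or.inr (Or.inr (Or.inl ⟨a1, a2, a3⟩)), fun h => a6 (e1.2 h)⟩
      · exact Or.inl ⟨Or.inr (Or.inr (Or.inr ⟨k, a1, a2, a3, a4, a5⟩)), e3 k a1 a2 a3 a4⟩
      · exact Or.inr ⟨a1, a2, a3, e2.1 a4⟩
    · rintro (⟨(⟨a1, a2, a3, a4, a5⟩ | ⟨a1, a2, a3⟩ | ⟨a1, a2, a3⟩ | ⟨k, a1, a2, a3, a4, a5⟩), b⟩ |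
        ⟨a1, a2, a3, a4⟩)
      · exact Or.inl ⟨a1, a2, a3, a4, a5, fun h => b (e1.1 h)⟩
      · exact Or.inr (Or.inl ⟨a1, a2, a3, fun h => b (e1.1 h)⟩)
      · exact Or.inr (Or.inr (Or.inl ⟨a1, a2, a3, fun h => b (e1.1 h)⟩))
      · exact Or.inr (Or.inr (Or.inr (Or.inl ⟨k, a1, a2, a3, a4, a5⟩)))
      · exact Or.inr (Or.inr (Or.inr (Or.inr ⟨a1, a2, a3, e2.2 a4⟩)))
  · constructor
    · rintro (⟨a1, a2, a3, a4, a5, a6⟩ | ⟨a1, a2, a3, a6⟩ | ⟨a1, a2, a3, a6⟩ |
        ⟨k, a1, a2, a3, a4, a5⟩ | ⟨a1, a2, a3, a4⟩)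
      · exact (hin ⟨a3, a4⟩).elim
      · exact (hin (K0_range hq (u, v) (Or.inr (Or.inl ⟨a1, a2, a3⟩))).2).elim
      · exact (hin (K0_range hq (u, v) (Or.inr (Or.inr (Or.inl ⟨a1, a2, a3⟩)))).2).elim
      · exact (hin (K0_range hq (u, v)
          (Or.inr (Or.inr (Or.inr ⟨k, a1, a2, a3, a4, a5⟩)))).2).elim
      · exact (hin ⟨a2, a3⟩).elim
    · rintro (⟨h, -⟩ | ⟨a1, a2, a3, a4⟩)
      · exact (hin (K0_range hq (u, v) h).2).elim
      · exact (hin ⟨a2, a3⟩).elim

theorem norm_upd_le {u : Bc (n + 2)} {s t : ℝ} (ht : 1 / 2 ≤ t) (hu : |u 1| ≤ 1 / 2)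
    (hs : |s| ≤ 1 / 2) : ‖Function.update u 1 s‖ ≤ t ↔ ‖u‖ ≤ t := by
  have ht0 : 0 ≤ t := by linarith
  rw [pi_norm_le_iff_of_nonneg ht0, pi_norm_le_iff_of_nonneg ht0]
  constructor
  · intro H k
    by_cases hk : k = 1
    · rw [hk, Real.norm_eq_abs]; linarith
    · have := H k
      rwa [Function.update_of_ne hk] at this
  · intro H k
    by_cases hk : k = 1
    · rw [hk, Function.update_self, Real.norm_eq_abs]; linarith
    · rw [Function.update_of_ne hk]; exact H k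

theorem norm_upd_eq {u : Bc (n + 2)} {s : ℝ} (hu : |u 1| ≤ 1 / 2) (hs : |s| ≤ 1 / 2) :
    ‖Function.update u 1 s‖ = 1 ↔ ‖u‖ = 1 := by
  have key : ∀ a b : ℝ, (∀ t, 1 / 2 ≤ t → (a ≤ t ↔ b ≤ t)) → a = 1 → b = 1 := by
    intro a b H ha
    have h1 := (H 1 (by norm_num)).1 ha.le
    by_contra hb
    have h2 : b < 1 := lt_of_le_of_ne h1 hb
    have h3 := (H (max b (1 / 2)) (le_max_right _ _)).2 (le_max_left _ _)
    rw [ha] at h3
    rcases le_max_iff.1 h3 with h | h
    · linarith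
    · norm_num at h
  exact ⟨key _ _ fun t ht => norm_upd_le ht hu hs, key _ _ fun t ht => (norm_upd_le ht hu hs).symm⟩

theorem K0_shift (hq : LM_808.Par D q) (u : Bc (n + 2)) (v : Vc (n + 2)) (s : ℝ)
    (hu : |u 1| ≤ 1 / 2) (hs : |s| ≤ 1 / 2) :
    ((Function.update u 1 s, v) ∈ K0 D q ↔ (u, v) ∈ K0 D q) := by
  have hs' : |(Function.update u 1 s : Bc (n + 2)) 1| ≤ 1 / 2 := by
    rw [Function.update_self]; exact hs
  have e1 : ∀ k, D.y k (Function.update u 1 s) = D.y k u := fun k => by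
    rw [D.mid_y k _ hs', D.mid_y k _ hu]
  have e2 : ∀ k, D.N k (Function.update u 1 s) = D.N k u := fun k => by
    rw [D.mid_N k _ hs', D.mid_N k _ hu]
  have e3 : D.F.Rf (Function.update u 1 s) = D.F.Rf u := by
    rw [D.mid_F _ hs', D.mid_F _ hu]
  have e4 : ‖Function.update u 1 s‖ ≤ 1 ↔ ‖u‖ ≤ 1 := norm_upd_le (by norm_num) hu hs
  have e5 := norm_upd_eq (s := s) hu hs
  unfold K0
  simp only [mem_setOf_eq, e1, e2, e3, e4, e5]

theorem K0_scale (hq : LM_808.Par D q) (u : Bc (n + 2)) (v : Vc (n + 2)) (l : ℝ)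
    (hu : |u 1| ≤ 1 / 2) (hl : 0 < l) (hz : Tilt_88.Zone (tp hq) v)
    (hz' : Tilt_88.Zone (tp hq) (l • v)) :
    ((u, l • v) ∈ K0 D q ↔ (u, v) ∈ K0 D q) := by
  have hr := hq.r_pos
  have zone : ∀ w : Vc (n + 2), Tilt_88.Zone (tp hq) w → q.r < ‖w‖ ∧ ‖w‖ < q.R ∧ ‖w‖ < 1 / 2 := by
    intro w hw
    have h1 := (tp hq).h1.trans_le hw.1
    have h2 := hw.2.trans_lt (tp hq).h2
    have h3 : Real.log ‖w‖ < -1 := by
      have := hw.2
      have ha := a_lt hq
      have e : (tp hq).a - (tp hq).b * ((tp hq).sa - 3 * (tp hq).w) = (tp hq).a + 1 := by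
        have h0 := kap_pos hq
        show (tp hq).a - kap q * (0 - 3 * (1 / (3 * kap q))) = _
        field_simp
        ring
      rw [e] at this
      linarith
    have hw0 : 0 < ‖w‖ := by
      refine lt_of_le_of_ne (norm_nonneg _) fun h => ?_
      rw [← h, Real.log_zero] at h3
      linarith
    refine ⟨le_of_log hr hw0 h1, le_of_log hw0 hq.R_pos h2, ?_⟩
    have h4 : ‖w‖ < Real.exp (-1) := (Real.log_lt_iff_lt_exp hw0).1 h3
    have h5 : Real.exp (-1) < 1 / 2 := by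
      rw [Real.exp_neg, one_div]
      have := Real.exp_one_gt_d9
      refine inv_strictAnti₀ (by norm_num) (by linarith)
    linarith
  obtain ⟨a1, a2, a3⟩ := zone v hz
  obtain ⟨b1, b2, b3⟩ := zone _ hz'
  have hr2 := hq.r_lt
  have far' : ∀ (w : Vc (n + 2)), ‖w‖ < 1 / 2 → ∀ k, k ≠ j → q.r < ‖w - D.y k u‖ := by
    intro w hw k hk
    rw [D.mid_y k u hu]
    have h1 := D.p_norm k hk
    have h2 := norm_sub_norm_le (D.p k) w
    rw [norm_sub_rev] at h2
    linarith
  constructor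
  · rintro (⟨c1, c2, c3, c4, c5⟩ | ⟨c1, c2, c3⟩ | ⟨c1, c2, c3⟩ | ⟨k, c1, c2, c3, c4, c5⟩)
    · refine Or.inl ⟨?_, c2, a1.le, a2.le, fun k _ hk => (far' v a3 k hk).le⟩
      simp only [inner_smul_right] at c1
      exact (mul_eq_zero.1 c1).resolve_left hl.ne'
    · simp only at c3; linarith
    · simp only at c2; linarith
    · simp only at c4
      have := far' _ b3 k c2
      linarith
  · rintro (⟨c1, c2, c3, c4, c5⟩ | ⟨c1, c2, c3⟩ | ⟨c1, c2, c3⟩ | ⟨k, c1, c2, c3, c4, c5⟩)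
    · refine Or.inl ⟨?_, c2, b1.le, b2.le, fun k _ hk => (far' _ b3 k hk).le⟩
      simp only at c1
      simp only [inner_smul_right, c1, mul_zero]
    · simp only at c3; linarith
    · simp only at c2; linarith
    · simp only at c4
      have := far' _ a3 k c2
      linarith

end par

theorem mir_eq {D D' : NFD n m i j} {q : Rad} (hM : IsMir D D') (hq : LM_808.Par D q)
    (hq' : LM_808.Par D' q) :
    mir (KE D' q (lamc q.rho q.R1 (3 / 8) (3 / 8))) =
      Tilt_88.KMm (tp hq) 1 (K0 D q) (omt D) (Mt D) := by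
  have hom : ∀ u, omt D' u = omt D u := by
    intro u
    unfold omt
    split_ifs with hu
    · rw [w1_collar D' hu, w1_collar D hu, hM.om]
    · rfl
  have hMM : ∀ u, Mt D' u = Mt D u - (2 * ⟪Mt D u, omt D u⟫) • omt D u := by
    intro u
    unfold omt Mt
    split_ifs with hu
    · rw [M1_collar D' hu, M1_collar D hu, w1_collar D hu, hM.M]
      rfl
    · have : ⟪ec (n + 2), hc (n + 1)⟫ = (0 : ℝ) := by
        unfold ec hc
        rw [EuclideanSpace.inner_single_left]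
        have h : (Fin.last (n + 2) : Fin (n + 2 + 1)) ≠ 0 := by
          simp [Fin.ext_iff]
        simp [h]
      rw [this]; simp
  have hmm : ∀ u : Bc (n + 2), ‖mu u‖ = ‖u‖ := by
    intro u
    refine le_antisymm ?_ ?_
    · rw [pi_norm_le_iff_of_nonneg (norm_nonneg _)]
      intro k
      unfold mu us
      by_cases hk : k = 1
      · rw [hk, Function.update_self, norm_neg]; exact norm_le_pi_norm u 1
      · rw [Function.update_of_ne hk]; exact norm_le_pi_norm u k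
    · rw [pi_norm_le_iff_of_nonneg (norm_nonneg _)]
      intro k
      by_cases hk : k = 1
      · have := norm_le_pi_norm (mu u) 1
        unfold mu us at this
        rw [Function.update_self, norm_neg] at this
        rw [hk]; exact this
      · have := norm_le_pi_norm (mu u) k
        unfold mu us at this
        rw [Function.update_of_ne hk] at this
        exact this
  have hK : ∀ u v, (mu u, v) ∈ K0 D' q ↔ (u, v) ∈ K0 D q := by
    intro u v
    unfold K0
    simp only [mem_setOf_eq, hM.y, hM.N, hM.F, mu_mu, hmm]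
  have htp : tp hq' = tp hq := rfl
  ext ⟨u, v⟩
  show (mu u, v) ∈ KE D' q (lamc q.rho q.R1 (3 / 8) (3 / 8)) ↔ _
  rw [KE_eq hq', htp]
  unfold Tilt_88.KMp Tilt_88.KMm
  simp only [mem_setOf_eq]
  rw [hK, hmm, hom, hMM]
  have h1 : (mu u) 1 = -(u 1) := by unfold mu us; simp
  rw [h1]
  rfl

/-- **TiltP.** -/
theorem tiltP (n : ℕ) : TiltP n := by
  intro m i j D D' q hM hq hq'
  rw [KE_eq hq, mir_eq hM hq hq']
  exact Tilt_88.tilt_eqv (tp hq) 1 (norm_omt D) (rest_omt D) (K0_range hq) (K0_shift hq)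
    (K0_scale hq)

end Crest.Agent.R267.TiltP_88
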