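import Crest.Agent.R267.PeelB_966_Mg
import Crest.Agent.R267.LM_808
import Crest.Agent.R267.Rad_118
import Crest.Agent.R267.IsotB_92
import Crest.Agent.R267.Real_855_Mg
import Crest.Agent.R267.Norm_855
import Crest.Agent.R267.Shape_118_Mg
import Crest.Agent.R267.Path_224
import Crest.Agent.R267.TiltP_88_Mg
import Mathlib
import Crest.Agent.R267.DraftB_808
import Crest.Agent.R267.LemR_224

-- ▼ part R267/PeelC_966
section

/-!
# PeelJ and Peel0 of LM_808 (row 267, LEMMA M)
-/

set_option autoImplicit false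

namespace Crest.Agent.R267.PeelC_966

open Set Metric
open scoped RealInnerProductSpace
open Crest.Agent.R267.GS_808 Crest.Agent.R267.DraftB_808 Crest.Agent.R267.NF_808
open Crest.Agent.R267.LM_808
open Crest.Agent.R267 Crest.Agent.R267.PeelA_966 Crest.Agent.R267.PeelB_966

/-! ### quadrant coordinates -/

/-- `σ = 1`, `a = log r`: near the strand `j`; `σ = -1`, `a = log R`: near the plate. -/
def zc (σ C a : ℝ) (z : ℝ × ℝ) : ℝ × ℝ := (1 - σ * z.1, σ * C * (z.2 - a))

/-- the inverse. -/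
noncomputable def zi (σ C a : ℝ) (x : ℝ × ℝ) : ℝ × ℝ := (σ * (1 - x.1), a + σ * x.2 / C)

lemma zi_zc {σ C a : ℝ} (hσ : σ * σ = 1) (hC : C ≠ 0) (z : ℝ × ℝ) : zi σ C a (zc σ C a z) = z := by
  unfold zi zc
  ext
  · simp only; linear_combination z.1 * hσ
  · simp only
    field_simp
    linear_combination (z.2 - a) * hσ

lemma zc_zi {σ C a : ℝ} (hσ : σ * σ = 1) (hC : C ≠ 0) (z : ℝ × ℝ) : zc σ C a (zi σ C a z) = z := by
  unfold zi zc
  ext
  · simp only; linear_combination (-1 + z.1) * hσ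
  · simp only
    field_simp
    linear_combination z.2 * hσ

lemma continuous_zc (σ C a : ℝ) : Continuous (zc σ C a) := by unfold zc; fun_prop

lemma continuous_zi (σ C a : ℝ) : Continuous (zi σ C a) := by unfold zi; fun_prop

/-- the planar family. -/
noncomputable def mkP (σ C a w t0 t1 : ℝ) (hσ : σ * σ = 1) (hC : C ≠ 0) (hw : 0 < w)
    (hw1 : w ≤ 1 / 8) (h0 : ∀ t ≤ t0, 2 + 2 * w ≤ σ * C * (t - a) ∨ σ * C * (t - a) ≤ -(1 / 8))
    (h1 : ∀ t ≥ t1, 2 + 2 * w ≤ σ * C * (t - a) ∨ σ * C * (t - a) ≤ -(1 / 8)) : PlH where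
  f l z := zi σ C a (Phi w l (zc σ C a z))
  g l z := zi σ C a (Psi w l (zc σ C a z))
  cf := (continuous_zi σ C a).comp ((continuous_Phi hw).comp
    (continuous_fst.prodMk ((continuous_zc σ C a).comp continuous_snd)))
  cg := (continuous_zi σ C a).comp ((continuous_Psi hw).comp
    (continuous_fst.prodMk ((continuous_zc σ C a).comp continuous_snd)))
  gf l z := by rw [zc_zi hσ hC, Psi_Phi hw, zi_zc hσ hC]
  fg l z := by rw [zc_zi hσ hC, Phi_Psi hw, zi_zc hσ hC]
  t0 := t0
  t1 := t1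
  S := 9 / 8
  out := by
    intro l z h
    have hσ' : σ = 1 ∨ σ = -1 := by
      have : (σ - 1) * (σ + 1) = 0 := by linear_combination hσ
      rcases mul_eq_zero.1 this with h | h
      · left; linarith
      · right; linarith
    have key : Out w l (zc σ C a z) := by
      unfold Out zc
      rcases h with h | h | h | h
      · exact Or.inl h
      · rcases h0 _ h with k | k
        · exact Or.inr (Or.inr (Or.inl k))
        · exact Or.inr (Or.inr (Or.inr (Or.inr k)))
      · rcases h1 _ h with k | k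
        · exact Or.inr (Or.inr (Or.inl k))
        · exact Or.inr (Or.inr (Or.inr (Or.inr k)))
      · rcases le_abs.1 h with k | k
        · rcases hσ' with rfl | rfl
          · refine Or.inr (Or.inr (Or.inr (Or.inl ?_))); simp only; linarith
          · refine Or.inr (Or.inl ?_); simp only; linarith
        · rcases hσ' with rfl | rfl
          · refine Or.inr (Or.inl ?_); simp only; linarith
          · refine Or.inr (Or.inr (Or.inr (Or.inl ?_))); simp only; linarith
    show zi σ C a (Phi w l (zc σ C a z)) = z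
    rw [Phi_out hw hw1 key, zi_zc hσ hC]

/-! ### generalities on polar lifts -/

section polar

variable {n : ℕ} {V : Type*} [NormedAddCommGroup V] [InnerProductSpace ℝ V]

lemma GH_zero (P : PlH) (F : Fra n V) (u : Bc (n + 2)) : GH P F (u, 0) = (u, 0) := by
  apply GH_out
  apply P.out
  right; left
  show tau P.t0 (0 : V) ≤ P.t0
  rw [tau_of_le]
  rw [norm_zero]; exact (Real.exp_pos _).le

/-- the polar lift for `v ≠ 0`. -/
lemma GH_apply' (P : PlH) (F : Fra n V) (u : Bc (n + 2)) {v : V} (hv : v ≠ 0) :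
    GH P F (u, v) = (us u (P.f (cut u) (u 1, Real.log ‖v‖)).1,
      F.R (us u (P.f (cut u) (u 1, Real.log ‖v‖)).1)
        (Real.exp ((P.f (cut u) (u 1, Real.log ‖v‖)).2 - Real.log ‖v‖) • (F.R u).symm v)) := by
  rcases le_total (Real.exp P.t0) ‖v‖ with h | h
  · rw [GH_apply, tau_of_ge h]
  · have hv' : 0 < ‖v‖ := norm_pos_iff.2 hv
    have e1 : P.f (cut u) (u 1, Real.log ‖v‖) = (u 1, Real.log ‖v‖) := by
      apply P.out
      right; left
      show Real.log ‖v‖ ≤ P.t0
      calc Real.log ‖v‖ ≤ Real.log (Real.exp P.t0) := Real.log_le_log hv' h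
        _ = P.t0 := Real.log_exp _
    rw [GH_out]
    · simp [e1]
    · apply P.out
      right; left
      show tau P.t0 v ≤ P.t0
      rw [tau_of_le h]

lemma GH_out' (P : PlH) (F : Fra n V) {u : Bc (n + 2)} {v : V} (hv : v ≠ 0)
    (h : P.f (cut u) (u 1, Real.log ‖v‖) = (u 1, Real.log ‖v‖)) : GH P F (u, v) = (u, v) := by
  rw [GH_apply' P F u hv, h]
  simp

lemma norm_GH (P : PlH) (F : Fra n V) {u : Bc (n + 2)} {v : V} (hv : v ≠ 0) :
    ‖(GH P F (u, v)).2‖ = Real.exp (P.f (cut u) (u 1, Real.log ‖v‖)).2 := by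
  have hv' : 0 < ‖v‖ := norm_pos_iff.2 hv
  rw [GH_apply' P F u hv]
  simp only
  rw [LinearIsometryEquiv.norm_map, norm_smul, LinearIsometryEquiv.norm_map, Real.norm_eq_abs,
    abs_of_pos (Real.exp_pos _), Real.exp_sub, Real.exp_log hv']
  field_simp

end polar

/-! ### the strand conditions -/

variable {n m : ℕ} {i j : Fin m}


lemma sa_gt {D : NFD n m i j} {q : Rad} (hP : Par D q) : 999 / 1000 < sa q := by
  unfold sa
  apply Real.lt_sqrt_of_sq_lt
  have h1 := hP.eps_pos
  have h2 := hP.eps_lt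
  nlinarith

/-- the strand is thin. -/
lemma thin {D : NFD n m i j} {q : Rad} (hP : Par D q) {k : ℝ} (hk : 1 / 10 ≤ |k|)
    {v w : Vc (n + 2)} (hv : v ≠ 0) (hw : ‖w‖ = 1) : ⟪v, w⟫ < sa q * Real.cosh k * ‖v‖ := by
  have hv' : 0 < ‖v‖ := norm_pos_iff.2 hv
  have h1 : ⟪v, w⟫ ≤ ‖v‖ := by
    have := real_inner_le_norm v w
    rwa [hw, mul_one] at this
  have h2 : 1 + (1 / 10) ^ 2 / 4 ≤ Real.cosh k := by
    have h3 : Real.cosh (1 / 10) ≤ Real.cosh k := by
      rw [Real.cosh_le_cosh, abs_of_pos (by norm_num : (0 : ℝ) < 1 / 10)]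
      exact hk
    have h4 : 1 + (1 / 10 : ℝ) ^ 2 / 4 ≤ Real.cosh (1 / 10) := by
      rw [Real.cosh_eq]
      have e1 := Real.quadratic_le_exp_of_nonneg (show (0 : ℝ) ≤ 1 / 10 by norm_num)
      have e2 := Real.add_one_le_exp (-(1 / 10 : ℝ))
      linarith
    linarith
  have h3 := sa_gt hP
  have h5 : 1 < sa q * Real.cosh k := by nlinarith
  nlinarith

lemma norm_hc : ‖hc (n + 1)‖ = 1 := by
  unfold hc
  rw [EuclideanSpace.norm_single, norm_one]

lemma inner_ec_hc : ⟪ec (n + 2), hc (n + 1)⟫ = 0 := by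
  unfold ec hc
  rw [EuclideanSpace.inner_single_left]
  simp [Fin.ext_iff]

lemma fr_nonneg (D : NFD n m i j) {u : Bc (n + 2)} (h : 0 ≤ u 1) : fr D u = D.F.Rf u := if_pos h

lemma fr_neg (D : NFD n m i j) {u : Bc (n + 2)} (h : u 1 < 0) :
    fr D u = LinearIsometryEquiv.refl ℝ _ := if_neg (not_le.2 h)

lemma fr_eq (D : NFD n m i j) (u : Bc (n + 2)) : fr D u = D.F.Rf (us u (max 0 (u 1))) := by
  rcases le_or_gt 0 (u 1) with h | h
  · rw [fr_nonneg D h, max_eq_right h, us_self]
  · rw [fr_neg D h, max_eq_left h.le, D.mid_F _ (by simp)]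

lemma fr_wall (D : NFD n m i j) {u : Bc (n + 2)} (h : 1 ≤ ‖u‖) : fr D u (ec (n + 2)) = ec (n + 2) := by
  rcases le_or_gt 0 (u 1) with h' | h'
  · rw [fr_nonneg D h', D.F.wall u h]
  · rw [fr_neg D h']; rfl

/-- the frame field. -/
noncomputable def frF (D : NFD n m i j) : Fra n (Vc (n + 2)) where
  R := fr D
  c := by
    have : (fun p : Bc (n + 2) × Vc (n + 2) => fr D p.1 p.2) =
        fun p => D.F.Rf (us p.1 (max 0 (p.1 1))) p.2 := by
      funext p; rw [fr_eq]
    rw [this]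
    exact D.F.c_Rf.comp ((continuous_us continuous_fst (continuous_const.max
      ((continuous_apply (1 : Fin (n + 2))).comp continuous_fst))).prodMk continuous_snd)
  c' := by
    have : (fun p : Bc (n + 2) × Vc (n + 2) => (fr D p.1).symm p.2) =
        fun p => (D.F.Rf (us p.1 (max 0 (p.1 1)))).symm p.2 := by
      funext p; rw [fr_eq]
    rw [this]
    exact D.F.c_Rf'.comp ((continuous_us continuous_fst (continuous_const.max
      ((continuous_apply (1 : Fin (n + 2))).comp continuous_fst))).prodMk continuous_snd)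

lemma restAt_us {u : Bc (n + 2)} {s : ℝ} (h : 1 ≤ |s|) : RestAt (us u s) :=
  Or.inr ⟨1, by simp, by rwa [us_one]⟩

lemma w1_eq (D : NFD n m i j) {u : Bc (n + 2)} (h : 1 ≤ |16 * u 1 - 1|) :
    w1 D u = fr D u (hc (n + 1)) := by
  unfold w1; rw [D.P.rest_om _ (restAt_us h)]

lemma M1_eq (D : NFD n m i j) {u : Bc (n + 2)} (h : 1 ≤ |16 * u 1 - 1|) :
    M1 D u = fr D u (ec (n + 2)) := by
  unfold M1; rw [D.P.rest_M _ (restAt_us h)]

lemma norm_w1 (D : NFD n m i j) (u : Bc (n + 2)) : ‖w1 D u‖ = 1 := by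
  unfold w1; rw [LinearIsometryEquiv.norm_map, D.P.n_om]

lemma inD_false {D : NFD n m i j} {q : Rad} (hP : Par D q) {ell : ℝ → ℝ} {u : Bc (n + 2)}
    {v : Vc (n + 2)} (hv : v ≠ 0) (hk : 1 / 10 ≤ |Real.log ‖v‖ - ell (u 1)|) :
    ¬ inD D q ell (u, v) := not_lt.2 (thin hP hk hv (norm_w1 D u)).le

lemma onD_false {D : NFD n m i j} {q : Rad} (hP : Par D q) {ell : ℝ → ℝ} {u : Bc (n + 2)}
    {v : Vc (n + 2)} (hv : v ≠ 0) (hk : 1 / 10 ≤ |Real.log ‖v‖ - ell (u 1)|) :
    ¬ onD D q ell (u, v) := fun h => (thin hP hk hv (norm_w1 D u)).ne' h.1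

lemma KE_iff {D : NFD n m i j} {q : Rad} {ell ell' : ℝ → ℝ} {p : Bc (n + 2) × Vc (n + 2)}
    (h1 : inD D q ell p ↔ inD D q ell' p) (h2 : onD D q ell p ↔ onD D q ell' p) :
    p ∈ KE D q ell ↔ p ∈ KE D q ell' := by
  unfold KE
  simp only [mem_ofPred_eq]
  rw [h1, h2]

lemma KE_congr {D : NFD n m i j} {q : Rad} {ell ell' : ℝ → ℝ} {p : Bc (n + 2) × Vc (n + 2)}
    (h : ell (p.1 1) = ell' (p.1 1)) : p ∈ KE D q ell ↔ p ∈ KE D q ell' := by
  apply KE_iff
  · unfold inD; rw [h]
  · unfold onD; rw [h]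

lemma KE_off {D : NFD n m i j} {q : Rad} (hP : Par D q) {ell ell' : ℝ → ℝ} {u : Bc (n + 2)}
    {v : Vc (n + 2)} (hv : v ≠ 0) (hk : 1 / 10 ≤ |Real.log ‖v‖ - ell (u 1)|)
    (hk' : 1 / 10 ≤ |Real.log ‖v‖ - ell' (u 1)|) : (u, v) ∈ KE D q ell ↔ (u, v) ∈ KE D q ell' :=
  KE_iff (iff_of_false (inD_false hP hv hk) (inD_false hP hv hk'))
    (iff_of_false (onD_false hP hv hk) (onD_false hP hv hk'))

lemma KE_zero {D : NFD n m i j} {q : Rad} (hP : Par D q) (ell : ℝ → ℝ) (u : Bc (n + 2)) :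
    (u, (0 : Vc (n + 2))) ∉ KE D q ell := by
  have h1 := hP.r_pos
  have h2 := hP.R_pos
  have h3 := hP.r_lt
  rintro (h | h | h | ⟨k, h⟩ | h)
  · have := h.2.2.1
    simp only [norm_zero] at this
    linarith
  · have := h.2.2.1
    simp only [norm_zero] at this
    linarith
  · have := h.2.1
    simp only [norm_zero] at this
    linarith
  · have h4 := h.2.2.2.1
    have h5 := D.far k u h.2.1
    simp only [zero_sub, norm_neg] at h4
    linarith
  · have := h.2.1
    simp only [norm_zero] at this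
    linarith

/-- inside the disc, normalised. -/
def In (q : Rad) (k : ℝ) (w : Vc (n + 2)) : Prop := sa q * Real.cosh k * ‖w‖ < ⟪w, hc (n + 1)⟫

/-- boundary of the disc, normalised. -/
def On (q : Rad) (k : ℝ) (w : Vc (n + 2)) : Prop :=
  sa q * Real.cosh k * ‖w‖ = ⟪w, hc (n + 1)⟫ ∧ ⟪ec (n + 2), w⟫ = 0

/-- the normalised link in the quadrant. -/
def CC (q : Rad) (N M k : ℝ) (w : Vc (n + 2)) : Prop :=
  N ≤ 1 ∧ 0 ≤ M ∧ ((⟪ec (n + 2), w⟫ = 0 ∧ ¬ In q k w ∧ (N = 1 ∨ M = 0)) ∨ On q k w)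

lemma In_smul (q : Rad) (k : ℝ) (w : Vc (n + 2)) {c : ℝ} (hc' : 0 < c) :
    In q k (c • w) ↔ In q k w := by
  unfold In
  rw [norm_smul, inner_smul_left, Real.norm_eq_abs, abs_of_pos hc',
    show sa q * Real.cosh k * (c * ‖w‖) = c * (sa q * Real.cosh k * ‖w‖) by ring]
  exact mul_lt_mul_iff_right₀ hc'

lemma e_smul (w : Vc (n + 2)) {c : ℝ} (hc' : 0 < c) :
    ⟪ec (n + 2), c • w⟫ = 0 ↔ ⟪ec (n + 2), w⟫ = 0 := by
  rw [inner_smul_right, mul_eq_zero, or_iff_right hc'.ne']

lemma On_smul (q : Rad) (k : ℝ) (w : Vc (n + 2)) {c : ℝ} (hc' : 0 < c) :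
    On q k (c • w) ↔ On q k w := by
  unfold On
  rw [e_smul w hc', norm_smul, inner_smul_left, Real.norm_eq_abs, abs_of_pos hc',
    show sa q * Real.cosh k * (c * ‖w‖) = c * (sa q * Real.cosh k * ‖w‖) by ring]
  refine and_congr_left fun _ => ?_
  exact mul_right_inj' hc'.ne'

lemma CC_trans {D : NFD n m i j} {q : Rad} (hP : Par D q) {N M k k' : ℝ} {w : Vc (n + 2)}
    (hw : w ≠ 0) {c : ℝ} (hc' : 0 < c)
    (h : N ≤ 1 → 0 ≤ M → k' = k ∨ (1 / 10 ≤ |k| ∧ 1 / 10 ≤ |k'|)) :
    CC q N M k w ↔ CC q N M k' (c • w) := by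
  unfold CC
  refine and_congr_right fun h1 => and_congr_right fun h2 => ?_
  rw [e_smul w hc', In_smul q k' w hc', On_smul q k' w hc']
  rcases h h1 h2 with rfl | ⟨h3, h4⟩
  · rfl
  · have a1 := (thin hP h3 hw norm_hc)
    have a2 := (thin hP h4 hw norm_hc)
    have b1 : ¬ In q k w := not_lt.2 a1.le
    have b2 : ¬ In q k' w := not_lt.2 a2.le
    have b3 : ¬ On q k w := fun h => a1.ne' h.1
    have b4 : ¬ On q k' w := fun h => a2.ne' h.1
    simp only [b1, b2, b3, b4]

end Crest.Agent.R267.PeelC_966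
end

-- ▼ part R267/Peel_966
section

/-!
# PeelJ and Peel0 of LM_808 (row 267, LEMMA M): proofs
-/

set_option autoImplicit false

namespace Crest.Agent.R267.Peel_966

open Set Metric
open scoped RealInnerProductSpace
open Crest.Agent.R267.GS_808 Crest.Agent.R267.DraftB_808 Crest.Agent.R267.NF_808
open Crest.Agent.R267.LM_808
open Crest.Agent.R267 Crest.Agent.R267.PeelA_966 Crest.Agent.R267.PeelB_966
open Crest.Agent.R267.PeelC_966

variable {n m : ℕ} {i j : Fin m}

/-! ### constants -/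

section const

variable {D : NFD n m i j} {q : Rad}

/-- scale. -/
noncomputable def CK (q : Rad) : ℝ := 32 / kap q

lemma kap_pos (hP : Par D q) : 0 < kap q := by have := hP.kap_gt; linarith

lemma CK_pos (hP : Par D q) : 0 < CK q := div_pos (by norm_num) (kap_pos hP)

lemma CK_mul (hP : Par D q) : CK q * kap q = 32 := by
  unfold CK; rw [div_mul_cancel₀ _ (kap_pos hP).ne']

lemma CK_lt (hP : Par D q) : CK q < 1 / 1000 := by
  unfold CK
  rw [div_lt_div_iff₀ (kap_pos hP) (by norm_num)]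
  have := hP.kap_gt
  linarith

lemma log_rho_lt (hP : Par D q) : Real.log q.rho + 1 / 5 < Real.log (1 / 4) := by
  have h1 : Real.log q.rho < Real.log (1 / 1000) := Real.log_lt_log hP.rho_pos hP.rho_lt
  have h2 : Real.log (1 / 4) - Real.log (1 / 1000) = Real.log 250 := by
    rw [← Real.log_div (by norm_num) (by norm_num)]; norm_num
  have h3 : 1 - (250 : ℝ)⁻¹ ≤ Real.log 250 := Real.one_sub_inv_le_log_of_pos (by norm_num)
  norm_num at h3
  linarith

lemma R1_pos (hP : Par D q) : 0 < q.R1 := by have := hP.R1_gt; linarith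

lemma R_gt (hP : Par D q) : q.R1 < q.R := by
  rw [← Real.log_lt_log_iff (R1_pos hP) hP.R_pos, hP.log_R]
  have := kap_pos hP
  linarith

lemma log_45 (hP : Par D q) : Real.log (4 / 5 * q.R1) ≤ Real.log q.R1 - 1 / 5 := by
  rw [Real.log_mul (by norm_num) (R1_pos hP).ne']
  have := Real.log_le_sub_one_of_pos (show (0 : ℝ) < 4 / 5 by norm_num)
  linarith

lemma lam_eq (q : Rad) (s : ℝ) : lam q.rho q.R1 s = Real.log q.rho - kap q * (s - 1 / 4) := by
  unfold lam kap; ring

lemma lam_eq' (q : Rad) (s : ℝ) : lam q.rho q.R1 s = Real.log q.R1 - kap q * (s + 1 / 4) := by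
  unfold lam kap; ring

end const

/-! ### the link in the quadrants -/

section quadrant

variable {D : NFD n m i j} {q : Rad}

lemma inD_iff (D : NFD n m i j) (q : Rad) (ell : ℝ → ℝ) {u : Bc (n + 2)} (v : Vc (n + 2))
    (h : 1 ≤ |16 * u 1 - 1|) :
    inD D q ell (u, v) ↔ In q (Real.log ‖v‖ - ell (u 1)) ((fr D u).symm v) := by
  unfold inD In
  rw [w1_eq D h, LinearIsometryEquiv.norm_map]
  have : ⟪v, fr D u (hc (n + 1))⟫ = ⟪(fr D u).symm v, hc (n + 1)⟫ := by
    rw [← (fr D u).inner_map_map ((fr D u).symm v), LinearIsometryEquiv.apply_symm_apply]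
  rw [this]

lemma inner_fr (D : NFD n m i j) (u : Bc (n + 2)) (v : Vc (n + 2)) :
    ⟪fr D u (ec (n + 2)), v⟫ = ⟪ec (n + 2), (fr D u).symm v⟫ := by
  rw [← (fr D u).inner_map_map (ec (n + 2)), LinearIsometryEquiv.apply_symm_apply]

lemma onD_iff (D : NFD n m i j) (q : Rad) (ell : ℝ → ℝ) {u : Bc (n + 2)} (v : Vc (n + 2))
    (h : 1 ≤ |16 * u 1 - 1|) :
    onD D q ell (u, v) ↔ On q (Real.log ‖v‖ - ell (u 1)) ((fr D u).symm v) := by
  unfold onD On
  rw [w1_eq D h, M1_eq D h, LinearIsometryEquiv.norm_map]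
  have h1 : ⟪v, fr D u (hc (n + 1))⟫ = ⟪(fr D u).symm v, hc (n + 1)⟫ := by
    rw [← (fr D u).inner_map_map ((fr D u).symm v), LinearIsometryEquiv.apply_symm_apply]
  have h2 : ⟪fr D u (ec (n + 2)), fr D u (hc (n + 1))⟫ = 0 := by
    rw [(fr D u).inner_map_map, inner_ec_hc]
  rw [h1, h2, mul_zero]
  show _ ∧ ⟪fr D u (ec (n + 2)), v⟫ = 0 ↔ _
  rw [inner_fr]

/-- the link near the strand `j` over the right half. -/
lemma KE_J (hP : Par D q) (ell : ℝ → ℝ) {u : Bc (n + 2)} {v : Vc (n + 2)} (hs : 1 / 4 < u 1)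
    (hv : v ≠ 0) (hv4 : ‖v‖ < 1 / 4) :
    (u, v) ∈ KE D q ell ↔
      CC q ‖us u 0‖ (mc (zc 1 (CK q) (Real.log q.r) (u 1, Real.log ‖v‖)))
        (Real.log ‖v‖ - ell (u 1)) ((fr D u).symm v) := by
  have hv' : 0 < ‖v‖ := norm_pos_iff.2 hv
  have hC := CK_pos hP
  have h16 : 1 ≤ |16 * u 1 - 1| := by
    rw [abs_of_pos (by linarith)]; linarith
  have hin := inD_iff D q ell v h16
  have hon := onD_iff D q ell v h16
  have hr := hP.r_pos
  have hR : ‖v‖ < q.R := by
    have := R_gt hP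
    have := hP.R1_gt
    linarith
  have hY : q.r ≤ ‖v‖ ↔ 0 ≤ 1 * CK q * (Real.log ‖v‖ - Real.log q.r) := by
    rw [one_mul, mul_nonneg_iff_of_pos_left hC, sub_nonneg, Real.log_le_log_iff hr hv']
  have hY0 : ‖v‖ = q.r ↔ 1 * CK q * (Real.log ‖v‖ - Real.log q.r) = 0 := by
    rw [one_mul, mul_eq_zero, or_iff_right hC.ne', sub_eq_zero]
    exact ⟨fun h => by rw [h], fun h => Real.log_injOn_pos hv' hr h⟩
  have hN : ‖u‖ = max ‖us u 0‖ (u 1) := by
    rw [norm_eq_max, abs_of_pos (by linarith)]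
  have hfar : ∀ k, k ≠ j → q.r < ‖v - D.y k u‖ := by
    intro k hk
    have h1 := D.far k u hk
    have h2 := norm_sub_norm_le (D.y k u) v
    rw [norm_sub_rev] at h2
    have h3 := hP.r_lt
    linarith
  have he : ‖u‖ = 1 → (⟪ec (n + 2), v⟫ = 0 ↔ ⟪ec (n + 2), (fr D u).symm v⟫ = 0) := by
    intro h
    rw [← inner_fr, fr_wall D h.ge]
  have hRf : ⟪D.F.Rf u (ec (n + 2)), v⟫ = ⟪ec (n + 2), (fr D u).symm v⟫ := by
    rw [← inner_fr, fr_nonneg D (by linarith)]
  have hM : 0 ≤ mc (zc 1 (CK q) (Real.log q.r) (u 1, Real.log ‖v‖)) ↔ u 1 ≤ 1 ∧ q.r ≤ ‖v‖ := by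
    unfold mc zc
    rw [le_min_iff, ← hY]
    simp only [one_mul, sub_nonneg]
  unfold CC
  rw [hM]
  constructor
  · rintro (h | h | h | ⟨k, h⟩ | h)
    · obtain ⟨a1, a2, a3, a4, a5, a6⟩ := h
      simp only at a1 a2 a3 a4 a6
      have hN1 : ‖us u 0‖ ≤ 1 := by rw [← a2, hN]; exact le_max_left _ _
      have hs1 : u 1 ≤ 1 := by rw [← a2, hN]; exact le_max_right _ _
      refine ⟨hN1, ⟨hs1, a3⟩, Or.inl ⟨(he a2).1 a1, fun h => a6 (hin.2 h), ?_⟩⟩
      rcases hN1.lt_or_eq with h | h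
      · right
        have : u 1 = 1 := by
          by_contra hne
          have : u 1 < 1 := lt_of_le_of_ne hs1 hne
          have : ‖u‖ < 1 := by rw [hN]; exact max_lt h this
          linarith
        unfold mc zc
        simp only [this]
        rw [min_eq_left]
        · ring
        · rw [← sub_nonneg]
          have := hY.1 a3
          linarith
      · exact Or.inl h
    · exact absurd h.2.2.1 hR.ne
    · obtain ⟨a1, a2, a3, a4⟩ := h
      simp only at a1 a2 a3
      have hN1 : ‖us u 0‖ ≤ 1 := (le_max_left _ _).trans (hN ▸ a1)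
      have hs1 : u 1 ≤ 1 := (le_max_right _ _).trans (hN ▸ a1)
      refine ⟨hN1, ⟨hs1, a2.ge⟩, Or.inl ⟨hRf ▸ a3, fun h => a4 (hin.2 h), Or.inr ?_⟩⟩
      unfold mc zc
      simp only
      rw [hY0.1 a2, min_eq_right]
      linarith
    · exact absurd h.2.2.2.1 (hfar k h.2.1).ne'
    · obtain ⟨a1, a2, a3, a4⟩ := h
      simp only at a1 a2 a3
      exact ⟨(le_max_left _ _).trans (hN ▸ a1), ⟨(le_max_right _ _).trans (hN ▸ a1), a2⟩,
        Or.inr (hon.1 a4)⟩
  · rintro ⟨a1, ⟨a2, a3⟩, h⟩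
    have hu : ‖u‖ ≤ 1 := by rw [hN]; exact max_le a1 a2
    rcases h with ⟨b1, b2, b3⟩ | h
    · have hwall : ‖u‖ = 1 → (u, v) ∈ KE D q ell := fun h => by
        refine Or.inl ⟨(he h).2 b1, h, a3, hR.le, fun k _ hk => (hfar k hk).le, ?_⟩
        exact fun h => b2 (hin.1 h)
      rcases b3 with b3 | b3
      · exact hwall (le_antisymm hu (by rw [hN, b3]; exact le_max_left _ _))
      · unfold mc zc at b3
        rcases min_choice (1 - 1 * u 1) (1 * CK q * (Real.log ‖v‖ - Real.log q.r)) with h | h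
        · rw [h] at b3
          have : u 1 = 1 := by linarith
          exact hwall (le_antisymm hu (by rw [hN, this]; exact le_max_right _ _))
        · rw [h] at b3
          refine Or.inr (Or.inr (Or.inl ⟨hu, hY0.2 b3, ?_, fun h => b2 (hin.1 h)⟩))
          show ⟪D.F.Rf u (ec (n + 2)), v⟫ = 0
          rw [hRf, b1]
    · exact Or.inr (Or.inr (Or.inr (Or.inr ⟨hu, a3, hR.le, hon.2 h⟩)))

/-- the link near the plate over the left half. -/
lemma KE_0 (hP : Par D q) (ell : ℝ → ℝ) {u : Bc (n + 2)} {v : Vc (n + 2)} (hs : u 1 < -(1 / 4))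
    (hv4 : 4 / 5 * q.R1 < ‖v‖) :
    (u, v) ∈ KE D q ell ↔
      CC q ‖us u 0‖ (mc (zc (-1) (CK q) (Real.log q.R) (u 1, Real.log ‖v‖)))
        (Real.log ‖v‖ - ell (u 1)) ((fr D u).symm v) := by
  have hR1 := hP.R1_gt
  have hv' : 0 < ‖v‖ := by linarith
  have hC := CK_pos hP
  have h16 : 1 ≤ |16 * u 1 - 1| := by
    rw [abs_of_neg (by linarith)]; linarith
  have hin := inD_iff D q ell v h16
  have hon := onD_iff D q ell v h16
  have hr := hP.r_pos
  have hRp := hP.R_pos
  have hrv : q.r < ‖v‖ := by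
    have := hP.r_lt
    linarith
  have hY : ‖v‖ ≤ q.R ↔ 0 ≤ -1 * CK q * (Real.log ‖v‖ - Real.log q.R) := by
    rw [show -1 * CK q * (Real.log ‖v‖ - Real.log q.R) =
      CK q * (Real.log q.R - Real.log ‖v‖) by ring, mul_nonneg_iff_of_pos_left hC, sub_nonneg,
      Real.log_le_log_iff hv' hRp]
  have hY0 : ‖v‖ = q.R ↔ -1 * CK q * (Real.log ‖v‖ - Real.log q.R) = 0 := by
    rw [show -1 * CK q * (Real.log ‖v‖ - Real.log q.R) =
      -CK q * (Real.log ‖v‖ - Real.log q.R) by ring, mul_eq_zero, or_iff_right (by linarith),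
      sub_eq_zero]
    exact ⟨fun h => by rw [h], fun h => Real.log_injOn_pos hv' hRp h⟩
  have hN : ‖u‖ = max ‖us u 0‖ (-(u 1)) := by
    rw [norm_eq_max, abs_of_neg (by linarith)]
  have hfar : ‖u‖ ≤ 1 → ∀ k, k ≠ i → q.r < ‖v - D.y k u‖ := by
    intro hu k hk
    have h1 := hP.y_lt k u hk hu
    have h2 := norm_sub_norm_le v (D.y k u)
    have h3 := hP.r_lt
    linarith
  have he : ⟪ec (n + 2), v⟫ = ⟪ec (n + 2), (fr D u).symm v⟫ := by
    rw [fr_neg D (by linarith)]; rfl
  have hM : 0 ≤ mc (zc (-1) (CK q) (Real.log q.R) (u 1, Real.log ‖v‖)) ↔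
      -(u 1) ≤ 1 ∧ ‖v‖ ≤ q.R := by
    unfold mc zc
    rw [le_min_iff, ← hY]
    simp only [neg_mul, one_mul, sub_neg_eq_add]
    constructor
    · rintro ⟨a, b⟩; exact ⟨by linarith, b⟩
    · rintro ⟨a, b⟩; exact ⟨by linarith, b⟩
  unfold CC
  rw [hM]
  constructor
  · rintro (h | h | h | ⟨k, h⟩ | h)
    · obtain ⟨a1, a2, a3, a4, a5, a6⟩ := h
      simp only at a1 a2 a3 a4 a6
      have hN1 : ‖us u 0‖ ≤ 1 := by rw [← a2, hN]; exact le_max_left _ _
      have hs1 : -(u 1) ≤ 1 := by rw [← a2, hN]; exact le_max_right _ _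
      refine ⟨hN1, ⟨hs1, a4⟩, Or.inl ⟨he ▸ a1, fun h => a6 (hin.2 h), ?_⟩⟩
      rcases hN1.lt_or_eq with h | h
      · right
        have : u 1 = -1 := by
          by_contra hne
          have : -(u 1) < 1 := lt_of_le_of_ne hs1 (fun h => hne (by linarith))
          have : ‖u‖ < 1 := by rw [hN]; exact max_lt h this
          linarith
        unfold mc zc
        simp only [this]
        rw [min_eq_left]
        · ring
        · rw [← sub_nonneg]
          have := hY.1 a4
          linarith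
      · exact Or.inl h
    · obtain ⟨a1, a2, a3, a4⟩ := h
      simp only at a1 a2 a3
      have hN1 : ‖us u 0‖ ≤ 1 := (le_max_left _ _).trans (hN ▸ a2)
      have hs1 : -(u 1) ≤ 1 := (le_max_right _ _).trans (hN ▸ a2)
      refine ⟨hN1, ⟨hs1, a3.le⟩, Or.inl ⟨he ▸ a1, fun h => a4 (hin.2 h), Or.inr ?_⟩⟩
      unfold mc zc
      simp only
      rw [hY0.1 a3, min_eq_right]
      linarith
    · exact absurd h.2.1 hrv.ne'
    · exact absurd h.2.2.2.1 (hfar h.2.2.1 k h.1).ne'
    · obtain ⟨a1, a2, a3, a4⟩ := h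
      simp only at a1 a2 a3
      exact ⟨(le_max_left _ _).trans (hN ▸ a1), ⟨(le_max_right _ _).trans (hN ▸ a1), a3⟩,
        Or.inr (hon.1 a4)⟩
  · rintro ⟨a1, ⟨a2, a3⟩, h⟩
    have hu : ‖u‖ ≤ 1 := by rw [hN]; exact max_le a1 a2
    rcases h with ⟨b1, b2, b3⟩ | h
    · have hwall : ‖u‖ = 1 → (u, v) ∈ KE D q ell := fun h => by
        refine Or.inl ⟨he ▸ b1, h, hrv.le, a3, fun k hk _ => (hfar hu k hk).le, ?_⟩
        exact fun h => b2 (hin.1 h)
      rcases b3 with b3 | b3
      · exact hwall (le_antisymm hu (by rw [hN, b3]; exact le_max_left _ _))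
      · unfold mc zc at b3
        rcases min_choice (1 - -1 * u 1) (-1 * CK q * (Real.log ‖v‖ - Real.log q.R)) with h | h
        · rw [h] at b3
          have : -(u 1) = 1 := by linarith
          exact hwall (le_antisymm hu (by rw [hN, this]; exact le_max_right _ _))
        · rw [h] at b3
          refine Or.inr (Or.inl ⟨?_, hu, hY0.2 b3, fun h => b2 (hin.1 h)⟩)
          show ⟪ec (n + 2), v⟫ = 0
          rw [he, b1]
    · exact Or.inr (Or.inr (Or.inr (Or.inr ⟨hu, hrv.le, a3, hon.2 h⟩)))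

end quadrant

/-! ### PeelJ -/

section peelJ

variable {D : NFD n m i j} {q : Rad}

/-- strip half width. -/
noncomputable def wK (q : Rad) : ℝ := CK q / 10

lemma wK_pos (hP : Par D q) : 0 < wK q := div_pos (CK_pos hP) (by norm_num)

lemma wK_le (hP : Par D q) : wK q ≤ 1 / 8 := by
  unfold wK; have := CK_lt hP; linarith

/-- `σ C (t - a) ≤ -1/8` for `t ≤ a - 1 / (8 C)` etc. -/
lemma J_t0 (hP : Par D q) (a t : ℝ) (h : t ≤ a - kap q / 256) :
    2 + 2 * wK q ≤ 1 * CK q * (t - a) ∨ 1 * CK q * (t - a) ≤ -(1 / 8) := by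
  right
  have h1 := CK_mul hP
  have h2 := CK_pos hP
  have h3 : CK q * (t - a) ≤ CK q * (-(kap q / 256)) :=
    mul_le_mul_of_nonneg_left (by linarith) h2.le
  nlinarith

lemma J_t1 (hP : Par D q) (a t : ℝ) (h : a + (kap q / 16 + 1 / 5) ≤ t) :
    2 + 2 * wK q ≤ 1 * CK q * (t - a) ∨ 1 * CK q * (t - a) ≤ -(1 / 8) := by
  left
  have h1 := CK_mul hP
  have h2 := CK_pos hP
  have h3 : CK q * (kap q / 16 + 1 / 5) ≤ CK q * (t - a) :=
    mul_le_mul_of_nonneg_left (by linarith) h2.le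
  unfold wK
  nlinarith

lemma O_t0 (hP : Par D q) (a t : ℝ) (h : t ≤ a - (kap q / 16 + 1 / 5)) :
    2 + 2 * wK q ≤ -1 * CK q * (t - a) ∨ -1 * CK q * (t - a) ≤ -(1 / 8) := by
  left
  have h1 := CK_mul hP
  have h2 := CK_pos hP
  have h3 : CK q * (kap q / 16 + 1 / 5) ≤ CK q * (a - t) :=
    mul_le_mul_of_nonneg_left (by linarith) h2.le
  unfold wK
  nlinarith

lemma O_t1 (hP : Par D q) (a t : ℝ) (h : a + kap q / 256 ≤ t) :
    2 + 2 * wK q ≤ -1 * CK q * (t - a) ∨ -1 * CK q * (t - a) ≤ -(1 / 8) := by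
  right
  have h1 := CK_mul hP
  have h2 := CK_pos hP
  have h3 : CK q * (kap q / 256) ≤ CK q * (t - a) :=
    mul_le_mul_of_nonneg_left (by linarith) h2.le
  nlinarith

/-- planar family near the strand `j`. -/
noncomputable def PJ (hP : Par D q) : PlH :=
  mkP 1 (CK q) (Real.log q.r) (wK q) (Real.log q.r - kap q / 256)
    (Real.log q.r + (kap q / 16 + 1 / 5)) (by norm_num) (CK_pos hP).ne' (wK_pos hP) (wK_le hP)
    (fun t h => J_t0 hP _ t h) (fun t h => J_t1 hP _ t h)

/-- planar family near the plate. -/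
noncomputable def P0 (hP : Par D q) : PlH :=
  mkP (-1) (CK q) (Real.log q.R) (wK q) (Real.log q.R - (kap q / 16 + 1 / 5))
    (Real.log q.R + kap q / 256) (by norm_num) (CK_pos hP).ne' (wK_pos hP) (wK_le hP)
    (fun t h => O_t0 hP _ t h) (fun t h => O_t1 hP _ t h)

lemma PJ_f (hP : Par D q) (l : ℝ) (z : ℝ × ℝ) : (PJ hP).f l z =
    zi 1 (CK q) (Real.log q.r) (Phi (wK q) l (zc 1 (CK q) (Real.log q.r) z)) := rfl

lemma P0_f (hP : Par D q) (l : ℝ) (z : ℝ × ℝ) : (P0 hP).f l z =
    zi (-1) (CK q) (Real.log q.R) (Phi (wK q) l (zc (-1) (CK q) (Real.log q.R) z)) := rfl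

lemma zc_PJ (hP : Par D q) (l : ℝ) (z : ℝ × ℝ) :
    zc 1 (CK q) (Real.log q.r) ((PJ hP).f l z) =
      Phi (wK q) l (zc 1 (CK q) (Real.log q.r) z) := by
  rw [PJ_f, zc_zi (by norm_num) (CK_pos hP).ne']

lemma zc_P0 (hP : Par D q) (l : ℝ) (z : ℝ × ℝ) :
    zc (-1) (CK q) (Real.log q.R) ((P0 hP).f l z) =
      Phi (wK q) l (zc (-1) (CK q) (Real.log q.R) z) := by
  rw [P0_f, zc_zi (by norm_num) (CK_pos hP).ne']

lemma PJ_out (hP : Par D q) {l : ℝ} {z : ℝ × ℝ} (h : z.1 ≤ 1 / 4) : (PJ hP).f l z = z := by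
  rw [PJ_f, Phi_out (wK_pos hP) (wK_le hP) (Or.inr (Or.inl ?_)),
    zi_zc (by norm_num) (CK_pos hP).ne']
  unfold zc; simp only; linarith

lemma P0_out (hP : Par D q) {l : ℝ} {z : ℝ × ℝ} (h : -(1 / 4) ≤ z.1) : (P0 hP).f l z = z := by
  rw [P0_f, Phi_out (wK_pos hP) (wK_le hP) (Or.inr (Or.inl ?_)),
    zi_zc (by norm_num) (CK_pos hP).ne']
  unfold zc; simp only; linarith

lemma PJ_out_t (hP : Par D q) {l : ℝ} {z : ℝ × ℝ} (h : Real.log (1 / 4) ≤ z.2) :
    (PJ hP).f l z = z := by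
  apply (PJ hP).out
  refine Or.inr (Or.inr (Or.inl ?_))
  show Real.log q.r + (kap q / 16 + 1 / 5) ≤ z.2
  have := hP.log_r
  have := log_rho_lt hP
  linarith

lemma P0_out_t (hP : Par D q) {l : ℝ} {z : ℝ × ℝ} (h : z.2 ≤ Real.log (4 / 5 * q.R1)) :
    (P0 hP).f l z = z := by
  apply (P0 hP).out
  refine Or.inr (Or.inl ?_)
  show z.2 ≤ Real.log q.R - (kap q / 16 + 1 / 5)
  have := hP.log_R
  have := log_45 hP
  linarith

/-- an image point outside the support is fixed. -/
lemma fix_of (P : PlH) {l : ℝ} {z : ℝ × ℝ} (h : P.f l (P.f l z) = P.f l z) : P.f l z = z := by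
  have := congrArg (P.g l) h
  rwa [P.gf, P.gf] at this

/-- **the strip coordinate near `j`.** -/
lemma strip_J (hP : Par D q) {z : ℝ × ℝ} (h1 : 1 / 4 < z.1)
    (h2 : 0 ≤ mc (zc 1 (CK q) (Real.log q.r) z)) :
    (((PJ hP).f 1 z).2 - lamc q.rho q.R1 (1 / 4) (3 / 8) ((PJ hP).f 1 z).1 =
      z.2 - lamc q.rho q.R1 (1 / 4) (1 / 4) z.1) ∨
    (1 / 10 ≤ |z.2 - lamc q.rho q.R1 (1 / 4) (1 / 4) z.1| ∧
      1 / 10 ≤ |((PJ hP).f 1 z).2 - lamc q.rho q.R1 (1 / 4) (3 / 8) ((PJ hP).f 1 z).1|) := by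
  set z' := (PJ hP).f 1 z with hz'
  have hk := kap_pos hP
  have hC := CK_pos hP
  have hCk := CK_mul hP
  have hlr := hP.log_r
  have hlog : lam q.rho q.R1 (1 / 4) = Real.log q.rho := by rw [lam_eq]; ring
  have e1 : lamc q.rho q.R1 (1 / 4) (1 / 4) z.1 = Real.log q.rho := by
    unfold lamc
    rw [min_eq_left h1.le, max_eq_right (by norm_num), hlog]
  have hs' : 1 / 4 < z'.1 := by
    by_contra hc
    push Not at hc
    have h3 := PJ_out hP (l := 1) hc
    have h4 := fix_of (PJ hP) h3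
    rw [← hz'] at h4
    rw [h4] at hc
    linarith
  have hm : mc (zc 1 (CK q) (Real.log q.r) z') = mc (zc 1 (CK q) (Real.log q.r) z) := by
    rw [hz', zc_PJ, mc_Phi]
  have ht' : 0 ≤ CK q * (z'.2 - Real.log q.r) := by
    have h3 : 0 ≤ mc (zc 1 (CK q) (Real.log q.r) z') := by rw [hm]; exact h2
    have h4 := h3.trans (min_le_right _ _)
    unfold zc at h4
    simpa using h4
  have ht'' : 0 ≤ z'.2 - Real.log q.r := nonneg_of_mul_nonneg_right ht' hC
  have k1e : k1 (zc 1 (CK q) (Real.log q.r) z) = CK q * (z.2 - Real.log q.rho) := by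
    unfold k1 zc
    simp only
    rw [max_eq_left (by linarith)]
    rw [hlr]
    linear_combination (1 / 16) * hCk
  have k2e : k2 (zc 1 (CK q) (Real.log q.r) z') = CK q * (z'.2 - lam q.rho q.R1 z'.1) := by
    unfold k2 zc
    simp only
    rw [lam_eq, hlr]
    linear_combination (5 / 16 - z'.1) * hCk
  have hst := strip (w := wK q) (wK_pos hP) (wK_le hP) h2
  rw [← zc_PJ hP, ← hz', k1e, k2e, e1.symm] at hst
  have hcase : ∀ x : ℝ, |x| < 1 / 10 → |CK q * x| ≤ wK q := by
    intro x hx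
    rw [abs_mul, abs_of_pos hC]
    unfold wK
    nlinarith
  rcases le_or_gt z'.1 (3 / 8) with h3 | h3
  · have e2 : lamc q.rho q.R1 (1 / 4) (3 / 8) z'.1 = lam q.rho q.R1 z'.1 := by
      unfold lamc
      rw [min_eq_right h3, max_eq_right (by linarith)]
    rw [e2]
    by_cases h4 : |z.2 - lamc q.rho q.R1 (1 / 4) (1 / 4) z.1| < 1 / 10
    · left
      have := hst (Or.inl (hcase _ h4))
      exact mul_left_cancel₀ hC.ne' this
    · by_cases h5 : |z'.2 - lam q.rho q.R1 z'.1| < 1 / 10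
      · left
        have := hst (Or.inr (hcase _ h5))
        exact mul_left_cancel₀ hC.ne' this
      · right
        exact ⟨not_lt.1 h4, not_lt.1 h5⟩
  · right
    have e2 : lamc q.rho q.R1 (1 / 4) (3 / 8) z'.1 = Real.log q.r - kap q / 16 := by
      unfold lamc
      rw [min_eq_left h3.le, max_eq_right (by norm_num), lam_eq, hlr]
      ring
    have e3 : lam q.rho q.R1 z'.1 ≤ Real.log q.r - kap q / 16 := by
      rw [lam_eq, hlr]
      nlinarith
    have hkg := hP.kap_gt
    constructor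
    · by_contra h4
      push Not at h4
      have := mul_left_cancel₀ hC.ne' (hst (Or.inl (hcase _ h4)))
      rw [← this, abs_lt] at h4
      linarith
    · rw [e2, abs_of_nonneg (by linarith)]
      linarith

/-- **the strip coordinate near the plate.** -/
lemma strip_0 (hP : Par D q) {z : ℝ × ℝ} (h1 : z.1 < -(1 / 4))
    (h2 : 0 ≤ mc (zc (-1) (CK q) (Real.log q.R) z)) :
    (((P0 hP).f 1 z).2 - lamc q.rho q.R1 (3 / 8) (3 / 8) ((P0 hP).f 1 z).1 =
      z.2 - lamc q.rho q.R1 (1 / 4) (3 / 8) z.1) ∨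
    (1 / 10 ≤ |z.2 - lamc q.rho q.R1 (1 / 4) (3 / 8) z.1| ∧
      1 / 10 ≤ |((P0 hP).f 1 z).2 - lamc q.rho q.R1 (3 / 8) (3 / 8) ((P0 hP).f 1 z).1|) := by
  set z' := (P0 hP).f 1 z with hz'
  have hk := kap_pos hP
  have hC := CK_pos hP
  have hCk := CK_mul hP
  have hlR := hP.log_R
  have hlog : lam q.rho q.R1 (-(1 / 4)) = Real.log q.R1 := by rw [lam_eq']; ring
  have e1 : lamc q.rho q.R1 (1 / 4) (3 / 8) z.1 = Real.log q.R1 := by
    unfold lamc
    rw [min_eq_right (by linarith), max_eq_left h1.le, hlog]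
  have hs' : z'.1 < -(1 / 4) := by
    by_contra hc
    push Not at hc
    have h3 := P0_out hP (l := 1) hc
    have h4 := fix_of (P0 hP) h3
    rw [← hz'] at h4
    rw [h4] at hc
    linarith
  have hm : mc (zc (-1) (CK q) (Real.log q.R) z') = mc (zc (-1) (CK q) (Real.log q.R) z) := by
    rw [hz', zc_P0, mc_Phi]
  have ht' : 0 ≤ CK q * (Real.log q.R - z'.2) := by
    have h3 : 0 ≤ mc (zc (-1) (CK q) (Real.log q.R) z') := by rw [hm]; exact h2
    have h4 := h3.trans (min_le_right _ _)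
    unfold zc at h4
    simp only at h4
    linarith
  have ht'' : 0 ≤ Real.log q.R - z'.2 := nonneg_of_mul_nonneg_right ht' hC
  have k1e : k1 (zc (-1) (CK q) (Real.log q.R) z) = -CK q * (z.2 - Real.log q.R1) := by
    unfold k1 zc
    simp only
    rw [max_eq_left (by linarith)]
    rw [hlR]
    linear_combination (1 / 16) * hCk
  have k2e : k2 (zc (-1) (CK q) (Real.log q.R) z') = -CK q * (z'.2 - lam q.rho q.R1 z'.1) := by
    unfold k2 zc
    simp only
    rw [lam_eq', hlR]
    linear_combination (5 / 16 + z'.1) * hCk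
  have hst := strip (w := wK q) (wK_pos hP) (wK_le hP) h2
  rw [← zc_P0 hP, ← hz', k1e, k2e, e1.symm] at hst
  have hC' : -CK q ≠ 0 := by linarith
  have hcase : ∀ x : ℝ, |x| < 1 / 10 → |-CK q * x| ≤ wK q := by
    intro x hx
    rw [abs_mul, abs_neg, abs_of_pos hC]
    unfold wK
    nlinarith
  rcases le_or_gt (-(3 / 8)) z'.1 with h3 | h3
  · have e2 : lamc q.rho q.R1 (3 / 8) (3 / 8) z'.1 = lam q.rho q.R1 z'.1 := by
      unfold lamc
      rw [min_eq_right (by linarith), max_eq_right h3]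
    rw [e2]
    by_cases h4 : |z.2 - lamc q.rho q.R1 (1 / 4) (3 / 8) z.1| < 1 / 10
    · left
      have := hst (Or.inl (hcase _ h4))
      exact mul_left_cancel₀ hC' this
    · by_cases h5 : |z'.2 - lam q.rho q.R1 z'.1| < 1 / 10
      · left
        have := hst (Or.inr (hcase _ h5))
        exact mul_left_cancel₀ hC' this
      · right
        exact ⟨not_lt.1 h4, not_lt.1 h5⟩
  · right
    have e2 : lamc q.rho q.R1 (3 / 8) (3 / 8) z'.1 = Real.log q.R + kap q / 16 := by
      unfold lamc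
      rw [min_eq_right (by linarith), max_eq_left h3.le, lam_eq', hlR]
      ring
    have e3 : Real.log q.R + kap q / 16 ≤ lam q.rho q.R1 z'.1 := by
      rw [lam_eq', hlR]
      nlinarith
    have hkg := hP.kap_gt
    constructor
    · by_contra h4
      push Not at h4
      have := mul_left_cancel₀ hC' (hst (Or.inl (hcase _ h4)))
      rw [← this, abs_lt] at h4
      linarith
    · rw [e2, abs_of_nonpos (by linarith)]
      linarith

end peelJ

/-- **PEEL at the strand `j`.** -/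
theorem peelJ (n : ℕ) : PeelJ n := by
  intro m i j D q hP
  refine ⟨GH (PJ hP) (frF D), GH_compact _ _, ?_⟩
  rintro ⟨u, v⟩
  rcases le_or_gt (u 1) (1 / 4) with hs | hs
  · -- nothing moves
    have h1 : GH (PJ hP) (frF D) (u, v) = (u, v) := GH_out _ _ (PJ_out hP hs)
    rw [h1]
    apply KE_congr
    show lamc _ _ _ _ (u 1) = lamc _ _ _ _ (u 1)
    unfold lamc
    rw [min_eq_right hs, min_eq_right (by linarith)]
  by_cases hv : v = 0
  · subst hv
    rw [GH_zero]
    exact iff_of_false (KE_zero hP _ _) (KE_zero hP _ _)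
  have hv' : 0 < ‖v‖ := norm_pos_iff.2 hv
  have hrho := log_rho_lt hP
  have hk := kap_pos hP
  rcases le_or_gt (1 / 4) ‖v‖ with hv4 | hv4
  · have hlog : Real.log (1 / 4) ≤ Real.log ‖v‖ := Real.log_le_log (by norm_num) hv4
    have h1 : GH (PJ hP) (frF D) (u, v) = (u, v) := GH_out' _ _ hv (PJ_out_t hP hlog)
    rw [h1]
    apply KE_off hP hv
    · have : lamc q.rho q.R1 (1 / 4) (1 / 4) (u 1) = Real.log q.rho := by
        unfold lamc
        rw [min_eq_left hs.le, max_eq_right (by norm_num), lam_eq]; ring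
      rw [this, abs_of_nonneg (by linarith)]
      linarith
    · have : lamc q.rho q.R1 (1 / 4) (3 / 8) (u 1) ≤ Real.log q.rho := by
        unfold lamc
        have h2 : 1 / 4 ≤ min (3 / 8) (u 1) := le_min (by norm_num) hs.le
        rw [max_eq_right (by linarith), lam_eq]
        nlinarith
      rw [abs_of_nonneg (by linarith)]
      linarith
  -- the quadrant
  set l := cut u with hl
  set z : ℝ × ℝ := (u 1, Real.log ‖v‖) with hz
  set z' := (PJ hP).f l z with hz'
  have hG : GH (PJ hP) (frF D) (u, v) = (us u z'.1,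
      fr D (us u z'.1) (Real.exp (z'.2 - Real.log ‖v‖) • (fr D u).symm v)) :=
    GH_apply' (PJ hP) (frF D) u hv
  have hn : ‖fr D (us u z'.1) (Real.exp (z'.2 - Real.log ‖v‖) • (fr D u).symm v)‖ =
      Real.exp z'.2 := by
    have := norm_GH (PJ hP) (frF D) (u := u) hv
    rwa [hG] at this
  have hs' : 1 / 4 < z'.1 := by
    by_contra hc
    push Not at hc
    have h4 := fix_of (PJ hP) (PJ_out hP (l := l) hc)
    rw [← hz'] at h4
    rw [h4] at hc
    exact absurd hc (not_le.2 hs)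
  have ht' : z'.2 < Real.log (1 / 4) := by
    by_contra hc
    push Not at hc
    have h4 := fix_of (PJ hP) (PJ_out_t hP (l := l) hc)
    rw [← hz'] at h4
    rw [h4] at hc
    have : Real.log ‖v‖ < Real.log (1 / 4) := Real.log_lt_log hv' hv4
    exact absurd hc (not_le.2 this)
  rw [hG, KE_J hP _ hs hv hv4, KE_J hP _ (by rw [us_one]; exact hs')
    (by rw [← norm_pos_iff, hn]; exact Real.exp_pos _)
    (by rw [hn, ← Real.log_lt_log_iff (Real.exp_pos _) (by norm_num), Real.log_exp]; exact ht'),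
    hn, Real.log_exp, us_one, us_us, LinearIsometryEquiv.symm_apply_apply]
  have hm : mc (zc 1 (CK q) (Real.log q.r) (z'.1, z'.2)) =
      mc (zc 1 (CK q) (Real.log q.r) z) := by
    show mc (zc 1 (CK q) (Real.log q.r) z') = _
    rw [hz', zc_PJ, mc_Phi]
  rw [hm]
  have hw : (fr D u).symm v ≠ 0 := by
    rw [← norm_pos_iff, LinearIsometryEquiv.norm_map]; exact hv'
  refine CC_trans hP hw (Real.exp_pos _) fun hN hM => ?_
  have hl1 : l = 1 := cut_one hN
  have hz1 : z' = (PJ hP).f 1 z := by rw [hz', hl1]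
  have := strip_J hP (z := z) hs hM
  rw [← hz1] at this
  exact this

/-- **PEEL at the plate.** -/
theorem peel0 (n : ℕ) : Peel0 n := by
  intro m i j D q hP
  refine ⟨GH (P0 hP) (frF D), GH_compact _ _, ?_⟩
  rintro ⟨u, v⟩
  rcases le_or_gt (-(1 / 4)) (u 1) with hs | hs
  · have h1 : GH (P0 hP) (frF D) (u, v) = (u, v) := GH_out _ _ (P0_out hP hs)
    rw [h1]
    apply KE_congr
    show lamc _ _ _ _ (u 1) = lamc _ _ _ _ (u 1)
    unfold lamc
    rw [max_eq_right (le_min (by norm_num) hs),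
      max_eq_right (le_min (by norm_num) (by linarith))]
  by_cases hv : v = 0
  · subst hv
    rw [GH_zero]
    exact iff_of_false (KE_zero hP _ _) (KE_zero hP _ _)
  have hv' : 0 < ‖v‖ := norm_pos_iff.2 hv
  have hk := kap_pos hP
  have hR1 := R1_pos hP
  have h45 := log_45 hP
  rcases le_or_gt ‖v‖ (4 / 5 * q.R1) with hv4 | hv4
  · have hlog : Real.log ‖v‖ ≤ Real.log (4 / 5 * q.R1) := Real.log_le_log hv' hv4
    have h1 : GH (P0 hP) (frF D) (u, v) = (u, v) := GH_out' _ _ hv (P0_out_t hP hlog)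
    rw [h1]
    apply KE_off hP hv
    · have : lamc q.rho q.R1 (1 / 4) (3 / 8) (u 1) = Real.log q.R1 := by
        unfold lamc
        rw [min_eq_right (by linarith), max_eq_left hs.le, lam_eq']; ring
      rw [this, abs_of_nonpos (by linarith)]
      linarith
    · have : Real.log q.R1 ≤ lamc q.rho q.R1 (3 / 8) (3 / 8) (u 1) := by
        unfold lamc
        rw [min_eq_right (by linarith)]
        have h2 : max (-(3 / 8)) (u 1) ≤ -(1 / 4) := max_le (by norm_num) hs.le
        rw [lam_eq']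
        nlinarith
      rw [abs_of_nonpos (by linarith)]
      linarith
  set l := cut u with hl
  set z : ℝ × ℝ := (u 1, Real.log ‖v‖) with hz
  set z' := (P0 hP).f l z with hz'
  have hG : GH (P0 hP) (frF D) (u, v) = (us u z'.1,
      fr D (us u z'.1) (Real.exp (z'.2 - Real.log ‖v‖) • (fr D u).symm v)) :=
    GH_apply' (P0 hP) (frF D) u hv
  have hn : ‖fr D (us u z'.1) (Real.exp (z'.2 - Real.log ‖v‖) • (fr D u).symm v)‖ =
      Real.exp z'.2 := by
    have := norm_GH (P0 hP) (frF D) (u := u) hv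
    rwa [hG] at this
  have hs' : z'.1 < -(1 / 4) := by
    by_contra hc
    push Not at hc
    have h4 := fix_of (P0 hP) (P0_out hP (l := l) hc)
    rw [← hz'] at h4
    rw [h4] at hc
    exact absurd hc (not_le.2 hs)
  have ht' : Real.log (4 / 5 * q.R1) < z'.2 := by
    by_contra hc
    push Not at hc
    have h4 := fix_of (P0 hP) (P0_out_t hP (l := l) hc)
    rw [← hz'] at h4
    rw [h4] at hc
    have : Real.log (4 / 5 * q.R1) < Real.log ‖v‖ := Real.log_lt_log (by linarith) hv4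
    exact absurd hc (not_le.2 this)
  rw [hG, KE_0 hP _ hs hv4, KE_0 hP _ (by rw [us_one]; exact hs')
    (by rw [hn, ← Real.log_lt_log_iff (by linarith) (Real.exp_pos _), Real.log_exp]; exact ht'),
    hn, Real.log_exp, us_one, us_us, LinearIsometryEquiv.symm_apply_apply]
  have hm : mc (zc (-1) (CK q) (Real.log q.R) (z'.1, z'.2)) =
      mc (zc (-1) (CK q) (Real.log q.R) z) := by
    show mc (zc (-1) (CK q) (Real.log q.R) z') = _
    rw [hz', zc_P0, mc_Phi]
  rw [hm]
  have hw : (fr D u).symm v ≠ 0 := by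
    rw [← norm_pos_iff, LinearIsometryEquiv.norm_map]; exact hv'
  refine CC_trans hP hw (Real.exp_pos _) fun hN hM => ?_
  have hl1 : l = 1 := cut_one hN
  have hz1 : z' = (P0 hP).f 1 z := by rw [hz', hl1]
  have := strip_0 hP (z := z) hs hM
  rw [← hz1] at this
  exact this

end Crest.Agent.R267.Peel_966
end

-- ▼ part R267/ClassG_808
section

/-!
# Assembly of `ClassGProp n` from the open leaves of DRAFT B (row 267)
-/

set_option autoImplicit false

namespace Crest.Agent.R267.ClassG_808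

open Set Metric
open Crest.Agent.R267.GS_808 Crest.Agent.R267.DraftB_808 Crest.Agent.R267.NF_808
open Crest.Agent.R267.LM_808
open Crest.Agent.R267

theorem t1pos (n : ℕ) : ∀ m : ℕ, 0 < m → ∀ G G' : S n m, Isot G G' → Eqv G.K G'.K :=
  fun _ hm G G' h => Rad_118.T1 hm G G' h

/-- `DraftB_808.classG_of` with T1 for `0 < m` only. -/
theorem classG_of' (n : ℕ) (h2 : ClassProp n) (h3 : T2Prop n) : ClassGProp n := by
  intro m G G' A A' P hm hG hG' hA
  have key : ∀ B, Relation.ReflTransGen T2alg1_684.Move A B →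
      ∃ G1 : S n m, HasMat G1 B ∧ Eqv G.K G1.K := by
    intro B hB
    induction hB with
    | refl => exact ⟨G, hG, Eqv.refl _⟩
    | tail _ h ih =>
      obtain ⟨G1, hG1, hE⟩ := ih
      obtain ⟨i, j, hij, rfl⟩ := h
      obtain ⟨G2, hG2, hE2⟩ := h3 m G1 _ i j hG1 hij
      exact ⟨G2, hG2, hE.trans hE2⟩
  obtain ⟨G1, hG1, hE⟩ := key A' (by
    rw [hA]
    exact T2alg1_684.moves_rtg (by simpa using hm) P A)
  exact hE.trans (t1pos n m (by omega) G1 G' (h2 m G1 G' A' hG1 hG'))

theorem class_fin (n : ℕ) (hn : 1 ≤ n) (hFB : FBProp n) (hTyp : TypProp n)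
    (hTypN : TypNProp n) : ClassProp n :=
  ClassAsm_484.class_of n (Norm_855.normProp n) hFB hTyp hTypN (Class1P_184.class1Prop n hn)

/-- **LEMMA M** holds. -/
theorem lemM (n : ℕ) : LemM n :=
  lemM_of n (Shape_118.shapeP n) (Peel_966.peelJ n) (Peel_966.peel0 n) (TiltP_88.tiltP n)
    (SysP_224.sysP n)

/-- **T2** from the class theorem. -/
theorem t2_fin (n : ℕ) (hn : 1 ≤ n) (h : ClassProp n) : T2Prop n :=
  t2_of n (t1pos n) h (lemM n)
    (Cls_253.cls_of n (Real_855.realProp hn) (Frame_527.frameProp n) (Path_224.pathProp n))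

/-- **`ClassGProp n` from the open leaves.** -/
theorem classG_fin (n : ℕ) (hn : 1 ≤ n) (hFB : FBProp n) (hTyp : TypProp n)
    (hTypN : TypNProp n) : ClassGProp n :=
  classG_of' n (class_fin n hn hFB hTyp hTypN) (t2_fin n hn (class_fin n hn hFB hTyp hTypN))

end Crest.Agent.R267.ClassG_808
end

-- ▼ part R267/TypN_52
section

/-!
# TYPN (row 267, leaf B5 of DRAFT B)

`typN (n) : TypNProp n`: the integer of a normal determines its homotopy class. The class of a
good map (continuous and nonzero on the closed cube, `e` on its boundary) lives in Mathlib's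
`HomotopyGroup (Fin (n + 2)) (V \ 0) e`; `cat` is the product, `rev` the inverse, `FN` is the
equality of classes, so every `TypN f c` has class `γ ^ c`.
-/

set_option autoImplicit false
set_option linter.unusedSectionVars false

namespace Crest.Agent.R267.TypN_52

open Set Metric
open scoped RealInnerProductSpace unitInterval Topology.Homotopy
open Crest.Agent.R267.GS_808 Crest.Agent.R267.DraftB_808 Crest.Agent.R267.LemR_224

noncomputable section

variable {n : ℕ}

/-- the target. -/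
abbrev Xs (n : ℕ) : Type := {v : Vc (n + 2) // v ≠ 0}

/-- its base point. -/
def x0 : Xs n := ⟨ec (n + 2), ec_ne⟩

/-- from the unit cube to the ball. -/
def ph (t : Fin (n + 2) → I) : Bc (n + 2) := fun i => 2 * (t i : ℝ) - 1

lemma continuous_ph : Continuous (ph (n := n)) := by
  unfold ph
  fun_prop

lemma ph_le (t : Fin (n + 2) → I) : ‖ph t‖ ≤ 1 := by
  rw [pi_norm_le_iff_of_nonneg zero_le_one]
  intro i
  have h1 := (t i).2.1
  have h2 := (t i).2.2
  rw [ph, Real.norm_eq_abs, abs_le]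
  constructor <;> linarith

lemma one_le_of {u : Bc (n + 2)} {i : Fin (n + 2)} (h : 1 ≤ |u i|) : 1 ≤ ‖u‖ :=
  h.trans (norm_le_pi_norm u i)

lemma ph_bd {t : Fin (n + 2) → I} (ht : t ∈ Cube.boundary (Fin (n + 2))) : ‖ph t‖ = 1 := by
  obtain ⟨i, hi⟩ := ht
  refine le_antisymm (ph_le t) (one_le_of (i := i) ?_)
  rcases hi with hi | hi
  · rw [ph, hi]; norm_num
  · rw [ph, hi]; norm_num

/-- from the ball to the unit cube. -/
def ps (u : Bc (n + 2)) : Fin (n + 2) → I := fun i => projIcc 0 1 zero_le_one ((u i + 1) / 2)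

lemma continuous_ps : Continuous (ps (n := n)) := by
  unfold ps
  refine continuous_pi fun i => continuous_projIcc.comp ?_
  fun_prop

lemma abs_le_of {u : Bc (n + 2)} (hu : ‖u‖ ≤ 1) (i : Fin (n + 2)) : |u i| ≤ 1 :=
  (norm_le_pi_norm u i).trans hu

lemma ps_coe {u : Bc (n + 2)} (hu : ‖u‖ ≤ 1) (i : Fin (n + 2)) :
    ((ps u i : I) : ℝ) = (u i + 1) / 2 := by
  have h := abs_le.1 (abs_le_of hu i)
  rw [ps, projIcc_of_mem zero_le_one (show (u i + 1) / 2 ∈ Icc (0 : ℝ) 1 from
    ⟨by linarith, by linarith⟩)]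

lemma ph_ps {u : Bc (n + 2)} (hu : ‖u‖ ≤ 1) : ph (ps u) = u := by
  funext i
  rw [ph, ps_coe hu]
  ring

lemma ps_bd {u : Bc (n + 2)} (hu : ‖u‖ = 1) : ps u ∈ Cube.boundary (Fin (n + 2)) := by
  by_contra hn
  have h1 : ∀ i, |u i| < 1 := by
    intro i
    refine lt_of_le_of_ne (abs_le_of hu.le i) fun h => hn ⟨i, ?_⟩
    rcases eq_or_eq_neg_of_abs_eq h with h | h
    · right
      apply Subtype.ext
      rw [ps_coe hu.le, h]; norm_num
    · left
      apply Subtype.ext
      rw [ps_coe hu.le, h]; norm_num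
  have h2 : ‖u‖ < 1 := (pi_norm_lt_iff one_pos).2 fun i => by rw [Real.norm_eq_abs]; exact h1 i
  linarith

/-- good maps. -/
structure Good (f : Bc (n + 2) → Vc (n + 2)) : Prop where
  cont : ContinuousOn f (closedBall 0 1)
  ne : ∀ u, ‖u‖ ≤ 1 → f u ≠ 0
  sph : ∀ u, ‖u‖ = 1 → f u = ec (n + 2)

/-- the generalised loop of a good map. -/
def gl (f : Bc (n + 2) → Vc (n + 2)) (h : Good f) : Ω^ (Fin (n + 2)) (Xs n) x0 :=
  ⟨⟨fun t => ⟨f (ph t), h.ne _ (ph_le t)⟩, by
    refine Continuous.subtype_mk ?_ _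
    refine h.cont.comp_continuous continuous_ph fun t => ?_
    rw [mem_closedBall_zero_iff]
    exact ph_le t⟩,
    fun t ht => Subtype.ext (h.sph _ (ph_bd ht))⟩

lemma gl_apply (f : Bc (n + 2) → Vc (n + 2)) (h : Good f) (t : Fin (n + 2) → I) :
    ((gl f h t : Xs n) : Vc (n + 2)) = f (ph t) := rfl

/-- the class. -/
def cl (f : Bc (n + 2) → Vc (n + 2)) (h : Good f) : HomotopyGroup (Fin (n + 2)) (Xs n) x0 :=
  (⟦gl f h⟧ : Quotient (GenLoop.Homotopic.setoid (Fin (n + 2)) (x0 : Xs n)))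

lemma Good.of_FN {f g : Bc (n + 2) → Vc (n + 2)} (H : FN (ec (n + 2)) f g) : Good g := by
  obtain ⟨F, hc, hne, hs, -, h1⟩ := H
  have m1 : (1 : ℝ) ∈ Icc (0 : ℝ) 1 := ⟨zero_le_one, le_rfl⟩
  refine ⟨?_, fun u hu => by rw [← h1 u hu]; exact hne 1 m1 u hu,
    fun u hu => by rw [← h1 u hu.le]; exact hs 1 m1 u hu⟩
  have h2 : ContinuousOn (fun u => F (1, u)) (closedBall (0 : Bc (n + 2)) 1) :=
    hc.comp (by fun_prop) fun u hu => ⟨m1, hu⟩
  exact h2.congr fun u hu => (h1 u (mem_closedBall_zero_iff.1 hu)).symm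

lemma cl_eq_of_FN {f g : Bc (n + 2) → Vc (n + 2)} (hf : Good f) (hg : Good g)
    (H : FN (ec (n + 2)) f g) : cl f hf = cl g hg := by
  obtain ⟨F, hc, hne, hs, h0, h1⟩ := H
  refine Quotient.sound ?_
  have hcont : Continuous fun p : I × (Fin (n + 2) → I) => F ((p.1 : ℝ), ph p.2) := by
    refine hc.comp_continuous ?_ fun p => ⟨p.1.2, ?_⟩
    · exact (continuous_subtype_val.comp continuous_fst).prodMk
        (continuous_ph.comp continuous_snd)
    · exact mem_closedBall_zero_iff.2 (ph_le p.2)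
  refine ⟨⟨⟨⟨fun p => ⟨F ((p.1 : ℝ), ph p.2), hne _ p.1.2 _ (ph_le p.2)⟩,
    Continuous.subtype_mk hcont _⟩, fun t => ?_, fun t => ?_⟩, ?_⟩⟩
  · exact Subtype.ext (h0 _ (ph_le t))
  · exact Subtype.ext (h1 _ (ph_le t))
  · intro s t ht
    apply Subtype.ext
    change F ((s : ℝ), ph t) = f (ph t)
    rw [hs _ s.2 _ (ph_bd ht), hf.sph _ (ph_bd ht)]

lemma FN_of_cl_eq {f g : Bc (n + 2) → Vc (n + 2)} (hf : Good f) (hg : Good g)
    (H : cl f hf = cl g hg) : FN (ec (n + 2)) f g := by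
  obtain ⟨K⟩ : GenLoop.Homotopic (gl f hf) (gl g hg) := Quotient.exact H
  let F : ℝ × Bc (n + 2) → Vc (n + 2) := fun p =>
    ((K (projIcc 0 1 zero_le_one p.1, ps p.2) : Xs n) : Vc (n + 2))
  have hF : Continuous F := by
    have h1 : Continuous fun p : ℝ × Bc (n + 2) =>
        ((projIcc (0 : ℝ) 1 zero_le_one p.1, ps p.2) : I × (Fin (n + 2) → I)) :=
      (continuous_projIcc.comp continuous_fst).prodMk (continuous_ps.comp continuous_snd)
    exact continuous_subtype_val.comp (K.continuous.comp h1)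
  refine ⟨F, hF.continuousOn, fun t _ u _ => (K (projIcc 0 1 zero_le_one t, ps u)).2,
    fun t _ u hu => ?_, fun u hu => ?_, fun u hu => ?_⟩
  · have h2 := K.eq_fst (projIcc 0 1 zero_le_one t) (ps_bd hu)
    change ((K (projIcc 0 1 zero_le_one t, ps u) : Xs n) : Vc (n + 2)) = _
    rw [h2]
    change f (ph (ps u)) = _
    rw [ph_ps hu.le, hf.sph u hu]
  · change ((K (projIcc 0 1 zero_le_one (0 : ℝ), ps u) : Xs n) : Vc (n + 2)) = _
    rw [projIcc_left]
    have h2 := K.apply_zero (ps u)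
    change ((K (0, ps u) : Xs n) : Vc (n + 2)) = _
    rw [h2]
    change f (ph (ps u)) = _
    rw [ph_ps hu]
  · change ((K (projIcc 0 1 zero_le_one (1 : ℝ), ps u) : Xs n) : Vc (n + 2)) = _
    rw [projIcc_right]
    have h2 := K.apply_one (ps u)
    change ((K (1, ps u) : Xs n) : Vc (n + 2)) = _
    rw [h2]
    change g (ph (ps u)) = _
    rw [ph_ps hu]

/-! ### constructors -/

lemma good_const : Good (n := n) fun _ => ec (n + 2) :=
  ⟨continuousOn_const, fun _ _ => ec_ne, fun _ _ => rfl⟩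

lemma good_ga : Good (n := n) ga :=
  ⟨continuous_ga.continuousOn, fun u _ => ga_ne u, fun _ hu => ga_sph hu⟩

lemma cl_const : cl (n := n) (fun _ => ec (n + 2)) good_const = 1 := by
  rw [HomotopyGroup.one_def]
  exact congrArg (fun q => (⟦q⟧ : Quotient (GenLoop.Homotopic.setoid (Fin (n + 2)) (x0 : Xs n))))
    (GenLoop.ext _ _ fun t => Subtype.ext rfl)

lemma blowL_one (u : Bc (n + 2)) : blowL u 1 = 2 * u 1 + 1 := by simp [blowL]
lemma blowR_one (u : Bc (n + 2)) : blowR u 1 = 2 * u 1 - 1 := by simp [blowR]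
lemma blowL_ne (u : Bc (n + 2)) {i : Fin (n + 2)} (hi : i ≠ 1) : blowL u i = u i := by
  simp [blowL, hi]
lemma blowR_ne (u : Bc (n + 2)) {i : Fin (n + 2)} (hi : i ≠ 1) : blowR u i = u i := by
  simp [blowR, hi]

lemma continuous_blowL : Continuous (blowL (n := n)) := by
  unfold blowL
  refine continuous_pi fun i => ?_
  by_cases hi : i = 1
  · subst hi; simp only [Function.update_self]; fun_prop
  · simp only [Function.update_of_ne hi]; fun_prop

lemma continuous_blowR : Continuous (blowR (n := n)) := by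
  unfold blowR
  refine continuous_pi fun i => ?_
  by_cases hi : i = 1
  · subst hi; simp only [Function.update_self]; fun_prop
  · simp only [Function.update_of_ne hi]; fun_prop

lemma exists_one {u : Bc (n + 2)} (hu : ‖u‖ = 1) : ∃ i, |u i| = 1 := by
  by_contra hn
  push Not at hn
  have h2 : ‖u‖ < 1 := (pi_norm_lt_iff one_pos).2 fun i => by
    rw [Real.norm_eq_abs]; exact lt_of_le_of_ne (abs_le_of hu.le i) (hn i)
  linarith

lemma good_cat {f g : Bc (n + 2) → Vc (n + 2)} (cf : Continuous f) (cg : Continuous g)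
    (nf : ∀ u, f u ≠ 0) (ng : ∀ u, g u ≠ 0)
    (rf : ∀ u, 1 ≤ ‖u‖ → f u = ec (n + 2)) (rg : ∀ u, 1 ≤ ‖u‖ → g u = ec (n + 2)) :
    Good (cat f g) := by
  refine ⟨Continuous.continuousOn ?_, fun u _ => ?_, fun u hu => ?_⟩
  · unfold cat
    refine Continuous.if_le (cf.comp continuous_blowL) (cg.comp continuous_blowR) (by fun_prop)
      continuous_const fun u hu => ?_
    have h1 : f (blowL u) = ec (n + 2) := rf _ (one_le_of (i := 1) (by
      rw [blowL_one, hu]; norm_num))
    have h2 : g (blowR u) = ec (n + 2) := rg _ (one_le_of (i := 1) (by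
      rw [blowR_one, hu]; norm_num))
    rw [h1, h2]
  · unfold cat
    split_ifs
    · exact nf _
    · exact ng _
  · obtain ⟨i, hi⟩ := exists_one hu
    unfold cat
    split_ifs with h
    · apply rf
      by_cases h1 : i = 1
      · subst h1
        have h3 : u 1 = -1 := by
          rcases eq_or_eq_neg_of_abs_eq hi with h4 | h4
          · linarith
          · exact h4
        exact one_le_of (i := 1) (by rw [blowL_one, h3]; norm_num)
      · exact one_le_of (i := i) (by rw [blowL_ne _ h1, hi])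
    · apply rg
      push Not at h
      by_cases h1 : i = 1
      · subst h1
        have h3 : u 1 = 1 := by
          rcases eq_or_eq_neg_of_abs_eq hi with h4 | h4
          · exact h4
          · linarith
        exact one_le_of (i := 1) (by rw [blowR_one, h3]; norm_num)
      · exact one_le_of (i := i) (by rw [blowR_ne _ h1, hi])


lemma continuous_flip : Continuous fun u : Bc (n + 2) => Function.update u 1 (-(u 1)) := by
  refine continuous_pi fun i => ?_
  by_cases hi : i = 1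
  · subst hi; simp only [Function.update_self]; fun_prop
  · simp only [Function.update_of_ne hi]; fun_prop

lemma norm_flip (u : Bc (n + 2)) : ‖Function.update u 1 (-(u 1))‖ = ‖u‖ := by
  have h : ∀ i, ‖(Function.update u 1 (-(u 1)) : Bc (n + 2)) i‖ = ‖u i‖ := by
    intro i
    by_cases hi : i = 1
    · subst hi; rw [Function.update_self, norm_neg]
    · rw [Function.update_of_ne hi]
  refine le_antisymm ?_ ?_
  · rw [pi_norm_le_iff_of_nonneg (norm_nonneg _)]
    intro i
    rw [h]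
    exact norm_le_pi_norm u i
  · rw [pi_norm_le_iff_of_nonneg (norm_nonneg _)]
    intro i
    rw [← h]
    exact norm_le_pi_norm _ i

lemma good_rev {f : Bc (n + 2) → Vc (n + 2)} (cf : Continuous f)
    (nf : ∀ u, f u ≠ 0) (rf : ∀ u, 1 ≤ ‖u‖ → f u = ec (n + 2)) : Good (rev f) :=
  ⟨(cf.comp continuous_flip).continuousOn, fun u _ => nf _,
    fun u hu => rf _ (by rw [norm_flip]; exact hu.ge)⟩

lemma gl_cat {f g : Bc (n + 2) → Vc (n + 2)} (hf : Good f) (hg : Good g)
    (h : Good (cat f g)) : gl (cat f g) h = GenLoop.transAt 1 (gl f hf) (gl g hg) := by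
  refine GenLoop.ext _ _ fun t => ?_
  apply Subtype.ext
  rw [gl_apply]
  change cat f g (ph t) = ((if (t 1 : ℝ) ≤ 1 / 2
      then gl f hf (Function.update t 1 <| Set.projIcc 0 1 zero_le_one (2 * t 1))
      else gl g hg (Function.update t 1 <| Set.projIcc 0 1 zero_le_one (2 * t 1 - 1)) : Xs n) :
      Vc (n + 2))
  have h0 := (t 1).2.1
  have h1 := (t 1).2.2
  unfold cat
  by_cases hc : (t 1 : ℝ) ≤ 1 / 2
  · have hc' : ph t 1 ≤ 0 := by rw [ph]; linarith
    rw [if_pos hc, if_pos hc', gl_apply]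
    congr 1
    funext i
    by_cases hi : i = 1
    · subst hi
      rw [blowL_one, ph, ph, Function.update_self,
        projIcc_of_mem zero_le_one (show 2 * (t 1 : ℝ) ∈ Icc (0 : ℝ) 1 from
          ⟨by linarith, by linarith⟩)]
      ring
    · rw [blowL_ne _ hi, ph, ph, Function.update_of_ne hi]
  · have hc' : ¬ ph t 1 ≤ 0 := by rw [ph]; linarith
    rw [if_neg hc, if_neg hc', gl_apply]
    push Not at hc
    congr 1
    funext i
    by_cases hi : i = 1
    · subst hi
      rw [blowR_one, ph, ph, Function.update_self,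
        projIcc_of_mem zero_le_one (show 2 * (t 1 : ℝ) - 1 ∈ Icc (0 : ℝ) 1 from
          ⟨by linarith, by linarith⟩)]
    · rw [blowR_ne _ hi, ph, ph, Function.update_of_ne hi]

lemma gl_rev {f : Bc (n + 2) → Vc (n + 2)} (hf : Good f) (h : Good (rev f)) :
    gl (rev f) h = GenLoop.symmAt 1 (gl f hf) := by
  refine GenLoop.ext _ _ fun t => ?_
  apply Subtype.ext
  rw [gl_apply]
  change rev f (ph t) = f (ph fun j => if j = 1 then unitInterval.symm (t 1) else t j)
  unfold rev
  congr 1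
  funext i
  by_cases hi : i = 1
  · subst hi
    rw [Function.update_self, ph, ph, if_pos rfl, unitInterval.coe_symm_eq]
    ring
  · rw [Function.update_of_ne hi, ph, ph, if_neg hi]

/-- **the class of `TypN`.** -/
theorem cl_typN {f : Bc (n + 2) → Vc (n + 2)} {c : ℤ} (h : TypN n f c) :
    ∃ hf : Good f, cl f hf = cl (n := n) ga good_ga ^ c := by
  induction h with
  | zero => exact ⟨good_const, by rw [cl_const, zpow_zero]⟩
  | ga => exact ⟨good_ga, by rw [zpow_one]⟩
  | congr h H ih =>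
    obtain ⟨hf, e⟩ := ih
    exact ⟨Good.of_FN H, by rw [← e, cl_eq_of_FN hf (Good.of_FN H) H]⟩
  | @cat f g c c' cf cg nf ng rf rg h h' ih ih' =>
    obtain ⟨hf, e⟩ := ih
    obtain ⟨hg, e'⟩ := ih'
    refine ⟨good_cat cf cg nf ng rf rg, ?_⟩
    rw [add_comm c c', zpow_add, ← e, ← e']
    have h1 : cl (cat f g) (good_cat cf cg nf ng rf rg) =
        (⟦GenLoop.transAt 1 (gl f hf) (gl g hg)⟧ :
          Quotient (GenLoop.Homotopic.setoid (Fin (n + 2)) (x0 : Xs n))) := by
      unfold cl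
      rw [gl_cat hf hg]
    rw [h1]
    exact (HomotopyGroup.mul_spec (i := (1 : Fin (n + 2)))).symm
  | @rev f c cf nf rf h ih =>
    obtain ⟨hf, e⟩ := ih
    refine ⟨good_rev cf nf rf, ?_⟩
    rw [zpow_neg, ← e]
    have h1 : cl (rev f) (good_rev cf nf rf) =
        (⟦GenLoop.symmAt 1 (gl f hf)⟧ :
          Quotient (GenLoop.Homotopic.setoid (Fin (n + 2)) (x0 : Xs n))) := by
      unfold cl
      rw [gl_rev hf]
    rw [h1]
    exact (HomotopyGroup.inv_spec (i := (1 : Fin (n + 2)))).symm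

/-- **TYPN.** -/
theorem typN (n : ℕ) : TypNProp n := by
  intro f g c hf hg
  obtain ⟨h1, e1⟩ := cl_typN hf
  obtain ⟨h2, e2⟩ := cl_typN hg
  exact FN_of_cl_eq h1 h2 (e1.trans e2.symm)

end

end Crest.Agent.R267.TypN_52
end

-- ▼ part R267/FBa_118
section

/-!
# The complement of the origin is simply connected in dimension `≥ 3` (row 267, leaf B4)
-/

set_option autoImplicit false

namespace Crest.Agent.R267.FBa_118

open Set Metric Topology

variable {E : Type*} [NormedAddCommGroup E] [NormedSpace ℝ E]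

/-- the clamp to `[0,1]` -/
noncomputable def k (t : ℝ) : ℝ := max 0 (min 1 t)

theorem continuous_k : Continuous k := by unfold k; fun_prop
theorem k_mem (t : ℝ) : 0 ≤ k t ∧ k t ≤ 1 :=
  ⟨le_max_left _ _, max_le zero_le_one (min_le_left _ _)⟩
theorem k_of_mem {t : ℝ} (h0 : 0 ≤ t) (h1 : t ≤ 1) : k t = t := by
  unfold k
  rw [min_eq_right h1, max_eq_right h0]
theorem k_of_nonpos {t : ℝ} (h : t ≤ 0) : k t = 0 := by
  unfold k
  rw [min_eq_right (by linarith), max_eq_left h]
theorem k_of_one_le {t : ℝ} (h : 1 ≤ t) : k t = 1 := by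
  unfold k
  rw [min_eq_left h, max_eq_right zero_le_one]

/-- homotopy of loops at `y` in `E \ 0` -/
def NH (y : E) (a b : ℝ → E) : Prop :=
  ∃ A : ℝ × ℝ → E, Continuous A ∧ (∀ p, A p ≠ 0) ∧ (∀ t, A (t, 0) = a t) ∧
    (∀ t, A (t, 1) = b t) ∧ (∀ s, A (0, s) = y) ∧ ∀ s, A (1, s) = y

theorem NH.trans {y : E} {a b c : ℝ → E} (h : NH y a b) (h' : NH y b c) : NH y a c := by
  obtain ⟨A, cA, nA, A0, A1, Al, Ar⟩ := h
  obtain ⟨B, cB, nB, B0, B1, Bl, Br⟩ := h'
  refine ⟨fun p => if p.2 ≤ 1 / 2 then A (p.1, 2 * p.2) else B (p.1, 2 * p.2 - 1), ?_, ?_, ?_,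
    ?_, ?_, ?_⟩
  · refine Continuous.if_le (cA.comp (by fun_prop)) (cB.comp (by fun_prop)) continuous_snd
      continuous_const fun p hp => ?_
    have : 2 * p.2 = 1 := by linarith
    rw [this, A1, sub_self, B0]
  · intro p
    simp only
    split_ifs
    · exact nA _
    · exact nB _
  · intro t
    simp only
    rw [if_pos (by norm_num), mul_zero, A0]
  · intro t
    simp only
    rw [if_neg (by norm_num)]
    norm_num
    exact B1 t
  · intro s
    simp only
    split_ifs
    · exact Al _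
    · exact Bl _
  · intro s
    simp only
    split_ifs
    · exact Ar _
    · exact Br _

/-- **simply connected** -/
theorem sc [FiniteDimensional ℝ E] (h3 : 3 ≤ Module.finrank ℝ E) {y : E} (α : ℝ → E)
    (hα : Continuous α) (hne : ∀ t, α t ≠ 0) (hk : ∀ t, α t = α (k t)) (h0 : α 0 = y)
    (h1 : α 1 = y) : NH y α fun _ => y := by
  have hy : y ≠ 0 := h0 ▸ hne 0
  -- stage 1: constant near the end points
  set α1 : ℝ → E := fun t => α (k (2 * t - 1 / 2)) with hα1
  have s1 : NH y α α1 := by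
    refine ⟨fun p => α ((1 - k p.2) * k p.1 + k p.2 * k (2 * p.1 - 1 / 2)), ?_, fun p => hne _,
      ?_, ?_, ?_, ?_⟩
    · have := continuous_k
      exact hα.comp (by fun_prop)
    · intro t
      simp only [k_of_nonpos le_rfl, sub_zero, one_mul, zero_mul, add_zero]
      exact (hk t).symm
    · intro t
      simp only [k_of_one_le le_rfl, sub_self, one_mul, zero_mul, zero_add, hα1]
    · intro s
      simp only
      have e1 : k (0 : ℝ) = 0 := k_of_nonpos le_rfl
      have e2 : k (2 * 0 - 1 / 2 : ℝ) = 0 := k_of_nonpos (by norm_num)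
      rw [e1, e2, mul_zero, mul_zero, add_zero, h0]
    · intro s
      simp only
      have e1 : k (1 : ℝ) = 1 := k_of_one_le le_rfl
      have e2 : k (2 * 1 - 1 / 2 : ℝ) = 1 := k_of_one_le (by norm_num)
      rw [e1, e2, mul_one, mul_one, sub_add_cancel, h1]
  have c1 : Continuous α1 := hα.comp (by have := continuous_k; fun_prop)
  have n1 : ∀ t, α1 t ≠ 0 := fun t => hne _
  have l1 : ∀ t, t ≤ 1 / 4 → α1 t = y := fun t ht => by
    simp only [hα1]
    rw [k_of_nonpos (by linarith), h0]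
  have r1 : ∀ t, 3 / 4 ≤ t → α1 t = y := fun t ht => by
    simp only [hα1]
    rw [k_of_one_le (by linarith), h1]
  -- stage 2: smooth
  obtain ⟨g, cg, ag, eg, -⟩ := c1.exists_contDiff_approx_and_eqOn 1 (ε := fun t => ‖α1 t‖)
    c1.norm (fun t => norm_pos_iff.2 (n1 t)) (S := Iic (1 / 8) ∪ Ici (7 / 8))
    (U := Iio (1 / 4) ∪ Ioi (3 / 4)) (isClosed_Iic.union isClosed_Ici)
    ((isOpen_Iio.union isOpen_Ioi).mem_nhdsSet.2 (by
      rintro t (ht | ht)
      · exact Or.inl (lt_of_le_of_lt (mem_Iic.1 ht) (by norm_num))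
      · exact Or.inr (lt_of_lt_of_le (by norm_num) (mem_Ici.1 ht))))
    (contDiffOn_const (c := y) |>.congr (by
      rintro t (ht | ht)
      · exact l1 t (le_of_lt ht)
      · exact r1 t (le_of_lt ht)))
  have gy : ∀ t, t ≤ 1 / 8 ∨ 7 / 8 ≤ t → g t = y := by
    rintro t (ht | ht)
    · rw [eg (Or.inl ht), l1 t (by linarith)]
    · rw [eg (Or.inr ht), r1 t (by linarith)]
  have ng : ∀ t s : ℝ, 0 ≤ s → s ≤ 1 → (1 - s) • α1 t + s • g t ≠ 0 := by
    intro t s hs hs' he
    have h2 := ag t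
    rw [dist_eq_norm] at h2
    have h4 : α1 t = -(s • (g t - α1 t)) := by
      have : (1 - s) • α1 t + s • g t = α1 t + s • (g t - α1 t) := by
        rw [sub_smul, one_smul, smul_sub]; abel
      rw [this] at he
      exact eq_neg_of_add_eq_zero_left he
    have h5 : ‖α1 t‖ ≤ 1 * ‖g t - α1 t‖ := by
      rw [h4, norm_neg, norm_smul, Real.norm_of_nonneg hs]
      rw [← h4]
      gcongr
    linarith
  have s2 : NH y α1 g := by
    refine ⟨fun p => (1 - k p.2) • α1 p.1 + k p.2 • g p.1, ?_, ?_, ?_, ?_, ?_, ?_⟩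
    · have := continuous_k
      have hg := cg.continuous
      exact ((continuous_const.sub (by fun_prop)).smul (c1.comp continuous_fst)).add
        (Continuous.smul (by fun_prop) (hg.comp continuous_fst))
    · exact fun p => ng _ _ (k_mem _).1 (k_mem _).2
    · intro t; simp [k_of_nonpos le_rfl]
    · intro t; simp [k_of_one_le le_rfl]
    · intro s
      simp only
      rw [l1 0 (by norm_num), gy 0 (by norm_num), ← add_smul, sub_add_cancel, one_smul]
    · intro s
      simp only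
      rw [r1 1 (by norm_num), gy 1 (by norm_num), ← add_smul, sub_add_cancel, one_smul]
  have ng' : ∀ t, g t ≠ 0 := fun t => by simpa using ng t 1 zero_le_one le_rfl
  -- the direction
  obtain ⟨p, hp⟩ : ∃ p : E, ∀ t l : ℝ, (-l) • g t ≠ p := by
    have hF : ContDiff ℝ 1 fun q : ℝ × ℝ => (-q.2) • g q.1 :=
      (contDiff_snd.neg).smul (cg.comp contDiff_fst)
    have hd := hF.dense_compl_range_of_finrank_lt_finrank (by
      rw [Module.finrank_prod, Module.finrank_self]; omega)
    obtain ⟨p, hp⟩ := hd.nonempty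
    exact ⟨p, fun t l h => hp ⟨(t, l), h⟩⟩
  have np : ∀ t a : ℝ, 0 ≤ a → a ≤ 1 → (1 - a) • g t + a • p ≠ 0 := by
    intro t a ha ha' he
    rcases ha.eq_or_lt with rfl | h
    · simp only [sub_zero, one_smul, zero_smul, add_zero] at he
      exact ng' t he
    · refine hp t ((1 - a) / a) ?_
      have h6 : a • p = -((1 - a) • g t) := eq_neg_of_add_eq_zero_right he
      have h7 : p = a⁻¹ • (a • p) := by rw [smul_smul, inv_mul_cancel₀ h.ne', one_smul]
      rw [h7, h6, smul_neg, smul_smul, neg_smul]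
      congr 2
      field_simp
  -- the cone
  set φ : ℝ → ℝ := fun t => k (min (8 * t) (8 * (1 - t))) with hφ
  have cφ : Continuous φ := by have := continuous_k; fun_prop
  have φm : ∀ t, 0 ≤ φ t ∧ φ t ≤ 1 := fun t => k_mem _
  have φ0 : φ 0 = 0 := by
    simp only [hφ]
    exact k_of_nonpos ((min_le_left _ _).trans (by norm_num))
  have φ1 : φ 1 = 0 := by
    simp only [hφ]
    exact k_of_nonpos ((min_le_right _ _).trans (by norm_num))
  have φg : ∀ t, (1 - φ t) • g t = (1 - φ t) • y := by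
    intro t
    by_cases ht : t ≤ 1 / 8 ∨ 7 / 8 ≤ t
    · rw [gy t ht]
    · push Not at ht
      have : φ t = 1 := by
        simp only [hφ]
        exact k_of_one_le (le_min (by linarith) (by linarith))
      rw [this, sub_self, zero_smul, zero_smul]
  have s3 : NH y g fun t => (1 - φ t) • g t + φ t • p := by
    refine ⟨fun q => (1 - k q.2 * φ q.1) • g q.1 + (k q.2 * φ q.1) • p, ?_, ?_, ?_, ?_, ?_, ?_⟩
    · have := continuous_k
      have hg := cg.continuous
      have h8 : Continuous fun q : ℝ × ℝ => k q.2 * φ q.1 :=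
        (by fun_prop : Continuous fun q : ℝ × ℝ => k q.2).mul (cφ.comp continuous_fst)
      exact ((continuous_const.sub h8).smul (hg.comp continuous_fst)).add
        (h8.smul continuous_const)
    · intro q
      refine np _ _ (mul_nonneg (k_mem _).1 (φm _).1) ?_
      exact mul_le_one₀ (k_mem _).2 (φm _).1 (φm _).2
    · intro t; simp [k_of_nonpos le_rfl]
    · intro t; simp [k_of_one_le le_rfl]
    · intro s
      simp only
      rw [φ0, mul_zero, sub_zero, one_smul, zero_smul, add_zero, gy 0 (by norm_num)]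
    · intro s
      simp only
      rw [φ1, mul_zero, sub_zero, one_smul, zero_smul, add_zero, gy 1 (by norm_num)]
  have s4 : NH y (fun t => (1 - φ t) • g t + φ t • p) fun _ => y := by
    refine ⟨fun q => (1 - k (1 - q.2) * φ q.1) • y + (k (1 - q.2) * φ q.1) • p, ?_, ?_, ?_, ?_,
      ?_, ?_⟩
    · have := continuous_k
      have h8 : Continuous fun q : ℝ × ℝ => k (1 - q.2) * φ q.1 :=
        (by fun_prop : Continuous fun q : ℝ × ℝ => k (1 - q.2)).mul (cφ.comp continuous_fst)
      exact ((continuous_const.sub h8).smul continuous_const).add (h8.smul continuous_const)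
    · intro q
      have := np 0 (k (1 - q.2) * φ q.1) (mul_nonneg (k_mem _).1 (φm _).1)
        (mul_le_one₀ (k_mem _).2 (φm _).1 (φm _).2)
      rwa [gy 0 (by norm_num)] at this
    · intro t
      simp only [sub_zero, k_of_one_le le_rfl, one_mul]
      rw [φg]
    · intro t; simp [k_of_nonpos le_rfl]
    · intro s
      simp only
      rw [φ0, mul_zero, sub_zero, one_smul, zero_smul, add_zero]
    · intro s
      simp only
      rw [φ1, mul_zero, sub_zero, one_smul, zero_smul, add_zero]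
  exact ((s1.trans s2).trans s3).trans s4

end Crest.Agent.R267.FBa_118
end

-- ▼ part R267/FB_118
section

/-!
# FB (row 267, leaf B4 of DRAFT B)

Freely homotopic admissible maps in rest form are homotopic rel the rest part, if `1 ≤ n`.
-/

set_option autoImplicit false

namespace Crest.Agent.R267.FB_118

open Set Metric
open scoped RealInnerProductSpace
open Crest.Agent.R267.GS_808 Crest.Agent.R267.DraftB_808 Crest.Agent.R267.Norm_855
open Crest.Agent.R267.FBa_118

/-! ### `BH` is an equivalence relation -/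

section BH

variable {n : ℕ} {y : Vc (n + 2)} {f g h : Bc (n + 2) → Vc (n + 2)}

theorem BH.symm' (H : BH n y f g) : BH n y g f := by
  obtain ⟨F, cF, nF, hF, rF, F0, F1⟩ := H
  refine ⟨fun p => F (1 - p.1, p.2), cF.comp (by fun_prop), fun p => nF _,
    fun t u hu => hF _ _ hu, fun t u hu => rF _ _ hu, fun u => ?_, fun u => ?_⟩
  · simp only [sub_zero]; exact F1 u
  · simp only [sub_self]; exact F0 u

theorem BH.trans' (H : BH n y f g) (H' : BH n y g h) : BH n y f h := by
  obtain ⟨F, cF, nF, hF, rF, F0, F1⟩ := H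
  obtain ⟨G, cG, nG, hG, rG, G0, G1⟩ := H'
  refine ⟨fun p => if p.1 ≤ 1 / 2 then F (2 * p.1, p.2) else G (2 * p.1 - 1, p.2), ?_, ?_, ?_,
    ?_, ?_, ?_⟩
  · refine Continuous.if_le (cF.comp (by fun_prop)) (cG.comp (by fun_prop)) continuous_fst
      continuous_const fun p hp => ?_
    have : 2 * p.1 = 1 := by linarith
    rw [this, F1, sub_self, G0]
  · intro p
    simp only
    split_ifs
    · exact nF _
    · exact nG _
  · intro t u hu
    simp only
    split_ifs
    · exact hF _ _ hu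
    · exact hG _ _ hu
  · intro t u hu
    simp only
    split_ifs
    · exact rF _ _ hu
    · exact rG _ _ hu
  · intro u
    simp only
    rw [if_pos (by norm_num), mul_zero, F0]
  · intro u
    simp only
    rw [if_neg (by norm_num)]
    norm_num
    exact G1 u

end BH

/-! ### the enlargement of the cube -/

section kap

variable {n : ℕ}

/-- clamp to `[-1,1]` -/
noncomputable def c1 (t : ℝ) : ℝ := max (-1) (min 1 t)

theorem continuous_c1 : Continuous c1 := by unfold c1; fun_prop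

theorem abs_c1_le (t : ℝ) : |c1 t| ≤ 1 := by
  rw [c1, abs_le]
  exact ⟨le_max_left _ _, max_le (by norm_num) (min_le_left _ _)⟩

theorem c1_of_ge {t : ℝ} (h : 1 ≤ t) : c1 t = 1 := by
  rw [c1, min_eq_left h, max_eq_right (by norm_num)]

theorem c1_of_le {t : ℝ} (h : t ≤ -1) : c1 t = -1 := by
  rw [c1, min_eq_right (by linarith), max_eq_left h]

/-- the enlargement -/
noncomputable def kap (u : Bc (n + 1)) : Bc (n + 1) :=
  fun i => if i = 0 then c1 ((4 * u 0 + 1) / 3) else c1 (2 * u i)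

theorem continuous_kap : Continuous (kap (n := n)) := by
  have := continuous_c1
  refine continuous_pi fun i => ?_
  by_cases hi : i = 0
  · simp only [kap, if_pos hi]; fun_prop
  · simp only [kap, if_neg hi]; fun_prop

theorem kap_zero (u : Bc (n + 1)) : kap u 0 = c1 ((4 * u 0 + 1) / 3) := if_pos rfl
theorem kap_ne (u : Bc (n + 1)) {i : Fin (n + 1)} (hi : i ≠ 0) : kap u i = c1 (2 * u i) :=
  if_neg hi

theorem norm_kap_le (u : Bc (n + 1)) : ‖kap u‖ ≤ 1 := by
  refine (pi_norm_le_iff_of_nonneg zero_le_one).2 fun i => ?_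
  by_cases hi : i = 0
  · rw [hi, kap_zero]; exact abs_c1_le _
  · rw [kap_ne u hi]; exact abs_c1_le _

theorem exists_coord {u : Bc (n + 1)} (hu : 1 ≤ ‖u‖) : ∃ i, 1 ≤ |u i| := by
  by_contra hc
  push Not at hc
  have : ‖u‖ < 1 := (pi_norm_lt_iff zero_lt_one).2 fun i => by
    rw [Real.norm_eq_abs]; exact hc i
  linarith

theorem rest_iff {u : Bc (n + 1)} : RestAt u ↔ 1 ≤ rho u := by
  constructor
  · rintro (h | ⟨i, hi, h⟩)
    · exact h.trans (le_max_right _ _)
    · obtain ⟨j, rfl⟩ := Fin.exists_succ_eq.2 hi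
      exact (h.trans (norm_le_pi_norm (fun i : Fin n => u i.succ) j)).trans (le_max_left _ _)
  · intro h
    rcases le_max_iff.1 h with h | h
    · have : ∃ i : Fin n, 1 ≤ |u i.succ| := by
        by_contra hc
        push Not at hc
        have : ‖fun i : Fin n => u i.succ‖ < 1 := (pi_norm_lt_iff zero_lt_one).2 fun i => by
          rw [Real.norm_eq_abs]; exact hc i
        linarith
      obtain ⟨i, hi⟩ := this
      exact Or.inr ⟨i.succ, Fin.succ_ne_zero i, hi⟩
    · exact Or.inl h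

theorem rest_of_half {u : Bc (n + 1)} (h : 1 / 2 < rho u) : RestAt (kap u) := by
  rcases lt_max_iff.1 h with h | h
  · have : ∃ i : Fin n, 1 / 2 < |u i.succ| := by
      by_contra hc
      push Not at hc
      have : ‖fun i : Fin n => u i.succ‖ ≤ 1 / 2 :=
        (pi_norm_le_iff_of_nonneg (by norm_num)).2 fun i => by
          rw [Real.norm_eq_abs]; exact hc i
      linarith
    obtain ⟨i, hi⟩ := this
    refine Or.inr ⟨i.succ, Fin.succ_ne_zero i, ?_⟩
    rw [kap_ne u (Fin.succ_ne_zero i)]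
    rcases lt_abs.1 hi with h | h
    · rw [c1_of_ge (by linarith), abs_one]
    · rw [c1_of_le (by linarith), abs_neg, abs_one]
  · left
    rw [kap_zero, c1_of_ge (by linarith)]

/-- straight line homotopy from the identity to `kap` -/
noncomputable def lin (t : ℝ) (u : Bc (n + 1)) : Bc (n + 1) := (1 - k t) • u + k t • kap u

theorem continuous_lin : Continuous fun p : ℝ × Bc (n + 1) => lin p.1 p.2 := by
  have h1 := continuous_k
  have h2 := continuous_kap (n := n)
  unfold lin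
  have h3 : Continuous fun p : ℝ × Bc (n + 1) => k p.1 := h1.comp continuous_fst
  exact ((continuous_const.sub h3).smul continuous_snd).add
    (h3.smul (h2.comp continuous_snd))

theorem lin_apply (t : ℝ) (u : Bc (n + 1)) (i : Fin (n + 1)) :
    lin t u i = (1 - k t) * u i + k t * kap u i := rfl

theorem lin_ge {t : ℝ} {u : Bc (n + 1)} {i : Fin (n + 1)} (h : 1 ≤ u i) (h' : kap u i = 1) :
    1 ≤ lin t u i := by
  have h1 := k_mem t
  rw [lin_apply, h']
  nlinarith [mul_nonneg (sub_nonneg.2 h1.2) (sub_nonneg.2 h)]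

theorem lin_le {t : ℝ} {u : Bc (n + 1)} {i : Fin (n + 1)} (h : u i ≤ -1) (h' : kap u i = -1) :
    lin t u i ≤ -1 := by
  have h1 := k_mem t
  rw [lin_apply, h']
  nlinarith [mul_nonneg (sub_nonneg.2 h1.2) (sub_nonneg.2 h)]

theorem lin_abs {t : ℝ} {u : Bc (n + 1)} {i : Fin (n + 1)} (h : 1 ≤ |u i|) : 1 ≤ |lin t u i| := by
  rcases le_abs.1 h with h | h
  · refine (lin_ge h ?_).trans (le_abs_self _)
    by_cases hi : i = 0
    · rw [hi] at h ⊢
      rw [kap_zero, c1_of_ge (by linarith)]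
    · rw [kap_ne u hi, c1_of_ge (by linarith)]
  · have : lin t u i ≤ -1 := by
      refine lin_le (by linarith) ?_
      by_cases hi : i = 0
      · rw [hi] at h ⊢
        rw [kap_zero, c1_of_le (by linarith)]
      · rw [kap_ne u hi, c1_of_le (by linarith)]
    have := neg_le_abs (lin t u i)
    linarith

theorem lin_rest {t : ℝ} {u : Bc (n + 1)} (h : RestAt u) : RestAt (lin t u) := by
  rcases h with h | ⟨i, hi, h⟩
  · left
    refine lin_ge h ?_
    rw [kap_zero, c1_of_ge (by linarith)]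
  · exact Or.inr ⟨i, hi, lin_abs h⟩

theorem lin_norm {t : ℝ} {u : Bc (n + 1)} (h : 1 ≤ ‖u‖) : 1 ≤ ‖lin t u‖ := by
  obtain ⟨i, hi⟩ := exists_coord h
  exact (lin_abs hi).trans (norm_le_pi_norm (lin t u) i)

theorem norm_kap {u : Bc (n + 1)} (h : 1 ≤ ‖u‖) : ‖kap u‖ = 1 := by
  refine le_antisymm (norm_kap_le u) ?_
  have := lin_norm (t := 1) h
  rwa [lin, k_of_one_le le_rfl, sub_self, zero_smul, zero_add, one_smul] at this

/-- `cn` preserves the rest part of the unit sphere -/
theorem cn_rest {t : ℝ} (ht : t ∈ Icc (0 : ℝ) 1) {u : Bc (n + 1)} (hu : ‖u‖ = 1)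
    (hr : rho u = 1) : RestAt (cn t u) := by
  have hw0 : cw t u = (1 - t) • u + t • e0 := by simp [cw, hu, hr]
  have hne : cw t u ≠ 0 := cw_ne ht (norm_pos_iff.1 (by rw [hu]; norm_num))
  set w := cw t u with hw
  have w0 : w 0 = (1 - t) * u 0 + t := by
    rw [hw0]; simp [e0_zero]
  have ws : ∀ i : Fin n, w i.succ = (1 - t) * u i.succ := by
    intro i; rw [hw0]; simp [e0_ne (Fin.succ_ne_zero i)]
  have ht0 := ht.1
  have ht1 : 0 ≤ 1 - t := sub_nonneg.2 ht.2
  have key : ‖w‖ ≤ rho w := by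
    refine (pi_norm_le_iff_of_nonneg (rho_nonneg w)).2 fun i => ?_
    refine Fin.cases ?_ (fun i => ?_) i
    · rw [Real.norm_eq_abs, abs_le]
      refine ⟨?_, le_max_right _ _⟩
      by_cases h0 : 0 ≤ w 0
      · have := rho_nonneg w; linarith
      · push Not at h0
        have hu0 : u 0 < 0 := by
          by_contra hc
          push Not at hc
          have := mul_nonneg ht1 hc
          linarith
        have hb : -1 ≤ u 0 := by
          have := norm_le_pi_norm u 0
          rw [hu, Real.norm_eq_abs, abs_le] at this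
          exact this.1
        have htl : ‖fun i : Fin n => u i.succ‖ = 1 := by
          have : rho u = ‖fun i : Fin n => u i.succ‖ :=
            max_eq_left (hu0.le.trans (norm_nonneg _))
          rw [← this, hr]
        have htw : (fun i : Fin n => w i.succ) = (1 - t) • fun i : Fin n => u i.succ := by
          funext i; exact ws i
        have h1 : 1 - t ≤ rho w := by
          have : ‖fun i : Fin n => w i.succ‖ = 1 - t := by
            rw [htw, norm_smul, htl, mul_one, Real.norm_of_nonneg ht1]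
          rw [← this]
          exact le_max_left _ _
        nlinarith
    · exact (norm_le_pi_norm (fun i : Fin n => w i.succ) i).trans (le_max_left _ _)
  have hpos : 0 < ‖w‖ := norm_pos_iff.2 hne
  rw [rest_iff]
  have h2 : cn t u = (1 / ‖w‖) • w := by rw [cn, hu]
  have h3 : rho (cn t u) = (1 / ‖w‖) * rho w := by
    rw [h2]
    have hc : 0 ≤ 1 / ‖w‖ := by positivity
    unfold rho
    rw [mul_max_of_nonneg _ _ hc]
    congr 1
    have : (fun i : Fin n => ((1 / ‖w‖) • w) i.succ) = (1 / ‖w‖) • fun i : Fin n => w i.succ := rfl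
    rw [this, norm_smul, Real.norm_of_nonneg hc]
  rw [h3, one_div, ← div_eq_inv_mul, le_div_iff₀ hpos, one_mul]
  exact key

end kap

/-! ### the theorem -/

variable {n : ℕ}

theorem bh_kap {y : Vc (n + 2)} {f : Bc (n + 2) → Vc (n + 2)} (hf : Adm (n + 2) f)
    (rf : IsRest y f) : BH n y f fun u => f (kap u) := by
  refine ⟨fun p => f (lin p.1 p.2), hf.cont.comp continuous_lin, fun p => hf.ne _,
    fun t u hu => hf.hor _ (lin_norm hu), fun t u hu => rf _ (lin_rest hu), fun u => ?_,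
    fun u => ?_⟩
  · show f (lin 0 u) = f u
    rw [lin, k_of_nonpos le_rfl, sub_zero, one_smul, zero_smul, add_zero]
  · show f (lin 1 u) = f (kap u)
    rw [lin, k_of_one_le le_rfl, sub_self, zero_smul, zero_add, one_smul]

/-- the parameter of the collar -/
noncomputable def sp (u : Bc (n + 2)) : ℝ := k (2 * rho u - 1)

theorem continuous_sp : Continuous (sp (n := n)) := by
  have h1 := continuous_k
  have h2 := continuous_rho (n := n + 1)
  unfold sp
  exact h1.comp ((continuous_const.mul h2).sub continuous_const)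

theorem sp_pos {u : Bc (n + 2)} (h : 0 < sp u) : RestAt (kap u) := by
  refine rest_of_half ?_
  by_contra hc
  push Not at hc
  rw [sp, k_of_nonpos (by linarith)] at h
  exact lt_irrefl _ h

theorem sp_rest {u : Bc (n + 2)} (h : RestAt u) : sp u = 1 :=
  k_of_one_le (by have := rest_iff.1 h; linarith)

theorem rho_of_rest {u : Bc (n + 2)} (h : RestAt u) (hu : ‖u‖ ≤ 1) : rho u = 1 :=
  le_antisymm ((rho_le u).trans hu) (rest_iff.1 h)

/-- the loop of values at `e0` is contractible in `H \ 0` -/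
theorem loop (hn : 1 ≤ n) {y : Vc (n + 2)} (a : ℝ → Vc (n + 2)) (ca : Continuous a)
    (na : ∀ t, a t ≠ 0) (ha : ∀ t, ⟪ec (n + 2), a t⟫ = 0) (ka : ∀ t, a t = a (k t))
    (a0 : a 0 = y) (a1 : a 1 = y) :
    ∃ A : ℝ × ℝ → Vc (n + 2), Continuous A ∧ (∀ p, A p ≠ 0) ∧
      (∀ p, ⟪ec (n + 2), A p⟫ = 0) ∧ (∀ t, A (t, 0) = a t) ∧ (∀ t, A (t, 1) = y) ∧
      (∀ s, A (0, s) = y) ∧ ∀ s, A (1, s) = y := by
  let E : Submodule ℝ (Vc (n + 2)) := (ℝ ∙ ec (n + 2))ᗮ
  have memE : ∀ v, v ∈ E ↔ ⟪ec (n + 2), v⟫ = 0 := fun v =>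
    Submodule.mem_orthogonal_singleton_iff_inner_right
  have hE3 : 3 ≤ Module.finrank ℝ E := by
    have : Fact (Module.finrank ℝ (Vc (n + 2)) = (n + 2) + 1) := ⟨by
      rw [finrank_euclideanSpace, Fintype.card_fin]⟩
    have h := Submodule.finrank_orthogonal_span_singleton (𝕜 := ℝ) (n := n + 2)
      (v := ec (n + 2)) (by
        intro h
        have := congrArg norm h
        simp [ec] at this)
    show 3 ≤ Module.finrank ℝ (ℝ ∙ ec (n + 2))ᗮ
    rw [h]
    omega
  have hαm : ∀ t, a t ∈ E := fun t => (memE _).2 (ha t)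
  have hym : y ∈ E := a0 ▸ hαm 0
  have hA : NH (⟨y, hym⟩ : E) (fun t => (⟨a t, hαm t⟩ : E)) fun _ => ⟨y, hym⟩ := by
    refine sc hE3 _ (ca.subtype_mk _) ?_ ?_ ?_ ?_
    · intro t h
      exact na _ (congrArg Subtype.val h)
    · intro t
      exact Subtype.ext (ka t)
    · exact Subtype.ext a0
    · exact Subtype.ext a1
  obtain ⟨A, cA, nA, A0, A1, Al, Ar⟩ := hA
  refine ⟨fun p => (A p : Vc (n + 2)), continuous_subtype_val.comp cA,
    fun p h => nA _ (Subtype.ext h), fun p => (memE _).1 (A p).2, fun t => ?_, fun t => ?_,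
    fun s => ?_, fun s => ?_⟩
  · simp only [A0]
  · simp only [A1]
  · simp only [Al]
  · simp only [Ar]

/-- the contraction of the enlarged collar -/
noncomputable def cs (u : Bc (n + 2)) : Bc (n + 2) := cn (k (2 * sp u)) (kap u)

theorem continuous_cs : Continuous (cs (n := n)) := by
  have h1 : Continuous fun u : Bc (n + 2) => (k (2 * sp u), kap u) :=
    (continuous_k.comp (continuous_const.mul continuous_sp)).prodMk continuous_kap
  have h2 : ∀ u : Bc (n + 2), (k (2 * sp u), kap u) ∈ Icc (0 : ℝ) 1 ×ˢ (univ : Set (Bc (n + 2))) :=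
    fun u => mk_mem_prod (k_mem (2 * sp u)) (mem_univ (kap u))
  have h3 := ContinuousOn.comp_continuous (continuousOn_cn (n := n + 1)) h1 h2
  exact h3

theorem norm_cs (u : Bc (n + 2)) : ‖cs u‖ = ‖kap u‖ := norm_cn (k_mem (2 * sp u)) _

theorem cs_zero {u : Bc (n + 2)} (hu : sp u = 0) : cs u = kap u := by
  rw [cs, hu, mul_zero, k_of_nonpos le_rfl, cn_zero]

theorem cs_half {u : Bc (n + 2)} (hu : sp u = 1 / 2) : cs u = e0 := by
  have h3 : 0 < sp u := by rw [hu]; norm_num
  rw [cs, hu, k_of_one_le (by norm_num)]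
  exact cn_one (le_antisymm (norm_kap_le _) (rest_norm (sp_pos h3)))
    (rho_of_rest (sp_pos h3) (norm_kap_le _))

theorem cs_rest {u : Bc (n + 2)} (hu : 0 < sp u) : RestAt (cs u) :=
  cn_rest (k_mem _) (le_antisymm (norm_kap_le u) (rest_norm (sp_pos hu)))
    (rho_of_rest (sp_pos hu) (norm_kap_le u))

theorem cl_cs (u : Bc (n + 2)) : cl (cs u) = cs u := cl_of_le ((norm_cs u).le.trans (norm_kap_le u))

theorem rest_cs {y : Vc (n + 2)} {q : Bc (n + 2) → Vc (n + 2)} (rq : IsRest y q)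
    (u : Bc (n + 2)) : q (cs u) = q (kap u) := by
  rcases ((k_mem (2 * rho u - 1)).1.eq_or_lt : 0 = sp u ∨ 0 < sp u) with h | h
  · rw [cs_zero h.symm]
  · rw [rq _ (cs_rest h), rq _ (sp_pos h)]

/-- the middle homotopy -/
theorem mid {y : Vc (n + 2)} {f g : Bc (n + 2) → Vc (n + 2)} (rf : IsRest y f) (rg : IsRest y g)
    (F : ℝ × Bc (n + 2) → Vc (n + 2)) (cF : Continuous F) (nF : ∀ p, F p ≠ 0)
    (hF : ∀ t u, 1 ≤ ‖u‖ → ⟪ec (n + 2), F (t, u)⟫ = 0) (F0 : ∀ u, F (0, u) = f (cl u))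
    (F1 : ∀ u, F (1, u) = g (cl u)) (A : ℝ × ℝ → Vc (n + 2)) (cA : Continuous A)
    (nA : ∀ p, A p ≠ 0) (hA : ∀ p, ⟪ec (n + 2), A p⟫ = 0) (A0 : ∀ t, A (t, 0) = F (t, e0))
    (A1 : ∀ t, A (t, 1) = y) (Al : ∀ s, A (0, s) = y) (Ar : ∀ s, A (1, s) = y) :
    BH n y (fun u => f (kap u)) fun u => g (kap u) := by
  refine ⟨fun p => if sp p.2 ≤ 1 / 2 then F (p.1, cs p.2) else A (p.1, 2 * sp p.2 - 1),
    ?_, ?_, ?_, ?_, ?_, ?_⟩
  · have h1 : Continuous fun p : ℝ × Bc (n + 2) => F (p.1, cs p.2) :=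
      cF.comp (continuous_fst.prodMk (continuous_cs.comp continuous_snd))
    have h2 : Continuous fun p : ℝ × Bc (n + 2) => sp p.2 := continuous_sp.comp continuous_snd
    have h3 : Continuous fun p : ℝ × Bc (n + 2) => A (p.1, 2 * sp p.2 - 1) :=
      cA.comp (continuous_fst.prodMk ((continuous_const.mul h2).sub continuous_const))
    refine Continuous.if_le h1 h3 h2 continuous_const fun p hp => ?_
    rw [cs_half hp, hp, ← A0]
    norm_num
  · intro p
    simp only
    split_ifs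
    · exact nF _
    · exact nA _
  · intro t u hu
    simp only
    split_ifs
    · exact hF _ _ (by rw [norm_cs, norm_kap hu])
    · exact hA _
  · intro t u hu
    simp only
    rw [sp_rest hu, if_neg (by norm_num)]
    norm_num
    exact A1 t
  · intro u
    simp only
    split_ifs with h
    · rw [F0, cl_cs, rest_cs rf]
    · rw [Al]
      exact (rf _ (sp_pos (by push Not at h; linarith))).symm
  · intro u
    simp only
    split_ifs with h
    · rw [F1, cl_cs, rest_cs rg]
    · rw [Ar]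
      exact (rg _ (sp_pos (by push Not at h; linarith))).symm

/-- **FB** (leaf B4): freely homotopic maps in rest form are homotopic rel rest. -/
theorem fbProp (hn : 1 ≤ n) : FBProp n := by
  intro y f g hf hg rf rg hFH
  obtain ⟨F0, cF0, nF0, hF0, F00, F01⟩ := hFH
  set F : ℝ × Bc (n + 2) → Vc (n + 2) := fun p => F0 (k p.1, cl p.2) with hF
  have mem : ∀ p : ℝ × Bc (n + 2),
      (k p.1, cl p.2) ∈ Icc (0 : ℝ) 1 ×ˢ closedBall (0 : Bc (n + 2)) 1 :=
    fun p => ⟨k_mem _, mem_closedBall_zero_iff.2 (norm_cl_le _)⟩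
  have cF : Continuous F := cF0.comp_continuous
    ((continuous_k.comp continuous_fst).prodMk (continuous_cl.comp continuous_snd)) mem
  have nF : ∀ p, F p ≠ 0 := fun p => nF0 _ (k_mem _) _ (norm_cl_le _)
  have hhF : ∀ t u, 1 ≤ ‖u‖ → ⟪ec (n + 2), F (t, u)⟫ = 0 := fun t u hu =>
    hF0 _ (k_mem _) _ (norm_cl hu)
  have F0f : ∀ u, F (0, u) = f (cl u) := fun u => by
    show F0 (k 0, cl u) = _
    rw [k_of_nonpos le_rfl, F00 _ (norm_cl_le _)]
  have F1g : ∀ u, F (1, u) = g (cl u) := fun u => by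
    show F0 (k 1, cl u) = _
    rw [k_of_one_le le_rfl, F01 _ (norm_cl_le _)]
  have re0 : RestAt (e0 : Bc (n + 2)) := Or.inl e0_zero.ge
  have cle0 : cl (e0 : Bc (n + 2)) = e0 := cl_of_le norm_e0.le
  obtain ⟨A, cA, nA, hA, A0, A1, Al, Ar⟩ := loop hn (y := y) (fun t => F (t, e0))
    (cF.comp (continuous_id.prodMk continuous_const)) (fun t => nF _)
    (fun t => hhF t e0 norm_e0.ge) (fun t => by
      show F0 (k t, cl e0) = F0 (k (k t), cl e0)
      rw [k_of_mem (k_mem t).1 (k_mem t).2])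
    (by
      show F (0, e0) = y
      rw [F0f, cle0, rf _ re0])
    (by
      show F (1, e0) = y
      rw [F1g, cle0, rg _ re0])
  exact BH.trans' (BH.trans' (bh_kap hf rf)
    (mid rf rg F cF nF hhF F0f F1g A cA nA hA A0 A1 Al Ar)) (BH.symm' (bh_kap hg rg))

end Crest.Agent.R267.FB_118
end

-- ▼ part R267/TypG_527
section

/-!
# `TypProp n` from `FBProp n` (row 267, TB-B5)

Rest forms with rest value `hc` are elements of `π_{n+1}` of the space of paths in `V \ 0` from
the horizontal hyperplane to `hc`; `cat`, `rev` are the product and the inverse.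
-/

set_option autoImplicit false

namespace Crest.Agent.R267.TypG_527

open Set Metric
open scoped RealInnerProductSpace unitInterval Topology
open Crest.Agent.R267.GS_808 Crest.Agent.R267.DraftB_808 Crest.Agent.R267.LemR_224

noncomputable section

/-! ### changing the rest value -/

section lin

variable {n : ℕ}

/-- the linear map `c Rf b Rf y`. -/
def Li (y b : Vc (n + 2)) (c : ℝ) (v : Vc (n + 2)) : Vc (n + 2) := c • Rf b (Rf y v)

lemma rf_rf {V : Type*} [NormedAddCommGroup V] [InnerProductSpace ℝ V] {w v : V} (hw : w ≠ 0) :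
    Rf w (Rf w v) = v := by
  have h : ‖w‖ ^ 2 ≠ 0 := pow_ne_zero 2 (norm_ne_zero_iff.2 hw)
  have h1 : ⟪Rf w v, w⟫ = -⟪v, w⟫ := by
    rw [Rf, inner_sub_left, inner_smul_left, real_inner_self_eq_norm_sq]
    simp only [conj_trivial]
    field_simp
    ring
  rw [Rf, h1, Rf]
  module

lemma rf_self {V : Type*} [NormedAddCommGroup V] [InnerProductSpace ℝ V] {w : V} (hw : w ≠ 0) :
    Rf w w = -w := by
  have h : ‖w‖ ^ 2 ≠ 0 := pow_ne_zero 2 (norm_ne_zero_iff.2 hw)
  rw [Rf, real_inner_self_eq_norm_sq, mul_div_assoc, div_self h]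
  module

lemma rf_hor {w v : Vc (n + 2)} (hw : ⟪ec (n + 2), w⟫ = 0) (hv : ⟪ec (n + 2), v⟫ = 0) :
    ⟪ec (n + 2), Rf w v⟫ = 0 := by
  rw [Rf, inner_sub_right, inner_smul_right, hw, hv, mul_zero, sub_zero]

lemma li_ne {y b : Vc (n + 2)} {c : ℝ} (hc : c ≠ 0) {v : Vc (n + 2)} (hv : v ≠ 0) :
    Li y b c v ≠ 0 := smul_ne_zero hc (rf_ne (rf_ne hv))

lemma li_hor {y b : Vc (n + 2)} {c : ℝ} (hy : ⟪ec (n + 2), y⟫ = 0) (hb : ⟪ec (n + 2), b⟫ = 0)
    {v : Vc (n + 2)} (hv : ⟪ec (n + 2), v⟫ = 0) : ⟪ec (n + 2), Li y b c v⟫ = 0 := by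
  rw [Li, inner_smul_right, rf_hor hb (rf_hor hy hv), mul_zero]

lemma continuous_li {y b : Vc (n + 2)} {c : ℝ} (hy : y ≠ 0) (hb : b ≠ 0) :
    Continuous (Li y b c) :=
  (continuous_rf (f := fun _ => b) continuous_const
    (continuous_rf (f := fun _ => y) continuous_const continuous_id fun _ => hy)
      fun _ => hb).const_smul c

lemma fh_li {y b : Vc (n + 2)} {c : ℝ} (hc : 0 < c) (hy : ⟪ec (n + 2), y⟫ = 0) (hy0 : y ≠ 0)
    (hb : ⟪ec (n + 2), b⟫ = 0) (hseg : ∀ t ∈ Icc (0 : ℝ) 1, (1 - t) • y + t • b ≠ 0)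
    {f : Bc (n + 2) → Vc (n + 2)} (cf : ContinuousOn f (closedBall 0 1))
    (nf : ∀ u, ‖u‖ ≤ 1 → f u ≠ 0) (hf : ∀ u, ‖u‖ = 1 → ⟪ec (n + 2), f u⟫ = 0) :
    FH (ec (n + 2)) f (fun u => Li y b c (f u)) := by
  have hpos : ∀ t ∈ Icc (0 : ℝ) 1, 0 < 1 - t + t * c := by
    intro t ht
    rcases eq_or_lt_of_le ht.1 with h | h
    · rw [← h]; norm_num
    · have := mul_pos h hc
      linarith [ht.2]
  refine ⟨fun p => (1 - p.1 + p.1 * c) • Rf ((1 - p.1) • y + p.1 • b) (Rf y (f p.2)),
    ?_, ?_, ?_, ?_, ?_⟩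
  · refine ContinuousOn.smul (f := fun p : ℝ × Bc (n + 2) => 1 - p.1 + p.1 * c)
      (Continuous.continuousOn (by fun_prop)) ?_
    refine continuousOn_rf (f := fun p : ℝ × Bc (n + 2) => (1 - p.1) • y + p.1 • b)
      (Continuous.continuousOn (by fun_prop)) ?_ ?_
    · refine continuousOn_rf continuousOn_const ?_ fun _ _ => hy0
      exact cf.comp continuousOn_snd fun p hp => hp.2
    · rintro ⟨t, u⟩ ⟨ht, -⟩
      exact hseg t ht
  · intro t ht u hu
    exact smul_ne_zero (hpos t ht).ne' (rf_ne (rf_ne (nf u hu)))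
  · intro t ht u hu
    have h1 : ⟪ec (n + 2), (1 - t) • y + t • b⟫ = 0 := by
      rw [inner_add_right, inner_smul_right, inner_smul_right, hy, hb]; simp
    show ⟪ec (n + 2), (1 - t + t * c) • Rf ((1 - t) • y + t • b) (Rf y (f u))⟫ = 0
    rw [inner_smul_right, rf_hor h1 (rf_hor hy (hf u hu)), mul_zero]
  · intro u _
    simp only [sub_zero, zero_mul, add_zero, one_smul, zero_smul]
    exact rf_rf hy0
  · intro u _
    simp only [sub_self, one_mul, zero_add, one_smul, zero_smul]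
    rfl

lemma hc_zero' : (hc (n + 1) : Vc (n + 2)) 0 = 1 := by simp [hc]

lemma norm_hc : ‖(hc (n + 1) : Vc (n + 2))‖ = 1 := by simp [hc]

lemma sc_zero : (sc n : Vc (n + 2)) 0 = 0 := by
  have : (sc n : Vc (n + 2)) (Fin.castSucc 0) = 0 := sc_castSucc (by simp)
  simpa using this

/-- a linear map moving `y` to `hc`, homotopic to the identity. -/
theorem exists_li {y : Vc (n + 2)} (hy : ⟪ec (n + 2), y⟫ = 0) (hy0 : y ≠ 0) :
    ∃ (b : Vc (n + 2)) (c : ℝ), 0 < c ∧ ⟪ec (n + 2), b⟫ = 0 ∧ b ≠ 0 ∧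
      (∀ t ∈ Icc (0 : ℝ) 1, (1 - t) • y + t • b ≠ 0) ∧ Li y b c y = hc (n + 1) := by
  have hyn : 0 < ‖y‖ := norm_pos_iff.2 hy0
  have hhc : ⟪ec (n + 2), hc (n + 1)⟫ = 0 := ec_hc
  have hns : ‖(hc (n + 1) : Vc (n + 2))‖ = 1 := norm_hc
  by_cases h : y + ‖y‖ • hc (n + 1) = 0
  · have hy' : y = -(‖y‖ • hc (n + 1)) := eq_neg_of_add_eq_zero_left h
    refine ⟨sc n, ‖y‖⁻¹, inv_pos.2 hyn, ec_sc, sc_ne, ?_, ?_⟩
    · intro t ht h0
      have h1 := congrArg (fun v : Vc (n + 2) => v 0) h0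
      simp only [PiLp.add_apply, PiLp.smul_apply, sc_zero, PiLp.zero_apply, smul_eq_mul,
        mul_zero, add_zero] at h1
      have h2 : y 0 = -‖y‖ := by
        rw [hy']
        simp [hc_zero', hns, norm_smul]
      rw [h2] at h1
      have h3 : t = 1 := by
        rcases mul_eq_zero.1 h1 with h4 | h4
        · linarith
        · linarith
      rw [h3] at h0
      simp only [sub_self, zero_smul, one_smul, zero_add] at h0
      exact sc_ne h0
    · have h1 : ⟪(-y : Vc (n + 2)), sc n⟫ = 0 := by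
        rw [hy', neg_neg, inner_smul_left, sc, EuclideanSpace.inner_single_right]
        simp [hc]
      rw [Li, rf_self hy0, rf_of_orth h1]
      have h2 : -y = ‖y‖ • hc (n + 1) := by rw [eq_comm]; exact (neg_eq_of_add_eq_zero_right h).symm
      rw [h2, smul_smul, inv_mul_cancel₀ hyn.ne', one_smul]
  · refine ⟨y + ‖y‖ • hc (n + 1), ‖y‖⁻¹, inv_pos.2 hyn, ?_, h, ?_, ?_⟩
    · rw [inner_add_right, inner_smul_right, hy, hhc, mul_zero, add_zero]
    · intro t ht h0
      have h1 : y + (t * ‖y‖) • hc (n + 1) = 0 := by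
        rw [← h0]; module
      have h2 : ‖y‖ = t * ‖y‖ := by
        have h3 : y = -((t * ‖y‖) • hc (n + 1)) := eq_neg_of_add_eq_zero_left h1
        conv_lhs => rw [h3]
        rw [norm_neg, norm_smul, hns, mul_one, Real.norm_eq_abs,
          abs_of_nonneg (mul_nonneg ht.1 hyn.le)]
      have h4 : t = 1 := by
        have := mul_right_cancel₀ hyn.ne' (h2.symm.trans (one_mul _).symm)
        exact this
      rw [h4, one_mul] at h1
      exact h h1
    · set z : Vc (n + 2) := hc (n + 1) with hz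
      have e1 : ⟪y, y⟫ = ‖y‖ ^ 2 := real_inner_self_eq_norm_sq y
      have e2 : ⟪z, z⟫ = 1 := by rw [real_inner_self_eq_norm_sq, hns]; norm_num
      have e3 : ‖y + ‖y‖ • z‖ ^ 2 = 2 * ‖y‖ * (‖y‖ + ⟪y, z⟫) := by
        rw [← real_inner_self_eq_norm_sq, inner_add_left, inner_add_right, inner_add_right,
          inner_smul_left, inner_smul_left, inner_smul_right, inner_smul_right, e1, e2,
          real_inner_comm y z]
        simp only [conj_trivial]
        ring
      have e4 : ⟪y, y + ‖y‖ • z⟫ = ‖y‖ * (‖y‖ + ⟪y, z⟫) := by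
        rw [inner_add_right, inner_smul_right, e1]; ring
      have e5 : ‖y + ‖y‖ • z‖ ^ 2 ≠ 0 := pow_ne_zero 2 (norm_ne_zero_iff.2 h)
      have e6 : ‖y‖ + ⟪y, z⟫ ≠ 0 := by
        intro h6
        rw [e3, h6, mul_zero] at e5
        exact e5 rfl
      rw [Li, rf_self hy0, Rf, inner_neg_left, e4, e3]
      have e7 : 2 * -(‖y‖ * (‖y‖ + ⟪y, z⟫)) / (2 * ‖y‖ * (‖y‖ + ⟪y, z⟫)) = -1 := by
        have := hyn.ne'
        field_simp
      rw [e7]
      have e8 : -y - (-1 : ℝ) • (y + ‖y‖ • z) = ‖y‖ • z := by module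
      rw [e8, smul_smul, inv_mul_cancel₀ hyn.ne', one_smul]

end lin

/-! ### the path space -/

section paths

variable (n : ℕ)

/-- paths in `V \ 0` from the horizontal hyperplane to `hc`. -/
def XP : Type :=
  {γ : C(I, Vc (n + 2)) // (∀ t, γ t ≠ 0) ∧ ⟪ec (n + 2), γ 0⟫ = 0 ∧ γ 1 = hc (n + 1)}

instance : TopologicalSpace (XP n) := instTopologicalSpaceSubtype

/-- the constant path. -/
def bp : XP n := ⟨ContinuousMap.const I (hc (n + 1)), fun _ => hc_ne, ec_hc, rfl⟩

variable {n}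

/-- maps in rest form with rest value `hc`. -/
def RF (n : ℕ) : Type := {f : Bc (n + 2) → Vc (n + 2) // Adm (n + 2) f ∧ IsRest (hc (n + 1)) f}

/-- the point of the base with coordinates `2 t - 1`, `2 w - 1`. -/
def emb (t : I) (w : Fin (n + 1) → I) : Bc (n + 2) :=
  Fin.cons (α := fun _ => ℝ) (2 * (t : ℝ) - 1) (fun i => 2 * (w i : ℝ) - 1)

@[simp] lemma emb_zero (t : I) (w : Fin (n + 1) → I) : emb t w 0 = 2 * (t : ℝ) - 1 := rfl

@[simp] lemma emb_succ (t : I) (w : Fin (n + 1) → I) (i : Fin (n + 1)) :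
    emb t w i.succ = 2 * (w i : ℝ) - 1 := rfl

lemma continuous_emb : Continuous fun p : (Fin (n + 1) → I) × I => emb p.2 p.1 := by
  refine continuous_pi fun i => ?_
  refine Fin.cases ?_ (fun i => ?_) i
  · simp only [emb_zero]; fun_prop
  · simp only [emb_succ]; fun_prop


lemma rest_bd {t : I} {w : Fin (n + 1) → I} (hw : w ∈ Cube.boundary (Fin (n + 1))) :
    RestAt (emb t w) := by
  obtain ⟨i, hi⟩ := hw
  right
  refine ⟨i.succ, Fin.succ_ne_zero i, ?_⟩
  rw [emb_succ]
  rcases hi with h | h <;> rw [h] <;> norm_num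

lemma rest_t1 (w : Fin (n + 1) → I) : RestAt (emb 1 w) := by
  left
  rw [emb_zero]; norm_num

lemma sph_t0 (w : Fin (n + 1) → I) : 1 ≤ ‖emb 0 w‖ := by
  have := norm_le_pi_norm (emb 0 w) 0
  rw [emb_zero, Real.norm_eq_abs] at this
  refine le_trans ?_ this
  norm_num

/-- the generalized loop of a rest form. -/
def th (f : RF n) : GenLoop (Fin (n + 1)) (XP n) (bp n) :=
  ⟨⟨fun w => ⟨⟨fun t => f.1 (emb t w), f.2.1.cont.comp (continuous_emb.comp
      (Continuous.prodMk continuous_const continuous_id))⟩, fun t => f.2.1.ne _,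
      f.2.1.hor _ (sph_t0 w), f.2.2 _ (rest_t1 w)⟩, by
        refine Continuous.subtype_mk ?_ _
        exact ContinuousMap.curry (⟨fun p : (Fin (n + 1) → I) × I => f.1 (emb p.2 p.1),
          f.2.1.cont.comp continuous_emb⟩ : C((Fin (n + 1) → I) × I, Vc (n + 2))) |>.continuous⟩,
    fun w hw => Subtype.ext (ContinuousMap.ext fun t => f.2.2 _ (rest_bd hw))⟩

@[simp] lemma th_apply (f : RF n) (w : Fin (n + 1) → I) (t : I) :
    (th f w).1 t = f.1 (emb t w) := rfl

/-- the class of a rest form. -/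
def cls (f : RF n) : HomotopyGroup (Fin (n + 1)) (XP n) (bp n) := Quotient.mk _ (th f)

lemma cls_eq_of_bh {f g : RF n} (h : BH n (hc (n + 1)) f.1 g.1) : cls f = cls g := by
  apply Quotient.sound
  obtain ⟨F, hF, h0, h1, h2, h3, h4⟩ := h
  have hce : Continuous fun p : (I × (Fin (n + 1) → I)) × I =>
      F ((p.1.1 : ℝ), emb p.2 p.1.2) := by
    refine hF.comp (Continuous.prodMk (by fun_prop) ?_)
    exact continuous_emb.comp (Continuous.prodMk (by fun_prop) (by fun_prop))
  refine ⟨⟨⟨⟨fun p => ⟨⟨fun t => F ((p.1 : ℝ), emb t p.2), hce.comp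
      (Continuous.prodMk continuous_const continuous_id)⟩, fun t => h0 _,
      h1 _ _ (sph_t0 _), h2 _ _ (rest_t1 _)⟩, ?_⟩, ?_, ?_⟩, ?_⟩⟩
  · refine Continuous.subtype_mk ?_ _
    exact ContinuousMap.curry (⟨fun p : (I × (Fin (n + 1) → I)) × I =>
      F ((p.1.1 : ℝ), emb p.2 p.1.2), hce⟩ :
        C((I × (Fin (n + 1) → I)) × I, Vc (n + 2))) |>.continuous
  · intro w
    exact Subtype.ext (ContinuousMap.ext fun t => h3 _)
  · intro w
    exact Subtype.ext (ContinuousMap.ext fun t => h4 _)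
  · intro s w hw
    exact Subtype.ext (ContinuousMap.ext fun t =>
      (h2 _ _ (rest_bd hw)).trans (f.2.2 _ (rest_bd hw)).symm)

/-- the cube coordinate of a real number. -/
def pr (x : ℝ) : I := projIcc 0 1 zero_le_one ((x + 1) / 2)

lemma continuous_pr : Continuous pr := continuous_projIcc.comp (by fun_prop)

lemma pr_coe {x : ℝ} (hx : |x| ≤ 1) : (pr x : ℝ) = (x + 1) / 2 := by
  rw [abs_le] at hx
  rw [pr, projIcc_of_mem zero_le_one ⟨by linarith [hx.1], by linarith [hx.2]⟩]

lemma pr_one : pr 1 = 1 := by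
  apply Subtype.ext
  rw [pr_coe (by norm_num)]; norm_num

lemma pr_neg_one : pr (-1) = 0 := by
  apply Subtype.ext
  rw [pr_coe (by norm_num)]; norm_num

/-- cube coordinates of a point of the base. -/
def wc (u : Bc (n + 2)) : Fin (n + 1) → I := fun i => pr (u i.succ)

lemma continuous_wc : Continuous (wc (n := n)) :=
  continuous_pi fun _ => continuous_pr.comp (continuous_apply _)

lemma emb_wc {u : Bc (n + 2)} (hu : ‖u‖ ≤ 1) : emb (pr (u 0)) (wc u) = u := by
  have h : ∀ i, |u i| ≤ 1 := fun i => (norm_le_pi_norm u i).trans hu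
  funext i
  refine Fin.cases ?_ (fun i => ?_) i
  · rw [emb_zero, pr_coe (h 0)]; ring
  · rw [emb_succ, wc, pr_coe (h _)]; ring

lemma fh_of_cls {f g : RF n} (h : cls f = cls g) : FH (ec (n + 2)) f.1 g.1 := by
  obtain ⟨H⟩ : GenLoop.Homotopic (th f) (th g) := Quotient.exact h
  have cH : Continuous fun q : ℝ × Bc (n + 2) =>
      (H (projIcc 0 1 zero_le_one q.1, wc q.2)).1 (pr (q.2 0)) := by
    have c1 : Continuous fun q : ℝ × Bc (n + 2) =>
        (H (projIcc 0 1 zero_le_one q.1, wc q.2)).1 := by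
      refine continuous_subtype_val.comp (H.continuous.comp ?_)
      exact Continuous.prodMk (continuous_projIcc.comp continuous_fst)
        (continuous_wc.comp continuous_snd)
    have c2 : Continuous fun q : ℝ × Bc (n + 2) => pr (q.2 0) :=
      continuous_pr.comp ((continuous_apply 0).comp continuous_snd)
    exact c1.eval c2
  refine ⟨fun q => (H (projIcc 0 1 zero_le_one q.1, wc q.2)).1 (pr (q.2 0)), cH.continuousOn,
    ?_, ?_, ?_, ?_⟩
  · intro t _ u _
    exact (H (projIcc 0 1 zero_le_one t, wc u)).2.1 _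
  · intro t ht u hu
    obtain ⟨i, hi⟩ : ∃ i, 1 ≤ |u i| := by
      by_contra hn
      push Not at hn
      have : ‖u‖ < 1 := (pi_norm_lt_iff one_pos).2 fun i => hn i
      linarith
    have hle : |u i| ≤ 1 := (norm_le_pi_norm u i).trans hu.le
    have he : |u i| = 1 := le_antisymm hle hi
    revert he
    refine Fin.cases ?_ (fun j => ?_) i
    · intro he
      rcases eq_or_eq_neg_of_abs_eq he with h1 | h1
      · simp only [h1, pr_one]
        rw [(H (projIcc 0 1 zero_le_one t, wc u)).2.2.2]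
        exact ec_hc
      · simp only [h1, pr_neg_one]
        exact (H (projIcc 0 1 zero_le_one t, wc u)).2.2.1
    · intro he
      have hb : wc u ∈ Cube.boundary (Fin (n + 1)) := by
        refine ⟨j, ?_⟩
        rcases eq_or_eq_neg_of_abs_eq he with h1 | h1
        · right; rw [wc, h1, pr_one]
        · left; rw [wc, h1, pr_neg_one]
      have h2 := H.eq_fst (projIcc 0 1 zero_le_one t) hb
      simp only
      rw [h2]
      show ⟪ec (n + 2), (th f (wc u)).1 (pr (u 0))⟫ = 0
      rw [GenLoop.boundary (th f) _ hb]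
      exact ec_hc
  · intro u hu
    simp only [projIcc_left]
    have h2 : H (0, wc u) = (th f).1 (wc u) := H.map_zero_left (wc u)
    have h3 : (H (0, wc u)).1 (pr (u 0)) = (th f (wc u)).1 (pr (u 0)) :=
      congrArg (fun γ : XP n => γ.1 (pr (u 0))) h2
    refine h3.trans ?_
    rw [th_apply, emb_wc hu]
  · intro u hu
    simp only [projIcc_right]
    have h2 : H (1, wc u) = (th g).1 (wc u) := H.map_one_left (wc u)
    have h3 : (H (1, wc u)).1 (pr (u 0)) = (th g (wc u)).1 (pr (u 0)) :=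
      congrArg (fun γ : XP n => γ.1 (pr (u 0))) h2
    refine h3.trans ?_
    rw [th_apply, emb_wc hu]

/-- the product of rest forms. -/
def catR (f g : RF n) : RF n :=
  ⟨cat f.1 g.1, adm_cat f.2.1 g.2.1 f.2.2 g.2.2, rest_cat f.2.2 g.2.2⟩

/-- the reverse of a rest form. -/
def revR (f : RF n) : RF n := ⟨rev f.1, adm_rev f.2.1, fun u hu => f.2.2 _ (by
  rcases hu with h | ⟨i, hi, h⟩
  · left
    rw [flip_ne u (by simp)]; exact h
  · right
    refine ⟨i, hi, ?_⟩
    by_cases h1 : i = 1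
    · subst h1; exact flip_abs h
    · rw [flip_ne u h1]; exact h)⟩

/-- the constant rest form. -/
def oneR : RF n := ⟨fun _ => hc (n + 1), ⟨continuous_const, fun _ => hc_ne, fun _ _ => ec_hc⟩,
  fun _ _ => rfl⟩

lemma emb_update (t : I) (w : Fin (n + 1) → I) (x : I) :
    emb t (Function.update w 0 x) = Function.update (emb t w) 1 (2 * (x : ℝ) - 1) := by
  funext i
  refine Fin.cases ?_ (fun i => ?_) i
  · rw [Function.update_of_ne (by simp), emb_zero, emb_zero]
  · rw [emb_succ]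
    by_cases hi : i = 0
    · subst hi
      rw [Function.update_self]
      exact (Function.update_self (f := emb t w) (1 : Fin (n + 2)) _).symm
    · rw [Function.update_of_ne hi, Function.update_of_ne, emb_succ]
      intro h
      apply hi
      have : (1 : Fin (n + 2)) = Fin.succ 0 := rfl
      rw [this] at h
      exact Fin.succ_injective _ h

lemma emb_one (t : I) (w : Fin (n + 1) → I) : emb t w 1 = 2 * (w 0 : ℝ) - 1 := rfl

lemma cls_cat (f g : RF n) : cls (catR f g) = cls g * cls f := by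
  rw [cls, cls, cls]
  have h : th (catR f g) = GenLoop.transAt 0 (th f) (th g) := by
    apply GenLoop.ext
    intro w
    rw [GenLoop.transAt, GenLoop.coe_copy]
    apply Subtype.ext
    apply ContinuousMap.ext
    intro t
    rw [th_apply]
    show cat f.1 g.1 (emb t w) = _
    rw [cat, emb_one]
    by_cases hw : ((w 0 : I) : ℝ) ≤ 1 / 2
    · have hm : 2 * ((w 0 : I) : ℝ) ∈ Icc (0 : ℝ) 1 := ⟨by linarith [(w 0).2.1], by linarith⟩
      have he : 2 * (2 * ((w 0 : I) : ℝ) - 1) + 1 = 2 * (2 * ((w 0 : I) : ℝ)) - 1 := by ring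
      rw [if_pos (by linarith), if_pos hw, th_apply, emb_update, blowL, emb_one,
        projIcc_of_mem zero_le_one hm, he]
    · have hw' := not_le.1 hw
      have hm : 2 * ((w 0 : I) : ℝ) - 1 ∈ Icc (0 : ℝ) 1 :=
        ⟨by linarith, by linarith [(w 0).2.2]⟩
      rw [if_neg (by linarith), if_neg hw, th_apply, emb_update, blowR, emb_one,
        projIcc_of_mem zero_le_one hm]
  rw [h]
  exact (HomotopyGroup.mul_spec (i := (0 : Fin (n + 1)))).symm

lemma cls_rev (f : RF n) : cls (revR f) = (cls f)⁻¹ := by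
  rw [cls, cls]
  have h : th (revR f) = GenLoop.symmAt 0 (th f) := by
    apply GenLoop.ext
    intro w
    rw [GenLoop.symmAt, GenLoop.coe_copy]
    apply Subtype.ext
    apply ContinuousMap.ext
    intro t
    rw [th_apply, th_apply]
    show f.1 (Function.update (emb t w) 1 (-(emb t w 1))) = _
    have h1 : (fun j => if j = 0 then σ (w 0) else w j) = Function.update w 0 (σ (w 0)) := by
      funext j
      by_cases hj : j = 0
      · subst hj; simp
      · simp [hj]
    have he : -(2 * ((w 0 : I) : ℝ) - 1) = 2 * ((σ (w 0) : I) : ℝ) - 1 := by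
      rw [unitInterval.coe_symm_eq]; ring
    rw [h1, emb_update, emb_one, he]
  rw [h]
  exact (HomotopyGroup.inv_spec (i := (0 : Fin (n + 1)))).symm

lemma cls_one : cls (oneR (n := n)) = 1 := by
  rw [HomotopyGroup.one_def, cls]
  congr 1

end paths

/-! ### the class of a typed map -/

section final

variable {n : ℕ}

theorem FB (hFB : FBProp n) {f g : RF n} (h : FH (ec (n + 2)) f.1 g.1) : cls f = cls g :=
  cls_eq_of_bh (hFB (hc (n + 1)) f.1 g.1 f.2.1 g.2.1 f.2.2 g.2.2 h)

open Classical in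
/-- the class of any rest form of `f`. -/
def clF (f : Bc (n + 2) → Vc (n + 2)) : HomotopyGroup (Fin (n + 1)) (XP n) (bp n) :=
  if h : ∃ f' : RF n, FH (ec (n + 2)) f f'.1 then cls h.choose else 1

theorem clF_eq (hFB : FBProp n) {f : Bc (n + 2) → Vc (n + 2)} {f' : RF n}
    (h : FH (ec (n + 2)) f f'.1) : clF f = cls f' := by
  have h1 : ∃ f' : RF n, FH (ec (n + 2)) f f'.1 := ⟨f', h⟩
  rw [clF, dif_pos h1]
  exact FB hFB (IsotB_92.FH.trans (IsotB_92.FH.symm h1.choose_spec) h)

/-- the transported map is a rest form. -/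
def liR {y b : Vc (n + 2)} {c : ℝ} (hc0 : 0 < c) (hy : ⟪ec (n + 2), y⟫ = 0) (hy0 : y ≠ 0)
    (hb : ⟪ec (n + 2), b⟫ = 0) (hb0 : b ≠ 0) (hL : Li y b c y = hc (n + 1))
    {f : Bc (n + 2) → Vc (n + 2)} (hf : Adm (n + 2) f) (rf : IsRest y f) : RF n :=
  ⟨fun u => Li y b c (f u), ⟨(continuous_li hy0 hb0).comp hf.cont, fun u => li_ne hc0.ne' (hf.ne u),
    fun u hu => li_hor hy hb (hf.hor u hu)⟩, fun u hu => by
      show Li y b c (f u) = _
      rw [rf u hu, hL]⟩

/-- every typed map has a rest form with rest value `hc`. -/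
theorem exists_RF {f : Bc (n + 2) → Vc (n + 2)} {a b : ℤ} (h : Typ n f a b) :
    ∃ f' : RF n, FH (ec (n + 2)) f f'.1 := by
  obtain ⟨T', y, hA, hR, hH, hy0, hy⟩ := typ_rest h
  obtain ⟨b, c, hc0, hb, hb0, hseg, hL⟩ := exists_li hy hy0
  exact ⟨liR hc0 hy hy0 hb hb0 hL hA hR, IsotB_92.FH.trans hH
    (fh_li hc0 hy hy0 hb hseg hA.cont.continuousOn (fun u _ => hA.ne u)
      fun u hu => hA.hor u hu.ge)⟩

lemma rest_pt : RestAt (emb (1 : I) (fun _ : Fin (n + 1) => (1 : I))) := rest_t1 _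

lemma rest_val {y : Vc (n + 2)} {f : Bc (n + 2) → Vc (n + 2)} (hf : Adm (n + 2) f)
    (rf : IsRest y f) : y ≠ 0 ∧ ⟪ec (n + 2), y⟫ = 0 := by
  have h1 := rf _ (rest_pt (n := n))
  constructor
  · rw [← h1]; exact hf.ne _
  · rw [← h1]
    refine hf.hor _ ?_
    have := norm_le_pi_norm (emb (1 : I) (fun _ : Fin (n + 1) => (1 : I))) 0
    rw [emb_zero, Real.norm_eq_abs] at this
    refine le_trans ?_ this
    norm_num

/-- class of a concatenation of rest forms. -/
theorem clF_cat (hFB : FBProp n) {y : Vc (n + 2)} {f g : Bc (n + 2) → Vc (n + 2)}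
    (hf : Adm (n + 2) f) (hg : Adm (n + 2) g) (rf : IsRest y f) (rg : IsRest y g) :
    clF (cat f g) = clF g * clF f := by
  obtain ⟨hy0, hy⟩ := rest_val hf rf
  obtain ⟨b, c, hc0, hb, hb0, hseg, hL⟩ := exists_li hy hy0
  have kf : FH (ec (n + 2)) f (liR hc0 hy hy0 hb hb0 hL hf rf).1 :=
    fh_li hc0 hy hy0 hb hseg hf.cont.continuousOn (fun u _ => hf.ne u) fun u hu => hf.hor u hu.ge
  have kg : FH (ec (n + 2)) g (liR hc0 hy hy0 hb hb0 hL hg rg).1 :=
    fh_li hc0 hy hy0 hb hseg hg.cont.continuousOn (fun u _ => hg.ne u) fun u hu => hg.hor u hu.ge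
  have hA := adm_cat hf hg rf rg
  have kc : FH (ec (n + 2)) (cat f g)
      (catR (liR hc0 hy hy0 hb hb0 hL hf rf) (liR hc0 hy hy0 hb hb0 hL hg rg)).1 := by
    have h1 := fh_li (c := c) hc0 hy hy0 hb hseg hA.cont.continuousOn (fun u _ => hA.ne u)
      fun u hu => hA.hor u hu.ge
    have h2 : (catR (liR hc0 hy hy0 hb hb0 hL hf rf) (liR hc0 hy hy0 hb hb0 hL hg rg)).1 =
        fun u => Li y b c (cat f g u) := by
      funext u
      show cat (fun u => Li y b c (f u)) (fun u => Li y b c (g u)) u = _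
      rw [cat, cat]
      split_ifs <;> rfl
    rw [h2]
    exact h1
  rw [clF_eq hFB kc, cls_cat, clF_eq hFB kf, clF_eq hFB kg]

/-- class of the reverse of a rest form. -/
theorem clF_rev (hFB : FBProp n) {y : Vc (n + 2)} {f : Bc (n + 2) → Vc (n + 2)}
    (hf : Adm (n + 2) f) (rf : IsRest y f) :
    clF (rev f) = (clF f)⁻¹ := by
  obtain ⟨hy0, hy⟩ := rest_val hf rf
  obtain ⟨b, c, hc0, hb, hb0, hseg, hL⟩ := exists_li hy hy0
  have kf : FH (ec (n + 2)) f (liR hc0 hy hy0 hb hb0 hL hf rf).1 :=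
    fh_li hc0 hy hy0 hb hseg hf.cont.continuousOn (fun u _ => hf.ne u) fun u hu => hf.hor u hu.ge
  have hA := adm_rev hf
  have kc : FH (ec (n + 2)) (rev f) (revR (liR hc0 hy hy0 hb hb0 hL hf rf)).1 :=
    fh_li (c := c) hc0 hy hy0 hb hseg hA.cont.continuousOn (fun u _ => hA.ne u)
      fun u hu => hA.hor u hu.ge
  rw [clF_eq hFB kc, cls_rev, clF_eq hFB kf]

/-- the class is `α ^ a * β ^ b`. -/
theorem clF_typ (hn : 1 ≤ n) (hFB : FBProp n) {f : Bc (n + 2) → Vc (n + 2)} {a b : ℤ}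
    (h : Typ n f a b) :
    clF f = clF (n := n) al ^ a * clF (n := n) (fun u => -al u) ^ b := by
  have : Nontrivial (Fin (n + 1)) := Fin.nontrivial_iff_two_le.2 (by omega)
  have hcomm : ∀ x y : HomotopyGroup (Fin (n + 1)) (XP n) (bp n), x * y = y * x := by
    intro x y
    have h1 := (HomotopyGroup.commGroup (N := Fin (n + 1)) (X := XP n) (x := bp n)).mul_comm x y
    exact h1
  induction h with
  | zero =>
    have k : FH (ec (n + 2)) (fun _ : Bc (n + 2) => hc (n + 1)) (oneR (n := n)).1 :=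
      IsotB_92.fh_refl continuousOn_const (fun _ _ => hc_ne) fun _ _ => ec_hc
    rw [clF_eq hFB k, cls_one]
    simp
  | al => simp
  | be => simp
  | congr h H ih =>
    obtain ⟨f', hf'⟩ := exists_RF h
    rw [← ih, clF_eq hFB hf', clF_eq hFB (IsotB_92.FH.trans (IsotB_92.FH.symm H) hf')]
  | @cat f g a b a' b' y hf hg rf rg h h' ih ih' =>
    rw [clF_cat hFB hf hg rf rg, ih, ih', zpow_add, zpow_add]
    generalize clF (n := n) al ^ a = A
    generalize clF (n := n) al ^ a' = A'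
    generalize clF (n := n) (fun u => -al u) ^ b = B
    generalize clF (n := n) (fun u => -al u) ^ b' = B'
    rw [hcomm (A' * B') (A * B), mul_assoc, mul_assoc, ← mul_assoc B, hcomm B A', mul_assoc]
  | rev y hf rf h ih =>
    rw [clF_rev hFB hf rf, ih, mul_inv_rev, zpow_neg, zpow_neg, hcomm]

/-- **TYP** from **FB**. -/
theorem typProp (n : ℕ) (hn : 1 ≤ n) (hFB : FBProp n) : TypProp n := by
  intro f g a b hf hg
  obtain ⟨f', kf⟩ := exists_RF hf
  obtain ⟨g', kg⟩ := exists_RF hg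
  have h1 : cls f' = cls g' := by
    rw [← clF_eq hFB kf, ← clF_eq hFB kg, clF_typ hn hFB hf, clF_typ hn hFB hg]
  exact IsotB_92.FH.trans kf (IsotB_92.FH.trans (fh_of_cls h1) (IsotB_92.FH.symm kg))

end final

end

end Crest.Agent.R267.TypG_527
end

-- ▼ part R267/ClassGF_808

/-!
# Row 267: the class theorem for graph systems, final form

`classG n (hn : 1 ≤ n) : ClassGProp n`: graph systems whose matrices are congruent by an
elementary (T1, T2) sequence have homeomorphic pairs; together with `ClassProp n` and `T2Prop n`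
without hypotheses.
-/

set_option autoImplicit false

namespace Crest.Agent.R267.ClassGF_808

open Crest.Agent.R267.GS_808 Crest.Agent.R267.DraftB_808 Crest.Agent.R267.ClassG_808

/-- the class theorem (TB), no hypotheses. -/
theorem classP (n : ℕ) (hn : 1 ≤ n) : ClassProp n :=
  class_fin n hn (FB_118.fbProp hn) (TypG_527.typProp n hn (FB_118.fbProp hn)) (TypN_52.typN n)

/-- **T2**, no hypotheses. -/
theorem t2 (n : ℕ) (hn : 1 ≤ n) : T2Prop n := t2_fin n hn (classP n hn)

/-- **`ClassGProp n` for every `n ≥ 1`.** -/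
theorem classG (n : ℕ) (hn : 1 ≤ n) : ClassGProp n :=
  classG_fin n hn (FB_118.fbProp hn) (TypG_527.typProp n hn (FB_118.fbProp hn)) (TypN_52.typN n)

end Crest.Agent.R267.ClassGF_808
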