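import Crest.Agent.R267.NF_808
import Crest.Agent.R267.IsotB_92

-- ▼ part R267/ClsA_253
section

/-!
# Calculus of `Typ`, `TypN` for the normal form (row 267, DRAFT B part 3, leaf T2-4)

Reparametrisation in the variable `s = u 1`, negation, constants, joins, frames.
-/

set_option autoImplicit false

namespace Crest.Agent.R267.ClsA_253

open Set Metric
open scoped RealInnerProductSpace
open Crest.Agent.R267.GS_808 Crest.Agent.R267.DraftB_808 Crest.Agent.R267.NF_808
open Crest.Agent.R267.IsotB_92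

variable {n : ℕ}

/-! ### the variable `u 1` -/

lemma us_apply (u : Bc (n + 2)) (s : ℝ) : us u s 1 = s := by simp [us]

lemma us_ne (u : Bc (n + 2)) (s : ℝ) {k : Fin (n + 2)} (hk : k ≠ 1) : us u s k = u k := by
  simp [us, hk]

lemma us_self (u : Bc (n + 2)) : us u (u 1) = u := by simp [us]

lemma us_us (u : Bc (n + 2)) (a b : ℝ) : us (us u a) b = us u b := by simp [us]

lemma continuous_us : Continuous fun q : Bc (n + 2) × ℝ => us q.1 q.2 :=
  continuous_fst.update 1 continuous_snd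

lemma one_ne_zero' : (1 : Fin (n + 2)) ≠ 0 := by
  intro h
  have := congrArg Fin.val h
  simp at this

lemma rest_us (u : Bc (n + 2)) {s : ℝ} (hs : 1 ≤ |s|) : RestAt (us u s) :=
  Or.inr ⟨1, one_ne_zero', by rw [us_apply]; exact hs⟩

/-- rest is preserved. -/
lemma rest_us_of (u : Bc (n + 2)) {s : ℝ} (hu : RestAt u) (hs : 1 ≤ |u 1| → 1 ≤ |s|) :
    RestAt (us u s) := by
  rcases hu with h | ⟨k, hk, h⟩
  · left; rw [us_ne u s one_ne_zero'.symm]; exact h
  · by_cases h1 : k = 1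
    · subst h1; exact rest_us u (hs h)
    · right; exact ⟨k, hk, by rw [us_ne u s h1]; exact h⟩

/-- the wall is preserved. -/
lemma norm_us (u : Bc (n + 2)) {s : ℝ} (hu : 1 ≤ ‖u‖) (hs : 1 ≤ |u 1| → 1 ≤ |s|) :
    1 ≤ ‖us u s‖ := by
  by_contra hc
  push Not at hc
  rw [pi_norm_lt_iff one_pos] at hc
  have h1 : |s| < 1 := by simpa [us_apply, Real.norm_eq_abs] using hc 1
  have h2 : |u 1| < 1 := by
    by_contra h; exact absurd (hs (not_lt.1 h)) (not_le.2 h1)
  have : ‖u‖ < 1 := by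
    rw [pi_norm_lt_iff one_pos]
    intro k
    by_cases hk : k = 1
    · subst hk; rw [Real.norm_eq_abs]; exact h2
    · have := hc k
      rwa [us_ne u s hk] at this
  exact absurd hu (not_le.2 this)

/-- linear reparametrisation: condition at one end. -/
def Ok (A B : ℝ) : Prop := (1 ≤ A ∧ 1 ≤ B) ∨ (A ≤ -1 ∧ B ≤ -1)

lemma Ok.abs {A B t : ℝ} (h : Ok A B) (ht : t ∈ Icc (0 : ℝ) 1) : 1 ≤ |(1 - t) * A + t * B| := by
  rcases h with ⟨h1, h2⟩ | ⟨h1, h2⟩
  · refine le_trans ?_ (le_abs_self _)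
    nlinarith [ht.1, ht.2]
  · refine le_trans ?_ (neg_le_abs _)
    nlinarith [ht.1, ht.2]

/-- the interpolated linear function. -/
def ln (a b c d t s : ℝ) : ℝ := (1 - t) * (a * s + b) + t * (c * s + d)

lemma ln_zero (a b c d s : ℝ) : ln a b c d 0 s = a * s + b := by unfold ln; ring
lemma ln_one (a b c d s : ℝ) : ln a b c d 1 s = c * s + d := by unfold ln; ring

/-- both ends are fine. -/
def Ok2 (a b c d : ℝ) : Prop := Ok (a + b) (c + d) ∧ Ok (-a + b) (-c + d)

lemma Ok2.abs {a b c d t : ℝ} (h : Ok2 a b c d) (ht : t ∈ Icc (0 : ℝ) 1) {u : Bc (n + 2)}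
    (hu : ‖u‖ = 1) (h1 : 1 ≤ |u 1|) : 1 ≤ |ln a b c d t (u 1)| := by
  have h2 : |u 1| ≤ 1 := by
    have := norm_le_pi_norm u 1
    rw [Real.norm_eq_abs, hu] at this; exact this
  rcases abs_choice (u 1) with h3 | h3
  · have h4 : u 1 = 1 := by rw [h3] at h1 h2; linarith
    unfold ln
    rw [h4, mul_one, mul_one]
    exact h.1.abs ht
  · have h4 : u 1 = -1 := by rw [h3] at h1 h2; linarith
    unfold ln
    rw [h4, mul_neg_one, mul_neg_one]
    exact h.2.abs ht

lemma Ok2.norm {a b c d t : ℝ} (h : Ok2 a b c d) (ht : t ∈ Icc (0 : ℝ) 1) {u : Bc (n + 2)}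
    (hu : ‖u‖ = 1) : 1 ≤ ‖us u (ln a b c d t (u 1))‖ :=
  norm_us u hu.ge fun h1 => h.abs ht hu h1

lemma continuous_ln (a b c d : ℝ) :
    Continuous fun q : ℝ × Bc (n + 2) => us q.2 (ln a b c d q.1 (q.2 1)) := by
  refine continuous_us.comp (f := fun q : ℝ × Bc (n + 2) => (q.2, ln a b c d q.1 (q.2 1)))
    (continuous_snd.prodMk ?_)
  unfold ln
  fun_prop

/-- **reparametrisation.** -/
theorem fh_lin {f : Bc (n + 2) → Vc (n + 2)} (hf : Adm (n + 2) f) {a b c d : ℝ}
    (h : Ok2 a b c d) :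
    FH (ec (n + 2)) (fun u => f (us u (a * u 1 + b))) (fun u => f (us u (c * u 1 + d))) := by
  refine ⟨fun q => f (us q.2 (ln a b c d q.1 (q.2 1))),
    (hf.cont.comp (continuous_ln a b c d)).continuousOn, fun _ _ _ _ => hf.ne _,
    fun t ht u hu => hf.hor _ (h.norm ht hu), fun u _ => ?_, fun u _ => ?_⟩
  · simp only [ln_zero]
  · simp only [ln_one]

/-- reparametrisation of normals. -/
theorem fn_lin {f : Bc (n + 2) → Vc (n + 2)} (cf : Continuous f) (h0 : ∀ u, f u ≠ 0)
    (hf : ∀ u, 1 ≤ ‖u‖ → f u = ec (n + 2)) {a b c d : ℝ} (h : Ok2 a b c d) :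
    FN (ec (n + 2)) (fun u => f (us u (a * u 1 + b))) (fun u => f (us u (c * u 1 + d))) := by
  refine ⟨fun q => f (us q.2 (ln a b c d q.1 (q.2 1))),
    (cf.comp (continuous_ln a b c d)).continuousOn, fun _ _ _ _ => h0 _,
    fun t ht u hu => hf _ (h.norm ht hu), fun u _ => ?_, fun u _ => ?_⟩
  · simp only [ln_zero]
  · simp only [ln_one]

/-! ### vectors -/

lemma zero_ne_last : (0 : Fin (n + 3)) ≠ Fin.last (n + 2) := by
  intro h; have := congrArg Fin.val h; simp at this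

lemma one_ne_last : (1 : Fin (n + 3)) ≠ Fin.last (n + 2) := by
  intro h; have := congrArg Fin.val h; simp at this

lemma inner_e_h : ⟪ec (n + 2), hc (n + 1)⟫ = (0 : ℝ) := by
  unfold ec hc
  rw [EuclideanSpace.inner_single_left]
  simp [zero_ne_last.symm]

lemma norm_h : ‖hc (n + 1)‖ = 1 := by unfold hc; simp
lemma norm_e : ‖ec (n + 2)‖ = 1 := by unfold ec; simp
lemma h_ne : hc (n + 1) ≠ 0 := by rw [← norm_ne_zero_iff, norm_h]; exact one_ne_zero

/-- the segment between vectors making an angle `≤ π/2` misses `0`. -/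
lemma seg_ne' {V : Type*} [NormedAddCommGroup V] [InnerProductSpace ℝ V] {v w : V} (hv : v ≠ 0)
    (hw : w ≠ 0) (h : 0 ≤ ⟪v, w⟫) {t : ℝ} (ht : t ∈ Icc (0 : ℝ) 1) : (1 - t) • v + t • w ≠ 0 := by
  intro h0
  have h1 : ⟪v, (1 - t) • v + t • w⟫ = 0 := by rw [h0, inner_zero_right]
  rw [inner_add_right, inner_smul_right, inner_smul_right, real_inner_self_eq_norm_sq] at h1
  have hv' : 0 < ‖v‖ ^ 2 := by have := norm_pos_iff.2 hv; positivity
  have h2 : (1 - t) * ‖v‖ ^ 2 ≤ 0 := by nlinarith [mul_nonneg ht.1 h]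
  have h3 : t = 1 := by
    have : 1 - t ≤ 0 := by
      by_contra hc
      push Not at hc
      nlinarith
    linarith [ht.2]
  rw [h3] at h0
  simp at h0
  exact hw h0

lemma exists_perp (v : Vc (n + 2)) : ∃ z : Vc (n + 2), z ≠ 0 ∧ ⟪ec (n + 2), z⟫ = 0 ∧ ⟪v, z⟫ = 0 := by
  by_cases h0 : v 0 = 0
  · refine ⟨hc (n + 1), h_ne, inner_e_h, ?_⟩
    unfold hc
    rw [EuclideanSpace.inner_single_right]
    simp [h0]
  · refine ⟨EuclideanSpace.single 1 (v 0) - EuclideanSpace.single 0 (v 1), ?_, ?_, ?_⟩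
    · intro h
      have := congrArg (fun w : Vc (n + 2) => w 1) h
      simp at this
      exact h0 this
    · unfold ec
      rw [EuclideanSpace.inner_single_left]
      simp [zero_ne_last.symm, one_ne_last.symm]
    · rw [inner_sub_right, EuclideanSpace.inner_single_right, EuclideanSpace.inner_single_right]
      simp
      ring

/-- constants in `H \ 0`. -/
theorem fh_const {v w : Vc (n + 2)} (hv : v ≠ 0) (hw : w ≠ 0) (ev : ⟪ec (n + 2), v⟫ = 0)
    (ew : ⟪ec (n + 2), w⟫ = 0) :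
    FH (B := Bc (n + 2)) (ec (n + 2)) (fun _ => v) (fun _ => w) := by
  have key : ∀ {a b : Vc (n + 2)}, a ≠ 0 → b ≠ 0 → ⟪ec (n + 2), a⟫ = 0 → ⟪ec (n + 2), b⟫ = 0 →
      (0 : ℝ) ≤ ⟪a, b⟫ → FH (B := Bc (n + 2)) (ec (n + 2)) (fun _ => a) (fun _ => b) :=
      fun ha hb ea eb h =>
    fh_of_segment continuousOn_const continuousOn_const (fun _ _ => ea) (fun _ _ => eb)
      fun _ _ _ ht => seg_ne' ha hb h ht
  obtain ⟨z, hz, ez, hvz⟩ := exists_perp v
  rcases le_total 0 ⟪z, w⟫ with h | h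
  · exact IsotB_92.FH.trans (key hv hz ev ez hvz.ge) (key hz hw ez ew h)
  · have h1 : ⟪v, -z⟫ = 0 := by rw [inner_neg_right, hvz, neg_zero]
    have h2 : ⟪ec (n + 2), -z⟫ = 0 := by rw [inner_neg_right, ez, neg_zero]
    have h3 : 0 ≤ ⟪-z, w⟫ := by rw [inner_neg_left]; linarith
    exact IsotB_92.FH.trans (key hv (neg_ne_zero.2 hz) ev h2 h1.ge)
      (key (neg_ne_zero.2 hz) hw h2 ew h3)

theorem typ_const {v : Vc (n + 2)} (hv : v ≠ 0) (ev : ⟪ec (n + 2), v⟫ = 0) :
    Typ n (fun _ => v) 0 0 := Typ.zero.congr (fh_const h_ne hv inner_e_h ev)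

lemma Adm.neg {f : Bc (n + 2) → Vc (n + 2)} (hf : Adm (n + 2) f) : Adm (n + 2) fun u => -f u :=
  ⟨hf.cont.neg, fun u => neg_ne_zero.2 (hf.ne u), fun u hu => by
    rw [inner_neg_right, hf.hor u hu, neg_zero]⟩

/-- **negation.** -/
theorem typ_neg {f : Bc (n + 2) → Vc (n + 2)} {a b : ℤ} (h : Typ n f a b) :
    Typ n (fun u => -f u) b a := by
  induction h with
  | zero => exact typ_const (neg_ne_zero.2 h_ne) (by rw [inner_neg_right, inner_e_h, neg_zero])
  | al => exact Typ.be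
  | be => simpa using (Typ.al (n := n))
  | congr _ H ih => exact ih.congr (IsotB_92.FH.neg H)
  | @cat f g _ _ _ _ y hf hg rf rg _ _ ih ih' =>
    have := Typ.cat (-y) (Adm.neg hf) (Adm.neg hg) (fun u hu => congrArg Neg.neg (rf u hu))
      (fun u hu => congrArg Neg.neg (rg u hu)) ih ih'
    convert this using 1
    funext u
    unfold GS_808.cat
    split_ifs <;> rfl
  | @rev f _ _ y hf rf _ ih =>
    exact Typ.rev (-y) (Adm.neg hf) (fun u hu => congrArg Neg.neg (rf u hu)) ih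

end Crest.Agent.R267.ClsA_253
end

-- ▼ part R267/ClsB_253
section

/-!
# Joins and frames (row 267, DRAFT B part 3, leaf T2-4)
-/

set_option autoImplicit false

namespace Crest.Agent.R267.ClsB_253

open Set Metric
open scoped RealInnerProductSpace
open Crest.Agent.R267.GS_808 Crest.Agent.R267.DraftB_808 Crest.Agent.R267.NF_808
open Crest.Agent.R267.IsotB_92 Crest.Agent.R267.ClsA_253

variable {n : ℕ}

lemma okL : Ok2 (2 : ℝ) 1 4 3 := ⟨Or.inl (by norm_num), Or.inr (by norm_num)⟩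
lemma okR : Ok2 (2 : ℝ) (-1) 4 (-3) := ⟨Or.inl (by norm_num), Or.inr (by norm_num)⟩
lemma okP : Ok2 (16 : ℝ) (-1) 1 0 := ⟨Or.inl (by norm_num), Or.inr (by norm_num)⟩
lemma okM : Ok2 (-2 : ℝ) 1 (-16) (-1) := ⟨Or.inr (by norm_num), Or.inl (by norm_num)⟩
lemma okL1 : Ok2 (4 : ℝ) 3 1 0 := ⟨Or.inl (by norm_num), Or.inr (by norm_num)⟩
lemma okR1 : Ok2 (4 : ℝ) (-3) 1 0 := ⟨Or.inl (by norm_num), Or.inr (by norm_num)⟩

lemma le_abs_of_le {a : ℝ} (h : 1 ≤ a) : 1 ≤ |a| := h.trans (le_abs_self a)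
lemma le_abs_of_le_neg {a : ℝ} (h : a ≤ -1) : 1 ≤ |a| := by
  have := neg_le_abs a; linarith

lemma ln_L {t s : ℝ} (ht : t ∈ Icc (0 : ℝ) 1) (hs : 0 ≤ s) : 1 ≤ |ln 2 1 4 3 t s| := by
  refine le_abs_of_le ?_
  unfold ln
  nlinarith [ht.1, ht.2, mul_nonneg ht.1 hs]

lemma ln_R {t s : ℝ} (ht : t ∈ Icc (0 : ℝ) 1) (hs : s ≤ 0) : 1 ≤ |ln 2 (-1) 4 (-3) t s| := by
  refine le_abs_of_le_neg ?_
  unfold ln
  nlinarith [ht.1, ht.2, mul_nonneg ht.1 (neg_nonneg.2 hs)]

/-- **join of two maps in rest form.** -/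
theorem typ_join {f g : Bc (n + 2) → Vc (n + 2)} {a b a' b' : ℤ} (y : Vc (n + 2))
    (hf : Adm (n + 2) f) (hg : Adm (n + 2) g) (rf : IsRest y f) (rg : IsRest y g)
    (h : Typ n f a b) (h' : Typ n g a' b') :
    Typ n (fun u => f (us u (4 * u 1 + 3)) + g (us u (4 * u 1 - 3)) - y) (a + a') (b + b') := by
  have hy : ⟪ec (n + 2), y⟫ = 0 := by
    have h1 : RestAt (us (0 : Bc (n + 2)) 1) := rest_us _ (by simp)
    have h2 : 1 ≤ ‖us (0 : Bc (n + 2)) 1‖ := by
      have := norm_le_pi_norm (us (0 : Bc (n + 2)) 1) 1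
      rwa [us_apply, norm_one] at this
    rw [← rf _ h1]; exact hf.hor _ h2
  refine (Typ.cat y hf hg rf rg h h').congr
    ⟨fun q => f (us q.2 (ln 2 1 4 3 q.1 (q.2 1))) + g (us q.2 (ln 2 (-1) 4 (-3) q.1 (q.2 1))) - y,
      ?_, fun t ht u _ => ?_, fun t ht u hu => ?_, fun u _ => ?_, fun u _ => ?_⟩
  · exact (((hf.cont.comp (continuous_ln 2 1 4 3)).add
      (hg.cont.comp (continuous_ln 2 (-1) 4 (-3)))).sub continuous_const).continuousOn
  · show f (us u (ln 2 1 4 3 t (u 1))) + g (us u (ln 2 (-1) 4 (-3) t (u 1))) - y ≠ 0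
    rcases le_total 0 (u 1) with hu | hu
    · rw [rf _ (rest_us u (ln_L ht hu)), add_sub_cancel_left]; exact hg.ne _
    · rw [rg _ (rest_us u (ln_R ht hu)), add_sub_cancel_right]; exact hf.ne _
  · show ⟪ec (n + 2), f (us u (ln 2 1 4 3 t (u 1))) + g (us u (ln 2 (-1) 4 (-3) t (u 1))) - y⟫ = 0
    rw [inner_sub_right, inner_add_right, hf.hor _ (okL.norm ht hu), hg.hor _ (okR.norm ht hu), hy]
    simp
  · show f (us u (ln 2 1 4 3 0 (u 1))) + g (us u (ln 2 (-1) 4 (-3) 0 (u 1))) - y = _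
    rw [ln_zero, ln_zero]
    unfold GS_808.cat
    split_ifs with hu
    · rw [rg _ (rest_us u (le_abs_of_le_neg (by linarith))), add_sub_cancel_right]; rfl
    · rw [rf _ (rest_us u (le_abs_of_le (by linarith))), add_sub_cancel_left]
      rfl
  · show f (us u (ln 2 1 4 3 1 (u 1))) + g (us u (ln 2 (-1) 4 (-3) 1 (u 1))) - y = _
    rw [ln_one, ln_one]; rfl

/-- **join of two normal fields.** -/
theorem typN_join {f g : Bc (n + 2) → Vc (n + 2)} {c c' : ℤ} (cf : Continuous f)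
    (cg : Continuous g) (nf : ∀ u, f u ≠ 0) (ng : ∀ u, g u ≠ 0)
    (rf : ∀ u, 1 ≤ ‖u‖ → f u = ec (n + 2)) (rg : ∀ u, 1 ≤ ‖u‖ → g u = ec (n + 2))
    (h : TypN n f c) (h' : TypN n g c') :
    TypN n (fun u => f (us u (4 * u 1 + 3)) + g (us u (4 * u 1 - 3)) - ec (n + 2)) (c + c') := by
  have key : ∀ (u : Bc (n + 2)) {s : ℝ}, 1 ≤ |s| → 1 ≤ ‖us u s‖ := fun u s hs => by
    have := norm_le_pi_norm (us u s) 1
    rw [us_apply, Real.norm_eq_abs] at this
    linarith
  refine (TypN.cat cf cg nf ng rf rg h h').congr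
    ⟨fun q => f (us q.2 (ln 2 1 4 3 q.1 (q.2 1))) + g (us q.2 (ln 2 (-1) 4 (-3) q.1 (q.2 1)))
      - ec (n + 2), ?_, fun t ht u _ => ?_, fun t ht u hu => ?_, fun u _ => ?_, fun u _ => ?_⟩
  · exact (((cf.comp (continuous_ln 2 1 4 3)).add
      (cg.comp (continuous_ln 2 (-1) 4 (-3)))).sub continuous_const).continuousOn
  · show f (us u (ln 2 1 4 3 t (u 1))) + g (us u (ln 2 (-1) 4 (-3) t (u 1))) - ec (n + 2) ≠ 0
    rcases le_total 0 (u 1) with hu | hu
    · rw [rf _ (key u (ln_L ht hu)), add_sub_cancel_left]; exact ng _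
    · rw [rg _ (key u (ln_R ht hu)), add_sub_cancel_right]; exact nf _
  · show f (us u (ln 2 1 4 3 t (u 1))) + g (us u (ln 2 (-1) 4 (-3) t (u 1))) - ec (n + 2)
      = ec (n + 2)
    rw [rf _ (okL.norm ht hu), rg _ (okR.norm ht hu), add_sub_cancel_right]
  · show f (us u (ln 2 1 4 3 0 (u 1))) + g (us u (ln 2 (-1) 4 (-3) 0 (u 1))) - ec (n + 2) = _
    rw [ln_zero, ln_zero]
    unfold GS_808.cat
    split_ifs with hu
    · rw [rg _ (key u (le_abs_of_le_neg (by linarith))), add_sub_cancel_right]; rfl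
    · rw [rf _ (key u (le_abs_of_le (by linarith))), add_sub_cancel_left]
      rfl
  · show f (us u (ln 2 1 4 3 1 (u 1))) + g (us u (ln 2 (-1) 4 (-3) 1 (u 1))) - ec (n + 2) = _
    rw [ln_one, ln_one]; rfl

/-! ### frames -/

lemma frame_e (F : FrameD n) {u : Bc (n + 2)} (hu : 1 ≤ ‖u‖) {v : Vc (n + 2)}
    (hv : ⟪ec (n + 2), v⟫ = 0) : ⟪ec (n + 2), F.Rf u v⟫ = 0 := by
  conv_lhs => rw [← F.wall u hu]
  rw [LinearIsometryEquiv.inner_map_map, hv]

lemma adm_frame (F : FrameD n) : Adm (n + 2) fun u => F.Rf u (hc (n + 1)) where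
  cont := F.c_Rf.comp (continuous_id.prodMk continuous_const)
  ne u := by rw [← norm_ne_zero_iff, LinearIsometryEquiv.norm_map, norm_h]; exact one_ne_zero
  hor u hu := frame_e F hu inner_e_h

lemma rest_frame (F : FrameD n) (v : Vc (n + 2)) : IsRest v fun u => F.Rf u v := fun u hu => by
  show F.Rf u v = v
  rw [F.rest u hu]; rfl

/-- **frame joined with a reversed path.** -/
theorem typ_frame (F : FrameD n) {g : Bc (n + 2) → Vc (n + 2)} {a b a' b' : ℤ}
    (hg : Adm (n + 2) g) (rg : IsRest (hc (n + 1)) g)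
    (h : Typ n (fun u => F.Rf u (hc (n + 1))) a b) (h' : Typ n g a' b') :
    Typ n (fun u => F.Rf (us u (4 * u 1 + 3)) (g (us u (-16 * u 1 + -1)))) (a - a') (b - b') := by
  have h1 := Typ.cat (hc (n + 1)) (adm_frame F)
    (g := GS_808.rev g) ⟨?_, fun u => hg.ne _, fun u hu => hg.hor _ ?_⟩ (rest_frame F _) ?_ h
    (Typ.rev (hc (n + 1)) hg rg h')
  · rw [← sub_eq_add_neg, ← sub_eq_add_neg] at h1
    refine h1.congr ⟨fun q => F.Rf (us q.2 (ln 2 1 4 3 q.1 (q.2 1)))
      (g (us q.2 (ln (-2) 1 (-16) (-1) q.1 (q.2 1)))), ?_, fun t ht u _ => ?_, fun t ht u hu => ?_,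
      fun u _ => ?_, fun u _ => ?_⟩
    · exact (F.c_Rf.comp ((continuous_ln 2 1 4 3).prodMk
        (hg.cont.comp (continuous_ln (-2) 1 (-16) (-1))))).continuousOn
    · rw [← norm_ne_zero_iff, LinearIsometryEquiv.norm_map, norm_ne_zero_iff]; exact hg.ne _
    · exact frame_e F (okL.norm ht hu) (hg.hor _ (okM.norm ht hu))
    · show F.Rf (us u (ln 2 1 4 3 0 (u 1))) (g (us u (ln (-2) 1 (-16) (-1) 0 (u 1)))) = _
      rw [ln_zero, ln_zero]
      unfold GS_808.cat
      split_ifs with hu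
      · rw [rg _ (rest_us u (le_abs_of_le (by linarith)))]; rfl
      · rw [F.rest _ (rest_us u (le_abs_of_le (by linarith)))]
        have e1 : blowR u 1 = 2 * u 1 - 1 := us_apply u _
        have e2 : Function.update (blowR u) 1 (-(blowR u 1)) = us u (-2 * u 1 + 1) := by
          rw [e1]
          show us (us u (2 * u 1 - 1)) (-(2 * u 1 - 1)) = _
          rw [us_us]; congr 1; ring
        show g _ = g (Function.update (blowR u) 1 (-(blowR u 1)))
        rw [e2]
    · show F.Rf (us u (ln 2 1 4 3 1 (u 1))) (g (us u (ln (-2) 1 (-16) (-1) 1 (u 1)))) = _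
      rw [ln_one, ln_one]
  · exact hg.cont.comp (continuous_id.update 1 (continuous_apply 1).neg)
  · exact norm_us u hu fun h => by rwa [abs_neg]
  · exact fun u hu => rg _ (rest_us_of u hu fun h => by rwa [abs_neg])

/-- the same for normals. -/
theorem typN_frame (F : FrameD n) {g : Bc (n + 2) → Vc (n + 2)} {c c' : ℤ} (cg : Continuous g)
    (ng : ∀ u, g u ≠ 0) (wg : ∀ u, 1 ≤ ‖u‖ → g u = ec (n + 2))
    (h : TypN n (fun u => F.Rf u (ec (n + 2))) c) (h' : TypN n g c') :
    TypN n (fun u => F.Rf (us u (4 * u 1 + 3)) (g (us u (-16 * u 1 + -1)))) (c - c') := by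
  have key : ∀ (u : Bc (n + 2)) {s : ℝ}, 1 ≤ |s| → 1 ≤ ‖us u s‖ := fun u s hs => by
    have := norm_le_pi_norm (us u s) 1
    rw [us_apply, Real.norm_eq_abs] at this
    linarith
  have h1 := TypN.cat (f := fun u => F.Rf u (ec (n + 2))) (g := GS_808.rev g)
    (F.c_Rf.comp (continuous_id.prodMk continuous_const)) ?_
    (fun u => by
      rw [← norm_ne_zero_iff, LinearIsometryEquiv.norm_map, norm_e]; exact one_ne_zero)
    (fun u => ng _) (fun u hu => F.wall u hu) (fun u hu => wg _ ?_) h (TypN.rev cg ng wg h')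
  · rw [← sub_eq_add_neg] at h1
    refine h1.congr ⟨fun q => F.Rf (us q.2 (ln 2 1 4 3 q.1 (q.2 1)))
      (g (us q.2 (ln (-2) 1 (-16) (-1) q.1 (q.2 1)))), ?_, fun t ht u _ => ?_, fun t ht u hu => ?_,
      fun u _ => ?_, fun u _ => ?_⟩
    · exact (F.c_Rf.comp ((continuous_ln 2 1 4 3).prodMk
        (cg.comp (continuous_ln (-2) 1 (-16) (-1))))).continuousOn
    · rw [← norm_ne_zero_iff, LinearIsometryEquiv.norm_map, norm_ne_zero_iff]; exact ng _
    · show F.Rf (us u (ln 2 1 4 3 t (u 1))) (g (us u (ln (-2) 1 (-16) (-1) t (u 1)))) = _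
      rw [wg _ (okM.norm ht hu), F.wall _ (okL.norm ht hu)]
    · show F.Rf (us u (ln 2 1 4 3 0 (u 1))) (g (us u (ln (-2) 1 (-16) (-1) 0 (u 1)))) = _
      rw [ln_zero, ln_zero]
      unfold GS_808.cat
      split_ifs with hu
      · rw [wg _ (key u (le_abs_of_le (by linarith)))]; rfl
      · rw [F.rest _ (rest_us u (le_abs_of_le (by linarith)))]
        have e1 : blowR u 1 = 2 * u 1 - 1 := us_apply u _
        have e2 : Function.update (blowR u) 1 (-(blowR u 1)) = us u (-2 * u 1 + 1) := by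
          rw [e1]
          show us (us u (2 * u 1 - 1)) (-(2 * u 1 - 1)) = _
          rw [us_us]; congr 1; ring
        show g _ = g (Function.update (blowR u) 1 (-(blowR u 1)))
        rw [e2]
    · show F.Rf (us u (ln 2 1 4 3 1 (u 1))) (g (us u (ln (-2) 1 (-16) (-1) 1 (u 1)))) = _
      rw [ln_one, ln_one]
  · exact cg.comp (continuous_id.update 1 (continuous_apply 1).neg)
  · exact norm_us u hu fun h => by rwa [abs_neg]

/-- shrinking one strand: `x - y ~ -y'`. -/
theorem fh_shrink {x y y' : Bc (n + 2) → Vc (n + 2)} (cx : Continuous x) (cy : Continuous y)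
    (cy' : Continuous y') (hx : ∀ u, ‖u‖ = 1 → ⟪ec (n + 2), x u⟫ = 0)
    (hy : ∀ u, ‖u‖ = 1 → ⟪ec (n + 2), y u⟫ = 0) (hy' : ∀ u, ‖u‖ = 1 → ⟪ec (n + 2), y' u⟫ = 0)
    (h1 : ∀ u, ‖u‖ ≤ 1 → ∀ t ∈ Icc (0 : ℝ) 1, x u ≠ (1 - t) • y u + t • y' u)
    (h2 : ∀ u, ‖u‖ ≤ 1 → ∀ t ∈ Icc (0 : ℝ) 1, (1 - t) • x u ≠ y' u) :
    FH (ec (n + 2)) (fun u => x u - y u) (fun u => -(y' u)) := by
  refine IsotB_92.FH.trans (g := fun u => x u - y' u)
    (fh_of_segment (cx.sub cy).continuousOn (cx.sub cy').continuousOn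
      (fun u hu => by rw [inner_sub_right, hx u hu, hy u hu, sub_zero])
      (fun u hu => by rw [inner_sub_right, hx u hu, hy' u hu, sub_zero]) fun u hu t ht => ?_)
    (fh_of_segment (cx.sub cy').continuousOn cy'.neg.continuousOn
      (fun u hu => by rw [inner_sub_right, hx u hu, hy' u hu, sub_zero])
      (fun u hu => by rw [inner_neg_right, hy' u hu, neg_zero]) fun u hu t ht => ?_)
  · have e : (1 - t) • (x u - y u) + t • (x u - y' u)
        = x u - ((1 - t) • y u + t • y' u) := by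
      simp only [smul_sub, sub_smul, one_smul]; abel
    rw [e]
    exact sub_ne_zero.2 (h1 u hu t ht)
  · have e : (1 - t) • (x u - y' u) + t • -(y' u) = (1 - t) • x u - y' u := by
      simp only [smul_sub, sub_smul, one_smul, smul_neg]; abel
    rw [e]
    exact sub_ne_zero.2 (h2 u hu t ht)

end Crest.Agent.R267.ClsB_253
end

-- ▼ part R267/ClsC_253

/-!
# The data of the normal form (row 267, DRAFT B part 3, leaf T2-4)

`nfd P Q ..`: the strands of `Q` over `s ≤ -1/2`, those of `P` over `s ≥ 1/2`.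
-/

set_option autoImplicit false

namespace Crest.Agent.R267.ClsC_253

open Set Metric
open scoped RealInnerProductSpace
open Crest.Agent.R267.GS_808 Crest.Agent.R267.DraftB_808 Crest.Agent.R267.NF_808
open Crest.Agent.R267.IsotB_92 Crest.Agent.R267.ClsA_253 Crest.Agent.R267.ClsB_253

variable {n m : ℕ} {i j : Fin m}

lemma cont_us {φ : Bc (n + 2) → ℝ} (h : Continuous φ) : Continuous fun u => us u (φ u) :=
  continuous_id.update 1 h

lemma cont1 : Continuous fun u : Bc (n + 2) => u 1 := continuous_apply 1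


lemma absL {s : ℝ} (h : 1 ≤ |s|) : 1 ≤ |4 * s + 3| := by
  rcases le_total 0 s with h0 | h0
  · rw [abs_of_nonneg h0] at h; exact le_abs_of_le (by linarith)
  · rw [abs_of_nonpos h0] at h; exact le_abs_of_le_neg (by linarith)

lemma absR {s : ℝ} (h : 1 ≤ |s|) : 1 ≤ |4 * s - 3| := by
  rcases le_total 0 s with h0 | h0
  · rw [abs_of_nonneg h0] at h; exact le_abs_of_le (by linarith)
  · rw [abs_of_nonpos h0] at h; exact le_abs_of_le_neg (by linarith)

/-- joined strands. -/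
noncomputable def yy (P Q : OthD n m j) (k : Fin m) (u : Bc (n + 2)) : Vc (n + 2) :=
  Q.y k (us u (4 * u 1 + 3)) + P.y k (us u (4 * u 1 - 3)) - P.p k

/-- joined normals. -/
noncomputable def NN (P Q : OthD n m j) (k : Fin m) (u : Bc (n + 2)) : Vc (n + 2) :=
  Q.N k (us u (4 * u 1 + 3)) + P.N k (us u (4 * u 1 - 3)) - ec (n + 2)

variable (P Q : OthD n m j)


lemma yy_left (k : Fin m) {u : Bc (n + 2)} (hu : u 1 ≤ 1 / 2) :
    yy P Q k u = Q.y k (us u (4 * u 1 + 3)) := by
  unfold yy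
  rw [P.rest_y k _ (rest_us u (le_abs_of_le_neg (by linarith))), add_sub_cancel_right]

lemma yy_right (hp : Q.p = P.p) (k : Fin m) {u : Bc (n + 2)} (hu : -(1 / 2) ≤ u 1) :
    yy P Q k u = P.y k (us u (4 * u 1 - 3)) := by
  unfold yy
  rw [Q.rest_y k _ (rest_us u (le_abs_of_le (by linarith))), hp, add_sub_cancel_left]

lemma NN_left (k : Fin m) {u : Bc (n + 2)} (hu : u 1 ≤ 1 / 2) :
    NN P Q k u = Q.N k (us u (4 * u 1 + 3)) := by
  unfold NN
  rw [P.rest_N k _ (rest_us u (le_abs_of_le_neg (by linarith))), add_sub_cancel_right]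

lemma NN_right (k : Fin m) {u : Bc (n + 2)} (hu : -(1 / 2) ≤ u 1) :
    NN P Q k u = P.N k (us u (4 * u 1 - 3)) := by
  unfold NN
  rw [Q.rest_N k _ (rest_us u (le_abs_of_le (by linarith))), add_sub_cancel_left]

/-- the joined system of other strands. -/
noncomputable def oth (hp : Q.p = P.p) : OthD n m j where
  y := yy P Q
  N := NN P Q
  p := P.p
  c_y k := (((Q.c_y k).comp (cont_us ((continuous_const.mul cont1).add continuous_const))).add
    ((P.c_y k).comp (cont_us ((continuous_const.mul cont1).sub continuous_const)))).sub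
    continuous_const
  c_N k := (((Q.c_N k).comp (cont_us ((continuous_const.mul cont1).add continuous_const))).add
    ((P.c_N k).comp (cont_us ((continuous_const.mul cont1).sub continuous_const)))).sub
    continuous_const
  n_N k u := by
    rcases le_total 0 (u 1) with h | h
    · rw [NN_right P Q k (by linarith), P.n_N]
    · rw [NN_left P Q k (by linarith), Q.n_N]
  yj u := by
    rcases le_total 0 (u 1) with h | h
    · rw [yy_right P Q hp j (by linarith), P.yj]
    · rw [yy_left P Q j (by linarith), Q.yj]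
  sep k l u hkl := by
    rcases le_total 0 (u 1) with h | h
    · rw [yy_right P Q hp k (by linarith), yy_right P Q hp l (by linarith)]; exact P.sep k l _ hkl
    · rw [yy_left P Q k (by linarith), yy_left P Q l (by linarith)]; exact Q.sep k l _ hkl
  far k u hk := by
    rcases le_total 0 (u 1) with h | h
    · rw [yy_right P Q hp k (by linarith)]; exact P.far k _ hk
    · rw [yy_left P Q k (by linarith)]; exact Q.far k _ hk
  p_e := P.p_e
  p_h := P.p_h
  p_norm := P.p_norm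
  rest_y k u hu := by
    show yy P Q k u = P.p k
    unfold yy
    rw [Q.rest_y k _ (rest_us_of u hu absL), P.rest_y k _ (rest_us_of u hu absR), hp,
      add_sub_cancel_right]
  rest_N k u hu := by
    show NN P Q k u = _
    unfold NN
    rw [Q.rest_N k _ (rest_us_of u hu absL), P.rest_N k _ (rest_us_of u hu absR),
      add_sub_cancel_right]
  wall_y k u hu := by
    unfold yy
    rw [inner_sub_right, inner_add_right, Q.wall_y k _ (norm_us u hu absL),
      P.wall_y k _ (norm_us u hu absR), P.p_e k]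
    simp
  wall_N k u hu := by
    unfold NN
    rw [Q.wall_N k _ (norm_us u hu absL), P.wall_N k _ (norm_us u hu absR), add_sub_cancel_right]

/-- the frame supported in `s ≤ -1/2`. -/
noncomputable def frm (F : FrameD n) : FrameD n where
  Rf u := F.Rf (us u (4 * u 1 + 3))
  c_Rf := by
    have h : Continuous fun u : Bc (n + 2) => us u (4 * u 1 + 3) :=
      cont_us ((continuous_const.mul cont1).add continuous_const)
    exact F.c_Rf.comp ((h.comp continuous_fst).prodMk continuous_snd)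
  c_Rf' := by
    have h : Continuous fun u : Bc (n + 2) => us u (4 * u 1 + 3) :=
      cont_us ((continuous_const.mul cont1).add continuous_const)
    exact F.c_Rf'.comp ((h.comp continuous_fst).prodMk continuous_snd)
  rest u hu := F.rest _ (rest_us_of u hu absL)
  wall u hu := F.wall _ (norm_us u hu absL)

lemma frm_refl (F : FrameD n) {u : Bc (n + 2)} (hu : -(1 / 2) ≤ u 1) :
    (frm F).Rf u = LinearIsometryEquiv.refl ℝ _ :=
  F.rest _ (rest_us u (le_abs_of_le (by linarith)))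

/-- **the data.** -/
noncomputable def nfd (hp : Q.p = P.p) (D : PathD n) (F : FrameD n) (hij : i ≠ j) :
    NFD n m i j where
  toOthD := oth P Q hp
  P := D
  F := frm F
  hij := hij
  mid_y k u hu := by
    rw [abs_le] at hu
    show yy P Q k u = P.p k
    rw [yy_left P Q k hu.2, Q.rest_y k _ (rest_us u (le_abs_of_le (by linarith [hu.1]))), hp]
  mid_N k u hu := by
    rw [abs_le] at hu
    show NN P Q k u = _
    rw [NN_left P Q k hu.2, Q.rest_N k _ (rest_us u (le_abs_of_le (by linarith [hu.1])))]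
  mid_F u hu := frm_refl F (by rw [abs_le] at hu; exact hu.1)

lemma fr_eq (hp : Q.p = P.p) (D : PathD n) (F : FrameD n) (hij : i ≠ j) (u : Bc (n + 2)) :
    fr (nfd P Q hp D F hij) u = LinearIsometryEquiv.refl ℝ _ := by
  unfold fr
  split_ifs with h
  · exact frm_refl F (by linarith)
  · rfl

lemma fl_eq (hp : Q.p = P.p) (D : PathD n) (F : FrameD n) (hij : i ≠ j) (u : Bc (n + 2)) :
    fl (nfd P Q hp D F hij) u = F.Rf (us u (4 * u 1 + 3)) := by
  unfold fl
  split_ifs with h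
  · rfl
  · exact (F.rest _ (rest_us u (le_abs_of_le (by linarith)))).symm

/-! ### the radius function -/

lemma rp_pos (rho R1 s : ℝ) : 0 < rp rho R1 s := Real.exp_pos _

lemma continuous_rp (rho R1 : ℝ) : Continuous (rp rho R1) := by
  unfold rp
  fun_prop

lemma rp_le {rho R1 s : ℝ} (h0 : 0 < rho) (h1 : rho < 1 / 4) (h2 : 1 < R1) (h3 : rho * R1 < 1 / 16)
    (hs : 0 ≤ s) : rp rho R1 s ≤ 1 / 4 := by
  have l1 : Real.log rho ≤ Real.log (1 / 4) := Real.log_le_log h0 h1.le
  have l2 : Real.log rho + Real.log R1 ≤ 2 * Real.log (1 / 4) := by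
    rw [← Real.log_mul h0.ne' (by linarith)]
    have e : 2 * Real.log (1 / 4) = Real.log (1 / 16) := by
      rw [show (1 : ℝ) / 16 = (1 / 4) ^ 2 by norm_num, Real.log_pow]; norm_num
    rw [e]
    exact Real.log_le_log (mul_pos h0 (by linarith)) h3.le
  unfold rp
  rw [← Real.le_log_iff_exp_le (by norm_num)]
  set c := max (-(1 / 4)) (min (1 / 4) s) with hc
  have c0 : 0 ≤ c := le_max_of_le_right (le_min (by norm_num) hs)
  have c1 : c ≤ 1 / 4 := max_le (by norm_num) (min_le_left _ _)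
  nlinarith

lemma rp_eq {rho R1 s : ℝ} (h2 : 1 < R1) (hs : s ≤ -(1 / 4)) : rp rho R1 s = R1 := by
  unfold rp
  have e : max (-(1 / 4 : ℝ)) (min (1 / 4) s) = -(1 / 4) :=
    max_eq_left ((min_le_right _ _).trans hs)
  rw [e]
  have e2 : (1 / 2 + 2 * -(1 / 4 : ℝ)) * Real.log rho + (1 / 2 - 2 * -(1 / 4)) * Real.log R1
      = Real.log R1 := by ring
  rw [e2, Real.exp_log (by linarith)]

/-! ### matrices -/

open Matrix in
lemma mul_Rm (A : Matrix (Fin m) (Fin m) ℤ) (r c : Fin m) :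
    (A * T2alg1_684.Rm i j) r c = if c = i then A r j - A r i else A r c := by
  rw [Matrix.mul_apply]
  simp only [T2alg1_684.Rm_apply]
  split_ifs with h
  · simp [mul_sub, Finset.sum_sub_distrib]
  · simp

open Matrix in
lemma RmT_mul (A : Matrix (Fin m) (Fin m) ℤ) (r c : Fin m) :
    ((T2alg1_684.Rm i j).transpose * A) r c = if r = i then A j c - A i c else A r c := by
  rw [Matrix.mul_apply]
  simp only [Matrix.transpose_apply, T2alg1_684.Rm_apply]
  split_ifs with h
  · simp [sub_mul, Finset.sum_sub_distrib]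
  · simp

end Crest.Agent.R267.ClsC_253
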