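import Crest.Agent.R267.EndDef_864
import Crest.Agent.R267.GS_808

-- ▼ part R267/EndBas_864
section

/-!
# Homogeneous graph systems (row 267, T3-end): basic facts and the graph system over the cube
-/

set_option autoImplicit false

namespace Crest.Agent.R267.EndBas_864

open Set Metric
open scoped RealInnerProductSpace
open Crest.Agent.R267.GS_808 Crest.Agent.R267.EndDef_864

variable {n m : ℕ}

/-! ### the cube and the base -/

lemma one_le_max (b : Bc n) : 1 ≤ max 1 ‖b‖ := le_max_left _ _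

lemma norm_ret_le (b : Bc n) : ‖ret b‖ ≤ 1 := by
  have h := one_le_max b
  rw [ret, norm_smul, Real.norm_of_nonneg (by positivity), one_div, inv_mul_le_iff₀ (by linarith),
    mul_one]
  exact le_max_right _ _

lemma ret_of_le {b : Bc n} (h : ‖b‖ ≤ 1) : ret b = b := by
  rw [ret, max_eq_left h, div_one, one_smul]

lemma norm_ret_of_ge {b : Bc n} (h : 1 ≤ ‖b‖) : ‖ret b‖ = 1 := by
  rw [ret, norm_smul, max_eq_right h, Real.norm_of_nonneg (by positivity), one_div,
    inv_mul_cancel₀ (by linarith)]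

lemma ret_ret (b : Bc n) : ret (ret b) = ret b := ret_of_le (norm_ret_le b)

lemma continuous_ret : Continuous (ret : Bc n → Bc n) := by
  unfold ret
  refine Continuous.smul (continuous_const.div (continuous_const.max continuous_norm) fun b => ?_)
    continuous_id
  have := one_le_max b
  positivity

lemma pt_castSucc (b : Bc n) (z : ℝ) (i : Fin n) : pt b z i.castSucc = b i := by
  simp [pt]

lemma pt_last (b : Bc n) (z : ℝ) : pt b z (Fin.last n) = z := by
  simp [pt]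

lemma continuous_pt : Continuous fun p : Bc n × ℝ => pt p.1 p.2 := by
  unfold pt
  refine (PiLp.continuous_toLp 2 _).comp (continuous_pi fun i => ?_)
  refine Fin.lastCases ?_ (fun j => ?_) i
  · simp only [Fin.snoc_last]
    exact continuous_snd
  · simp only [Fin.snoc_castSucc]
    exact (continuous_apply j).comp continuous_fst

lemma pt_add (b b' : Bc n) (z z' : ℝ) : pt (b + b') (z + z') = pt b z + pt b' z' := by
  ext i
  refine Fin.lastCases ?_ (fun j => ?_) i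
  · simp only [PiLp.add_apply, pt_last]
  · simp only [PiLp.add_apply, pt_castSucc, Pi.add_apply]

lemma pt_smul (c : ℝ) (b : Bc n) (z : ℝ) : pt (c • b) (c * z) = c • pt b z := by
  ext i
  refine Fin.lastCases ?_ (fun j => ?_) i
  · simp only [PiLp.smul_apply, pt_last, smul_eq_mul]
  · simp only [PiLp.smul_apply, pt_castSucc, Pi.smul_apply, smul_eq_mul]

lemma inner_ec_pt (b : Bc n) (z : ℝ) : ⟪ec n, pt b z⟫ = z := by
  rw [ec, EuclideanSpace.inner_single_left, pt_last]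
  simp


lemma exists_pt (v : Vc n) : ∃ b z, v = pt b z := by
  refine ⟨fun i => v i.castSucc, v (Fin.last n), ?_⟩
  ext i
  refine Fin.lastCases ?_ (fun j => ?_) i
  · rw [pt_last]
  · rw [pt_castSucc]

lemma pt_inj {b b' : Bc n} {z z' : ℝ} (h : pt b z = pt b' z') : b = b' ∧ z = z' := by
  constructor
  · funext i
    rw [← pt_castSucc b z i, h, pt_castSucc]
  · rw [← pt_last b z, h, pt_last]

lemma pt_zero : pt (0 : Bc n) 0 = 0 := by
  ext i
  refine Fin.lastCases ?_ (fun j => ?_) i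
  · rw [pt_last]; rfl
  · rw [pt_castSucc]; rfl

lemma pt_eq_zero {b : Bc n} {z : ℝ} : pt b z = 0 ↔ b = 0 ∧ z = 0 := by
  rw [← pt_zero]
  exact ⟨fun h => pt_inj h, fun h => by rw [h.1, h.2]⟩

lemma inner_u1_bp (b : Bc (n + 2)) (z : ℝ) : ⟪u1 n, bp b z⟫ = z := by
  rw [bp, ← L_ec, inner_L, inner_ec_pt]

lemma bp_smul (c : ℝ) (b : Bc (n + 2)) (z : ℝ) : bp (c • b) (c * z) = c • bp (n := n) b z := by
  rw [bp, pt_smul, map_smul, bp]

lemma bp_eq_zero {b : Bc (n + 2)} {z : ℝ} : bp (n := n) b z = 0 ↔ b = 0 ∧ z = 0 := by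
  rw [bp, LinearIsometryEquiv.map_eq_zero_iff, pt_eq_zero]

lemma exists_bp (v : W n) : ∃ b z, v = bp b z := by
  obtain ⟨b, z, h⟩ := exists_pt (L n v)
  exact ⟨b, z, by rw [bp, ← h, L_L]⟩


lemma bp_z (b : Bc (n + 2)) (z : ℝ) : bp (n := n) b z = bp b 0 + z • u1 n := by
  have h1 : bp (n := n) 0 z = z • u1 n := by
    have h2 : pt (0 : Bc (n + 2)) z = z • ec (n + 2) := by
      have h3 : ec (n + 2) = pt 0 1 := by
        ext i
        refine Fin.lastCases ?_ (fun j => ?_) i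
        · rw [pt_last, ec]; simp
        · rw [pt_castSucc, ec]; simp
      rw [h3, ← pt_smul, smul_zero, mul_one]
    rw [bp, h2, map_smul, L_ec]
  rw [← h1, bp, bp, bp, ← map_add, ← pt_add, add_zero, zero_add]


/-! ### vectors -/

lemma hor_add (v w : W n) : hor (v + w) = hor v + hor w := by
  rw [hor, hor, hor, inner_add_right, add_smul]; abel

lemma hor_sub (v w : W n) : hor (v - w) = hor v - hor w := by
  rw [hor, hor, hor, inner_sub_right, sub_smul]; abel

lemma hor_smul (c : ℝ) (v : W n) : hor (c • v) = c • hor v := by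
  rw [hor, hor, inner_smul_right, smul_sub, mul_smul]

lemma inner_u1_u1 (n : ℕ) : ⟪u1 n, u1 n⟫ = 1 := by
  rw [real_inner_self_eq_norm_sq, norm_u1]; norm_num

lemma hor_u1 (n : ℕ) : hor (u1 n) = 0 := by
  rw [hor, inner_u1_u1, one_smul, sub_self]

lemma inner_u1_hor (v : W n) : ⟪u1 n, hor v⟫ = 0 := by
  rw [hor, inner_sub_right, inner_smul_right, inner_u1_u1]; ring

lemma inner_hor_u1 (v : W n) : ⟪hor v, u1 n⟫ = 0 := by rw [real_inner_comm, inner_u1_hor]

lemma hor_add_u1 (v : W n) : hor v + ⟪u1 n, v⟫ • u1 n = v := by rw [hor]; abel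

lemma inner_hor (a v : W n) : ⟪a, hor v⟫ = ⟪a, v⟫ - ⟪a, u1 n⟫ * ⟪u1 n, v⟫ := by
  rw [hor, inner_sub_right, inner_smul_right]; ring

lemma inner_hor_hor (a v : W n) : ⟪hor a, hor v⟫ = ⟪a, hor v⟫ := by
  have h : ⟪hor a, hor v⟫ = ⟪a, hor v⟫ - ⟪u1 n, a⟫ * ⟪u1 n, hor v⟫ := by
    conv_lhs => rw [hor, inner_sub_left, inner_smul_left]
    simp
  rw [h, inner_u1_hor, mul_zero, sub_zero]

lemma continuous_hor : Continuous (hor : W n → W n) := by
  unfold hor
  fun_prop

lemma inner_proj (a v : W n) (ha : a ≠ 0) : ⟪a, proj a v⟫ = 0 := by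
  have h : ‖a‖ ≠ 0 := norm_ne_zero_iff.2 ha
  rw [proj, inner_sub_right, inner_smul_right, real_inner_self_eq_norm_sq]
  field_simp
  ring

lemma norm_proj_le (a v : W n) : ‖proj a v‖ ≤ ‖v‖ := by
  by_cases ha : a = 0
  · rw [ha, proj, inner_zero_left]; simp
  have h : ‖a‖ ≠ 0 := norm_ne_zero_iff.2 ha
  have h1 : ‖proj a v‖ ^ 2 = ‖v‖ ^ 2 - ⟪a, v⟫ ^ 2 / ‖a‖ ^ 2 := by
    rw [proj, norm_sub_sq_real, inner_smul_right, norm_smul, mul_pow, Real.norm_eq_abs, sq_abs,
      real_inner_comm]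
    field_simp
    ring
  have h2 : 0 ≤ ⟪a, v⟫ ^ 2 / ‖a‖ ^ 2 := by positivity
  exact abs_le_of_sq_le_sq' (by linarith) (norm_nonneg _) |>.2



lemma abs_apply_le (v : W n) (j : Fin (n + 3)) : |v j| ≤ ‖v‖ := by
  have h1 : v j ^ 2 ≤ ‖v‖ ^ 2 := by
    rw [norm_sq_def]
    exact Finset.single_le_sum (f := fun i => v i ^ 2) (fun i _ => sq_nonneg _) (Finset.mem_univ j)
  exact abs_le_of_sq_le_sq h1 (norm_nonneg _)

lemma continuous_vec {X : Type*} [TopologicalSpace X] {s : Set X} {f : X → Fin (n + 3) → ℝ}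
    (h : ∀ j, ContinuousOn (fun x => f x j) s) : ContinuousOn (fun x => vec (f x)) s :=
  (PiLp.continuous_toLp 2 _).comp_continuousOn (continuousOn_pi.2 h)

/-! ### the conormals -/

variable (D : HD n m)

lemma exists_large {s : W n} (hs : s ≠ 0) : ∃ j, D.d * ‖s‖ < |s j| := by
  by_contra h
  push Not at h
  have h0 : 0 < ‖s‖ := norm_pos_iff.2 hs
  have h1 : ‖s‖ ^ 2 ≤ ∑ _j : Fin (n + 3), (D.d * ‖s‖) ^ 2 := by
    rw [norm_sq_def]
    refine Finset.sum_le_sum fun j _ => ?_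
    rw [← sq_abs (s j)]
    exact pow_le_pow_left₀ (abs_nonneg _) (h j) 2
  rw [Finset.sum_const, Finset.card_univ, Fintype.card_fin, nsmul_eq_mul] at h1
  push_cast at h1
  have h2 := D.hdN
  have h3 : 0 < ‖s‖ ^ 2 := by positivity
  nlinarith


lemma Yp_nonneg {x : ℝ} (hx : 0 ≤ x) : 0 ≤ D.Yp x := by
  rw [← D.Yp0 0 (by rw [abs_zero]; exact D.hd.le)]
  exact D.mYp hx

lemma Yp_nonpos {x : ℝ} (hx : x ≤ D.d) : D.Yp x ≤ 0 := by
  rw [← D.Yp0 D.d (by rw [abs_of_pos D.hd])]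
  exact D.mYp hx

lemma Ym_nonpos (x : ℝ) : D.Ym x ≤ 0 := by
  rcases le_or_gt x D.d with h | h
  · rw [D.Ymp x h]; exact Yp_nonpos D h
  · exact (D.Ymn x h).le

lemma nz_apply (s : W n) (j : Fin (n + 3)) : D.nz s j = D.Yp (s j / ‖s‖) := rfl

lemma nrm_apply (k : Fin m) (s : W n) (j : Fin (n + 3)) :
    D.nrm k s j = if D.neg k j then D.Ym (s j / ‖s‖) else D.Yp (s j / ‖s‖) := rfl

/-- below the level `d` all conormals agree. -/
lemma nrm_eq_of_lt {k : Fin m} {s : W n} (hs : s ≠ 0) {j : Fin (n + 3)} (h : s j ≤ D.d * ‖s‖) :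
    D.nrm k s j = D.nz s j := by
  have h0 : 0 < ‖s‖ := norm_pos_iff.2 hs
  have h1 : s j / ‖s‖ ≤ D.d := by rw [div_le_iff₀ h0]; exact h
  rw [nrm_apply, nz_apply, D.Ymp _ h1]
  simp

lemma nz_nonpos {s : W n} (hs : s ≠ 0) {j : Fin (n + 3)} (h : s j ≤ D.d * ‖s‖) : D.nz s j ≤ 0 := by
  have h0 : 0 < ‖s‖ := norm_pos_iff.2 hs
  exact Yp_nonpos D (by rw [div_le_iff₀ h0]; exact h)

lemma nz_pos {s : W n} (hs : s ≠ 0) {j : Fin (n + 3)} (h : D.d * ‖s‖ < s j) : 0 < D.nz s j := by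
  have h0 : 0 < ‖s‖ := norm_pos_iff.2 hs
  exact D.Ypp _ (by rw [lt_div_iff₀ h0]; exact h)

lemma nz_neg {s : W n} (hs : s ≠ 0) {j : Fin (n + 3)} (h : s j < -(D.d * ‖s‖)) : D.nz s j < 0 := by
  have h0 : 0 < ‖s‖ := norm_pos_iff.2 hs
  exact D.Ypn _ (by rw [div_lt_iff₀ h0]; linarith)

lemma nrm_ne_of_large {k : Fin m} {s : W n} (hs : s ≠ 0) {j : Fin (n + 3)}
    (h : D.d * ‖s‖ < |s j|) : D.nrm k s j ≠ 0 := by
  have h0 : 0 < ‖s‖ := norm_pos_iff.2 hs
  rcases le_or_gt (s j) 0 with h1 | h1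
  · rw [abs_of_nonpos h1] at h
    have h2 : s j < -(D.d * ‖s‖) := by linarith
    have h3 : s j ≤ D.d * ‖s‖ := by nlinarith [D.hd]
    rw [nrm_eq_of_lt D hs h3]
    exact (nz_neg D hs h2).ne
  · rw [abs_of_pos h1] at h
    rw [nrm_apply]
    have h2 : D.d < s j / ‖s‖ := by rw [lt_div_iff₀ h0]; exact h
    split_ifs
    · exact (D.Ymn _ h2).ne
    · exact (D.Ypp _ h2).ne'

lemma nrm_ne {k : Fin m} {s : W n} (hs : s ≠ 0) : D.nrm k s ≠ 0 := by
  obtain ⟨j, hj⟩ := exists_large D hs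
  intro h
  exact nrm_ne_of_large (k := k) D hs hj (by rw [h]; rfl)

lemma nz_ne_of_large {s : W n} (hs : s ≠ 0) {j : Fin (n + 3)}
    (h : D.d * ‖s‖ < |s j|) : D.nz s j ≠ 0 := by
  rcases le_or_gt (s j) 0 with h1 | h1
  · rw [abs_of_nonpos h1] at h
    exact (nz_neg D hs (by linarith)).ne
  · rw [abs_of_pos h1] at h
    exact (nz_pos D hs h).ne'

lemma nz_ne {s : W n} (hs : s ≠ 0) : D.nz s ≠ 0 := by
  obtain ⟨j, hj⟩ := exists_large D hs
  intro h
  exact nz_ne_of_large D hs hj (by rw [h]; rfl)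

lemma div_norm_continuousOn (j : Fin (n + 3)) :
    ContinuousOn (fun s : W n => s j / ‖s‖) {0}ᶜ := by
  refine ContinuousOn.div ?_ continuous_norm.continuousOn fun s hs => norm_ne_zero_iff.2 hs
  exact ((continuous_apply j).comp (PiLp.continuous_ofLp 2 _)).continuousOn

lemma nz_continuousOn : ContinuousOn D.nz {0}ᶜ :=
  continuous_vec fun j => D.cYp.comp_continuousOn (div_norm_continuousOn j)

lemma nrm_continuousOn (k : Fin m) : ContinuousOn (D.nrm k) {0}ᶜ := by
  refine continuous_vec fun j => ?_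
  by_cases h : D.neg k j
  · simp only [h, if_true]
    exact D.cYm.comp_continuousOn (div_norm_continuousOn j)
  · simp only [h, Bool.false_eq_true, if_false]
    exact D.cYp.comp_continuousOn (div_norm_continuousOn j)

lemma nz_smul {c : ℝ} (hc : 0 < c) (s : W n) : D.nz (c • s) = D.nz s := by
  ext j
  rw [nz_apply, nz_apply, norm_smul, Real.norm_of_nonneg hc.le, PiLp.smul_apply, smul_eq_mul,
    mul_div_mul_left _ _ hc.ne']

lemma nrm_smul {c : ℝ} (hc : 0 < c) (k : Fin m) (s : W n) : D.nrm k (c • s) = D.nrm k s := by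
  ext j
  rw [nrm_apply, nrm_apply, norm_smul, Real.norm_of_nonneg hc.le, PiLp.smul_apply, smul_eq_mul,
    mul_div_mul_left _ _ hc.ne']

/-- low points: all coordinates at most `d ‖s‖`. -/
lemma inner_nz_u1_neg {s : W n} (hs : s ≠ 0) (h : ∀ j, s j ≤ D.d * ‖s‖) : ⟪D.nz s, u1 n⟫ < 0 := by
  rw [real_inner_comm, inner_u1]
  refine div_neg_of_neg_of_pos ?_ (sqrt_pos n)
  obtain ⟨j, hj⟩ := exists_large D hs
  have hj' : D.nz s j < 0 :=
    lt_of_le_of_ne (nz_nonpos D hs (h j)) (nz_ne_of_large D hs hj)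
  calc ∑ i, D.nz s i < ∑ _i : Fin (n + 3), (0 : ℝ) :=
        Finset.sum_lt_sum (fun i _ => nz_nonpos D hs (h i)) ⟨j, Finset.mem_univ _, hj'⟩
    _ = 0 := by simp

lemma nrm_eq_nz {k : Fin m} {s : W n} (hs : s ≠ 0) (h : ∀ j, s j ≤ D.d * ‖s‖) :
    D.nrm k s = D.nz s := by
  ext j
  exact nrm_eq_of_lt D hs (h j)

/-! ### the shear -/

/-- coefficient of the shear. -/
noncomputable def q (s : W n) : ℝ := D.ka s / ⟪D.nz s, u1 n⟫

lemma q_continuousOn : ContinuousOn (q D) {0}ᶜ := by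
  intro s hs
  have hs' : s ≠ 0 := hs
  by_cases h : ∀ j, s j ≤ D.d * ‖s‖
  · have h1 := inner_nz_u1_neg D hs' h
    refine ContinuousWithinAt.div (D.cka s hs) ?_ h1.ne
    exact (nz_continuousOn D s hs).inner continuousWithinAt_const
  · push Not at h
    obtain ⟨j, hj⟩ := h
    have h2 : {t : W n | D.d * ‖t‖ < t j} ∈ nhds s := by
      refine IsOpen.mem_nhds ?_ hj
      exact isOpen_lt (by fun_prop) ((continuous_apply j).comp (PiLp.continuous_ofLp 2 _))
    have h3 : (fun _ => (0 : ℝ)) =ᶠ[nhdsWithin s {0}ᶜ] q D := by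
      filter_upwards [mem_nhdsWithin_of_mem_nhds h2, self_mem_nhdsWithin] with t ht ht0
      have : D.ka t = 0 := by
        by_contra hk
        exact absurd (D.kap t ht0 hk j) (not_lt.2 (le_of_lt ht))
      rw [q, this, zero_div]
    exact continuousWithinAt_const.congr_of_eventuallyEq h3.symm (by
      have : D.ka s = 0 := by
        by_contra hk
        exact absurd (D.kap s hs' hk j) (not_lt.2 (le_of_lt hj))
      rw [q, this, zero_div])

lemma A_eq (s v : W n) : D.A s v = v + (q D s * ⟪D.nz s, hor v⟫) • u1 n := by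
  rw [HD.A, q]
  congr 2
  ring

lemma A_sub (s v w : W n) : D.A s (v - w) = D.A s v - D.A s w := by
  rw [A_eq, A_eq, A_eq, hor_sub, inner_sub_right, mul_sub, sub_smul]
  abel

lemma A_add (s v w : W n) : D.A s (v + w) = D.A s v + D.A s w := by
  rw [A_eq, A_eq, A_eq, hor_add, inner_add_right, mul_add, add_smul]
  abel

lemma A_smul (s : W n) (c : ℝ) (v : W n) : D.A s (c • v) = c • D.A s v := by
  rw [A_eq, A_eq, hor_smul, inner_smul_right, smul_add, smul_smul]
  congr 2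
  ring

lemma hor_A (s v : W n) : hor (D.A s v) = hor v := by
  rw [A_eq, hor_add, hor_smul, hor_u1, smul_zero, add_zero]

lemma inner_u1_A (s v : W n) : ⟪u1 n, D.A s v⟫ = ⟪u1 n, v⟫ + q D s * ⟪D.nz s, hor v⟫ := by
  rw [A_eq, inner_add_right, inner_smul_right, inner_u1_u1, mul_one]

/-- vertical component after the shear. -/
lemma inner_u1_A' {s : W n} (hs : s ≠ 0) (v : W n) :
    ⟪u1 n, D.A s v⟫ = (1 - D.ka s) * ⟪u1 n, v⟫ + q D s * ⟪D.nz s, v⟫ := by
  rw [inner_u1_A, inner_hor]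
  by_cases h : D.ka s = 0
  · rw [q, h]; simp
  · have h1 := inner_nz_u1_neg D hs fun j => (D.kap s hs h j).le
    have h2 : ⟪D.nz s, u1 n⟫ ≠ 0 := h1.ne
    rw [q]
    field_simp
    ring

lemma A_eq_zero {s v : W n} (h : D.A s v = 0) : v = 0 := by
  have h1 : hor v = 0 := by rw [← hor_A D s, h, hor, inner_zero_right, zero_smul, sub_zero]
  rw [A_eq, h1, inner_zero_right, mul_zero, zero_smul, add_zero] at h
  exact h

lemma A_ne {s v : W n} (h : v ≠ 0) : D.A s v ≠ 0 := fun h' => h (A_eq_zero D h')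

lemma A_homog {c : ℝ} (hc : 0 < c) (s v : W n) : D.A (c • s) v = D.A s v := by
  rw [HD.A, HD.A, D.kah c s hc, nz_smul D hc]

lemma A_continuousOn {X : Type*} [TopologicalSpace X] {S : Set X} {f g : X → W n}
    (hf : ContinuousOn f S) (hg : ContinuousOn g S) (h0 : ∀ x ∈ S, f x ≠ 0) :
    ContinuousOn (fun x => D.A (f x) (g x)) S := by
  have h1 : ContinuousOn (fun x => q D (f x)) S := (q_continuousOn D).comp hf fun x hx => h0 x hx
  have h2 : ContinuousOn (fun x => D.nz (f x)) S := (nz_continuousOn D).comp hf fun x hx => h0 x hx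
  have h3 : ContinuousOn (fun x => hor (g x)) S := continuous_hor.comp_continuousOn hg
  simp only [A_eq]
  exact hg.add ((h1.mul (h2.inner h3)).smul continuousOn_const)


/-! ### positions -/

lemma hs_apply (s : W n) (j : Fin (n + 3)) : D.hs s j = ‖s‖ * D.pp (s j / ‖s‖) := rfl

lemma hs_pos {s : W n} {j : Fin (n + 3)} (h : 0 < s j) : 0 < D.hs s j := by
  have h0 : 0 < ‖s‖ := norm_pos_iff.2 fun h1 => by rw [h1] at h; exact lt_irrefl _ h
  exact mul_pos h0 (D.ppp _ (div_pos h h0))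

lemma hs_nonpos {s : W n} {j : Fin (n + 3)} (h : s j ≤ 0) : D.hs s j ≤ 0 :=
  mul_nonpos_of_nonneg_of_nonpos (norm_nonneg _)
    (D.ppn _ (div_nonpos_of_nonpos_of_nonneg h (norm_nonneg _)))

lemma hs_of_large {s : W n} (hs : s ≠ 0) {j : Fin (n + 3)} (h : D.d * ‖s‖ ≤ s j) :
    D.hs s j = s j := by
  have h0 : 0 < ‖s‖ := norm_pos_iff.2 hs
  rw [hs_apply, D.ppd _ (by rwa [le_div_iff₀ h0]), mul_div_cancel₀ _ h0.ne']

lemma hs_smul {c : ℝ} (hc : 0 < c) (s : W n) : D.hs (c • s) = c • D.hs s := by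
  ext j
  rw [PiLp.smul_apply, hs_apply, hs_apply, norm_smul, Real.norm_of_nonneg hc.le, PiLp.smul_apply,
    smul_eq_mul, smul_eq_mul, mul_div_mul_left _ _ hc.ne', mul_assoc]

lemma hs_zero : D.hs (0 : W n) = 0 := by
  ext j
  rw [hs_apply, norm_zero, zero_mul]
  rfl

lemma hs_continuousOn (j : Fin (n + 3)) : ContinuousOn (fun s => D.hs s j) {0}ᶜ :=
  continuous_norm.continuousOn.mul (D.cpp.comp_continuousOn (div_norm_continuousOn j))

lemma eta_apply (k : Fin m) (s : W n) (j : Fin (n + 3)) :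
    D.eta k s j = max (D.hs s j) 0 * D.sg k j + D.ep * ‖s‖ * D.th s * proj (D.nrm k s) (vec (D.V k)) j := by
  rw [HD.eta, PiLp.add_apply, PiLp.smul_apply, smul_eq_mul]
  rfl

lemma proj_continuousOn {X : Type*} [TopologicalSpace X] {S : Set X} {f g : X → W n}
    (hf : ContinuousOn f S) (hg : ContinuousOn g S) (h0 : ∀ x ∈ S, f x ≠ 0) :
    ContinuousOn (fun x => proj (f x) (g x)) S := by
  unfold proj
  exact hg.sub (((hf.inner hg).div (hf.norm.pow 2) fun x hx =>
    pow_ne_zero 2 (norm_ne_zero_iff.2 (h0 x hx))).smul hf)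

lemma eta_continuousOn (k : Fin m) : ContinuousOn (D.eta k) {0}ᶜ := by
  unfold HD.eta
  refine ContinuousOn.add ?_ ?_
  · refine continuous_vec fun j => ?_
    have h : Continuous fun x : ℝ => max x 0 * D.sg k j := by fun_prop
    exact h.comp_continuousOn (hs_continuousOn D j)
  · have a1 : ContinuousOn (fun s : W n => D.ep * ‖s‖ * D.th s) {0}ᶜ :=
      (continuousOn_const.mul continuous_norm.continuousOn).mul D.cth
    have a2 : ContinuousOn (fun s : W n => proj (D.nrm k s) (vec (D.V k))) {0}ᶜ :=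
      proj_continuousOn (nrm_continuousOn D k) continuousOn_const fun s hs => nrm_ne D hs
    exact a1.smul a2

lemma eta_smul {c : ℝ} (hc : 0 < c) (k : Fin m) (s : W n) : D.eta k (c • s) = c • D.eta k s := by
  ext j
  rw [PiLp.smul_apply, eta_apply, eta_apply, nrm_smul D hc, D.thh c s hc, norm_smul,
    Real.norm_of_nonneg hc.le, hs_smul D hc, PiLp.smul_apply, smul_eq_mul, smul_eq_mul]
  have : max (c * D.hs s j) 0 = c * max (D.hs s j) 0 := by
    rw [mul_max_of_nonneg _ _ hc.le, mul_zero]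
  rw [this]
  ring

/-- difference vector of two strands, with a common conormal `a`. -/
lemma eta_sub_of_eq {k l : Fin m} {s : W n} (h : D.nrm k s = D.nrm l s) :
    D.eta k s - D.eta l s = vec (fun j => max (D.hs s j) 0 * (D.sg k j - D.sg l j)) +
      (D.ep * ‖s‖ * D.th s) • proj (D.nrm k s) (vec (D.V k) - vec (D.V l)) := by
  ext j
  rw [PiLp.sub_apply, eta_apply, eta_apply, PiLp.add_apply, PiLp.smul_apply, ← h, smul_eq_mul]
  have : proj (D.nrm k s) (vec (D.V k) - vec (D.V l)) =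
      proj (D.nrm k s) (vec (D.V k)) - proj (D.nrm k s) (vec (D.V l)) := by
    rw [proj, proj, proj, inner_sub_right, sub_div, sub_smul]; abel
  rw [this, PiLp.sub_apply, vec_apply]
  ring

/-- If some coordinate with different slopes is large, the strands are far apart. -/
lemma eta_apply_lt_of_large {k l : Fin m} {s : W n} (hs : s ≠ 0) {i : Fin (n + 3)}
    (hi : D.sg l i < D.sg k i) (h : D.d * ‖s‖ ≤ s i) : D.eta l s i < D.eta k s i := by
  have h0 : 0 < ‖s‖ := norm_pos_iff.2 hs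
  have hd := D.hd
  have h1 : 0 < s i := lt_of_lt_of_le (by positivity) h
  have h2 := D.small k l i (ne_of_gt hi)
  rw [abs_of_pos (by linarith)] at h2
  have h3 : |proj (D.nrm k s) (vec (D.V k)) i| ≤ ‖vec (D.V k)‖ :=
    (abs_apply_le _ i).trans (norm_proj_le _ _)
  have h4 : |proj (D.nrm l s) (vec (D.V l)) i| ≤ ‖vec (D.V l)‖ :=
    (abs_apply_le _ i).trans (norm_proj_le _ _)
  rw [eta_apply, eta_apply, hs_of_large D hs h, max_eq_left h1.le]
  have h5 := abs_le.1 h3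
  have h6 := abs_le.1 h4
  have hth := D.th0 s
  have hth1 := D.th1 s
  have hep := D.hep
  have h7 : D.ep * ‖s‖ * D.th s * (proj (D.nrm l s) (vec (D.V l)) i -
      proj (D.nrm k s) (vec (D.V k)) i) ≤ D.ep * ‖s‖ * (‖vec (D.V k)‖ + ‖vec (D.V l)‖) := by
    have a1 : proj (D.nrm l s) (vec (D.V l)) i - proj (D.nrm k s) (vec (D.V k)) i ≤
        ‖vec (D.V k)‖ + ‖vec (D.V l)‖ := by linarith [h5.1, h6.2]
    have a2 : 0 ≤ D.ep * ‖s‖ := by positivity
    have a3 : 0 ≤ ‖vec (D.V k)‖ + ‖vec (D.V l)‖ := by positivity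
    calc D.ep * ‖s‖ * D.th s * (proj (D.nrm l s) (vec (D.V l)) i -
          proj (D.nrm k s) (vec (D.V k)) i)
        ≤ D.ep * ‖s‖ * D.th s * (‖vec (D.V k)‖ + ‖vec (D.V l)‖) :=
          mul_le_mul_of_nonneg_left a1 (by positivity)
      _ ≤ D.ep * ‖s‖ * 1 * (‖vec (D.V k)‖ + ‖vec (D.V l)‖) := by gcongr
      _ = _ := by ring
  have h8 : D.ep * ‖s‖ * (‖vec (D.V k)‖ + ‖vec (D.V l)‖) < s i * (D.sg k i - D.sg l i) := by
    calc D.ep * ‖s‖ * (‖vec (D.V k)‖ + ‖vec (D.V l)‖)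
        = ‖s‖ * (D.ep * (‖vec (D.V k)‖ + ‖vec (D.V l)‖)) := by ring
      _ < ‖s‖ * (D.d * (D.sg k i - D.sg l i)) := by gcongr
      _ = (D.d * ‖s‖) * (D.sg k i - D.sg l i) := by ring
      _ ≤ s i * (D.sg k i - D.sg l i) := by gcongr
  nlinarith

/-- If no coordinate with different slopes is large, the conormals agree. -/
lemma nrm_eq_of_small {k l : Fin m} {s : W n} (hs : s ≠ 0)
    (h : ∀ i, D.sg k i ≠ D.sg l i → s i ≤ D.d * ‖s‖) : D.nrm k s = D.nrm l s := by
  ext j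
  by_cases hj : D.sg k j = D.sg l j
  · rw [nrm_apply, nrm_apply, D.ray k l j hj]
  · rw [nrm_eq_of_lt D hs (h j hj), nrm_eq_of_lt D hs (h j hj)]

/-- **key computation**: with a conormal `a` with `a j ≥ 0` where `s j > 0` and `Δ j ≠ 0`, `a j ≤ 0`
where `s j ≤ 0`, the vector `s⁺ Δ + c proj a V` vanishes only in the listed case. -/
lemma key_ne {s a Δ V : W n} {c : ℝ} (hc : 0 < c) (ha : a ≠ 0)
    (h1 : ∀ j, Δ j ≠ 0 → 0 < s j → 0 ≤ a j) (h2 : ∀ j, s j ≤ 0 → a j ≤ 0)
    (h3 : ∀ j, Δ j ≠ 0 → 0 < Δ j * V j)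
    (h : vec (fun j => max (s j) 0 * Δ j) + c • proj a V = 0) :
    ((∃ i, Δ i ≠ 0) → ∃ μ : ℝ, μ ≠ 0 ∧ (∀ j, V j = μ * a j) ∧ ∀ j, Δ j ≠ 0 → s j ≤ 0) := by
  rintro ⟨i, hi⟩
  have e : ∀ j, max (s j) 0 * Δ j + c * (V j - (⟪a, V⟫ / ‖a‖ ^ 2) * a j) = 0 := by
    intro j
    have := congrArg (fun v : W n => v j) h
    simpa [proj] using this
  set μ := ⟪a, V⟫ / ‖a‖ ^ 2 with hμ
  -- inner product with `a`
  have e2 : ∑ j, max (s j) 0 * Δ j * a j = 0 := by
    have h4 : ⟪a, vec (fun j => max (s j) 0 * Δ j) + c • proj a V⟫ = 0 := by rw [h, inner_zero_right]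
    rw [inner_add_right, inner_smul_right, inner_proj a V ha, mul_zero, add_zero, inner_def] at h4
    rw [← h4]
    exact Finset.sum_congr rfl fun j _ => by rw [vec_apply]; ring
  -- sign of `μ` at coordinates with `Δ j ≠ 0`
  have key : ∀ j, Δ j ≠ 0 → (0 < s j → 0 < μ * (a j * Δ j)) ∧ (s j ≤ 0 → 0 < μ * (a j * Δ j)) := by
    intro j hj
    have e3 := e j
    constructor
    · intro hs
      rw [max_eq_left hs.le] at e3
      have e4 : c * (μ * a j) = s j * Δ j + c * V j := by linarith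
      have e5 : c * (μ * (a j * Δ j)) = s j * Δ j ^ 2 + c * (Δ j * V j) := by
        calc c * (μ * (a j * Δ j)) = c * (μ * a j) * Δ j := by ring
          _ = (s j * Δ j + c * V j) * Δ j := by rw [e4]
          _ = _ := by ring
      have e6 : 0 < c * (μ * (a j * Δ j)) := by
        rw [e5]
        have := h3 j hj
        positivity
      exact (mul_pos_iff_of_pos_left hc).1 e6
    · intro hs
      rw [max_eq_right hs, zero_mul, zero_add] at e3
      have e4 : V j = μ * a j := by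
        have := (mul_eq_zero.1 e3).resolve_left hc.ne'
        linarith
      have := h3 j hj
      rw [e4] at this
      linarith [this]
  -- no positive coordinate with `Δ ≠ 0`
  have hneg : ∀ j, Δ j ≠ 0 → s j ≤ 0 := by
    intro j hj
    by_contra hs
    push Not at hs
    have k1 := (key j hj).1 hs
    have a1 : 0 ≤ a j := h1 j hj hs
    -- sign of μ Δ j is positive
    have s1 : 0 < μ * Δ j := by
      have : 0 < a j * (μ * Δ j) := by linarith
      by_contra hh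
      push Not at hh
      nlinarith [mul_nonneg a1 (neg_nonneg.2 hh)]
    -- all terms of the sum times μ are nonneg, the `j` one positive
    have e7 : ∀ l, 0 ≤ μ * (max (s l) 0 * Δ l * a l) := by
      intro l
      by_cases hl : Δ l = 0
      · rw [hl]; simp
      rcases le_or_gt (s l) 0 with h5 | h5
      · rw [max_eq_right h5]; simp
      · rw [max_eq_left h5.le]
        have := (key l hl).1 h5
        have : 0 ≤ s l * (μ * (a l * Δ l)) := by positivity
        linarith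
    have e8 : 0 < μ * (max (s j) 0 * Δ j * a j) := by
      rw [max_eq_left hs.le]
      have : 0 < s j * (μ * (a j * Δ j)) := by positivity
      linarith
    have e9 : 0 < ∑ l, μ * (max (s l) 0 * Δ l * a l) :=
      Finset.sum_pos' (fun l _ => e7 l) ⟨j, Finset.mem_univ _, e8⟩
    rw [← Finset.mul_sum, e2, mul_zero] at e9
    exact lt_irrefl _ e9
  refine ⟨μ, ?_, ?_, hneg⟩
  · intro h0
    have := (key i hi).2 (hneg i hi)
    rw [h0] at this
    simp at this
  · intro j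
    have e3 := e j
    by_cases hj : Δ j = 0
    · rw [hj, mul_zero, zero_add] at e3
      have := (mul_eq_zero.1 e3).resolve_left hc.ne'
      linarith
    · rw [max_eq_right (hneg j hj), zero_mul, zero_add] at e3
      have := (mul_eq_zero.1 e3).resolve_left hc.ne'
      linarith


lemma Yp_neg_iff {x : ℝ} (h : D.Yp x < 0) : x < -D.d := by
  by_contra hx
  push Not at hx
  have h1 := D.mYp hx
  rw [D.Yp0 (-D.d) (by rw [abs_neg, abs_of_pos D.hd])] at h1
  linarith

lemma exists_sg_ne {k l : Fin m} (h : k ≠ l) : ∃ i, D.sg k i ≠ D.sg l i := by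
  rcases D.trich k l h with h1 | h1 | h1 | h1
  · obtain ⟨i, hi⟩ := h1.2.1; exact ⟨i, hi.ne'⟩
  · obtain ⟨i, hi⟩ := h1.2.1; exact ⟨i, hi.ne⟩
  · rcases h1 with ⟨i, -, hi, -⟩ | ⟨-, i, -, hi, -⟩
    · exact ⟨i, hi.ne'⟩
    · exact ⟨i, hi.ne'⟩
  · rcases h1 with ⟨i, -, hi, -⟩ | ⟨-, i, -, hi, -⟩
    · exact ⟨i, hi.ne⟩
    · exact ⟨i, hi.ne⟩

/-- **strands are distinct** off the region where all coordinates are very negative. -/
lemma eta_ne {k l : Fin m} (hkl : k ≠ l) {s : W n} (hs : s ≠ 0) (hout : ∃ j, -(D.d * ‖s‖) ≤ s j) :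
    D.eta k s ≠ D.eta l s := by
  intro heq
  have h0 : 0 < ‖s‖ := norm_pos_iff.2 hs
  have hsm : ∀ i, D.sg k i ≠ D.sg l i → s i ≤ D.d * ‖s‖ := by
    intro i hi
    by_contra hh
    push Not at hh
    rcases lt_or_gt_of_ne hi with h | h
    · have := eta_apply_lt_of_large D (k := l) (l := k) hs h hh.le
      rw [heq] at this
      exact lt_irrefl _ this
    · have := eta_apply_lt_of_large D (k := k) (l := l) hs h hh.le
      rw [heq] at this
      exact lt_irrefl _ this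
  have hn := nrm_eq_of_small D hs hsm
  have h1 := eta_sub_of_eq D hn
  rw [heq, sub_self] at h1
  rcases (D.th0 s).eq_or_lt with hth | hth
  · obtain ⟨i, hi⟩ := exists_sg_ne D hkl
    have h2 := D.thp s hs hth.symm i
    have h3 := congrArg (fun v : W n => v i) h1
    simp only [← hth, mul_zero, zero_smul, add_zero, vec_apply, PiLp.zero_apply] at h3
    have h2' := hs_pos D h2
    rw [max_eq_left h2'.le] at h3
    exact (mul_ne_zero h2'.ne' (sub_ne_zero.2 hi)) h3.symm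
  · have hV : ∀ j, (vec (D.V k) - vec (D.V l) : W n) j = D.V k j - D.V l j := fun j => rfl
    have hsg : ∀ j, 0 < D.hs s j → 0 < s j := fun j h => by
      by_contra h'
      exact absurd (hs_nonpos D (not_lt.1 h')) (not_le.2 h)
    have hsg' : ∀ j, D.hs s j ≤ 0 → s j ≤ 0 := fun j h => by
      by_contra h'
      exact absurd (hs_pos D (not_le.1 h')) (not_lt.2 h)
    obtain ⟨μ, hμ, hVμ, hneg⟩ := key_ne (Δ := vec fun j => D.sg k j - D.sg l j) (s := D.hs s)
      (c := D.ep * ‖s‖ * D.th s) (by have := D.hep; positivity) (nrm_ne D (k := k) hs)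
      (fun j hj hsj0 => by
        have hsj := hsg j hsj0
        have hj' : D.sg k j ≠ D.sg l j := fun h => hj (by rw [vec_apply, h, sub_self])
        rw [nrm_eq_of_lt D hs (hsm j hj')]
        exact Yp_nonneg D (by positivity))
      (fun j hsj0 => by
        have hsj := hsg' j hsj0
        have hle : s j ≤ D.d * ‖s‖ := hsj.trans (by have := D.hd; positivity)
        rw [nrm_eq_of_lt D hs hle]
        exact nz_nonpos D hs hle)
      (fun j hj => by
        have hj' : D.sg k j ≠ D.sg l j := fun h => hj (by rw [vec_apply, h, sub_self])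
        rw [vec_apply, hV]
        exact D.hV k l j hj') (V := vec (D.V k) - vec (D.V l)) h1.symm
      (by
        obtain ⟨i, hi⟩ := exists_sg_ne D hkl
        exact ⟨i, by rw [vec_apply]; exact sub_ne_zero.2 hi⟩)
    simp only [hV, vec_apply, ne_eq, sub_eq_zero] at hVμ hneg
    have a_nonpos : ∀ j, D.sg k j ≠ D.sg l j → D.nrm k s j ≤ 0 := by
      intro j hj
      rw [nrm_eq_of_lt D hs (hsm j hj)]
      exact nz_nonpos D hs (hsm j hj)
    have case_pos : (∀ j, D.V l j < D.V k j) → (∀ j, D.sg k j = D.sg l j → D.neg k j = false) →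
        μ < 0 → False := by
      intro hVp hray hμn
      obtain ⟨j, hj⟩ := hout
      have h3 : 0 < μ * D.nrm k s j := by rw [← hVμ]; linarith [hVp j]
      have h4 : D.nrm k s j < 0 := by
        by_contra hh
        push Not at hh
        nlinarith
      have h5 : D.Yp (s j / ‖s‖) < 0 := by
        by_cases hj' : D.sg k j = D.sg l j
        · rw [nrm_apply, hray j hj'] at h4
          simpa using h4
        · rw [nrm_eq_of_lt D hs (hsm j hj')] at h4
          exact h4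
      have h6 := Yp_neg_iff D h5
      rw [div_lt_iff₀ h0] at h6
      linarith
    have case_neg : (∀ j, D.V k j < D.V l j) → (∀ j, D.sg k j = D.sg l j → D.neg k j = false) →
        0 < μ → False := by
      intro hVp hray hμn
      obtain ⟨j, hj⟩ := hout
      have h3 : μ * D.nrm k s j < 0 := by rw [← hVμ]; linarith [hVp j]
      have h4 : D.nrm k s j < 0 := by
        by_contra hh
        push Not at hh
        nlinarith
      have h5 : D.Yp (s j / ‖s‖) < 0 := by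
        by_cases hj' : D.sg k j = D.sg l j
        · rw [nrm_apply, hray j hj'] at h4
          simpa using h4
        · rw [nrm_eq_of_lt D hs (hsm j hj')] at h4
          exact h4
      have h6 := Yp_neg_iff D h5
      rw [div_lt_iff₀ h0] at h6
      linarith
    -- signs of μ from one coordinate
    have sgn : ∀ i, D.sg k i ≠ D.sg l i → 0 < D.V k i - D.V l i → μ < 0 := by
      intro i hi hVi
      have h3 := a_nonpos i hi
      rw [hVμ] at hVi
      by_contra hh
      push Not at hh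
      nlinarith
    have sgn' : ∀ i, D.sg k i ≠ D.sg l i → D.V k i - D.V l i < 0 → 0 < μ := by
      intro i hi hVi
      have h3 := a_nonpos i hi
      rw [hVμ] at hVi
      by_contra hh
      push Not at hh
      nlinarith
    have vpos : ∀ i, D.sg l i < D.sg k i → 0 < D.V k i - D.V l i := fun i hi =>
      (mul_pos_iff_of_pos_left (sub_pos.2 hi)).1 (D.hV k l i hi.ne')
    have vneg : ∀ i, D.sg k i < D.sg l i → D.V k i - D.V l i < 0 := by
      intro i hi
      have := D.hV k l i hi.ne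
      nlinarith
    rcases D.trich k l hkl with h2 | h2 | h2 | h2
    · obtain ⟨i, hi⟩ := h2.2.1
      exact case_pos h2.2.2.1 h2.2.2.2 (sgn i hi.ne' (vpos i hi))
    · obtain ⟨i, hi⟩ := h2.2.1
      exact case_neg h2.2.2.1 (fun j hj => by rw [D.ray k l j hj]; exact h2.2.2.2 j hj.symm)
        (sgn' i hi.ne (vneg i hi))
    · rcases h2 with ⟨i, j, hi, hj⟩ | ⟨-, i, j, hi, hj, hVj, hnj⟩
      · exact absurd (sgn i hi.ne' (vpos i hi)) (not_lt.2 (sgn' j hj.ne (vneg j hj)).le)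
      · have h3 := sgn i hi.ne' (vpos i hi)
        have h4 : D.nrm k s j ≤ 0 := by rw [nrm_apply, hnj]; exact Ym_nonpos D _
        have h5 := hVμ j
        nlinarith
    · rcases h2 with ⟨i, j, hi, hj⟩ | ⟨-, i, j, hi, hj, hVj, hnj⟩
      · exact absurd (sgn j hj.ne' (vpos j hj)) (not_lt.2 (sgn' i hi.ne (vneg i hi)).le)
      · have h3 := sgn' i hi.ne (vneg i hi)
        have h4 : D.nrm k s j ≤ 0 := by
          rw [nrm_apply, ← D.ray l k j hj, hnj]; exact Ym_nonpos D _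
        have h5 := hVμ j
        nlinarith

end Crest.Agent.R267.EndBas_864
end

-- ▼ part R267/EndSys_864
section

/-!
# Homogeneous graph systems (row 267, T3-end): the graph system over the cube
-/

set_option autoImplicit false

namespace Crest.Agent.R267.EndSys_864

open Set Metric
open scoped RealInnerProductSpace
open Crest.Agent.R267.GS_808 Crest.Agent.R267.EndDef_864 Crest.Agent.R267.EndBas_864

variable {n m : ℕ} (D : HD n m)

lemma sb_of_le {b : Bc (n + 2)} (h : ‖b‖ ≤ 1) : D.sb b = bp b (1 - ‖b‖ - D.m0 b) := by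
  rw [HD.sb, ret_of_le h]

lemma sb_ret (b : Bc (n + 2)) : D.sb (ret b) = D.sb b := by rw [HD.sb, HD.sb, ret_ret]

lemma sb_ne (b : Bc (n + 2)) : D.sb b ≠ 0 := by
  rw [HD.sb, Ne, bp_eq_zero]
  rintro ⟨h1, h2⟩
  rw [h1, D.m00, norm_zero] at h2
  norm_num at h2

lemma continuous_bp_comp {X : Type*} [TopologicalSpace X] {f : X → Bc (n + 2)} {g : X → ℝ}
    (hf : Continuous f) (hg : Continuous g) : Continuous fun x => bp (n := n) (f x) (g x) := by
  have h1 : Continuous fun x => pt (f x) (g x) := by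
    have := hf.prodMk hg
    exact continuous_pt.comp this
  unfold bp
  exact (L n).continuous.comp h1

lemma continuous_sb : Continuous D.sb := by
  have h1 : Continuous (ret : Bc (n + 2) → Bc (n + 2)) := continuous_ret
  have h2 : Continuous fun b : Bc (n + 2) => 1 - ‖ret b‖ - D.m0 (ret b) :=
    (continuous_const.sub h1.norm).sub (D.cm0.comp h1)
  exact continuous_bp_comp h1 h2

lemma continuous_comp {X : Type*} [TopologicalSpace X] {f : W n → X}
    (hf : ContinuousOn f {0}ᶜ) : Continuous fun b => f (D.sb b) :=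
  hf.comp_continuous (continuous_sb D) fun b => sb_ne D b

lemma sb_out (b : Bc (n + 2)) : ∃ j, -(D.d * ‖D.sb b‖) < D.sb b j := by
  rw [← sb_ret, sb_of_le D (norm_ret_le b)]
  exact D.out _ (norm_ret_le b)

lemma sb_wall {b : Bc (n + 2)} (h : 1 ≤ ‖b‖) : D.ka (D.sb b) = 1 ∧ ∀ j, D.sb b j < 0 := by
  have h1 := norm_ret_of_ge h
  have h2 := D.wall _ h1
  rw [← sb_ret, sb_of_le D h1.le, h1, sub_self, zero_sub]
  exact h2

/-! ### cores -/

lemma core_eq (k : Fin m) (b : Bc (n + 2)) :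
    D.core k b = (1 / ‖D.sb b‖) • L n (D.A (D.sb b) (D.eta k (D.sb b))) := rfl

lemma continuous_core (k : Fin m) : Continuous (D.core k) := by
  have h1 : ContinuousOn (fun s : W n => D.A s (D.eta k s)) {0}ᶜ :=
    A_continuousOn D continuousOn_id (eta_continuousOn D k) fun x hx => hx
  have h2 : ContinuousOn (fun s : W n => (1 / ‖s‖) • L n (D.A s (D.eta k s))) {0}ᶜ :=
    (continuousOn_const.div continuous_norm.continuousOn fun x hx => norm_ne_zero_iff.2 hx).smul
      ((L n).continuous.comp_continuousOn h1)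
  exact continuous_comp D h2

lemma core_sub (k l : Fin m) (b : Bc (n + 2)) :
    D.core k b - D.core l b =
      (1 / ‖D.sb b‖) • L n (D.A (D.sb b) (D.eta k (D.sb b) - D.eta l (D.sb b))) := by
  rw [A_sub, map_sub, smul_sub, core_eq, core_eq]

lemma core_ne {k l : Fin m} (h : k ≠ l) (b : Bc (n + 2)) : D.core k b ≠ D.core l b := by
  rw [← sub_ne_zero, core_sub]
  have h0 : 0 < ‖D.sb b‖ := norm_pos_iff.2 (sb_ne D b)
  obtain ⟨j, hj⟩ := sb_out D b
  refine smul_ne_zero (by positivity) ?_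
  rw [Ne, LinearIsometryEquiv.map_eq_zero_iff]
  exact A_ne D (sub_ne_zero.2 (eta_ne D h (sb_ne D b) ⟨j, hj.le⟩))

lemma low_of_neg {s : W n} (h : ∀ j, s j < 0) (j : Fin (n + 3)) : s j ≤ D.d * ‖s‖ :=
  (h j).le.trans (mul_nonneg D.hd.le (norm_nonneg _))

/-- at points with all coordinates negative the position is orthogonal to the conormal. -/
lemma inner_nz_eta {s : W n} (hs : s ≠ 0) (h : ∀ j, s j < 0) (k : Fin m) :
    ⟪D.nz s, D.eta k s⟫ = 0 := by
  have h1 : D.nrm k s = D.nz s := nrm_eq_nz D hs (low_of_neg D h)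
  have h2 : vec (fun j => max (D.hs s j) 0 * D.sg k j) = (0 : W n) := by
    ext j
    rw [vec_apply, max_eq_right (hs_nonpos D (h j).le), zero_mul]; rfl
  rw [HD.eta, h1, h2, zero_add, inner_smul_right, inner_proj _ _ (nz_ne D hs), mul_zero]

lemma core_wall (k : Fin m) {b : Bc (n + 2)} (h : 1 ≤ ‖b‖) : ⟪ec (n + 2), D.core k b⟫ = 0 := by
  obtain ⟨h1, h2⟩ := sb_wall D h
  rw [core_eq, inner_smul_right, inner_ec_L, inner_u1_A' D (sb_ne D b), h1, sub_self, zero_mul,
    zero_add, inner_nz_eta D (sb_ne D b) h2, mul_zero, mul_zero]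

/-! ### normals -/

lemma nA_ne (k : Fin m) {s : W n} (hs : s ≠ 0) : D.nA k s ≠ 0 := by
  intro h
  have h1 : ⟪u1 n, D.nrm k s⟫ = 0 := by
    have := congrArg (fun v => ⟪u1 n, v⟫) h
    simpa only [HD.nA, inner_add_right, inner_smul_right, inner_u1_hor, inner_u1_u1, mul_zero,
      mul_one, zero_add, inner_zero_right] using this
  by_cases hk : D.ka s = 0
  · rw [HD.nA, hk, sub_zero, one_smul, hor_add_u1] at h
    exact nrm_ne D hs h
  · have h2 := fun j => (D.kap s hs hk j).le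
    have h3 := inner_nz_u1_neg D hs h2
    rw [nrm_eq_nz D hs h2, real_inner_comm] at h1
    linarith

lemma nA_continuousOn (k : Fin m) : ContinuousOn (D.nA k) {0}ᶜ := by
  have h1 := nrm_continuousOn D k
  have h2 : ContinuousOn (fun s : W n => (1 - D.ka s) • hor (D.nrm k s)) {0}ᶜ :=
    (continuousOn_const.sub D.cka).smul (continuous_hor.comp_continuousOn h1)
  have h3 : ContinuousOn (fun s : W n => ⟪u1 n, D.nrm k s⟫) {0}ᶜ := by
    exact (continuousOn_const (c := u1 n)).inner h1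
  exact h2.add (h3.smul continuousOn_const)

lemma continuous_nuc (k : Fin m) : Continuous (D.nuc k) := by
  have h1 : ContinuousOn (fun s : W n => -((1 / ‖D.nA k s‖) • L n (D.nA k s))) {0}ᶜ :=
    ((continuousOn_const.div (nA_continuousOn D k).norm fun x hx =>
      norm_ne_zero_iff.2 (nA_ne D k hx)).smul
      ((L n).continuous.comp_continuousOn (nA_continuousOn D k))).neg
  exact continuous_comp D h1

lemma norm_nuc (k : Fin m) (b : Bc (n + 2)) : ‖D.nuc k b‖ = 1 := by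
  have h : 0 < ‖D.nA k (D.sb b)‖ := norm_pos_iff.2 (nA_ne D k (sb_ne D b))
  rw [HD.nuc, norm_neg, norm_smul, LinearIsometryEquiv.norm_map, Real.norm_of_nonneg (by positivity),
    one_div, inv_mul_cancel₀ h.ne']

lemma nuc_wall (k : Fin m) {b : Bc (n + 2)} (h : 1 ≤ ‖b‖) : D.nuc k b = ec (n + 2) := by
  obtain ⟨h1, h2⟩ := sb_wall D h
  have h3 := inner_nz_u1_neg D (sb_ne D b) (low_of_neg D h2)
  rw [← real_inner_comm] at h3
  rw [HD.nuc, HD.nA, h1, sub_self, zero_smul, zero_add,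
    nrm_eq_nz D (sb_ne D b) (low_of_neg D h2), map_smul, L_u1, norm_smul, norm_u1, mul_one,
    Real.norm_eq_abs, abs_of_neg h3, smul_smul, ← neg_smul]
  have h4 : ⟪u1 n, D.nz (D.sb b)⟫ ≠ 0 := h3.ne
  rw [show -(1 / -⟪u1 n, D.nz (D.sb b)⟫ * ⟪u1 n, D.nz (D.sb b)⟫) = 1 by
    rw [one_div, inv_neg, neg_mul, neg_neg, inv_mul_cancel₀ h4], one_smul]

/-! ### the system -/

lemma core_ret (k : Fin m) (b : Bc (n + 2)) : D.core k (ret b) = D.core k b := by
  rw [core_eq, core_eq, sb_ret]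

lemma exists_sep : ∃ r0 : ℝ, 0 < r0 ∧ ∀ k l b, k ≠ l → r0 ≤ ‖D.core k b - D.core l b‖ := by
  have h1 : ∀ k l : Fin m, ∃ r0 : ℝ, 0 < r0 ∧ ∀ b, k ≠ l → r0 ≤ ‖D.core k b - D.core l b‖ := by
    intro k l
    by_cases hkl : k = l
    · exact ⟨1, one_pos, fun b h => absurd hkl h⟩
    have hc : Continuous fun b => ‖D.core k b - D.core l b‖ :=
      ((continuous_core D k).sub (continuous_core D l)).norm
    obtain ⟨b0, -, hb0⟩ := (isCompact_closedBall (0 : Bc (n + 2)) 1).exists_isMinOn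
      ⟨0, by simp⟩ hc.continuousOn
    refine ⟨‖D.core k b0 - D.core l b0‖, norm_pos_iff.2 (sub_ne_zero.2 (core_ne D hkl b0)), ?_⟩
    intro b _
    rw [← core_ret D k b, ← core_ret D l b]
    exact hb0 (by simpa using norm_ret_le b)
  choose r0 h0 h2 using h1
  by_cases hm : Nonempty (Fin m × Fin m)
  · obtain ⟨p, hp⟩ := Finite.exists_min fun p : Fin m × Fin m => r0 p.1 p.2
    exact ⟨r0 p.1 p.2, h0 _ _, fun k l b h => (hp (k, l)).trans (h2 k l b h)⟩
  · exact ⟨1, one_pos, fun k l => absurd ⟨(k, l)⟩ hm⟩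

lemma exists_bd : ∃ R0 : ℝ, ∀ k b, ‖D.core k b‖ ≤ R0 := by
  have h1 : ∀ k : Fin m, ∃ R0 : ℝ, ∀ b, ‖D.core k b‖ ≤ R0 := by
    intro k
    obtain ⟨R0, hR0⟩ := (isCompact_closedBall (0 : Bc (n + 2)) 1).exists_bound_of_continuousOn
      (continuous_core D k).continuousOn
    exact ⟨R0, fun b => by rw [← core_ret]; exact hR0 _ (by simpa using norm_ret_le b)⟩
  choose R0 h2 using h1
  obtain ⟨M, hM⟩ := (Set.finite_range R0).bddAbove
  exact ⟨M, fun k b => (h2 k b).trans (hM ⟨k, rfl⟩)⟩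

/-- the graph system over the cube. -/
noncomputable def toSys (r R : ℝ) (hr : 0 < r)
    (hsep : ∀ k l b, k ≠ l → 2 * r < ‖D.core k b - D.core l b‖)
    (hbd : ∀ k b, ‖D.core k b‖ + r < R) : Sys (Bc (n + 2)) (ec (n + 2)) m where
  x := D.core
  nu := D.nuc
  r := r
  R := R
  hr := hr
  cx := continuous_core D
  cnu := continuous_nuc D
  norm_nu := norm_nuc D
  sep := hsep
  bd := hbd
  wall_x k _ h := core_wall D k h
  wall_nu k _ h := nuc_wall D k h

end Crest.Agent.R267.EndSys_864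
end

-- ▼ part R267/End1_532
section

/-!
# Row 267: from the homogeneous half-space form of a graph link to its box form

For a graph system `G : Sys B e m` (`GS_808`) put in `ℝ × B × V` (cone coordinates `(s, b, v)`,
the strand side is `‖b‖ ≤ -s`, the plate side is `-‖b‖ ≤ s`)

* `Kinf G` : the link `G.K` without its part on `‖v‖ = R` (the plate goes to infinity);
* `Khom G` : the closed cone over `Kinf G` placed in the affine chart `s = -1`.

`isLink_of_khom`: if a space `X` is homeomorphic to the unit sphere of `ℝ × B × V` and this carries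
`Z` to `Khom G`, then `(X, Z)` is homeomorphic to `(OnePoint (B × V), G.K)`.

Proof: a homogeneous shift in the direction `s` only (`Khom G` is the graph `s = -‖b‖`, the
homogeneous box form is the graph `s = -max ‖b‖ (‖v‖/R)`, both outside the tubes), and an explicit
homeomorphism `OnePoint (B × V) ≃ sphere`.
-/

set_option autoImplicit false
set_option linter.unusedSectionVars false
set_option linter.unusedVariables false

namespace Crest.Agent.R267.End1_532

open Set Metric Topology Filter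
open scoped RealInnerProductSpace
open Crest.Agent.R267.GS_808

/-! ### homogeneous bijections act on the sphere -/

section Hom

variable {E : Type*} [NormedAddCommGroup E] [NormedSpace ℝ E]

/-- normalised vector on the unit sphere -/
noncomputable def nrm (p : E) (hp : p ≠ 0) : sphere (0 : E) 1 :=
  ⟨‖p‖⁻¹ • p, by
    rw [mem_sphere_zero_iff_norm, norm_smul, norm_inv, norm_norm,
      inv_mul_cancel₀ (norm_ne_zero_iff.2 hp)]⟩

theorem nrm_eq (p : E) (hp : p ≠ 0) : (nrm p hp : E) = ‖p‖⁻¹ • p := rfl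

/-- A positively homogeneous continuous bijection of a finite dimensional space induces a
homeomorphism of the unit sphere. -/
theorem exists_sphere_homeo [FiniteDimensional ℝ E] {F : E → E} (hF : Continuous F)
    (hh : ∀ (l : ℝ) (p : E), 0 < l → F (l • p) = l • F p) (hi : Function.Injective F)
    (hs : Function.Surjective F) :
    ∃ g : sphere (0 : E) 1 ≃ₜ sphere (0 : E) 1, ∀ x, ∃ l : ℝ, 0 < l ∧ (g x : E) = l • F x := by
  have h0 : F 0 = 0 := by
    have h1 : F 0 = (2 : ℝ) • F 0 := by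
      conv_lhs => rw [← smul_zero (2 : ℝ)]
      exact hh 2 0 two_pos
    have h2 : F 0 = F 0 + F 0 := by rwa [two_smul] at h1
    exact (left_eq_add.1 h2)
  have hne : ∀ x : sphere (0 : E) 1, F x ≠ 0 := by
    intro x hx
    have h1 : (x : E) = 0 := hi (by rw [hx, h0])
    have h2 := mem_sphere_zero_iff_norm.1 x.2
    rw [h1, norm_zero] at h2
    exact zero_ne_one h2
  let g0 : sphere (0 : E) 1 → sphere (0 : E) 1 := fun x => nrm (F x) (hne x)
  have hg0 : Continuous g0 := by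
    refine Continuous.subtype_mk ?_ _
    have h1 : Continuous fun x : sphere (0 : E) 1 => F x := hF.comp continuous_subtype_val
    exact (h1.norm.inv₀ fun x => norm_ne_zero_iff.2 (hne x)).smul h1
  have hinj : Function.Injective g0 := by
    intro x y hxy
    have h1 : ‖F x‖⁻¹ • F (x : E) = ‖F y‖⁻¹ • F (y : E) := congrArg Subtype.val hxy
    have hx : 0 < ‖F (x : E)‖⁻¹ := inv_pos.2 (norm_pos_iff.2 (hne x))
    have hy : 0 < ‖F (y : E)‖⁻¹ := inv_pos.2 (norm_pos_iff.2 (hne y))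
    rw [← hh _ _ hx, ← hh _ _ hy] at h1
    have h2 := hi h1
    have h3 := congrArg norm h2
    rw [norm_smul, norm_smul, Real.norm_of_nonneg hx.le, Real.norm_of_nonneg hy.le,
      mem_sphere_zero_iff_norm.1 x.2, mem_sphere_zero_iff_norm.1 y.2, mul_one, mul_one] at h3
    rw [h3] at h2
    exact Subtype.ext (smul_right_injective E hy.ne' h2)
  have hsur : Function.Surjective g0 := by
    intro y
    obtain ⟨p, hp⟩ := hs (y : E)
    have hp0 : p ≠ 0 := by
      rintro rfl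
      rw [h0] at hp
      have h2 := mem_sphere_zero_iff_norm.1 y.2
      rw [← hp, norm_zero] at h2
      exact zero_ne_one h2
    have hn : 0 < ‖p‖⁻¹ := inv_pos.2 (norm_pos_iff.2 hp0)
    refine ⟨nrm p hp0, Subtype.ext ?_⟩
    show ‖F (‖p‖⁻¹ • p)‖⁻¹ • F (‖p‖⁻¹ • p) = y
    rw [hh _ _ hn, hp, norm_smul, mem_sphere_zero_iff_norm.1 y.2, mul_one,
      Real.norm_of_nonneg hn.le, smul_smul, inv_mul_cancel₀ hn.ne', one_smul]
  have : CompactSpace (sphere (0 : E) 1) := isCompact_iff_compactSpace.1 (isCompact_sphere 0 1)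
  refine ⟨Continuous.homeoOfEquivCompactToT2 (f := Equiv.ofBijective g0 ⟨hinj, hsur⟩) hg0,
    fun x => ⟨‖F x‖⁻¹, inv_pos.2 (norm_pos_iff.2 (hne x)), rfl⟩⟩

end Hom

/-! ### the sphere as a one point compactification, central on a ball -/

section Comp

set_option linter.unusedSectionVars false

variable {Y : Type*} [NormedAddCommGroup Y] [NormedSpace ℝ Y] [FiniteDimensional ℝ Y]

/-- lift of a point -/
noncomputable def lift (ρ : ℝ) (y : Y) : ℝ × Y := (-1 + max 0 (‖y‖ - ρ) * ‖y‖, y)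

theorem lift_ne (ρ : ℝ) (y : Y) : lift ρ y ≠ 0 := by
  intro h
  have h1 : y = 0 := congrArg Prod.snd h
  have h2 : -1 + max 0 (‖y‖ - ρ) * ‖y‖ = 0 := congrArg Prod.fst h
  rw [h1, norm_zero, mul_zero, add_zero] at h2
  norm_num at h2

theorem continuous_lift (ρ : ℝ) : Continuous (lift ρ : Y → ℝ × Y) := by
  unfold lift
  fun_prop

theorem pole_mem : ((1 : ℝ), (0 : Y)) ∈ sphere (0 : ℝ × Y) 1 := by
  rw [mem_sphere_zero_iff_norm, Prod.norm_def]
  simp

/-- the map `OnePoint Y → sphere` -/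
noncomputable def Sm (ρ : ℝ) : OnePoint Y → sphere (0 : ℝ × Y) 1
  | none => ⟨((1 : ℝ), (0 : Y)), pole_mem⟩
  | some y => nrm (lift ρ y) (lift_ne ρ y)

theorem Sm_infty (ρ : ℝ) : Sm ρ (OnePoint.infty : OnePoint Y) = ⟨((1 : ℝ), (0 : Y)), pole_mem⟩ := rfl

theorem Sm_coe (ρ : ℝ) (y : Y) : Sm ρ (y : OnePoint Y) = nrm (lift ρ y) (lift_ne ρ y) := rfl

theorem norm_lift_ge {ρ : ℝ} {y : Y} (hρ : 0 ≤ ρ) (hy : ρ + 2 ≤ ‖y‖) :
    ‖y‖ ≤ -1 + max 0 (‖y‖ - ρ) * ‖y‖ := by
  have h1 : (2 : ℝ) ≤ max 0 (‖y‖ - ρ) := le_trans (by linarith) (le_max_right _ _)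
  nlinarith

theorem continuous_Sm {ρ : ℝ} (hρ : 0 ≤ ρ) : Continuous (Sm ρ : OnePoint Y → _) := by
  rw [continuous_iff_continuousAt]
  intro q
  induction q using OnePoint.rec with
  | infty =>
    rw [OnePoint.continuousAt_infty']
    have h1 : Tendsto (fun y : Y => ((lift ρ y).1, y)) (coclosedCompact Y) ⊤ := tendsto_top
    rw [coclosedCompact_eq_cocompact]
    rw [Sm_infty]
    rw [tendsto_subtype_rng]
    show Tendsto (fun y : Y => ‖lift ρ y‖⁻¹ • lift ρ y) (cocompact Y) (𝓝 ((1 : ℝ), (0 : Y)))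
    have hn : Tendsto (fun y : Y => ‖y‖) (cocompact Y) atTop := tendsto_norm_cocompact_atTop
    have hbig : ∀ᶠ y : Y in cocompact Y, ρ + 2 ≤ ‖y‖ := hn.eventually_ge_atTop _
    have hval : ∀ y : Y, ρ + 2 ≤ ‖y‖ →
        ‖lift ρ y‖⁻¹ • lift ρ y =
          ((1 : ℝ), (-1 + (‖y‖ - ρ) * ‖y‖)⁻¹ • y) := by
      intro y hy
      have h2 := norm_lift_ge hρ hy
      have h3 : max 0 (‖y‖ - ρ) = ‖y‖ - ρ := max_eq_right (by linarith)
      rw [h3] at h2
      have h4 : ‖lift ρ y‖ = -1 + (‖y‖ - ρ) * ‖y‖ := by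
        unfold lift
        rw [Prod.norm_def, h3]
        have h5 : 0 ≤ -1 + (‖y‖ - ρ) * ‖y‖ := le_trans (norm_nonneg _) h2
        simp only [Real.norm_of_nonneg h5]
        exact max_eq_left h2
      have h6 : (-1 + (‖y‖ - ρ) * ‖y‖) ≠ 0 := by
        have : 0 < ‖y‖ := by linarith
        linarith
      rw [h4]
      unfold lift
      rw [h3, Prod.smul_mk, smul_eq_mul, inv_mul_cancel₀ h6]
    refine Tendsto.congr' (hbig.mono fun y hy => (hval y hy).symm) ?_
    refine Tendsto.prodMk_nhds tendsto_const_nhds ?_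
    rw [tendsto_zero_iff_norm_tendsto_zero]
    have hle : ∀ᶠ y : Y in cocompact Y,
        ‖(-1 + (‖y‖ - ρ) * ‖y‖)⁻¹ • y‖ ≤ (‖y‖ - ρ - 1)⁻¹ := by
      filter_upwards [hbig] with y hy
      have h7 : 0 < ‖y‖ - ρ - 1 := by linarith
      have h8 : 0 < -1 + (‖y‖ - ρ) * ‖y‖ := by nlinarith
      rw [norm_smul, norm_inv, Real.norm_of_nonneg h8.le, inv_mul_le_iff₀ h8]
      rw [← div_eq_mul_inv, le_div_iff₀ h7]
      nlinarith
    have hlim : Tendsto (fun y : Y => (‖y‖ - ρ - 1)⁻¹) (cocompact Y) (𝓝 0) := by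
      refine tendsto_inv_atTop_zero.comp ?_
      have : (fun y : Y => ‖y‖ - ρ - 1) = fun y : Y => ‖y‖ + (-ρ - 1) := by
        funext y; ring
      rw [this]
      exact tendsto_atTop_add_const_right _ _ hn
    exact squeeze_zero' (Eventually.of_forall fun y => norm_nonneg _) hle hlim
  | coe y =>
    rw [OnePoint.continuousAt_coe]
    have h1 : Continuous fun y : Y => nrm (lift ρ y) (lift_ne ρ y) := by
      refine Continuous.subtype_mk ?_ _
      exact ((continuous_lift ρ).norm.inv₀ fun y => norm_ne_zero_iff.2 (lift_ne ρ y)).smul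
        (continuous_lift ρ)
    exact h1.continuousAt

theorem key_mono {ρ r r' : ℝ} (hr : 0 < r) (h : r < r') :
    (-1 + max 0 (r - ρ) * r) * r' < (-1 + max 0 (r' - ρ) * r') * r := by
  have h1 : max 0 (r - ρ) ≤ max 0 (r' - ρ) := max_le_max le_rfl (by linarith)
  have h2 : 0 < r * r' := mul_pos hr (hr.trans h)
  nlinarith [mul_le_mul_of_nonneg_right h1 h2.le]

theorem injective_Sm {ρ : ℝ} : Function.Injective (Sm ρ : OnePoint Y → _) := by
  have key : ∀ y y' : Y, ‖y‖ < ‖y'‖ → ∀ l l' : ℝ, 0 < l → 0 < l' →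
      l • lift ρ y ≠ l' • lift ρ y' := by
    intro y y' hyy l l' hl hl' h
    have h1 : l • y = l' • y' := congrArg Prod.snd h
    have h2 : l * (-1 + max 0 (‖y‖ - ρ) * ‖y‖) = l' * (-1 + max 0 (‖y'‖ - ρ) * ‖y'‖) :=
      congrArg Prod.fst h
    have h3 : l * ‖y‖ = l' * ‖y'‖ := by
      have := congrArg norm h1
      rwa [norm_smul, norm_smul, Real.norm_of_nonneg hl.le, Real.norm_of_nonneg hl'.le] at this
    have h4 : 0 < ‖y'‖ := lt_of_le_of_lt (norm_nonneg _) hyy
    have h5 : 0 < ‖y‖ := by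
      by_contra h5
      have h6 : ‖y‖ = 0 := le_antisymm (not_lt.1 h5) (norm_nonneg _)
      rw [h6, mul_zero] at h3
      have := mul_pos hl' h4
      linarith
    have h6 := key_mono (ρ := ρ) h5 hyy
    -- multiply h2 by ‖y‖ * ‖y'‖ …
    have h7 : l * ‖y‖ * ((-1 + max 0 (‖y‖ - ρ) * ‖y‖) * ‖y'‖) =
        l' * ‖y'‖ * ((-1 + max 0 (‖y'‖ - ρ) * ‖y'‖) * ‖y‖) := by
      calc l * ‖y‖ * ((-1 + max 0 (‖y‖ - ρ) * ‖y‖) * ‖y'‖)
          = (l * (-1 + max 0 (‖y‖ - ρ) * ‖y‖)) * (‖y‖ * ‖y'‖) := by ring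
        _ = (l' * (-1 + max 0 (‖y'‖ - ρ) * ‖y'‖)) * (‖y‖ * ‖y'‖) := by rw [h2]
        _ = _ := by ring
    rw [← h3] at h7
    have h8 : 0 < l * ‖y‖ := mul_pos hl h5
    have h9 := mul_left_cancel₀ h8.ne' h7
    linarith
  have eqn : ∀ y y' : Y, ∀ l l' : ℝ, 0 < l → 0 < l' → l • lift ρ y = l' • lift ρ y' → y = y' := by
    intro y y' l l' hl hl' h
    rcases lt_trichotomy ‖y‖ ‖y'‖ with h1 | h1 | h1
    · exact absurd h (key y y' h1 l l' hl hl')
    · have h2 : l • y = l' • y' := congrArg Prod.snd h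
      have h3 : l * ‖y‖ = l' * ‖y'‖ := by
        have := congrArg norm h2
        rwa [norm_smul, norm_smul, Real.norm_of_nonneg hl.le, Real.norm_of_nonneg hl'.le] at this
      rcases eq_or_ne ‖y‖ 0 with h4 | h4
      · have h5 : ‖y'‖ = 0 := by rw [← h1]; exact h4
        rw [norm_eq_zero.1 h4, norm_eq_zero.1 h5]
      · rw [← h1] at h3
        have h5 := mul_right_cancel₀ h4 h3
        rw [h5] at h2
        exact smul_right_injective Y hl'.ne' h2
    · exact absurd h.symm (key y' y h1 l' l hl' hl)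
  have hpole : ∀ y : Y, Sm ρ (y : OnePoint Y) ≠ Sm ρ OnePoint.infty := by
    intro y h
    have h1 : ‖lift ρ y‖⁻¹ • lift ρ y = ((1 : ℝ), (0 : Y)) := congrArg Subtype.val h
    have hpos : 0 < ‖lift ρ y‖⁻¹ := inv_pos.2 (norm_pos_iff.2 (lift_ne ρ y))
    have h2 : ‖lift ρ y‖⁻¹ • y = 0 := congrArg Prod.snd h1
    have h3 : y = 0 := (smul_eq_zero.1 h2).resolve_left hpos.ne'
    have h4 : ‖lift ρ y‖⁻¹ * (-1 + max 0 (‖y‖ - ρ) * ‖y‖) = 1 := congrArg Prod.fst h1
    rw [show ‖y‖ = 0 by rw [h3, norm_zero], mul_zero, add_zero] at h4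
    linarith
  intro q q' h
  induction q using OnePoint.rec with
  | infty =>
    induction q' using OnePoint.rec with
    | infty => rfl
    | coe y' => exact absurd h.symm (hpole y')
  | coe y =>
    induction q' using OnePoint.rec with
    | infty => exact absurd h (hpole y)
    | coe y' =>
      have h1 : ‖lift ρ y‖⁻¹ • lift ρ y = ‖lift ρ y'‖⁻¹ • lift ρ y' := congrArg Subtype.val h
      rw [eqn y y' _ _ (inv_pos.2 (norm_pos_iff.2 (lift_ne ρ y)))
        (inv_pos.2 (norm_pos_iff.2 (lift_ne ρ y'))) h1]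

theorem surjective_Sm {ρ : ℝ} (hρ : 0 ≤ ρ) : Function.Surjective (Sm ρ : OnePoint Y → _) := by
  rintro ⟨⟨s, y⟩, hsy⟩
  rw [mem_sphere_zero_iff_norm] at hsy
  rcases eq_or_ne y 0 with rfl | hy
  · have hs : |s| = 1 := by
      rw [Prod.norm_def] at hsy
      simpa using hsy
    rcases (abs_eq one_pos.le).1 hs with h1 | h1
    · refine ⟨OnePoint.infty, Subtype.ext ?_⟩
      rw [Sm_infty]
      exact Prod.ext h1.symm rfl
    · refine ⟨((0 : Y) : OnePoint Y), Subtype.ext ?_⟩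
      rw [Sm_coe, nrm_eq]
      have h2 : lift ρ (0 : Y) = ((-1 : ℝ), (0 : Y)) := by
        unfold lift
        rw [norm_zero, mul_zero, add_zero]
      rw [h2]
      have h3 : ‖((-1 : ℝ), (0 : Y))‖ = 1 := by
        rw [Prod.norm_def]
        simp
      rw [h3, inv_one, one_smul]
      exact Prod.ext h1.symm rfl
  · have hy0 : 0 < ‖y‖ := norm_pos_iff.2 hy
    set κ := s / ‖y‖ with hκ
    set b := ρ + |κ| + 1 with hb
    have hb1 : 1 ≤ b := by have := abs_nonneg κ; linarith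
    have hcont : ContinuousOn (fun r : ℝ => -1 + max 0 (r - ρ) * r - κ * r) (Icc 0 b) := by
      fun_prop
    have hzero : (0 : ℝ) ∈ Icc ((fun r : ℝ => -1 + max 0 (r - ρ) * r - κ * r) 0)
        ((fun r : ℝ => -1 + max 0 (r - ρ) * r - κ * r) b) := by
      constructor
      · simp
      · show (0 : ℝ) ≤ -1 + max 0 (b - ρ) * b - κ * b
        have h1 : |κ| + 1 ≤ max 0 (b - ρ) := le_trans (by linarith) (le_max_right _ _)
        have h2 : κ ≤ |κ| := le_abs_self κ
        nlinarith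
    obtain ⟨r, hr, hr0⟩ := intermediate_value_Icc (by linarith : (0 : ℝ) ≤ b) hcont hzero
    simp only at hr0
    have hrpos : 0 < r := by
      rcases hr.1.lt_or_eq with h | h
      · exact h
      · rw [← h] at hr0
        simp at hr0
    refine ⟨(((r / ‖y‖) • y : Y) : OnePoint Y), Subtype.ext ?_⟩
    rw [Sm_coe, nrm_eq]
    have hn : ‖(r / ‖y‖) • y‖ = r := by
      rw [norm_smul, Real.norm_of_nonneg (by positivity), div_mul_cancel₀ _ hy0.ne']
    have h2 : lift ρ ((r / ‖y‖) • y) = (r / ‖y‖) • ((s, y) : ℝ × Y) := by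
      unfold lift
      rw [hn, Prod.smul_mk]
      refine Prod.ext ?_ rfl
      show -1 + max 0 (r - ρ) * r = (r / ‖y‖) * s
      have h3 : -1 + max 0 (r - ρ) * r = κ * r := by linarith
      rw [h3, hκ]
      field_simp
    have hpos : 0 < r / ‖y‖ := div_pos hrpos hy0
    rw [h2, norm_smul, hsy, mul_one, Real.norm_of_nonneg hpos.le, smul_smul,
      inv_mul_cancel₀ hpos.ne', one_smul]

/-- **the compactification**: central projection on a large ball. -/
theorem exists_comp {ρ : ℝ} (hρ : 0 ≤ ρ) {K : Set Y} (hK : ∀ y ∈ K, ‖y‖ ≤ ρ) :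
    ∃ T : sphere (0 : ℝ × Y) 1 ≃ₜ OnePoint Y, ∀ z : sphere (0 : ℝ × Y) 1,
      ((z : ℝ × Y).1 < 0 ∧ (-(z : ℝ × Y).1)⁻¹ • (z : ℝ × Y).2 ∈ K) ↔
        ∃ p ∈ K, T z = (p : OnePoint Y) := by
  have : CompactSpace (OnePoint Y) := inferInstance
  let T' : OnePoint Y ≃ₜ sphere (0 : ℝ × Y) 1 :=
    Continuous.homeoOfEquivCompactToT2
      (f := Equiv.ofBijective (Sm ρ) ⟨injective_Sm, surjective_Sm hρ⟩) (continuous_Sm hρ)
  refine ⟨T'.symm, fun z => ?_⟩
  obtain ⟨q, rfl⟩ := T'.surjective z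
  rw [T'.symm_apply_apply]
  induction q using OnePoint.rec with
  | infty =>
    constructor
    · rintro ⟨h, -⟩
      exact absurd h (by
        show ¬ ((1 : ℝ) < 0)
        norm_num)
    · rintro ⟨p, -, hp⟩
      exact absurd hp.symm (OnePoint.coe_ne_infty p)
  | coe y =>
    have h1 : (T' (y : OnePoint Y) : ℝ × Y) = ‖lift ρ y‖⁻¹ • lift ρ y := rfl
    have hpos : 0 < ‖lift ρ y‖⁻¹ := inv_pos.2 (norm_pos_iff.2 (lift_ne ρ y))
    rw [h1]
    have h2 : (‖lift ρ y‖⁻¹ • lift ρ y).1 = ‖lift ρ y‖⁻¹ * (-1 + max 0 (‖y‖ - ρ) * ‖y‖) := rfl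
    have h3 : (‖lift ρ y‖⁻¹ • lift ρ y).2 = ‖lift ρ y‖⁻¹ • y := rfl
    rw [h2, h3]
    set σ := -1 + max 0 (‖y‖ - ρ) * ‖y‖ with hσ
    have h4 : (-(‖lift ρ y‖⁻¹ * σ))⁻¹ • (‖lift ρ y‖⁻¹ • y) = (-σ)⁻¹ • y := by
      rw [smul_smul]
      congr 1
      rw [← mul_neg, mul_inv, mul_comm (‖lift ρ y‖⁻¹)⁻¹, mul_assoc, inv_mul_cancel₀ hpos.ne',
        mul_one]
    rw [h4]
    have h5 : ‖lift ρ y‖⁻¹ * σ < 0 ↔ σ < 0 := by
      rw [mul_neg_iff]
      constructor
      · rintro (h | h)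
        · exact h.2
        · exact absurd h.1 (not_lt.2 hpos.le)
      · intro h
        exact Or.inl ⟨hpos, h⟩
    rw [h5]
    have h6 : (σ < 0 ∧ (-σ)⁻¹ • y ∈ K) ↔ y ∈ K := by
      rcases le_or_gt ‖y‖ ρ with h | h
      · have h7 : σ = -1 := by
          rw [hσ, max_eq_left (by linarith), zero_mul, add_zero]
        rw [h7]
        norm_num
      · constructor
        · rintro ⟨h7, h8⟩
          exfalso
          have h9 := hK _ h8
          have h10 : 0 ≤ max 0 (‖y‖ - ρ) * ‖y‖ := by positivity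
          have h11 : 0 < -σ := by linarith
          have h12 : -σ ≤ 1 := by linarith
          have h13 : 1 ≤ (-σ)⁻¹ := (one_le_inv₀ h11).2 h12
          rw [norm_smul, Real.norm_of_nonneg (by positivity)] at h9
          nlinarith [norm_nonneg y]
        · intro h7
          exact absurd (hK _ h7) (not_le.2 h)
    rw [h6]
    constructor
    · intro h
      exact ⟨y, h, rfl⟩
    · rintro ⟨p, hp, hpy⟩
      rw [OnePoint.coe_injective hpy]
      exact hp

end Comp


/-! ### the flip of the plate -/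

section Flip

variable {B V : Type*} [NormedAddCommGroup B] [NormedSpace ℝ B]
  [NormedAddCommGroup V] [InnerProductSpace ℝ V] {e : V} {m : ℕ}

/-- the link with the plate extended to infinity. -/
def Kinf (G : Sys B e m) : Set (B × V) :=
  {p | (⟪e, p.2⟫ = 0 ∧ ‖p.1‖ = 1 ∧ ∀ k, G.r ≤ ‖p.2 - G.x k p.1‖) ∨
    ∃ k, ‖p.1‖ ≤ 1 ∧ ‖p.2 - G.x k p.1‖ = G.r ∧ ⟪G.nu k p.1, p.2 - G.x k p.1⟫ = 0}

/-- the closed cone over `Kinf G` (chart `s = -1`). -/
def Khom (G : Sys B e m) : Set (ℝ × B × V) :=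
  {p | (p.1 < 0 ∧ (-p.1)⁻¹ • p.2 ∈ Kinf G) ∨ (p.1 = 0 ∧ p.2.1 = 0 ∧ ⟪e, p.2.2⟫ = 0)}

/-- the (open) cone over a set in the chart `s = -1`. -/
def cone {Y : Type*} [SMul ℝ Y] (K : Set Y) : Set (ℝ × Y) :=
  {p | p.1 < 0 ∧ (-p.1)⁻¹ • p.2 ∈ K}

theorem cone_smul {Y : Type*} [NormedAddCommGroup Y] [NormedSpace ℝ Y] (K : Set Y) {l : ℝ}
    (hl : 0 < l) (p : ℝ × Y) : l • p ∈ cone K ↔ p ∈ cone K := by
  unfold cone
  simp only [mem_ofPred_eq, Prod.smul_fst, Prod.smul_snd, smul_eq_mul]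
  have h1 : l * p.1 < 0 ↔ p.1 < 0 := by
    constructor
    · intro h
      by_contra h2
      have := mul_nonneg hl.le (not_lt.1 h2)
      linarith
    · intro h
      exact mul_neg_of_pos_of_neg hl h
  have h2 : (-(l * p.1))⁻¹ • l • p.2 = (-p.1)⁻¹ • p.2 := by
    rw [smul_smul]
    congr 1
    rw [← mul_neg, mul_inv, mul_comm l⁻¹, mul_assoc, inv_mul_cancel₀ hl.ne', mul_one]
  rw [h1, h2]

theorem khom_smul (G : Sys B e m) {l : ℝ} (hl : 0 < l) (p : ℝ × B × V) :
    l • p ∈ Khom G ↔ p ∈ Khom G := by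
  have h1 : ∀ p : ℝ × B × V, p ∈ Khom G ↔
      (p ∈ cone (Kinf G) ∨ (p.1 = 0 ∧ p.2.1 = 0 ∧ ⟪e, p.2.2⟫ = 0)) := fun _ => Iff.rfl
  rw [h1, h1, cone_smul _ hl]
  have h2 : (l • p).1 = 0 ↔ p.1 = 0 := by simp [hl.ne']
  have h3 : (l • p).2.1 = 0 ↔ p.2.1 = 0 := by simp [hl.ne']
  have h4 : ⟪e, (l • p).2.2⟫ = 0 ↔ ⟪e, p.2.2⟫ = 0 := by
    show ⟪e, l • p.2.2⟫ = 0 ↔ _
    rw [inner_smul_right, mul_eq_zero]
    simp [hl.ne']
  rw [h2, h3, h4]

/-- the shift of the flip -/
noncomputable def sh (R R' : ℝ) (p : ℝ × B × V) : ℝ :=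
  min (max 0 (‖p.2.2‖ / R - ‖p.2.1‖))
    (min (R' / R * max 0 (p.1 + ‖p.2.2‖ / R')) (max 0 (‖p.2.2‖ / R - p.1)))

/-- **the flip**: a homogeneous shift in the direction `s`. -/
noncomputable def flip (R R' : ℝ) (p : ℝ × B × V) : ℝ × B × V := (p.1 - sh R R' p, p.2)

theorem continuous_flip (R R' : ℝ) : Continuous (flip R R' : ℝ × B × V → _) := by
  unfold flip sh
  fun_prop

theorem sh_smul {R R' l : ℝ} (hl : 0 < l) (p : ℝ × B × V) : sh R R' (l • p) = l * sh R R' p := by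
  unfold sh
  have h1 : ‖(l • p).2.2‖ = l * ‖p.2.2‖ := by
    show ‖l • p.2.2‖ = _
    rw [norm_smul, Real.norm_of_nonneg hl.le]
  have h2 : ‖(l • p).2.1‖ = l * ‖p.2.1‖ := by
    show ‖l • p.2.1‖ = _
    rw [norm_smul, Real.norm_of_nonneg hl.le]
  have h3 : (l • p).1 = l * p.1 := rfl
  rw [h1, h2, h3, mul_min_of_nonneg _ _ hl.le, mul_min_of_nonneg _ _ hl.le]
  congr 1
  · rw [mul_max_of_nonneg _ _ hl.le, mul_zero]
    congr 1; ring
  congr 1
  · rw [mul_left_comm, mul_max_of_nonneg _ _ hl.le, mul_zero]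
    congr 2; ring
  · rw [mul_max_of_nonneg _ _ hl.le, mul_zero]
    congr 1; ring

theorem flip_smul {R R' : ℝ} (l : ℝ) (p : ℝ × B × V) (hl : 0 < l) :
    flip R R' (l • p) = l • flip R R' p := by
  unfold flip
  rw [sh_smul hl]
  refine Prod.ext ?_ rfl
  show l * p.1 - l * sh R R' p = l * (p.1 - sh R R' p)
  ring

theorem sh_nonneg {R R' : ℝ} (hR : 0 < R) (hR' : 0 < R') (p : ℝ × B × V) : 0 ≤ sh R R' p := by
  unfold sh
  have : 0 < R' / R := div_pos hR' hR
  positivity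

theorem sh_le {R R' : ℝ} (p : ℝ × B × V) : sh R R' p ≤ max 0 (‖p.2.2‖ / R - ‖p.2.1‖) :=
  min_le_left _ _

/-- the increments of the shift are small -/
theorem sh_incr {R R' : ℝ} (hR : 0 < R) (hR' : 0 < R') {s s' : ℝ} (h : s ≤ s') (y : B × V) :
    sh R R' (s', y) ≤ sh R R' (s, y) + R' / R * (s' - s) := by
  have hc : 0 < R' / R := div_pos hR' hR
  have hcs : 0 ≤ R' / R * (s' - s) := mul_nonneg hc.le (by linarith)
  unfold sh
  simp only
  rw [← min_add_add_right, ← min_add_add_right]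
  refine min_le_min (by linarith) (min_le_min ?_ ?_)
  · rw [← mul_add]
    refine mul_le_mul_of_nonneg_left ?_ hc.le
    refine max_le (by have := le_max_left 0 (s + ‖y.2‖ / R'); linarith) ?_
    have := le_max_right 0 (s + ‖y.2‖ / R')
    linarith
  · have : max 0 (‖y.2‖ / R - s') ≤ max 0 (‖y.2‖ / R - s) := max_le_max le_rfl (by linarith)
    linarith

theorem flip_injective {R R' : ℝ} (hR' : 0 < R') (h : R' < R) :
    Function.Injective (flip R R' : ℝ × B × V → _) := by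
  have hR : 0 < R := hR'.trans h
  have hc : R' / R < 1 := (div_lt_one hR).2 h
  have key : ∀ (s s' : ℝ) (y : B × V), s < s' →
      s - sh R R' (s, y) < s' - sh R R' (s', y) := by
    intro s s' y hs
    have h1 := sh_incr hR hR' hs.le y
    nlinarith
  rintro ⟨s, y⟩ ⟨s', y'⟩ hh
  have h1 : y = y' := congrArg Prod.snd hh
  subst h1
  have h2 : s - sh R R' (s, y) = s' - sh R R' (s', y) := congrArg Prod.fst hh
  rcases lt_trichotomy s s' with h3 | h3 | h3
  · have := key s s' y h3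
    linarith
  · rw [h3]
  · have := key s' s y h3
    linarith

theorem flip_surjective {R R' : ℝ} (hR' : 0 < R') (h : R' < R) :
    Function.Surjective (flip R R' : ℝ × B × V → _) := by
  have hR : 0 < R := hR'.trans h
  rintro ⟨s, y⟩
  set g := max 0 (‖y.2‖ / R - ‖y.1‖) with hg
  have hg0 : 0 ≤ g := le_max_left _ _
  have hcont : ContinuousOn (fun t : ℝ => (flip R R' (t, y)).1) (Icc s (s + g)) := by
    have h1 : Continuous fun t : ℝ => (flip R R' (t, y)).1 :=
      continuous_fst.comp ((continuous_flip R R').comp (continuous_id.prodMk continuous_const))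
    exact h1.continuousOn
  have hmem : s ∈ Icc ((flip R R' (s, y)).1) ((flip R R' (s + g, y)).1) := by
    constructor
    · have := sh_nonneg hR hR' (s, y)
      show s - sh R R' (s, y) ≤ s
      linarith
    · have : sh R R' (s + g, y) ≤ g := sh_le _
      show s ≤ s + g - sh R R' (s + g, y)
      linarith
  obtain ⟨t, -, ht⟩ := intermediate_value_Icc (by linarith : s ≤ s + g) hcont hmem
  exact ⟨(t, y), Prod.ext ht rfl⟩

/-- uniform bound for the tubes -/
theorem exists_bound [FiniteDimensional ℝ B] (G : Sys B e m) (hR : 0 < G.R) :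
    ∃ R', 0 < R' ∧ R' < G.R ∧ ∀ k u, ‖u‖ ≤ 1 → ‖G.x k u‖ + G.r ≤ R' := by
  have h1 : ∀ k, ∃ M < G.R, ∀ u : B, ‖u‖ ≤ 1 → ‖G.x k u‖ + G.r ≤ M := by
    intro k
    have hcomp : IsCompact (closedBall (0 : B) 1) := isCompact_closedBall 0 1
    obtain ⟨u0, -, hmax⟩ := hcomp.exists_isMaxOn ⟨0, mem_closedBall_self zero_le_one⟩
      (((G.cx k).norm.add (continuous_const (y := G.r))).continuousOn)
    exact ⟨‖G.x k u0‖ + G.r, G.bd k u0, fun u hu => hmax (mem_closedBall_zero_iff.2 hu)⟩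
  choose M hM hM' using h1
  rcases isEmpty_or_nonempty (Fin m) with h | h
  · exact ⟨G.R / 2, by positivity, by linarith, fun k => (h.false k).elim⟩
  · obtain ⟨k0, hk0⟩ := Finite.exists_max M
    refine ⟨max (G.R / 2) (M k0), lt_max_of_lt_left (by positivity),
      max_lt (by linarith) (hM k0), fun k u hu => ?_⟩
    exact (hM' k u hu).trans ((hk0 k).trans (le_max_right _ _))

/-- the shift vanishes on the tubes -/
theorem sh_eq_zero {R R' : ℝ} (hR : 0 < R) (hR' : 0 < R') {p : ℝ × B × V} (hp : p.1 < 0)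
    (h : ‖p.2.2‖ ≤ R' * (-p.1)) : sh R R' p = 0 := by
  refine le_antisymm ?_ (sh_nonneg hR hR' p)
  unfold sh
  refine (min_le_right _ _).trans ((min_le_left _ _).trans ?_)
  have h1 : ‖p.2.2‖ / R' ≤ -p.1 := by
    rw [div_le_iff₀ hR']
    linarith
  rw [max_eq_left (by linarith), mul_zero]

/-- the shift on the graph `s = -‖b‖` -/
theorem sh_graph {R R' : ℝ} (hR' : 0 < R') (h : R' < R) (b : B) (v : V) :
    sh R R' (-‖b‖, b, v) = max 0 (‖v‖ / R - ‖b‖) := by
  have hR : 0 < R := hR'.trans h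
  unfold sh
  simp only
  refine min_eq_left (le_min ?_ ?_)
  · have h1 : R' / R * (-‖b‖ + ‖v‖ / R') = ‖v‖ / R - R' / R * ‖b‖ := by
      field_simp
      ring
    have h2 : R' / R ≤ 1 := ((div_lt_one hR).2 h).le
    rw [mul_max_of_nonneg _ _ (div_pos hR' hR).le, mul_zero, h1]
    refine max_le_max le_rfl ?_
    nlinarith [norm_nonneg b]
  · refine max_le_max le_rfl ?_
    have := norm_nonneg b
    linarith

theorem norm_scale {W : Type*} [NormedAddCommGroup W] [NormedSpace ℝ W] {s : ℝ} (hs : s < 0)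
    (w : W) : ‖(-s)⁻¹ • w‖ = ‖w‖ / (-s) := by
  have h : 0 < -s := by linarith
  rw [norm_smul, norm_inv, Real.norm_of_nonneg h.le, inv_mul_eq_div]

theorem scale_mem {s : ℝ} (hs : s < 0) (b : B) (v : V) :
    (‖(-s)⁻¹ • b‖ = 1 ↔ ‖b‖ = -s) ∧ (‖(-s)⁻¹ • b‖ ≤ 1 ↔ ‖b‖ ≤ -s) ∧
      (∀ R : ℝ, ‖(-s)⁻¹ • v‖ = R ↔ ‖v‖ = R * (-s)) ∧
      (∀ R : ℝ, ‖(-s)⁻¹ • v‖ ≤ R ↔ ‖v‖ ≤ R * (-s)) := by
  have h : 0 < -s := by linarith
  refine ⟨?_, ?_, fun R => ?_, fun R => ?_⟩
  · rw [norm_scale hs, div_eq_iff h.ne', one_mul]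
  · rw [norm_scale hs, div_le_iff₀ h, one_mul]
  · rw [norm_scale hs, div_eq_iff h.ne']
  · rw [norm_scale hs, div_le_iff₀ h]

/-- **the flip carries the half-space form to the box form.** -/
theorem flip_mem (G : Sys B e m) {R' : ℝ} (hR' : 0 < R') (hRR : R' < G.R)
    (hb : ∀ k u, ‖u‖ ≤ 1 → ‖G.x k u‖ + G.r ≤ R') {p : ℝ × B × V} (hp : p ≠ 0) :
    p ∈ Khom G ↔ flip G.R R' p ∈ cone G.K := by
  have hR : 0 < G.R := hR'.trans hRR
  -- the tube predicate
  set tube : ℝ × B × V → Prop := fun p => p.1 < 0 ∧ ∃ k, ‖(-p.1)⁻¹ • p.2.1‖ ≤ 1 ∧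
    ‖(-p.1)⁻¹ • p.2.2 - G.x k ((-p.1)⁻¹ • p.2.1)‖ = G.r ∧
    ⟪G.nu k ((-p.1)⁻¹ • p.2.1), (-p.1)⁻¹ • p.2.2 - G.x k ((-p.1)⁻¹ • p.2.1)⟫ = 0 with htube
  set out : ℝ × B × V → Prop := fun p =>
    ∀ k, G.r ≤ ‖(-p.1)⁻¹ • p.2.2 - G.x k ((-p.1)⁻¹ • p.2.1)‖ with hout
  have e1 : ∀ p : ℝ × B × V, p ∈ Khom G ↔ (tube p ∨
      (p.1 < 0 ∧ ⟪e, p.2.2⟫ = 0 ∧ ‖p.2.1‖ = -p.1 ∧ out p) ∨
      (p.1 = 0 ∧ p.2.1 = 0 ∧ ⟪e, p.2.2⟫ = 0)) := by
    intro p
    have h0 : p.1 < 0 → (⟪e, ((-p.1)⁻¹ • p.2).2⟫ = 0 ↔ ⟪e, p.2.2⟫ = 0) := by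
      intro hs
      show ⟪e, (-p.1)⁻¹ • p.2.2⟫ = 0 ↔ _
      rw [inner_smul_right, mul_eq_zero]
      have : (-p.1)⁻¹ ≠ 0 := inv_ne_zero (by linarith)
      exact ⟨fun h => h.resolve_left this, Or.inr⟩
    constructor
    · rintro (⟨hs, h⟩ | h)
      · rcases h with ⟨h1, h2, h3⟩ | ⟨k, h1, h2, h3⟩
        · exact Or.inr (Or.inl ⟨hs, (h0 hs).1 h1, (scale_mem hs p.2.1 p.2.2).1.1 h2, h3⟩)
        · exact Or.inl ⟨hs, k, h1, h2, h3⟩
      · exact Or.inr (Or.inr h)
    · rintro (⟨hs, k, h1, h2, h3⟩ | ⟨hs, h1, h2, h3⟩ | h)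
      · exact Or.inl ⟨hs, Or.inr ⟨k, h1, h2, h3⟩⟩
      · exact Or.inl ⟨hs, Or.inl ⟨(h0 hs).2 h1, (scale_mem hs p.2.1 p.2.2).1.2 h2, h3⟩⟩
      · exact Or.inr h
  have e2 : ∀ p : ℝ × B × V, p ∈ cone G.K ↔ (tube p ∨
      (p.1 < 0 ∧ ⟪e, p.2.2⟫ = 0 ∧ ‖p.2.1‖ = -p.1 ∧ ‖p.2.2‖ ≤ G.R * (-p.1) ∧ out p) ∨
      (p.1 < 0 ∧ ⟪e, p.2.2⟫ = 0 ∧ ‖p.2.1‖ ≤ -p.1 ∧ ‖p.2.2‖ = G.R * (-p.1))) := by
    intro p
    have h0 : p.1 < 0 → (⟪e, ((-p.1)⁻¹ • p.2).2⟫ = 0 ↔ ⟪e, p.2.2⟫ = 0) := by
      intro hs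
      show ⟪e, (-p.1)⁻¹ • p.2.2⟫ = 0 ↔ _
      rw [inner_smul_right, mul_eq_zero]
      have : (-p.1)⁻¹ ≠ 0 := inv_ne_zero (by linarith)
      exact ⟨fun h => h.resolve_left this, Or.inr⟩
    constructor
    · rintro ⟨hs, ⟨h1, h2, h3, h4⟩ | ⟨h1, h2, h3⟩ | ⟨k, h1, h2, h3⟩⟩
      · exact Or.inr (Or.inl ⟨hs, (h0 hs).1 h1, (scale_mem hs p.2.1 p.2.2).1.1 h2,
          ((scale_mem hs p.2.1 p.2.2).2.2.2 _).1 h3, h4⟩)
      · exact Or.inr (Or.inr ⟨hs, (h0 hs).1 h1, (scale_mem hs p.2.1 p.2.2).2.1.1 h2,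
          ((scale_mem hs p.2.1 p.2.2).2.2.1 _).1 h3⟩)
      · exact Or.inl ⟨hs, k, h1, h2, h3⟩
    · rintro (⟨hs, k, h1, h2, h3⟩ | ⟨hs, h1, h2, h3, h4⟩ | ⟨hs, h1, h2, h3⟩)
      · exact ⟨hs, Or.inr (Or.inr ⟨k, h1, h2, h3⟩)⟩
      · exact ⟨hs, Or.inl ⟨(h0 hs).2 h1, (scale_mem hs p.2.1 p.2.2).1.2 h2,
          ((scale_mem hs p.2.1 p.2.2).2.2.2 _).2 h3, h4⟩⟩
      · exact ⟨hs, Or.inr (Or.inl ⟨(h0 hs).2 h1, (scale_mem hs p.2.1 p.2.2).2.1.2 h2,
          ((scale_mem hs p.2.1 p.2.2).2.2.1 _).2 h3⟩)⟩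
  -- on tubes the flip is the identity
  have htsh : ∀ p : ℝ × B × V, tube p → sh G.R R' p = 0 := by
    rintro p ⟨hs, k, h1, h2, -⟩
    refine sh_eq_zero hR hR' hs (((scale_mem hs p.2.1 p.2.2).2.2.2 _).1 ?_)
    have h3 := hb k _ h1
    calc ‖(-p.1)⁻¹ • p.2.2‖
        = ‖G.x k ((-p.1)⁻¹ • p.2.1) + ((-p.1)⁻¹ • p.2.2 - G.x k ((-p.1)⁻¹ • p.2.1))‖ := by
          rw [add_sub_cancel]
      _ ≤ ‖G.x k ((-p.1)⁻¹ • p.2.1)‖ + ‖(-p.1)⁻¹ • p.2.2 - G.x k ((-p.1)⁻¹ • p.2.1)‖ :=
          norm_add_le _ _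
      _ ≤ R' := by rw [h2]; exact h3
  have htflip : ∀ p : ℝ × B × V, tube p → flip G.R R' p = p := by
    intro p h
    unfold flip
    rw [htsh p h, sub_zero]
  have hinj := flip_injective (B := B) (V := V) hR' hRR
  have hgr : ∀ (b : B) (v : V),
      flip G.R R' (-‖b‖, b, v) = (-‖b‖ - max 0 (‖v‖ / G.R - ‖b‖), b, v) := by
    intro b v
    unfold flip
    rw [sh_graph hR' hRR]
  rw [e1, e2]
  constructor
  · rintro (h | ⟨hs, h1, h2, h3⟩ | ⟨h1, h2, h3⟩)
    · rw [htflip p h]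
      exact Or.inl h
    · obtain ⟨s, b, v⟩ := p
      simp only at hs h1 h2
      have hsb : s = -‖b‖ := by linarith
      subst hsb
      rw [hgr]
      rcases le_or_gt (‖v‖ / G.R) ‖b‖ with h4 | h4
      · rw [max_eq_left (by linarith), sub_zero]
        refine Or.inr (Or.inl ⟨hs, h1, h2, ?_, h3⟩)
        rw [div_le_iff₀ hR] at h4
        show ‖v‖ ≤ G.R * (-(-‖b‖))
        linarith
      · rw [max_eq_right (by linarith)]
        refine Or.inr (Or.inr ⟨?_, h1, ?_, ?_⟩)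
        · show -‖b‖ - (‖v‖ / G.R - ‖b‖) < 0
          have := norm_nonneg b
          linarith
        · show ‖b‖ ≤ -(-‖b‖ - (‖v‖ / G.R - ‖b‖))
          linarith
        · show ‖v‖ = G.R * (-(-‖b‖ - (‖v‖ / G.R - ‖b‖)))
          field_simp
          ring
    · obtain ⟨s, b, v⟩ := p
      simp only at h1 h2 h3
      subst h1 h2
      have hv : v ≠ 0 := by
        rintro rfl
        exact hp rfl
      have h4 := hgr (0 : B) v
      rw [norm_zero, neg_zero] at h4
      rw [h4]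
      have hv0 : 0 < ‖v‖ / G.R := div_pos (norm_pos_iff.2 hv) hR
      rw [max_eq_right (by linarith)]
      refine Or.inr (Or.inr ⟨?_, h3, ?_, ?_⟩)
      · show (0 : ℝ) - (‖v‖ / G.R - 0) < 0
        linarith
      · show ‖(0 : B)‖ ≤ -((0 : ℝ) - (‖v‖ / G.R - 0))
        rw [norm_zero]
        linarith
      · show ‖v‖ = G.R * (-((0 : ℝ) - (‖v‖ / G.R - 0)))
        field_simp
        ring
  · rintro (h | ⟨hs, h1, h2, h3, h4⟩ | ⟨hs, h1, h2, h3⟩)
    · have h5 := htflip _ h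
      have h6 : flip G.R R' p = p := hinj h5
      rw [h6] at h
      exact Or.inl h
    · -- gap = 0
      obtain ⟨s, b, v⟩ := p
      set s' := (flip G.R R' (s, b, v)).1 with hs'
      have hval : flip G.R R' (s, b, v) = (s', b, v) := rfl
      rw [hval] at h1 h2 h3 h4
      simp only at h1 h2 h3
      have hsb : s' = -‖b‖ := by linarith
      have h5 : ‖v‖ / G.R - ‖b‖ ≤ 0 := by
        rw [sub_nonpos, div_le_iff₀ hR, mul_comm, h2]
        exact h3
      have h6 : flip G.R R' (s', b, v) = (s', b, v) := by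
        rw [hsb, hgr, max_eq_left h5, sub_zero]
      have h7 : ((s, b, v) : ℝ × B × V) = (s', b, v) := hinj (by rw [h6, hval])
      rw [h7]
      exact Or.inr (Or.inl ⟨hs, h1, h2, h4⟩)
    · obtain ⟨s, b, v⟩ := p
      set s' := (flip G.R R' (s, b, v)).1 with hs'
      have hval : flip G.R R' (s, b, v) = (s', b, v) := rfl
      rw [hval] at h1 h2 h3
      simp only at h1 h2 h3
      have h4 : s' = -(‖v‖ / G.R) := by
        rw [h3]
        field_simp
      have h5 : ‖b‖ ≤ ‖v‖ / G.R := by linarith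
      have h6 : flip G.R R' (-‖b‖, b, v) = (s', b, v) := by
        rw [hgr, max_eq_right (by linarith), h4]
        congr 1
        ring
      have h7 : ((s, b, v) : ℝ × B × V) = (-‖b‖, b, v) := hinj (by rw [h6, hval])
      have h8 : s = -‖b‖ := congrArg Prod.fst h7
      subst h8
      rcases (norm_nonneg b).lt_or_eq with h9 | h9
      · refine Or.inr (Or.inl ⟨by show -‖b‖ < 0; linarith, h1, by simp, fun k => ?_⟩)
        show G.r ≤ ‖(-(-‖b‖))⁻¹ • v - G.x k ((-(-‖b‖))⁻¹ • b)‖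
        rw [neg_neg]
        have h10 : ‖(‖b‖)⁻¹ • b‖ ≤ 1 := by
          rw [norm_smul, norm_inv, norm_norm, inv_mul_cancel₀ h9.ne']
        have h11 := hb k _ h10
        have h12 : G.R ≤ ‖(‖b‖)⁻¹ • v‖ := by
          rw [norm_smul, norm_inv, norm_norm, inv_mul_eq_div, le_div_iff₀ h9]
          rw [le_div_iff₀ hR] at h5
          linarith
        have h13 := norm_sub_norm_le ((‖b‖)⁻¹ • v) (G.x k ((‖b‖)⁻¹ • b))
        linarith
      · refine Or.inr (Or.inr ⟨?_, ?_, h1⟩)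
        · show -‖b‖ = 0
          rw [← h9, neg_zero]
        · exact norm_eq_zero.1 h9.symm

/-- **END1**: the half-space form gives the link of the graph system. -/
theorem isLink_of_khom [FiniteDimensional ℝ B] [FiniteDimensional ℝ V] (G : Sys B e m)
    (hR : 0 < G.R) {X : Type*} [TopologicalSpace X] {Z : Set X}
    (h : X ≃ₜ sphere (0 : ℝ × B × V) 1) (hZ : ∀ x, x ∈ Z ↔ (h x : ℝ × B × V) ∈ Khom G) :
    ∃ g : X ≃ₜ OnePoint (B × V), ∀ x, x ∈ Z ↔ ∃ p ∈ G.K, g x = (p : OnePoint (B × V)) := by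
  obtain ⟨R', h1, h2, h3⟩ := exists_bound G hR
  obtain ⟨f, hf⟩ := exists_sphere_homeo (E := ℝ × B × V) (continuous_flip G.R R')
    (fun l p hl => flip_smul l p hl) (flip_injective h1 h2) (flip_surjective h1 h2)
  obtain ⟨T, hT⟩ := exists_comp (Y := B × V) (ρ := max 1 G.R) (K := G.K)
    (le_trans zero_le_one (le_max_left _ _)) (by
      rintro ⟨b, v⟩ hp
      have h4 : ‖b‖ ≤ 1 ∧ ‖v‖ ≤ G.R := by
        rcases hp with ⟨-, h5, h6, -⟩ | ⟨-, h5, h6⟩ | ⟨k, h5, h6, -⟩
        · exact ⟨h5.le, h6⟩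
        · exact ⟨h5, h6.le⟩
        · refine ⟨h5, ?_⟩
          simp only at h6
          have h7 := G.bd k b
          have h8 : ‖v‖ ≤ ‖G.x k b‖ + ‖v - G.x k b‖ := by
            calc ‖v‖ = ‖G.x k b + (v - G.x k b)‖ := by rw [add_sub_cancel]
              _ ≤ _ := norm_add_le _ _
          linarith
      rw [Prod.norm_def]
      exact max_le (h4.1.trans (le_max_left _ _)) (h4.2.trans (le_max_right _ _)))
  refine ⟨(h.trans f).trans T, fun x => ?_⟩
  rw [hZ]
  have hx0 : (h x : ℝ × B × V) ≠ 0 := by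
    intro h0
    have := mem_sphere_zero_iff_norm.1 (h x).2
    rw [h0, norm_zero] at this
    exact zero_ne_one this
  rw [flip_mem G h1 h2 h3 hx0]
  obtain ⟨l, hl, hfx⟩ := hf (h x)
  rw [← cone_smul G.K hl, ← hfx]
  exact hT (f (h x))

end Flip

end Crest.Agent.R267.End1_532
end

-- ▼ part R267/End2a_864
section

/-!
# Row 267, T3-end: from the zero set with flat plate zone and tubes to `Khom` (part a)

The three homogeneous homeomorphisms: shear of the sheet, wall, scaling of the fibre.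
-/

set_option autoImplicit false

namespace Crest.Agent.R267.End2a_864

open Set Metric Filter Topology
open scoped RealInnerProductSpace
open Crest.Agent.R267.GS_808 Crest.Agent.R267.EndDef_864 Crest.Agent.R267.EndBas_864
  Crest.Agent.R267.EndSys_864

/-! ### zeros of functions which are monotone at their zeros -/

lemma exists_zero_fun {X : Type*} [TopologicalSpace X] (f : X → ℝ → ℝ)
    (hf : Continuous fun p : X × ℝ => f p.1 p.2)
    (h1 : ∀ x a a', a < a' → 0 ≤ f x a' → 0 < f x a) (h2 : ∀ x, ∃ a, 0 < f x a)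
    (h3 : ∀ x, ∃ a, f x a < 0) :
    ∃ g : X → ℝ, Continuous g ∧ ∀ x a, (0 < f x a ↔ a < g x) ∧ (f x a = 0 ↔ a = g x) := by
  have hx : ∀ x, ∃ a, f x a = 0 := by
    intro x
    obtain ⟨a1, h4⟩ := h2 x
    obtain ⟨a2, h5⟩ := h3 x
    have h6 : a1 ≤ a2 := by
      by_contra h
      push Not at h
      exact absurd (h1 x a2 a1 h h4.le) (not_lt.2 h5.le)
    have h7 : ContinuousOn (f x) (Icc a1 a2) :=
      (hf.comp (Continuous.prodMk_right x)).continuousOn
    obtain ⟨a, -, ha⟩ := intermediate_value_Icc' h6 h7 ⟨h5.le, h4.le⟩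
    exact ⟨a, ha⟩
  choose g hg using hx
  have key : ∀ x a, (0 < f x a ↔ a < g x) ∧ (f x a = 0 ↔ a = g x) := by
    intro x a
    have lt : a < g x → 0 < f x a := fun h => h1 x a (g x) h (hg x).ge
    have gt : g x < a → f x a < 0 := by
      intro h
      by_contra h8
      push Not at h8
      exact absurd (hg x) (h1 x (g x) a h h8).ne'
    constructor
    · refine ⟨fun h => ?_, lt⟩
      rcases lt_trichotomy a (g x) with h8 | h8 | h8
      · exact h8
      · rw [h8, hg x] at h; exact absurd h (lt_irrefl _)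
      · exact absurd h (not_lt.2 (gt h8).le)
    · refine ⟨fun h => ?_, fun h => by rw [h, hg x]⟩
      rcases lt_trichotomy a (g x) with h8 | h8 | h8
      · exact absurd h (lt h8).ne'
      · exact h8
      · exact absurd h (gt h8).ne
  refine ⟨g, ?_, key⟩
  rw [OrderTopology.continuous_iff]
  intro a
  have hfa : Continuous fun x => f x a := hf.comp (Continuous.prodMk_left a)
  constructor
  · have : g ⁻¹' Ioi a = {x | 0 < f x a} := by
      ext x
      exact (key x a).1.symm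
    rw [this]
    exact isOpen_lt continuous_const hfa
  · have : g ⁻¹' Iio a = {x | f x a < 0} := by
      ext x
      show g x < a ↔ f x a < 0
      have k := key x a
      constructor
      · intro h
        rcases lt_trichotomy (f x a) 0 with h8 | h8 | h8
        · exact h8
        · exact absurd (k.2.1 h8) h.ne'
        · exact absurd (k.1.1 h8) (not_lt.2 h.le)
      · intro h
        rcases lt_trichotomy a (g x) with h8 | h8 | h8
        · exact absurd (k.1.2 h8) (not_lt.2 h.le)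
        · exact absurd (k.2.2 h8) h.ne
        · exact h8
    rw [this]
    exact isOpen_lt hfa continuous_const

/-- homogeneous maps which are continuous off `0` are continuous. -/
lemma continuous_of_homog {E F : Type*} [NormedAddCommGroup E] [NormedSpace ℝ E]
    [FiniteDimensional ℝ E] [NormedAddCommGroup F] [NormedSpace ℝ F] {f : E → F}
    (hf : ContinuousOn f {0}ᶜ) (hh : ∀ (c : ℝ) p, 0 < c → f (c • p) = c • f p) : Continuous f := by
  have h0 : f 0 = 0 := by
    have h1 := hh 2 0 two_pos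
    rw [smul_zero, two_smul] at h1
    exact left_eq_add.1 h1
  rw [continuous_iff_continuousAt]
  intro x
  by_cases hx : x = 0
  · obtain ⟨M, hM⟩ := (isCompact_sphere (0 : E) 1).exists_bound_of_continuousOn
      (f := f) (hf.mono fun y hy h => by
        rw [mem_singleton_iff] at h
        rw [h, mem_sphere_iff_norm, sub_zero, norm_zero] at hy
        exact zero_ne_one hy)
    have hM' : ∀ y, ‖f y‖ ≤ M * ‖y‖ := by
      intro y
      by_cases hy : y = 0
      · rw [hy, h0, norm_zero, norm_zero, mul_zero]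
      · have h2 : 0 < ‖y‖ := norm_pos_iff.2 hy
        have h3 := hM (‖y‖⁻¹ • y) (by
          rw [mem_sphere_iff_norm, sub_zero, norm_smul, norm_inv, norm_norm,
            inv_mul_cancel₀ h2.ne'])
        rw [hh _ _ (inv_pos.2 h2), norm_smul, norm_inv, norm_norm, inv_mul_le_iff₀ h2] at h3
        linarith
    rw [hx, ContinuousAt, h0]
    refine squeeze_zero_norm hM' ?_
    have : Tendsto (fun y : E => M * ‖y‖) (𝓝 0) (𝓝 (M * ‖(0 : E)‖)) :=
      (continuous_const.mul continuous_norm).continuousAt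
    rwa [norm_zero, mul_zero] at this
  · exact (hf x hx).continuousAt (isOpen_compl_singleton.mem_nhds hx)

/-! ### the wall profile -/

/-- `F̃(q, o)`. -/
noncomputable def Ft (q o : ℝ) : ℝ := max q (min ((q + o) / 2) (q + o))

/-- its inverse in the first variable. -/
noncomputable def Gt (x o : ℝ) : ℝ := min x (max (2 * x - o) (x - o))

lemma Gt_Ft (q o : ℝ) (ho : 0 ≤ o) : Gt (Ft q o) o = q := by
  rcases le_total o q with h | h
  · have e1 : Ft q o = q := by
      rw [Ft, max_eq_left]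
      exact (min_le_left _ _).trans (by linarith)
    rw [e1, Gt, min_eq_left]
    exact le_max_of_le_left (by linarith)
  · rcases le_total (-o) q with h' | h'
    · have e1 : Ft q o = (q + o) / 2 := by
        rw [Ft, min_eq_left (by linarith), max_eq_right (by linarith)]
      rw [e1, Gt, max_eq_left (by linarith), min_eq_right (by linarith)]
      ring
    · have e1 : Ft q o = q + o := by
        rw [Ft, min_eq_right (by linarith), max_eq_right (by linarith)]
      rw [e1, Gt, max_eq_right (by linarith), min_eq_right (by linarith)]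
      ring

lemma Ft_Gt (x o : ℝ) (ho : 0 ≤ o) : Ft (Gt x o) o = x := by
  rcases le_total o x with h | h
  · have e1 : Gt x o = x := by
      rw [Gt, min_eq_left]
      exact le_max_of_le_left (by linarith)
    rw [e1, Ft, max_eq_left]
    exact (min_le_left _ _).trans (by linarith)
  · rcases le_total 0 x with h' | h'
    · have e1 : Gt x o = 2 * x - o := by
        rw [Gt, max_eq_left (by linarith), min_eq_right (by linarith)]
      rw [e1, Ft, min_eq_left (by linarith), max_eq_right (by linarith)]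
      ring
    · have e1 : Gt x o = x - o := by
        rw [Gt, max_eq_right (by linarith), min_eq_right (by linarith)]
      rw [e1, Ft, min_eq_right (by linarith), max_eq_right (by linarith)]
      ring

lemma Ft_of_le {q o : ℝ} (h : o ≤ q) (_ho : 0 ≤ o) : Ft q o = q := by
  rw [Ft, max_eq_left]
  exact (min_le_left _ _).trans (by linarith)

lemma Ft_eq_zero {q o : ℝ} (ho : 0 ≤ o) : Ft q o = 0 ↔ q = -o := by
  constructor
  · intro h
    rw [← Gt_Ft q o ho, h, Gt, mul_zero, zero_sub, max_self, min_eq_right (by linarith)]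
  · rintro rfl
    rw [Ft, neg_add_cancel, zero_div, min_self, max_eq_right (by linarith)]

lemma continuous_Ft : Continuous fun p : ℝ × ℝ => Ft p.1 p.2 := by
  unfold Ft
  fun_prop

lemma Ft_mul {c : ℝ} (hc : 0 < c) (q o : ℝ) : Ft (c * q) (c * o) = c * Ft q o := by
  rw [Ft, Ft, mul_max_of_nonneg _ _ hc.le, mul_min_of_nonneg _ _ hc.le]
  congr 2 <;> ring


/-! ### the hypotheses of END2 -/

/-- the data produced by the function side: sheet function `c`, plate zone function `a0`. -/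
structure E2 {n m : ℕ} (D : HD n m) where
  c : W n → W n → ℝ
  a0 : W n → W n → ℝ
  r : ℝ
  κ1 : ℝ
  κ2 : ℝ
  κ3 : ℝ
  Cp : ℝ
  hr : 0 < r
  hκ3 : 0 < κ3
  hκ23 : κ3 ≤ κ2
  hκ1 : (1 + √(n + 3 : ℝ)) * κ3 ≤ κ1
  hCp : κ2 ≤ Cp
  kap0 : ∀ s, s ≠ 0 → D.ka s ≠ 0 → ∀ j, s j < 0
  cc : Continuous fun p : W n × W n => c p.1 p.2
  ch : ∀ (l : ℝ) s t, 0 < l → c (l • s) (l • t) = l * c s t
  /-- over low base points `c` is strictly decreasing in the direction `u1` -/
  cm : ∀ s, s ≠ 0 → (∀ j, s j ≤ 0) → ∀ (t : W n) (h h' : ℝ),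
    h < h' → c s (t + h' • u1 n) < c s (t + h • u1 n)
  cpos : ∀ s, s ≠ 0 → (∀ j, s j ≤ 0) → ∀ t, ∃ h : ℝ, 0 < c s (t + h • u1 n)
  cneg : ∀ s, s ≠ 0 → (∀ j, s j ≤ 0) → ∀ t, ∃ h : ℝ, c s (t + h • u1 n) < 0
  clin : ∀ s, s ≠ 0 → D.ka s ≠ 0 → ∀ t, ‖t‖ ≤ κ1 * ‖s‖ → (c s t = 0 ↔ ⟪D.nz s, t⟫ = 0)
  cball : ∀ s k t, s ≠ 0 → a0 s 0 ≤ 0 → ‖D.A s (t - D.eta k s)‖ ≤ r * ‖s‖ →
    (c s t = 0 ↔ ⟪D.nrm k s, t - D.eta k s⟫ = 0)
  c00 : ∀ h : ℝ, c 0 (h • u1 n) = 0 → h = 0
  ca : Continuous fun p : W n × W n => a0 p.1 p.2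
  ah : ∀ (l : ℝ) s t, 0 < l → a0 (l • s) (l • t) = l * a0 s t
  ahor : ∀ s t, a0 s t = a0 s (hor t)
  asm : ∀ s t, ‖hor t‖ ≤ κ2 * ‖s‖ → a0 s t = a0 s 0
  ale : ∀ s t, 0 ≤ a0 s t → 0 ≤ a0 s 0
  am : ∀ (l : ℝ) s t, 0 < l → 0 ≤ a0 s t → 0 < a0 (s - l • u1 n) t
  apos : ∀ s t, ∃ l : ℝ, 0 < a0 (s - l • u1 n) t
  aneg : ∀ s t, ∃ l : ℝ, a0 (s + l • u1 n) t < 0
  abd : ∀ s t, 0 ≤ a0 s t → ‖hor t‖ ≤ Cp * ‖s‖
  asgn : ∀ s, 0 ≤ a0 s 0 → ⟪u1 n, s⟫ ≤ 0
  am0 : ∀ b, a0 (bp b (-(D.m0 b))) 0 = 0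
  aka : ∀ s t, s ≠ 0 → 0 ≤ a0 s t → D.ka s = 1
  T1 : ∀ s k, s ≠ 0 → ‖hor (D.eta k s)‖ + r * ‖s‖ ≤ κ2 * ‖s‖
  T1k : ∀ s k, s ≠ 0 → D.ka s ≠ 0 → ‖hor (D.eta k s)‖ + r * ‖s‖ ≤ κ3 * ‖s‖

namespace E2

variable {n m : ℕ} {D : HD n m} (P : E2 D)

/-- low base points -/
def Low (n : ℕ) : Set (W n × W n) := {p | p.1 ≠ 0 ∧ ∀ j, p.1 j ≤ 0}

lemma exists_tau : ∃ τ : Low n → ℝ, Continuous τ ∧ ∀ (p : Low n) h,
    (0 < P.c p.1.1 (hor p.1.2 + h • u1 n) ↔ h < τ p) ∧
    (P.c p.1.1 (hor p.1.2 + h • u1 n) = 0 ↔ h = τ p) := by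
  refine exists_zero_fun (fun (p : Low n) h => P.c p.1.1 (hor p.1.2 + h • u1 n)) ?_ ?_ ?_ ?_
  · refine P.cc.comp (f := fun p : Low n × ℝ => (p.1.1.1, hor p.1.1.2 + p.2 • u1 n)) ?_
    have h1 : Continuous fun p : Low n × ℝ => (p.1.1 : W n × W n) :=
      continuous_subtype_val.comp continuous_fst
    exact (continuous_fst.comp h1).prodMk ((continuous_hor.comp (continuous_snd.comp h1)).add
      (continuous_snd.smul continuous_const))
  · intro p a a' h h'
    exact lt_of_le_of_lt h' (P.cm _ p.2.1 p.2.2 _ _ _ h)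
  · intro p
    exact P.cpos _ p.2.1 p.2.2 _
  · intro p
    exact P.cneg _ p.2.1 p.2.2 _

/-- height of the sheet over low base points. -/
noncomputable def tau (p : Low n) : ℝ := Classical.choose P.exists_tau p

lemma continuous_tau : Continuous P.tau := (Classical.choose_spec P.exists_tau).1

lemma tau_spec (p : Low n) (h : ℝ) :
    P.c p.1.1 (hor p.1.2 + h • u1 n) = 0 ↔ h = P.tau p :=
  ((Classical.choose_spec P.exists_tau).2 p h).2

lemma tau_hor (s t t' : W n) (hs : (s, t) ∈ Low n) (h : hor t = hor t') :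
    P.tau ⟨(s, t), hs⟩ = P.tau ⟨(s, t'), hs⟩ := by
  rw [← tau_spec]
  simp only
  rw [← h]
  exact (P.tau_spec ⟨(s, t), hs⟩ _).2 rfl

lemma low_smul {l : ℝ} (hl : 0 < l) {p : W n × W n} (h : p ∈ Low n) : l • p ∈ Low n := by
  refine ⟨smul_ne_zero hl.ne' h.1, fun j => ?_⟩
  have h1 := h.2 j
  simp only [Prod.smul_fst, PiLp.smul_apply, smul_eq_mul]
  exact mul_nonpos_of_nonneg_of_nonpos hl.le h1

lemma tau_smul {l : ℝ} (hl : 0 < l) {p : W n × W n} (h : p ∈ Low n) :
    P.tau ⟨l • p, low_smul hl h⟩ = l * P.tau ⟨p, h⟩ := by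
  symm
  rw [← tau_spec]
  have h1 := (P.tau_spec ⟨p, h⟩ _).2 rfl
  simp only [Prod.smul_fst, Prod.smul_snd, hor_smul] at h1 ⊢
  rw [mul_smul, ← smul_add, P.ch _ _ _ hl, h1, mul_zero]

/-- cut-off in the fibre. -/
noncomputable def ze (p : W n × W n) : ℝ := max 0 (min 1 (2 - ‖hor p.2‖ / (P.Cp * ‖p.1‖)))

open Classical in
/-- amount of the shear. -/
noncomputable def sig (p : W n × W n) : ℝ :=
  if h : p ∈ Low n then D.ka p.1 * P.ze p * P.tau ⟨p, h⟩ else 0

lemma hκ2 : 0 < P.κ2 := P.hκ3.trans_le P.hκ23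

lemma Cp_pos : 0 < P.Cp := P.hκ2.trans_le P.hCp

lemma sig_hor (s t t' : W n) (h : hor t = hor t') : P.sig (s, t) = P.sig (s, t') := by
  unfold sig
  by_cases hs : (s, t) ∈ Low n
  · have hs' : (s, t') ∈ Low n := hs
    rw [dif_pos hs, dif_pos hs', P.tau_hor s t t' hs h, ze, ze]
    simp only [h]
  · have hs' : (s, t') ∉ Low n := hs
    rw [dif_neg hs, dif_neg hs']

lemma sig_smul (l : ℝ) (p : W n × W n) (hl : 0 < l) : P.sig (l • p) = l * P.sig p := by
  unfold sig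
  by_cases hp : p ∈ Low n
  · rw [dif_pos hp, dif_pos (low_smul hl hp), P.tau_smul hl hp]
    have h1 : P.ze (l • p) = P.ze p := by
      rw [ze, ze]
      simp only [Prod.smul_fst, Prod.smul_snd, hor_smul, norm_smul, Real.norm_of_nonneg hl.le]
      rw [show P.Cp * (l * ‖p.1‖) = l * (P.Cp * ‖p.1‖) by ring, mul_div_mul_left _ _ hl.ne']
    rw [h1, Prod.smul_fst, D.kah l p.1 hl]
    ring
  · have h2 : l • p ∉ Low n := by
      intro h
      apply hp
      have h3 := low_smul (inv_pos.2 hl) h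
      rwa [smul_smul, inv_mul_cancel₀ hl.ne', one_smul] at h3
    rw [dif_neg hp, dif_neg h2, mul_zero]

lemma ze_continuousOn : ContinuousOn P.ze {p | p.1 ≠ 0} := by
  have hC := P.Cp_pos
  have h0 : ContinuousOn (fun p : W n × W n => ‖hor p.2‖ / (P.Cp * ‖p.1‖)) {p | p.1 ≠ 0} := ?_
  · have h1 : Continuous fun x : ℝ => max 0 (min 1 (2 - x)) := by fun_prop
    exact h1.comp_continuousOn h0
  refine ContinuousOn.div ?_ ?_ fun p hp => mul_ne_zero hC.ne' (norm_ne_zero_iff.2 hp)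
  · exact (continuous_hor.comp continuous_snd).norm.continuousOn
  · exact (continuous_const.mul continuous_fst.norm).continuousOn

lemma sig_continuousOn_low : ContinuousOn P.sig (Low n) := by
  rw [continuousOn_iff_continuous_domRestrict]
  have h1 : (Low n).domRestrict P.sig = fun p : Low n => D.ka p.1.1 * P.ze p.1 * P.tau p := by
    funext p
    rw [domRestrict_apply, sig, dif_pos p.2]
  rw [h1]
  refine (Continuous.mul ?_ ?_).mul P.continuous_tau
  · exact D.cka.comp_continuous (continuous_fst.comp continuous_subtype_val) fun p => p.2.1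
  · exact P.ze_continuousOn.comp_continuous continuous_subtype_val fun p => p.2.1

lemma sig_eq_zero_of_ka {p : W n × W n} (h : D.ka p.1 = 0) : P.sig p = 0 := by
  unfold sig
  split_ifs
  · rw [h, zero_mul, zero_mul]
  · rfl

lemma sig_continuousAt {p0 : W n × W n} (hs0 : p0.1 ≠ 0) : ContinuousAt P.sig p0 := by
  have hcoord : ∀ j, Continuous fun p : W n × W n => p.1 j := fun j =>
    ((continuous_apply j).comp (PiLp.continuous_ofLp 2 _)).comp continuous_fst
  by_cases hp0 : p0 ∈ Low n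
  · by_cases hk : D.ka p0.1 = 0
    · have h1 : ContinuousWithinAt P.sig (Low n) p0 := P.sig_continuousOn_low p0 hp0
      have h2 : ContinuousWithinAt P.sig (Low n)ᶜ p0 := by
        refine ContinuousWithinAt.congr (f := fun _ => (0 : ℝ)) continuousWithinAt_const ?_
          (P.sig_eq_zero_of_ka hk)
        intro p hp
        rw [sig, dif_neg hp]
      have h3 := h1.union h2
      rwa [union_compl_self, continuousWithinAt_univ] at h3
    · have h1 : {p : W n × W n | p.1 ≠ 0} ∈ 𝓝 p0 :=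
        (isOpen_ne.preimage continuous_fst).mem_nhds hs0
      have h2 : ∀ j, {p : W n × W n | p.1 j < 0} ∈ 𝓝 p0 := fun j =>
        (isOpen_lt (hcoord j) continuous_const).mem_nhds (P.kap0 _ hs0 hk j)
      have h3 : Low n ∈ 𝓝 p0 := by
        filter_upwards [h1, Filter.eventually_all.2 h2] with p h4 h5
        exact ⟨h4, fun j => (h5 j).le⟩
      exact (P.sig_continuousOn_low p0 hp0).continuousAt h3
  · have h1 : ∃ j, 0 < p0.1 j := by
      by_contra h
      push Not at h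
      exact hp0 ⟨hs0, h⟩
    obtain ⟨j, hj⟩ := h1
    have h2 : {p : W n × W n | 0 < p.1 j} ∈ 𝓝 p0 :=
      (isOpen_lt continuous_const (hcoord j)).mem_nhds hj
    have h3 : P.sig =ᶠ[𝓝 p0] fun _ => 0 := by
      filter_upwards [h2] with p hp
      rw [sig, dif_neg]
      intro h
      exact absurd (h.2 j) (not_le.2 hp)
    exact continuousAt_const.congr h3.symm

lemma sig_eventually_zero {p0 : W n × W n} (hs0 : p0.1 = 0) (hy : hor p0.2 ≠ 0) :
    P.sig =ᶠ[𝓝 p0] fun _ => 0 := by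
  have hC := P.Cp_pos
  have h1 : {p : W n × W n | 2 * P.Cp * ‖p.1‖ < ‖hor p.2‖} ∈ 𝓝 p0 := by
    refine IsOpen.mem_nhds (isOpen_lt (by fun_prop) (continuous_hor.comp continuous_snd).norm) ?_
    show 2 * P.Cp * ‖p0.1‖ < ‖hor p0.2‖
    rw [hs0, norm_zero, mul_zero]
    exact norm_pos_iff.2 hy
  filter_upwards [h1] with p hp
  unfold sig
  split_ifs with h
  · have h3 : P.ze p = 0 := by
      rw [ze, max_eq_left]
      have h4 : 0 < P.Cp * ‖p.1‖ := mul_pos hC (norm_pos_iff.2 h.1)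
      have h5 : 2 ≤ ‖hor p.2‖ / (P.Cp * ‖p.1‖) := by
        rw [le_div_iff₀ h4]
        have : 2 * P.Cp * ‖p.1‖ < ‖hor p.2‖ := hp
        linarith
      exact (min_le_right _ _).trans (by linarith)
    rw [h3]; ring
  · rfl

lemma hor_hor (v : W n) : hor (hor v) = hor v := by
  rw [hor, inner_u1_hor, zero_smul, sub_zero]

lemma continuous_sig : Continuous P.sig := by
  rw [continuous_iff_continuousAt]
  intro p0
  by_cases hs0 : p0.1 = 0
  · by_cases hy : hor p0.2 = 0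
    · set K : Set (W n × W n) := {p | ‖p‖ = 1 ∧ ⟪u1 n, p.2⟫ = 0} with hK
      have hKc : IsCompact K := by
        refine (isCompact_sphere (0 : W n × W n) 1).of_isClosed_subset ?_ ?_
        · refine (isClosed_eq continuous_norm continuous_const).inter (isClosed_eq ?_ continuous_const)
          fun_prop
        · intro p hp
          rw [mem_sphere_iff_norm, sub_zero]
          exact hp.1
      have hcK : ContinuousOn P.sig K := by
        intro p hp
        refine ContinuousAt.continuousWithinAt ?_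
        by_cases h : p.1 = 0
        · refine continuousAt_const.congr (P.sig_eventually_zero h ?_).symm
          intro h2
          have h3 : p.2 = 0 := by rw [← hor_add_u1 p.2, h2, hp.2, zero_smul, zero_add]
          have h4 : p = 0 := Prod.ext h h3
          have h5 := hp.1
          rw [h4, norm_zero] at h5
          exact zero_ne_one h5
        · exact P.sig_continuousAt h
      obtain ⟨M, hM⟩ := hKc.exists_bound_of_continuousOn hcK
      have hM' : ∀ p : W n × W n, ‖P.sig p‖ ≤ M * ‖(p.1, hor p.2)‖ := by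
        intro p
        by_cases h : (p.1, hor p.2) = (0 : W n × W n)
        · rw [h, norm_zero, mul_zero]
          have h1 : p ∉ Low n := fun h2 => h2.1 (congrArg Prod.fst h)
          rw [sig, dif_neg h1, norm_zero]
        · have h2 : 0 < ‖(p.1, hor p.2)‖ := norm_pos_iff.2 h
          have h3 := hM (‖(p.1, hor p.2)‖⁻¹ • (p.1, hor p.2)) ⟨by
            rw [norm_smul, norm_inv, norm_norm, inv_mul_cancel₀ h2.ne'], by
            rw [Prod.smul_snd, inner_smul_right, inner_u1_hor, mul_zero]⟩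
          rw [P.sig_smul _ _ (inv_pos.2 h2), P.sig_hor p.1 (hor p.2) p.2 (hor_hor _), norm_mul,
            norm_inv, norm_norm, inv_mul_le_iff₀ h2] at h3
          linarith
      have h0 : P.sig p0 = 0 := by
        have h1 : p0 ∉ Low n := fun h2 => h2.1 hs0
        rw [sig, dif_neg h1]
      rw [ContinuousAt, h0]
      refine squeeze_zero_norm hM' ?_
      have h1 : Continuous fun p : W n × W n => M * ‖(p.1, hor p.2)‖ :=
        continuous_const.mul (continuous_fst.prodMk (continuous_hor.comp continuous_snd)).norm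
      have h2 := h1.continuousAt (x := p0)
      rw [ContinuousAt, hs0, hy] at h2
      have h3 : ‖((0 : W n), (0 : W n))‖ = 0 := norm_zero
      rwa [h3, mul_zero] at h2
    · exact continuousAt_const.congr (P.sig_eventually_zero hs0 hy).symm
  · exact P.sig_continuousAt hs0

end E2

end Crest.Agent.R267.End2a_864
end

-- ▼ part R267/End2b_864

/-!
# Row 267, T3-end: from the zero set with flat plate zone and tubes to `Khom` (part b)

The height of the plate zone, the scaling of the fibre, the homogeneous homeomorphism.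
-/

set_option autoImplicit false

namespace Crest.Agent.R267.End2b_864

open Set Metric Filter Topology
open scoped RealInnerProductSpace
open Crest.Agent.R267.GS_808 Crest.Agent.R267.EndDef_864 Crest.Agent.R267.EndBas_864
  Crest.Agent.R267.EndSys_864 Crest.Agent.R267.End2a_864 Crest.Agent.R267.End1_532

/-! ### homogeneous bijections between different spaces -/

section Hom

variable {E E' : Type*} [NormedAddCommGroup E] [NormedSpace ℝ E] [NormedAddCommGroup E']
  [NormedSpace ℝ E']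

/-- A positively homogeneous continuous bijection of finite dimensional spaces induces a
homeomorphism of the unit spheres. -/
theorem exists_sphere_homeo' [FiniteDimensional ℝ E] {F : E → E'} (hF : Continuous F)
    (hh : ∀ (l : ℝ) (p : E), 0 < l → F (l • p) = l • F p) (hi : Function.Injective F)
    (hs : Function.Surjective F) :
    ∃ g : sphere (0 : E) 1 ≃ₜ sphere (0 : E') 1, ∀ x, ∃ l : ℝ, 0 < l ∧ (g x : E') = l • F x := by
  have h0 : F 0 = 0 := by
    have h1 : F 0 = (2 : ℝ) • F 0 := by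
      conv_lhs => rw [← smul_zero (2 : ℝ)]
      exact hh 2 0 two_pos
    have h2 : F 0 = F 0 + F 0 := by rwa [two_smul] at h1
    exact (left_eq_add.1 h2)
  have hne : ∀ x : sphere (0 : E) 1, F x ≠ 0 := by
    intro x hx
    have h1 : (x : E) = 0 := hi (by rw [hx, h0])
    have h2 := mem_sphere_zero_iff_norm.1 x.2
    rw [h1, norm_zero] at h2
    exact zero_ne_one h2
  let g0 : sphere (0 : E) 1 → sphere (0 : E') 1 := fun x => nrm (F x) (hne x)
  have hg0 : Continuous g0 := by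
    refine Continuous.subtype_mk ?_ _
    have h1 : Continuous fun x : sphere (0 : E) 1 => F x := hF.comp continuous_subtype_val
    exact (h1.norm.inv₀ fun x => norm_ne_zero_iff.2 (hne x)).smul h1
  have hinj : Function.Injective g0 := by
    intro x y hxy
    have h1 : ‖F x‖⁻¹ • F (x : E) = ‖F y‖⁻¹ • F (y : E) := congrArg Subtype.val hxy
    have hx : 0 < ‖F (x : E)‖⁻¹ := inv_pos.2 (norm_pos_iff.2 (hne x))
    have hy : 0 < ‖F (y : E)‖⁻¹ := inv_pos.2 (norm_pos_iff.2 (hne y))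
    rw [← hh _ _ hx, ← hh _ _ hy] at h1
    have h2 := hi h1
    have h3 := congrArg norm h2
    rw [norm_smul, norm_smul, Real.norm_of_nonneg hx.le, Real.norm_of_nonneg hy.le,
      mem_sphere_zero_iff_norm.1 x.2, mem_sphere_zero_iff_norm.1 y.2, mul_one, mul_one] at h3
    rw [h3] at h2
    exact Subtype.ext (smul_right_injective E hy.ne' h2)
  have hsur : Function.Surjective g0 := by
    intro y
    obtain ⟨p, hp⟩ := hs (y : E')
    have hp0 : p ≠ 0 := by
      rintro rfl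
      rw [h0] at hp
      have h2 := mem_sphere_zero_iff_norm.1 y.2
      rw [← hp, norm_zero] at h2
      exact zero_ne_one h2
    have hn : 0 < ‖p‖⁻¹ := inv_pos.2 (norm_pos_iff.2 hp0)
    refine ⟨nrm p hp0, Subtype.ext ?_⟩
    show ‖F (‖p‖⁻¹ • p)‖⁻¹ • F (‖p‖⁻¹ • p) = y
    rw [hh _ _ hn, hp, norm_smul, mem_sphere_zero_iff_norm.1 y.2, mul_one,
      Real.norm_of_nonneg hn.le, smul_smul, inv_mul_cancel₀ hn.ne', one_smul]
  have : CompactSpace (sphere (0 : E) 1) := isCompact_iff_compactSpace.1 (isCompact_sphere 0 1)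
  refine ⟨Continuous.homeoOfEquivCompactToT2 (f := Equiv.ofBijective g0 ⟨hinj, hsur⟩) hg0,
    fun x => ⟨‖F x‖⁻¹, inv_pos.2 (norm_pos_iff.2 (hne x)), rfl⟩⟩

end Hom

/-! ### scaling of the fibre -/

section Fs

variable {V : Type*} [NormedAddCommGroup V] [NormedSpace ℝ V]

/-- radial map of the fibre: ball of radius `κ S` to ball of radius `κ x`, linear there. -/
noncomputable def fs (κ S x : ℝ) (t : V) : V := (1 + (x - S) * κ / max (κ * S) ‖t‖) • t

lemma fs_small {κ S x : ℝ} {t : V} (hκ : 0 < κ) (hS : 0 < S) (h : ‖t‖ ≤ κ * S) :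
    fs κ S x t = (x / S) • t := by
  rw [fs, max_eq_left h]
  congr 1
  field_simp
  ring

lemma fs_large {κ S x : ℝ} {t : V} (h : κ * S ≤ ‖t‖) (ht : t ≠ 0) :
    fs κ S x t = ((‖t‖ + (x - S) * κ) / ‖t‖) • t := by
  have h0 : ‖t‖ ≠ 0 := norm_ne_zero_iff.2 ht
  rw [fs, max_eq_right h]
  congr 1
  field_simp

lemma fs_zero (κ S x : ℝ) : fs κ S x (0 : V) = 0 := by rw [fs, smul_zero]

lemma norm_fs_large {κ S x : ℝ} {t : V} (hκ : 0 < κ) (hx : 0 ≤ x) (h : κ * S ≤ ‖t‖)
    (ht : t ≠ 0) : ‖fs κ S x t‖ = ‖t‖ + (x - S) * κ := by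
  have h0 : 0 < ‖t‖ := norm_pos_iff.2 ht
  have h1 : 0 ≤ ‖t‖ + (x - S) * κ := by nlinarith
  rw [fs_large h ht, norm_smul, Real.norm_of_nonneg (div_nonneg h1 h0.le), div_mul_cancel₀ _ h0.ne']

lemma fs_fs {κ S x : ℝ} (hκ : 0 < κ) (hS : 0 ≤ S) (hx : 0 ≤ x) (h : S = 0 ↔ x = 0) (t : V) :
    fs κ x S (fs κ S x t) = t := by
  by_cases ht : t = 0
  · rw [ht, fs_zero, fs_zero]
  have h0 : 0 < ‖t‖ := norm_pos_iff.2 ht
  rcases le_or_gt (κ * S) ‖t‖ with h1 | h1
  · have h2 := norm_fs_large (S := S) (x := x) hκ hx h1 ht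
    have h3 : 0 < ‖t‖ + (x - S) * κ := by
      rcases hx.eq_or_lt with h3 | h3
      · have h4 := h.2 h3.symm
        rw [h4, ← h3]
        linarith
      · nlinarith [mul_pos hκ h3]
    have h4 : fs κ S x t ≠ 0 := by
      rw [← norm_pos_iff, h2]
      exact h3
    rw [fs_large (t := fs κ S x t) (by rw [h2]; nlinarith) h4, h2, fs_large h1 ht, smul_smul]
    rw [show (‖t‖ + (x - S) * κ + (S - x) * κ) / (‖t‖ + (x - S) * κ) *
      ((‖t‖ + (x - S) * κ) / ‖t‖) = 1 by field_simp; ring, one_smul]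
  · have hS' : 0 < S := by
      by_contra h2
      have h3 : S = 0 := le_antisymm (not_lt.1 h2) hS
      rw [h3, mul_zero] at h1
      linarith
    have hx' : 0 < x := lt_of_le_of_ne hx fun h2 => hS'.ne' (h.2 h2.symm)
    rw [fs_small hκ hS' h1.le]
    rw [fs_small hκ hx', smul_smul]
    · rw [show S / x * (x / S) = 1 by field_simp, one_smul]
    · rw [norm_smul, Real.norm_of_nonneg (by positivity)]
      calc x / S * ‖t‖ ≤ x / S * (κ * S) := by gcongr
        _ = κ * x := by field_simp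

lemma fs_smul {κ S x l : ℝ} (hl : 0 < l) (t : V) :
    fs κ (l * S) (l * x) (l • t) = l • fs κ S x t := by
  rw [fs, fs, norm_smul, Real.norm_of_nonneg hl.le, smul_smul, smul_smul]
  congr 1
  have h1 : max (κ * (l * S)) (l * ‖t‖) = l * max (κ * S) ‖t‖ := by
    rw [mul_max_of_nonneg _ _ hl.le]
    congr 1
    ring
  rw [h1, show (l * x - l * S) * κ = l * ((x - S) * κ) by ring, mul_div_mul_left _ _ hl.ne']
  ring

/-- norm of the image from below. -/
lemma le_norm_fs {κ κ' S x : ℝ} {t : V} (hκ : 0 < κ) (hκ' : κ' ≤ κ) (hx : 0 ≤ x) (hS : 0 < S)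
    (h : κ' * S ≤ ‖t‖) (ht : t ≠ 0) : κ' * x ≤ ‖fs κ S x t‖ := by
  rcases le_or_gt (κ * S) ‖t‖ with h1 | h1
  · rw [norm_fs_large hκ hx h1 ht]
    nlinarith
  · rw [fs_small hκ hS h1.le, norm_smul, Real.norm_of_nonneg (by positivity)]
    calc κ' * x = x / S * (κ' * S) := by field_simp
      _ ≤ x / S * ‖t‖ := by gcongr

lemma small_of_norm_fs {κ S x : ℝ} {t : V} (hκ : 0 < κ) (hx : 0 ≤ x) (hS : 0 ≤ S)
    (h : ‖fs κ S x t‖ ≤ κ * x) : ‖t‖ ≤ κ * S := by
  by_contra h1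
  push Not at h1
  have ht : t ≠ 0 := by
    rintro rfl
    rw [norm_zero] at h1
    nlinarith [mul_nonneg hκ.le hS]
  rw [norm_fs_large hκ hx h1.le ht] at h
  nlinarith

lemma fs_inner_zero {V : Type*} [NormedAddCommGroup V] [InnerProductSpace ℝ V] {κ S x : ℝ}
    (hκ : 0 < κ) (hS : 0 ≤ S) (hx : 0 ≤ x) (h : S = 0 ↔ x = 0) (e t : V) :
    ⟪e, fs κ S x t⟫ = 0 ↔ ⟪e, t⟫ = 0 := by
  have key : ∀ (S x : ℝ) (t : V), ⟪e, t⟫ = 0 → ⟪e, fs κ S x t⟫ = 0 := by
    intro S x t h
    rw [fs, inner_smul_right, h, mul_zero]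
  refine ⟨fun h1 => ?_, key S x t⟩
  rw [← fs_fs hκ hS hx h t]
  exact key x S _ h1

end Fs

/-! ### the height of the plate zone -/

section Wall

variable {n m : ℕ} {D : HD n m} (P : E2 D)

lemma bp_sub_u1 (b : Bc (n + 2)) (a l : ℝ) : bp (n := n) b a - l • u1 n = bp b (a - l) := by
  rw [bp_z b a, bp_z b (a - l), sub_smul]
  abel

lemma bp_add_u1 (b : Bc (n + 2)) (a l : ℝ) : bp (n := n) b a + l • u1 n = bp b (a + l) := by
  rw [bp_z b a, bp_z b (a + l), add_smul]
  abel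

lemma exists_mm : ∃ g : Bc (n + 2) × W n → ℝ, Continuous g ∧ ∀ x a,
    (0 < P.a0 (bp x.1 a) x.2 ↔ a < g x) ∧ (P.a0 (bp x.1 a) x.2 = 0 ↔ a = g x) := by
  refine exists_zero_fun (fun (x : Bc (n + 2) × W n) a => P.a0 (bp x.1 a) x.2) ?_ ?_ ?_ ?_
  · refine P.ca.comp (f := fun p : (Bc (n + 2) × W n) × ℝ => (bp (n := n) p.1.1 p.2, p.1.2)) ?_
    exact (continuous_bp_comp (continuous_fst.comp continuous_fst) continuous_snd).prodMk
      (continuous_snd.comp continuous_fst)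
  · intro x a a' h h'
    have h1 := P.am (a' - a) (bp x.1 a') x.2 (by linarith) h'
    rwa [bp_sub_u1, sub_sub_cancel] at h1
  · intro x
    obtain ⟨l, hl⟩ := P.apos (bp x.1 0) x.2
    rw [bp_sub_u1] at hl
    exact ⟨_, hl⟩
  · intro x
    obtain ⟨l, hl⟩ := P.aneg (bp x.1 0) x.2
    rw [bp_add_u1] at hl
    exact ⟨_, hl⟩

/-- height of the edge of the plate zone. -/
noncomputable def mm (x : Bc (n + 2) × W n) : ℝ := Classical.choose (exists_mm P) x

lemma continuous_mm : Continuous (mm P) := (Classical.choose_spec (exists_mm P)).1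

lemma mm_pos (b : Bc (n + 2)) (t : W n) (a : ℝ) : 0 < P.a0 (bp b a) t ↔ a < mm P (b, t) :=
  ((Classical.choose_spec (exists_mm P)).2 (b, t) a).1

lemma mm_zero (b : Bc (n + 2)) (t : W n) (a : ℝ) : P.a0 (bp b a) t = 0 ↔ a = mm P (b, t) :=
  ((Classical.choose_spec (exists_mm P)).2 (b, t) a).2

lemma mm_nonneg (b : Bc (n + 2)) (t : W n) (a : ℝ) : 0 ≤ P.a0 (bp b a) t ↔ a ≤ mm P (b, t) := by
  rw [le_iff_lt_or_eq, mm_pos, le_iff_lt_or_eq, eq_comm (a := (0 : ℝ)), mm_zero]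


lemma mm_hor (b : Bc (n + 2)) {t t' : W n} (h : hor t = hor t') : mm P (b, t) = mm P (b, t') := by
  rw [← mm_zero, P.ahor, ← h, ← P.ahor, mm_zero]

lemma mm_b0 (b : Bc (n + 2)) : mm P (b, 0) = -(D.m0 b) := by
  symm
  rw [← mm_zero]
  exact P.am0 b

lemma mm_smul {l : ℝ} (hl : 0 < l) (b : Bc (n + 2)) (t : W n) :
    mm P (l • b, l • t) = l * mm P (b, t) := by
  symm
  rw [← mm_zero, bp_smul, P.ah _ _ _ hl, (mm_zero P b t _).2 rfl, mul_zero]

include P in
lemma m0_smul {l : ℝ} (hl : 0 < l) (b : Bc (n + 2)) : D.m0 (l • b) = l * D.m0 b := by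
  have h1 := mm_smul P hl b 0
  rw [smul_zero, mm_b0, mm_b0] at h1
  linarith

include P in
lemma m0_nonneg (b : Bc (n + 2)) : 0 ≤ D.m0 b := by
  have h1 := P.asgn _ (P.am0 b).ge
  rw [inner_u1_bp] at h1
  linarith

/-- the outer shift. -/
noncomputable def oo (b : Bc (n + 2)) (t : W n) : ℝ := -(D.m0 b) - mm P (b, t)

lemma oo_nonneg (b : Bc (n + 2)) (t : W n) : 0 ≤ oo P b t := by
  have h1 : P.a0 (bp b (mm P (b, t))) t = 0 := (mm_zero P b t _).2 rfl
  have h2 := P.ale _ _ h1.ge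
  rw [mm_nonneg, mm_b0] at h2
  rw [oo]
  linarith

lemma oo_smul {l : ℝ} (hl : 0 < l) (b : Bc (n + 2)) (t : W n) :
    oo P (l • b) (l • t) = l * oo P b t := by
  rw [oo, oo, m0_smul P hl, mm_smul P hl]
  ring

lemma oo_hor (b : Bc (n + 2)) {t t' : W n} (h : hor t = hor t') : oo P b t = oo P b t' := by
  rw [oo, oo, mm_hor P b h]

lemma continuous_oo : Continuous fun x : Bc (n + 2) × W n => oo P x.1 x.2 :=
  (D.cm0.comp continuous_fst).neg.sub (continuous_mm P)

lemma norm_bp_sq (b : Bc (n + 2)) (a : ℝ) : ‖bp (n := n) b a‖ ^ 2 = ‖bp (n := n) b 0‖ ^ 2 + a ^ 2 := by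
  have h1 : ⟪bp (n := n) b 0, u1 n⟫ = 0 := by rw [real_inner_comm, inner_u1_bp]
  rw [bp_z b a, norm_add_sq_real, inner_smul_right, h1, norm_smul, norm_u1, mul_one,
    Real.norm_eq_abs, sq_abs]
  ring

lemma norm_bp_le {b : Bc (n + 2)} {a a' : ℝ} (h : |a| ≤ |a'|) :
    ‖bp (n := n) b a‖ ≤ ‖bp (n := n) b a'‖ := by
  have h1 : ‖bp (n := n) b a‖ ^ 2 ≤ ‖bp (n := n) b a'‖ ^ 2 := by
    rw [norm_bp_sq b a, norm_bp_sq b a']
    have := sq_le_sq.2 h
    linarith
  exact abs_le_of_sq_le_sq' h1 (norm_nonneg _) |>.2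

/-- **key fact (S)**: over the strand side the fibres of radius `κ2 ‖s‖` are not shifted. -/
lemma oo_le {b : Bc (n + 2)} {q : ℝ} {t : W n} (hq : 0 ≤ q)
    (ht : ‖hor t‖ ≤ P.κ2 * ‖bp (n := n) b (q - D.m0 b)‖) : oo P b t ≤ q := by
  have hm := m0_nonneg P b
  have h1 : ‖hor t‖ ≤ P.κ2 * ‖bp (n := n) b (-q - D.m0 b)‖ := by
    refine ht.trans (mul_le_mul_of_nonneg_left (norm_bp_le ?_) P.hκ2.le)
    rw [abs_of_nonpos (by linarith : -q - D.m0 b ≤ 0), abs_le]
    constructor <;> linarith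
  have h2 := P.asm _ _ h1
  have h3 : 0 ≤ P.a0 (bp b (-q - D.m0 b)) 0 := by
    rw [mm_nonneg, mm_b0]
    linarith
  rw [← h2, mm_nonneg] at h3
  rw [oo]
  linarith

/-! ### the homogeneous homeomorphism -/

/-- the first coordinates of a base point. -/
noncomputable def bco (s : W n) : Bc (n + 2) := fun i => L n s i.castSucc

lemma bco_bp (b : Bc (n + 2)) (a : ℝ) : bco (bp (n := n) b a) = b := by
  funext i
  rw [bco, bp, L_L, pt_castSucc]

lemma bp_bco (s : W n) : bp (bco s) ⟪u1 n, s⟫ = s := by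
  obtain ⟨b, a, rfl⟩ := exists_bp s
  rw [bco_bp, inner_u1_bp]

lemma bco_smul (l : ℝ) (s : W n) : bco (l • s) = l • bco s := by
  funext i
  rw [bco, map_smul]
  rfl

lemma continuous_bco : Continuous (bco : W n → Bc (n + 2)) := by
  unfold bco
  refine continuous_pi fun i => ?_
  exact (continuous_apply i.castSucc).comp ((PiLp.continuous_ofLp 2 _).comp (L n).continuous)

/-- distance to the origin of the base point over `(σ, b)`. -/
noncomputable def SS (D : HD n m) (x : ℝ × Bc (n + 2)) : ℝ := ‖bp (n := n) x.2 (-x.1 - ‖x.2‖ - D.m0 x.2)‖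

lemma SS_nonneg (x : ℝ × Bc (n + 2)) : 0 ≤ SS D x := norm_nonneg _

lemma SS_eq_zero (x : ℝ × Bc (n + 2)) : SS D x = 0 ↔ x = 0 := by
  rw [SS, norm_eq_zero, bp_eq_zero]
  constructor
  · rintro ⟨h1, h2⟩
    rw [h1, norm_zero, D.m00] at h2
    exact Prod.ext (by simpa using h2) h1
  · rintro rfl
    refine ⟨rfl, ?_⟩
    show -(0 : ℝ) - ‖(0 : Bc (n + 2))‖ - D.m0 0 = 0
    rw [norm_zero, D.m00]
    ring

include P in
lemma SS_smul {l : ℝ} (hl : 0 < l) (x : ℝ × Bc (n + 2)) : SS D (l • x) = l * SS D x := by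
  have h1 : SS D (l • x) = ‖l • bp (n := n) x.2 (-x.1 - ‖x.2‖ - D.m0 x.2)‖ := by
    rw [← bp_smul, SS]
    simp only [Prod.smul_fst, Prod.smul_snd, m0_smul P hl, norm_smul, Real.norm_of_nonneg hl.le,
      smul_eq_mul]
    congr 2
    ring
  rw [h1, norm_smul, Real.norm_of_nonneg hl.le, SS]

lemma continuous_SS : Continuous (SS D) := by
  unfold SS
  refine Continuous.norm (continuous_bp_comp continuous_snd ?_)
  exact (continuous_fst.neg.sub continuous_snd.norm).sub (D.cm0.comp continuous_snd)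

lemma exists_c0 : ∃ c0 : ℝ, 0 < c0 ∧ ∀ b : Bc (n + 2), ‖b‖ ≤ 1 → c0 * SS D (-1, b) ≤ 1 := by
  obtain ⟨M, hM⟩ := (isCompact_closedBall (0 : Bc (n + 2)) 1).exists_bound_of_continuousOn
    (f := fun b => SS D (-1, b)) (by
      refine Continuous.continuousOn ?_
      exact continuous_SS.comp (continuous_const.prodMk continuous_id))
  refine ⟨1 / max M 1, by positivity, fun b hb => ?_⟩
  have h1 := hM b (by rwa [mem_closedBall_zero_iff])
  rw [Real.norm_of_nonneg (SS_nonneg _)] at h1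
  rw [one_div, inv_mul_le_iff₀ (by positivity), mul_one]
  exact h1.trans (le_max_left _ _)

/-- radius of the target ball. -/
noncomputable def xx (D : HD n m) (c0 : ℝ) (x : ℝ × Bc (n + 2)) : ℝ := max (c0 * SS D x) (-x.1)

lemma xx_nonneg {c0 : ℝ} (hc : 0 < c0) (x : ℝ × Bc (n + 2)) : 0 ≤ xx D c0 x :=
  le_max_of_le_left (mul_nonneg hc.le (SS_nonneg x))

lemma xx_iff {c0 : ℝ} (hc : 0 < c0) (x : ℝ × Bc (n + 2)) : SS D x = 0 ↔ xx D c0 x = 0 := by
  constructor
  · intro h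
    have h1 := (SS_eq_zero x).1 h
    rw [xx, h, h1]
    simp
  · intro h
    have h1 : c0 * SS D x ≤ 0 := by
      rw [← h]
      exact le_max_left _ _
    have h2 := SS_nonneg (D := D) x
    nlinarith

include P in
lemma xx_smul {c0 l : ℝ} (hl : 0 < l) (x : ℝ × Bc (n + 2)) : xx D c0 (l • x) = l * xx D c0 x := by
  rw [xx, xx, SS_smul P hl, mul_max_of_nonneg _ _ hl.le]
  congr 1
  · ring
  · rw [Prod.smul_fst, smul_eq_mul]
    ring

lemma continuous_xx (c0 : ℝ) : Continuous (xx D c0) := by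
  unfold xx
  exact (continuous_const.mul continuous_SS).max continuous_fst.neg

include P in
lemma xx_eq {c0 : ℝ} (hc : ∀ b : Bc (n + 2), ‖b‖ ≤ 1 → c0 * SS D (-1, b) ≤ 1) {x : ℝ × Bc (n + 2)}
    (h1 : x.1 < 0) (h2 : ‖x.2‖ ≤ -x.1) : xx D c0 x = -x.1 := by
  have h3 : 0 < -x.1 := by linarith
  have h4 : x = (-x.1) • ((-1 : ℝ), (-x.1)⁻¹ • x.2) := by
    refine Prod.ext ?_ ?_
    · simp
    · rw [Prod.smul_snd, smul_smul, mul_inv_cancel₀ h3.ne', one_smul]
  have h5 : ‖(-x.1)⁻¹ • x.2‖ ≤ 1 := by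
    rw [norm_smul, norm_inv, Real.norm_of_nonneg h3.le, inv_mul_le_iff₀ h3, mul_one]
    exact h2
  have h6 : SS D x = (-x.1) * SS D ((-1 : ℝ), (-x.1)⁻¹ • x.2) := by
    conv_lhs => rw [h4]
    exact SS_smul P h3 _
  rw [xx, max_eq_right]
  rw [h6]
  have h7 := hc _ h5
  nlinarith

/-- third step: scaling of the fibre. -/
noncomputable def Sc (D : HD n m) (c0 κ : ℝ) (p : ℝ × Bc (n + 2) × W n) : ℝ × Bc (n + 2) × W n :=
  (p.1, p.2.1, L n (fs κ (SS D (p.1, p.2.1)) (xx D c0 (p.1, p.2.1)) p.2.2))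

/-- its inverse. -/
noncomputable def ScI (D : HD n m) (c0 κ : ℝ) (p : ℝ × Bc (n + 2) × W n) : ℝ × Bc (n + 2) × W n :=
  (p.1, p.2.1, fs κ (xx D c0 (p.1, p.2.1)) (SS D (p.1, p.2.1)) (L n p.2.2))

lemma ScI_Sc {c0 κ : ℝ} (hc : 0 < c0) (hκ : 0 < κ) (p : ℝ × Bc (n + 2) × W n) :
    ScI D c0 κ (Sc D c0 κ p) = p := by
  obtain ⟨σ, b, t⟩ := p
  simp only [Sc, ScI, L_L]
  rw [fs_fs hκ (SS_nonneg _) (xx_nonneg hc _) (xx_iff hc _)]

lemma Sc_ScI {c0 κ : ℝ} (hc : 0 < c0) (hκ : 0 < κ) (p : ℝ × Bc (n + 2) × W n) :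
    Sc D c0 κ (ScI D c0 κ p) = p := by
  obtain ⟨σ, b, t⟩ := p
  simp only [Sc, ScI]
  rw [fs_fs hκ (xx_nonneg hc _) (SS_nonneg _) (xx_iff hc _).symm, L_L]

include P in
lemma Sc_smul {c0 κ l : ℝ} (hl : 0 < l) (p : ℝ × Bc (n + 2) × W n) :
    Sc D c0 κ (l • p) = l • Sc D c0 κ p := by
  obtain ⟨σ, b, t⟩ := p
  have h1 : ((l • (σ, b, t) : ℝ × Bc (n + 2) × W n).1, (l • (σ, b, t) : ℝ × Bc (n + 2) × W n).2.1) =
      l • ((σ, b) : ℝ × Bc (n + 2)) := rfl
  have h2 : (l • (σ, b, t) : ℝ × Bc (n + 2) × W n).2.2 = l • t := rfl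
  rw [Sc, h1, SS_smul P hl, xx_smul P hl, h2, fs_smul hl, map_smul]
  rfl

include P in
lemma continuous_Sc {c0 κ : ℝ} (hκ : 0 < κ) : Continuous (Sc D c0 κ) := by
  refine continuous_of_homog ?_ fun l p hl => Sc_smul P hl p
  have e1 : Continuous fun p : ℝ × Bc (n + 2) × W n => (p.1, p.2.1) :=
    continuous_fst.prodMk (continuous_fst.comp continuous_snd)
  have e2 : Continuous fun p : ℝ × Bc (n + 2) × W n => SS D (p.1, p.2.1) := continuous_SS.comp e1
  have e3 : Continuous fun p : ℝ × Bc (n + 2) × W n => xx D c0 (p.1, p.2.1) :=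
    (continuous_xx c0).comp e1
  have e4 : Continuous fun p : ℝ × Bc (n + 2) × W n => p.2.2 := continuous_snd.comp continuous_snd
  unfold Sc
  refine continuous_fst.continuousOn.prodMk ((continuous_fst.comp continuous_snd).continuousOn.prodMk
    ((L n).continuous.comp_continuousOn ?_))
  unfold fs
  have e5 : Continuous fun p : ℝ × Bc (n + 2) × W n =>
      (xx D c0 (p.1, p.2.1) - SS D (p.1, p.2.1)) * κ := (e3.sub e2).mul continuous_const
  have e6 : Continuous fun p : ℝ × Bc (n + 2) × W n =>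
      max (κ * SS D (p.1, p.2.1)) ‖p.2.2‖ := (continuous_const.mul e2).max e4.norm
  refine ContinuousOn.smul (continuousOn_const.add (e5.continuousOn.div e6.continuousOn ?_))
    e4.continuousOn
  · rintro ⟨σ, b, t⟩ hp h
    have h1 : κ * SS D (σ, b) ≤ 0 := (le_max_left _ _).trans h.le
    have h2 : ‖t‖ ≤ 0 := (le_max_right _ _).trans h.le
    have h3 := SS_nonneg (D := D) (σ, b)
    have h4 : SS D (σ, b) = 0 := by nlinarith
    have h5 := (SS_eq_zero (D := D) (σ, b)).1 h4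
    have h6 : σ = 0 := congrArg Prod.fst h5
    have h7 : b = 0 := congrArg Prod.snd h5
    apply hp
    rw [mem_singleton_iff, h6, h7, norm_le_zero_iff.1 h2]
    rfl

/-- first and second steps: shear and wall. -/
noncomputable def Wl (p : W n × W n) : ℝ × Bc (n + 2) × W n :=
  (-(‖bco p.1‖ + Ft (⟪u1 n, p.1⟫ + D.m0 (bco p.1)) (oo P (bco p.1) p.2)), bco p.1,
    p.2 - P.sig p • u1 n)

/-- base point of a point of the target. -/
noncomputable def sI (p : ℝ × Bc (n + 2) × W n) : W n :=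
  bp p.2.1 (Gt (-p.1 - ‖p.2.1‖) (oo P p.2.1 p.2.2) - D.m0 p.2.1)

/-- the inverse. -/
noncomputable def WlI (p : ℝ × Bc (n + 2) × W n) : W n × W n :=
  (sI P p, p.2.2 + P.sig (sI P p, p.2.2) • u1 n)

lemma hor_add_smul_u1 (t : W n) (x : ℝ) : hor (t + x • u1 n) = hor t := by
  rw [hor_add, hor_smul, hor_u1, smul_zero, add_zero]

lemma hor_sub_smul_u1 (t : W n) (x : ℝ) : hor (t - x • u1 n) = hor t := by
  rw [hor_sub, hor_smul, hor_u1, smul_zero, sub_zero]

lemma WlI_Wl (p : W n × W n) : WlI P (Wl P p) = p := by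
  obtain ⟨s, t⟩ := p
  have h1 : sI P (Wl P (s, t)) = s := by
    rw [sI, Wl]
    simp only
    rw [oo_hor P (bco s) (hor_sub_smul_u1 t _), neg_neg, add_sub_cancel_left,
      Gt_Ft _ _ (oo_nonneg P _ _), add_sub_cancel_right, bp_bco]
  rw [WlI, h1, Wl]
  simp only
  rw [P.sig_hor s _ t (hor_sub_smul_u1 t _), sub_add_cancel]

lemma Wl_WlI (p : ℝ × Bc (n + 2) × W n) : Wl P (WlI P p) = p := by
  obtain ⟨σ, b, t⟩ := p
  have h1 : bco (sI P (σ, b, t)) = b := bco_bp _ _
  have h2 : ⟪u1 n, sI P (σ, b, t)⟫ = Gt (-σ - ‖b‖) (oo P b t) - D.m0 b := inner_u1_bp _ _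
  rw [Wl, WlI]
  simp only
  rw [h1, h2, oo_hor P b (hor_add_smul_u1 t _), sub_add_cancel, Ft_Gt _ _ (oo_nonneg P _ _),
    P.sig_hor _ _ t (hor_add_smul_u1 t _), add_sub_cancel_right]
  congr 1
  ring

lemma Wl_smul {l : ℝ} (hl : 0 < l) (p : W n × W n) : Wl P (l • p) = l • Wl P p := by
  obtain ⟨s, t⟩ := p
  refine Prod.ext ?_ (Prod.ext ?_ ?_)
  · show -(‖bco (l • s)‖ + Ft (⟪u1 n, l • s⟫ + D.m0 (bco (l • s))) (oo P (bco (l • s)) (l • t))) =
      l * -(‖bco s‖ + Ft (⟪u1 n, s⟫ + D.m0 (bco s)) (oo P (bco s) t))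
    rw [bco_smul, norm_smul, Real.norm_of_nonneg hl.le, inner_smul_right, m0_smul P hl,
      oo_smul P hl, ← mul_add, Ft_mul hl]
    ring
  · show bco (l • s) = l • bco s
    exact bco_smul l s
  · show l • t - P.sig (l • (s, t)) • u1 n = l • (t - P.sig (s, t) • u1 n)
    rw [P.sig_smul l _ hl, smul_sub, mul_smul]

lemma continuous_Wl : Continuous (Wl P) := by
  have e1 : Continuous fun p : W n × W n => bco p.1 := continuous_bco.comp continuous_fst
  have e2 : Continuous fun p : W n × W n => oo P (bco p.1) p.2 :=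
    (continuous_oo P).comp (f := fun p : W n × W n => (bco p.1, p.2)) (e1.prodMk continuous_snd)
  have e3 : Continuous fun p : W n × W n => ⟪u1 n, p.1⟫ + D.m0 (bco p.1) :=
    (continuous_const.inner continuous_fst).add (D.cm0.comp e1)
  have e4 : Continuous fun p : W n × W n =>
      Ft (⟪u1 n, p.1⟫ + D.m0 (bco p.1)) (oo P (bco p.1) p.2) :=
    continuous_Ft.comp (f := fun p : W n × W n => (⟪u1 n, p.1⟫ + D.m0 (bco p.1),
      oo P (bco p.1) p.2)) (e3.prodMk e2)
  unfold Wl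
  exact (e1.norm.add e4).neg.prodMk (e1.prodMk
    (continuous_snd.sub (P.continuous_sig.smul continuous_const)))

/-- the homogeneous homeomorphism. -/
noncomputable def Ph (c0 κ : ℝ) (p : W n × W n) : ℝ × Bc (n + 2) × W n := Sc D c0 κ (Wl P p)

lemma exists_homeo {c0 κ : ℝ} (hc : 0 < c0) (hκ : 0 < κ) :
    ∃ g : sphere (0 : W n × W n) 1 ≃ₜ sphere (0 : ℝ × Bc (n + 2) × W n) 1,
      ∀ x, ∃ l : ℝ, 0 < l ∧ (g x : ℝ × Bc (n + 2) × W n) = l • Ph P c0 κ x := by
  refine exists_sphere_homeo' ((continuous_Sc P hκ).comp (continuous_Wl P)) ?_ ?_ ?_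
  · intro l p hl
    show Sc D c0 κ (Wl P (l • p)) = l • Sc D c0 κ (Wl P p)
    rw [Wl_smul P hl, Sc_smul P hl]
  · intro p p' h
    have h1 : Sc D c0 κ (Wl P p) = Sc D c0 κ (Wl P p') := h
    rw [← WlI_Wl P p, ← WlI_Wl P p', ← ScI_Sc hc hκ (Wl P p), h1, ScI_Sc hc hκ]
  · intro q
    refine ⟨WlI P (ScI D c0 κ q), ?_⟩
    show Sc D c0 κ (Wl P (WlI P (ScI D c0 κ q))) = q
    rw [Wl_WlI, Sc_ScI hc hκ]

end Wall

end Crest.Agent.R267.End2b_864
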