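import Crest.Agent.R267.GlueDefs_322

/-!
# Row 267 (helper842): SYS — lists and systems; `S0407` from GL1, GL2 and T3a (`SysP` of 322)

* `sysL_eq`: the sum of the lobed chain functions is `F8` of the system;
* `F8_reindex`: reindexing of the variables; `DS`: the `LD` of a system;
* `letters`: the letters of `DS` are the words of `PSys`, `posSys` = zeta matrix.
-/

set_option autoImplicit false
set_option linter.unusedSectionVars false

noncomputable section

open Finset Set Matrix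
open Crest.Agent.R267.P4Defs_780 Crest.Agent.R267.ChainPoly_145
open Crest.Agent.R267.T3aDefs_957 Crest.Agent.R267.Hm_951
open Crest.Agent.R267.Sys_808 Crest.Agent.R267.P413Def_322 Crest.Agent.R267.GS_808
open Crest.Agent.R267.Cone_808 Crest.Agent.R267.DraftB_808 Crest.Agent.R267.TopAsm_808
open Crest.Agent.R267.Asm_808 Crest.Agent.R267.GlueDefs_322

namespace Crest.Agent.R267.GlSys_842

/-! ### the function of a system -/

theorem F8_reindex {ι κ : Type} [Fintype ι] [Fintype κ] [DecidableEq κ] (e : ι ≃ κ)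
    (K cB ga : ℝ) (M : ι → ℕ) (C : Finset (ι × ι × ℕ)) (z : ι → ℂ) :
    F8 K cB ga M C z = F8 K cB ga (fun j => M (e.symm j))
      (C.image fun p => (e p.1, e p.2.1, p.2.2)) (fun j => z (e.symm j)) := by
  unfold F8
  rw [Finset.sum_image, ← Equiv.sum_comp e.symm fun j => P8 K ga (M j) (z j)]
  · simp only [Equiv.symm_apply_apply]
  · rintro ⟨a, b, m⟩ _ ⟨a', b', m'⟩ _ h
    simp only [Prod.mk.injEq, EmbeddingLike.apply_eq_iff_eq] at h
    obtain ⟨rfl, rfl, rfl⟩ := h
    rfl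

theorem sysL_eq (K cB ga : ℝ) (S : List (List ℕ)) :
    sysL (L8 K cB ga) S = F8 K cB ga (Ms S) (Cs S) := by
  induction S with
  | nil =>
    funext z
    show (0 : ℂ) = _
    have h1 : (∑ j : Var [], P8 K ga (Ms [] j) (z j)) = 0 :=
      Finset.sum_eq_zero fun i _ => i.elim
    unfold F8
    rw [h1]
    simp [Cs]
  | cons c S ih =>
    funext z
    show L8 K cB ga c (fun i => z (Sum.inl i)) + sysL (L8 K cB ga) S (fun i => z (Sum.inr i)) = _
    rw [ih]
    have h1 : (∑ j : Var (c :: S), P8 K ga (Ms (c :: S) j) (z j)) =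
        (∑ i, P8 K ga (Mc c i) (z (Sum.inl i))) + ∑ j, P8 K ga (Ms S j) (z (Sum.inr j)) :=
      Fintype.sum_sum_type (fun j : Fin c.length ⊕ Var S => P8 K ga (Ms (c :: S) j) (z j))
    have h2 : (∑ e ∈ Cs (c :: S), H8 K e.2.2 (Ms (c :: S) e.1) (Ms (c :: S) e.2.1) (z e.1)
        (z e.2.1)) =
        (∑ e ∈ Cc c, H8 K e.2.2 (Mc c e.1) (Mc c e.2.1) (z (Sum.inl e.1)) (z (Sum.inl e.2.1))) +
        ∑ e ∈ Cs S, H8 K e.2.2 (Ms S e.1) (Ms S e.2.1) (z (Sum.inr e.1)) (z (Sum.inr e.2.1)) := by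
      rw [Cs, Finset.sum_union, Finset.sum_image, Finset.sum_image]
      · rfl
      · rintro ⟨a, b, m⟩ _ ⟨a', b', m'⟩ _ h
        have q1 : a = a' := Sum.inr.inj (congrArg Prod.fst h)
        have q2 : b = b' := Sum.inr.inj (congrArg (fun p => p.2.1) h)
        have q3 : m = m' := congrArg (fun p => p.2.2) h
        rw [q1, q2, q3]
      · rintro ⟨a, b, m⟩ _ ⟨a', b', m'⟩ _ h
        have q1 : a = a' := Sum.inl.inj (congrArg Prod.fst h)
        have q2 : b = b' := Sum.inl.inj (congrArg (fun p => p.2.1) h)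
        have q3 : m = m' := congrArg (fun p => p.2.2) h
        rw [q1, q2, q3]
      · rw [Finset.disjoint_left]
        intro p hp hq
        obtain ⟨a, _, rfl⟩ := Finset.mem_image.1 hp
        obtain ⟨b, _, hb⟩ := Finset.mem_image.1 hq
        have := congrArg Prod.fst hb
        cases this
    unfold L8 F8
    rw [h1, h2]
    push_cast
    ring

/-! ### the combinatorial data of a system -/

theorem Mc_pos {c : List ℕ} (hc : ∀ a ∈ c, 2 ≤ a) (i : Fin c.length) : 1 ≤ Mc c i := by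
  have h := hc _ (List.get_mem c i)
  unfold Mc
  split_ifs <;> omega

theorem Ms_pos {S : List (List ℕ)} (hS : ∀ c ∈ S, ∀ a ∈ c, 2 ≤ a) (v : Var S) : 1 ≤ Ms S v := by
  induction S with
  | nil => exact v.elim
  | cons c S ih =>
    rcases v with v | v
    · exact Mc_pos (hS c List.mem_cons_self) v
    · exact ih (fun d hd => hS d (List.mem_cons_of_mem _ hd)) v

theorem Cs_ne (S : List (List ℕ)) : ∀ e ∈ Cs S, e.1 ≠ e.2.1 := by
  induction S with
  | nil =>
    intro e he
    simp [Cs] at he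
  | cons c S ih =>
    intro e he
    rw [Cs, Finset.mem_union] at he
    rcases he with he | he
    · obtain ⟨p, hp, rfl⟩ := Finset.mem_image.1 he
      obtain ⟨q, hq, rfl⟩ := Finset.mem_image.1 hp
      intro h
      have h1 : q.1 = q.2 := Sum.inl.inj h
      have h2 := (Finset.mem_filter.1 hq).2
      rw [h1] at h2
      omega
    · obtain ⟨p, hp, rfl⟩ := Finset.mem_image.1 he
      intro h
      exact ih p hp (Sum.inr.inj h)

/-- the `LD` of a system -/
def DS (S : List (List ℕ)) (hS : ∀ c ∈ S, ∀ a ∈ c, 2 ≤ a) {N : ℕ} (f : Var S ≃ Fin N) : LD N where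
  M j := Ms S (f.symm j)
  hM j := Ms_pos hS _
  C := (Cs S).image fun p => (f p.1, f p.2.1, p.2.2)
  hC e he := by
    obtain ⟨p, hp, rfl⟩ := Finset.mem_image.1 he
    exact fun h => Cs_ne S p hp (f.injective h)

theorem exists_Ms {S : List (List ℕ)} : ∀ c ∈ S, ∀ i : Fin c.length, ∃ v : Var S, Ms S v = Mc c i := by
  induction S with
  | nil => intro c hc; simp at hc
  | cons d S ih =>
    intro c hc i
    rcases List.mem_cons.1 hc with rfl | hc
    · exact ⟨Sum.inl i, rfl⟩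
    · obtain ⟨v, hv⟩ := ih c hc i
      exact ⟨Sum.inr v, hv⟩

theorem K_bound (S : List (List ℕ)) (hS : ∀ c ∈ S, ∀ a ∈ c, 2 ≤ a) {N : ℕ} (f : Var S ≃ Fin N)
    (c : List ℕ) (hc : c ∈ S) (i : Fin c.length) :
    8 * (Mc c i : ℝ) + 2 ≤ (DS S hS f).K := by
  obtain ⟨v, hv⟩ := exists_Ms c hc i
  have h1 : Mc c i ≤ (DS S hS f).Mx := by
    have h2 : (DS S hS f).M (f v) = Mc c i := by
      show Ms S (f.symm (f v)) = _
      rw [f.symm_apply_apply, hv]
    rw [← h2]
    exact Finset.single_le_sum (f := (DS S hS f).M) (fun _ _ => Nat.zero_le _) (Finset.mem_univ _)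
  have h3 : (1 : ℝ) ≤ N := by
    have : 0 < N := Fin.pos (f v)
    exact_mod_cast this
  have h4 : (Mc c i : ℝ) ≤ ((DS S hS f).Mx : ℝ) := by exact_mod_cast h1
  have h5 : (0 : ℝ) ≤ ((DS S hS f).Mx : ℝ) := Nat.cast_nonneg _
  unfold LD.K LD.K1
  have h6 : 8 * (Mc c i : ℝ) + 2 ≤ (8 * ((DS S hS f).Mx : ℝ) + 2) := by linarith
  have h7 : (8 * ((DS S hS f).Mx : ℝ) + 2) ≤ (8 * ((DS S hS f).Mx : ℝ) + 2) * N :=
    le_mul_of_one_le_right (by linarith) h3
  have h8 : (8 * ((DS S hS f).Mx : ℝ) + 2) * N ≤ (8 * ((DS S hS f).Mx : ℝ) + 2) * N * N :=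
    le_mul_of_one_le_right (by nlinarith) h3
  linarith

/-! ### letters -/

/-- letters of a lobed function -/
def LetG {ι : Type} (M : ι → ℕ) (C : Finset (ι × ι × ℕ)) (k : ι → ℕ) : Prop :=
  (∀ j, k j < M j) ∧ ∀ e ∈ C, ¬ (e.2.2 ≤ k e.1 ∧ k e.2.1 + 1 = M e.2.1)

theorem let_DS (S : List (List ℕ)) (hS : ∀ c ∈ S, ∀ a ∈ c, 2 ≤ a) {N : ℕ} (f : Var S ≃ Fin N)
    (k : Fin N → ℕ) : (DS S hS f).Let k ↔ LetG (Ms S) (Cs S) (fun v => k (f v)) := by
  unfold LD.Let LetG
  constructor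
  · rintro ⟨h1, h2⟩
    refine ⟨fun v => ?_, fun e he => ?_⟩
    · have h3 : k (f v) < Ms S (f.symm (f v)) := h1 (f v)
      rwa [f.symm_apply_apply] at h3
    · have h3 : ¬ (e.2.2 ≤ k (f e.1) ∧ k (f e.2.1) + 1 = Ms S (f.symm (f e.2.1))) :=
        h2 (f e.1, f e.2.1, e.2.2) (Finset.mem_image_of_mem _ he)
      rwa [f.symm_apply_apply] at h3
  · rintro ⟨h1, h2⟩
    refine ⟨fun j => ?_, fun e he => ?_⟩
    · have h3 : k (f (f.symm j)) < Ms S (f.symm j) := h1 (f.symm j)
      rw [f.apply_symm_apply] at h3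
      exact h3
    · obtain ⟨p, hp, rfl⟩ := Finset.mem_image.1 he
      show ¬ (p.2.2 ≤ k (f p.1) ∧ k (f p.2.1) + 1 = Ms S (f.symm (f p.2.1)))
      rw [f.symm_apply_apply]
      exact h2 p hp

/-- the letters of a chain, coordinatewise -/
theorem letG_chain (c : List ℕ) (k : Fin c.length → ℕ) : LetG (Mc c) (Cc c) k ↔
    (∀ i, k i < Mc c i) ∧ ∀ (i j : Fin c.length), (i : ℕ) = j + 1 →
      ¬ (c.get j ≤ k i ∧ k j + 1 = Mc c j) := by
  unfold LetG Cc
  refine and_congr_right fun _ => ?_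
  constructor
  · intro h i j hij
    exact h (i, j, c.get j) (Finset.mem_image.2 ⟨(i, j), by simpa using hij, rfl⟩)
  · intro h e he
    obtain ⟨p, hp, rfl⟩ := Finset.mem_image.1 he
    exact h p.1 p.2 (Finset.mem_filter.1 hp).2

theorem Mc_succ (a : ℕ) (l : List ℕ) (i : Fin l.length) :
    Mc (a :: l) (i.succ : Fin (l.length + 1)) = Mc l i := by
  unfold Mc
  simp only [List.length_cons, Fin.val_succ, Nat.add_lt_add_iff_right]
  rfl

theorem letG_cons (a : ℕ) (l : List ℕ) (k : Fin (l.length + 1) → ℕ) :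
    LetG (Mc (a :: l)) (Cc (a :: l)) k ↔
      (k 0 < Mc (a :: l) 0 ∧ ∀ h : 0 < l.length, ¬ (a ≤ k (Fin.succ ⟨0, h⟩) ∧
        k 0 + 1 = Mc (a :: l) 0)) ∧ LetG (Mc l) (Cc l) (fun i => k i.succ) := by
  rw [letG_chain, letG_chain]
  constructor
  · rintro ⟨h1, h2⟩
    refine ⟨⟨h1 0, fun h => h2 (Fin.succ ⟨0, h⟩) 0 rfl⟩, fun i => ?_, fun i j hij => ?_⟩
    · have := h1 i.succ
      rwa [Mc_succ] at this
    · have := h2 i.succ j.succ (by simp [hij])
      rwa [Mc_succ] at this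
  · rintro ⟨⟨h1, h2⟩, h3, h4⟩
    refine ⟨fun i => ?_, fun i j hij => ?_⟩
    · refine Fin.cases h1 (fun i => ?_) i
      rw [Mc_succ]
      exact h3 i
    · revert hij
      refine Fin.cases ?_ (fun i => ?_) i
      · intro hij
        simp at hij
      · refine Fin.cases ?_ (fun j => ?_) j
        · intro hij
          have hi : (i : ℕ) = 0 := by simpa using hij
          have h0 : 0 < l.length := hi ▸ i.2
          have := h2 h0
          have e : i = ⟨0, h0⟩ := Fin.ext hi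
          rw [e]
          exact this
        · intro hij
          rw [Mc_succ]
          exact h4 i j (by simpa using hij)

theorem ok_iff (c : List ℕ) (k : Fin c.length → ℕ) :
    Ok c (List.ofFn fun i => k i + 1) ↔ LetG (Mc c) (Cc c) k := by
  induction c with
  | nil =>
    simp [Ok, LetG, Cc]
  | cons a l ih =>
    have e1 : (List.ofFn fun i : Fin (l.length + 1) => k i + 1) =
        (k 0 + 1) :: List.ofFn fun i : Fin l.length => k i.succ + 1 := List.ofFn_succ
    show Ok (a :: l) (List.ofFn fun i : Fin (l.length + 1) => k i + 1) ↔ _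
    rw [e1, letG_cons, ← ih]
    show (1 ≤ k 0 + 1 ∧ (k 0 + 1 < a ∨ (k 0 + 1 = a ∧ low a _)) ∧ Ok l _) ↔ _
    rw [← and_assoc]
    refine and_congr_left fun _ => ?_
    cases l with
    | nil =>
      have e4 : Mc [a] 0 = a - 1 := by simp [Mc]
      rw [e4]
      show (1 ≤ k 0 + 1 ∧ (k 0 + 1 < a ∨ (k 0 + 1 = a ∧ False))) ↔ (k 0 < a - 1 ∧ _)
      constructor
      · rintro ⟨_, h | ⟨_, h⟩⟩
        · exact ⟨Nat.lt_sub_of_add_lt h, fun h' => absurd h' (lt_irrefl 0)⟩
        · exact h.elim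
      · rintro ⟨h, -⟩
        exact ⟨Nat.succ_pos _, Or.inl (Nat.add_lt_of_lt_sub h)⟩
    | cons b l =>
      have e2 : (List.ofFn fun i : Fin (l.length + 1) => k i.succ + 1) =
        (k 1 + 1) :: List.ofFn fun i : Fin l.length => k i.succ.succ + 1 := List.ofFn_succ
      have e3 : Mc (a :: b :: l) 0 = a := by simp [Mc]
      show (1 ≤ k 0 + 1 ∧ (k 0 + 1 < a ∨ (k 0 + 1 = a ∧
        low a (List.ofFn fun i : Fin (l.length + 1) => k i.succ + 1)))) ↔ _
      rw [e2, e3]
      show (1 ≤ k 0 + 1 ∧ (k 0 + 1 < a ∨ (k 0 + 1 = a ∧ k 1 + 1 ≤ a))) ↔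
        (k 0 < a ∧ ∀ h : 0 < (b :: l).length, ¬ (a ≤ k 1 ∧ k 0 + 1 = a))
      have h0 : 0 < (b :: l).length := by simp
      constructor
      · rintro ⟨_, h⟩
        exact ⟨by omega, fun _ => by omega⟩
      · rintro ⟨h, h'⟩
        have := h' h0
        exact ⟨by omega, by omega⟩

theorem ok_surj : ∀ (c t : List ℕ), Ok c t → ∃ k : Fin c.length → ℕ,
    (List.ofFn fun i => k i + 1) = t
  | [], t, h => ⟨fun _ => 0, by
      have : t = [] := h
      rw [this]; rfl⟩
  | _ :: _, [], h => h.elim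
  | a :: l, x :: t, h => by
      obtain ⟨h1, _, h3⟩ := h
      obtain ⟨k, hk⟩ := ok_surj l t h3
      refine ⟨Fin.cons (x - 1) k, ?_⟩
      show (List.ofFn fun i : Fin (l.length + 1) =>
        (Fin.cons (x - 1) k : Fin (l.length + 1) → ℕ) i + 1) = _
      rw [List.ofFn_succ]
      simp only [Fin.cons_zero, Fin.cons_succ, hk]
      congr 1
      omega

theorem zt_ofFn : ∀ (n : ℕ) (k k' : Fin n → ℕ),
    zt (List.ofFn fun i => k i + 1) (List.ofFn fun i => k' i + 1) =
      open Classical in if ∀ i, k i ≤ k' i then 1 else 0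
  | 0, k, k' => by simp [zt]
  | n + 1, k, k' => by
      classical
      rw [List.ofFn_succ, List.ofFn_succ, zt, zt_ofFn n]
      simp only [Fin.forall_fin_succ, add_le_add_iff_right]
      by_cases h : k 0 ≤ k' 0 <;> simp [h]

theorem letters_chain (c : List ℕ) : ∃ E : PIdx c ≃ {k : Fin c.length → ℕ // LetG (Mc c) (Cc c) k},
    ∀ a b, posMat c a b = open Classical in if ∀ i, (E a).1 i ≤ (E b).1 i then 1 else 0 := by
  classical
  let φ : {k : Fin c.length → ℕ // LetG (Mc c) (Cc c) k} → PIdx c := fun k =>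
    ⟨List.ofFn fun i => k.1 i + 1, mem_PF.2 ((ok_iff c k.1).2 k.2)⟩
  have hφ : Function.Bijective φ := by
    constructor
    · intro k k' h
      have h1 := congrArg Subtype.val h
      have h2 := List.ofFn_injective h1
      apply Subtype.ext
      funext i
      have := congrFun h2 i
      simpa using this
    · rintro ⟨t, ht⟩
      obtain ⟨k, hk⟩ := ok_surj c t (mem_PF.1 ht)
      refine ⟨⟨k, (ok_iff c k).1 (hk ▸ mem_PF.1 ht)⟩, Subtype.ext hk⟩
  refine ⟨(Equiv.ofBijective φ hφ).symm, fun a b => ?_⟩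
  obtain ⟨k, rfl⟩ := hφ.2 a
  obtain ⟨k', rfl⟩ := hφ.2 b
  have e : ∀ k, (Equiv.ofBijective φ hφ).symm (φ k) = k := fun k =>
    (Equiv.ofBijective φ hφ).symm_apply_apply k
  rw [e, e]
  exact zt_ofFn _ k.1 k'.1

theorem letG_sum (c : List ℕ) (S : List (List ℕ)) (k : Var (c :: S) → ℕ) :
    LetG (Ms (c :: S)) (Cs (c :: S)) k ↔ LetG (Mc c) (Cc c) (fun i => k (Sum.inl i)) ∧
      LetG (Ms S) (Cs S) (fun i => k (Sum.inr i)) := by
  unfold LetG
  constructor
  · rintro ⟨h1, h2⟩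
    refine ⟨⟨fun i => h1 (Sum.inl i), fun e he => ?_⟩, fun i => h1 (Sum.inr i), fun e he => ?_⟩
    · exact h2 (Sum.inl e.1, Sum.inl e.2.1, e.2.2)
        (by rw [Cs]; exact Finset.mem_union_left _ (Finset.mem_image_of_mem _ he))
    · exact h2 (Sum.inr e.1, Sum.inr e.2.1, e.2.2)
        (by rw [Cs]; exact Finset.mem_union_right _ (Finset.mem_image_of_mem _ he))
  · rintro ⟨⟨h1, h2⟩, h3, h4⟩
    refine ⟨fun v => ?_, fun e he => ?_⟩
    · rcases v with v | v
      · exact h1 v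
      · exact h3 v
    · rw [Cs, Finset.mem_union] at he
      rcases he with he | he
      · obtain ⟨p, hp, rfl⟩ := Finset.mem_image.1 he
        exact h2 p hp
      · obtain ⟨p, hp, rfl⟩ := Finset.mem_image.1 he
        exact h4 p hp

theorem letters (S : List (List ℕ)) : ∃ E : PSys S ≃ {k : Var S → ℕ // LetG (Ms S) (Cs S) k},
    ∀ a b, posSys S a b = open Classical in if ∀ i, (E a).1 i ≤ (E b).1 i then 1 else 0 := by
  classical
  induction S with
  | nil =>
    have : Unique {k : Var [] → ℕ // LetG (Ms []) (Cs []) k} :=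
      { default := ⟨fun i => i.elim, fun i => i.elim, fun e he => by simp [Cs] at he⟩
        uniq := fun k => Subtype.ext (funext fun i => i.elim) }
    refine ⟨Equiv.ofUnique Unit _, fun a b => ?_⟩
    have h1 : posSys [] a b = 1 := by
      show (1 : Matrix Unit Unit ℤ) a b = 1
      cases a; cases b
      rfl
    rw [h1, if_pos]
    exact fun i => i.elim
  | cons c S ih =>
    obtain ⟨E1, h1⟩ := letters_chain c
    obtain ⟨E2, h2⟩ := ih
    let Ψ : {k : Fin c.length → ℕ // LetG (Mc c) (Cc c) k} × {k : Var S → ℕ // LetG (Ms S) (Cs S) k} ≃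
        {k : Var (c :: S) → ℕ // LetG (Ms (c :: S)) (Cs (c :: S)) k} :=
      { toFun := fun p => ⟨Sum.elim p.1.1 p.2.1, (letG_sum c S _).2 ⟨p.1.2, p.2.2⟩⟩
        invFun := fun k => (⟨fun i => k.1 (Sum.inl i), ((letG_sum c S _).1 k.2).1⟩,
          ⟨fun i => k.1 (Sum.inr i), ((letG_sum c S _).1 k.2).2⟩)
        left_inv := fun p => rfl
        right_inv := fun k => Subtype.ext (by
          funext v
          rcases v with v | v <;> rfl) }
    refine ⟨(Equiv.prodCongr E1 E2).trans Ψ, fun a b => ?_⟩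
    have e1 : posSys (c :: S) a b = posMat c a.1 b.1 * posSys S a.2 b.2 := rfl
    have e2 : (∀ i, (((Equiv.prodCongr E1 E2).trans Ψ) a).1 i ≤
        (((Equiv.prodCongr E1 E2).trans Ψ) b).1 i) ↔
        (∀ i, (E1 a.1).1 i ≤ (E1 b.1).1 i) ∧ ∀ i, (E2 a.2).1 i ≤ (E2 b.2).1 i := by
      constructor
      · intro h
        exact ⟨fun i => h (Sum.inl i), fun i => h (Sum.inr i)⟩
      · rintro ⟨h, h'⟩ (i | i)
        · exact h i
        · exact h' i
    rw [e1, h1, h2]
    refine Eq.trans ?_ (if_congr e2 rfl rfl).symm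
    by_cases h : ∀ i, (E1 a.1).1 i ≤ (E1 b.1).1 i <;>
      by_cases h' : ∀ i, (E2 a.2).1 i ≤ (E2 b.2).1 i <;> simp [h, h']

/-! ### assembly -/


end Crest.Agent.R267.GlSys_842
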