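import Crest.Agent.R267.LobeDefs_407
import Crest.Agent.R267.LobeKit_407

-- ▼ part R267/RedG_951
section

/-!
# Row 267 (helper951): REDUCTION and CORE for the functions of `LobeDefs_407`
-/

set_option autoImplicit false

noncomputable section

open Finset
open Crest.Agent.R267.Ang_739 Crest.Agent.R267.Hm_951 Crest.Agent.R267.LemL_951
open Crest.Agent.R267.LobeDefs_407

namespace Crest.Agent.R267.RedG_951

variable {n : ℕ}

/-! ### derivatives of `GF` -/

theorem hasFDerivAt_GF {Q : Fin (n + 1) → ℂ → ℂ} {g h : Fin n → ℂ → ℂ} {z : Fin (n + 1) → ℂ}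
    (hQ : ∀ i, DifferentiableAt ℝ (Q i) (z i))
    (hg : ∀ e : Fin n, DifferentiableAt ℝ (g e) (z e.castSucc))
    (hh : ∀ e : Fin n, DifferentiableAt ℝ (h e) (z e.succ)) :
    HasFDerivAt (GF Q g h)
      (∑ i, (fderiv ℝ (Q i) (z i)).comp (ContinuousLinearMap.proj (R := ℝ) (φ := fun _ => ℂ) i) -
        ∑ e : Fin n, (g e (z e.castSucc) • (fderiv ℝ (h e) (z e.succ)).comp
            (ContinuousLinearMap.proj (R := ℝ) (φ := fun _ => ℂ) e.succ) +
          h e (z e.succ) • (fderiv ℝ (g e) (z e.castSucc)).comp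
            (ContinuousLinearMap.proj (R := ℝ) (φ := fun _ => ℂ) e.castSucc))) z := by
  have hpr : ∀ i : Fin (n + 1), HasFDerivAt (fun z : Fin (n + 1) → ℂ => z i)
      (ContinuousLinearMap.proj (R := ℝ) (φ := fun _ => ℂ) i) z := fun i => hasFDerivAt_apply i z
  have h1 : HasFDerivAt (fun z : Fin (n + 1) → ℂ => ∑ i, Q i (z i))
      (∑ i, (fderiv ℝ (Q i) (z i)).comp (ContinuousLinearMap.proj (R := ℝ) (φ := fun _ => ℂ) i))
      z := HasFDerivAt.fun_sum fun i _ => (hQ i).hasFDerivAt.comp z (hpr i)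
  have h2 := HasFDerivAt.fun_sum (u := (univ : Finset (Fin n)))
    (A := fun e (z : Fin (n + 1) → ℂ) => g e (z e.castSucc) * h e (z e.succ)) (x := z)
    fun e _ => ((hg e).hasFDerivAt.comp z (hpr e.castSucc)).fun_mul
      ((hh e).hasFDerivAt.comp z (hpr e.succ))
  exact h1.sub h2

theorem fderiv_GF_single {Q : Fin (n + 1) → ℂ → ℂ} {g h : Fin n → ℂ → ℂ} {z : Fin (n + 1) → ℂ}
    (hQ : ∀ i, DifferentiableAt ℝ (Q i) (z i))
    (hg : ∀ e : Fin n, DifferentiableAt ℝ (g e) (z e.castSucc))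
    (hh : ∀ e : Fin n, DifferentiableAt ℝ (h e) (z e.succ)) (i : Fin (n + 1)) (v : ℂ) :
    fderiv ℝ (GF Q g h) z (Pi.single i v) = fderiv ℝ (Q i) (z i) v -
      ∑ e : Fin n, (g e (z e.castSucc) * (if e.succ = i then fderiv ℝ (h e) (z i) v else 0) +
        h e (z e.succ) * (if e.castSucc = i then fderiv ℝ (g e) (z i) v else 0)) := by
  rw [(hasFDerivAt_GF hQ hg hh).fderiv]
  simp only [_root_.sub_apply, _root_.sum_apply, ContinuousLinearMap.comp_apply,
    _root_.add_apply, _root_.smul_apply, ContinuousLinearMap.proj_apply, smul_eq_mul]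
  have h1 : ∀ (j : Fin (n + 1)) (T : ℂ →L[ℝ] ℂ), T (Pi.single (M := fun _ => ℂ) i v j) =
      if j = i then T v else 0 := by
    intro j T
    by_cases hj : j = i
    · subst hj; rw [if_pos rfl, Pi.single_eq_same]
    · rw [if_neg hj, Pi.single_eq_of_ne hj, map_zero]
  congr 1
  · simp only [h1]
    rw [Finset.sum_ite_eq' univ i, if_pos (mem_univ i)]
  · refine sum_congr rfl fun e _ => ?_
    rw [h1, h1]
    congr 2
    · by_cases h : e.succ = i
      · rw [if_pos h, if_pos h, h]
      · rw [if_neg h, if_neg h]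
    · by_cases h : e.castSucc = i
      · rw [if_pos h, if_pos h, h]
      · rw [if_neg h, if_neg h]

theorem surj_of_single {L : (Fin (n + 1) → ℂ) →L[ℝ] ℂ} (i : Fin (n + 1)) {κ : ℂ} (hκ : κ ≠ 0)
    (h : ∀ v, L (Pi.single i v) = κ * v) : Function.Surjective L := fun b =>
  ⟨Pi.single i (b / κ), by rw [h, mul_div_cancel₀ b hκ]⟩

/-- comparison with a function which does not depend on the variables above `j`. -/
theorem surj_transfer {L M : (Fin (n + 1) → ℂ) →L[ℝ] ℂ} {j : ℕ}
    (h1 : ∀ i : Fin (n + 1), j < (i : ℕ) → ∀ w, M (Pi.single i w) = 0)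
    (h2 : ∀ i : Fin (n + 1), (i : ℕ) ≤ j → ∀ w, L (Pi.single i w) = M (Pi.single i w))
    (hM : Function.Surjective M) : Function.Surjective L := by
  intro b
  obtain ⟨v, rfl⟩ := hM b
  refine ⟨∑ i : Fin (n + 1), if (i : ℕ) ≤ j then Pi.single i (v i) else 0, ?_⟩
  have hv : v = ∑ i : Fin (n + 1), Pi.single i (v i) := by
    funext k
    rw [Finset.sum_apply, Finset.sum_pi_single]
    simp
  conv_rhs => rw [hv]
  rw [map_sum, map_sum]
  refine sum_congr rfl fun i _ => ?_
  by_cases hi : (i : ℕ) ≤ j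
  · rw [if_pos hi, h2 i hi]
  · rw [if_neg hi, map_zero, h1 i (not_le.1 hi)]

/-! ### the tail -/

/-- polynomial couplings `z_e z_{e+1}^{a (e+1)}` for `e ≥ k`, no pieces above `k`. -/
structure Tail (a : Fin (n + 1) → ℕ) (k : ℕ) (Q : Fin (n + 1) → ℂ → ℂ) (g h : Fin n → ℂ → ℂ) :
    Prop where
  Q0 : ∀ i : Fin (n + 1), k < (i : ℕ) → Q i = 0
  g0 : ∀ e : Fin n, k ≤ (e : ℕ) → g e = id
  h0 : ∀ e : Fin n, k ≤ (e : ℕ) → h e = fun z => z ^ a e.succ

theorem fderiv_pow_apply (b : ℕ) (y v : ℂ) :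
    fderiv ℝ (fun z : ℂ => z ^ b) y v = b * y ^ (b - 1) * v := by
  have h : HasFDerivAt (fun z : ℂ => z ^ b) _ y := (hasFDerivAt_id (𝕜 := ℝ) y).pow b
  rw [h.fderiv]
  simp [nsmul_eq_mul]

theorem fderiv_id_apply' (y v : ℂ) : fderiv ℝ (id : ℂ → ℂ) y v = v := by
  rw [fderiv_id]; rfl

variable {a : Fin (n + 1) → ℕ} {k : ℕ} {Q : Fin (n + 1) → ℂ → ℂ} {g h : Fin n → ℂ → ℂ}
  {z : Fin (n + 1) → ℂ}

/-- the derivative in a tail variable -/
theorem Tail.fderiv_succ (T : Tail a k Q g h)
    (hQ : ∀ i, DifferentiableAt ℝ (Q i) (z i))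
    (hg : ∀ e : Fin n, DifferentiableAt ℝ (g e) (z e.castSucc))
    (hh : ∀ e : Fin n, DifferentiableAt ℝ (h e) (z e.succ)) (e : Fin n) (he : k ≤ (e : ℕ)) (v : ℂ) :
    fderiv ℝ (GF Q g h) z (Pi.single e.succ v) =
      -(z e.castSucc * (a e.succ * z e.succ ^ (a e.succ - 1)) +
        ∑ f : Fin n, if f.castSucc = e.succ then z f.succ ^ a f.succ else 0) * v := by
  rw [fderiv_GF_single hQ hg hh, T.Q0 e.succ (by rw [Fin.val_succ]; omega)]
  have h1 : fderiv ℝ (0 : ℂ → ℂ) (z e.succ) v = 0 := by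
    rw [show (0 : ℂ → ℂ) = fun _ => 0 from rfl, fderiv_fun_const]; rfl
  rw [h1, sum_add_distrib]
  have h2 : ∑ f : Fin n, g f (z f.castSucc) *
      (if f.succ = e.succ then fderiv ℝ (h f) (z e.succ) v else 0) =
      z e.castSucc * (a e.succ * z e.succ ^ (a e.succ - 1)) * v := by
    rw [Finset.sum_eq_single e]
    · rw [if_pos rfl, T.g0 e he, T.h0 e he, fderiv_pow_apply]
      simp only [id]
      ring
    · intro f _ hf
      rw [if_neg (fun h => hf (Fin.succ_injective _ h)), mul_zero]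
    · intro h; exact absurd (mem_univ e) h
  have h3 : ∑ f : Fin n, h f (z f.succ) *
      (if f.castSucc = e.succ then fderiv ℝ (g f) (z e.succ) v else 0) =
      (∑ f : Fin n, if f.castSucc = e.succ then z f.succ ^ a f.succ else 0) * v := by
    rw [sum_mul]
    refine sum_congr rfl fun f _ => ?_
    by_cases hf : f.castSucc = e.succ
    · have hkf : k ≤ (f : ℕ) := by
        have : (f.castSucc : ℕ) = (e.succ : ℕ) := congrArg Fin.val hf
        rw [Fin.val_castSucc, Fin.val_succ] at this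
        omega
      rw [if_pos hf, if_pos hf, T.g0 f hkf, T.h0 f hkf, fderiv_id_apply']
    · rw [if_neg hf, if_neg hf, mul_zero, zero_mul]
  rw [h2, h3]
  ring

theorem Tail.alt (T : Tail a k Q g h) (ha : ∀ i, 2 ≤ a i)
    (hQ : ∀ i, DifferentiableAt ℝ (Q i) (z i))
    (hg : ∀ e : Fin n, DifferentiableAt ℝ (g e) (z e.castSucc))
    (hh : ∀ e : Fin n, DifferentiableAt ℝ (h e) (z e.succ))
    (hns : ¬ Function.Surjective (fderiv ℝ (GF Q g h) z)) :
    ∀ (m : ℕ) (e : Fin n), n = (e : ℕ) + 1 + m → k ≤ (e : ℕ) →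
      (∀ i : Fin (n + 1), (e : ℕ) < (i : ℕ) → z i = 0) ∨ (z e.castSucc = 0 ∧ z e.succ ≠ 0) := by
  have key : ∀ (e : Fin n), k ≤ (e : ℕ) → z e.castSucc * (a e.succ * z e.succ ^ (a e.succ - 1)) +
        (∑ f : Fin n, if f.castSucc = e.succ then z f.succ ^ a f.succ else 0) = 0 := by
    intro e he
    by_contra hne
    exact hns (surj_of_single e.succ (neg_ne_zero.2 hne) fun v => T.fderiv_succ hQ hg hh e he v)
  intro m
  induction m with
  | zero =>
    intro e hm hk
    have h1 := key e hk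
    have h2 : (∑ f : Fin n, if f.castSucc = e.succ then z f.succ ^ a f.succ else 0) = 0 := by
      refine sum_eq_zero fun f _ => if_neg fun hf => ?_
      have : (f.castSucc : ℕ) = (e.succ : ℕ) := congrArg Fin.val hf
      rw [Fin.val_castSucc, Fin.val_succ] at this
      omega
    rw [h2, add_zero] at h1
    by_cases h0 : z e.succ = 0
    · left
      intro i hi
      have : i = e.succ := Fin.ext (by rw [Fin.val_succ]; omega)
      rw [this, h0]
    · right
      refine ⟨?_, h0⟩
      refine (mul_eq_zero.1 h1).resolve_right (mul_ne_zero ?_ (pow_ne_zero _ h0))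
      have := ha e.succ
      exact_mod_cast (by omega : a e.succ ≠ 0)
  | succ m ih =>
    intro e hm hk
    have he1 : (e : ℕ) + 1 < n := by omega
    set f : Fin n := ⟨(e : ℕ) + 1, he1⟩ with hf
    have hfe : f.castSucc = e.succ := Fin.ext (by rw [Fin.val_castSucc, Fin.val_succ])
    have h1 := key e hk
    have h2 : (∑ f : Fin n, if f.castSucc = e.succ then z f.succ ^ a f.succ else 0) =
        z f.succ ^ a f.succ := by
      rw [Finset.sum_eq_single f]
      · rw [if_pos hfe]
      · intro f' _ hf'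
        refine if_neg fun h => hf' ?_
        exact Fin.castSucc_injective _ (h.trans hfe.symm)
      · intro h; exact absurd (mem_univ f) h
    rw [h2] at h1
    rcases ih f (by simp only [hf]; omega) (by simp only [hf]; omega) with h3 | ⟨h3, h4⟩
    · have h5 : z f.succ = 0 := h3 f.succ (by rw [Fin.val_succ]; omega)
      rw [h5, zero_pow (by have := ha f.succ; omega), add_zero] at h1
      by_cases h0 : z e.succ = 0
      · left
        intro i hi
        by_cases hi2 : (i : ℕ) = (e : ℕ) + 1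
        · have : i = e.succ := Fin.ext (by rw [Fin.val_succ]; omega)
          rw [this, h0]
        · exact h3 i (by simp only [hf]; omega)
      · right
        refine ⟨?_, h0⟩
        refine (mul_eq_zero.1 h1).resolve_right (mul_ne_zero ?_ (pow_ne_zero _ h0))
        have := ha e.succ
        exact_mod_cast (by omega : a e.succ ≠ 0)
    · rw [hfe] at h3
      rw [h3, zero_pow (by have := ha e.succ; omega), mul_zero, mul_zero, zero_add] at h1
      exact absurd (pow_eq_zero_iff (by have := ha f.succ; omega) |>.1 h1) h4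

/-- **the tail vanishes at non-regular points.** -/
theorem Tail.zero (T : Tail a k Q g h) (ha : ∀ i, 2 ≤ a i)
    (hQ : ∀ i, DifferentiableAt ℝ (Q i) (z i))
    (hg : ∀ e : Fin n, DifferentiableAt ℝ (g e) (z e.castSucc))
    (hh : ∀ e : Fin n, DifferentiableAt ℝ (h e) (z e.succ))
    (hQk : ∀ i : Fin (n + 1), (i : ℕ) = k → z i = 0 → fderiv ℝ (Q i) 0 = 0)
    (hhk : ∀ e : Fin n, (e : ℕ) + 1 = k → z e.succ = 0 → fderiv ℝ (h e) 0 = 0)
    (hns : ¬ Function.Surjective (fderiv ℝ (GF Q g h) z)) (i : Fin (n + 1)) (hi : k < (i : ℕ)) :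
    z i = 0 := by
  have hkn : k < n := by have := i.isLt; omega
  have hi2 := i.isLt
  rcases T.alt ha hQ hg hh hns (n - k - 1) ⟨k, hkn⟩ (by simp only; omega) le_rfl with h1 | ⟨h1, h2⟩
  · exact h1 i hi
  · exfalso
    set e : Fin n := ⟨k, hkn⟩ with he
    refine hns (surj_of_single e.castSucc (neg_ne_zero.2 (pow_ne_zero (a e.succ) h2)) fun v => ?_)
    rw [fderiv_GF_single hQ hg hh, h1, hQk e.castSucc rfl h1, sum_add_distrib]
    have h3 : ∑ f : Fin n, g f (z f.castSucc) *
      (if f.succ = e.castSucc then fderiv ℝ (h f) 0 v else 0) = 0 := by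
      refine sum_eq_zero fun f _ => ?_
      by_cases hf : f.succ = e.castSucc
      · have hfk : (f : ℕ) + 1 = k := by
          have : (f.succ : ℕ) = (e.castSucc : ℕ) := congrArg Fin.val hf
          rw [Fin.val_castSucc, Fin.val_succ] at this
          exact this
        rw [if_pos hf, hhk f hfk (by rw [hf, h1])]
        simp
      · rw [if_neg hf, mul_zero]
    have h4 : ∑ f : Fin n, h f (z f.succ) *
      (if f.castSucc = e.castSucc then fderiv ℝ (g f) 0 v else 0) = z e.succ ^ a e.succ * v := by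
      rw [Finset.sum_eq_single e]
      · rw [if_pos rfl, T.g0 e le_rfl, T.h0 e le_rfl, fderiv_id_apply']
      · intro f _ hf
        rw [if_neg (fun h => hf (Fin.castSucc_injective _ h)), mul_zero]
      · intro h; exact absurd (mem_univ e) h
    rw [h3, h4]
    simp

/-! ### the part below `j` -/

/-- the part below `j`, with the planar piece `R` at `j`. -/
def low (Q : Fin (n + 1) → ℂ → ℂ) (g h : Fin n → ℂ → ℂ) (j : ℕ) (R : ℂ → ℂ) :
    (Fin (n + 1) → ℂ) → ℂ :=
  GF (fun i => if (i : ℕ) < j then Q i else if (i : ℕ) = j then R else 0)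
    (fun e => if (e : ℕ) < j then g e else 0) (fun e => if (e : ℕ) < j then h e else 0)

section Low

variable {j : ℕ} {R : ℂ → ℂ} {z' : Fin (n + 1) → ℂ}

theorem fderiv_zero_apply' (y v : ℂ) : fderiv ℝ (0 : ℂ → ℂ) y v = 0 := by
  rw [show (0 : ℂ → ℂ) = fun _ => 0 from rfl, fderiv_fun_const]; rfl

theorem differentiableAt_zero' (y : ℂ) : DifferentiableAt ℝ (0 : ℂ → ℂ) y := by
  rw [show (0 : ℂ → ℂ) = fun _ => 0 from rfl]; exact differentiableAt_const 0

/-- differentiability of the pieces -/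
structure Df (Q : Fin (n + 1) → ℂ → ℂ) (g h : Fin n → ℂ → ℂ) : Prop where
  Q : ∀ i, Differentiable ℝ (Q i)
  g : ∀ e, Differentiable ℝ (g e)
  h : ∀ e, Differentiable ℝ (h e)

theorem low_single (hd : Df Q g h) (hR : Differentiable ℝ R) (i : Fin (n + 1)) (v : ℂ) :
    fderiv ℝ (low Q g h j R) z' (Pi.single i v) =
      fderiv ℝ (if (i : ℕ) < j then Q i else if (i : ℕ) = j then R else 0) (z' i) v -
      ∑ e : Fin n, ((if (e : ℕ) < j then g e else 0) (z' e.castSucc) *
          (if e.succ = i then fderiv ℝ (if (e : ℕ) < j then h e else 0) (z' i) v else 0) +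
        (if (e : ℕ) < j then h e else 0) (z' e.succ) *
          (if e.castSucc = i then fderiv ℝ (if (e : ℕ) < j then g e else 0) (z' i) v else 0)) := by
  refine fderiv_GF_single (fun i => ?_) (fun e => ?_) (fun e => ?_) i v
  · show DifferentiableAt ℝ (if (i : ℕ) < j then Q i else if (i : ℕ) = j then R else 0) (z' i)
    split_ifs
    · exact hd.Q i _
    · exact hR _
    · exact differentiableAt_zero' _
  · show DifferentiableAt ℝ (if (e : ℕ) < j then g e else 0) (z' e.castSucc)
    split_ifs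
    · exact hd.g e _
    · exact differentiableAt_zero' _
  · show DifferentiableAt ℝ (if (e : ℕ) < j then h e else 0) (z' e.succ)
    split_ifs
    · exact hd.h e _
    · exact differentiableAt_zero' _

theorem low_above (hd : Df Q g h) (hR : Differentiable ℝ R) (i : Fin (n + 1)) (hi : j < (i : ℕ))
    (v : ℂ) : fderiv ℝ (low Q g h j R) z' (Pi.single i v) = 0 := by
  rw [low_single hd hR, if_neg (by omega), if_neg (by omega), fderiv_zero_apply', zero_sub,
    neg_eq_zero]
  refine sum_eq_zero fun e _ => ?_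
  by_cases he : (e : ℕ) < j
  · have h1 : ¬ e.succ = i := fun h => by
      have := congrArg Fin.val h
      rw [Fin.val_succ] at this
      omega
    have h2 : ¬ e.castSucc = i := fun h => by
      have := congrArg Fin.val h
      rw [Fin.val_castSucc] at this
      omega
    rw [if_neg h1, if_neg h2, mul_zero, mul_zero, add_zero]
  · rw [if_neg he, if_neg he]
    simp

/-- the terms of the coupling sums agree below `j` -/
theorem low_term (hz : ∀ i : Fin (n + 1), (i : ℕ) ≤ j → z' i = z i) (i : Fin (n + 1))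
    (hi : (i : ℕ) ≤ j) (e : Fin n) (v : ℂ) :
    (g e (z e.castSucc) * (if e.succ = i then fderiv ℝ (h e) (z i) v else 0) +
        h e (z e.succ) * (if e.castSucc = i then fderiv ℝ (g e) (z i) v else 0)) =
    ((if (e : ℕ) < j then g e else 0) (z' e.castSucc) *
          (if e.succ = i then fderiv ℝ (if (e : ℕ) < j then h e else 0) (z' i) v else 0) +
        (if (e : ℕ) < j then h e else 0) (z' e.succ) *
          (if e.castSucc = i then fderiv ℝ (if (e : ℕ) < j then g e else 0) (z' i) v else 0)) +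
      if (e : ℕ) = j ∧ (i : ℕ) = j then h e (z e.succ) * fderiv ℝ (g e) (z i) v else 0 := by
  by_cases he : (e : ℕ) < j
  · rw [if_pos he, if_pos he, if_neg (show ¬ ((e : ℕ) = j ∧ (i : ℕ) = j) by omega), add_zero,
      hz e.castSucc (by rw [Fin.val_castSucc]; omega), hz e.succ (by rw [Fin.val_succ]; omega),
      hz i hi]
  · have h1 : ¬ e.succ = i := fun h => by
      have := congrArg Fin.val h
      rw [Fin.val_succ] at this
      omega
    rw [if_neg he, if_neg he, if_neg h1]
    by_cases h2 : e.castSucc = i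
    · have h3 : (i : ℕ) = e := by rw [← h2, Fin.val_castSucc]
      rw [if_pos h2, if_pos (show (e : ℕ) = j ∧ (i : ℕ) = j by omega)]
      simp [h1]
    · have h3 : ¬ ((e : ℕ) = j ∧ (i : ℕ) = j) := fun h => h2 (Fin.ext (by
        rw [Fin.val_castSucc]; omega))
      rw [if_neg h2, if_neg h3]
      simp [h1, h2]

theorem low_below (hd : Df Q g h) (hR : Differentiable ℝ R)
    (hz : ∀ i : Fin (n + 1), (i : ℕ) ≤ j → z' i = z i) (i : Fin (n + 1)) (hi : (i : ℕ) < j)
    (v : ℂ) : fderiv ℝ (GF Q g h) z (Pi.single i v) =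
      fderiv ℝ (low Q g h j R) z' (Pi.single i v) := by
  rw [low_single hd hR, fderiv_GF_single (fun i => hd.Q i _) (fun e => hd.g e _)
    (fun e => hd.h e _), if_pos hi, hz i hi.le]
  congr 1
  refine sum_congr rfl fun e _ => ?_
  rw [low_term hz i hi.le e v, if_neg (show ¬ ((e : ℕ) = j ∧ (i : ℕ) = j) by omega), add_zero,
    hz i hi.le]

theorem low_at (hd : Df Q g h) (hR : Differentiable ℝ R)
    (hz : ∀ i : Fin (n + 1), (i : ℕ) ≤ j → z' i = z i) (i : Fin (n + 1)) (hi : (i : ℕ) = j)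
    (v : ℂ) : fderiv ℝ (GF Q g h) z (Pi.single i v) =
      fderiv ℝ (low Q g h j R) z' (Pi.single i v) + (fderiv ℝ (Q i) (z i) v -
        fderiv ℝ R (z i) v - ∑ e : Fin n, if (e : ℕ) = j then
          h e (z e.succ) * fderiv ℝ (g e) (z i) v else 0) := by
  rw [low_single hd hR, fderiv_GF_single (fun i => hd.Q i _) (fun e => hd.g e _)
    (fun e => hd.h e _), if_neg (by omega), if_pos hi, hz i hi.le]
  rw [sum_congr rfl fun e _ => low_term (g := g) (h := h) hz i hi.le e v, sum_add_distrib]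
  have h1 : ∀ e : Fin n, (if (e : ℕ) = j ∧ (i : ℕ) = j then h e (z e.succ) *
      fderiv ℝ (g e) (z i) v else 0) = if (e : ℕ) = j then
          h e (z e.succ) * fderiv ℝ (g e) (z i) v else 0 := fun e => by
    by_cases he : (e : ℕ) = j
    · rw [if_pos ⟨he, hi⟩, if_pos he]
    · rw [if_neg he, if_neg (fun h => he h.1)]
  rw [sum_congr rfl fun e _ => h1 e, hz i hi.le]
  ring

theorem low_value (hz : ∀ i : Fin (n + 1), (i : ℕ) ≤ j → z' i = z i) :
    GF Q g h z = low Q g h j R z' + (∑ i : Fin (n + 1), (if (i : ℕ) = j then Q i (z i) - R (z i)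
      else if j < (i : ℕ) then Q i (z i) else 0) -
      ∑ e : Fin n, if j ≤ (e : ℕ) then g e (z e.castSucc) * h e (z e.succ) else 0) := by
  have h1 : ∀ i : Fin (n + 1), Q i (z i) =
      (if (i : ℕ) < j then Q i else if (i : ℕ) = j then R else 0) (z' i) +
      (if (i : ℕ) = j then Q i (z i) - R (z i) else if j < (i : ℕ) then Q i (z i) else 0) := by
    intro i
    by_cases hi : (i : ℕ) < j
    · rw [if_pos hi, if_neg (by omega), if_neg (by omega), add_zero, hz i hi.le]
    · by_cases hi2 : (i : ℕ) = j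
      · rw [if_neg hi, if_pos hi2, if_pos hi2, hz i hi2.le]; ring
      · rw [if_neg hi, if_neg hi2, if_neg hi2, if_pos (by omega), Pi.zero_apply, zero_add]
  have h2 : ∀ e : Fin n, g e (z e.castSucc) * h e (z e.succ) =
      (if (e : ℕ) < j then g e else 0) (z' e.castSucc) * (if (e : ℕ) < j then h e else 0)
        (z' e.succ) + (if j ≤ (e : ℕ) then g e (z e.castSucc) * h e (z e.succ) else 0) := by
    intro e
    by_cases he : (e : ℕ) < j
    · rw [if_pos he, if_pos he, if_neg (show ¬ j ≤ (e : ℕ) by omega), add_zero,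
        hz e.castSucc (by rw [Fin.val_castSucc]; omega), hz e.succ (by rw [Fin.val_succ]; omega)]
    · rw [if_neg he, if_pos (show j ≤ (e : ℕ) by omega), Pi.zero_apply, zero_mul, zero_add]
  unfold low GF
  rw [sum_congr rfl fun i _ => h1 i, sum_congr rfl fun e _ => h2 e, sum_add_distrib,
    sum_add_distrib]
  ring

/-- regularity of the part below `j` with the piece `R` at `j` -/
def LowReg (Q : Fin (n + 1) → ℂ → ℂ) (g h : Fin n → ℂ → ℂ) (j : ℕ) (R : ℂ → ℂ) : Prop :=
  ∀ z' : Fin (n + 1) → ℂ, z' ≠ 0 → (∀ i : Fin (n + 1), j < (i : ℕ) → z' i = 0) →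
    0 ≤ (low Q g h j R z').re → Function.Surjective (fderiv ℝ (low Q g h j R) z')

/-- **REDUCTION, polynomial tail after `j`.** -/
theorem Tail.reg {j : Fin (n + 1)} (T : Tail a j Q g h) (ha : ∀ i, 2 ≤ a i) (hd : Df Q g h)
    (hQk : fderiv ℝ (Q j) 0 = 0) (hhk : ∀ e : Fin n, (e : ℕ) + 1 = j → fderiv ℝ (h e) 0 = 0)
    (hlow : LowReg Q g h j (Q j)) (hz : z ≠ 0) (hre : 0 ≤ (GF Q g h z).re) :
    Function.Surjective (fderiv ℝ (GF Q g h) z) := by
  by_contra hns
  have hz0 : ∀ i : Fin (n + 1), (j : ℕ) < (i : ℕ) → z i = 0 := fun i hi =>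
    T.zero ha (fun i => hd.Q i _) (fun e => hd.g e _) (fun e => hd.h e _)
      (fun i hi _ => by rw [show i = j from Fin.ext hi]; exact hQk) (fun e he _ => hhk e he) hns i hi
  have hv : GF Q g h z = low Q g h j (Q j) z := by
    rw [low_value (R := Q j) (z' := z) (j := j) (fun _ _ => rfl)]
    rw [sum_eq_zero, sum_eq_zero, sub_zero, add_zero]
    · intro e _
      by_cases he : (j : ℕ) ≤ (e : ℕ)
      · rw [if_pos he, T.h0 e he]
        show _ * z e.succ ^ a e.succ = 0
        rw [hz0 e.succ (by rw [Fin.val_succ]; omega), zero_pow (by have := ha e.succ; omega),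
          mul_zero]
      · rw [if_neg he]
    · intro i _
      by_cases hi : (i : ℕ) = j
      · rw [if_pos hi, show i = j from Fin.ext hi, sub_self]
      · rw [if_neg hi]
        by_cases hi2 : (j : ℕ) < i
        · rw [if_pos hi2, T.Q0 i hi2, Pi.zero_apply]
        · rw [if_neg hi2]
  refine hns (surj_transfer (j := j) (fun i hi w => low_above (z' := z) hd (hd.Q j) i hi w)
    (fun i hi w => ?_) (hlow z hz hz0 (by rw [← hv]; exact hre)))
  rcases hi.lt_or_eq with hi | hi
  · exact low_below hd (hd.Q j) (fun _ _ => rfl) i hi w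
  · rw [low_at hd (hd.Q j) (fun _ _ => rfl) i hi w, show i = j from Fin.ext hi, sub_self,
      sum_eq_zero, sub_zero, add_zero]
    intro e _
    by_cases he : (e : ℕ) = j
    · rw [if_pos he, T.h0 e he.ge]
      show z e.succ ^ a e.succ * _ = 0
      rw [hz0 e.succ (by rw [Fin.val_succ]; omega), zero_pow (by have := ha e.succ; omega),
        zero_mul]
    · rw [if_neg he]

/-- the constant of the critical value -/
def KV (b : ℕ) (c : ℂ) : ℂ := (1 / (b + 1 : ℂ)) * (b / ((b + 1) * c)) ^ b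

/-- **REDUCTION, step `e`** : `y = z e.succ`, piece `c y^(b+1)`, coupling `η x * y^b`. -/
theorem Tail.mid_reg {e : Fin n} (T : Tail a ((e : ℕ) + 1) Q g h) (ha : ∀ i, 2 ≤ a i)
    (hd : Df Q g h) {c : ℂ} (hc : c ≠ 0) {η : ℂ → ℂ} {b : ℕ} (hb : 2 ≤ b) (hη0 : η 0 = 0)
    (hY : Q e.succ = fun y => c * y ^ (b + 1)) (hge : g e = η) (hhe : h e = fun y => y ^ b)
    (hA : LowReg Q g h e (Q e.castSucc))
    (hV : LowReg Q g h e (fun x => Q e.castSucc x - KV b c * η x ^ (b + 1)))
    (hz : z ≠ 0) (hre : 0 ≤ (GF Q g h z).re) :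
    Function.Surjective (fderiv ℝ (GF Q g h) z) := by
  by_contra hns
  have hηd : Differentiable ℝ η := hge ▸ hd.g e
  have hz0 : ∀ i : Fin (n + 1), (e : ℕ) + 1 < (i : ℕ) → z i = 0 := fun i hi => by
    refine T.zero ha (fun i => hd.Q i _) (fun e => hd.g e _) (fun e => hd.h e _)
      (fun i hi _ => ?_) (fun f hf _ => ?_) hns i hi
    · rw [show i = e.succ from Fin.ext (by rw [Fin.val_succ]; exact hi), hY]
      refine ContinuousLinearMap.ext fun v => ?_
      have h1 : DifferentiableAt ℝ (fun y : ℂ => y ^ (b + 1)) 0 := by fun_prop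
      rw [fderiv_const_mul h1]
      simp [fderiv_pow_apply]
      right
      omega
    · rw [show f = e from Fin.ext (by omega), hhe]
      refine ContinuousLinearMap.ext fun v => ?_
      rw [fderiv_pow_apply, zero_pow (by omega)]
      simp
  set x := z e.castSucc with hx
  set y := z e.succ with hy
  have hb0 : (b : ℂ) ≠ 0 := by exact_mod_cast (by omega : b ≠ 0)
  have hb1 : ((b : ℂ) + 1) ≠ 0 := by exact_mod_cast (by omega : b + 1 ≠ 0)
  -- the derivative in `y`
  have hyd : ∀ w : ℂ, fderiv ℝ (GF Q g h) z (Pi.single e.succ w) =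
      y ^ (b - 1) * (c * (b + 1) * y - b * η x) * w := by
    intro w
    rw [fderiv_GF_single (fun i => hd.Q i _) (fun e => hd.g e _) (fun e => hd.h e _),
      sum_add_distrib]
    have h1 : ∑ f : Fin n, g f (z f.castSucc) *
        (if f.succ = e.succ then fderiv ℝ (h f) (z e.succ) w else 0) =
        η x * (b * y ^ (b - 1)) * w := by
      rw [Finset.sum_eq_single e]
      · rw [if_pos rfl, hge, hhe, fderiv_pow_apply]; ring
      · intro f _ hf
        rw [if_neg (fun h => hf (Fin.succ_injective _ h)), mul_zero]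
      · intro h; exact absurd (mem_univ e) h
    have h2 : ∑ f : Fin n, h f (z f.succ) *
        (if f.castSucc = e.succ then fderiv ℝ (g f) (z e.succ) w else 0) = 0 := by
      refine sum_eq_zero fun f _ => ?_
      by_cases hf : f.castSucc = e.succ
      · have hf1 : (f : ℕ) = (e : ℕ) + 1 := by
          have := congrArg Fin.val hf
          rwa [Fin.val_castSucc, Fin.val_succ] at this
        rw [T.h0 f hf1.ge]
        show z f.succ ^ a f.succ * _ = 0
        rw [hz0 f.succ (by rw [Fin.val_succ]; omega), zero_pow (by have := ha f.succ; omega),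
          zero_mul]
      · rw [if_neg hf, mul_zero]
    have h3 : fderiv ℝ (Q e.succ) (z e.succ) w = c * ((b + 1) * y ^ b) * w := by
      rw [hY]
      have h1 : DifferentiableAt ℝ (fun y : ℂ => y ^ (b + 1)) (z e.succ) := by fun_prop
      rw [fderiv_const_mul h1]
      simp only [_root_.smul_apply, fderiv_pow_apply, smul_eq_mul]
      push_cast
      rw [← hy]
      ring
    rw [h1, h2, h3]
    obtain ⟨b', rfl⟩ : ∃ b', b = b' + 1 := ⟨b - 1, by omega⟩
    rw [Nat.add_sub_cancel, pow_succ y b']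
    ring
  have hcrit : y ^ (b - 1) * (c * (b + 1) * y - b * η x) = 0 := by
    by_contra hne
    exact hns (surj_of_single e.succ hne hyd)
  -- the value
  have hval : ∀ (R : ℂ → ℂ) (z' : Fin (n + 1) → ℂ), (∀ i : Fin (n + 1), (i : ℕ) ≤ e → z' i = z i) →
      GF Q g h z = low Q g h e R z' + (Q e.castSucc x - R x + c * y ^ (b + 1) - η x * y ^ b) := by
    intro R z' hz'
    rw [low_value (R := R) hz']
    have h1 : ∑ i : Fin (n + 1), (if (i : ℕ) = e then Q i (z i) - R (z i)
        else if (e : ℕ) < (i : ℕ) then Q i (z i) else 0) =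
        Q e.castSucc x - R x + c * y ^ (b + 1) := by
      have h2 : ∀ i : Fin (n + 1), (if (i : ℕ) = e then Q i (z i) - R (z i)
        else if (e : ℕ) < (i : ℕ) then Q i (z i) else 0) =
          (if i = e.castSucc then Q e.castSucc x - R x else 0) +
          (if i = e.succ then c * y ^ (b + 1) else 0) := by
        intro i
        by_cases h1 : i = e.castSucc
        · have h3 : ¬ i = e.succ := fun h => by
            have := congrArg Fin.val (h1.symm.trans h)
            rw [Fin.val_castSucc, Fin.val_succ] at this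
            omega
          rw [if_pos h1, if_neg h3, h1, if_pos (Fin.val_castSucc e), add_zero]
        · have h4 : ¬ (i : ℕ) = e := fun h => h1 (Fin.ext (by rw [Fin.val_castSucc]; exact h))
          rw [if_neg h1, if_neg h4]
          by_cases h5 : i = e.succ
          · rw [if_pos h5, h5, if_pos (by rw [Fin.val_succ]; omega), hY, zero_add]
          · rw [if_neg h5, zero_add]
            by_cases h6 : (e : ℕ) < i
            · have h7 : ¬ (i : ℕ) = e + 1 := fun h => h5 (Fin.ext (by rw [Fin.val_succ]; exact h))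
              rw [if_pos h6, T.Q0 i (by omega), Pi.zero_apply]
            · rw [if_neg h6]
      rw [sum_congr rfl fun i _ => h2 i, sum_add_distrib, Finset.sum_ite_eq' univ,
        Finset.sum_ite_eq' univ, if_pos (mem_univ _), if_pos (mem_univ _)]
    have h2 : (∑ f : Fin n, if (e : ℕ) ≤ (f : ℕ) then g f (z f.castSucc) * h f (z f.succ) else 0) =
        η x * y ^ b := by
      rw [Finset.sum_eq_single e]
      · rw [if_pos le_rfl, hge, hhe]
      · intro f _ hf
        by_cases hf2 : (e : ℕ) ≤ f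
        · have hf3 : (f : ℕ) ≠ e := fun h => hf (Fin.ext h)
          rw [if_pos hf2, T.h0 f (by omega)]
          show _ * z f.succ ^ a f.succ = 0
          rw [hz0 f.succ (by rw [Fin.val_succ]; omega), zero_pow (by have := ha f.succ; omega),
            mul_zero]
        · rw [if_neg hf2]
      · intro h; exact absurd (mem_univ e) h
    rw [h1, h2]
  -- the derivative in the direction of `x`
  have hsum : ∀ w : ℂ, (∑ f : Fin n, if (f : ℕ) = e then
      h f (z f.succ) * fderiv ℝ (g f) (z e.castSucc) w else 0) = y ^ b * fderiv ℝ η x w := by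
    intro w
    rw [Finset.sum_eq_single e]
    · rw [if_pos rfl, hge, hhe]
    · intro f _ hf
      rw [if_neg (fun h => hf (Fin.ext h))]
    · intro h; exact absurd (mem_univ e) h
  rcases mul_eq_zero.1 hcrit with hy0 | hy1
  · have hy0 : y = 0 := eq_zero_of_pow_eq_zero hy0
    have hz1 : ∀ i : Fin (n + 1), (e : ℕ) < (i : ℕ) → z i = 0 := by
      intro i hi
      by_cases h : (i : ℕ) = (e : ℕ) + 1
      · rw [show i = e.succ from Fin.ext (by rw [Fin.val_succ]; exact h)]
        exact hy0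
      · exact hz0 i (by omega)
    have hv := hval (Q e.castSucc) z (fun _ _ => rfl)
    rw [hy0, zero_pow (by omega), zero_pow (by omega), mul_zero, mul_zero, sub_self, sub_zero,
      add_zero, add_zero] at hv
    refine hns (surj_transfer (j := e) (fun i hi w =>
      low_above (z' := z) hd (hd.Q e.castSucc) i hi w) (fun i hi w => ?_)
      (hA z hz hz1 (by rw [← hv]; exact hre)))
    rcases hi.lt_or_eq with hi | hi
    · exact low_below hd (hd.Q e.castSucc) (fun _ _ => rfl) i hi w
    · rw [low_at hd (hd.Q e.castSucc) (fun _ _ => rfl) i hi w,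
        show i = e.castSucc from Fin.ext hi, hsum, hy0, zero_pow (by omega)]
      ring
  · have hηy : η x = c * (b + 1) * y / b := by
      field_simp
      linear_combination -hy1
    have hyη : y = b / ((b + 1) * c) * η x := by
      rw [hηy]; field_simp
    have hKy : KV b c * ((b + 1) * η x ^ b) = y ^ b := by
      unfold KV
      rw [hyη, mul_pow]
      field_simp
    have hRd : Differentiable ℝ (fun x => Q e.castSucc x - KV b c * η x ^ (b + 1)) :=
      (hd.Q _).sub ((hηd.pow _).const_mul _)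
    set R : ℂ → ℂ := fun x => Q e.castSucc x - KV b c * η x ^ (b + 1) with hR
    by_cases hx0 : x = 0 ∧ y = 0
    · -- then the other variables below are not all zero; still `y = 0`
      have hy0 := hx0.2
      have hz1 : ∀ i : Fin (n + 1), (e : ℕ) < (i : ℕ) → z i = 0 := by
        intro i hi
        by_cases h : (i : ℕ) = (e : ℕ) + 1
        · rw [show i = e.succ from Fin.ext (by rw [Fin.val_succ]; exact h)]
          exact hy0
        · exact hz0 i (by omega)
      have hv := hval (Q e.castSucc) z (fun _ _ => rfl)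
      rw [hy0, zero_pow (by omega), zero_pow (by omega), mul_zero, mul_zero, sub_self, sub_zero,
        add_zero, add_zero] at hv
      refine hns (surj_transfer (j := e) (fun i hi w =>
        low_above (z' := z) hd (hd.Q e.castSucc) i hi w) (fun i hi w => ?_)
        (hA z hz hz1 (by rw [← hv]; exact hre)))
      rcases hi.lt_or_eq with hi | hi
      · exact low_below hd (hd.Q e.castSucc) (fun _ _ => rfl) i hi w
      · rw [low_at hd (hd.Q e.castSucc) (fun _ _ => rfl) i hi w,
          show i = e.castSucc from Fin.ext hi, hsum, hy0, zero_pow (by omega)]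
        ring
    · set z' : Fin (n + 1) → ℂ := fun i => if (i : ℕ) ≤ e then z i else 0 with hz'
      have hz'1 : ∀ i : Fin (n + 1), (i : ℕ) ≤ e → z' i = z i := fun i hi => by
        rw [hz']; exact if_pos hi
      have hz'0 : ∀ i : Fin (n + 1), (e : ℕ) < (i : ℕ) → z' i = 0 := fun i hi => by
        rw [hz']; exact if_neg (not_le.2 hi)
      have hz'n : z' ≠ 0 := by
        intro h0
        have h1 : x = 0 := by
          rw [hx, ← hz'1 e.castSucc (by rw [Fin.val_castSucc]), h0]; rfl
        refine hx0 ⟨h1, ?_⟩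
        rw [hyη, h1, hη0, mul_zero]
      have hv := hval R z' hz'1
      have hv2 : Q e.castSucc x - R x + c * y ^ (b + 1) - η x * y ^ b = 0 := by
        simp only [hR]
        have h1 : KV b c * η x ^ (b + 1) = y ^ b * η x / (b + 1) := by
          rw [pow_succ, ← hKy]; field_simp
        rw [sub_sub_cancel, h1, pow_succ]
        rw [hηy]
        field_simp
        ring
      rw [hv2, add_zero] at hv
      refine hns (surj_transfer (j := e) (fun i hi w =>
        low_above (z' := z') hd hRd i hi w) (fun i hi w => ?_)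
        (hV z' hz'n hz'0 (by rw [← hv]; exact hre)))
      rcases hi.lt_or_eq with hi | hi
      · exact low_below hd hRd hz'1 i hi w
      · rw [low_at hd hRd hz'1 i hi w, show i = e.castSucc from Fin.ext hi, hsum]
        have h1 : fderiv ℝ R (z e.castSucc) w = fderiv ℝ (Q e.castSucc) (z e.castSucc) w -
            KV b c * ((b + 1) * η x ^ b) * fderiv ℝ η x w := by
          have h2 : HasFDerivAt R _ (z e.castSucc) := (hd.Q e.castSucc _).hasFDerivAt.fun_sub
            (((hηd (z e.castSucc)).hasFDerivAt.pow (b + 1)).const_mul (KV b c))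
          rw [h2.fderiv]
          simp only [_root_.sub_apply, _root_.smul_apply, smul_eq_mul, nsmul_eq_mul,
            Nat.add_sub_cancel]
          push_cast
          rw [← hx]
          ring
        rw [h1, hKy]
        ring

end Low

end Crest.Agent.R267.RedG_951
end
end

-- ▼ part R267/RedP_951
section

/-!
# Row 267 (helper951): `RedP` and `Red0P` of `LobeDefs_407`
-/

set_option autoImplicit false

noncomputable section

open Finset
open Crest.Agent.R267.Ang_739 Crest.Agent.R267.Hm_951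
open Crest.Agent.R267.LemL_951 hiding dg
open Crest.Agent.R267.LobeDefs_407 Crest.Agent.R267.LobeKit_407
open Crest.Agent.R267.RedG_951

namespace Crest.Agent.R267.RedP_951

variable {n : ℕ} {a : Fin (n + 1) → ℕ}

theorem low_congr {Q Q' : Fin (n + 1) → ℂ → ℂ} {g h g' h' : Fin n → ℂ → ℂ} {j : ℕ} (R : ℂ → ℂ)
    (h1 : ∀ i : Fin (n + 1), (i : ℕ) < j → Q i = Q' i) (h2 : ∀ e : Fin n, (e : ℕ) < j → g e = g' e)
    (h3 : ∀ e : Fin n, (e : ℕ) < j → h e = h' e) : low Q g h j R = low Q' g' h' j R := by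
  unfold low
  congr 1
  · funext i
    by_cases hi : (i : ℕ) < j
    · rw [if_pos hi, if_pos hi, h1 i hi]
    · rw [if_neg hi, if_neg hi]
  · funext e
    by_cases he : (e : ℕ) < j
    · rw [if_pos he, if_pos he, h2 e he]
    · rw [if_neg he, if_neg he]
  · funext e
    by_cases he : (e : ℕ) < j
    · rw [if_pos he, if_pos he, h3 e he]
    · rw [if_neg he, if_neg he]

theorem low_eq_tr (X : LD n) {Q : Fin (n + 1) → ℂ → ℂ} {g h : Fin n → ℂ → ℂ} {j : ℕ} (R : ℂ → ℂ)
    (h1 : ∀ i : Fin (n + 1), (i : ℕ) < j → Q i = X.Q i)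
    (h2 : ∀ e : Fin n, (e : ℕ) < j → g e = fun z => (X.g e z : ℂ))
    (h3 : ∀ e : Fin n, (e : ℕ) < j → h e = fun z => (X.h e z : ℂ)) : low Q g h j R = X.tr j R :=
  low_congr (Q' := X.Q) (g' := fun e z => (X.g e z : ℂ)) (h' := fun e z => (X.h e z : ℂ)) R h1 h2 h3

theorem differentiable_ofReal {f : ℂ → ℝ} (h : Differentiable ℝ f) :
    Differentiable ℝ (fun z => (f z : ℂ)) := fun z =>
  Complex.ofRealCLM.differentiableAt.comp z (h z)

theorem differentiable_pow' (k : ℕ) : Differentiable ℝ (fun z : ℂ => z ^ k) := by fun_prop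

theorem fderiv_ofReal_zero {f : ℂ → ℝ} (h : DifferentiableAt ℝ f 0) (h0 : fderiv ℝ f 0 = 0) :
    fderiv ℝ (fun z => (f z : ℂ)) 0 = 0 := by
  have h1 : HasFDerivAt (fun z => (f z : ℂ)) (Complex.ofRealCLM.comp (fderiv ℝ f 0)) 0 :=
    Complex.ofRealCLM.hasFDerivAt.comp 0 h.hasFDerivAt
  rw [h1.fderiv, h0, ContinuousLinearMap.comp_zero]

/-- **Red0P** -/
theorem red0P (ha : ∀ i, 2 ≤ a i) (j : Fin (n + 1)) : Red0P a j := by
  intro X hX htr z hz hre
  have hd : Df (fun i : Fin (n + 1) => if (i : ℕ) ≤ j then X.Q i else 0)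
      (fun e : Fin n => if (e : ℕ) < j then (fun z => (X.g e z : ℂ)) else id)
      (fun e : Fin n => if (e : ℕ) < j then (fun z => (X.h e z : ℂ)) else fun z => z ^ a e.succ) := by
    refine ⟨fun i => ?_, fun e => ?_, fun e => ?_⟩
    · show Differentiable ℝ (if (i : ℕ) ≤ j then X.Q i else 0)
      split_ifs with hi
      · exact Q_diff hX hi
      · exact fun z => differentiableAt_zero' z
    · show Differentiable ℝ (if (e : ℕ) < j then (fun z => (X.g e z : ℂ)) else id)
      split_ifs with he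
      · exact differentiable_ofReal (g_diff hX he)
      · exact differentiable_id
    · show Differentiable ℝ (if (e : ℕ) < j then (fun z => (X.h e z : ℂ)) else fun z => z ^ a e.succ)
      split_ifs with he
      · exact differentiable_ofReal (h_diff hX he)
      · exact differentiable_pow' _
  have T : Tail a (j : ℕ) (fun i : Fin (n + 1) => if (i : ℕ) ≤ j then X.Q i else 0)
      (fun e : Fin n => if (e : ℕ) < j then (fun z => (X.g e z : ℂ)) else id)
      (fun e : Fin n => if (e : ℕ) < j then (fun z => (X.h e z : ℂ)) else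
        fun z => z ^ a e.succ) := by
    refine ⟨fun i hi => ?_, fun e he => ?_, fun e he => ?_⟩
    · exact if_neg (not_le.2 hi)
    · exact if_neg (not_lt.2 he)
    · exact if_neg (not_lt.2 he)
  refine T.reg ha hd ?_ (fun e he => ?_) ?_ hz hre
  · show fderiv ℝ (if (j : ℕ) ≤ j then X.Q j else 0) 0 = 0
    rw [if_pos le_rfl]
    exact ph_fderiv_zero (Q_ph X j) (by have := hX.hD j le_rfl; linarith) (Q_diff hX le_rfl _)
  · show fderiv ℝ (if (e : ℕ) < j then (fun z => (X.h e z : ℂ)) else fun z => z ^ a e.succ) 0 = 0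
    have he' : (e : ℕ) < j := by omega
    rw [if_pos he']
    exact fderiv_ofReal_zero (h_diff hX he' _)
      (ph_fderiv_zero (h_ph X e) (by have := hX.hm e he'; linarith) (h_diff hX he' _))
  · show LowReg _ _ _ (j : ℕ) (if (j : ℕ) ≤ j then X.Q j else 0)
    rw [if_pos le_rfl]
    unfold LowReg
    rw [low_eq_tr X (X.Q j) (fun i hi => if_pos hi.le) (fun e he => if_pos he)
      (fun e he => if_pos he)]
    exact htr

theorem KV_real (b : ℕ) (κ : ℝ) : KV b (κ : ℂ) =
    (((1 / ((b : ℝ) + 1)) * ((b : ℝ) / (((b : ℝ) + 1) * κ)) ^ b : ℝ) : ℂ) := by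
  unfold KV
  push_cast
  ring

/-- **RedP** -/
theorem redP (ha : ∀ i, 2 ≤ a i) (e : Fin n) : RedP a e := by
  intro X κ η hX hκ hηd hη0 hA hV z hz hre
  have hd : Df (fun i : Fin (n + 1) => if (i : ℕ) ≤ e then X.Q i else
        if (i : ℕ) = e + 1 then (fun y => (κ : ℂ) * y ^ (a e.succ + 1)) else 0)
      (fun f : Fin n => if (f : ℕ) < e then (fun z => (X.g f z : ℂ)) else
        if (f : ℕ) = e then η else id)
      (fun f : Fin n => if (f : ℕ) < e then (fun z => (X.h f z : ℂ)) else
        if (f : ℕ) = e then (fun y => y ^ a e.succ) else fun z => z ^ a f.succ) := by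
    refine ⟨fun i => ?_, fun f => ?_, fun f => ?_⟩
    · show Differentiable ℝ (if (i : ℕ) ≤ e then X.Q i else
        if (i : ℕ) = e + 1 then (fun y => (κ : ℂ) * y ^ (a e.succ + 1)) else 0)
      split_ifs with hi hi2
      · exact Q_diff hX hi
      · exact (differentiable_pow' _).const_mul _
      · exact fun z => differentiableAt_zero' z
    · show Differentiable ℝ (if (f : ℕ) < e then (fun z => (X.g f z : ℂ)) else
        if (f : ℕ) = e then η else id)
      split_ifs with hf hf2
      · exact differentiable_ofReal (g_diff hX hf)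
      · exact hηd
      · exact differentiable_id
    · show Differentiable ℝ (if (f : ℕ) < e then (fun z => (X.h f z : ℂ)) else
        if (f : ℕ) = e then (fun y => y ^ a e.succ) else fun z => z ^ a f.succ)
      split_ifs with hf hf2
      · exact differentiable_ofReal (h_diff hX hf)
      · exact differentiable_pow' _
      · exact differentiable_pow' _
  have T : Tail a ((e : ℕ) + 1) (fun i : Fin (n + 1) => if (i : ℕ) ≤ e then X.Q i else
        if (i : ℕ) = e + 1 then (fun y => (κ : ℂ) * y ^ (a e.succ + 1)) else 0)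
      (fun f : Fin n => if (f : ℕ) < e then (fun z => (X.g f z : ℂ)) else
        if (f : ℕ) = e then η else id)
      (fun f : Fin n => if (f : ℕ) < e then (fun z => (X.h f z : ℂ)) else
        if (f : ℕ) = e then (fun y => y ^ a e.succ) else fun z => z ^ a f.succ) := by
    refine ⟨fun i hi => ?_, fun f hf => ?_, fun f hf => ?_⟩
    · show (if (i : ℕ) ≤ e then X.Q i else
        if (i : ℕ) = e + 1 then (fun y => (κ : ℂ) * y ^ (a e.succ + 1)) else 0) = 0
      rw [if_neg (show ¬ (i : ℕ) ≤ e by omega), if_neg (show ¬ (i : ℕ) = e + 1 by omega)]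
    · show (if (f : ℕ) < e then (fun z => (X.g f z : ℂ)) else
        if (f : ℕ) = e then η else id) = id
      rw [if_neg (show ¬ (f : ℕ) < e by omega), if_neg (show ¬ (f : ℕ) = e by omega)]
    · show (if (f : ℕ) < e then (fun z => (X.h f z : ℂ)) else
        if (f : ℕ) = e then (fun y => y ^ a e.succ) else fun z => z ^ a f.succ) = _
      rw [if_neg (show ¬ (f : ℕ) < e by omega), if_neg (show ¬ (f : ℕ) = e by omega)]
  have hQe : (if ((e.castSucc : Fin (n + 1)) : ℕ) ≤ e then X.Q e.castSucc else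
        if ((e.castSucc : Fin (n + 1)) : ℕ) = e + 1 then (fun y => (κ : ℂ) * y ^ (a e.succ + 1))
        else 0) = X.Q e.castSucc := if_pos (by rw [Fin.val_castSucc])
  have hlow : ∀ R : ℂ → ℂ, low (fun i : Fin (n + 1) => if (i : ℕ) ≤ e then X.Q i else
        if (i : ℕ) = e + 1 then (fun y => (κ : ℂ) * y ^ (a e.succ + 1)) else 0)
      (fun f : Fin n => if (f : ℕ) < e then (fun z => (X.g f z : ℂ)) else
        if (f : ℕ) = e then η else id)
      (fun f : Fin n => if (f : ℕ) < e then (fun z => (X.h f z : ℂ)) else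
        if (f : ℕ) = e then (fun y => y ^ a e.succ) else fun z => z ^ a f.succ) e R = X.tr e R :=
    fun R => low_eq_tr X R (fun i hi => if_pos hi.le) (fun e he => if_pos he)
      (fun e he => if_pos he)
  refine T.mid_reg ha hd (c := (κ : ℂ)) (by exact_mod_cast hκ.ne') (η := η) (b := a e.succ)
    (ha _) hη0 ?_ ?_ ?_ ?_ ?_ hz hre
  · show (if ((e.succ : Fin (n + 1)) : ℕ) ≤ e then X.Q e.succ else
        if ((e.succ : Fin (n + 1)) : ℕ) = e + 1 then (fun y => (κ : ℂ) * y ^ (a e.succ + 1))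
        else 0) = _
    rw [if_neg (by rw [Fin.val_succ]; omega), if_pos (by rw [Fin.val_succ])]
  · show (if (e : ℕ) < e then (fun z => (X.g e z : ℂ)) else if (e : ℕ) = e then η else id) = η
    rw [if_neg (lt_irrefl _), if_pos rfl]
  · show (if (e : ℕ) < e then (fun z => (X.h e z : ℂ)) else
        if (e : ℕ) = e then (fun y => y ^ a e.succ) else fun z => z ^ a e.succ) = _
    rw [if_neg (lt_irrefl _), if_pos rfl]
  · show LowReg _ _ _ (e : ℕ) (if ((e.castSucc : Fin (n + 1)) : ℕ) ≤ e then X.Q e.castSucc else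
        if ((e.castSucc : Fin (n + 1)) : ℕ) = e + 1 then (fun y => (κ : ℂ) * y ^ (a e.succ + 1))
        else 0)
    rw [hQe]
    unfold LowReg
    rw [hlow]
    exact hA
  · have h1 : (fun x => (if ((e.castSucc : Fin (n + 1)) : ℕ) ≤ e then X.Q e.castSucc else
        if ((e.castSucc : Fin (n + 1)) : ℕ) = e + 1 then (fun y => (κ : ℂ) * y ^ (a e.succ + 1))
        else 0) x - KV (a e.succ) (κ : ℂ) * η x ^ (a e.succ + 1)) =
        fun x => X.Q e.castSucc x -
      (((1 / ((a e.succ : ℝ) + 1)) * ((a e.succ : ℝ) / (((a e.succ : ℝ) + 1) * κ)) ^ (a e.succ) : ℝ)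
        : ℂ) * η x ^ (a e.succ + 1) := by
      rw [hQe, KV_real]
    show LowReg _ _ _ (e : ℕ) (fun x => (if ((e.castSucc : Fin (n + 1)) : ℕ) ≤ e then
        X.Q e.castSucc else
        if ((e.castSucc : Fin (n + 1)) : ℕ) = e + 1 then (fun y => (κ : ℂ) * y ^ (a e.succ + 1))
        else 0) x - KV (a e.succ) (κ : ℂ) * η x ^ (a e.succ + 1))
    rw [h1]
    unfold LowReg
    rw [hlow]
    exact hV

end Crest.Agent.R267.RedP_951
end
end

-- ▼ part R267/S2_843
section

/-!
# Row 267 (helper843): T3b of #2295, step S2 (change of the power of `x`) and the base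

* `pw`: `norm_pw`, `pw_pw`, `pw_smul`, `pol_pw`, the homeomorphism `pwH`;
* `wh_gf`, `exists_wt`, `wh_mid`, `wh_st`: weights of the functions of T3b;
* `s2p (ha : Exps a) (e) : S2P a e`;
* `chainFun_ofFn_rev`, `base (ha : Exps a) : BaseP a`.
-/

set_option autoImplicit false

noncomputable section

open Crest.Agent.R267.Ang_739 Crest.Agent.R267.Hm_951 Crest.Agent.R267.LemL_951
open Crest.Agent.R267.Sys_808 Crest.Agent.R267.LobeDefs_407 Crest.Agent.R267.Cone_808
open Filter Topology

namespace Crest.Agent.R267.S2_843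

/-! ### the power map -/

theorem pw_zero (Q : ℝ) : pw Q 0 = 0 := by simp [pw]

theorem norm_pw {Q : ℝ} (hQ : Q ≠ 0) (z : ℂ) : ‖pw Q z‖ = ‖z‖ ^ Q := by
  rcases eq_or_ne z 0 with rfl | hz
  · rw [pw_zero, norm_zero, Real.zero_rpow hQ]
  · have hn : 0 < ‖z‖ := norm_pos_iff.2 hz
    unfold pw
    rw [norm_mul, Complex.norm_real, Real.norm_of_nonneg (Real.rpow_nonneg hn.le _)]
    conv_lhs => rw [← Real.rpow_one ‖z‖]
    rw [Real.rpow_one, ← Real.rpow_add_one hn.ne', sub_add_cancel]

theorem pw_one (z : ℂ) : pw 1 z = z := by simp [pw]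

theorem pw_pw {Q R : ℝ} (hR : R ≠ 0) (z : ℂ) : pw Q (pw R z) = pw (Q * R) z := by
  rcases eq_or_ne z 0 with rfl | hz
  · rw [pw_zero, pw_zero, pw_zero]
  · have hn : 0 < ‖z‖ := norm_pos_iff.2 hz
    have h1 : pw Q (pw R z) = ((‖pw R z‖ ^ (Q - 1) : ℝ) : ℂ) * pw R z := rfl
    rw [h1, norm_pw hR]
    unfold pw
    rw [← mul_assoc, ← Complex.ofReal_mul, ← Real.rpow_mul hn.le, ← Real.rpow_add hn]
    congr 3
    ring

theorem pw_smul (Q : ℝ) {r : ℝ} (hr : 0 < r) (z : ℂ) :
    pw Q ((r : ℂ) * z) = ((r ^ Q : ℝ) : ℂ) * pw Q z := by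
  unfold pw
  rw [norm_mul, Complex.norm_real, Real.norm_of_nonneg hr.le, Real.mul_rpow hr.le (norm_nonneg _)]
  have h1 : r ^ Q = r ^ (Q - 1) * r := by rw [← Real.rpow_add_one hr.ne', sub_add_cancel]
  rw [h1]
  push_cast
  ring

theorem arg_pw (Q : ℝ) (z : ℂ) : Complex.arg (pw Q z) = Complex.arg z := by
  rcases eq_or_ne z 0 with rfl | hz
  · rw [pw_zero]
  · exact Complex.arg_real_mul _ (Real.rpow_pos_of_pos (norm_pos_iff.2 hz) _)

theorem pol_pw {F : Type*} [NormedAddCommGroup F] [NormedSpace ℝ F] {Q : ℝ} (hQ : Q ≠ 0) (D : ℝ)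
    (q : ℝ → F) (z : ℂ) : pol D q (pw Q z) = pol (Q * D) q z := by
  unfold pol
  rw [norm_pw hQ, arg_pw, ← Real.rpow_mul (norm_nonneg _)]

theorem pc_pw {Q : ℝ} (hQ : Q ≠ 0) (D ep : ℝ) (φ : ℝ → ℝ) (z : ℂ) :
    pc D ep φ (pw Q z) = pc (Q * D) ep φ z := pol_pw hQ D _ z

theorem continuous_pw {Q : ℝ} (hQ : 0 < Q) : Continuous (pw Q) := by
  rw [continuous_iff_continuousAt]
  intro z
  rcases eq_or_ne z 0 with rfl | hz
  · rw [ContinuousAt, pw_zero, tendsto_zero_iff_norm_tendsto_zero]
    have h1 : Continuous fun z : ℂ => ‖z‖ ^ Q := continuous_norm.rpow_const fun _ => Or.inr hQ.le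
    have h2 := h1.tendsto 0
    simp only [norm_zero, Real.zero_rpow hQ.ne'] at h2
    refine h2.congr fun z => (norm_pw hQ.ne' z).symm
  · have h1 : ContinuousAt (fun z : ℂ => ‖z‖ ^ (Q - 1)) z :=
      (continuous_norm.continuousAt).rpow_const (Or.inl (norm_ne_zero_iff.2 hz))
    exact (Complex.continuous_ofReal.continuousAt.comp h1).mul continuousAt_id

/-- the power map as a homeomorphism -/
def pwH (Q : ℝ) (hQ : 0 < Q) : ℂ ≃ₜ ℂ where
  toFun := pw Q
  invFun := pw Q⁻¹
  left_inv z := by rw [pw_pw hQ.ne', inv_mul_cancel₀ hQ.ne', pw_one]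
  right_inv z := by rw [pw_pw (inv_ne_zero hQ.ne'), mul_inv_cancel₀ hQ.ne', pw_one]
  continuous_toFun := continuous_pw hQ
  continuous_invFun := continuous_pw (inv_pos.2 hQ)


/-! ### weights -/

variable {n : ℕ}

theorem exp_rpow {w D : ℝ} (h : w * D = 1) (s : ℝ) : Real.exp (s * w) ^ D = Real.exp s := by
  rw [← Real.exp_mul, mul_assoc, h, mul_one]

theorem wh_gf {w : Fin (n + 1) → ℝ} {Q : Fin (n + 1) → ℂ → ℂ} {g h : Fin n → ℂ → ℂ}
    (hQ : ∀ i (s : ℝ) z, Q i ((Real.exp (s * w i) : ℂ) * z) = Real.exp s • Q i z)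
    (hgh : ∀ e (s : ℝ) x y, g e ((Real.exp (s * w e.castSucc) : ℂ) * x) *
      h e ((Real.exp (s * w e.succ) : ℂ) * y) = Real.exp s • (g e x * h e y)) :
    WH w (GF Q g h) := by
  intro s z
  have h1 : ∀ i, Q i (act w s z i) = Real.exp s • Q i (z i) := fun i => hQ i s (z i)
  have h2 : ∀ e : Fin n, g e (act w s z e.castSucc) * h e (act w s z e.succ) =
      Real.exp s • (g e (z e.castSucc) * h e (z e.succ)) := fun e => hgh e s _ _
  unfold GF
  rw [smul_sub, Finset.smul_sum, Finset.smul_sum]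
  simp only [h1, h2]

theorem pc_wh {w D : ℝ} (h : w * D = 1) (ep : ℝ) (φ : ℝ → ℝ) (s : ℝ) (z : ℂ) :
    pc D ep φ ((Real.exp (s * w) : ℂ) * z) = Real.exp s • pc D ep φ z := by
  rw [pc_hom D ep φ _ (Real.exp_pos _), exp_rpow h]

/-- the tail weights -/
theorem exists_wt {a : Fin (n + 1) → ℕ} (ha : ∀ i, 2 ≤ a i) (j : ℕ) (v : Fin (n + 1) → ℝ)
    (hv : ∀ i : Fin (n + 1), (i : ℕ) ≤ j → 0 < v i ∧ v i < 1) :
    ∃ w : Fin (n + 1) → ℝ, (∀ i, 0 < w i ∧ w i < 1) ∧
      (∀ i : Fin (n + 1), (i : ℕ) ≤ j → w i = v i) ∧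
      ∀ e : Fin n, j ≤ (e : ℕ) → w e.castSucc + a e.succ * w e.succ = 1 := by
  let v' : ℕ → ℝ := fun k => if h : k < n + 1 then v ⟨k, h⟩ else 1 / 2
  let a' : ℕ → ℝ := fun k => if h : k < n + 1 then (a ⟨k, h⟩ : ℝ) else 2
  have hv' : ∀ k, k ≤ j → 0 < v' k ∧ v' k < 1 := by
    intro k hk
    by_cases h : k < n + 1
    · simp only [v', dif_pos h]
      exact hv ⟨k, h⟩ hk
    · simp only [v', dif_neg h]
      norm_num
  have ha' : ∀ k, 2 ≤ a' k := by
    intro k
    by_cases h : k < n + 1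
    · simp only [a', dif_pos h]
      exact_mod_cast ha ⟨k, h⟩
    · simp only [a', dif_neg h]
      norm_num
  let W : ℕ → ℝ := fun k =>
    Nat.rec (v' 0) (fun k r => if k + 1 ≤ j then v' (k + 1) else (1 - r) / a' (k + 1)) k
  have hW0 : W 0 = v' 0 := rfl
  have hWs : ∀ k, W (k + 1) = if k + 1 ≤ j then v' (k + 1) else (1 - W k) / a' (k + 1) :=
    fun k => rfl
  have hWj : ∀ k, k ≤ j → W k = v' k := by
    intro k hk
    rcases k with _ | k
    · exact hW0
    · rw [hWs, if_pos hk]
  have hW : ∀ k, 0 < W k ∧ W k < 1 := by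
    intro k
    induction k with
    | zero => rw [hW0]; exact hv' 0 (Nat.zero_le _)
    | succ k ih =>
      by_cases h : k + 1 ≤ j
      · rw [hWj _ h]; exact hv' _ h
      · rw [hWs, if_neg h]
        have h2 := ha' (k + 1)
        refine ⟨div_pos (by linarith [ih.2]) (by linarith), ?_⟩
        rw [div_lt_one (by linarith)]
        linarith [ih.1]
  refine ⟨fun i => W i, fun i => hW i, fun i hi => ?_, fun e he => ?_⟩
  · show W i = v i
    rw [hWj i hi]
    simp only [v', dif_pos i.2]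
  · have h1 : W (e.succ : ℕ) = (1 - W e) / a' (e + 1) := by
      rw [Fin.val_succ, hWs, if_neg (by omega)]
    have h2 : a' (e + 1) = a e.succ := by
      simp only [a', dif_pos (Nat.succ_lt_succ e.2)]
      rfl
    show W e.castSucc + a e.succ * W e.succ = 1
    rw [h1, h2, Fin.val_castSucc]
    have h3 : (2 : ℝ) ≤ a e.succ := by exact_mod_cast ha e.succ
    field_simp
    ring

/-- weighted homogeneity of `mid` -/
theorem wh_mid {a : Fin (n + 1) → ℕ} (ha : ∀ i, 2 ≤ a i) {X : LD n} {e : Fin n} (hok : X.Ok a e)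
    {Y η H : ℂ → ℂ} {wy : ℝ} (hwy0 : 0 < wy) (hwy1 : wy < 1)
    (hY : ∀ (s : ℝ) y, Y ((Real.exp (s * wy) : ℂ) * y) = Real.exp s • Y y)
    (hη : ∀ (s : ℝ) x y, η ((Real.exp (s * (1 / X.D e.castSucc)) : ℂ) * x) *
      H ((Real.exp (s * wy) : ℂ) * y) = Real.exp s • (η x * H y)) :
    ∃ w : Fin (n + 1) → ℝ, (∀ i, 0 < w i) ∧ (∀ i : Fin (n + 1), (i : ℕ) ≤ e → w i = 1 / X.D i) ∧
      w e.succ = wy ∧ WH w (X.mid a e Y η H) := by
  obtain ⟨w, hw, hwj, hwt⟩ := exists_wt ha ((e : ℕ) + 1)
    (fun i => if (i : ℕ) ≤ e then 1 / X.D i else wy) (by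
      intro i hi
      by_cases h : (i : ℕ) ≤ e
      · simp only [if_pos h]
        have := hok.hD i h
        refine ⟨by positivity, ?_⟩
        rw [div_lt_one (by linarith)]
        linarith
      · simp only [if_neg h]
        exact ⟨hwy0, hwy1⟩)
  have h1 : ∀ i : Fin (n + 1), (i : ℕ) ≤ e → w i = 1 / X.D i := by
    intro i hi
    rw [hwj i (by omega), if_pos hi]
  have h2 : w e.succ = wy := by
    rw [hwj e.succ (by simp), if_neg (by simp)]
  refine ⟨w, fun i => (hw i).1, h1, h2, wh_gf ?_ ?_⟩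
  · intro i s z
    by_cases hi : (i : ℕ) ≤ e
    · simp only [if_pos hi]
      have := hok.hD i hi
      exact pc_wh (by rw [h1 i hi]; field_simp) _ _ s z
    · by_cases hi' : (i : ℕ) = e + 1
      · simp only [if_neg hi, if_pos hi']
        have : i = e.succ := Fin.ext (by simp [hi'])
        rw [this, h2]
        exact hY s z
      · simp only [if_neg hi, if_neg hi', Pi.zero_apply, smul_zero]
  · intro e' s x y
    rcases lt_trichotomy (e' : ℕ) e with he | he | he
    · simp only [if_pos he]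
      have hx : w e'.castSucc = 1 / X.D e'.castSucc := h1 _ (by simp; omega)
      have hy : w e'.succ = 1 / X.D e'.succ := h1 _ (by simp; omega)
      have hDx := hok.hD e'.castSucc (by simp; omega)
      have hDy := hok.hD e'.succ (by simp; omega)
      rw [LD.g, LD.g, LD.h, LD.h, pol_hom _ _ _ (Real.exp_pos _), pol_hom _ _ _ (Real.exp_pos _), hx,
        hy, ← Real.exp_mul, ← Real.exp_mul]
      have h3 : Real.exp (s * (1 / X.D e'.castSucc) * X.p e') *
          Real.exp (s * (1 / X.D e'.succ) * X.m e') = Real.exp s := by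
        rw [← Real.exp_add]
        congr 1
        have := hok.sum e' he
        calc _ = s * (X.p e' / X.D e'.castSucc + X.m e' / X.D e'.succ) := by ring
          _ = s := by rw [this, mul_one]
      rw [← h3]
      simp only [smul_eq_mul, Complex.real_smul]
      push_cast
      ring
    · have : e' = e := Fin.ext he
      subst this
      simp only [if_neg (lt_irrefl _), if_true]
      rw [h2, h1 e'.castSucc (by simp)]
      exact hη s x y
    · simp only [if_neg he.not_gt, if_neg he.ne']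
      have h3 := hwt e' he
      simp only [id]
      rw [mul_pow, ← Complex.ofReal_pow, ← Real.exp_nat_mul, Complex.real_smul]
      have h4 : Real.exp (s * w e'.castSucc) * Real.exp (a e'.succ * (s * w e'.succ)) =
          Real.exp s := by
        rw [← Real.exp_add]
        congr 1
        calc _ = s * (w e'.castSucc + a e'.succ * w e'.succ) := by ring
          _ = s := by rw [h3, mul_one]
      rw [← h4]
      push_cast
      ring

/-- weighted homogeneity of the states -/
theorem wh_st {a : Fin (n + 1) → ℕ} (ha : ∀ i, 2 ≤ a i) {X : LD n} {j : ℕ} (hok : X.Ok a j) :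
    ∃ w : Fin (n + 1) → ℝ, (∀ i, 0 < w i) ∧ (∀ i : Fin (n + 1), (i : ℕ) ≤ j → w i = 1 / X.D i) ∧
      WH w (X.st a j) := by
  obtain ⟨w, hw, hwj, hwt⟩ := exists_wt ha j (fun i => 1 / X.D i) (by
      intro i hi
      have := hok.hD i hi
      refine ⟨by positivity, ?_⟩
      rw [div_lt_one (by linarith)]
      linarith)
  refine ⟨w, fun i => (hw i).1, hwj, wh_gf ?_ ?_⟩
  · intro i s z
    by_cases hi : (i : ℕ) ≤ j
    · simp only [if_pos hi]
      have := hok.hD i hi
      exact pc_wh (by rw [hwj i hi]; field_simp) _ _ s z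
    · simp only [if_neg hi, Pi.zero_apply, smul_zero]
  · intro e' s x y
    by_cases he : (e' : ℕ) < j
    · simp only [if_pos he]
      have hx : w e'.castSucc = 1 / X.D e'.castSucc := hwj _ (by simp; omega)
      have hy : w e'.succ = 1 / X.D e'.succ := hwj _ (by simp; omega)
      rw [LD.g, LD.g, LD.h, LD.h, pol_hom _ _ _ (Real.exp_pos _), pol_hom _ _ _ (Real.exp_pos _), hx,
        hy, ← Real.exp_mul, ← Real.exp_mul]
      have h3 : Real.exp (s * (1 / X.D e'.castSucc) * X.p e') *
          Real.exp (s * (1 / X.D e'.succ) * X.m e') = Real.exp s := by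
        rw [← Real.exp_add]
        congr 1
        have := hok.sum e' he
        calc _ = s * (X.p e' / X.D e'.castSucc + X.m e' / X.D e'.succ) := by ring
          _ = s := by rw [this, mul_one]
      rw [← h3]
      simp only [smul_eq_mul, Complex.real_smul]
      push_cast
      ring
    · simp only [if_neg he]
      have h3 := hwt e' (not_lt.1 he)
      simp only [id]
      rw [mul_pow, ← Complex.ofReal_pow, ← Real.exp_nat_mul, Complex.real_smul]
      have h4 : Real.exp (s * w e'.castSucc) * Real.exp (a e'.succ * (s * w e'.succ)) =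
          Real.exp s := by
        rw [← Real.exp_add]
        congr 1
        calc _ = s * (w e'.castSucc + a e'.succ * w e'.succ) := by ring
          _ = s := by rw [h3, mul_one]
      rw [← h4]
      push_cast
      ring

/-! ### S2 -/

theorem pow_al {a : Fin (n + 1) → ℕ} {X : LD n} {e : Fin n} {P : ℝ} (hP : 1 ≤ P)
    (h : X.Al a e (a e.succ + 1) 1) : (X.pow e P).Al a e (a e.succ + 1) P := by
  have hP0 : (0 : ℝ) < P := by linarith
  have hok := h.ok
  have e1 : ∀ e' : Fin n, (e' : ℕ) < e → (X.pow e P).D e'.castSucc = X.D e'.castSucc := by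
    intro e' he
    show (if ((e'.castSucc : Fin (n + 1)) : ℕ) = e then P * X.D e'.castSucc else X.D e'.castSucc) = _
    rw [if_neg (by simp; omega)]
  have e2 : ∀ e' : Fin n, (e' : ℕ) < e →
      (X.pow e P).m e' / (X.pow e P).D e'.succ = X.m e' / X.D e'.succ := by
    intro e' he
    show (if (e' : ℕ) + 1 = e then P * X.m e' else X.m e') /
      (if ((e'.succ : Fin (n + 1)) : ℕ) = e then P * X.D e'.succ else X.D e'.succ) = _
    rw [Fin.val_succ]
    split_ifs
    · exact mul_div_mul_left _ _ hP0.ne'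
    · rfl
  refine ⟨⟨?_, hok.hep, hok.hph, hok.hc, hok.hp, ?_, ?_, ?_, hok.hlam, hok.hbet, hok.lam1, hok.bet1⟩,
    ?_, h.ph, h.ep⟩
  · intro i hi
    show 2 < (if (i : ℕ) = e then P * X.D i else X.D i)
    have := hok.hD i hi
    split_ifs
    · nlinarith
    · exact this
  · intro e' he
    show 2 < (if (e' : ℕ) + 1 = e then P * X.m e' else X.m e')
    have := hok.hm e' he
    split_ifs
    · nlinarith
    · exact this
  · intro e' he
    rw [e1 e' he, e2 e' he]
    exact hok.sum e' he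
  · intro e' he
    rw [e1 e' he, e2 e' he]
    exact hok.nc e' he
  · intro i hi
    show (if (i : ℕ) = e then P * X.D i else X.D i) = _
    rw [if_pos hi, h.deg i hi, mul_one, mul_comm]

theorem s2p {a : Fin (n + 1) → ℕ} (ha : Exps a) (e : Fin n) : S2P a e := by
  intro X P hP h
  have hP0 : (0 : ℝ) < P := by linarith
  have hPi : (0 : ℝ) < P⁻¹ := inv_pos.2 hP0
  have hal := pow_al hP h
  refine ⟨?_, hal⟩
  have hDe : (X.pow e P).D e.castSucc = ((a e.succ + 1 : ℕ) : ℝ) * P := hal.deg _ (by simp)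
  have ha2 : (2 : ℝ) ≤ a e.succ := by exact_mod_cast ha.two e.succ
  obtain ⟨w, hw, hwj, hwe, hWH⟩ := wh_mid (Y := fun y => y ^ (a e.succ + 1)) (η := pw P)
    (H := fun y => y ^ a e.succ) ha.two hal.ok (wy := 1 / ((a e.succ : ℝ) + 1)) (by positivity)
    (by rw [div_lt_one (by positivity)]; linarith)
    (by
      intro s y
      rw [mul_pow, ← Complex.ofReal_pow, ← Real.exp_nat_mul, Complex.real_smul]
      congr 3
      push_cast
      field_simp)
    (by
      intro s x y
      rw [hDe, pw_smul _ (Real.exp_pos _), mul_pow, ← Complex.ofReal_pow, ← Real.exp_nat_mul,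
        Complex.real_smul, ← Real.exp_mul]
      have h4 : Real.exp (s * (1 / (((a e.succ + 1 : ℕ) : ℝ) * P)) * P) *
          Real.exp ((a e.succ : ℝ) * (s * (1 / ((a e.succ : ℝ) + 1)))) = Real.exp s := by
        rw [← Real.exp_add]
        congr 1
        push_cast
        field_simp
        ring
      rw [← h4]
      push_cast
      ring)
  let F : Fin (n + 1) → (ℂ ≃ₜ ℂ) := fun i =>
    if (i : ℕ) = e then pwH P⁻¹ hPi else Homeomorph.refl ℂ
  let φ : (Fin (n + 1) → ℂ) ≃ₜ (Fin (n + 1) → ℂ) := Homeomorph.piCongrRight F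
  have hφ : ∀ z i, φ z i = if (i : ℕ) = e then pw P⁻¹ (z i) else z i := by
    intro z i
    show F i (z i) = _
    simp only [F]
    split_ifs
    · rfl
    · rfl
  refine seq_of_equiv (w := fun i => if (i : ℕ) = e then P * w i else w i) (w' := w) ?_ hw hWH φ
    ?_ ?_
  · intro i
    have := hw i
    show 0 < (if (i : ℕ) = e then P * w i else w i)
    split_ifs
    · positivity
    · exact this
  · intro s z
    funext i
    rw [hφ]
    show _ = (Real.exp (s * w i) : ℂ) * φ z i
    rw [hφ]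
    show (if (i : ℕ) = e then
      pw P⁻¹ ((Real.exp (s * (if (i : ℕ) = e then P * w i else w i)) : ℂ) * z i) else
      ((Real.exp (s * (if (i : ℕ) = e then P * w i else w i)) : ℂ) * z i)) = _
    split_ifs
    · rw [pw_smul _ (Real.exp_pos _), ← Real.exp_mul]
      congr 3
      field_simp
    · rfl
  · intro z
    unfold LD.mid GF
    congr 1
    · refine Finset.sum_congr rfl fun i _ => ?_
      rw [hφ]
      by_cases hi : (i : ℕ) ≤ e
      · simp only [if_pos hi]
        by_cases hie : (i : ℕ) = e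
        · rw [if_pos hie]
          show pc (X.D i) (X.ep i) (X.ph i) (z i) =
            pc (if (i : ℕ) = e then P * X.D i else X.D i) (X.ep i) (X.ph i) (pw P⁻¹ (z i))
          rw [if_pos hie, pc_pw hPi.ne', ← mul_assoc, inv_mul_cancel₀ hP0.ne', one_mul]
        · rw [if_neg hie]
          show pc (X.D i) (X.ep i) (X.ph i) (z i) =
            pc (if (i : ℕ) = e then P * X.D i else X.D i) (X.ep i) (X.ph i) (z i)
          rw [if_neg hie]
      · simp only [if_neg hi]
        rw [if_neg (show ¬ (i : ℕ) = e by omega)]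
    · refine Finset.sum_congr rfl fun e' _ => ?_
      rw [hφ, hφ]
      rcases lt_trichotomy (e' : ℕ) e with he | he | he
      · simp only [if_pos he, Fin.val_castSucc, if_neg he.ne, Fin.val_succ]
        have h1 : X.g e' (z e'.castSucc) = (X.pow e P).g e' (z e'.castSucc) := rfl
        rw [h1]
        congr 2
        show pol (X.m e') (fun x => X.bet e' (X.ph e'.succ x)) (z e'.succ) =
          pol (if (e' : ℕ) + 1 = e then P * X.m e' else X.m e')
            (fun x => X.bet e' (X.ph e'.succ x)) _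
        split_ifs
        · rw [pol_pw hPi.ne', ← mul_assoc, inv_mul_cancel₀ hP0.ne', one_mul]
        · rfl
      · simp only [if_neg (show ¬ (e' : ℕ) < e by omega), Fin.val_castSucc, if_pos he, Fin.val_succ]
        rw [if_neg (show ¬ (e' : ℕ) + 1 = e by omega), pw_pw hPi.ne', mul_inv_cancel₀ hP0.ne',
          pw_one]
        rfl
      · simp only [if_neg he.not_gt, if_neg he.ne', Fin.val_castSucc, Fin.val_succ]
        rw [if_neg (show ¬ (e' : ℕ) + 1 = e by omega)]

/-! ### the chain polynomial as a sum -/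

theorem hd_eq (l : List ℕ) (z : Fin l.length → ℂ) :
    hd l z = if h : 0 < l.length then z ⟨0, h⟩ else 1 := by
  rcases l with _ | ⟨b, l⟩
  · simp [hd]
  · rw [dif_pos (by simp)]
    rfl

theorem chainFun_eq (c : List ℕ) (z : Fin c.length → ℂ) :
    chainFun c z = ∑ i : Fin c.length, z i ^ c.get i *
      (if h : (i : ℕ) + 1 < c.length then z ⟨(i : ℕ) + 1, h⟩ else 1) := by
  induction c with
  | nil => simp [chainFun]
  | cons b l ih =>
    have h1 : chainFun (b :: l) z = z 0 ^ b * hd l (fun i => z i.succ) +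
      chainFun l (fun i => z i.succ) := rfl
    rw [h1, ih, hd_eq]
    have h2 := Fin.sum_univ_succ (n := l.length) (fun i : Fin (l.length + 1) =>
      z i ^ (b :: l).get i * (if h : (i : ℕ) + 1 < (b :: l).length then z ⟨(i : ℕ) + 1, h⟩ else 1))
    refine Eq.trans ?_ h2.symm
    congr 1
    · congr 1
      by_cases h : 0 < l.length
      · rw [dif_pos h, dif_pos (by simpa using h)]
        rfl
      · rw [dif_neg h, dif_neg (by simpa using h)]
    · refine Finset.sum_congr rfl fun i _ => ?_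
      congr 1
      by_cases h : (i : ℕ) + 1 < l.length
      · rw [dif_pos h, dif_pos (by simpa using h)]
        rfl
      · rw [dif_neg h, dif_neg (by simpa using h)]

theorem chainFun_ofFn (b : Fin (n + 1) → ℕ) (z : Fin (List.ofFn b).length → ℂ) :
    chainFun (List.ofFn b) z =
      ∑ e : Fin n, z (Fin.cast (List.length_ofFn (f := b)).symm e.castSucc) ^ b e.castSucc *
        z (Fin.cast (List.length_ofFn (f := b)).symm e.succ) +
      z (Fin.cast (List.length_ofFn (f := b)).symm (Fin.last n)) ^ b (Fin.last n) := by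
  have hl : (List.ofFn b).length = n + 1 := List.length_ofFn
  rw [chainFun_eq]
  have h1 := Equiv.sum_comp (finCongr hl.symm) (fun i : Fin (List.ofFn b).length =>
    z i ^ (List.ofFn b).get i *
      (if h : (i : ℕ) + 1 < (List.ofFn b).length then z ⟨(i : ℕ) + 1, h⟩ else 1))
  rw [← h1, Fin.sum_univ_castSucc]
  congr 1
  · refine Finset.sum_congr rfl fun e _ => ?_
    rw [List.get_ofFn]
    rw [dif_pos (by simp)]
    rfl
  · rw [List.get_ofFn]
    rw [dif_neg (by simp), mul_one]
    rfl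

theorem chainFun_rev (a : Fin (n + 1) → ℕ)
    (z : Fin (List.ofFn fun i : Fin (n + 1) => a i.rev).length → ℂ) :
    chainFun (List.ofFn fun i : Fin (n + 1) => a i.rev) z =
      ∑ e : Fin n, z (Fin.cast (List.length_ofFn (f := fun i : Fin (n + 1) => a i.rev)).symm
          e.castSucc.rev) *
        z (Fin.cast (List.length_ofFn (f := fun i : Fin (n + 1) => a i.rev)).symm
          e.succ.rev) ^ a e.succ +
      z (Fin.cast (List.length_ofFn (f := fun i : Fin (n + 1) => a i.rev)).symm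
        (Fin.rev 0)) ^ a 0 := by
  rw [chainFun_ofFn]
  congr 1
  · rw [← Equiv.sum_comp Fin.revPerm]
    refine Finset.sum_congr rfl fun e _ => ?_
    simp only [Fin.revPerm_apply, Fin.rev_castSucc, Fin.rev_succ, Fin.rev_rev]
    rw [mul_comm]
  · simp

/-! ### the base -/

theorem exists_rot {a : Fin (n + 1) → ℕ} (ha : ∀ i, 2 ≤ a i) :
    ∃ u : Fin (n + 1) → ℂ, u 0 = 1 ∧ (∀ i, u i ≠ 0) ∧
      ∀ e : Fin n, u e.castSucc * u e.succ ^ a e.succ = -1 := by
  let a' : ℕ → ℕ := fun k => if h : k < n + 1 then a ⟨k, h⟩ else 2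
  have ha' : ∀ k, 0 < a' k := by
    intro k
    by_cases h : k < n + 1
    · simp only [a', dif_pos h]
      have := ha ⟨k, h⟩
      omega
    · simp only [a', dif_neg h]
      norm_num
  have h0 : ∀ (k : ℕ) (r : ℂ), ∃ s : ℂ, s ^ a' (k + 1) = -r⁻¹ :=
    fun k r => IsAlgClosed.exists_pow_nat_eq _ (ha' _)
  choose S hS using h0
  let U : ℕ → ℂ := fun k => Nat.rec 1 (fun k r => S k r) k
  have hU0 : U 0 = 1 := rfl
  have hUs : ∀ k, U (k + 1) ^ a' (k + 1) = -(U k)⁻¹ := fun k => hS k (U k)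
  have hU : ∀ k, U k ≠ 0 := by
    intro k
    induction k with
    | zero => rw [hU0]; exact one_ne_zero
    | succ k ih =>
      intro h
      have h1 := hUs k
      rw [h, zero_pow (ha' _).ne'] at h1
      exact ih (inv_eq_zero.1 (neg_eq_zero.1 h1.symm))
  refine ⟨fun i => U i, hU0, fun i => hU i, fun e => ?_⟩
  have h2 : a' (e + 1) = a e.succ := by
    simp only [a', dif_pos (Nat.succ_lt_succ e.2)]
    rfl
  show U e.castSucc * U e.succ ^ a e.succ = -1
  rw [Fin.val_castSucc, Fin.val_succ, ← h2, hUs, mul_neg, mul_inv_cancel₀ (hU _)]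

theorem pow_eq_pc (d : ℕ) (z : ℂ) : z ^ d = pc d 1 (fun x => d * x) z := by
  unfold pc pol cis
  conv_lhs => rw [← Complex.norm_mul_exp_arg_mul_I z]
  rw [mul_pow, ← Complex.exp_nat_mul, Real.rpow_natCast, Complex.real_smul]
  push_cast
  rw [one_mul, ← mul_assoc]

theorem pha_lin {d : ℕ} (hd : 0 < d) : Pha d (fun x => (d : ℝ) * x) where
  smooth := by fun_prop
  deg x := by ring
  pos x := by
    have h1 : deriv (fun x : ℝ => (d : ℝ) * x) x = d := by simp
    rw [h1]
    exact_mod_cast hd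

/-- the data of the base -/
def X0 (a : Fin (n + 1) → ℕ) (P : ℝ) : LD n where
  D _ := P * a 0
  ep _ := 1
  ph _ := fun x => (a 0 : ℝ) * x
  c _ := 1
  p _ := 1
  m _ := 1
  lam _ _ := 0
  bet _ _ := 0

theorem x0_ok {a : Fin (n + 1) → ℕ} {P : ℝ} (ha : 2 ≤ a 0) (hP : 2 < P * a 0) :
    (X0 a P).Ok a 0 where
  hD _ _ := hP
  hep _ _ := one_pos
  hph i hi := by
    have : i = 0 := Fin.ext (by simpa using hi)
    subst this
    have h1 : LobeDefs_407.dg a (0 : Fin (n + 1)) = a 0 := if_pos rfl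
    rw [h1]
    exact pha_lin (by omega)
  hc e he := absurd he (Nat.not_lt_zero _)
  hp e he := absurd he (Nat.not_lt_zero _)
  hm e he := absurd he (Nat.not_lt_zero _)
  sum e he := absurd he (Nat.not_lt_zero _)
  nc e he := absurd he (Nat.not_lt_zero _)
  hlam e he := absurd he (Nat.not_lt_zero _)
  hbet e he := absurd he (Nat.not_lt_zero _)
  lam1 e he := absurd he (Nat.not_lt_zero _)
  bet1 e he := absurd he (Nat.not_lt_zero _)

/-- reindexing as a homeomorphism -/
def reH {ι ι' : Type*} (σ : ι' ≃ ι) : (ι → ℂ) ≃ₜ (ι' → ℂ) where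
  toFun z i := z (σ i)
  invFun w i := w (σ.symm i)
  left_inv z := by funext i; simp
  right_inv w := by funext i; simp
  continuous_toFun := by fun_prop
  continuous_invFun := by fun_prop

theorem base_aux {a : Fin (n + 1) → ℕ} (ha : ∀ i, 2 ≤ a i) {P : ℝ} (hP : 0 < P)
    (hP1 : P = 1 ∨ n = 0) (hPa : 2 < P * a 0) :
    SEq (chainFun (List.ofFn fun i : Fin (n + 1) => a i.rev)) ((X0 a P).st a 0) := by
  have hok := x0_ok (ha 0) hPa
  have hPi : (0 : ℝ) < P⁻¹ := inv_pos.2 hP
  obtain ⟨w, hw, -, hWH⟩ := wh_st ha hok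
  obtain ⟨u, hu0, hu, hue⟩ := exists_rot ha
  have hl : (List.ofFn fun i : Fin (n + 1) => a i.rev).length = n + 1 := List.length_ofFn
  let σ : Fin (n + 1) ≃ Fin (List.ofFn fun i : Fin (n + 1) => a i.rev).length :=
    Fin.revPerm.trans (finCongr hl.symm)
  have hσ : ∀ i, σ i = Fin.cast hl.symm i.rev := fun i => rfl
  let F : Fin (n + 1) → (ℂ ≃ₜ ℂ) := fun i =>
    if i = 0 then pwH P⁻¹ hPi else Homeomorph.mulLeft₀ (u i)⁻¹ (inv_ne_zero (hu i))
  let φ : (Fin (List.ofFn fun i : Fin (n + 1) => a i.rev).length → ℂ) ≃ₜ (Fin (n + 1) → ℂ) :=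
    (reH σ).trans (Homeomorph.piCongrRight F)
  have hφ : ∀ z i, φ z i = if i = 0 then pw P⁻¹ (z (σ i)) else (u i)⁻¹ * z (σ i) := by
    intro z i
    show F i (z (σ i)) = _
    simp only [F]
    split_ifs
    · rfl
    · rfl
  refine seq_of_equiv (w := fun k => if σ.symm k = 0 then P * w (σ.symm k) else w (σ.symm k))
    (w' := w) ?_ hw hWH φ ?_ ?_
  · intro k
    have := hw (σ.symm k)
    show 0 < (if σ.symm k = 0 then P * w (σ.symm k) else w (σ.symm k))
    split_ifs
    · positivity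
    · exact this
  · intro s z
    funext i
    rw [hφ]
    show _ = (Real.exp (s * w i) : ℂ) * φ z i
    rw [hφ]
    show (if i = 0 then
      pw P⁻¹ ((Real.exp (s * (if σ.symm (σ i) = 0 then P * w (σ.symm (σ i)) else
        w (σ.symm (σ i)))) : ℂ) * z (σ i)) else
      (u i)⁻¹ * ((Real.exp (s * (if σ.symm (σ i) = 0 then P * w (σ.symm (σ i)) else
        w (σ.symm (σ i)))) : ℂ) * z (σ i))) = _
    rw [Equiv.symm_apply_apply]
    split_ifs
    · rw [pw_smul _ (Real.exp_pos _), ← Real.exp_mul]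
      congr 3
      field_simp
    · ring
  · intro z
    rw [chainFun_rev]
    have h0 : (X0 a P).st a 0 (φ z) = pc (P * a 0) 1 (fun x => (a 0 : ℝ) * x) (φ z 0) -
        ∑ e : Fin n, φ z e.castSucc * φ z e.succ ^ a e.succ := by
      unfold LD.st GF
      congr 1
      rw [Fin.sum_univ_succ, Finset.sum_eq_zero, add_zero]
      · simp only [Fin.val_zero, le_refl]
        rfl
      · intro i _
        simp
    rw [h0, hφ, if_pos rfl, pc_pw hPi.ne', ← mul_assoc, inv_mul_cancel₀ hP.ne', one_mul,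
      ← pow_eq_pc, add_comm, sub_eq_add_neg]
    congr 1
    rw [← Finset.sum_neg_distrib]
    refine Finset.sum_congr rfl fun e _ => ?_
    have hP' : P = 1 := by
      rcases hP1 with h | h
      · exact h
      · subst h; exact e.elim0
    have h1 : ∀ i, φ z i = (u i)⁻¹ * z (σ i) := by
      intro i
      rw [hφ]
      split_ifs with h
      · rw [h, hu0, hP', inv_one, pw_one, inv_one, one_mul]
      · rfl
    rw [h1, h1, mul_pow]
    have h2 : (u e.castSucc)⁻¹ * (u e.succ)⁻¹ ^ a e.succ = -1 := by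
      rw [inv_pow, ← mul_inv, hue e]
      norm_num
    calc z (σ e.castSucc) * z (σ e.succ) ^ a e.succ =
        -(-1 * (z (σ e.castSucc) * z (σ e.succ) ^ a e.succ)) := by ring
      _ = _ := by rw [← h2]; ring

theorem base {a : Fin (n + 1) → ℕ} (ha : Exps a) : BaseP a := by
  have h0 : (2 : ℝ) ≤ a 0 := by exact_mod_cast ha.two 0
  rcases Nat.eq_zero_or_pos n with hn | hn
  · refine ⟨X0 a 2, x0_ok (ha.two 0) (by linarith), ?_⟩
    exact base_aux ha.two two_pos (Or.inr hn) (by linarith)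
  · have h1 : a ⟨1, by omega⟩ < a 0 := ha.anti (by
      rw [Fin.lt_def]; simp)
    have h2 := ha.two ⟨1, by omega⟩
    have h3 : (3 : ℝ) ≤ a 0 := by exact_mod_cast (by omega : 3 ≤ a 0)
    refine ⟨X0 a 1, x0_ok (ha.two 0) (by linarith), ?_⟩
    exact base_aux ha.two one_pos (Or.inl rfl) (by linarith)

end Crest.Agent.R267.S2_843
end
end

-- ▼ part R267/S3_82

/-!
# Row 267 (helper82): step S3 of T3b (`S3P`)

One straight line `HPath.line` from `η = x |x|^(P-1)` to `η = |x|^P l(ξ)`.
`η_t = |x|^P w_t(ξ)`, `w_t = (1-t) e^{iξ} + t l(ξ)`; by the binomial formula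
`Re (w_t ^ d) = ∑ C(d,k) (1-t)^k (t l)^(d-k) cos (k ξ)`.
-/

set_option autoImplicit false

noncomputable section

open Set Finset
open Crest.Agent.R267.LemL_951 hiding dg
open Crest.Agent.R267.Ang_739 Crest.Agent.R267.Hm_951
open Crest.Agent.R267.Sys_808 Crest.Agent.R267.LobeDefs_407

namespace Crest.Agent.R267.S3_82

/-! ### trigonometry -/

theorem cis_re (x : ℝ) : (cis x).re = Real.cos x := by
  unfold cis
  rw [Complex.exp_ofReal_mul_I_re]

theorem cis_im (x : ℝ) : (cis x).im = Real.sin x := by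
  unfold cis
  rw [Complex.exp_ofReal_mul_I_im]

theorem cis_pow (x : ℝ) (k : ℕ) : cis x ^ k = cis (k * x) := by
  unfold cis
  rw [← Complex.exp_nat_mul]
  congr 1
  push_cast
  ring

theorem cis_add_pi (x : ℝ) : cis (x + Real.pi) = - cis x := by
  refine Complex.ext ?_ ?_
  · rw [cis_re, Complex.neg_re, cis_re, Real.cos_add_pi]
  · rw [cis_im, Complex.neg_im, cis_im, Real.sin_add_pi]

theorem cis_ne (x : ℝ) : cis x ≠ 0 := Complex.exp_ne_zero _

/-- real part of a power of `s e^{iξ} + l` -/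
theorem re_pow_bin (s l ξ : ℝ) (d : ℕ) :
    (((s : ℂ) * cis ξ + (l : ℂ)) ^ d).re =
      ∑ k ∈ range (d + 1), s ^ k * l ^ (d - k) * (d.choose k) * Real.cos (k * ξ) := by
  rw [add_pow, Complex.re_sum]
  refine sum_congr rfl fun k _ => ?_
  rw [mul_pow, cis_pow]
  have : (s : ℂ) ^ k * cis (k * ξ) * (l : ℂ) ^ (d - k) * ((d.choose k : ℕ) : ℂ) =
      ((s ^ k * l ^ (d - k) * (d.choose k) : ℝ) : ℂ) * cis (k * ξ) := by
    push_cast
    ring
  rw [this, Complex.re_ofReal_mul, cis_re]

theorem re_pow_ge {s l ξ c : ℝ} {d : ℕ} (hs : 0 ≤ s) (hl : 0 ≤ l)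
    (h : ∀ k : ℕ, k ≤ d → c ≤ Real.cos (k * ξ)) :
    c * (s + l) ^ d ≤ (((s : ℂ) * cis ξ + (l : ℂ)) ^ d).re := by
  rw [re_pow_bin, add_pow, mul_sum]
  refine sum_le_sum fun k hk => ?_
  rw [mul_comm c]
  exact mul_le_mul_of_nonneg_left (h k (Nat.lt_succ_iff.1 (mem_range.1 hk))) (by positivity)

theorem cos_mul_ge {ξ b : ℝ} {d k : ℕ} (hk : k ≤ d) (h : d * |ξ| ≤ b) (hb : b ≤ Real.pi) :
    Real.cos b ≤ Real.cos (k * ξ) := by
  have h1 : (k : ℝ) * |ξ| ≤ b :=
    le_trans (mul_le_mul_of_nonneg_right (by exact_mod_cast hk) (abs_nonneg _)) h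
  have h2 : Real.cos (k * ξ) = Real.cos (k * |ξ|) := by
    rcases abs_choice ξ with h | h <;> rw [h]
    rw [mul_neg, Real.cos_neg]
  rw [h2]
  exact Real.cos_le_cos_of_nonneg_of_le_pi (by positivity) hb h1

/-! ### polar functions of degree `> 2` are `C^2` -/

theorem contDiff_pol {F : Type*} [NormedAddCommGroup F] [NormedSpace ℝ F] {D : ℝ} (hD : 2 < D)
    {q : ℝ → F} (hper : Per q) (hq : ContDiff ℝ 2 q) : ContDiff ℝ 2 (pol D q) := by
  have h1 : ContDiffOn ℝ 2 (fun p : ℝ × ℂ => q (Complex.arg p.2)) (univ ×ˢ {0}ᶜ) :=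
    contDiffOn_ang2 (q := fun p : ℝ × ℝ => q p.2) (fun _ => hper) isOpen_univ
      (hq.comp contDiff_snd).contDiffOn
  have h2 := contDiffOn_rpow_smul (D := fun _ => D) (q := fun p : ℝ × ℂ => q (Complex.arg p.2))
    isOpen_univ contDiffOn_const (fun _ _ => hD) h1
    (fun t _ r hr z => by
      show q (Complex.arg ((r : ℂ) * z)) = q (Complex.arg z)
      rw [Complex.arg_real_mul _ hr])
  rw [univ_prod_univ, contDiffOn_univ] at h2
  exact h2.comp (f := fun z : ℂ => ((0 : ℝ), z)) (contDiff_const.prodMk contDiff_id)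

theorem per_deriv {F : Type*} [NormedAddCommGroup F] [NormedSpace ℝ F] {q : ℝ → F}
    (hper : Per q) : Per (deriv q) := fun x => by
  have h1 : (fun x => q (x + 2 * Real.pi)) = q := funext hper
  conv_rhs => rw [← h1]
  rw [deriv_comp_add_const]

/-! ### level functions -/

theorem exists_level {θ : ℝ} (h : 0 ≤ Real.cos θ) :
    ∃ N : ℤ, |θ - 2 * Real.pi * N| ≤ Real.pi / 2 := by
  have hpi := Real.pi_pos
  refine ⟨round (θ / (2 * Real.pi)), ?_⟩
  set N := round (θ / (2 * Real.pi)) with hN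
  have h1 : |θ / (2 * Real.pi) - N| ≤ 1 / 2 := abs_sub_round _
  have h2 : |θ - 2 * Real.pi * N| ≤ Real.pi := by
    have : θ - 2 * Real.pi * N = 2 * Real.pi * (θ / (2 * Real.pi) - N) := by
      field_simp
    rw [this, abs_mul, abs_of_pos (by positivity)]
    nlinarith
  by_contra hlt
  push Not at hlt
  have h3 : Real.cos |θ - 2 * Real.pi * N| < 0 :=
    Real.cos_neg_of_pi_div_two_lt_of_lt hlt (by linarith)
  rw [Real.cos_abs] at h3
  have h4 : Real.cos (θ - 2 * Real.pi * N) = Real.cos θ := by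
    rw [show θ - 2 * Real.pi * N = θ - N * (2 * Real.pi) by ring, Real.cos_sub_int_mul_two_pi]
  rw [h4] at h3
  linarith

theorem per_int {b : ℝ → ℝ} {δ : ℕ} (hper : ∀ x, b (x + 2 * Real.pi * δ) = b x) (m : ℤ) (x : ℝ) :
    b (x + 2 * Real.pi * δ * m) = b x := by
  have h : Function.Periodic b (2 * Real.pi * δ) := hper
  have := (h.int_mul m) x
  rw [← this]
  congr 1
  ring

theorem lev01 {b : ℝ → ℝ} {δ : ℕ} (hδ : 0 < δ) (hper : ∀ x, b (x + 2 * Real.pi * δ) = b x)
    {c : ℕ → ℝ} (h1 : ∀ k < δ, ∀ x : ℝ, |x - 2 * Real.pi * (k + 1)| ≤ Real.pi / 2 → b x = c k)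
    {θ : ℝ} (h : 0 ≤ Real.cos θ) : ∃ k < δ, b θ = c k := by
  obtain ⟨N, hN⟩ := exists_level h
  have hδ' : (0 : ℤ) < δ := by exact_mod_cast hδ
  set r : ℤ := (N - 1) % δ with hr
  have hr0 : 0 ≤ r := Int.emod_nonneg _ hδ'.ne'
  have hr1 : r < δ := Int.emod_lt_of_pos _ hδ'
  have hdec : N - 1 = δ * ((N - 1) / δ) + r := (Int.mul_ediv_add_emod (N - 1) δ).symm
  obtain ⟨k, hk⟩ := Int.eq_ofNat_of_zero_le hr0
  set m : ℤ := (N - 1) / δ with hm
  refine ⟨k, by rw [hk] at hr1; exact_mod_cast hr1, ?_⟩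
  have h2 : b θ = b (θ - 2 * Real.pi * δ * m) := by
    have := per_int hper m (θ - 2 * Real.pi * δ * m)
    rw [← this]
    congr 1
    ring
  rw [h2]
  refine h1 k (by rw [hk] at hr1; exact_mod_cast hr1) _ ?_
  have h3 : (N : ℝ) = δ * m + k + 1 := by
    have : (N : ℤ) = δ * m + k + 1 := by linarith
    exact_mod_cast this
  have h4 : θ - 2 * Real.pi * δ * m - 2 * Real.pi * (k + 1) = θ - 2 * Real.pi * N := by
    rw [h3]; ring
  rw [h4]
  exact hN

/-- outside of `|ξ| < π / 3d` the levels are the lobes `k < d`. -/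
theorem lev_out {b : ℝ → ℝ} {δ d : ℕ} (hd : d ≤ δ) (hd0 : 0 < d) {c : ℕ → ℝ}
    (h1 : ∀ k < δ, ∀ x : ℝ, |x - 2 * Real.pi * (k + 1)| ≤ Real.pi / 2 → b x = c k)
    {x : ℝ} (hx0 : Real.pi / (3 * d) ≤ x) (hx1 : x ≤ 2 * Real.pi - Real.pi / (3 * d))
    (h : 0 ≤ Real.cos (d * x + Real.pi)) : ∃ k < d, b (d * x + Real.pi) = c k := by
  have hpi := Real.pi_pos
  have hdr : (0 : ℝ) < d := by exact_mod_cast hd0
  obtain ⟨N, hN⟩ := exists_level h
  have h2 := abs_le.1 hN
  have e1 : (d : ℝ) * (Real.pi / (3 * d)) = Real.pi / 3 := by field_simp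
  have h3 : Real.pi / 3 ≤ d * x := by rw [← e1]; exact mul_le_mul_of_nonneg_left hx0 hdr.le
  have h4 : d * x ≤ d * (2 * Real.pi) - Real.pi / 3 := by
    rw [← e1, ← mul_sub]; exact mul_le_mul_of_nonneg_left hx1 hdr.le
  have hN1 : 0 < N := by
    have : (0 : ℝ) < N := by
      by_contra hle
      push Not at hle
      have : 2 * Real.pi * N ≤ 0 := by nlinarith
      linarith
    exact_mod_cast this
  have hN2 : N < d + 1 := by
    have : (N : ℝ) < d + 1 := by
      by_contra hle
      push Not at hle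
      have : 2 * Real.pi * (d + 1) ≤ 2 * Real.pi * N := mul_le_mul_of_nonneg_left hle (by positivity)
      nlinarith
    exact_mod_cast this
  obtain ⟨k, hk⟩ := Int.eq_ofNat_of_zero_le (show 0 ≤ N - 1 by omega)
  have hkd : k < d := by omega
  refine ⟨k, hkd, h1 k (lt_of_lt_of_le hkd hd) _ ?_⟩
  have h5 : ((k : ℝ) + 1) = N := by
    have : (N : ℤ) = k + 1 := by omega
    exact_mod_cast this.symm
  rw [h5]
  exact hN

/-! ### the pieces of a lobe datum -/

section Ok

variable {n : ℕ} {a : Fin (n + 1) → ℕ}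

theorem dg_pos (ha : Exps a) (i : Fin (n + 1)) : 0 < dg a i := by
  unfold dg
  split_ifs with h
  · have := ha.two i; omega
  · omega

theorem bet_per {X : LD n} {j : ℕ} (hX : X.Ok a j) {e : Fin n} (he : (e : ℕ) < j) :
    Per fun x => X.bet e (X.ph e.succ x) := fun x => by
  have hs : ((e.succ : Fin (n + 1)) : ℕ) ≤ j := by rw [Fin.val_succ]; exact he
  show X.bet e (X.ph e.succ (x + 2 * Real.pi)) = X.bet e (X.ph e.succ x)
  rw [(hX.hph e.succ hs).deg x, (hX.hbet e he).per]

theorem lam_per {X : LD n} {j : ℕ} (hX : X.Ok a j) {e : Fin n} (he : (e : ℕ) < j) :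
    Per fun x => X.lam e (X.ph e.castSucc x) := fun x => by
  have hs : ((e.castSucc : Fin (n + 1)) : ℕ) ≤ j := by rw [Fin.val_castSucc]; exact he.le
  show X.lam e (X.ph e.castSucc (x + 2 * Real.pi)) = X.lam e (X.ph e.castSucc x)
  rw [(hX.hph e.castSucc hs).deg x, (hX.hlam e he).per]

/-- the factor `h` does not change along the circle where `cos ≥ 0` -/
theorem fderiv_h_I {X : LD n} {j : ℕ} (hX : X.Ok a j) {e : Fin n} (he : (e : ℕ) < j) {x : ℂ}
    (hx : x ≠ 0) (hc : 0 ≤ Real.cos (X.ph e.succ (Complex.arg x))) :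
    fderiv ℝ (X.h e) x (Complex.I * x) = 0 := by
  have hs : ((e.succ : Fin (n + 1)) : ℕ) ≤ j := by rw [Fin.val_succ]; exact he
  have h1 : HasDerivAt (X.ph e.succ) (deriv (X.ph e.succ) (Complex.arg x)) (Complex.arg x) :=
    ((hX.hph e.succ hs).smooth.differentiable (by norm_num) _).hasDerivAt
  have h2 : HasDerivAt (X.bet e) (deriv (X.bet e) (X.ph e.succ (Complex.arg x)))
      (X.ph e.succ (Complex.arg x)) :=
    ((hX.hbet e he).smooth.differentiable (by norm_num) _).hasDerivAt
  rw [(hX.hbet e he).flat _ hc] at h2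
  have h3 := h2.comp (Complex.arg x) h1
  rw [zero_mul] at h3
  have h4 := fderiv_pol_I (X.m e) (bet_per hX he) hx h3
  rw [smul_zero] at h4
  exact h4

theorem contDiff_Q {X : LD n} {j : ℕ} (hX : X.Ok a j) {i : Fin (n + 1)} (hi : (i : ℕ) ≤ j) :
    ContDiff ℝ 2 (X.Q i) := by
  refine contDiff_pol (hX.hD i hi) ((hX.hph i hi).deg.per _) ?_
  exact contDiff_const.mul (contDiff_cis.comp (hX.hph i hi).smooth)

theorem contDiff_h {X : LD n} {j : ℕ} (hX : X.Ok a j) {e : Fin n} (he : (e : ℕ) < j) :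
    ContDiff ℝ 2 (X.h e) := by
  have hs : ((e.succ : Fin (n + 1)) : ℕ) ≤ j := by rw [Fin.val_succ]; exact he
  exact contDiff_pol (hX.hm e he) (bet_per hX he)
    ((hX.hbet e he).smooth.comp (hX.hph e.succ hs).smooth)

theorem contDiff_g {X : LD n} {j : ℕ} (hX : X.Ok a j) {e : Fin n} (he : (e : ℕ) < j) :
    ContDiff ℝ 2 (X.g e) := by
  have hs : ((e.castSucc : Fin (n + 1)) : ℕ) ≤ j := by rw [Fin.val_castSucc]; exact he.le
  exact contDiff_const.mul (contDiff_pol (hX.hp e he) (lam_per hX he)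
    ((hX.hlam e he).smooth.comp (hX.hph e.castSucc hs).smooth))

theorem Q_re {X : LD n} (i : Fin (n + 1)) (x : ℂ) :
    (X.Q i x).re = ‖x‖ ^ X.D i * (X.ep i * Real.cos (X.ph i (Complex.arg x))) := by
  unfold LD.Q pc pol
  rw [Complex.real_smul, Complex.re_ofReal_mul, Complex.re_ofReal_mul, cis_re]

/-- **`A` is regular** -/
theorem trReg_Q (ha : Exps a) {j : Fin (n + 1)} (hT : TrP a j) {X : LD n} (hX : X.Ok a j) :
    X.TrReg j (X.Q j) := by
  have hjj : (j : ℕ) ≤ j := le_rfl
  have hep := hX.hep j hjj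
  refine hT X (X.Q j) hX (fun r hr z => pc_hom _ _ _ r hr z)
    (fun x => (contDiff_Q hX hjj).differentiable (by norm_num) x) (fun x hx => ?_)
    fun e he x hx hh hre him => ?_
  · refine ⟨pc_ne hep _ hx, ?_⟩
    by_cases hneg : (X.Q j x).re < 0
    · exact Or.inl hneg
    right
    have hn : 0 < ‖x‖ ^ X.D j := Real.rpow_pos_of_pos (norm_pos_iff.2 hx) _
    have hcos : 0 ≤ Real.cos (X.ph j (Complex.arg x)) := by
      rw [Q_re] at hneg
      by_contra hlt
      push Not at hlt
      exact hneg (mul_neg_of_pos_of_neg hn (mul_neg_of_pos_of_neg hep hlt))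
    refine ⟨Complex.I * x, fun e he => ?_, ?_⟩
    · subst he
      exact fderiv_h_I hX (by rw [Fin.val_succ]; exact Nat.lt_succ_self _) hx hcos
    · have h1 : HasDerivAt (X.ph j) (deriv (X.ph j) (Complex.arg x)) (Complex.arg x) :=
        ((hX.hph j hjj).smooth.differentiable (by norm_num) _).hasDerivAt
      have h2 := fderiv_pc_I (D := X.D j) (eps := X.ep j) (hX.hph j hjj).deg hx h1
      unfold LD.Q
      rw [h2]
      exact good2_of_rot ((hX.hph j hjj).pos _).ne'
  · subst he
    have he : (e : ℕ) < (e.succ : Fin (n + 1)) := by rw [Fin.val_succ]; exact Nat.lt_succ_self _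
    have hn : 0 < ‖x‖ ^ X.D e.succ := Real.rpow_pos_of_pos (norm_pos_iff.2 hx) _
    have hcos : 0 ≤ Real.cos (X.ph e.succ (Complex.arg x)) := by
      rw [Q_re] at hre
      by_contra hlt
      push Not at hlt
      have := mul_neg_of_pos_of_neg hn (mul_neg_of_pos_of_neg hep hlt)
      linarith
    refine ⟨?_, ?_⟩
    · obtain ⟨k, hk, hb⟩ := lev01 (dg_pos ha e.succ) (hX.hbet e he).per
        (c := fun k => if k + 1 = dg a e.succ then 1 else 0) (hX.bet1 e he) hcos
      have e1 : X.h e x = ‖x‖ ^ X.m e * (if k + 1 = dg a e.succ then 1 else 0) := by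
        rw [← hb]; rfl
      split_ifs at e1 with h
      · rw [e1, mul_one]
      · rw [e1, mul_zero] at hh
        exact absurd hh (lt_irrefl _)
    · exact (norm_pc hep.le _ _).le

end Ok

/-! ### the function `V` of the REDUCTION -/

/-- the angular part of `η_t` -/
def wt (t : ℝ) (l : ℝ → ℝ) (x : ℝ) : ℂ := ((1 - t : ℝ) : ℂ) * cis x + ((t * l x : ℝ) : ℂ)

theorem wt_per {l : ℝ → ℝ} (hl : Per l) (t : ℝ) : Per (wt t l) := fun x => by
  unfold wt
  rw [hl x]
  have := cis_per_nat x 1
  rw [Nat.cast_one, mul_one] at this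
  rw [this]

theorem wt_smooth {l : ℝ → ℝ} (hl : ContDiff ℝ 2 l) (t : ℝ) : ContDiff ℝ 2 (wt t l) := by
  refine (contDiff_const.mul contDiff_cis).add ?_
  exact Complex.ofRealCLM.contDiff.comp (contDiff_const.mul hl)

/-- the angular part of `V` -/
def vt (ε K : ℝ) (φ : ℝ → ℝ) (d : ℕ) (t : ℝ) (l : ℝ → ℝ) (x : ℝ) : ℂ :=
  (ε : ℂ) * cis (φ x) - (K : ℂ) * wt t l x ^ d

theorem V_eq {ε K D P : ℝ} {φ : ℝ → ℝ} {d : ℕ} {t : ℝ} {l : ℝ → ℝ} (hD : D = d * P) (x : ℂ) :
    pc D ε φ x - (K : ℂ) * pol P (wt t l) x ^ d = pol D (vt ε K φ d t l) x := by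
  unfold pc pol vt
  simp only [Complex.real_smul]
  have : ((‖x‖ ^ P : ℝ) : ℂ) ^ d = ((‖x‖ ^ D : ℝ) : ℂ) := by
    rw [← Complex.ofReal_pow, ← Real.rpow_mul_natCast (norm_nonneg _), hD, mul_comm P]
  rw [mul_pow, this]
  ring

theorem d_pi3 {d : ℕ} (hd : 0 < d) : (d : ℝ) * (Real.pi / (3 * d)) = Real.pi / 3 := by
  have : (0 : ℝ) < d := by exact_mod_cast hd
  field_simp

theorem d_pi2 {d : ℕ} (hd : 0 < d) : (d : ℝ) * (Real.pi / (2 * d)) = Real.pi / 2 := by
  have : (0 : ℝ) < d := by exact_mod_cast hd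
  field_simp

/-- zone 1 -/
theorem vt_zone1 {ε K : ℝ} {φ : ℝ → ℝ} {d : ℕ} {t : ℝ} {l : ℝ → ℝ} {x : ℝ} (hε : 0 < ε)
    (hK : 2 * ε < K) (ht0 : 0 ≤ t) (ht1 : t ≤ 1) (hd : 0 < d) (hl : l x = 1)
    (hx : |x| ≤ Real.pi / (3 * d)) : (vt ε K φ d t l x).re < 0 := by
  have hpi := Real.pi_pos
  unfold vt wt
  rw [Complex.sub_re, Complex.re_ofReal_mul, Complex.re_ofReal_mul, cis_re, hl, mul_one]
  have h1 : Real.cos (Real.pi / 3) * ((1 - t) + t) ^ d ≤
      (((((1 - t : ℝ)) : ℂ) * cis x + ((t : ℝ) : ℂ)) ^ d).re := by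
    refine re_pow_ge (by linarith) ht0 fun k hk => cos_mul_ge hk ?_ (by linarith)
    rw [← d_pi3 hd]
    exact mul_le_mul_of_nonneg_left hx (by positivity)
  rw [Real.cos_pi_div_three, show (1 - t) + t = 1 by ring, one_pow, mul_one] at h1
  have h2 := Real.cos_le_one (φ x)
  nlinarith

/-- zone 2, in the form: `cos φ < 0` -/
theorem vt_zone2 {ε K : ℝ} {φ : ℝ → ℝ} {d : ℕ} {t : ℝ} {l : ℝ → ℝ} {x : ℝ} (hε : 0 < ε)
    (hK : 0 < K) (ht0 : 0 ≤ t) (ht1 : t ≤ 1) (hd : 0 < d) (hl : 0 ≤ l x)
    (hx : |x| ≤ Real.pi / (2 * d)) (hφ : Real.cos (φ x) < 0) : (vt ε K φ d t l x).re < 0 := by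
  have hpi := Real.pi_pos
  unfold vt wt
  rw [Complex.sub_re, Complex.re_ofReal_mul, Complex.re_ofReal_mul, cis_re]
  have h1 : Real.cos (Real.pi / 2) * ((1 - t) + t * l x) ^ d ≤
      (((((1 - t : ℝ)) : ℂ) * cis x + ((t * l x : ℝ) : ℂ)) ^ d).re := by
    refine re_pow_ge (by linarith) (mul_nonneg ht0 hl) fun k hk => cos_mul_ge hk ?_ (by linarith)
    rw [← d_pi2 hd]
    exact mul_le_mul_of_nonneg_left hx (by positivity)
  rw [Real.cos_pi_div_two, zero_mul] at h1
  have h2 := mul_neg_of_pos_of_neg hε hφ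
  have h3 := mul_nonneg hK.le h1
  linarith

/-- zone 3: the value -/
theorem vt_zone3 {ε K : ℝ} {φ : ℝ → ℝ} {d : ℕ} {t : ℝ} {l : ℝ → ℝ} {x : ℝ}
    (hl : l x = 0) (hφ : φ x = d * x + Real.pi) :
    vt ε K φ d t l x = ((ε + K * (1 - t) ^ d : ℝ) : ℂ) * cis (φ x) := by
  unfold vt wt
  rw [hl, mul_zero, Complex.ofReal_zero, add_zero, mul_pow, cis_pow, hφ, cis_add_pi]
  push_cast
  ring

/-- zone 3: the derivative -/
theorem vt_deriv3 {ε K : ℝ} {φ : ℝ → ℝ} {d : ℕ} {t : ℝ} {l : ℝ → ℝ} {x : ℝ} (hd : 0 < d)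
    (hl : l x = 0) (hl' : HasDerivAt l 0 x) (hφ' : HasDerivAt φ d x) :
    HasDerivAt (vt ε K φ d t l) ((d : ℂ) * (Complex.I * vt ε K φ d t l x)) x := by
  have h1 := hasDerivAt_epscis ε hφ'
  have h2 : HasDerivAt (wt t l) (((1 - t : ℝ) : ℂ) * (Complex.I * cis x) + 0) x := by
    unfold wt
    refine ((hasDerivAt_cis x).const_mul _).add ?_
    have := (hl'.const_mul t).ofReal_comp
    rwa [mul_zero, Complex.ofReal_zero] at this
  have h3 := (h2.pow d).const_mul (K : ℂ)
  refine (h1.sub h3).congr_deriv ?_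
  unfold vt
  have hw : wt t l x = ((1 - t : ℝ) : ℂ) * cis x := by
    unfold wt; rw [hl]; simp
  obtain ⟨m, rfl⟩ := Nat.exists_eq_succ_of_ne_zero hd.ne'
  rw [hw]
  simp only [Nat.succ_eq_add_one, Nat.add_sub_cancel]
  push_cast
  ring

theorem exists_rep {d : ℕ} (hd : 0 < d) {ξ : ℝ} (h0 : -Real.pi < ξ) (h1 : ξ ≤ Real.pi) :
    ∃ x : ℝ, (x = ξ ∨ x = ξ + 2 * Real.pi) ∧ -(Real.pi / (3 * d)) ≤ x ∧
      x ≤ 2 * Real.pi - Real.pi / (3 * d) := by
  have hpi := Real.pi_pos
  have hd' : (1 : ℝ) ≤ d := by exact_mod_cast hd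
  have h2 : Real.pi / (3 * d) ≤ Real.pi := by
    rw [div_le_iff₀ (by positivity)]
    nlinarith
  by_cases h : -(Real.pi / (3 * d)) ≤ ξ
  · exact ⟨ξ, Or.inl rfl, h, by linarith⟩
  · push Not at h
    have h3 : 0 ≤ Real.pi / (3 * d) := by positivity
    exact ⟨ξ + 2 * Real.pi, Or.inr rfl, by linarith, by linarith⟩

theorem rep_eq {F : Type*} {q : ℝ → F} (hq : Per q) {x ξ : ℝ}
    (h : x = ξ ∨ x = ξ + 2 * Real.pi) : q ξ = q x := by
  rcases h with h | h
  · rw [h]
  · rw [h, hq ξ]

theorem cis_two_pi (x : ℝ) : cis (x + 2 * Real.pi) = cis x := by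
  have := cis_per_nat x 1
  rwa [Nat.cast_one, mul_one] at this

theorem wt_rep {l : ℝ → ℝ} (hl : Per l) (t x : ℝ) : wt t l (x - 2 * Real.pi) = wt t l x := by
  have := wt_per hl t (x - 2 * Real.pi)
  rwa [sub_add_cancel, eq_comm] at this

/-- **the planar condition**: `x` in the representative interval -/
theorem vt_main {ε K : ℝ} {φ : ℝ → ℝ} {d : ℕ} {t : ℝ} {l : ℝ → ℝ} {x : ℝ} (hε : 0 < ε)
    (hK : 2 * ε < K) (ht0 : 0 ≤ t) (ht1 : t ≤ 1) (hd : 0 < d) (hl : CutX d l)
    (hφ : ∀ x : ℝ, Real.pi / (3 * d) ≤ x → x ≤ 2 * Real.pi - Real.pi / (3 * d) →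
      φ x = d * x + Real.pi)
    (hx0 : -(Real.pi / (3 * d)) ≤ x) (hx1 : x ≤ 2 * Real.pi - Real.pi / (3 * d)) :
    (vt ε K φ d t l x).re < 0 ∨
      (Real.pi / (3 * d) ≤ x ∧ vt ε K φ d t l x = ((ε + K * (1 - t) ^ d : ℝ) : ℂ) * cis (φ x) ∧
        HasDerivAt (vt ε K φ d t l) ((d : ℂ) * (Complex.I * vt ε K φ d t l x)) x) := by
  have hpi := Real.pi_pos
  have hdr : (0 : ℝ) < d := by exact_mod_cast hd
  have hK0 : 0 < K := by linarith
  have h32 : Real.pi / (3 * d) < Real.pi / (2 * d) := by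
    rw [div_lt_div_iff₀ (by positivity) (by positivity)]
    nlinarith
  by_cases h1 : x ≤ Real.pi / (3 * d)
  · left
    have hx : |x| ≤ Real.pi / (3 * d) := abs_le.2 ⟨hx0, h1⟩
    exact vt_zone1 hε hK ht0 ht1 hd (hl.one x hx) hx
  push Not at h1
  have hφx := hφ x h1.le hx1
  by_cases h2 : x < Real.pi / (2 * d)
  · left
    refine vt_zone2 hε hK0 ht0 ht1 hd (hl.nn x) (abs_le.2 ⟨by linarith, h2.le⟩) ?_
    rw [hφx, Real.cos_add_pi, neg_lt_zero]
    have h3 : d * x < Real.pi / 2 := by
      rw [← d_pi2 hd]; exact mul_lt_mul_of_pos_left h2 hdr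
    have h4 : 0 < d * x := mul_pos hdr (lt_trans (by positivity) h1)
    exact Real.cos_pos_of_mem_Ioo ⟨by linarith, h3⟩
  push Not at h2
  by_cases h3 : x ≤ 2 * Real.pi - Real.pi / (2 * d)
  · right
    have hlx : l x = 0 := hl.zero x h2 h3
    refine ⟨h1.le, vt_zone3 hlx hφx, vt_deriv3 hd hlx ?_ ?_⟩
    · have h4 : HasDerivAt l (deriv l x) x :=
        (hl.smooth.differentiable (by norm_num) x).hasDerivAt
      have h5 : IsLocalMin l x := Filter.Eventually.of_forall fun y => by
        rw [hlx]; exact hl.nn y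
      rwa [h5.deriv_eq_zero] at h4
    · have h4 : HasDerivAt (fun y : ℝ => (d : ℝ) * y + Real.pi) d x := by
        simpa using ((hasDerivAt_id x).const_mul (d : ℝ)).add_const Real.pi
      refine h4.congr_of_eventuallyEq ?_
      filter_upwards [Ioo_mem_nhds (show Real.pi / (3 * d) < x by linarith)
        (show x < 2 * Real.pi - Real.pi / (3 * d) by linarith)] with y hy
      exact hφ y hy.1.le hy.2.le
  push Not at h3
  have h30 : 0 < Real.pi / (3 * d) := by positivity
  left
  -- use the representative `x - 2π`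
  have hw : vt ε K φ d t l x = vt ε K (fun _ => φ x) d t l (x - 2 * Real.pi) := by
    unfold vt
    rw [wt_rep hl.per]
  rw [hw]
  refine vt_zone2 hε hK0 ht0 ht1 hd (hl.nn _) (abs_le.2 ⟨by linarith, by linarith⟩) ?_
  rw [hφx, Real.cos_add_pi, neg_lt_zero]
  have h4 : Real.cos (d * x) = Real.cos (d * (2 * Real.pi - x)) := by
    rw [mul_sub, show (d : ℝ) * (2 * Real.pi) - d * x = (d : ℕ) * (2 * Real.pi) - d * x by rfl,
      Real.cos_nat_mul_two_pi_sub]
  have h5 : (d : ℝ) * (2 * Real.pi - x) < Real.pi / 2 := by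
    rw [← d_pi2 hd]; exact mul_lt_mul_of_pos_left (by linarith) hdr
  have h6 : 0 < (d : ℝ) * (2 * Real.pi - x) := by
    refine mul_pos hdr ?_
    have : 0 < Real.pi / (3 * d) := by positivity
    linarith
  rw [h4]
  exact Real.cos_pos_of_mem_Ioo ⟨by linarith, h5⟩

section V

variable {n : ℕ} {a : Fin (n + 1) → ℕ}

/-- **`V` is regular** -/
theorem trReg_V (ha : Exps a) (e : Fin n) {X : LD n} {P : ℝ} {l : ℝ → ℝ}
    (hX : X.Al a e (a e.succ + 1) P) (hl : CutX (a e.succ + 1) l) {K : ℝ}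
    (hK : 2 * X.ep e.castSucc < K) {t : ℝ} (ht0 : 0 ≤ t) (ht1 : t ≤ 1) :
    X.TrReg e (fun x => X.Q e.castSucc x - (K : ℂ) * pol P (wt t l) x ^ (a e.succ + 1)) := by
  have hpi := Real.pi_pos
  set j : Fin (n + 1) := e.castSucc with hj
  have hje : (j : ℕ) = e := by rw [hj, Fin.val_castSucc]
  set d : ℕ := a e.succ + 1 with hd
  have hd0 : 0 < d := Nat.succ_pos _
  have hok : X.Ok a j := by rw [hje]; exact hX.ok
  have hjj : (j : ℕ) ≤ j := le_rfl
  have hε := hok.hep j hjj
  have hDj : X.D j = d * P := hX.deg j hje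
  have hφ := hX.ph j hje
  have hpha := hok.hph j hjj
  have hD2 := hok.hD j hjj
  have hV : (fun x => X.Q j x - (K : ℂ) * pol P (wt t l) x ^ d) =
      pol (X.D j) (vt (X.ep j) K (X.ph j) d t l) := funext fun x => V_eq hDj x
  rw [hV, ← hje]
  have hcp : Per fun x => cis (X.ph j x) := fun x => by
    show cis (X.ph j (x + 2 * Real.pi)) = cis (X.ph j x)
    rw [hpha.deg x, cis_per_nat]
  have hvper : Per (vt (X.ep j) K (X.ph j) d t l) := fun x => by
    unfold vt
    rw [wt_per hl.per t x, show cis (X.ph j (x + 2 * Real.pi)) = cis (X.ph j x) from hcp x]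
  have hvsm : ContDiff ℝ 2 (vt (X.ep j) K (X.ph j) d t l) := by
    unfold vt
    exact (contDiff_const.mul (contDiff_cis.comp hpha.smooth)).sub
      (contDiff_const.mul ((wt_smooth hl.smooth t).pow d))
  -- the representative
  have hrep : ∀ x : ℂ, ∃ y : ℝ, (y = Complex.arg x ∨ y = Complex.arg x + 2 * Real.pi) ∧
      -(Real.pi / (3 * d)) ≤ y ∧ y ≤ 2 * Real.pi - Real.pi / (3 * d) := fun x =>
    exists_rep hd0 (Complex.neg_pi_lt_arg x) (Complex.arg_le_pi x)
  have hval : ∀ (x : ℂ) (y : ℝ), (y = Complex.arg x ∨ y = Complex.arg x + 2 * Real.pi) →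
      pol (X.D j) (vt (X.ep j) K (X.ph j) d t l) x =
        ((‖x‖ ^ X.D j : ℝ) : ℂ) * vt (X.ep j) K (X.ph j) d t l y := by
    intro x y hy
    rw [← rep_eq hvper hy]
    rfl
  have hcos : ∀ (x : ℂ) (y : ℝ), (y = Complex.arg x ∨ y = Complex.arg x + 2 * Real.pi) →
      Real.cos (X.ph j (Complex.arg x)) = Real.cos (X.ph j y) := by
    intro x y hy
    rw [← cis_re, ← cis_re]
    exact congrArg Complex.re (rep_eq hcp hy)
  have hcoef : 0 < X.ep j + K * (1 - t) ^ d := by
    have : 0 ≤ K * (1 - t) ^ d := mul_nonneg (by linarith) (pow_nonneg (by linarith) _)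
    linarith
  refine LobeKit_407.trP a j X _ hok (fun r hr z => pol_hom _ _ r hr z)
    (fun x => (contDiff_pol hD2 hvper hvsm).differentiable (by norm_num) x) (fun x hx => ?_)
    fun e' he' x hx hh hre him => ?_
  · have hn : 0 < ‖x‖ ^ X.D j := Real.rpow_pos_of_pos (norm_pos_iff.2 hx) _
    obtain ⟨y, hy, hy0, hy1⟩ := hrep x
    rcases vt_main hε hK ht0 ht1 hd0 hl hφ hy0 hy1 with h | ⟨h1, h2, h3⟩
    · have hneg : (pol (X.D j) (vt (X.ep j) K (X.ph j) d t l) x).re < 0 := by
        rw [hval x y hy, Complex.re_ofReal_mul]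
        exact mul_neg_of_pos_of_neg hn h
      refine ⟨fun h0 => ?_, Or.inl hneg⟩
      rw [h0, Complex.zero_re] at hneg
      exact lt_irrefl _ hneg
    · refine ⟨?_, ?_⟩
      · rw [hval x y hy, h2]
        exact mul_ne_zero (by exact_mod_cast hn.ne')
          (mul_ne_zero (by exact_mod_cast hcoef.ne') (cis_ne _))
      by_cases hneg : (pol (X.D j) (vt (X.ep j) K (X.ph j) d t l) x).re < 0
      · exact Or.inl hneg
      right
      have hc : 0 ≤ Real.cos (X.ph j (Complex.arg x)) := by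
        rw [hcos x y hy]
        rw [hval x y hy, h2, Complex.re_ofReal_mul, Complex.re_ofReal_mul, cis_re] at hneg
        by_contra hlt
        push Not at hlt
        exact hneg (mul_neg_of_pos_of_neg hn (mul_neg_of_pos_of_neg hcoef hlt))
      refine ⟨Complex.I * x, fun e' he' => ?_, ?_⟩
      · rw [← he'] at hc
        exact fderiv_h_I hok (by rw [← he', Fin.val_succ]; exact Nat.lt_succ_self _) hx hc
      · -- the derivative at `arg x`
        have h4 : HasDerivAt (vt (X.ep j) K (X.ph j) d t l)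
            (deriv (vt (X.ep j) K (X.ph j) d t l) (Complex.arg x)) (Complex.arg x) :=
          (hvsm.differentiable (by norm_num) _).hasDerivAt
        rw [rep_eq (per_deriv hvper) hy, h3.deriv] at h4
        rw [fderiv_pol_I (X.D j) hvper hx h4]
        have h5 : ‖x‖ ^ X.D j • ((d : ℂ) * (Complex.I * vt (X.ep j) K (X.ph j) d t l y)) =
            ((d : ℝ) : ℂ) * (Complex.I * pol (X.D j) (vt (X.ep j) K (X.ph j) d t l) x) := by
          rw [hval x y hy, Complex.real_smul]
          push_cast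
          ring
        rw [h5]
        exact good2_of_rot (by exact_mod_cast hd0.ne')
  · exfalso
    have hn : 0 < ‖x‖ ^ X.D j := Real.rpow_pos_of_pos (norm_pos_iff.2 hx) _
    obtain ⟨y, hy, hy0, hy1⟩ := hrep x
    have hre' : 0 < (vt (X.ep j) K (X.ph j) d t l y).re := by
      rw [hval x y hy, Complex.re_ofReal_mul] at hre
      exact (mul_pos_iff_of_pos_left hn).1 hre
    rcases vt_main hε hK ht0 ht1 hd0 hl hφ hy0 hy1 with h | ⟨h1, h2, h3⟩
    · linarith
    rw [h2, Complex.re_ofReal_mul, cis_re] at hre'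
    have hc : 0 < Real.cos (X.ph j y) := (mul_pos_iff_of_pos_left hcoef).1 hre'
    rw [hφ y h1 hy1] at hc
    have hlt : (e' : ℕ) < j := by rw [← he', Fin.val_succ]; exact Nat.lt_succ_self _
    have hj0 : j ≠ 0 := by rw [← he']; exact Fin.succ_ne_zero _
    have hdd : d < dg a j := by
      have h6 : a e.succ < a j := ha.anti (by rw [hj]; exact Fin.castSucc_lt_succ)
      unfold LobeDefs_407.dg
      rw [if_neg hj0]
      omega
    have hbet1 := hok.bet1 e' hlt
    rw [he'] at hbet1
    obtain ⟨k, hk, hb⟩ := lev_out hdd.le hd0 (b := X.bet e')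
      (c := fun k => if k + 1 = dg a j then 1 else 0) hbet1 h1 hy1 hc.le
    rw [if_neg (by omega)] at hb
    have h7 : X.h e' x = ‖x‖ ^ X.m e' * X.bet e' (X.ph j y) := by
      have h8 := rep_eq (bet_per hok hlt) hy
      have h9 : X.h e' x = ‖x‖ ^ X.m e' * X.bet e' (X.ph e'.succ (Complex.arg x)) := rfl
      rw [h9, h8, he']
    rw [h7, hφ y h1 hy1, hb, mul_zero] at hh
    exact lt_irrefl _ hh

/-! ### smoothness of the functions of the step -/

theorem contDiff_GF {Q : Fin (n + 1) → ℂ → ℂ} {g h : Fin n → ℂ → ℂ}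
    (hQ : ∀ i, ContDiff ℝ 2 (Q i)) (hg : ∀ e, ContDiff ℝ 2 (g e)) (hh : ∀ e, ContDiff ℝ 2 (h e)) :
    ContDiff ℝ 2 (GF Q g h) := by
  unfold GF
  refine ContDiff.sub (ContDiff.sum fun i _ => (hQ i).comp (contDiff_apply ℝ ℂ i))
    (ContDiff.sum fun e _ => ?_)
  exact ((hg e).comp (contDiff_apply ℝ ℂ e.castSucc)).mul
    ((hh e).comp (contDiff_apply ℝ ℂ e.succ))

theorem contDiff_mid {X : LD n} {e : Fin n} (hX : X.Ok a e) {Y η H : ℂ → ℂ}
    (hY : ContDiff ℝ 2 Y) (hη : ContDiff ℝ 2 η) (hH : ContDiff ℝ 2 H) :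
    ContDiff ℝ 2 (X.mid a e Y η H) := by
  unfold LD.mid
  refine contDiff_GF (fun i => ?_) (fun e' => ?_) fun e' => ?_
  · by_cases h1 : (i : ℕ) ≤ e
    · simp only [if_pos h1]
      exact contDiff_Q hX h1
    · by_cases h2 : (i : ℕ) = e + 1
      · simp only [if_neg h1, if_pos h2]
        exact hY
      · simp only [if_neg h1, if_neg h2]
        exact contDiff_const
  · by_cases h1 : (e' : ℕ) < e
    · simp only [if_pos h1]
      exact Complex.ofRealCLM.contDiff.comp (contDiff_g hX h1)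
    · by_cases h2 : (e' : ℕ) = e
      · simp only [if_neg h1, if_pos h2]
        exact hη
      · simp only [if_neg h1, if_neg h2]
        exact contDiff_id
  · by_cases h1 : (e' : ℕ) < e
    · simp only [if_pos h1]
      exact Complex.ofRealCLM.contDiff.comp (contDiff_h hX h1)
    · by_cases h2 : (e' : ℕ) = e
      · simp only [if_neg h1, if_pos h2]
        exact hH
      · simp only [if_neg h1, if_neg h2]
        exact contDiff_id.pow _

/-- the coupling of the step, separated -/
theorem mid_eq (X : LD n) (e : Fin n) (Y η H : ℂ → ℂ) (z : Fin (n + 1) → ℂ) :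
    X.mid a e Y η H z = X.mid a e Y 0 H z - η (z e.castSucc) * H (z e.succ) := by
  unfold LD.mid GF
  rw [sub_sub]
  congr 1
  rw [← Finset.sum_erase_add _ _ (Finset.mem_univ e)]
  conv_rhs => rw [← Finset.sum_erase_add _ _ (Finset.mem_univ e)]
  simp only [lt_irrefl, if_false, if_true, Pi.zero_apply, zero_mul, add_zero]
  congr 1
  refine sum_congr rfl fun e' he' => ?_
  have hne : (e' : ℕ) ≠ e := fun h => (Finset.ne_of_mem_erase he') (Fin.ext h)
  simp only [if_neg hne]

theorem pw_eq (P : ℝ) (hP : 0 < P) (l : ℝ → ℝ) : pol P (wt 0 l) = pw P := by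
  funext z
  rcases eq_or_ne z 0 with rfl | hz
  · rw [pol_zero hP.ne']
    simp [pw]
  · have hn : 0 < ‖z‖ := norm_pos_iff.2 hz
    unfold pol wt pw
    rw [sub_zero, zero_mul, Complex.ofReal_zero, add_zero, Complex.ofReal_one, one_mul,
      Complex.real_smul]
    have h1 : ‖z‖ ^ P = ‖z‖ ^ (P - 1) * ‖z‖ := by
      rw [← Real.rpow_add_one hn.ne', sub_add_cancel]
    conv_rhs => rw [← Complex.norm_mul_exp_arg_mul_I z]
    rw [norm_mul, Complex.norm_exp_ofReal_mul_I, mul_one, Complex.norm_real, norm_norm, h1]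
    unfold cis
    push_cast
    ring

theorem pol_one (P : ℝ) (l : ℝ → ℝ) : pol P (wt 1 l) = fun x => ((pol P l x : ℝ) : ℂ) := by
  funext z
  unfold pol wt
  rw [sub_self, Complex.ofReal_zero, zero_mul, zero_add, one_mul, Complex.real_smul, smul_eq_mul]
  push_cast
  ring

theorem pol_t (P : ℝ) (l : ℝ → ℝ) (t : ℝ) (z : ℂ) :
    pol P (wt t l) z = (1 - t) • pol P (wt 0 l) z + t • pol P (wt 1 l) z := by
  unfold pol wt
  simp only [Complex.real_smul]
  push_cast
  ring

/-- **STEP S3** from the REDUCTION -/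
theorem s3_of_red (ha : Exps a) (e : Fin n) (hR : RedP a e) : S3P a e := by
  intro X P l hP hX hl
  have hok := hX.ok
  have hPpos : 0 < P := by linarith
  set d : ℕ := a e.succ + 1 with hd
  have hd0 : 0 < d := Nat.succ_pos _
  have hdr : (0 : ℝ) < d := by exact_mod_cast hd0
  have hcs : ((e.castSucc : Fin (n + 1)) : ℕ) = e := Fin.val_castSucc e
  have hDj : X.D e.castSucc = d * P := hX.deg e.castSucc hcs
  have hηsm : ∀ t, ContDiff ℝ 2 (pol P (wt t l)) := fun t =>
    contDiff_pol hP (wt_per hl.per t) (wt_smooth hl.smooth t)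
  have hYsm : ContDiff ℝ 2 fun y : ℂ => y ^ d := contDiff_id.pow d
  have hHsm : ContDiff ℝ 2 fun y : ℂ => y ^ a e.succ := contDiff_id.pow _
  have hpath : HPath fun p : ℝ × (Fin (n + 1) → ℂ) =>
      X.mid a e (fun y => y ^ d) (pol P (wt p.1 l)) (fun y => y ^ a e.succ) p.2 := by
    refine HPath.of_slices (T := univ) isOpen_univ (subset_univ _) ?_ (fun t ht => ?_)
      fun t ht z hz hre => ?_
    · have h1 : (fun p : ℝ × (Fin (n + 1) → ℂ) =>
          X.mid a e (fun y => y ^ d) (pol P (wt p.1 l)) (fun y => y ^ a e.succ) p.2) =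
          fun p : ℝ × (Fin (n + 1) → ℂ) =>
            X.mid a e (fun y => y ^ d) 0 (fun y => y ^ a e.succ) p.2 -
              ((1 - p.1) • pol P (wt 0 l) (p.2 e.castSucc) +
                p.1 • pol P (wt 1 l) (p.2 e.castSucc)) * p.2 e.succ ^ a e.succ := by
        funext p
        rw [mid_eq, pol_t]
      rw [h1]
      have h2 : ContDiff ℝ 2 fun p : ℝ × (Fin (n + 1) → ℂ) => p.2 e.castSucc :=
        (contDiff_apply ℝ ℂ e.castSucc).comp contDiff_snd
      have h3 : ContDiff ℝ 2 fun p : ℝ × (Fin (n + 1) → ℂ) => p.2 e.succ :=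
        (contDiff_apply ℝ ℂ e.succ).comp contDiff_snd
      refine ContDiff.contDiffOn ?_
      refine ((contDiff_mid hok hYsm contDiff_const hHsm).comp contDiff_snd).sub ?_
      refine ContDiff.mul (ContDiff.add ?_ ?_) (h3.pow _)
      · exact (contDiff_const.sub contDiff_fst).smul ((hηsm 0).comp h2)
      · exact contDiff_fst.smul ((hηsm 1).comp h2)
    · obtain ⟨w, hw, -, -, hwh⟩ := S2_843.wh_mid (a := a) ha.two (X := X) (e := e) hok
        (Y := fun y => y ^ d) (η := pol P (wt t l)) (H := fun y => y ^ a e.succ)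
        (wy := 1 / d) (by positivity)
        (by
          rw [div_lt_one hdr]
          have := ha.two e.succ
          have : (1 : ℕ) < d := by omega
          exact_mod_cast this)
        (fun s y => by
          show ((Real.exp (s * (1 / d)) : ℂ) * y) ^ d = Real.exp s • y ^ d
          rw [mul_pow, ← Complex.ofReal_pow, ← Real.exp_nat_mul, Complex.real_smul]
          congr 3
          field_simp)
        (fun s x y => by
          show pol P (wt t l) ((Real.exp (s * (1 / X.D e.castSucc)) : ℂ) * x) *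
            ((Real.exp (s * (1 / d)) : ℂ) * y) ^ a e.succ =
              Real.exp s • (pol P (wt t l) x * y ^ a e.succ)
          rw [pol_hom _ _ _ (Real.exp_pos _), mul_pow, ← Complex.ofReal_pow, ← Real.exp_nat_mul,
            Complex.real_smul, Complex.real_smul, ← Real.exp_mul, hDj]
          have h1 : Real.exp (s * (1 / (d * P)) * P) * Real.exp ((a e.succ : ℕ) * (s * (1 / d))) =
              Real.exp s := by
            rw [← Real.exp_add]
            congr 1
            have h2 : (d : ℝ) = a e.succ + 1 := by rw [hd]; push_cast; ring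
            have h3 : s * (1 / (d * P)) * P = s / d := by field_simp
            rw [h3, show s / (d : ℝ) + (a e.succ : ℕ) * (s * (1 / d)) = s * ((a e.succ + 1) / d) by
              ring, ← h2, div_self hdr.ne', mul_one]
          rw [← h1]
          push_cast
          ring)
      exact ⟨w, hw, hwh⟩
    · have hY : (fun y : ℂ => ((1 : ℝ) : ℂ) * y ^ (a e.succ + 1)) = fun y => y ^ d := by
        funext y
        rw [Complex.ofReal_one, one_mul]
      have hred := hR X 1 (pol P (wt t l)) hok one_pos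
        (fun x => (hηsm t).differentiable (by norm_num) x) (pol_zero hPpos.ne' _)
        (trReg_Q (j := e.castSucc) ha (LobeKit_407.trP a _) hok)
        (trReg_V ha e hX hl ?_ ht.1 ht.2) z hz
      · rw [hY] at hred
        exact hred hre
      · have h1 := hX.ep e.castSucc hcs
        have h2 : ((a e.succ + 1 : ℕ) : ℝ) - 1 = a e.succ := by push_cast; ring
        have h3 : ((a e.succ + 1 : ℕ) : ℝ) = (a e.succ : ℝ) + 1 := by push_cast; ring
        rw [h2, h3, Nat.add_sub_cancel] at h1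
        rw [mul_one]
        exact h1
  have h := hpath.seq
  simp only [pw_eq P hPpos l, pol_one P l] at h
  exact h

end V

end Crest.Agent.R267.S3_82
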