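import Crest.Agent.R267.LobeDefs_407
import Crest.Agent.R267.AngB_739
import Crest.Agent.R267.HmE_951
import Crest.Agent.R267.S3_82_Mg
import Crest.Agent.R267.LobeKit_407

-- ▼ part R267/T3bAsm_601
section

/-!
# Row 267, T3b-NEXT + ASM (helper601)

* `nextP : NextP a e`: the end of S4 is a state `j + 1`;
* `t3b_of`: the assembly, `T3bP` from all the steps.
-/

set_option autoImplicit false

noncomputable section

open Crest.Agent.R267.Ang_739 Crest.Agent.R267.Hm_951 Crest.Agent.R267.LemL_951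
open Crest.Agent.R267.Sys_808 Crest.Agent.R267.LobeDefs_407

namespace Crest.Agent.R267.T3bAsm_601

variable {n : ℕ}

theorem dg_succ (a : Fin (n + 1) → ℕ) (e : Fin n) :
    LobeDefs_407.dg a e.succ = a e.succ + 1 := by
  simp [LobeDefs_407.dg]

theorem eq_succ_of {e : Fin n} {i : Fin (n + 1)} (h : (i : ℕ) = e + 1) : i = e.succ := by
  apply Fin.ext
  simpa using h

theorem pw_one (z : ℂ) : pw 1 z = z := by
  simp [pw]

/-- the new piece -/
theorem pc_next {d : ℕ} (hd : 0 < d) {P' : ℝ} (hP : 1 ≤ P') :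
    pc ((d : ℝ) * P') 1 (fun x => (d : ℝ) * x) = fun y => pw P' y ^ d := by
  funext y
  rcases eq_or_ne y 0 with rfl | hy
  · have h0 : (d : ℝ) * P' ≠ 0 := by positivity
    rw [pc, pol_zero h0]
    simp [pw, hd.ne']
  · have hn : 0 < ‖y‖ := norm_pos_iff.2 hy
    have h1 : cis ((d : ℝ) * Complex.arg y) = (Complex.exp (Complex.arg y * Complex.I)) ^ d := by
      rw [cis, ← Complex.exp_nat_mul]
      push_cast
      ring_nf
    have h2 : ‖y‖ ^ ((d : ℝ) * P') = (‖y‖ ^ (P' - 1) * ‖y‖) ^ d := by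
      have e1 : ‖y‖ ^ (P' - 1) * ‖y‖ = ‖y‖ ^ P' := by
        rw [Real.rpow_sub_one hn.ne']
        field_simp
      rw [e1, mul_comm, Real.rpow_mul hn.le, Real.rpow_natCast]
    have h3 : pw P' y = ((‖y‖ ^ (P' - 1) * ‖y‖ : ℝ) : ℂ) * Complex.exp (Complex.arg y * Complex.I) := by
      have h4 := Complex.norm_mul_exp_arg_mul_I y
      rw [pw]
      push_cast
      rw [mul_assoc, h4]
    rw [h3, mul_pow, ← h1]
    simp only [pc, pol, Complex.ofReal_one, one_mul, Complex.real_smul]
    rw [h2]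
    push_cast
    rfl

theorem pha_lin {d : ℕ} (hd : 0 < d) : Pha d (fun x => (d : ℝ) * x) where
  smooth := by fun_prop
  deg := fun x => by ring
  pos := fun x => by
    have h : HasDerivAt (fun x : ℝ => (d : ℝ) * x) ((d : ℝ) * 1) x :=
      (hasDerivAt_id x).const_mul _
    rw [h.deriv]
    have : (0 : ℝ) < d := by exact_mod_cast hd
    linarith

theorem nc_next {d : ℕ} (hd : 2 ≤ d) {ep : ℝ} (h0 : 0 < ep)
    (h : 2 * ep < (1 / (d : ℝ)) * (((d : ℝ) - 1) / d) ^ (d - 1)) :
    ep ^ (1 / (d : ℝ)) < (1 / (d : ℝ)) ^ (1 / (d : ℝ)) * (((d : ℝ) - 1) / d) ^ (((d : ℝ) - 1) / d) := by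
  have hd0 : (0 : ℝ) < d := by exact_mod_cast (by omega : 0 < d)
  have hd1 : (1 : ℝ) < d := by exact_mod_cast (by omega : 1 < d)
  have hA : (0 : ℝ) ≤ 1 / d := by positivity
  have hB : (0 : ℝ) < ((d : ℝ) - 1) / d := div_pos (by linarith) hd0
  have h1 : ep < (1 / (d : ℝ)) * (((d : ℝ) - 1) / d) ^ (d - 1) := by linarith
  have h2 := Real.rpow_lt_rpow h0.le h1 (by positivity : (0 : ℝ) < 1 / d)
  rw [Real.mul_rpow hA (by positivity), ← Real.rpow_natCast, ← Real.rpow_mul hB.le] at h2
  have h3 : ((d - 1 : ℕ) : ℝ) * (1 / (d : ℝ)) = ((d : ℝ) - 1) / d := by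
    rw [Nat.cast_sub (by omega)]
    push_cast
    ring
  rwa [h3] at h2

theorem nextP (a : Fin (n + 1) → ℕ) (e : Fin n) : NextP a e := by
  intro X P P' l b hP hP' haP hX hl hb hlam hbet
  have ok := hX.ok
  set d : ℕ := a e.succ + 1 with hd
  have ha1 : 1 ≤ a e.succ := by
    by_contra h
    have : a e.succ = 0 := by omega
    rw [this] at haP
    norm_num at haP
  have hd2 : 2 ≤ d := by omega
  have hdr : (d : ℝ) = a e.succ + 1 := by rw [hd]; push_cast; rfl
  have hd0 : (0 : ℝ) < d := by exact_mod_cast (by omega : 0 < d)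
  have hP0 : 0 < P := by linarith
  have hP0' : 0 < P' := by linarith
  have hda : (d : ℝ) - 1 = a e.succ := by rw [hdr]; ring
  have he : ((e.castSucc : Fin (n + 1)) : ℕ) = e := by simp
  have he' : ((e.succ : Fin (n + 1)) : ℕ) = e + 1 := by simp
  have hne : ((e.castSucc : Fin (n + 1)) : ℕ) ≠ e + 1 := by simp
  have hDc : X.D e.castSucc = d * P := hX.deg _ he
  constructor
  · constructor
    · intro i hi
      by_cases h : (i : ℕ) = e + 1
      · simp only [LD.next, if_pos h]
        nlinarith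
      · simp only [LD.next, if_neg h]
        exact ok.hD i (by omega)
    · intro i hi
      by_cases h : (i : ℕ) = e + 1
      · simp only [LD.next, if_pos h]
        norm_num
      · simp only [LD.next, if_neg h]
        exact ok.hep i (by omega)
    · intro i hi
      by_cases h : (i : ℕ) = e + 1
      · simp only [LD.next, if_pos h]
        rw [eq_succ_of h, dg_succ]
        exact pha_lin (by omega)
      · simp only [LD.next, if_neg h]
        exact ok.hph i (by omega)
    · intro f hf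
      by_cases h : (f : ℕ) = e
      · simp only [LD.next, if_pos h]
        norm_num
      · simp only [LD.next, if_neg h]
        exact ok.hc f (by omega)
    · intro f hf
      by_cases h : (f : ℕ) = e
      · simp only [LD.next, if_pos h]
        exact hP
      · simp only [LD.next, if_neg h]
        exact ok.hp f (by omega)
    · intro f hf
      by_cases h : (f : ℕ) = e
      · simp only [LD.next, if_pos h]
        rw [hda]
        exact haP
      · simp only [LD.next, if_neg h]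
        exact ok.hm f (by omega)
    · intro f hf
      by_cases h : (f : ℕ) = e
      · obtain rfl : f = e := Fin.ext h
        simp only [LD.next, if_neg hne, if_pos he', if_true]
        rw [hDc]
        field_simp
        ring
      · have h1 : ((f.castSucc : Fin (n + 1)) : ℕ) ≠ e + 1 := by simp; omega
        have h2 : ((f.succ : Fin (n + 1)) : ℕ) ≠ e + 1 := by simp; omega
        simp only [LD.next, if_neg h1, if_neg h2, if_neg h]
        exact ok.sum f (by omega)
    · intro f hf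
      by_cases h : (f : ℕ) = e
      · obtain rfl : f = e := Fin.ext h
        simp only [LD.next, if_neg hne, if_pos he', if_true]
        rw [hDc, Real.one_rpow, mul_one, mul_one]
        have e1 : P / (d * P) = 1 / (d : ℝ) := by field_simp
        have e2 : ((d : ℝ) - 1) * P' / (d * P') = ((d : ℝ) - 1) / d := by field_simp
        rw [e1, e2]
        exact nc_next hd2 (ok.hep _ (by simp)) (hX.ep _ he)
      · have h1 : ((f.castSucc : Fin (n + 1)) : ℕ) ≠ e + 1 := by simp; omega
        have h2 : ((f.succ : Fin (n + 1)) : ℕ) ≠ e + 1 := by simp; omega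
        simp only [LD.next, if_neg h1, if_neg h2, if_neg h]
        exact ok.nc f (by omega)
    · intro f hf
      by_cases h : (f : ℕ) = e
      · obtain rfl : f = e := Fin.ext h
        simp only [LD.next, if_true]
        exact hl
      · simp only [LD.next, if_neg h]
        exact ok.hlam f (by omega)
    · intro f hf
      by_cases h : (f : ℕ) = e
      · obtain rfl : f = e := Fin.ext h
        simp only [LD.next, if_true]
        exact hb
      · simp only [LD.next, if_neg h]
        exact ok.hbet f (by omega)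
    · intro f hf
      by_cases h : (f : ℕ) = e
      · obtain rfl : f = e := Fin.ext h
        simp only [LD.next, if_true]
        exact hlam
      · simp only [LD.next, if_neg h]
        exact ok.lam1 f (by omega)
    · intro f hf
      by_cases h : (f : ℕ) = e
      · obtain rfl : f = e := Fin.ext h
        simp only [LD.next, if_true]
        exact hbet
      · simp only [LD.next, if_neg h]
        exact ok.bet1 f (by omega)
  · unfold LD.st LD.mid
    congr 1
    · funext i
      by_cases h : (i : ℕ) = e + 1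
      · have h1 : (i : ℕ) ≤ e + 1 := h.le
        have h2 : ¬ (i : ℕ) ≤ e := by omega
        rw [if_pos h1, if_neg h2, if_pos h]
        simp only [LD.Q, LD.next, if_pos h]
        exact pc_next (by omega) hP'
      · by_cases h2 : (i : ℕ) ≤ e
        · have h1 : (i : ℕ) ≤ e + 1 := by omega
          rw [if_pos h1, if_pos h2]
          simp only [LD.Q, LD.next, if_neg h]
        · have h1 : ¬ (i : ℕ) ≤ e + 1 := by omega
          rw [if_neg h1, if_neg h2, if_neg h]
    · funext f
      by_cases h : (f : ℕ) = e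
      · obtain rfl : f = e := Fin.ext h
        have h1 : (f : ℕ) < f + 1 := by omega
        rw [if_pos h1, if_neg (lt_irrefl _), if_pos rfl]
        funext z
        simp only [LD.g, LD.next, if_neg hne, if_true, one_mul]
      · by_cases h2 : (f : ℕ) < e
        · have h1 : (f : ℕ) < e + 1 := by omega
          have h3 : ((f.castSucc : Fin (n + 1)) : ℕ) ≠ e + 1 := by simp; omega
          rw [if_pos h1, if_pos h2]
          simp only [LD.g, LD.next, if_neg h, if_neg h3]
        · have h1 : ¬ (f : ℕ) < e + 1 := by omega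
          rw [if_neg h1, if_neg h2, if_neg h]
    · funext f
      by_cases h : (f : ℕ) = e
      · obtain rfl : f = e := Fin.ext h
        have h1 : (f : ℕ) < f + 1 := by omega
        rw [if_pos h1, if_neg (lt_irrefl _), if_pos rfl]
        funext z
        simp only [LD.h, LD.next, if_pos he', if_true]
        rw [hda]
      · by_cases h2 : (f : ℕ) < e
        · have h1 : (f : ℕ) < e + 1 := by omega
          have h3 : ((f.succ : Fin (n + 1)) : ℕ) ≠ e + 1 := by simp; omega
          rw [if_pos h1, if_pos h2]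
          simp only [LD.h, LD.next, if_neg h, if_neg h3]
        · have h1 : ¬ (f : ℕ) < e + 1 := by omega
          rw [if_neg h1, if_neg h2, if_neg h]

/-- all the steps for the exponents `a` -/
structure Steps (a : Fin (n + 1) → ℕ) : Prop where
  path : ∀ j, j ≤ n → PathP a j
  align : ∀ e, AlignP a e
  s1 : ∀ e, S1P a e
  s2 : ∀ e, S2P a e
  s3 : ∀ e, S3P a e
  s4 : ∀ e, S4P a e
  s4l : ∀ e, S4lastP a e
  base : BaseP a

/-- the chain polynomial -/
abbrev ch (a : Fin (n + 1) → ℕ) := chainFun (List.ofFn fun i : Fin (n + 1) => a i.rev)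

theorem step {a : Fin (n + 1) → ℕ} (ha : Exps a) (h : Steps a) (e : Fin n)
    (ih : ∃ X : LD n, X.Ok a e ∧ SEq (ch a) (X.st a e)) :
    ∃ X : LD n, X.Ok a (e + 1) ∧ SEq (ch a) (X.st a (e + 1)) := by
  obtain ⟨Y, hY, hYs⟩ := ih
  obtain ⟨X, l, b, hX, hl, hlx, hlam, hb, hby, hbet⟩ := h.align e
  have s0 : SEq (ch a) (X.st a e) := hYs.trans ((h.path e e.2.le).2 Y X hY hX.ok)
  have s1 := s0.trans (h.s1 e X hX)
  obtain ⟨t2, hX2⟩ := h.s2 e X 3 (by norm_num) hX
  have s2 := s1.trans t2
  have s3 := s2.trans (h.s3 e (X.pow e 3) 3 (fun x => l (X.ph e.castSucc x)) (by norm_num) hX2 hlx)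
  have ha2 := ha.two e.succ
  rcases Nat.lt_or_ge 2 (a e.succ) with h3 | h3
  · have s4 := s3.trans (h.s4 e (X.pow e 3) 3 (fun x => l (X.ph e.castSucc x))
      (fun x => b (((a e.succ + 1 : ℕ) : ℝ) * x)) (by norm_num) hX2 hlx hby h3)
    obtain ⟨ok, hst⟩ := nextP a e (X.pow e 3) 3 1 l b (by norm_num) le_rfl
      (by rw [mul_one]; exact_mod_cast h3) hX2 hl hb hlam hbet
    refine ⟨_, ok, ?_⟩
    rw [hst]
    simp only [pw_one, mul_one]
    exact s4
  · have hlast : (e : ℕ) + 1 = n := by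
      by_contra hne
      have hlt : (e : ℕ) + 1 < n := by have := e.2; omega
      have h5 : a ⟨(e : ℕ) + 2, by omega⟩ < a e.succ := by
        apply ha.anti
        rw [Fin.lt_def]
        simp
      have h6 := ha.two ⟨(e : ℕ) + 2, by omega⟩
      omega
    have h2 : (a e.succ : ℝ) = 2 := by
      have : a e.succ = 2 := by omega
      rw [this]; norm_num
    have s4 := s3.trans (h.s4l e hlast (X.pow e 3) 3 2 (fun x => l (X.ph e.castSucc x))
      (fun x => b (((a e.succ + 1 : ℕ) : ℝ) * x)) (by norm_num) le_rfl hX2 hlx hby)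
    obtain ⟨ok, hst⟩ := nextP a e (X.pow e 3) 3 2 l b (by norm_num) (by norm_num)
      (by rw [h2]; norm_num) hX2 hl hb hlam hbet
    refine ⟨_, ok, ?_⟩
    rw [hst]
    exact s4

theorem all {a : Fin (n + 1) → ℕ} (ha : Exps a) (h : Steps a) :
    ∀ j, j ≤ n → ∃ X : LD n, X.Ok a j ∧ SEq (ch a) (X.st a j) := by
  intro j
  induction j with
  | zero => intro _; exact h.base
  | succ j ih =>
    intro hj
    exact step ha h ⟨j, hj⟩ (ih (by omega))

/-- **T3b** from the steps -/
theorem t3b_of (h : ∀ (n : ℕ) (a : Fin (n + 1) → ℕ), Exps a → Steps a) : T3bP := by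
  intro n a ha X hX
  have hs := h n a ha
  obtain ⟨Y, hY, hYs⟩ := all ha hs n le_rfl
  have hp := hs.path n le_rfl
  exact ⟨hYs.trans (hp.2 Y X hY hX), hp.1 X hX⟩

end Crest.Agent.R267.T3bAsm_601
end
end

-- ▼ part R267/Align_504
section

/-!
# Row 267 (helper504): `AlignP` of `LobeDefs_407`: existence of aligned data and cut-offs
-/

set_option autoImplicit false

noncomputable section

open Crest.Agent.R267.Ang_739 Crest.Agent.R267.LobeDefs_407

namespace Crest.Agent.R267.Align_504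

/-- `cos x ≥ 0`: `x` is `π/2`-close to a multiple of `2π`. -/
theorem near_of_cos {x : ℝ} (h : 0 ≤ Real.cos x) :
    ∃ q : ℤ, |x - 2 * Real.pi * q| ≤ Real.pi / 2 := by
  have hpi := Real.pi_pos
  refine ⟨round (x / (2 * Real.pi)), ?_⟩
  set q : ℤ := round (x / (2 * Real.pi)) with hq
  have h1 : |x / (2 * Real.pi) - q| ≤ 1 / 2 := abs_sub_round _
  have h2 : |x - 2 * Real.pi * q| ≤ Real.pi := by
    have e : x - 2 * Real.pi * q = (2 * Real.pi) * (x / (2 * Real.pi) - q) := by
      field_simp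
    rw [e, abs_mul, abs_of_pos (by positivity : 0 < 2 * Real.pi)]
    nlinarith
  by_contra hc
  push Not at hc
  have h3 : Real.cos (x - 2 * Real.pi * q) = Real.cos x := by
    have := Real.cos_sub_int_mul_two_pi x q
    rw [← this]
    congr 1
    ring
  rw [← Real.cos_abs, ] at h3
  have h4 := Real.cos_neg_of_pi_div_two_lt_of_lt hc (by linarith)
  linarith

/-- `sb` vanishes on the complement of the bump, one period below the centre. -/
theorem sb_zero' {d : ℕ} {c w₁ w₂ y : ℝ} (hd : 1 ≤ d) (h1 : 0 ≤ w₁) (h2 : w₁ < w₂)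
    (h3 : w₂ ≤ Real.pi * d) (hy : y ≤ c - w₂) (hy2 : c - 2 * Real.pi * d + w₂ ≤ y) :
    sb d c w₁ w₂ y = 0 := by
  by_cases h : c - Real.pi * d ≤ y
  · refine sb_zero hd h1 h2 h3 ?_ ?_
    · rw [abs_of_nonpos (by linarith)]; linarith
    · rw [abs_of_nonpos (by linarith)]; linarith
  · push Not at h
    rw [← sb_per hd]
    refine sb_zero hd h1 h2 h3 ?_ ?_
    · rw [abs_of_nonneg (by linarith)]; linarith
    · rw [abs_of_nonneg (by linarith)]; linarith

/-- a bump function of period `2 π d` with values `0`, `1` on the lobes is a level function. -/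
theorem lev_sb {N : ℕ} (hN : 1 ≤ N) {c w₁ w₂ : ℝ}
    (h : ∀ k < N, ∀ x : ℝ, |x - 2 * Real.pi * (k + 1)| ≤ Real.pi / 2 →
      sb N c w₁ w₂ x = 0 ∨ sb N c w₁ w₂ x = 1) : Lev N (sb N c w₁ w₂) where
  smooth := contDiff_sb (n := 2) N c w₁ w₂
  per := fun x => sb_per hN c w₁ w₂ x
  nn := fun x => sb_nonneg _ _ _ _ _
  le := fun x => sb_le_one _ _ _ _ _
  flat := by
    intro x hx
    refine deriv_zero_of_range (fun y => sb_nonneg _ _ _ _ y) (fun y => sb_le_one _ _ _ _ y) ?_
    obtain ⟨q, hq⟩ := near_of_cos hx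
    have hNz : (0 : ℤ) < N := by exact_mod_cast hN
    have hk0 := Int.emod_nonneg (q - 1) hNz.ne'
    have hk1 := Int.emod_lt_of_pos (q - 1) hNz
    have hk2 := Int.emod_add_mul_ediv (q - 1) N
    obtain ⟨k, hk⟩ := Int.eq_ofNat_of_zero_le hk0
    set r : ℤ := (q - 1) / N with hr
    rw [hk] at hk1 hk2
    have hk3 : k < N := by exact_mod_cast hk1
    have e : (q : ℝ) = k + 1 + N * r := by
      have : (q - 1 : ℤ) = (k : ℤ) + N * r := hk2.symm
      have h' : ((q - 1 : ℤ) : ℝ) = (((k : ℤ) + N * r : ℤ) : ℝ) := by rw [this]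
      push_cast at h'
      linarith
    have hx2 : |x - 2 * Real.pi * N * r - 2 * Real.pi * (k + 1)| ≤ Real.pi / 2 := by
      rw [e] at hq
      convert hq using 2
      ring
    have h5 := h k hk3 _ hx2
    have h6 : sb N c w₁ w₂ (x - 2 * Real.pi * N * r) = sb N c w₁ w₂ x := by
      have := sb_per_int hN c w₁ w₂ x (-r)
      rw [← this]
      congr 1
      push_cast
      ring
    rwa [h6] at h5

/-! ### the two level functions -/

/-- level function equal to one on the lobes `m ≤ k` of `N` lobes -/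
def lv (N m : ℕ) : ℝ → ℝ :=
  sb N (Real.pi * (m + N + 1)) (Real.pi * (N - m + 1 / 3)) (Real.pi * (N - m + 1 / 2))

section Lv

variable {N m : ℕ}

theorem lv_zero (hm : 1 ≤ m) (hmN : m ≤ N) {y : ℝ} (h1 : 3 * Real.pi / 2 ≤ y)
    (h2 : y ≤ 2 * Real.pi * m + Real.pi / 2) : lv N m y = 0 := by
  have hpi := Real.pi_pos
  have hm' : (1 : ℝ) ≤ m := by exact_mod_cast hm
  have hmN' : (m : ℝ) ≤ N := by exact_mod_cast hmN
  refine sb_zero' (hm.trans hmN) ?_ ?_ ?_ ?_ ?_
  · have : 0 ≤ (N : ℝ) - m + 1 / 3 := by linarith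
    positivity
  · exact mul_lt_mul_of_pos_left (by linarith) hpi
  · exact mul_le_mul_of_nonneg_left (by linarith) hpi.le
  · linarith
  · linarith

theorem lv_one (hm : 1 ≤ m) (hmN : m ≤ N) {y : ℝ}
    (h1 : 2 * Real.pi * m + 2 * Real.pi / 3 ≤ y)
    (h2 : y ≤ 2 * Real.pi * N + 4 * Real.pi / 3) : lv N m y = 1 := by
  have hpi := Real.pi_pos
  have hm' : (1 : ℝ) ≤ m := by exact_mod_cast hm
  have hmN' : (m : ℝ) ≤ N := by exact_mod_cast hmN
  refine sb_one (hm.trans hmN) ?_ ?_ ?_ ?_
  · have : 0 ≤ (N : ℝ) - m + 1 / 3 := by linarith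
    positivity
  · exact mul_lt_mul_of_pos_left (by linarith) hpi
  · exact mul_le_mul_of_nonneg_left (by linarith) hpi.le
  · rw [abs_le]
    constructor <;> linarith

theorem lv_pat (hm : 1 ≤ m) (hmN : m ≤ N) {k : ℕ} (hk : k < N) {x : ℝ}
    (hx : |x - 2 * Real.pi * (k + 1)| ≤ Real.pi / 2) : lv N m x = if m ≤ k then 1 else 0 := by
  have hpi := Real.pi_pos
  rw [abs_le] at hx
  split_ifs with h
  · have h1 : (m : ℝ) ≤ k := by exact_mod_cast h
    have h2 : (k : ℝ) + 1 ≤ N := by exact_mod_cast hk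
    refine lv_one hm hmN ?_ ?_
    · nlinarith [mul_le_mul_of_nonneg_left h1 hpi.le]
    · nlinarith [mul_le_mul_of_nonneg_left h2 hpi.le]
  · push Not at h
    have h1 : (k : ℝ) + 1 ≤ m := by exact_mod_cast h
    have h2 : (0 : ℝ) ≤ k := by positivity
    refine lv_zero hm hmN ?_ ?_
    · nlinarith [mul_nonneg hpi.le h2]
    · nlinarith [mul_le_mul_of_nonneg_left h1 hpi.le]

theorem lv_lev (hm : 1 ≤ m) (hmN : m ≤ N) : Lev N (lv N m) := by
  refine lev_sb (hm.trans hmN) fun k hk x hx => ?_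
  have h := lv_pat hm hmN hk hx
  unfold lv at h
  rw [h]
  split_ifs
  · right; rfl
  · left; rfl

end Lv

/-- level function equal to one on the last lobe only -/
def bt (d : ℕ) : ℝ → ℝ := sb d 0 (Real.pi / 2) (Real.pi / 2 + Real.pi / (4 * d))

section Bt

variable {d : ℕ}

theorem w2_le (hd : 1 ≤ d) : Real.pi / 2 + Real.pi / (4 * d) ≤ 3 * Real.pi / 4 := by
  have hpi := Real.pi_pos
  have hd' : (1 : ℝ) ≤ d := by exact_mod_cast hd
  have : Real.pi / (4 * d) ≤ Real.pi / 4 :=
    div_le_div_of_nonneg_left hpi.le (by norm_num) (by linarith)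
  linarith

theorem w2_gt (hd : 1 ≤ d) : Real.pi / 2 < Real.pi / 2 + Real.pi / (4 * d) := by
  have hpi := Real.pi_pos
  have hd' : (1 : ℝ) ≤ d := by exact_mod_cast hd
  have : 0 < Real.pi / (4 * d) := by positivity
  linarith

theorem w2_pi (hd : 1 ≤ d) : Real.pi / 2 + Real.pi / (4 * d) ≤ Real.pi * d := by
  have hpi := Real.pi_pos
  have hd' : (1 : ℝ) ≤ d := by exact_mod_cast hd
  have := w2_le hd
  nlinarith

theorem bt_pat (hd : 1 ≤ d) {k : ℕ} (hk : k < d) {x : ℝ}
    (hx : |x - 2 * Real.pi * (k + 1)| ≤ Real.pi / 2) : bt d x = if k + 1 = d then 1 else 0 := by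
  have hpi := Real.pi_pos
  have hw := w2_le hd
  split_ifs with h
  · have e : bt d x = sb d 0 (Real.pi / 2) (Real.pi / 2 + Real.pi / (4 * d))
        (x - 2 * Real.pi * d) := by
      rw [← sb_per hd, sub_add_cancel]
      rfl
    rw [e]
    refine sb_one hd (by positivity) (w2_gt hd) (w2_pi hd) ?_
    have h' : (k : ℝ) + 1 = d := by exact_mod_cast h
    rw [sub_zero, ← h']
    exact hx
  · have h' : k + 1 ≤ d - 1 := by omega
    have h'' : (k : ℝ) + 1 ≤ d - 1 := by
      have : k + 1 + 1 ≤ d := by omega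
      have : ((k : ℝ) + 1) + 1 ≤ d := by exact_mod_cast this
      linarith
    have hk0 : (0 : ℝ) ≤ k := by positivity
    rw [abs_le] at hx
    have e : bt d x = sb d 0 (Real.pi / 2) (Real.pi / 2 + Real.pi / (4 * d))
        (x - 2 * Real.pi * d) := by
      rw [← sb_per hd, sub_add_cancel]
      rfl
    rw [e]
    refine sb_zero' hd (by positivity) (w2_gt hd) (w2_pi hd) ?_ ?_
    · nlinarith [mul_le_mul_of_nonneg_left h'' hpi.le]
    · nlinarith [mul_nonneg hpi.le hk0]

theorem bt_lev (hd : 1 ≤ d) : Lev d (bt d) := by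
  refine lev_sb hd fun k hk x hx => ?_
  have h := bt_pat hd hk hx
  unfold bt at h
  rw [h]
  split_ifs
  · right; rfl
  · left; rfl

theorem bt_cutY (hd : 1 ≤ d) : CutY d fun x => bt d ((d : ℝ) * x) where
  smooth := (contDiff_sb (n := 2) d _ _ _).comp (contDiff_const.mul contDiff_id)
  per := by
    intro x
    show bt d ((d : ℝ) * (x + 2 * Real.pi)) = bt d ((d : ℝ) * x)
    rw [show (d : ℝ) * (x + 2 * Real.pi) = d * x + 2 * Real.pi * d by ring]
    exact sb_per hd _ _ _ _
  nn := fun x => sb_nonneg _ _ _ _ _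
  le := fun x => sb_le_one _ _ _ _ _
  one := by
    intro x hx
    have hd' : (0 : ℝ) < d := by exact_mod_cast hd
    refine sb_one hd (by positivity) (w2_gt hd) (w2_pi hd) ?_
    rw [sub_zero, abs_mul, abs_of_pos hd']
    rw [le_div_iff₀ (by positivity)] at hx
    linarith
  zero := by
    intro x hx hx2
    have hpi := Real.pi_pos
    have hd' : (0 : ℝ) < d := by exact_mod_cast hd
    have hd1 : (1 : ℝ) ≤ d := by exact_mod_cast hd
    have hdx : |(d : ℝ) * x| = d * |x| := by rw [abs_mul, abs_of_pos hd']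
    by_cases h : Real.pi / 2 + Real.pi / (4 * d) ≤ |(d : ℝ) * x|
    · left
      refine sb_zero hd (by positivity) (w2_gt hd) (w2_pi hd) (by rwa [sub_zero]) ?_
      rw [sub_zero, hdx]
      nlinarith
    · right
      push Not at h
      have h1 : Real.pi / 2 < |(d : ℝ) * x| := by
        rw [hdx]
        rw [div_lt_iff₀ (by positivity)] at hx
        linarith
      constructor
      · rw [← Real.cos_abs]
        exact Real.cos_neg_of_pi_div_two_lt_of_lt h1 (by linarith [w2_le hd])
      · have h2 : Real.cos (((d : ℝ) - 1) * x) = Real.sin (Real.pi / 2 - ((d : ℝ) - 1) * |x|) := by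
          rw [Real.sin_pi_div_two_sub, ← Real.cos_abs, abs_mul,
            abs_of_nonneg (by linarith : (0 : ℝ) ≤ (d : ℝ) - 1)]
        have h3 : |x| < (Real.pi / 2 + Real.pi / (4 * d)) / d := by
          rw [lt_div_iff₀ hd']
          rw [hdx] at h
          linarith
        have h4 : Real.pi * (d + 1) / (4 * d ^ 2) ≤ Real.pi / 2 - ((d : ℝ) - 1) * |x| := by
          have h5 : ((d : ℝ) - 1) * |x| ≤ ((d : ℝ) - 1) * ((Real.pi / 2 + Real.pi / (4 * d)) / d) :=
            mul_le_mul_of_nonneg_left h3.le (by linarith)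
          have h6 : Real.pi / 2 - ((d : ℝ) - 1) * ((Real.pi / 2 + Real.pi / (4 * d)) / d) =
              Real.pi * (d + 1) / (4 * d ^ 2) := by
            field_simp
            ring
          linarith
        have h7 : 0 ≤ Real.pi / 2 - ((d : ℝ) - 1) * |x| := le_trans (by positivity) h4
        have h8 : Real.pi / 2 - ((d : ℝ) - 1) * |x| ≤ Real.pi / 2 := by
          have : 0 ≤ ((d : ℝ) - 1) * |x| := mul_nonneg (by linarith) (abs_nonneg x)
          linarith
        have h9 := Real.mul_le_sin h7 h8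
        rw [h2]
        have h10 : ((d : ℝ) + 1) / (2 * d ^ 2) ≤ Real.sin (Real.pi / 2 - ((d : ℝ) - 1) * |x|) := by
          refine le_trans ?_ h9
          have h11 : 2 / Real.pi * (Real.pi * (d + 1) / (4 * d ^ 2)) = ((d : ℝ) + 1) / (2 * d ^ 2) := by
            field_simp
            ring
          rw [← h11]
          exact mul_le_mul_of_nonneg_left h4 (by positivity)
        have h12 : (1 : ℝ) ≤ (2 * (d : ℝ) - 1) * (((d : ℝ) + 1) / (2 * d ^ 2)) := by
          rw [mul_div_assoc', le_div_iff₀ (by positivity)]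
          nlinarith
        exact h12.trans (mul_le_mul_of_nonneg_left h10 (by linarith))

end Bt

/-! ### the aligned cut-off in `x` -/

theorem lv_cutX {d N : ℕ} (hd : 1 ≤ d) (hdN : d ≤ N) :
    CutX d fun x => lv N d (aph d (N - d) (Real.pi / (3 * d)) x) := by
  have hpi := Real.pi_pos
  have hd' : (0 : ℝ) < d := by exact_mod_cast hd
  have hd1 : (1 : ℝ) ≤ d := by exact_mod_cast hd
  have hJ0 : 0 < Real.pi / (3 * d) := by positivity
  have hJ1 : Real.pi / (3 * d) < Real.pi := by
    rw [div_lt_iff₀ (by positivity)]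
    nlinarith
  have hdeg : Deg N (aph d (N - d) (Real.pi / (3 * d))) := by
    have := deg_aph d (N - d) hJ0 hJ1
    rwa [Nat.add_sub_cancel' hdN] at this
  have hcast : ((N - d : ℕ) : ℝ) = N - d := by
    rw [Nat.cast_sub hdN]
  refine ⟨?_, ?_, fun x => sb_nonneg _ _ _ _ _, fun x => sb_le_one _ _ _ _ _, ?_, ?_⟩
  · exact (contDiff_sb (n := 2) N _ _ _).comp (contDiff_aph (n := 2) d (N - d) _)
  · exact hdeg.per_sb (hd.trans hdN) _ _ _
  · intro x hx
    have hmono : Monotone (aph d (N - d) (Real.pi / (3 * d))) :=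
      monotone_of_deriv_nonneg
        (fun x => (hasDerivAt_aph d (N - d) (Real.pi / (3 * d)) x).differentiableAt)
        fun x => hd'.le.trans (deriv_aph_ge d (N - d) hJ0 hJ1 x)
    rw [abs_le] at hx
    have e1 : aph d (N - d) (Real.pi / (3 * d)) (Real.pi / (3 * d)) = 4 * Real.pi / 3 := by
      rw [aph_out d (N - d) hJ0 hJ1 le_rfl (by linarith)]
      field_simp
      ring
    have h1 : aph d (N - d) (Real.pi / (3 * d)) x ≤ 4 * Real.pi / 3 := by
      rw [← e1]; exact hmono hx.2
    have h2 : 2 * Real.pi / 3 - 2 * Real.pi * (N - d) ≤ aph d (N - d) (Real.pi / (3 * d)) x := by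
      have h3 := hmono hx.1
      rw [aph_neg, e1, hcast] at h3
      linarith
    show lv N d (aph d (N - d) (Real.pi / (3 * d)) x) = 1
    have e2 := (lv_lev hd hdN).per (aph d (N - d) (Real.pi / (3 * d)) x)
    rw [← e2]
    refine lv_one hd hdN ?_ ?_
    · linarith
    · linarith
  · intro x hx hx2
    have hJJ : Real.pi / (3 * d) ≤ Real.pi / (2 * d) :=
      div_le_div_of_nonneg_left hpi.le (by positivity) (by linarith)
    show lv N d (aph d (N - d) (Real.pi / (3 * d)) x) = 0
    rw [aph_out d (N - d) hJ0 hJ1 (by linarith) (by linarith)]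
    rw [div_le_iff₀ (by positivity)] at hx
    have hx3 : (d : ℝ) * x ≤ 2 * Real.pi * d - Real.pi / 2 := by
      have h4 := mul_le_mul_of_nonneg_left hx2 hd'.le
      have h5 : (d : ℝ) * (2 * Real.pi - Real.pi / (2 * d)) = 2 * Real.pi * d - Real.pi / 2 := by
        field_simp
      linarith
    refine lv_zero hd hdN ?_ ?_
    · linarith
    · linarith

/-! ### aligned data -/

variable {n : ℕ}

/-- the exponent of circle `i` -/
def dD (a : Fin (n + 1) → ℕ) (e : Fin n) (i : Fin (n + 1)) : ℝ :=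
  if (i : ℕ) = e then ((a e.succ + 1 : ℕ) : ℝ) else 9

/-- the size of circle `i` -/
def eE (a : Fin (n + 1) → ℕ) (e : Fin n) (i : Fin (n + 1)) : ℝ :=
  if (i : ℕ) = e then (1 / 3) * ((1 / ((a e.succ + 1 : ℕ) : ℝ)) *
    ((((a e.succ + 1 : ℕ) : ℝ) - 1) / ((a e.succ + 1 : ℕ) : ℝ)) ^ (a e.succ + 1 - 1)) else 1

def pP (e e' : Fin n) : ℝ := if (e' : ℕ) + 1 = e then 9 / 4 else 9 / 2

def mM (a : Fin (n + 1) → ℕ) (e e' : Fin n) : ℝ :=
  if (e' : ℕ) + 1 = e then 3 * ((a e.succ + 1 : ℕ) : ℝ) / 4 else 9 / 2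

def kK (a : Fin (n + 1) → ℕ) (e e' : Fin n) : ℝ :=
  (pP e e' / dD a e e'.castSucc) ^ (pP e e' / dD a e e'.castSucc) *
    (mM a e e' / dD a e e'.succ) ^ (mM a e e' / dD a e e'.succ)

def lL (a : Fin (n + 1) → ℕ) (e e' : Fin n) : ℝ :=
  eE a e e'.castSucc ^ (pP e e' / dD a e e'.castSucc) *
    eE a e e'.succ ^ (mM a e e' / dD a e e'.succ)

/-- aligned data at `e` -/
def XX (a : Fin (n + 1) → ℕ) (e : Fin n) : LD n where
  D := dD a e
  ep := eE a e
  ph := fun i => if (i : ℕ) = e then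
    aph (a e.succ + 1) (dg a i - (a e.succ + 1)) (Real.pi / (3 * ((a e.succ + 1 : ℕ) : ℝ)))
    else fun x => (dg a i : ℝ) * x
  c := fun e' => (lL a e e' + 1) / kK a e e'
  p := pP e
  m := mM a e
  lam := fun e' => lv (dg a e'.castSucc) (dg a e'.succ)
  bet := fun e' => bt (dg a e'.succ)

variable {a : Fin (n + 1) → ℕ}

theorem dg_succ (a : Fin (n + 1) → ℕ) (e : Fin n) : dg a e.succ = a e.succ + 1 := by
  simp [dg, Fin.succ_ne_zero]

theorem dg_le (ha : Exps a) (e : Fin n) : dg a e.succ ≤ dg a e.castSucc := by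
  rw [dg_succ]
  have h1 : a e.succ < a e.castSucc := ha.anti (Fin.castSucc_lt_succ)
  unfold dg
  split_ifs <;> omega

theorem dg_two (ha : Exps a) (i : Fin (n + 1)) : 2 ≤ dg a i := by
  have := ha.two i
  unfold dg
  split_ifs <;> omega

theorem pha_lin {d : ℕ} (hd : 1 ≤ d) : Pha d fun x => (d : ℝ) * x where
  smooth := contDiff_const.mul contDiff_id
  deg := fun x => by ring
  pos := fun x => by
    have h : HasDerivAt (fun x : ℝ => (d : ℝ) * x) (d : ℝ) x := by
      simpa using (hasDerivAt_id x).const_mul (d : ℝ)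
    rw [h.deriv]
    exact_mod_cast hd

theorem dD_pos (a : Fin (n + 1) → ℕ) (e : Fin n) (i : Fin (n + 1)) : 0 < dD a e i := by
  unfold dD
  split_ifs
  · exact_mod_cast Nat.succ_pos _
  · norm_num

theorem pP_pos (e e' : Fin n) : 0 < pP e e' := by
  unfold pP; split_ifs <;> norm_num

theorem mM_pos (a : Fin (n + 1) → ℕ) (e e' : Fin n) : 0 < mM a e e' := by
  unfold mM
  split_ifs
  · have : (0 : ℝ) < ((a e.succ + 1 : ℕ) : ℝ) := by exact_mod_cast Nat.succ_pos _
    positivity
  · norm_num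

theorem eE_pos (ha : Exps a) (e : Fin n) (i : Fin (n + 1)) : 0 < eE a e i := by
  unfold eE
  have h2 : (2 : ℝ) ≤ a e.succ := by exact_mod_cast ha.two e.succ
  split_ifs
  · have : (0 : ℝ) < (((a e.succ + 1 : ℕ) : ℝ) - 1) / ((a e.succ + 1 : ℕ) : ℝ) := by
      push_cast
      apply div_pos <;> linarith
    positivity
  · norm_num

theorem kK_pos (a : Fin (n + 1) → ℕ) (e e' : Fin n) : 0 < kK a e e' :=
  mul_pos (Real.rpow_pos_of_pos (div_pos (pP_pos e e') (dD_pos a e _)) _)
    (Real.rpow_pos_of_pos (div_pos (mM_pos a e e') (dD_pos a e _)) _)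

theorem lL_pos (ha : Exps a) (e e' : Fin n) : 0 < lL a e e' :=
  mul_pos (Real.rpow_pos_of_pos (eE_pos ha e _) _) (Real.rpow_pos_of_pos (eE_pos ha e _) _)

theorem ok (ha : Exps a) (e : Fin n) : (XX a e).Ok a e where
  hD := by
    intro i hi
    show 2 < dD a e i
    unfold dD
    have h2 : (2 : ℝ) ≤ a e.succ := by exact_mod_cast ha.two e.succ
    split_ifs
    · push_cast; linarith
    · norm_num
  hep := by
    intro i hi
    exact eE_pos ha e i
  hph := by
    intro i hi
    show Pha (dg a i) (if (i : ℕ) = e then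
      aph (a e.succ + 1) (dg a i - (a e.succ + 1)) (Real.pi / (3 * ((a e.succ + 1 : ℕ) : ℝ)))
      else fun x => (dg a i : ℝ) * x)
    split_ifs with h
    · have hi' : i = e.castSucc := Fin.ext h
      subst hi'
      have hpi := Real.pi_pos
      have hle : a e.succ + 1 ≤ dg a e.castSucc := by
        rw [← dg_succ]; exact dg_le ha e
      have hd1 : (1 : ℝ) ≤ ((a e.succ + 1 : ℕ) : ℝ) := by exact_mod_cast Nat.succ_pos _
      have hJ0 : 0 < Real.pi / (3 * ((a e.succ + 1 : ℕ) : ℝ)) := by positivity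
      have hJ1 : Real.pi / (3 * ((a e.succ + 1 : ℕ) : ℝ)) < Real.pi := by
        rw [div_lt_iff₀ (by positivity)]
        nlinarith
      refine ⟨contDiff_aph (n := 2) _ _ _, ?_, fun x => ?_⟩
      · have := deg_aph (a e.succ + 1) (dg a e.castSucc - (a e.succ + 1)) hJ0 hJ1
        rwa [Nat.add_sub_cancel' hle] at this
      · exact lt_of_lt_of_le (by linarith) (deriv_aph_ge _ _ hJ0 hJ1 x)
    · exact pha_lin (by have := dg_two ha i; omega)
  hc := by
    intro e' he'
    show 0 < (lL a e e' + 1) / kK a e e'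
    have := lL_pos ha e e'
    exact div_pos (by linarith) (kK_pos a e e')
  hp := by
    intro e' he'
    show 2 < pP e e'
    unfold pP
    split_ifs <;> norm_num
  hm := by
    intro e' he'
    show 2 < mM a e e'
    have h2 : (2 : ℝ) ≤ a e.succ := by exact_mod_cast ha.two e.succ
    unfold mM
    split_ifs
    · push_cast; linarith
    · norm_num
  sum := by
    intro e' he'
    show pP e e' / dD a e e'.castSucc + mM a e e' / dD a e e'.succ = 1
    have h2 : (2 : ℝ) ≤ a e.succ := by exact_mod_cast ha.two e.succ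
    have h0 : ¬ (((e'.castSucc : Fin (n + 1)) : ℕ) = e) := by
      rw [Fin.val_castSucc]; omega
    unfold pP dD mM
    rw [if_neg h0, Fin.val_succ]
    split_ifs
    · push_cast
      field_simp
      norm_num
    · norm_num
  nc := by
    intro e' he'
    show lL a e e' < kK a e e' * ((lL a e e' + 1) / kK a e e')
    rw [mul_div_cancel₀ _ (kK_pos a e e').ne']
    linarith
  hlam := by
    intro e' he'
    exact lv_lev (by have := dg_two ha e'.succ; omega) (dg_le ha e')
  hbet := by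
    intro e' he'
    exact bt_lev (by have := dg_two ha e'.succ; omega)
  lam1 := by
    intro e' he' k hk x hx
    exact lv_pat (by have := dg_two ha e'.succ; omega) (dg_le ha e') hk hx
  bet1 := by
    intro e' he' k hk x hx
    exact bt_pat (by have := dg_two ha e'.succ; omega) hk hx

/-- **AlignP**. -/
theorem alignP (ha : Exps a) (e : Fin n) : AlignP a e := by
  have hpi := Real.pi_pos
  have hle : a e.succ + 1 ≤ dg a e.castSucc := by
    rw [← dg_succ]; exact dg_le ha e
  have h2 : 2 ≤ a e.succ := ha.two e.succ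
  have h2' : (2 : ℝ) ≤ a e.succ := by exact_mod_cast h2
  have hd1 : (1 : ℝ) ≤ ((a e.succ + 1 : ℕ) : ℝ) := by exact_mod_cast Nat.succ_pos _
  have hJ0 : 0 < Real.pi / (3 * ((a e.succ + 1 : ℕ) : ℝ)) := by positivity
  have hJ1 : Real.pi / (3 * ((a e.succ + 1 : ℕ) : ℝ)) < Real.pi := by
    rw [div_lt_iff₀ (by positivity)]
    nlinarith
  refine ⟨XX a e, lv (dg a e.castSucc) (a e.succ + 1), bt (a e.succ + 1), ?_, ?_, ?_, ?_, ?_, ?_, ?_⟩
  · refine ⟨ok ha e, ?_, ?_, ?_⟩
    · intro i hi
      show dD a e i = _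
      unfold dD
      rw [if_pos hi, mul_one]
    · intro i hi x hx hx2
      show (if (i : ℕ) = e then
        aph (a e.succ + 1) (dg a i - (a e.succ + 1)) (Real.pi / (3 * ((a e.succ + 1 : ℕ) : ℝ)))
        else fun x => (dg a i : ℝ) * x) x = _
      rw [if_pos hi]
      exact aph_out _ _ hJ0 hJ1 hx hx2
    · intro i hi
      show 2 * eE a e i < _
      unfold eE
      rw [if_pos hi]
      have : (0 : ℝ) < (((a e.succ + 1 : ℕ) : ℝ) - 1) / ((a e.succ + 1 : ℕ) : ℝ) := by
        push_cast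
        apply div_pos <;> linarith
      have : 0 < (1 / ((a e.succ + 1 : ℕ) : ℝ)) *
        ((((a e.succ + 1 : ℕ) : ℝ) - 1) / ((a e.succ + 1 : ℕ) : ℝ)) ^ (a e.succ + 1 - 1) := by
        positivity
      linarith
  · exact lv_lev (by omega) hle
  · have e1 : (XX a e).ph e.castSucc = aph (a e.succ + 1) (dg a e.castSucc - (a e.succ + 1))
        (Real.pi / (3 * ((a e.succ + 1 : ℕ) : ℝ))) := by
      show (if ((e.castSucc : Fin (n + 1)) : ℕ) = e then _ else _) = _
      rw [if_pos (Fin.val_castSucc e)]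
    rw [e1]
    exact lv_cutX (by omega) hle
  · intro k hk x hx
    rw [dg_succ]
    exact lv_pat (by omega) hle hk hx
  · rw [dg_succ]
    exact bt_lev (by omega)
  · exact bt_cutY (by omega)
  · intro k hk x hx
    rw [dg_succ] at hk ⊢
    exact bt_pat (by omega) hk hx

end Crest.Agent.R267.Align_504
end
end

-- ▼ part R267/VP_855
section

/-!
# Row 267 (helper855): the planar conditions of `V = Q_j - K η ^ d` (hypotheses of `TrP`)

`vp`: for `η = pol P q`; instances `qS1 = cis` (S1), `qS3a`, `qS3b` (the two halves of S3).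
-/

set_option autoImplicit false

noncomputable section

open Set Filter Topology
open scoped ContDiff
open Crest.Agent.R267.Ang_739 Crest.Agent.R267.Hm_951
open Crest.Agent.R267.LemL_951 (PH Good2 good2_of_rot)
open Crest.Agent.R267.Sys_808 Crest.Agent.R267.LobeDefs_407

namespace Crest.Agent.R267.VP_855

local notation "π" => Real.pi

/-! ### `pol` -/

section PolC2

variable {F : Type*} [NormedAddCommGroup F] [NormedSpace ℝ F]

theorem contDiff_pol {D : ℝ} (hD : 2 < D) {q : ℝ → F} (hq : ContDiff ℝ 2 q) (hper : Per q) :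
    ContDiff ℝ 2 (pol D q) := by
  have h1 : ContDiffOn ℝ 2 (fun p : ℝ × ℂ => q (Complex.arg p.2)) (univ ×ˢ {0}ᶜ) :=
    contDiffOn_ang2 (q := fun p : ℝ × ℝ => q p.2) (fun _ => hper) isOpen_univ
      (hq.comp contDiff_snd).contDiffOn
  have h2 := contDiffOn_rpow_smul (T := univ) isOpen_univ (D := fun _ => D) contDiffOn_const
    (fun _ _ => hD) h1 (fun t _ r hr z => by
      show q (Complex.arg ((r : ℂ) * z)) = q (Complex.arg z)
      rw [Complex.arg_real_mul _ hr])
  have h3 : ContDiff ℝ 2 (fun z : ℂ => ((0 : ℝ), z)) := contDiff_const.prodMk contDiff_id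
  have h4 := h2.comp h3.contDiffOn (s := univ) fun z _ => ⟨mem_univ _, mem_univ _⟩
  rw [contDiffOn_univ] at h4
  exact h4


theorem cis_pow (x : ℝ) (n : ℕ) : cis x ^ n = cis (n * x) := by
  unfold cis
  rw [← Complex.exp_nat_mul]
  congr 1
  push_cast
  ring

theorem cis_re (x : ℝ) : (cis x).re = Real.cos x := Complex.exp_ofReal_mul_I_re x
theorem cis_im (x : ℝ) : (cis x).im = Real.sin x := Complex.exp_ofReal_mul_I_im x

theorem cis_ne (x : ℝ) : cis x ≠ 0 := Complex.exp_ne_zero _

theorem cis_add_pi (x : ℝ) : cis (x + π) = -cis x := by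
  unfold cis
  rw [Complex.ofReal_add, add_mul, Complex.exp_add, Complex.exp_pi_mul_I, mul_neg_one]

theorem pol_pow {P : ℝ} (q : ℝ → ℂ) (d : ℕ) (x : ℂ) :
    pol P q x ^ d = pol (d * P) (fun ξ => q ξ ^ d) x := by
  unfold pol
  rw [smul_pow, ← Real.rpow_natCast, ← Real.rpow_mul (norm_nonneg _), mul_comm P]

theorem pol_cis (P : ℝ) (x : ℂ) (hP : P ≠ 0) : pol P cis x = pw P x := by
  unfold pol pw
  by_cases hx : x = 0
  · subst hx
    simp [Real.zero_rpow hP]
  · have hn : 0 < ‖x‖ := norm_pos_iff.2 hx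
    have e : cis (Complex.arg x) * (‖x‖ : ℂ) = x := by
      rw [mul_comm]; exact Complex.norm_mul_exp_arg_mul_I x
    have e2 : ‖x‖ ^ P = ‖x‖ ^ (P - 1) * ‖x‖ := by
      rw [← Real.rpow_add_one hn.ne']; congr 1; ring
    rw [e2, Complex.real_smul]
    push_cast
    rw [mul_assoc, mul_comm (‖x‖ : ℂ), e]

theorem pol_one_cis (x : ℂ) : pol 1 cis x = x := by
  rw [pol_cis 1 x one_ne_zero]
  unfold pw
  rw [sub_self, Real.rpow_zero]
  simp

end PolC2

/-! ### the angular part of `V` -/

/-- `V = Q_j - K η ^ d`, `η = pol P q` -/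
def V {n : ℕ} (X : LD n) (e : Fin n) (d : ℕ) (K P : ℝ) (q : ℝ → ℂ) (x : ℂ) : ℂ :=
  X.Q e.castSucc x - (K : ℂ) * (pol P q x) ^ d

/-- its angular part -/
def vq (ep K : ℝ) (φ : ℝ → ℝ) (d : ℕ) (q : ℝ → ℂ) (ξ : ℝ) : ℂ :=
  (ep : ℂ) * cis (φ ξ) - (K : ℂ) * q ξ ^ d

section Main

variable {n : ℕ} {a : Fin (n + 1) → ℕ} {e : Fin n} {X : LD n} {P : ℝ}

/-- everything about the aligned phase -/
structure AlF (δ d : ℕ) (φ : ℝ → ℝ) : Prop where
  smooth : ContDiff ℝ 2 φ
  deg : Deg δ φ
  al : ∀ x : ℝ, π / (3 * d) ≤ x → x ≤ 2 * π - π / (3 * d) → φ x = d * x + π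

theorem alF (hA : X.Al a e (a e.succ + 1) P) :
    AlF (dg a e.castSucc) (a e.succ + 1) (X.ph e.castSucc) where
  smooth := (hA.ok.hph e.castSucc le_rfl).smooth
  deg := (hA.ok.hph e.castSucc le_rfl).deg
  al := hA.ph e.castSucc rfl

/-- points outside the cell `J` -/
theorem AlF.out {δ d : ℕ} {φ : ℝ → ℝ} (h : AlF δ d φ) (hd : 1 ≤ d) {ξ c : ℝ}
    (hc : 1 / 3 ≤ c) (h1 : π * c / d ≤ |ξ|) (h2 : |ξ| ≤ π) :
    ∃ θ : ℝ, π + π * c ≤ θ ∧ θ ≤ 2 * π * d + π - π * c ∧ (φ ξ = θ ∨ φ ξ = θ - 2 * π * δ) ∧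
      cis θ = -cis (d * ξ) := by
  have hπ := Real.pi_pos
  have hd' : (1 : ℝ) ≤ d := by exact_mod_cast hd
  have hd0 : (0 : ℝ) < d := by linarith
  have hcd : π / (3 * d) ≤ π * c / d := by
    rw [div_le_div_iff₀ (by positivity) hd0]
    nlinarith [mul_pos hπ hd0]
  rcases le_total 0 ξ with h0 | h0
  · rw [abs_of_nonneg h0] at h1 h2
    refine ⟨d * ξ + π, ?_, ?_, Or.inl (h.al ξ (hcd.trans h1) ?_), cis_add_pi _⟩
    · have := mul_le_mul_of_nonneg_left h1 hd0.le
      rw [mul_div_cancel₀ _ hd0.ne'] at this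
      linarith
    · have h3 : π * c / d ≤ π := h1.trans h2
      rw [div_le_iff₀ hd0] at h3
      nlinarith [mul_le_mul_of_nonneg_left h2 hd0.le]
    · have : π / (3 * d) ≤ π := hcd.trans (h1.trans h2)
      linarith
  · rw [abs_of_nonpos h0] at h1 h2
    have h3 : φ (ξ + 2 * π) = d * (ξ + 2 * π) + π := by
      refine h.al _ ?_ ?_
      · have : π / (3 * d) ≤ π := hcd.trans (h1.trans h2)
        linarith
      · have := hcd.trans h1
        linarith
    refine ⟨d * (ξ + 2 * π) + π, ?_, ?_, Or.inr ?_, ?_⟩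
    · have h3 : π * c / d ≤ π := h1.trans h2
      rw [div_le_iff₀ hd0] at h3
      nlinarith [mul_le_mul_of_nonneg_left (by linarith : π ≤ ξ + 2 * π) hd0.le]
    · have := mul_le_mul_of_nonneg_left h1 hd0.le
      rw [mul_div_cancel₀ _ hd0.ne'] at this
      nlinarith
    · have := h.deg ξ
      rw [h3] at this
      linarith
    · rw [cis_add_pi, mul_add, show (d : ℝ) * ξ + d * (2 * π) = d * ξ + 2 * π * d by ring,
        cis_per_nat]

theorem AlF.cis_out {δ d : ℕ} {φ : ℝ → ℝ} (h : AlF δ d φ) (hd : 1 ≤ d) {ξ : ℝ}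
    (h1 : π / (3 * d) ≤ |ξ|) (h2 : |ξ| ≤ π) : cis (φ ξ) = -cis (d * ξ) := by
  obtain ⟨θ, -, -, h3, h4⟩ := h.out hd (c := 1 / 3) le_rfl (by
    rw [show π * (1 / 3) / (d : ℝ) = π / (3 * d) by ring]; exact h1) h2
  rcases h3 with h3 | h3
  · rw [h3, h4]
  · rw [h3, ← h4]
    have := cis_per θ (-δ)
    rw [← this]
    congr 1
    push_cast
    ring

theorem AlF.deriv_out {δ d : ℕ} {φ : ℝ → ℝ} (h : AlF δ d φ) (hd : 1 ≤ d) {ξ : ℝ}
    (h1 : π / (2 * d) ≤ |ξ|) (h2 : |ξ| ≤ π) : HasDerivAt φ d ξ := by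
  have hπ := Real.pi_pos
  have hd' : (1 : ℝ) ≤ d := by exact_mod_cast hd
  have hd0 : (0 : ℝ) < d := by linarith
  have hcd : π / (3 * d) < π / (2 * d) := by
    apply div_lt_div_of_pos_left hπ (by positivity) (by linarith)
  have hpd : π / (2 * d) ≤ π / 2 := by
    apply div_le_div_of_nonneg_left hπ.le (by norm_num) (by linarith)
  have key : ∀ x : ℝ, π / (3 * d) < x → x < 2 * π - π / (3 * d) → HasDerivAt φ d x := by
    intro x hx1 hx2
    have h3 : HasDerivAt (fun x : ℝ => (d : ℝ) * x + π) (d : ℝ) x := by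
      simpa using ((hasDerivAt_id x).const_mul (d : ℝ)).add_const π
    refine h3.congr_of_eventuallyEq ?_
    filter_upwards [Ioo_mem_nhds hx1 hx2] with y hy
    exact h.al y hy.1.le hy.2.le
  rcases le_total 0 ξ with h0 | h0
  · rw [abs_of_nonneg h0] at h1 h2
    exact key ξ (by linarith) (by linarith)
  · rw [abs_of_nonpos h0] at h1 h2
    have h3 := key (ξ + 2 * π) (by linarith) (by linarith)
    have h4 : HasDerivAt (fun x => φ (x + 2 * π)) d ξ := by
      have := HasDerivAt.comp_add_const ξ (2 * π) h3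
      exact this
    have h5 : φ = fun x => φ (x + 2 * π) - 2 * π * δ := by
      funext x
      rw [h.deg x]; ring
    rw [h5]
    exact h4.sub_const _

/-- the constant -/
theorem ep_lt (hA : X.Al a e (a e.succ + 1) P) {K : ℝ}
    (hK : (1 / ((a e.succ : ℝ) + 1)) * ((a e.succ : ℝ) / ((a e.succ : ℝ) + 1)) ^ (a e.succ) ≤ K) :
    2 * X.ep e.castSucc < K := by
  have h := hA.ep e.castSucc rfl
  push_cast at h
  simp only [add_sub_cancel_right] at h
  exact h.trans_le hK

theorem contDiff_vq {ep K : ℝ} {φ : ℝ → ℝ} {d : ℕ} {q : ℝ → ℂ} {m : WithTop ℕ∞}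
    (hφ : ContDiff ℝ m φ) (hq : ContDiff ℝ m q) : ContDiff ℝ m (vq ep K φ d q) :=
  (contDiff_const.mul (contDiff_cis.comp hφ)).sub (contDiff_const.mul (hq.pow d))

theorem per_vq {ep K : ℝ} {φ : ℝ → ℝ} {δ d : ℕ} {q : ℝ → ℂ} (hφ : Deg δ φ) (hq : Per q) :
    Per (vq ep K φ d q) := fun x => by
  have h1 : (ep : ℂ) * cis (φ (x + 2 * π)) = (ep : ℂ) * cis (φ x) := hφ.per ep x
  unfold vq
  rw [h1, hq x]

theorem V_eq (hA : X.Al a e (a e.succ + 1) P) (K : ℝ) (q : ℝ → ℂ) :
    V X e (a e.succ + 1) K P q =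
      pol (X.D e.castSucc) (vq (X.ep e.castSucc) K (X.ph e.castSucc) (a e.succ + 1) q) := by
  funext x
  have hD : X.D e.castSucc = ((a e.succ + 1 : ℕ) : ℝ) * P := hA.deg e.castSucc rfl
  unfold V
  rw [pol_pow q (a e.succ + 1), ← hD]
  unfold LD.Q pc pol vq
  rw [Complex.real_smul, Complex.real_smul, Complex.real_smul]
  ring

/-- the conditions on `q` -/
structure QC (d : ℕ) (q : ℝ → ℂ) : Prop where
  smooth : ContDiff ℝ 2 q
  per : Per q
  h1 : ∀ ξ, |ξ| < π / (2 * d) → 0 ≤ (q ξ ^ d).re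
  h2 : ∀ ξ, |ξ| ≤ π / (3 * d) → 1 / 2 ≤ (q ξ ^ d).re
  h3 : ∀ ξ, π / (2 * d) ≤ |ξ| → |ξ| ≤ π → ∃ s : ℝ, 0 ≤ s ∧ q ξ = s * cis ξ ∧
    HasDerivAt q (s * (Complex.I * cis ξ)) ξ

/-- negative real part near `ξ = 0` -/
theorem vq_neg {ep K : ℝ} {φ : ℝ → ℝ} {δ d : ℕ} {q : ℝ → ℂ} (hd : 1 ≤ d) (hφ : AlF δ d φ)
    (hq : QC d q) (hep : 0 < ep) (hK : 2 * ep < K) {ξ : ℝ} (h : |ξ| < π / (2 * d)) :
    (vq ep K φ d q ξ).re < 0 := by
  have hπ := Real.pi_pos
  have hd' : (1 : ℝ) ≤ d := by exact_mod_cast hd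
  have hd0 : (0 : ℝ) < d := by linarith
  have hre : (vq ep K φ d q ξ).re = ep * Real.cos (φ ξ) - K * (q ξ ^ d).re := by
    unfold vq
    rw [Complex.sub_re, Complex.re_ofReal_mul, Complex.re_ofReal_mul, cis_re]
  rw [hre]
  by_cases h2 : |ξ| ≤ π / (3 * d)
  · have h3 := hq.h2 ξ h2
    have h4 := Real.cos_le_one (φ ξ)
    nlinarith
  · push Not at h2
    have hpd : π / (2 * d) ≤ π / 2 := by
      apply div_le_div_of_nonneg_left hπ.le (by norm_num) (by linarith)
    have h3 := hφ.cis_out hd h2.le (by linarith)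
    have h4 : Real.cos (φ ξ) = -Real.cos (d * ξ) := by
      rw [← cis_re, h3, Complex.neg_re, cis_re]
    have h5 : 0 < Real.cos (d * ξ) := by
      have : |(d : ℝ) * ξ| < π / 2 := by
        rw [abs_mul, abs_of_pos hd0]
        calc (d : ℝ) * |ξ| < d * (π / (2 * d)) := mul_lt_mul_of_pos_left h hd0
          _ = π / 2 := by field_simp
      rw [abs_lt] at this
      exact Real.cos_pos_of_mem_Ioo ⟨by linarith, this.2⟩
    have h6 := hq.h1 ξ h
    rw [h4]
    nlinarith [mul_pos hep h5, mul_nonneg (by linarith : 0 ≤ K) h6]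

/-- rotation outside -/
theorem vq_rot {ep K : ℝ} {φ : ℝ → ℝ} {δ d : ℕ} {q : ℝ → ℂ} (hd : 1 ≤ d) (hφ : AlF δ d φ)
    (hq : QC d q) (hep : 0 < ep) (hK : 2 * ep < K) {ξ : ℝ} (h : π / (2 * d) ≤ |ξ|)
    (h' : |ξ| ≤ π) :
    ∃ c : ℝ, 0 < c ∧ vq ep K φ d q ξ = c * cis (φ ξ) ∧
      HasDerivAt (vq ep K φ d q) (d * (Complex.I * vq ep K φ d q ξ)) ξ := by
  have hπ := Real.pi_pos
  have hd' : (1 : ℝ) ≤ d := by exact_mod_cast hd
  have hd0 : (0 : ℝ) < d := by linarith
  have hcd : π / (3 * d) ≤ π / (2 * d) := by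
    apply div_le_div_of_nonneg_left hπ.le (by positivity) (by linarith)
  obtain ⟨s, hs, hs1, hs2⟩ := hq.h3 ξ h h'
  have h3 := hφ.cis_out hd (hcd.trans h) h'
  have h4 := hφ.deriv_out hd h h'
  have e1 : vq ep K φ d q ξ = ((ep + K * s ^ d : ℝ) : ℂ) * cis (φ ξ) := by
    unfold vq
    rw [hs1, mul_pow, cis_pow, h3]
    push_cast
    ring
  refine ⟨ep + K * s ^ d, ?_, e1, ?_⟩
  · have : 0 ≤ K * s ^ d := mul_nonneg (by linarith) (pow_nonneg hs d)
    linarith
  · have h5 := (hasDerivAt_epscis ep h4).sub ((hs2.fun_pow d).const_mul (K : ℂ))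
    refine h5.congr_deriv ?_
    have e2 : q ξ ^ (d - 1) * (s * (Complex.I * cis ξ)) = Complex.I * q ξ ^ d := by
      obtain ⟨k, rfl⟩ : ∃ k, d = k + 1 := ⟨d - 1, by omega⟩
      rw [Nat.add_sub_cancel, pow_succ, hs1]
      ring
    unfold vq
    rw [Complex.ofReal_natCast, mul_assoc (d : ℂ) (q ξ ^ (d - 1)), e2]
    ring

/-- `V` satisfies the hypotheses of `TrP`. -/
theorem vp (hE : Exps a) (hA : X.Al a e (a e.succ + 1) P) {K : ℝ}
    (hK : (1 / ((a e.succ : ℝ) + 1)) * ((a e.succ : ℝ) / ((a e.succ : ℝ) + 1)) ^ (a e.succ) ≤ K)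
    {q : ℝ → ℂ} (hq : QC (a e.succ + 1) q) :
    PH (X.D e.castSucc) (V X e (a e.succ + 1) K P q) ∧
    (∀ x, DifferentiableAt ℝ (V X e (a e.succ + 1) K P q) x) ∧
    (∀ x : ℂ, x ≠ 0 → V X e (a e.succ + 1) K P q x ≠ 0 ∧ ((V X e (a e.succ + 1) K P q x).re < 0 ∨
      ∃ v, (∀ e' : Fin n, e'.succ = e.castSucc → fderiv ℝ (X.h e') x v = 0) ∧
        Good2 (fderiv ℝ (V X e (a e.succ + 1) K P q) x v) (V X e (a e.succ + 1) K P q x))) ∧
    (∀ e' : Fin n, e'.succ = e.castSucc → ∀ x : ℂ, x ≠ 0 → 0 < X.h e' x →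
      0 < (V X e (a e.succ + 1) K P q x).re → (V X e (a e.succ + 1) K P q x).im = 0 →
      X.h e' x = ‖x‖ ^ X.m e' ∧
        ‖V X e (a e.succ + 1) K P q x‖ ≤ X.ep e.castSucc * ‖x‖ ^ X.D e.castSucc) := by
  have hπ := Real.pi_pos
  have hV := V_eq hA K q
  have hal := alF hA
  have hep : 0 < X.ep e.castSucc := hA.ok.hep e.castSucc le_rfl
  have hKK := ep_lt hA hK
  have hd : 1 ≤ a e.succ + 1 := by omega
  have hD : 2 < X.D e.castSucc := hA.ok.hD e.castSucc le_rfl
  have hper : Per (vq (X.ep e.castSucc) K (X.ph e.castSucc) (a e.succ + 1) q) :=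
    per_vq hal.deg hq.per
  have hC : ContDiff ℝ 2 (vq (X.ep e.castSucc) K (X.ph e.castSucc) (a e.succ + 1) q) :=
    contDiff_vq hal.smooth hq.smooth
  have hCV : ContDiff ℝ 2 (V X e (a e.succ + 1) K P q) := by
    rw [hV]
    exact contDiff_pol hD hC hper
  -- the value and the argument
  have hval : ∀ x, V X e (a e.succ + 1) K P q x = ((‖x‖ ^ X.D e.castSucc : ℝ) : ℂ) *
      vq (X.ep e.castSucc) K (X.ph e.castSucc) (a e.succ + 1) q (Complex.arg x) := by
    intro x
    rw [hV]
    exact Complex.real_smul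
  have hneg : ∀ x : ℂ, x ≠ 0 → |Complex.arg x| < π / (2 * (a e.succ + 1 : ℕ)) →
      (V X e (a e.succ + 1) K P q x).re < 0 := by
    intro x hx h
    rw [hval, Complex.re_ofReal_mul]
    exact mul_neg_of_pos_of_neg (Real.rpow_pos_of_pos (norm_pos_iff.2 hx) _)
      (vq_neg hd hal hq hep hKK h)
  refine ⟨?_, fun x => (hCV.differentiable (by norm_num)) x, ?_, ?_⟩
  · rw [hV]
    exact fun r hr z => pol_hom _ _ r hr z
  · intro x hx
    rcases lt_or_ge |Complex.arg x| (π / (2 * (a e.succ + 1 : ℕ))) with h | h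
    · have h1 := hneg x hx h
      refine ⟨fun h0 => ?_, Or.inl h1⟩
      rw [h0, Complex.zero_re] at h1
      exact lt_irrefl _ h1
    · obtain ⟨c, hc, hc1, hc2⟩ := vq_rot hd hal hq hep hKK h (Complex.abs_arg_le_pi x)
      have hr : 0 < ‖x‖ ^ X.D e.castSucc := Real.rpow_pos_of_pos (norm_pos_iff.2 hx) _
      have hv : V X e (a e.succ + 1) K P q x =
          ((‖x‖ ^ X.D e.castSucc * c : ℝ) : ℂ) * cis (X.ph e.castSucc (Complex.arg x)) := by
        rw [hval, hc1]
        push_cast
        ring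
      refine ⟨?_, ?_⟩
      · rw [hv]
        exact mul_ne_zero (Complex.ofReal_ne_zero.2 (mul_pos hr hc).ne') (cis_ne _)
      · rcases lt_or_ge (Real.cos (X.ph e.castSucc (Complex.arg x))) 0 with h5 | h5
        · left
          rw [hv, Complex.re_ofReal_mul, cis_re]
          exact mul_neg_of_pos_of_neg (mul_pos hr hc) h5
        · right
          refine ⟨Complex.I * x, ?_, ?_⟩
          · intro e' he'
            have hlt : (e' : ℕ) < (e : ℕ) := by
              have := congrArg Fin.val he'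
              simp only [Fin.val_succ, Fin.val_castSucc] at this
              omega
            have hb := hA.ok.hbet e' hlt
            rw [he'] at hb
            have hφd : HasDerivAt (X.ph e.castSucc) (((a e.succ + 1 : ℕ) : ℝ)) (Complex.arg x) :=
              hal.deriv_out hd h (Complex.abs_arg_le_pi x)
            have hbd : HasDerivAt (X.bet e') 0 (X.ph e.castSucc (Complex.arg x)) := by
              rw [← hb.flat _ h5]
              exact ((hb.smooth.differentiable (by norm_num)) _).hasDerivAt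
            have h6 : HasDerivAt (fun ξ => X.bet e' (X.ph e.castSucc ξ)) 0 (Complex.arg x) := by
              have := hbd.comp (Complex.arg x) hφd
              rw [zero_mul] at this
              exact this
            have hpe : Per (fun ξ => X.bet e' (X.ph e.castSucc ξ)) := fun ξ => by
              show X.bet e' (X.ph e.castSucc (ξ + 2 * π)) = _
              rw [hal.deg ξ, hb.per]
            have h7 : X.h e' = pol (X.m e') (fun ξ => X.bet e' (X.ph e.castSucc ξ)) := by
              funext z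
              unfold LD.h
              rw [he']
            rw [h7, fderiv_pol_I _ hpe hx h6, smul_zero]
          · have h8 : fderiv ℝ (V X e (a e.succ + 1) K P q) x (Complex.I * x) =
                (((a e.succ + 1 : ℕ) : ℝ) : ℂ) * (Complex.I * V X e (a e.succ + 1) K P q x) := by
              rw [hval x, hV, fderiv_pol_I _ hper hx hc2, Complex.real_smul]
              push_cast
              ring
            rw [h8]
            exact good2_of_rot (by positivity)
  · intro e' he' x hx hh hre him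
    exfalso
    have hlt : (e' : ℕ) < (e : ℕ) := by
      have := congrArg Fin.val he'
      simp only [Fin.val_succ, Fin.val_castSucc] at this
      omega
    rcases lt_or_ge |Complex.arg x| (π / (2 * (a e.succ + 1 : ℕ))) with h | h
    · exact lt_irrefl _ (hre.trans (hneg x hx h))
    · obtain ⟨c, hc, hc1, -⟩ := vq_rot hd hal hq hep hKK h (Complex.abs_arg_le_pi x)
      have hr : 0 < ‖x‖ ^ X.D e.castSucc := Real.rpow_pos_of_pos (norm_pos_iff.2 hx) _
      have hv : V X e (a e.succ + 1) K P q x =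
          ((‖x‖ ^ X.D e.castSucc * c : ℝ) : ℂ) * cis (X.ph e.castSucc (Complex.arg x)) := by
        rw [hval, hc1]
        push_cast
        ring
      rw [hv, Complex.re_ofReal_mul, cis_re] at hre
      rw [hv, Complex.im_ofReal_mul, cis_im] at him
      have hrc : 0 < ‖x‖ ^ X.D e.castSucc * c := mul_pos hr hc
      have hcos : 0 < Real.cos (X.ph e.castSucc (Complex.arg x)) := pos_of_mul_pos_right hre hrc.le
      have hsin : Real.sin (X.ph e.castSucc (Complex.arg x)) = 0 :=
        (mul_eq_zero.1 him).resolve_left hrc.ne'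
      obtain ⟨θ, hθ1, hθ2, hθ3, -⟩ := hal.out hd (c := 1 / 2) (by norm_num) (by
        rw [show π * (1 / 2) / ((a e.succ + 1 : ℕ) : ℝ) = π / (2 * (a e.succ + 1 : ℕ)) by ring]
        exact h) (Complex.abs_arg_le_pi x)
      have hb := hA.ok.hbet e' hlt
      have hb1 := hA.ok.bet1 e' hlt
      rw [he'] at hb hb1
      have hpos' : e.castSucc ≠ 0 := by
        rw [← he']
        exact Fin.succ_ne_zero e'
      have hdg : dg a e.castSucc = a e.castSucc + 1 := by
        unfold dg
        rw [if_neg hpos']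
      have hlt2 : a e.succ + 1 < dg a e.castSucc := by
        rw [hdg]
        have := hE.anti (Fin.castSucc_lt_succ (i := e))
        omega
      -- the value of `bet` at `φ ξ` is its value at `θ`
      have hbθ : X.bet e' (X.ph e.castSucc (Complex.arg x)) = X.bet e' θ := by
        rcases hθ3 with h3 | h3
        · rw [h3]
        · rw [h3, ← hb.per (θ - 2 * π * dg a e.castSucc)]
          congr 1
          ring
      have hcosθ : Real.cos (X.ph e.castSucc (Complex.arg x)) = Real.cos θ := by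
        rcases hθ3 with h3 | h3
        · rw [h3]
        · rw [h3, show θ - 2 * π * (dg a e.castSucc : ℝ) = θ - (dg a e.castSucc : ℕ) * (2 * π) by
            ring, Real.cos_sub_nat_mul_two_pi]
      have hsinθ : Real.sin (X.ph e.castSucc (Complex.arg x)) = Real.sin θ := by
        rcases hθ3 with h3 | h3
        · rw [h3]
        · rw [h3, show θ - 2 * π * (dg a e.castSucc : ℝ) = θ - (dg a e.castSucc : ℕ) * (2 * π) by
            ring, Real.sin_sub_nat_mul_two_pi]
      rw [hcosθ] at hcos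
      rw [hsinθ] at hsin
      -- `θ = 2 π k`
      have hcos1 : Real.cos θ = 1 := by
        have h9 := Real.sin_sq_add_cos_sq θ
        rw [hsin] at h9
        nlinarith
      obtain ⟨k, hk⟩ := (Real.cos_eq_one_iff θ).1 hcos1
      have hk1 : 1 ≤ k := by
        by_contra hcon
        have : (k : ℝ) ≤ 0 := by exact_mod_cast (by omega : k ≤ 0)
        nlinarith
      have hk2 : k ≤ (a e.succ + 1 : ℕ) := by
        by_contra hcon
        have h10 : (((a e.succ + 1 : ℕ) : ℤ) : ℝ) + 1 ≤ (k : ℝ) := by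
          exact_mod_cast (by omega : ((a e.succ + 1 : ℕ) : ℤ) + 1 ≤ k)
        rw [Int.cast_natCast] at h10
        nlinarith
      obtain ⟨k', hk'⟩ : ∃ k' : ℕ, k = k' + 1 := ⟨(k - 1).toNat, by omega⟩
      have h11 := hb1 k' (by omega) θ (by
        rw [← hk, hk']
        push_cast
        rw [show ((k' : ℝ) + 1) * (2 * π) - 2 * π * ((k' : ℝ) + 1) = 0 by ring, abs_zero]
        positivity)
      rw [if_neg (by omega)] at h11
      have h12 : X.h e' x = 0 := by
        show (‖x‖ ^ X.m e') • X.bet e' (X.ph e'.succ (Complex.arg x)) = 0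
        rw [he', hbθ, h11, smul_zero]
      rw [h12] at hh
      exact lt_irrefl _ hh

end Main

/-! ### the instances -/

section Inst

variable {d : ℕ} {l : ℝ → ℝ} {v : ℝ}

theorem cos_nonneg_cell (hd : 1 ≤ d) {ξ u : ℝ} (hu0 : 0 ≤ u) (hu : u ≤ 1)
    (h : |ξ| < π / (2 * d)) : 0 ≤ Real.cos (d * (u * ξ)) := by
  have hd0 : (0 : ℝ) < d := by exact_mod_cast hd
  have : |(d : ℝ) * (u * ξ)| ≤ π / 2 := by
    rw [abs_mul, abs_mul, abs_of_pos hd0, abs_of_nonneg hu0]
    calc (d : ℝ) * (u * |ξ|) ≤ d * (1 * |ξ|) := by gcongr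
      _ ≤ d * (1 * (π / (2 * d))) := by gcongr
      _ = π / 2 := by field_simp
  rw [abs_le] at this
  exact Real.cos_nonneg_of_mem_Icc ⟨by linarith, this.2⟩

theorem half_le_cell (hd : 1 ≤ d) {ξ u : ℝ} (hu0 : 0 ≤ u) (hu : u ≤ 1)
    (h : |ξ| ≤ π / (3 * d)) : 1 / 2 ≤ Real.cos (d * (u * ξ)) := by
  have hπ := Real.pi_pos
  have hd0 : (0 : ℝ) < d := by exact_mod_cast hd
  have : |(d : ℝ) * (u * ξ)| ≤ π / 3 := by
    rw [abs_mul, abs_mul, abs_of_pos hd0, abs_of_nonneg hu0]
    calc (d : ℝ) * (u * |ξ|) ≤ d * (1 * |ξ|) := by gcongr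
      _ ≤ d * (1 * (π / (3 * d))) := by gcongr
      _ = π / 3 := by field_simp
  rw [← Real.cos_abs, ← Real.cos_pi_div_three]
  exact Real.cos_le_cos_of_nonneg_of_le_pi (abs_nonneg _) (by linarith) this

/-- S1: `η = x` -/
theorem qc_S1 (hd : 1 ≤ d) : QC d cis where
  smooth := contDiff_cis
  per := fun x => by simpa using cis_per x 1
  h1 := fun ξ h => by
    rw [cis_pow, cis_re]
    simpa using cos_nonneg_cell hd zero_le_one le_rfl h
  h2 := fun ξ h => by
    rw [cis_pow, cis_re]
    simpa using half_le_cell hd zero_le_one le_rfl h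
  h3 := fun ξ _ _ => ⟨1, zero_le_one, by simp, by simpa using hasDerivAt_cis ξ⟩

/-- the cut-off vanishes outside -/
theorem CutX.out (hl : CutX d l) (hd : 1 ≤ d) {ξ : ℝ} (h : π / (2 * d) ≤ |ξ|) (h' : |ξ| ≤ π) :
    l ξ = 0 ∧ HasDerivAt l 0 ξ := by
  have hπ := Real.pi_pos
  have hd' : (1 : ℝ) ≤ d := by exact_mod_cast hd
  have hpd : π / (2 * d) ≤ π / 2 := by
    apply div_le_div_of_nonneg_left hπ.le (by norm_num) (by linarith)
  have h0 : l ξ = 0 := by
    rcases le_total 0 ξ with h0 | h0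
    · rw [abs_of_nonneg h0] at h h'
      exact hl.zero ξ h (by linarith)
    · rw [abs_of_nonpos h0] at h h'
      rw [← hl.per ξ]
      exact hl.zero (ξ + 2 * π) (by linarith) (by linarith)
  exact ⟨h0, hasDerivAt_zero_of_range hl.nn hl.le ((hl.smooth.differentiable (by norm_num)) ξ)
    (Or.inl h0)⟩

















end Inst

end Crest.Agent.R267.VP_855
end
end

-- ▼ part R267/S1_855
section

/-!
# Row 267 (helper855): STEP S1 of T3b
-/

set_option autoImplicit false

noncomputable section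

open Set Filter Topology
open scoped ContDiff
open Crest.Agent.R267.Ang_739 Crest.Agent.R267.Hm_951
open Crest.Agent.R267.LemL_951 (PH Good2 good2_of_rot)
open Crest.Agent.R267.Sys_808 Crest.Agent.R267.LobeDefs_407

namespace Crest.Agent.R267.S1_855

variable {n : ℕ} {a : Fin (n + 1) → ℕ}

/-- `V` with the constant `K` is regular -/
theorem trReg (ha : Exps a) (e : Fin n) {X : LD n} {P : ℝ} {q : ℝ → ℂ} {K : ℝ}
    (hX : X.Al a e (a e.succ + 1) P)
    (hK : (1 / ((a e.succ : ℝ) + 1)) * ((a e.succ : ℝ) / ((a e.succ : ℝ) + 1)) ^ (a e.succ) ≤ K)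
    (hq : VP_855.QC (a e.succ + 1) q) :
    X.TrReg e (VP_855.V X e (a e.succ + 1) K P q) := by
  obtain ⟨h1, h2, h3, h4⟩ := VP_855.vp ha hX hK hq
  exact LobeKit_407.trP a e.castSucc X _ hX.ok h1 h2 h3 h4

/-- **STEP S1** -/
theorem s1P (ha : Exps a) (e : Fin n) : S1P a e := by
  intro X hX
  have hok := hX.ok
  set d : ℕ := a e.succ + 1 with hd
  have hd0 : 0 < d := Nat.succ_pos _
  have hdr : (0 : ℝ) < d := by exact_mod_cast hd0
  have hDj : X.D e.castSucc = d := by
    have := hX.deg e.castSucc rfl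
    rwa [mul_one] at this
  have hpath : HPath fun p : ℝ × (Fin (n + 1) → ℂ) =>
      X.mid a e (fun y => (p.1 : ℂ) * y ^ d) id (fun y => y ^ a e.succ) p.2 := by
    refine HPath.of_slices (T := univ) isOpen_univ (subset_univ _) ?_ (fun t ht => ?_)
      fun t ht z hz hre => ?_
    · have h1 : (fun p : ℝ × (Fin (n + 1) → ℂ) =>
          X.mid a e (fun y => (p.1 : ℂ) * y ^ d) id (fun y => y ^ a e.succ) p.2) =
          fun p : ℝ × (Fin (n + 1) → ℂ) =>
            X.mid a e 0 id (fun y => y ^ a e.succ) p.2 + (p.1 : ℂ) * p.2 e.succ ^ d := by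
        funext p
        unfold LD.mid GF
        rw [sub_add_eq_add_sub]
        congr 1
        rw [← Finset.sum_erase_add _ _ (Finset.mem_univ e.succ)]
        conv_rhs => rw [← Finset.sum_erase_add _ _ (Finset.mem_univ e.succ)]
        have h2 : ¬ ((e.succ : Fin (n + 1)) : ℕ) ≤ e := by simp
        have h3 : ((e.succ : Fin (n + 1)) : ℕ) = e + 1 := by simp
        simp only [if_neg h2, if_pos h3, Pi.zero_apply, add_zero]
        congr 1
        refine Finset.sum_congr rfl fun i hi => ?_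
        have hne : (i : ℕ) ≠ e + 1 := fun h => (Finset.ne_of_mem_erase hi) (Fin.ext (by
          rw [h, h3]))
        simp only [if_neg hne]
      rw [h1]
      have h3 : ContDiff ℝ 2 fun p : ℝ × (Fin (n + 1) → ℂ) => p.2 e.succ :=
        (contDiff_apply ℝ ℂ e.succ).comp contDiff_snd
      refine ContDiff.contDiffOn (ContDiff.add ?_ ?_)
      · exact (S3_82.contDiff_mid hok contDiff_const contDiff_id (contDiff_id.pow _)).comp
          contDiff_snd
      · exact (Complex.ofRealCLM.contDiff.comp contDiff_fst).mul (h3.pow _)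
    · obtain ⟨w, hw, -, -, hwh⟩ := S2_843.wh_mid (a := a) ha.two (X := X) (e := e) hok
        (Y := fun y => (t : ℂ) * y ^ d) (η := id) (H := fun y => y ^ a e.succ)
        (wy := 1 / d) (by positivity)
        (by
          rw [div_lt_one hdr]
          have := ha.two e.succ
          have : (1 : ℕ) < d := by omega
          exact_mod_cast this)
        (fun s y => by
          show (t : ℂ) * ((Real.exp (s * (1 / d)) : ℂ) * y) ^ d = Real.exp s • ((t : ℂ) * y ^ d)
          have h1 : Real.exp ((d : ℕ) * (s * (1 / d))) = Real.exp s := by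
            congr 1
            field_simp
          rw [mul_pow, ← Complex.ofReal_pow, ← Real.exp_nat_mul, Complex.real_smul, h1]
          ring)
        (fun s x y => by
          show ((Real.exp (s * (1 / X.D e.castSucc)) : ℂ) * x) *
            ((Real.exp (s * (1 / d)) : ℂ) * y) ^ a e.succ =
              Real.exp s • (x * y ^ a e.succ)
          rw [mul_pow, ← Complex.ofReal_pow, ← Real.exp_nat_mul, Complex.real_smul, hDj]
          have h1 : Real.exp (s * (1 / d)) * Real.exp ((a e.succ : ℕ) * (s * (1 / d))) =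
              Real.exp s := by
            rw [← Real.exp_add]
            congr 1
            have h2 : (d : ℝ) = a e.succ + 1 := by rw [hd]; push_cast; ring
            rw [show s * (1 / (d : ℝ)) + (a e.succ : ℕ) * (s * (1 / d)) =
              s * ((a e.succ + 1) / d) by ring, ← h2, div_self hdr.ne', mul_one]
          rw [← h1]
          push_cast
          ring)
      exact ⟨w, hw, hwh⟩
    · have hA : X.TrReg e (X.Q e.castSucc) :=
        S3_82.trReg_Q (j := e.castSucc) ha (LobeKit_407.trP a _) hok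
      rcases ht.1.eq_or_lt with h0 | h0
      · have hst : X.mid a e (fun y => (t : ℂ) * y ^ d) id (fun y => y ^ a e.succ) =
            X.st a e := by
          rw [← h0]
          unfold LD.mid LD.st
          congr 1
          · funext i
            split_ifs <;> simp <;> rfl
          · funext e'
            by_cases h : (e' : ℕ) = e
            · rw [if_pos h]
            · rw [if_neg h]
          · funext e'
            by_cases h : (e' : ℕ) = e
            · have : e' = e := Fin.ext h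
              subst this
              rw [if_pos rfl]
            · rw [if_neg h]
        have hre' : 0 ≤ (X.mid a e (fun y => (t : ℂ) * y ^ d) id (fun y => y ^ a e.succ) z).re := hre
        show Function.Surjective (fderiv ℝ
          (X.mid a e (fun y => (t : ℂ) * y ^ d) id (fun y => y ^ a e.succ)) z)
        rw [hst] at hre' ⊢
        exact RedP_951.red0P ha.two e.castSucc X hok hA z hz hre'
      · refine RedP_951.redP ha.two e X t id hok h0 (fun x => differentiableAt_id) rfl hA ?_ z hz hre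
        have h1 := trReg ha e hX (K := (1 / ((a e.succ : ℝ) + 1)) *
          ((a e.succ : ℝ) / (((a e.succ : ℝ) + 1) * t)) ^ (a e.succ)) ?_ (VP_855.qc_S1 hd0)
        · have h2 : (VP_855.V X e (a e.succ + 1) ((1 / ((a e.succ : ℝ) + 1)) *
              ((a e.succ : ℝ) / (((a e.succ : ℝ) + 1) * t)) ^ (a e.succ)) 1 cis) =
              fun x => X.Q e.castSucc x - (((1 / ((a e.succ : ℝ) + 1)) *
                ((a e.succ : ℝ) / (((a e.succ : ℝ) + 1) * t)) ^ (a e.succ) : ℝ) : ℂ) *
                id x ^ (a e.succ + 1) := by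
            funext x
            unfold VP_855.V
            rw [VP_855.pol_one_cis, id]
          rw [h2] at h1
          exact h1
        · refine mul_le_mul_of_nonneg_left ?_ (by positivity)
          refine pow_le_pow_left₀ (by positivity) ?_ _
          refine div_le_div_of_nonneg_left (by positivity) (by positivity) ?_
          exact mul_le_of_le_one_right (by positivity) ht.2
  have h := hpath.seq
  have e0 : (fun x : Fin (n + 1) → ℂ => X.mid a e (fun y => ((0 : ℝ) : ℂ) * y ^ d) id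
      (fun y => y ^ a e.succ) x) = X.st a e := by
    unfold LD.mid LD.st
    funext z
    congr 1
    · funext i
      split_ifs <;> simp <;> rfl
    · funext e'
      by_cases h : (e' : ℕ) = e
      · rw [if_pos h]
      · rw [if_neg h]
    · funext e'
      by_cases h : (e' : ℕ) = e
      · have : e' = e := Fin.ext h
        subst this
        rw [if_pos rfl]
      · rw [if_neg h]
  have e1 : (fun x : Fin (n + 1) → ℂ => X.mid a e (fun y => ((1 : ℝ) : ℂ) * y ^ d) id
      (fun y => y ^ a e.succ) x) = X.mid a e (fun y => y ^ d) id (fun y => y ^ a e.succ) := by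
    simp only [Complex.ofReal_one, one_mul]
  simp only at h
  rw [e0, e1] at h
  exact h

end Crest.Agent.R267.S1_855
end
end

-- ▼ part R267/S4F_407

/-!
# Row 267 (helper407): step S4 of #2295, function version (S4P, S4lastP of LobeDefs_407)
-/

set_option autoImplicit false
set_option linter.unusedSectionVars false

noncomputable section

open Set Filter Topology Finset
open Crest.Agent.R267.Ang_739 Crest.Agent.R267.Hm_951
open Crest.Agent.R267.LemL_951 hiding dg
open Crest.Agent.R267.Sys_808 Crest.Agent.R267.LobeDefs_407 Crest.Agent.R267.LobeKit_407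

namespace Crest.Agent.R267.S4F_407

variable {n : ℕ}

/-! ### derivatives of `mid` -/

theorem fderiv_ofReal {P : ℂ → ℝ} {x : ℂ} (h : DifferentiableAt ℝ P x) (v : ℂ) :
    fderiv ℝ (fun z => (P z : ℂ)) x v = ((fderiv ℝ P x v : ℝ) : ℂ) := by
  have h1 : HasFDerivAt (fun z => (P z : ℂ)) (Complex.ofRealCLM.comp (fderiv ℝ P x)) x :=
    Complex.ofRealCLM.hasFDerivAt.comp x h.hasFDerivAt
  rw [h1.fderiv]
  rfl

/-- pieces of `mid` -/
def mQ (X : LD n) (e : Fin n) (Y : ℂ → ℂ) (i : Fin (n + 1)) : ℂ → ℂ :=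
  if (i : ℕ) ≤ e then X.Q i else if (i : ℕ) = (e : ℕ) + 1 then Y else 0

def mg (X : LD n) (e : Fin n) (η : ℂ → ℂ) (e' : Fin n) : ℂ → ℂ :=
  if (e' : ℕ) < e then (fun z => (X.g e' z : ℂ)) else if (e' : ℕ) = e then η else id

def mh (X : LD n) (a : Fin (n + 1) → ℕ) (e : Fin n) (H : ℂ → ℂ) (e' : Fin n) : ℂ → ℂ :=
  if (e' : ℕ) < e then (fun z => (X.h e' z : ℂ)) else if (e' : ℕ) = e then H else
    fun z => z ^ a e'.succ

theorem mid_eq (X : LD n) (a : Fin (n + 1) → ℕ) (e : Fin n) (Y η H : ℂ → ℂ) :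
    X.mid a e Y η H = GF (mQ X e Y) (mg X e η) (mh X a e H) := rfl

section Mid

variable {X : LD n} {a : Fin (n + 1) → ℕ} {e : Fin n} {Y η H : ℂ → ℂ}

theorem mQ_diff (hX : X.Ok a e) (hY : Differentiable ℝ Y) (i : Fin (n + 1)) :
    Differentiable ℝ (mQ X e Y i) := by
  unfold mQ
  split_ifs with h1 h2
  · exact Q_diff hX h1
  · exact hY
  · exact differentiable_const _

theorem mg_diff (hX : X.Ok a e) (hη : Differentiable ℝ η) (e' : Fin n) :
    Differentiable ℝ (mg X e η e') := by
  unfold mg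
  split_ifs with h1 h2
  · exact Complex.ofRealCLM.differentiable.comp (g_diff hX h1)
  · exact hη
  · exact differentiable_id

theorem mh_diff (hX : X.Ok a e) (hH : Differentiable ℝ H) (e' : Fin n) :
    Differentiable ℝ (mh X a e H e') := by
  unfold mh
  split_ifs with h1 h2
  · exact Complex.ofRealCLM.differentiable.comp (h_diff hX h1)
  · exact hH
  · exact differentiable_id.pow _

/-- real part of the derivative coming from the processed couplings -/
def Bd (X : LD n) (e : Fin n) (z : Fin (n + 1) → ℂ) (i : Fin (n + 1)) (v : ℂ) : ℝ :=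
  ∑ e' : Fin n, if (e' : ℕ) < e then
    ((if e'.castSucc = i then fderiv ℝ (X.g e') (z i) v * X.h e' (z e'.succ) else 0) +
      if e'.succ = i then X.g e' (z e'.castSucc) * fderiv ℝ (X.h e') (z i) v else 0) else 0

theorem mid_single (hX : X.Ok a e) (hY : Differentiable ℝ Y) (hη : Differentiable ℝ η)
    (hH : Differentiable ℝ H) (z : Fin (n + 1) → ℂ) {i : Fin (n + 1)} (hi : (i : ℕ) ≤ e) (v : ℂ) :
    fderiv ℝ (X.mid a e Y η H) z (Pi.single i v) = fderiv ℝ (X.Q i) (z i) v -
      (Bd X e z i v : ℂ) - if i = e.castSucc then fderiv ℝ η (z i) v * H (z e.succ) else 0 := by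
  rw [mid_eq, fderiv_GF_single (fun i => mQ_diff hX hY i _) (fun e' => mg_diff hX hη e' _)
    (fun e' => mh_diff hX hH e' _)]
  have h1 : mQ X e Y i = X.Q i := if_pos hi
  rw [h1, sub_sub]
  congr 1
  have h2 : ∀ e' : Fin n, ((if e'.castSucc = i then fderiv ℝ (mg X e η e') (z i) v *
      mh X a e H e' (z e'.succ) else 0) +
        if e'.succ = i then mg X e η e' (z e'.castSucc) * fderiv ℝ (mh X a e H e') (z i) v
          else 0) =
      (((if (e' : ℕ) < e then
        ((if e'.castSucc = i then fderiv ℝ (X.g e') (z i) v * X.h e' (z e'.succ) else 0) +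
        if e'.succ = i then X.g e' (z e'.castSucc) * fderiv ℝ (X.h e') (z i) v else 0) else 0)
        : ℝ) : ℂ) + if e' = e then
          (if i = e.castSucc then fderiv ℝ η (z i) v * H (z e.succ) else 0) else 0 := by
    intro e'
    rcases lt_trichotomy (e' : ℕ) (e : ℕ) with h | h | h
    · have hg : mg X e η e' = fun z => (X.g e' z : ℂ) := if_pos h
      have hh : mh X a e H e' = fun z => (X.h e' z : ℂ) := if_pos h
      have hne : e' ≠ e := fun h3 => by rw [h3] at h; exact lt_irrefl _ h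
      rw [hg, hh, if_pos h, if_neg hne, add_zero, fderiv_ofReal (g_diff hX h _),
        fderiv_ofReal (h_diff hX h _)]
      push_cast
      split_ifs <;> simp
    · have he : e' = e := Fin.ext h
      subst he
      have hg : mg X e' η e' = η := by unfold mg; rw [if_neg (lt_irrefl _), if_pos rfl]
      have hh : mh X a e' H e' = H := by unfold mh; rw [if_neg (lt_irrefl _), if_pos rfl]
      have h3 : e'.succ ≠ i := fun h3 => by
        have := congrArg Fin.val h3
        rw [Fin.val_succ] at this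
        omega
      rw [hg, hh, if_neg (lt_irrefl _), if_pos rfl, if_neg h3, add_zero, Complex.ofReal_zero,
        zero_add]
      by_cases h4 : e'.castSucc = i
      · rw [if_pos h4, if_pos h4.symm]
      · rw [if_neg h4, if_neg (fun h5 => h4 h5.symm)]
    · have hne : e' ≠ e := fun h3 => by rw [h3] at h; exact lt_irrefl _ h
      have h3 : e'.succ ≠ i := fun h3 => by
        have := congrArg Fin.val h3
        rw [Fin.val_succ] at this
        omega
      have h4 : e'.castSucc ≠ i := fun h3 => by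
        have := congrArg Fin.val h3
        rw [Fin.val_castSucc] at this
        omega
      rw [if_neg h3, if_neg h4, if_neg h.not_gt, if_neg hne]
      simp
  rw [Finset.sum_congr rfl fun e' _ => h2 e', Finset.sum_add_distrib, Finset.sum_ite_eq' univ e]
  rw [if_pos (Finset.mem_univ _), ← Complex.ofReal_sum]
  rfl

/-- `y`-derivative of `mid`, when the tail vanishes -/
theorem mid_single_y (hX : X.Ok a e) (hY : Differentiable ℝ Y) (hη : Differentiable ℝ η)
    (hH : Differentiable ℝ H) (ha : ∀ i, 2 ≤ a i) (z : Fin (n + 1) → ℂ)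
    (hz : ∀ i : Fin (n + 1), (e : ℕ) + 1 < i → z i = 0) (v : ℂ) :
    fderiv ℝ (X.mid a e Y η H) z (Pi.single e.succ v) = fderiv ℝ Y (z e.succ) v -
      η (z e.castSucc) * fderiv ℝ H (z e.succ) v := by
  rw [mid_eq, fderiv_GF_single (fun i => mQ_diff hX hY i _) (fun e' => mg_diff hX hη e' _)
    (fun e' => mh_diff hX hH e' _)]
  have h1 : mQ X e Y e.succ = Y := by
    unfold mQ
    rw [if_neg (by rw [Fin.val_succ]; omega), if_pos (by rw [Fin.val_succ])]
  rw [h1]
  congr 1
  rw [Finset.sum_eq_single e]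
  · have hg : mg X e η e = η := by unfold mg; rw [if_neg (lt_irrefl _), if_pos rfl]
    have hh : mh X a e H e = H := by unfold mh; rw [if_neg (lt_irrefl _), if_pos rfl]
    have h3 : e.castSucc ≠ e.succ := Fin.castSucc_lt_succ.ne
    rw [if_neg h3, if_pos rfl, zero_add, hg, hh]
  · intro e' _ hne
    have h3 : e'.succ ≠ e.succ := fun h => hne (Fin.succ_injective _ h)
    rw [if_neg h3, add_zero]
    by_cases h4 : e'.castSucc = e.succ
    · rw [if_pos h4]
      have h5 : (e : ℕ) + 1 = e' := by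
        have := congrArg Fin.val h4
        rw [Fin.val_castSucc, Fin.val_succ] at this
        exact this.symm
      have hh : mh X a e H e' = fun z => z ^ a e'.succ := by
        unfold mh; rw [if_neg (by omega), if_neg (by omega)]
      have h6 : z e'.succ = 0 := hz _ (by rw [Fin.val_succ]; omega)
      rw [hh, h6]
      simp only
      rw [zero_pow (by have := ha e'.succ; omega), mul_zero]
    · rw [if_neg h4]
  · intro h; exact absurd (Finset.mem_univ e) h

/-- the value of `mid`, when the tail vanishes -/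
theorem mid_val (ha : ∀ i, 2 ≤ a i) (z : Fin (n + 1) → ℂ)
    (hz : ∀ i : Fin (n + 1), (e : ℕ) + 1 < i → z i = 0) :
    X.mid a e Y η H z = (∑ i : Fin (n + 1), if (i : ℕ) ≤ e then X.Q i (z i) else 0) -
      ((∑ e' : Fin n, if (e' : ℕ) < e then X.g e' (z e'.castSucc) * X.h e' (z e'.succ) else 0 : ℝ)
        : ℂ) + Y (z e.succ) - η (z e.castSucc) * H (z e.succ) := by
  rw [mid_eq]
  unfold GF
  have h1 : ∀ i : Fin (n + 1), mQ X e Y i (z i) = (if (i : ℕ) ≤ e then X.Q i (z i) else 0) +
      if i = e.succ then Y (z e.succ) else 0 := by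
    intro i
    unfold mQ
    by_cases h : (i : ℕ) ≤ e
    · have h2 : i ≠ e.succ := fun h3 => by
        have := congrArg Fin.val h3
        rw [Fin.val_succ] at this
        omega
      rw [if_pos h, if_pos h, if_neg h2, add_zero]
    · rw [if_neg h, if_neg h, zero_add]
      by_cases h2 : i = e.succ
      · have h3 : (i : ℕ) = (e : ℕ) + 1 := by rw [h2, Fin.val_succ]
        rw [if_pos h3, if_pos h2, h2]
      · have h3 : (i : ℕ) ≠ (e : ℕ) + 1 := fun h3 => h2 (Fin.ext (by rw [Fin.val_succ]; exact h3))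
        rw [if_neg h3, if_neg h2]; rfl
  have h2 : ∀ e' : Fin n, mg X e η e' (z e'.castSucc) * mh X a e H e' (z e'.succ) =
      (((if (e' : ℕ) < e then X.g e' (z e'.castSucc) * X.h e' (z e'.succ) else 0) : ℝ) : ℂ) +
      if e' = e then η (z e.castSucc) * H (z e.succ) else 0 := by
    intro e'
    unfold mg mh
    rcases lt_trichotomy (e' : ℕ) (e : ℕ) with h | h | h
    · have hne : e' ≠ e := fun h3 => by rw [h3] at h; exact lt_irrefl _ h
      rw [if_pos h, if_pos h, if_pos h, if_neg hne, add_zero, Complex.ofReal_mul]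
    · have he : e' = e := Fin.ext h
      subst he
      rw [if_neg (lt_irrefl _), if_neg (lt_irrefl _), if_neg (lt_irrefl _), if_pos rfl, if_pos rfl,
        if_pos rfl, Complex.ofReal_zero, zero_add]
    · have hne : e' ≠ e := fun h3 => by rw [h3] at h; exact lt_irrefl _ h
      have h6 : z e'.succ = 0 := hz _ (by rw [Fin.val_succ]; omega)
      rw [if_neg h.not_gt, if_neg h.ne', if_neg h.not_gt, if_neg h.ne', if_neg h.not_gt,
        if_neg hne, h6]
      rw [zero_pow (by have := ha e'.succ; omega), mul_zero, Complex.ofReal_zero, zero_add]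
  simp only [h1, h2]
  rw [Finset.sum_add_distrib, Finset.sum_add_distrib, Finset.sum_ite_eq' univ e.succ,
    Finset.sum_ite_eq' univ e, if_pos (Finset.mem_univ _), if_pos (Finset.mem_univ _), ← Complex.ofReal_sum]
  ring

/-- derivative of `tr` in the processed directions -/
theorem tr_single (hX : X.Ok a e) (z : Fin (n + 1) → ℂ) (i : Fin (n + 1)) (v : ℂ) :
    fderiv ℝ (X.tr e (X.Q e.castSucc)) z (Pi.single i v) =
      if (i : ℕ) ≤ e then fderiv ℝ (X.Q i) (z i) v - (Bd X e z i v : ℂ) else 0 := by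
  have hQd : ∀ i : Fin (n + 1), Differentiable ℝ
      ((fun i : Fin (n + 1) => if (i : ℕ) < e then X.Q i else if (i : ℕ) = e then
        X.Q e.castSucc else 0) i) := by
    intro i
    show Differentiable ℝ (if (i : ℕ) < e then X.Q i else if (i : ℕ) = e then
        X.Q e.castSucc else 0)
    split_ifs with h1 h2
    · exact Q_diff hX h1.le
    · exact Q_diff hX (by rw [Fin.val_castSucc])
    · exact differentiable_const _
  have hgd : ∀ e' : Fin n, Differentiable ℝ
      ((fun e' : Fin n => if (e' : ℕ) < e then (fun z => (X.g e' z : ℂ)) else 0) e') := by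
    intro e'
    show Differentiable ℝ (if (e' : ℕ) < e then (fun z => (X.g e' z : ℂ)) else 0)
    split_ifs with h1
    · exact Complex.ofRealCLM.differentiable.comp (g_diff hX h1)
    · exact differentiable_const _
  have hhd : ∀ e' : Fin n, Differentiable ℝ
      ((fun e' : Fin n => if (e' : ℕ) < e then (fun z => (X.h e' z : ℂ)) else 0) e') := by
    intro e'
    show Differentiable ℝ (if (e' : ℕ) < e then (fun z => (X.h e' z : ℂ)) else 0)
    split_ifs with h1
    · exact Complex.ofRealCLM.differentiable.comp (h_diff hX h1)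
    · exact differentiable_const _
  unfold LD.tr
  rw [fderiv_GF_single (fun i => hQd i _) (fun e' => hgd e' _) (fun e' => hhd e' _)]
  have h2 : ∀ e' : Fin n, ((if e'.castSucc = i then fderiv ℝ
      (if (e' : ℕ) < e then (fun z => (X.g e' z : ℂ)) else 0) (z i) v *
      (if (e' : ℕ) < e then (fun z => (X.h e' z : ℂ)) else 0) (z e'.succ) else 0) +
        if e'.succ = i then (if (e' : ℕ) < e then (fun z => (X.g e' z : ℂ)) else 0)
          (z e'.castSucc) * fderiv ℝ (if (e' : ℕ) < e then (fun z => (X.h e' z : ℂ)) else 0)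
          (z i) v else 0) =
      (((if (e' : ℕ) < e then
        ((if e'.castSucc = i then fderiv ℝ (X.g e') (z i) v * X.h e' (z e'.succ) else 0) +
        if e'.succ = i then X.g e' (z e'.castSucc) * fderiv ℝ (X.h e') (z i) v else 0) else 0)
        : ℝ) : ℂ) := by
    intro e'
    by_cases h : (e' : ℕ) < e
    · rw [if_pos h, if_pos h, if_pos h, fderiv_ofReal (g_diff hX h _),
        fderiv_ofReal (h_diff hX h _)]
      push_cast
      split_ifs <;> simp
    · rw [if_neg h, if_neg h, if_neg h]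
      simp
  rw [Finset.sum_congr rfl fun e' _ => h2 e', ← Complex.ofReal_sum]
  have h3 : (∑ e' : Fin n, if (e' : ℕ) < e then
    ((if e'.castSucc = i then fderiv ℝ (X.g e') (z i) v * X.h e' (z e'.succ) else 0) +
      if e'.succ = i then X.g e' (z e'.castSucc) * fderiv ℝ (X.h e') (z i) v else 0) else 0) =
      Bd X e z i v := rfl
  rw [h3]
  by_cases hi : (i : ℕ) ≤ e
  · rw [if_pos hi]
    rcases hi.lt_or_eq with h | h
    · rw [if_pos h]
    · have h' : i = e.castSucc := Fin.ext (by rw [Fin.val_castSucc]; exact h)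
      rw [if_neg h.not_lt, if_pos h, h']
  · rw [if_neg hi, if_neg (by omega), if_neg (by omega)]
    have h4 : Bd X e z i v = 0 := by
      refine Finset.sum_eq_zero fun e' _ => ?_
      split_ifs with h5 h6 h7 h7
      · have := congrArg Fin.val h6
        rw [Fin.val_castSucc] at this
        omega
      · have := congrArg Fin.val h6
        rw [Fin.val_castSucc] at this
        omega
      · have := congrArg Fin.val h7
        rw [Fin.val_succ] at this
        omega
      · simp
      · rfl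
    rw [h4]
    simp

theorem tr_val (z : Fin (n + 1) → ℂ) :
    X.tr e (X.Q e.castSucc) z = (∑ i : Fin (n + 1), if (i : ℕ) ≤ e then X.Q i (z i) else 0) -
      ((∑ e' : Fin n, if (e' : ℕ) < e then X.g e' (z e'.castSucc) * X.h e' (z e'.succ) else 0 : ℝ)
        : ℂ) := by
  unfold LD.tr GF
  rw [Complex.ofReal_sum]
  congr 1
  · refine Finset.sum_congr rfl fun i _ => ?_
    beta_reduce
    rcases lt_trichotomy (i : ℕ) (e : ℕ) with h | h | h
    · rw [if_pos h, if_pos h.le]
    · have h' : i = e.castSucc := Fin.ext (by rw [Fin.val_castSucc]; exact h)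
      rw [if_neg h.not_lt, if_pos h, if_pos h.le, h']
    · rw [if_neg h.not_gt, if_neg h.ne', if_neg (by omega)]; rfl
  · refine Finset.sum_congr rfl fun e' _ => ?_
    beta_reduce
    by_cases h : (e' : ℕ) < e
    · rw [if_pos h, if_pos h, if_pos h, Complex.ofReal_mul]
    · rw [if_neg h, if_neg h, if_neg h]; simp

/-- the case `y = 0`, tail `= 0`. -/
theorem mid_reg_zero (hX : X.Ok a e) (hY : Differentiable ℝ Y) (hη : Differentiable ℝ η)
    (hH : Differentiable ℝ H) (ha : ∀ i, 2 ≤ a i) (hY0 : Y 0 = 0) (hH0 : H 0 = 0)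
    (hreg : X.TrReg e (X.Q e.castSucc)) {z : Fin (n + 1) → ℂ} (hz0 : z ≠ 0)
    (hz : ∀ i : Fin (n + 1), (e : ℕ) < i → z i = 0) (hre : 0 ≤ (X.mid a e Y η H z).re) :
    Function.Surjective (fderiv ℝ (X.mid a e Y η H) z) := by
  have hy : z e.succ = 0 := hz _ (by rw [Fin.val_succ]; omega)
  have hval : X.mid a e Y η H z = X.tr e (X.Q e.castSucc) z := by
    rw [mid_val ha z (fun i hi => hz i (by omega)), tr_val, hy, hY0, hH0]
    ring
  rw [hval] at hre
  have h1 := hreg z hz0 hz hre
  intro b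
  obtain ⟨w, hw⟩ := h1 b
  refine ⟨fun i => if (i : ℕ) ≤ e then w i else 0, ?_⟩
  rw [← hw, fderiv_sum_single, fderiv_sum_single (L := fderiv ℝ (X.tr e (X.Q e.castSucc)) z) w]
  refine Finset.sum_congr rfl fun i _ => ?_
  by_cases hi : (i : ℕ) ≤ e
  · simp only [if_pos hi]
    rw [mid_single hX hY hη hH z hi, tr_single hX, if_pos hi, hy, hH0]
    simp
  · simp only [if_neg hi]
    rw [tr_single hX, if_neg hi]
    simp

/-- radial derivative of the processed couplings -/
theorem Bd_rad (hX : X.Ok a e) (z : Fin (n + 1) → ℂ) (i : Fin (n + 1)) :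
    Bd X e z i (z i) = ∑ e' : Fin n,
      (LemL_951.dg Fin.castSucc Fin.succ X.p X.m e' i) *
      (if (e' : ℕ) < e then X.g e' (z e'.castSucc) * X.h e' (z e'.succ) else 0) := by
  refine Finset.sum_congr rfl fun e' _ => ?_
  unfold LemL_951.dg
  by_cases h : (e' : ℕ) < e
  · rw [if_pos h, if_pos h]
    have h1 : ∀ x, fderiv ℝ (X.g e') x x = X.p e' * X.g e' x := fun x => by
      have := (g_ph X e').euler (g_diff hX h x)
      rwa [smul_eq_mul] at this
    have h2 : ∀ x, fderiv ℝ (X.h e') x x = X.m e' * X.h e' x := fun x => by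
      have := (h_ph X e').euler (h_diff hX h x)
      rwa [smul_eq_mul] at this
    by_cases h3 : e'.castSucc = i
    · by_cases h4 : e'.succ = i
      · exact absurd (h3.trans h4.symm) Fin.castSucc_lt_succ.ne
      · rw [if_pos h3, if_neg h4, if_pos h3, if_neg h4, h1, ← h3]; ring
    · by_cases h4 : e'.succ = i
      · rw [if_neg h3, if_pos h4, if_neg h3, if_pos h4, h2, ← h4]; ring
      · rw [if_neg h3, if_neg h4, if_neg h3, if_neg h4]; ring
  · rw [if_neg h, if_neg h, mul_zero]

/-- angular derivative of the processed couplings -/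
theorem Bd_ang (hX : X.Ok a e) (z : Fin (n + 1) → ℂ) {i : Fin (n + 1)} (hzi : z i ≠ 0)
    (hc : 0 ≤ Real.cos (X.ph i (Complex.arg (z i)))) : Bd X e z i (Complex.I * z i) = 0 := by
  refine Finset.sum_eq_zero fun e' _ => ?_
  by_cases h : (e' : ℕ) < e
  · rw [if_pos h]
    by_cases h3 : e'.castSucc = i
    · subst h3
      by_cases h4 : e'.succ = e'.castSucc
      · exact absurd h4.symm Fin.castSucc_lt_succ.ne
      · rw [if_pos rfl, if_neg h4, fderiv_g_I hX h hzi hc]; ring
    · by_cases h4 : e'.succ = i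
      · subst h4
        rw [if_neg h3, if_pos rfl, fderiv_h_I hX h hzi hc]; ring
      · rw [if_neg h3, if_neg h4, add_zero]
  · rw [if_neg h]

/-- **the case `y ≠ 0`, tail `= 0`**: STEP S4. `x = z e.castSucc`, `y = z e.succ`. -/
theorem mid_reg_s4 (hX : X.Ok a e) (hY : Differentiable ℝ Y) (hη : Differentiable ℝ η)
    (hH : Differentiable ℝ H) (ha : ∀ i, 2 ≤ a i) {z : Fin (n + 1) → ℂ}
    (hz : ∀ i : Fin (n + 1), (e : ℕ) + 1 < i → z i = 0)
    {b d P P' C sx rm t β β' ξ : ℝ} (hb : 1 ≤ b) (hd : d = b + 1) (hP' : 0 < P') (hC : 0 < C)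
    (hsx : 0 ≤ sx) (hrm : 0 < rm) (ht0 : 0 ≤ t) (ht1 : t ≤ 1)
    (hPD : P / X.D e.castSucc = 1 / d)
    (hYv : Y (z e.succ) = (C : ℂ) * S4_407.cis (d * ξ))
    (hHv : H (z e.succ) = (rm : ℂ) * S4_407.bb b t β ξ)
    (hηv : η (z e.castSucc) = (sx : ℂ))
    (hYr : fderiv ℝ Y (z e.succ) (z e.succ) = ((d * P' : ℝ) : ℂ) * Y (z e.succ))
    (hYa : fderiv ℝ Y (z e.succ) (Complex.I * z e.succ) =
      ((d : ℝ) : ℂ) * (Complex.I * Y (z e.succ)))
    (hHr : fderiv ℝ H (z e.succ) (z e.succ) = ((b * P' : ℝ) : ℂ) * H (z e.succ))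
    (hHa : fderiv ℝ H (z e.succ) (Complex.I * z e.succ) = (rm : ℂ) * S4_407.db b t β' ξ)
    (hηr : fderiv ℝ η (z e.castSucc) (z e.castSucc) = ((P : ℝ) : ℂ) * η (z e.castSucc))
    (hηa : sx ≠ 0 → z e.castSucc ≠ 0 ∧ ((X.Q e.castSucc (z e.castSucc)).re < 0 ∨
      fderiv ℝ η (z e.castSucc) (Complex.I * z e.castSucc) = 0))
    (hzone : (|ξ| ≤ Real.pi / (2 * d) ∧ β = 1 ∧ β' = 0) ∨
      (Real.cos (d * ξ) < 0 ∧ 1 ≤ (2 * d - 1) * Real.cos (b * ξ) ∧ 0 ≤ β ∧ β ≤ 1) ∨
      (β = 0 ∧ β' = 0 ∧ S4_407.cis ξ ≠ 1))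
    (hNC : ξ = 0 → d * C = b * (sx * rm) →
      P * (sx * rm) ≤ X.D e.castSucc * (X.Q e.castSucc (z e.castSucc)).re → False)
    (hre : 0 ≤ (X.mid a e Y η H z).re) :
    Function.Surjective (fderiv ℝ (X.mid a e Y η H) z) := by
  have hDpos : ∀ i : Fin (n + 1), 0 < (if (i : ℕ) ≤ e then X.D i else 1) := by
    intro i
    split_ifs with h
    · have := hX.hD i h; linarith
    · exact one_pos
  have hDle : ∀ i : Fin (n + 1), (i : ℕ) ≤ e → (if (i : ℕ) ≤ e then X.D i else 1) = X.D i :=
    fun i h => if_pos h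
  set D : Fin (n + 1) → ℝ := fun i => if (i : ℕ) ≤ e then X.D i else 1 with hD
  set p : Fin n → ℝ := fun e' => if (e' : ℕ) < e then X.p e' else D e'.castSucc / 2 with hp
  set m : Fin n → ℝ := fun e' => if (e' : ℕ) < e then X.m e' else D e'.succ / 2 with hm
  set B : Fin n → ℝ := fun e' => if (e' : ℕ) < e then
    X.g e' (z e'.castSucc) * X.h e' (z e'.succ) else 0 with hB
  have hple : ∀ e' : Fin n, (e' : ℕ) < e → p e' = X.p e' := fun e' h => if_pos h
  have hmle : ∀ e' : Fin n, (e' : ℕ) < e → m e' = X.m e' := fun e' h => if_pos h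
  have hB0 : ∀ e', 0 ≤ B e' := by
    intro e'
    show 0 ≤ if (e' : ℕ) < e then X.g e' (z e'.castSucc) * X.h e' (z e'.succ) else 0
    split_ifs with h
    · exact mul_nonneg (g_nonneg hX h _) (h_nonneg hX h _)
    · exact le_rfl
  have hp0 : ∀ e', 0 ≤ p e' := by
    intro e'
    show 0 ≤ if (e' : ℕ) < e then X.p e' else D e'.castSucc / 2
    split_ifs with h
    · have := hX.hp e' h; linarith
    · exact (half_pos (hDpos _)).le
  have hm0 : ∀ e', 0 ≤ m e' := by
    intro e'
    show 0 ≤ if (e' : ℕ) < e then X.m e' else D e'.succ / 2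
    split_ifs with h
    · have := hX.hm e' h; linarith
    · exact (half_pos (hDpos _)).le
  have hrad : ∀ i, (∑ e', LemL_951.dg Fin.castSucc Fin.succ X.p X.m e' i * B e') =
      ∑ e', LemL_951.dg Fin.castSucc Fin.succ p m e' i * B e' := by
    intro i
    refine Finset.sum_congr rfl fun e' _ => ?_
    by_cases h : (e' : ℕ) < e
    · unfold LemL_951.dg
      rw [hple e' h, hmle e' h]
    · have : B e' = 0 := if_neg h
      rw [this, mul_zero, mul_zero]
  have hce : ((e.castSucc : Fin (n + 1)) : ℕ) ≤ e := by rw [Fin.val_castSucc]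
  refine S4_407.s4 (ι := Fin (n + 1)) (ε := Fin n)
    (fderiv ℝ (X.mid a e Y η H) z : (Fin (n + 1) → ℂ) →ₗ[ℝ] ℂ)
    (fun i => if (i : ℕ) ≤ e then Pi.single i (z i) else 0)
    (fun i => if (i : ℕ) ≤ e then Pi.single i (Complex.I * z i) else 0)
    ((P'⁻¹ : ℝ) • Pi.single e.succ (z e.succ)) (Pi.single e.succ (Complex.I * z e.succ))
    e.castSucc D hDpos (LemL_951.dg Fin.castSucc Fin.succ p m) ?_ ?_
    (fun i => if (i : ℕ) ≤ e then X.Q i (z i) else 0) B hB0 (a := b) (d := d) (P := P) (C := C)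
    (S := sx * rm) (v := t) (β := β) (β' := β') (ξ := ξ) hd hb ?_ hC (mul_nonneg hsx hrm.le) ht0 ht1
    ?_ ?_ ?_ ?_ ?_ hzone ?_ ?_
  · intro e' i
    unfold LemL_951.dg
    refine add_nonneg ?_ ?_
    · split_ifs
      · exact hp0 e'
      · exact le_rfl
    · split_ifs
      · exact hm0 e'
      · exact le_rfl
  · intro e'
    rw [sum_dg_div]
    by_cases h : (e' : ℕ) < e
    · rw [hple e' h, hmle e' h]
      show X.p e' / (if ((e'.castSucc : Fin (n + 1)) : ℕ) ≤ e then X.D e'.castSucc else 1) +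
        X.m e' / (if ((e'.succ : Fin (n + 1)) : ℕ) ≤ e then X.D e'.succ else 1) = 1
      rw [hDle _ (le_cast h), hDle _ (lt_succ h)]
      exact hX.sum e' h
    · have h1 : p e' = D e'.castSucc / 2 := if_neg h
      have h2 : m e' = D e'.succ / 2 := if_neg h
      have h3 := (hDpos e'.castSucc).ne'
      have h4 := (hDpos e'.succ).ne'
      rw [h1, h2]
      show D e'.castSucc / 2 / D e'.castSucc + D e'.succ / 2 / D e'.succ = 1
      have h3' : D e'.castSucc ≠ 0 := h3
      have h4' : D e'.succ ≠ 0 := h4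
      field_simp
      norm_num
  · show P / (if ((e.castSucc : Fin (n + 1)) : ℕ) ≤ e then X.D e.castSucc else 1) = 1 / d
    rw [hDle _ hce]
    exact hPD
  · -- radial
    intro i
    by_cases hi : (i : ℕ) ≤ e
    · simp only [if_pos hi]
      show fderiv ℝ (X.mid a e Y η H) z (Pi.single i (z i)) = _
      have hDi : D i = X.D i := if_pos hi
      have hBd : Bd X e z i (z i) = ∑ e', LemL_951.dg Fin.castSucc Fin.succ p m e' i * B e' :=
        (Bd_rad hX z i).trans (hrad i)
      rw [mid_single hX hY hη hH z hi, (Q_ph X i).euler (Q_diff hX hi _), Complex.real_smul,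
        hBd, hDi]
      by_cases h2 : i = e.castSucc
      · subst h2
        rw [if_pos rfl, if_pos rfl, hηr, hηv, hHv]
        push_cast
        ring
      · rw [if_neg h2, if_neg h2]
    · simp only [if_neg hi]
      have h2 : i ≠ e.castSucc := fun h => hi (h ▸ hce)
      rw [if_neg h2]
      have h3 : (∑ e', LemL_951.dg Fin.castSucc Fin.succ p m e' i * B e') = 0 := by
        refine Finset.sum_eq_zero fun e' _ => ?_
        by_cases h : (e' : ℕ) < e
        · have h4 : LemL_951.dg Fin.castSucc Fin.succ p m e' i = 0 := by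
            unfold LemL_951.dg
            rw [if_neg, if_neg, add_zero]
            · intro h5
              have := congrArg Fin.val h5
              rw [Fin.val_succ] at this
              omega
            · intro h5
              have := congrArg Fin.val h5
              rw [Fin.val_castSucc] at this
              omega
          rw [h4, zero_mul]
        · have : B e' = 0 := if_neg h
          rw [this, mul_zero]
      rw [h3, map_zero]
      simp
  · -- radial in y
    show fderiv ℝ (X.mid a e Y η H) z ((P'⁻¹ : ℝ) • Pi.single e.succ (z e.succ)) = _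
    rw [map_smul, mid_single_y hX hY hη hH ha z hz, hYr, hHr, hηv, hYv, hHv, Complex.real_smul]
    have : (P' : ℂ) ≠ 0 := by exact_mod_cast hP'.ne'
    push_cast
    field_simp
  · -- angular in y
    show fderiv ℝ (X.mid a e Y η H) z (Pi.single e.succ (Complex.I * z e.succ)) = _
    rw [mid_single_y hX hY hη hH ha z hz, hYa, hHa, hηv, hYv]
    push_cast
    ring
  · -- the other variables
    intro i hi
    by_cases h : (i : ℕ) ≤ e
    · simp only [if_pos h]
      by_cases hzi : z i = 0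
      · left
        rw [hzi]
        exact (Q_ph X i).zero (by have := hX.hD i h; linarith)
      · right
        rcases Q_cases hX h hzi with h1 | h1
        · exact good_of_neg h1
        · show Good (fderiv ℝ (X.mid a e Y η H) z (Pi.single i (Complex.I * z i))) _
          rw [mid_single hX hY hη hH z h, Bd_ang hX z hzi h1, if_neg hi, Complex.ofReal_zero,
            sub_zero, sub_zero]
          exact (good_Q hX h hzi).1
    · left
      simp only [if_neg h]
  · -- the variable x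
    intro hS
    simp only [if_pos hce]
    have hs : sx ≠ 0 := fun h => hS (by rw [h, zero_mul])
    obtain ⟨hx, hcase⟩ := hηa hs
    rcases Q_cases hX hce hx with h1 | h1
    · exact Or.inl h1
    · rcases hcase with h2 | h2
      · exact Or.inl h2
      · right
        refine ⟨deriv (X.ph e.castSucc) (Complex.arg (z e.castSucc)), ((hX.hph _ hce).pos _).ne', ?_⟩
        show fderiv ℝ (X.mid a e Y η H) z (Pi.single e.castSucc (Complex.I * z e.castSucc)) = _
        rw [mid_single hX hY hη hH z hce, Bd_ang hX z hx h1, if_pos rfl, h2, Complex.ofReal_zero,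
          sub_zero, zero_mul, sub_zero]
        exact fderiv_Q_I hX hce hx
  · -- (NC)
    intro h1 h2 h3
    have h4 : D e.castSucc = X.D e.castSucc := hDle _ hce
    simp only [if_pos hce] at h3
    rw [h4] at h3
    exact hNC h1 h2 h3
  · -- value
    rw [mid_val ha z hz, hηv, hHv, hYv] at hre
    have e1 : (∑ i : Fin (n + 1), if (i : ℕ) ≤ e then X.Q i (z i) else 0).re =
        ∑ i : Fin (n + 1), (if (i : ℕ) ≤ e then X.Q i (z i) else 0).re := Complex.re_sum _ _
    simp only [Complex.sub_re, Complex.add_re, Complex.ofReal_re, Complex.re_ofReal_mul] at hre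
    rw [e1, S4_407.cis_re] at hre
    calc (0 : ℝ) ≤ _ := hre
      _ = _ := by ring

end Mid

/-! ### the functions of S4 -/

/-- the coupling factor in `y` at time `t` -/
def Ht (b : ℕ) (P' : ℝ) (β : ℝ → ℝ) (t : ℝ) (y : ℂ) : ℂ :=
  pol ((b : ℝ) * P') (fun ξ => S4_407.bb b t (β ξ) ξ) y

theorem bb_per (b : ℕ) {β : ℝ → ℝ} (hβ : Per β) (t : ℝ) :
    Per fun ξ => S4_407.bb b t (β ξ) ξ := by
  intro x
  show S4_407.bb b t (β (x + 2 * Real.pi)) (x + 2 * Real.pi) = S4_407.bb b t (β x) x
  unfold S4_407.bb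
  rw [hβ x]
  have h1 : (b : ℝ) * (x + 2 * Real.pi) = (b : ℝ) * x + 2 * Real.pi * b := by ring
  rw [h1, ← cis_eq_S4, cis_per_nat, cis_eq_S4]

theorem cis_S4_eq : (S4_407.cis : ℝ → ℂ) = cis := funext fun x => (cis_eq_S4 x).symm

theorem bb_contDiff (b : ℕ) {β : ℝ → ℝ} (hβ : ContDiff ℝ 2 β) :
    ContDiff ℝ 2 fun p : ℝ × ℝ => S4_407.bb b p.1 (β p.2) p.2 := by
  unfold S4_407.bb
  rw [cis_S4_eq]
  have h1 : ContDiff ℝ 2 fun p : ℝ × ℝ => ((1 - p.1 : ℝ) : ℂ) :=
    Complex.ofRealCLM.contDiff.comp (contDiff_const.sub contDiff_fst)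
  have h2 : ContDiff ℝ 2 fun p : ℝ × ℝ => cis ((b : ℝ) * p.2) :=
    contDiff_cis.comp (contDiff_const.mul contDiff_snd)
  have h3 : ContDiff ℝ 2 fun p : ℝ × ℝ => ((p.1 * β p.2 : ℝ) : ℂ) :=
    Complex.ofRealCLM.contDiff.comp (contDiff_fst.mul (hβ.comp contDiff_snd))
  exact (h1.mul h2).add h3

theorem bb_contDiff1 (b : ℕ) {β : ℝ → ℝ} (hβ : ContDiff ℝ 2 β) (t : ℝ) :
    ContDiff ℝ 2 fun x : ℝ => S4_407.bb b t (β x) x :=
  (bb_contDiff b hβ).comp (contDiff_const.prodMk contDiff_id)

theorem bb_hasDerivAt (b : ℕ) {β : ℝ → ℝ} {β' x : ℝ} (hβ : HasDerivAt β β' x) (t : ℝ) :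
    HasDerivAt (fun x => S4_407.bb b t (β x) x) (S4_407.db b t β' x) x := by
  unfold S4_407.bb S4_407.db
  rw [cis_S4_eq]
  have h1 : HasDerivAt (fun x : ℝ => cis ((b : ℝ) * x)) ((b : ℝ) • (Complex.I * cis ((b : ℝ) * x)))
      x := by
    have h0 : HasDerivAt (fun x : ℝ => (b : ℝ) * x) (b : ℝ) x := by
      simpa using (hasDerivAt_id x).const_mul (b : ℝ)
    exact HasDerivAt.scomp x (hasDerivAt_cis _) h0
  have h2 : HasDerivAt (fun x => ((t * β x : ℝ) : ℂ)) ((t * β' : ℝ) : ℂ) x :=
    (hβ.const_mul t).ofReal_comp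
  have h3 := (h1.const_mul (((1 - t : ℝ) : ℂ))).add h2
  rw [Complex.real_smul] at h3
  have e : ((1 - t : ℝ) : ℂ) * (((b : ℝ) : ℂ) * (Complex.I * cis ((b : ℝ) * x))) =
      ((1 - t : ℝ) : ℂ) * ((((b : ℝ) : ℂ)) * (Complex.I * cis ((b : ℝ) * x))) := rfl
  exact h3

theorem Ht_smooth {b : ℕ} {P' : ℝ} (h2 : 2 < (b : ℝ) * P') {β : ℝ → ℝ} (hβ : ContDiff ℝ 2 β)
    (hper : Per β) : ContDiff ℝ 2 fun p : ℝ × ℂ => Ht b P' β p.1 p.2 := by
  have h1 : ContDiffOn ℝ 2 (fun p : ℝ × ℂ => ‖p.2‖ ^ ((b : ℝ) * P') •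
      S4_407.bb b p.1 (β (Complex.arg p.2)) (Complex.arg p.2))
      ((univ : Set ℝ) ×ˢ (univ : Set ℂ)) := by
    refine contDiffOn_rpow_smul (T := univ) isOpen_univ (D := fun _ => (b : ℝ) * P')
      contDiffOn_const (fun _ _ => h2)
      (q := fun p : ℝ × ℂ => S4_407.bb b p.1 (β (Complex.arg p.2)) (Complex.arg p.2)) ?_
      fun t _ r hr z => ?_
    · exact contDiffOn_ang2 (q := fun p : ℝ × ℝ => S4_407.bb b p.1 (β p.2) p.2)
        (fun t => bb_per b hper t) isOpen_univ (bb_contDiff b hβ).contDiffOn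
    · show S4_407.bb b t (β (Complex.arg ((r : ℂ) * z))) (Complex.arg ((r : ℂ) * z)) = _
      rw [arg_hom hr]
  rw [univ_prod_univ, contDiffOn_univ] at h1
  exact h1

/-! ### angular cut-offs -/

theorem cutx_zero {d : ℕ} {l : ℝ → ℝ} (h : CutX d l) {ξ : ℝ}
    (h1 : Real.pi / (2 * d) ≤ |ξ|) (h2 : |ξ| ≤ Real.pi) : l ξ = 0 := by
  have hpi := Real.pi_pos
  rcases le_total 0 ξ with h0 | h0
  · rw [abs_of_nonneg h0] at h1 h2
    have h3 : Real.pi / (2 * d) ≤ Real.pi := h1.trans h2
    exact h.zero ξ h1 (by linarith)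
  · rw [abs_of_nonpos h0] at h1 h2
    rw [← h.per ξ]
    have h3 : Real.pi / (2 * d) ≤ Real.pi := h1.trans h2
    exact h.zero _ (by linarith) (by linarith)

theorem cos_ph {a : Fin (n + 1) → ℕ} {X : LD n} {e : Fin n} {d : ℕ} {P : ℝ}
    (hA : X.Al a e d P) {ξ : ℝ} (h1 : Real.pi / (3 * d) ≤ |ξ|) (h2 : |ξ| ≤ Real.pi) :
    Real.cos (X.ph e.castSucc ξ) = -Real.cos (d * ξ) := by
  have hpi := Real.pi_pos
  have hce : ((e.castSucc : Fin (n + 1)) : ℕ) = e := by rw [Fin.val_castSucc]
  rcases le_total 0 ξ with h0 | h0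
  · rw [abs_of_nonneg h0] at h1 h2
    have h3 : Real.pi / (3 * d) ≤ Real.pi := h1.trans h2
    rw [hA.ph _ hce ξ h1 (by linarith), Real.cos_add_pi]
  · rw [abs_of_nonpos h0] at h1 h2
    have h3 : Real.pi / (3 * d) ≤ Real.pi := h1.trans h2
    have h4 := hA.ph _ hce (ξ + 2 * Real.pi) (by linarith) (by linarith)
    rw [(hA.ok.hph _ hce.le).deg ξ] at h4
    have h5 : X.ph e.castSucc ξ = d * ξ + Real.pi + (((d : ℤ) - (dg a e.castSucc : ℤ) : ℤ) : ℝ) *
        (2 * Real.pi) := by
      push_cast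
      linarith
    rw [h5, Real.cos_add_int_mul_two_pi, Real.cos_add_pi]

/-- where the cut-off in `x` is not `0`: `Re Q < 0` or `l = 1`. -/
theorem cutx_cases {a : Fin (n + 1) → ℕ} {X : LD n} {e : Fin n} {d : ℕ} {P : ℝ} (hd : 1 ≤ d)
    (hA : X.Al a e d P) {l : ℝ → ℝ} (hl : CutX d l) {x : ℂ} (hx : x ≠ 0)
    (h : l (Complex.arg x) ≠ 0) : (X.Q e.castSucc x).re < 0 ∨ l (Complex.arg x) = 1 := by
  have hpi := Real.pi_pos
  have hd0 : (0 : ℝ) < d := by exact_mod_cast hd
  have hce : ((e.castSucc : Fin (n + 1)) : ℕ) ≤ e := by rw [Fin.val_castSucc]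
  have habs : |Complex.arg x| ≤ Real.pi := Complex.abs_arg_le_pi x
  rcases le_or_gt |Complex.arg x| (Real.pi / (3 * d)) with h1 | h1
  · exact Or.inr (hl.one _ h1)
  · left
    have h2 : |Complex.arg x| < Real.pi / (2 * d) := by
      by_contra h3
      push Not at h3
      exact h (cutx_zero hl h3 habs)
    rw [Q_re, cos_ph hA h1.le habs]
    have h3 : 0 < Real.cos (d * Complex.arg x) := by
      rw [← Real.cos_abs, abs_mul, abs_of_pos hd0]
      refine Real.cos_pos_of_mem_Ioo ⟨?_, ?_⟩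
      · have : 0 ≤ (d : ℝ) * |Complex.arg x| := by positivity
        linarith
      · rw [lt_div_iff₀ (by positivity)] at h2
        linarith
    have h4 := epn_pos hA.ok hce hx
    have h5 := mul_pos h4 h3
    linarith

/-! ### regularity -/

/-- `|y|^(dP') e^{idξ}` -/
def Yp (b : ℕ) (P' : ℝ) : ℂ → ℂ :=
  pc (((b + 1 : ℕ) : ℝ) * P') 1 fun x => ((b + 1 : ℕ) : ℝ) * x

def ηp (P : ℝ) (l : ℝ → ℝ) : ℂ → ℂ := fun x => ((pol P l x : ℝ) : ℂ)

theorem pha_lin' (b : ℕ) : Pha (b + 1) fun x => ((b + 1 : ℕ) : ℝ) * x :=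
  S2_843.pha_lin (Nat.succ_pos b)

theorem Yp_contDiff {b : ℕ} {P' : ℝ} (h : 2 < ((b + 1 : ℕ) : ℝ) * P') : ContDiff ℝ 2 (Yp b P') :=
  contDiff_pc h (pha_lin' b)

theorem ηp_contDiff {P : ℝ} (hP : 2 < P) {d : ℕ} {l : ℝ → ℝ} (hl : CutX d l) :
    ContDiff ℝ 2 (ηp P l) :=
  Complex.ofRealCLM.contDiff.comp (contDiff_pol hP hl.per hl.smooth)

theorem Ht_contDiff {b : ℕ} {P' : ℝ} (h2 : 2 < (b : ℝ) * P') {β : ℝ → ℝ} (hβ : ContDiff ℝ 2 β)
    (hper : Per β) (t : ℝ) : ContDiff ℝ 2 (Ht b P' β t) :=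
  contDiff_pol h2 (bb_per b hper t) (bb_contDiff1 b hβ t)

theorem s4_reg {a : Fin (n + 1) → ℕ} (ha : Exps a) {X : LD n} {e : Fin n} {P P' : ℝ}
    {l β : ℝ → ℝ} (hP : 2 < P) (hP' : 1 ≤ P') (h2 : 2 < (a e.succ : ℝ) * P')
    (hA : X.Al a e (a e.succ + 1) P) (hl : CutX (a e.succ + 1) l) (hβ : CutY (a e.succ + 1) β)
    {t : ℝ} (ht0 : 0 ≤ t) (ht1 : t ≤ 1) {z : Fin (n + 1) → ℂ} (hz : z ≠ 0)
    (hre : 0 ≤ (X.mid a e (Yp (a e.succ) P') (ηp P l) (Ht (a e.succ) P' β t) z).re) :
    Function.Surjective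
      (fderiv ℝ (X.mid a e (Yp (a e.succ) P') (ηp P l) (Ht (a e.succ) P' β t)) z) := by
  set b : ℕ := a e.succ with hbdef
  have hb2 : 2 ≤ b := ha.two _
  have hb2' : (2 : ℝ) ≤ b := by exact_mod_cast hb2
  have hb0 : (0 : ℝ) < b := by linarith
  have hX := hA.ok
  have hP0 : (0 : ℝ) < P' := by linarith
  have hcast : ((b + 1 : ℕ) : ℝ) = (b : ℝ) + 1 := by push_cast; ring
  have hdP : 2 < ((b + 1 : ℕ) : ℝ) * P' := by rw [hcast]; nlinarith
  have hYd : Differentiable ℝ (Yp b P') := (Yp_contDiff hdP).differentiable (by norm_num)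
  have hηd : Differentiable ℝ (ηp P l) := (ηp_contDiff hP hl).differentiable (by norm_num)
  have hHd : Differentiable ℝ (Ht b P' β t) :=
    (Ht_contDiff h2 hβ.smooth hβ.per t).differentiable (by norm_num)
  have hYPH : PH (((b + 1 : ℕ) : ℝ) * P') (Yp b P') := pc_hom _ _ _
  have hHPH : PH ((b : ℝ) * P') (Ht b P' β t) := pol_hom _ _
  have hηPH : PH P (ηp P l) := ph_ofReal (P := pol P l) (pol_hom _ _)
  by_contra hns
  -- the tail vanishes
  have htail : ∀ i : Fin (n + 1), (e : ℕ) + 1 < i → z i = 0 := by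
    have T : RedG_951.Tail a ((e : ℕ) + 1) (mQ X e (Yp b P')) (mg X e (ηp P l))
        (mh X a e (Ht b P' β t)) := by
      refine ⟨fun i hi => ?_, fun e' he => ?_, fun e' he => ?_⟩
      · unfold mQ; rw [if_neg (by omega), if_neg (by omega)]
      · unfold mg; rw [if_neg (by omega), if_neg (by omega)]
      · unfold mh; rw [if_neg (by omega), if_neg (by omega)]
    refine fun i hi => T.zero ha.two (fun i => mQ_diff hX hYd i _) (fun e' => mg_diff hX hηd e' _)
      (fun e' => mh_diff hX hHd e' _) (fun i hi _ => ?_) (fun e' he _ => ?_) hns i hi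
    · have h1 : mQ X e (Yp b P') i = Yp b P' := by
        unfold mQ; rw [if_neg (by omega), if_pos hi]
      rw [h1]
      exact ph_fderiv_zero hYPH (by linarith) (hYd 0)
    · have h1 : mh X a e (Ht b P' β t) e' = Ht b P' β t := by
        unfold mh; rw [if_neg (by omega), if_pos (by omega)]
      rw [h1]
      exact ph_fderiv_zero hHPH (by linarith) (hHd 0)
  apply hns
  by_cases hy : z e.succ = 0
  · -- `y = 0`
    refine mid_reg_zero hX hYd hηd hHd ha.two (hYPH.zero (by linarith)) (hHPH.zero (by linarith))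
      (S3_82.trReg_Q ha (j := e.castSucc) (trP a e.castSucc) hX) hz (fun i hi => ?_) hre
    rcases Nat.lt_or_ge ((e : ℕ) + 1) (i : ℕ) with h1 | h1
    · exact htail i h1
    · have : i = e.succ := Fin.ext (by rw [Fin.val_succ]; omega)
      rw [this]; exact hy
  -- `y ≠ 0`
  set y : ℂ := z e.succ with hydef
  set x : ℂ := z e.castSucc with hxdef
  set ξ : ℝ := Complex.arg y with hξ
  have hny : 0 < ‖y‖ := norm_pos_iff.2 hy
  have hcastle : ((e.castSucc : Fin (n + 1)) : ℕ) ≤ e := by rw [Fin.val_castSucc]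
  have hDx : X.D e.castSucc = ((b : ℝ) + 1) * P := by
    rw [hA.deg _ (by rw [Fin.val_castSucc]), hcast]
  have hβd : HasDerivAt β (deriv β ξ) ξ := (hβ.smooth.differentiable (by norm_num) ξ).hasDerivAt
  have hπ := Real.pi_pos
  have hsx0 : 0 ≤ pol P l x := pol_nonneg hl.nn x
  refine mid_reg_s4 hX hYd hηd hHd ha.two htail (b := (b : ℝ)) (d := (b : ℝ) + 1) (P := P)
    (P' := P') (C := ‖y‖ ^ (((b + 1 : ℕ) : ℝ) * P')) (sx := pol P l x)
    (rm := ‖y‖ ^ ((b : ℝ) * P')) (t := t) (β := β ξ) (β' := deriv β ξ) (ξ := ξ) (by linarith) rfl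
    hP0 (Real.rpow_pos_of_pos hny _) hsx0 (Real.rpow_pos_of_pos hny _) ht0 ht1 ?_ ?_ ?_ ?_ ?_ ?_ ?_
    ?_ ?_ ?_ ?_ ?_ hre
  · rw [hDx]
    have : P ≠ 0 := by linarith
    field_simp
  · show pc _ 1 _ y = _
    unfold pc pol
    rw [Complex.real_smul]
    beta_reduce
    rw [Complex.ofReal_one, one_mul, cis_eq_S4, hcast]
  · show pol _ _ y = _
    unfold pol
    rw [Complex.real_smul]
  · rfl
  · have h3 := hYPH.euler (z := y) (hYd y)
    rw [Complex.real_smul] at h3
    rw [h3, hcast]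
  · have h3 := fderiv_pc_I (D := ((b + 1 : ℕ) : ℝ) * P') (eps := 1) (pha_lin' b).deg hy
      (pha_hasDerivAt (pha_lin' b) (Complex.arg y))
    have h4 : deriv (fun x : ℝ => ((b + 1 : ℕ) : ℝ) * x) (Complex.arg y) = (b : ℝ) + 1 := by
      simp
    rw [h4] at h3
    exact h3
  · have h3 := hHPH.euler (z := y) (hHd y)
    rw [Complex.real_smul] at h3
    exact h3
  · have h3 := fderiv_pol_I ((b : ℝ) * P') (bb_per b hβ.per t) hy (bb_hasDerivAt b hβd t)
    rw [Complex.real_smul] at h3
    exact h3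
  · have h3 := hηPH.euler (z := x) (hηd x)
    rw [Complex.real_smul] at h3
    exact h3
  · -- the cut-off in `x`
    intro hs
    have hx0 : x ≠ 0 := by
      intro h3
      apply hs
      rw [h3]
      exact pol_zero (by linarith) _
    refine ⟨hx0, ?_⟩
    have hl0 : l (Complex.arg x) ≠ 0 := by
      intro h3
      apply hs
      show ‖x‖ ^ P * l (Complex.arg x) = 0
      rw [h3, mul_zero]
    rcases cutx_cases (Nat.succ_pos b) hA hl hx0 hl0 with h3 | h3
    · exact Or.inl h3
    · right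
      have h4 : HasDerivAt l 0 (Complex.arg x) :=
        hasDerivAt_zero_of_range hl.nn hl.le (hl.smooth.differentiable (by norm_num) _) (Or.inr h3)
      have h5 := fderiv_pol_I P hl.per hx0 h4
      rw [smul_zero] at h5
      have h6 : fderiv ℝ (ηp P l) x (Complex.I * x) =
          ((fderiv ℝ (pol P l) x (Complex.I * x) : ℝ) : ℂ) :=
        fderiv_ofReal (differentiable_pol hP hl.per hl.smooth x) _
      show fderiv ℝ (ηp P l) x (Complex.I * x) = 0
      rw [h6, h5, Complex.ofReal_zero]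
  · -- zones
    have habs : |ξ| ≤ Real.pi := Complex.abs_arg_le_pi y
    rcases le_or_gt |ξ| (Real.pi / (2 * ((b + 1 : ℕ) : ℝ))) with h3 | h3
    · left
      refine ⟨by rw [← hcast]; exact h3, hβ.one ξ h3, ?_⟩
      exact deriv_zero_of_range hβ.nn hβ.le (Or.inr (hβ.one ξ h3))
    · rcases hβ.zero ξ h3 habs with h4 | h4
      · right; right
        refine ⟨h4, deriv_zero_of_range hβ.nn hβ.le (Or.inl h4), ?_⟩
        intro h5
        have h6 := congrArg Complex.re h5
        have h7 := congrArg Complex.im h5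
        rw [S4_407.cis_re, Complex.one_re] at h6
        have h8 : ξ = 0 := by
          have h9 := (Real.cos_eq_one_iff_of_lt_of_lt (x := ξ) ?_ ?_).1 h6
          · exact h9
          · have := (abs_le.1 habs).1; linarith
          · have := (abs_le.1 habs).2; linarith
        rw [h8, abs_zero] at h3
        have : 0 < Real.pi / (2 * ((b + 1 : ℕ) : ℝ)) := by positivity
        linarith
      · right; left
        obtain ⟨h5, h6⟩ := h4
        rw [hcast] at h5 h6
        refine ⟨h5, h6.trans (le_of_eq ?_), hβ.nn ξ, hβ.le ξ⟩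
        rw [add_sub_cancel_right]
  · -- (NC)
    intro h0 h3 h4
    set ρ : ℝ := ‖y‖ ^ P' with hρ
    have hρ0 : 0 < ρ := Real.rpow_pos_of_pos hny _
    have e1 : ‖y‖ ^ (((b + 1 : ℕ) : ℝ) * P') = ρ ^ (b + 1) := by
      rw [hρ, mul_comm, Real.rpow_mul hny.le, Real.rpow_natCast]
    have e2 : ‖y‖ ^ ((b : ℝ) * P') = ρ ^ b := by
      rw [hρ, mul_comm, Real.rpow_mul hny.le, Real.rpow_natCast]
    rw [e1, e2] at h3
    rw [e2] at h4
    have hρb : 0 < ρ ^ b := pow_pos hρ0 b
    have h5 : ((b : ℝ) + 1) * ρ = b * pol P l x := by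
      have : ρ ^ b * (((b : ℝ) + 1) * ρ) = ρ ^ b * (b * pol P l x) := by
        rw [pow_succ] at h3
        linarith
      exact mul_left_cancel₀ hρb.ne' this
    have hspos : 0 < pol P l x := by
      have : 0 < (b : ℝ) * pol P l x := by rw [← h5]; positivity
      exact (mul_pos_iff_of_pos_left hb0).1 this
    have hx0 : x ≠ 0 := by
      intro h6
      rw [h6, pol_zero (by linarith)] at hspos
      exact lt_irrefl _ hspos
    have hnx : 0 < ‖x‖ := norm_pos_iff.2 hx0
    have hl0 : l (Complex.arg x) ≠ 0 := by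
      intro h6
      have : pol P l x = ‖x‖ ^ P * l (Complex.arg x) := rfl
      rw [this, h6, mul_zero] at hspos
      exact lt_irrefl _ hspos
    have hDpos : 0 < X.D e.castSucc := by rw [hDx]; positivity
    have hQpos : 0 < (X.Q e.castSucc x).re := by
      have h6 : 0 < P * (pol P l x * ρ ^ b) := by positivity
      exact (mul_pos_iff_of_pos_left hDpos).1 (h6.trans_le h4)
    rcases cutx_cases (Nat.succ_pos b) hA hl hx0 hl0 with h6 | h6
    · exact absurd h6 (not_lt.2 hQpos.le)
    · have h7 : pol P l x = ‖x‖ ^ P := by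
        show ‖x‖ ^ P * l (Complex.arg x) = _
        rw [h6, mul_one]
      set σ : ℝ := ‖x‖ ^ P with hσ
      have hσ0 : 0 < σ := Real.rpow_pos_of_pos hnx _
      have h8 : (X.Q e.castSucc x).re ≤ X.ep e.castSucc * σ ^ (b + 1) := by
        have h9 : (X.Q e.castSucc x).re ≤ ‖X.Q e.castSucc x‖ :=
          (le_abs_self _).trans (Complex.abs_re_le_norm _)
        rw [Q_norm hX hcastle, hDx] at h9
        have h10 : ‖x‖ ^ (((b : ℝ) + 1) * P) = σ ^ (b + 1) := by
          rw [hσ, ← hcast, mul_comm, Real.rpow_mul hnx.le, Real.rpow_natCast]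
        rwa [h10] at h9
      rw [h7] at h4 h5
      have h9 : ρ = (b : ℝ) / (b + 1) * σ := by
        field_simp
        linarith
      have h10 : P * (σ * ρ ^ b) ≤ ((b : ℝ) + 1) * P * (X.ep e.castSucc * σ ^ (b + 1)) := by
        rw [hDx] at h4
        exact h4.trans (mul_le_mul_of_nonneg_left h8 (by positivity))
      rw [h9, mul_pow] at h10
      have h11 : P * σ ^ (b + 1) * ((b : ℝ) / (b + 1)) ^ b ≤
          P * σ ^ (b + 1) * (((b : ℝ) + 1) * X.ep e.castSucc) := by
        calc P * σ ^ (b + 1) * ((b : ℝ) / (b + 1)) ^ b =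
            P * (σ * (((b : ℝ) / (b + 1)) ^ b * σ ^ b)) := by ring
          _ ≤ _ := h10
          _ = _ := by ring
      have h12 : ((b : ℝ) / (b + 1)) ^ b ≤ ((b : ℝ) + 1) * X.ep e.castSucc :=
        le_of_mul_le_mul_left h11 (by positivity)
      have h13 := hA.ep e.castSucc (by rw [Fin.val_castSucc])
      rw [hcast, add_sub_cancel_right, Nat.add_sub_cancel] at h13
      have h14 := hX.hep e.castSucc hcastle
      have h15 : (1 / ((b : ℝ) + 1)) * ((b : ℝ) / (b + 1)) ^ b ≤ X.ep e.castSucc := by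
        rw [one_div, inv_mul_le_iff₀ (by positivity)]
        exact h12
      linarith

/-! ### the path -/

theorem mQ_contDiff {X : LD n} {a : Fin (n + 1) → ℕ} {e : Fin n} {Y : ℂ → ℂ} (hX : X.Ok a e)
    (hY : ContDiff ℝ 2 Y) (i : Fin (n + 1)) : ContDiff ℝ 2 (mQ X e Y i) := by
  unfold mQ
  split_ifs with h1 h2
  · exact Q_contDiff hX h1
  · exact hY
  · exact contDiff_const

theorem mg_contDiff {X : LD n} {a : Fin (n + 1) → ℕ} {e : Fin n} {η : ℂ → ℂ} (hX : X.Ok a e)
    (hη : ContDiff ℝ 2 η) (e' : Fin n) : ContDiff ℝ 2 (mg X e η e') := by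
  unfold mg
  split_ifs with h1 h2
  · exact Complex.ofRealCLM.contDiff.comp (g_contDiff hX h1)
  · exact hη
  · exact contDiff_id

theorem mh_contDiff {X : LD n} {a : Fin (n + 1) → ℕ} {e : Fin n} {H : ℝ × ℂ → ℂ} (hX : X.Ok a e)
    (hH : ContDiff ℝ 2 H) (e' : Fin n) :
    ContDiff ℝ 2 fun p : ℝ × ℂ => mh X a e (fun y => H (p.1, y)) e' p.2 := by
  unfold mh
  by_cases h1 : (e' : ℕ) < e
  · simp only [if_pos h1]
    exact (Complex.ofRealCLM.contDiff.comp (h_contDiff hX h1)).comp contDiff_snd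
  · by_cases h2 : (e' : ℕ) = e
    · simp only [if_neg h1, if_pos h2]
      exact hH
    · simp only [if_neg h1, if_neg h2]
      exact contDiff_snd.pow _

theorem contDiff_GFt {Q : Fin (n + 1) → ℝ × ℂ → ℂ} {g h : Fin n → ℝ × ℂ → ℂ}
    (hQ : ∀ i, ContDiff ℝ 2 (Q i)) (hg : ∀ e, ContDiff ℝ 2 (g e)) (hh : ∀ e, ContDiff ℝ 2 (h e)) :
    ContDiff ℝ 2 fun p : ℝ × (Fin (n + 1) → ℂ) =>
      (∑ i, Q i (p.1, p.2 i)) - ∑ e : Fin n, g e (p.1, p.2 e.castSucc) * h e (p.1, p.2 e.succ) := by
  have hc : ∀ i : Fin (n + 1), ContDiff ℝ 2 fun p : ℝ × (Fin (n + 1) → ℂ) => (p.1, p.2 i) := by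
    intro i
    have h1 : ContDiff ℝ 2 fun p : ℝ × (Fin (n + 1) → ℂ) => p.2 i := by fun_prop
    exact contDiff_fst.prodMk h1
  refine ContDiff.sub (ContDiff.sum fun i _ => ?_) (ContDiff.sum fun e' _ => ContDiff.mul ?_ ?_)
  · exact (hQ i).comp (hc i)
  · exact (hg e').comp (hc e'.castSucc)
  · exact (hh e').comp (hc e'.succ)

theorem s4_path {a : Fin (n + 1) → ℕ} (ha : Exps a) {X : LD n} {e : Fin n} {P P' : ℝ}
    {l β : ℝ → ℝ} (hP : 2 < P) (hP' : 1 ≤ P') (h2 : 2 < (a e.succ : ℝ) * P')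
    (hA : X.Al a e (a e.succ + 1) P) (hl : CutX (a e.succ + 1) l) (hβ : CutY (a e.succ + 1) β) :
    HPath fun p : ℝ × (Fin (n + 1) → ℂ) =>
      X.mid a e (Yp (a e.succ) P') (ηp P l) (Ht (a e.succ) P' β p.1) p.2 := by
  have hb2 : 2 ≤ a e.succ := ha.two _
  have hb2' : (2 : ℝ) ≤ a e.succ := by exact_mod_cast hb2
  have hcast : ((a e.succ + 1 : ℕ) : ℝ) = (a e.succ : ℝ) + 1 := by push_cast; ring
  have hdP : 2 < ((a e.succ + 1 : ℕ) : ℝ) * P' := by rw [hcast]; nlinarith
  have hX := hA.ok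
  refine HPath.of_slices (T := univ) isOpen_univ (subset_univ _) ?_ ?_ ?_
  · refine ContDiff.contDiffOn ?_
    have hQ := mQ_contDiff hX (Yp_contDiff hdP)
    have hg := mg_contDiff hX (ηp_contDiff hP hl)
    have hh := mh_contDiff (H := fun p : ℝ × ℂ => Ht (a e.succ) P' β p.1 p.2) hX
      (Ht_smooth h2 hβ.smooth hβ.per)
    have h3 := contDiff_GFt (Q := fun i p => mQ X e (Yp (a e.succ) P') i p.2)
      (g := fun e' p => mg X e (ηp P l) e' p.2)
      (h := fun e' p => mh X a e (fun y => Ht (a e.succ) P' β p.1 y) e' p.2)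
      (fun i => (hQ i).comp contDiff_snd) (fun e' => (hg e').comp contDiff_snd) hh
    exact h3
  · intro t _
    have hYPH : PH (((a e.succ + 1 : ℕ) : ℝ) * P') (Yp (a e.succ) P') := pc_hom _ _ _
    have hHPH : PH ((a e.succ : ℝ) * P') (Ht (a e.succ) P' β t) := pol_hom _ _
    have hηPH : PH P (ηp P l) := ph_ofReal (P := pol P l) (pol_hom _ _)
    have hsum : P / X.D e.castSucc +
        (a e.succ : ℝ) * P' / (((a e.succ + 1 : ℕ) : ℝ) * P') = 1 := by
      rw [hA.deg e.castSucc (by rw [Fin.val_castSucc]), hcast]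
      have h3 : P ≠ 0 := by linarith
      have h4 : P' ≠ 0 := by linarith
      field_simp
      ring
    have hD1 : 1 < ((a e.succ + 1 : ℕ) : ℝ) * P' := by linarith
    have key := LobeKit_407.wh_mid (X := X) (a := a) (e := e) ha.two hX hD1 hYPH hηPH hHPH hsum
    exact key
  · intro t ht x hx hre
    exact s4_reg ha hP hP' h2 hA hl hβ ht.1 ht.2 hx hre

theorem Ht_zero (b : ℕ) {P' : ℝ} (hP' : P' ≠ 0) (β : ℝ → ℝ) :
    Ht b P' β 0 = fun y => (pw P' y) ^ b := by
  funext y
  rw [S2_843.pow_eq_pc, S2_843.pc_pw hP', mul_comm P' (b : ℝ)]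
  show pol _ _ y = pol _ _ y
  congr 1
  funext x
  unfold S4_407.bb
  rw [cis_eq_S4]
  simp

theorem Ht_one (b : ℕ) (P' : ℝ) (β : ℝ → ℝ) :
    Ht b P' β 1 = fun y => ((pol ((b : ℝ) * P') β y : ℝ) : ℂ) := by
  funext y
  show ‖y‖ ^ ((b : ℝ) * P') • S4_407.bb b 1 (β (Complex.arg y)) (Complex.arg y) =
    ((‖y‖ ^ ((b : ℝ) * P') * β (Complex.arg y) : ℝ) : ℂ)
  unfold S4_407.bb
  rw [Complex.real_smul]
  simp

theorem Yp_eq (b : ℕ) {P' : ℝ} (hP' : P' ≠ 0) : Yp b P' = fun y => (pw P' y) ^ (b + 1) := by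
  funext y
  rw [S2_843.pow_eq_pc, S2_843.pc_pw hP', mul_comm P' ((b + 1 : ℕ) : ℝ)]
  rfl

/-- **S4.** -/
theorem s4P {a : Fin (n + 1) → ℕ} (ha : Exps a) (e : Fin n) : S4P a e := by
  intro X P l b hP hA hl hb h3
  have h3' : (3 : ℝ) ≤ a e.succ := by exact_mod_cast h3
  have h := (s4_path ha hP le_rfl (by linarith) hA hl hb).seq
  have e1 : Ht (a e.succ) 1 b 0 = fun y => y ^ a e.succ := by
    rw [Ht_zero _ one_ne_zero]
    funext y
    rw [S2_843.pw_one]
  have e2 : Yp (a e.succ) 1 = fun y => y ^ (a e.succ + 1) := by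
    rw [Yp_eq _ one_ne_zero]
    funext y
    rw [S2_843.pw_one]
  have e3 := Ht_one (a e.succ) 1 b
  rw [mul_one] at e3
  simp only [e1, e2, e3] at h
  exact h

/-- change of the power of the last variable -/
theorem pow_last {a : Fin (n + 1) → ℕ} {X : LD n} {e : Fin n} (he : (e : ℕ) + 1 = n)
    {Y η H : ℂ → ℂ} {P' : ℝ} (hP' : 0 < P') {w : Fin (n + 1) → ℝ} (hw : ∀ i, 0 < w i)
    (hWH : WH w (X.mid a e (fun y => Y (pw P' y)) η fun y => H (pw P' y))) :
    SEq (X.mid a e Y η H) (X.mid a e (fun y => Y (pw P' y)) η fun y => H (pw P' y)) := by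
  have hPi : (0 : ℝ) < P'⁻¹ := inv_pos.2 hP'
  let F : Fin (n + 1) → (ℂ ≃ₜ ℂ) := fun i =>
    if (i : ℕ) = e + 1 then S2_843.pwH P'⁻¹ hPi else Homeomorph.refl ℂ
  let φ : (Fin (n + 1) → ℂ) ≃ₜ (Fin (n + 1) → ℂ) := Homeomorph.piCongrRight F
  have hφ : ∀ z i, φ z i = if (i : ℕ) = e + 1 then pw P'⁻¹ (z i) else z i := by
    intro z i
    show F i (z i) = _
    simp only [F]
    split_ifs
    · rfl
    · rfl
  refine seq_of_equiv (w := fun i => if (i : ℕ) = e + 1 then P' * w i else w i) (w' := w) ?_ hw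
    hWH φ ?_ ?_
  · intro i
    have := hw i
    show 0 < (if (i : ℕ) = e + 1 then P' * w i else w i)
    split_ifs
    · positivity
    · exact this
  · intro s z
    funext i
    rw [hφ]
    show _ = (Real.exp (s * w i) : ℂ) * φ z i
    rw [hφ]
    show (if (i : ℕ) = e + 1 then
      pw P'⁻¹ ((Real.exp (s * (if (i : ℕ) = e + 1 then P' * w i else w i)) : ℂ) * z i) else
      ((Real.exp (s * (if (i : ℕ) = e + 1 then P' * w i else w i)) : ℂ) * z i)) = _
    split_ifs
    · rw [S2_843.pw_smul _ (Real.exp_pos _), ← Real.exp_mul]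
      congr 3
      field_simp
    · rfl
  · intro z
    have hpp : ∀ u, pw P' (pw P'⁻¹ u) = u := fun u => by
      rw [S2_843.pw_pw hPi.ne', mul_inv_cancel₀ hP'.ne', S2_843.pw_one]
    unfold LD.mid GF
    congr 1
    · refine Finset.sum_congr rfl fun i _ => ?_
      beta_reduce
      rw [hφ]
      by_cases hi : (i : ℕ) ≤ e
      · rw [if_pos hi, if_pos hi, if_neg (by omega)]
      · by_cases h : (i : ℕ) = e + 1
        · rw [if_neg hi, if_pos h, if_neg hi, if_pos h, if_pos h, hpp]
        · rw [if_neg hi, if_neg h, if_neg hi, if_neg h]; rfl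
    · refine Finset.sum_congr rfl fun e' _ => ?_
      beta_reduce
      rw [hφ, hφ]
      have he' := e'.isLt
      rcases lt_trichotomy (e' : ℕ) e with h | h | h
      · simp only [if_pos h, Fin.val_castSucc, Fin.val_succ]
        rw [if_neg (by omega), if_neg (by omega)]
      · simp only [if_neg h.not_lt, if_pos h, Fin.val_castSucc, Fin.val_succ]
        rw [if_neg (by omega), if_pos (by omega), hpp]
      · omega

/-- **S4 for the last variable.** -/
theorem s4lastP {a : Fin (n + 1) → ℕ} (ha : Exps a) (e : Fin n) : S4lastP a e := by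
  intro he X P P' l b hP hP' hA hl hb
  have h2 : (2 : ℝ) ≤ a e.succ := by exact_mod_cast ha.two e.succ
  have hP0 : 0 < P' := by linarith
  have hpath := s4_path ha (P' := P') hP (by linarith) (by nlinarith) hA hl hb
  have h := hpath.seq
  have e1 := Ht_zero (a e.succ) hP0.ne' b
  have e2 := Yp_eq (a e.succ) hP0.ne'
  have e3 := Ht_one (a e.succ) P' b
  obtain ⟨w, hw, hWH⟩ := hpath.wh 0 (by simp)
  simp only [e1, e2, e3] at h hWH
  refine SEq.trans ?_ h
  exact pow_last he hP0 (Y := fun y => y ^ (a e.succ + 1)) (H := fun y => y ^ a e.succ) hw hWH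

end Crest.Agent.R267.S4F_407
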