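import Crest.Agent.R267.GlueDefs_322
import Crest.Agent.R267.S4F_407_Mg
import Crest.Agent.R267.S3_82_Mg
import Crest.Agent.R267.PathP_951
import Crest.Agent.R267.GlLine_322
import Crest.Agent.R267.GlStar_52
import Crest.Agent.R267.GlLift_125
import Crest.Agent.R267.GlSys_842
import Crest.Agent.R267.ClassGF_808
import Crest.Agent.R267.Gl2_322
import Crest.Agent.R267.GlHomeo_322
import Crest.Agent.R267.GlC2b_796
import Crest.Agent.R267.GlCont_649
import Crest.Agent.R267.GlOpen_128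
import Crest.Agent.R267.Smooth_957
import Crest.Agent.R267.K1_996
import Crest.Agent.R267.AbsK_996
import Crest.Agent.R267.R4_996
import Crest.Agent.R267.K2c_867
import Crest.Agent.R267.Calc4_957
import Crest.Agent.R267.EndH_864
import Crest.Agent.R267.Calc3_957
import Crest.Agent.R267.EndI_864
import Crest.Agent.R267.GlBas_322
import Crest.Agent.R267.Carve3_363

-- ▼ part R267/GlLists_451
section

/-!
# Row 267 (helper451): GLUE-LISTS, `GL1h → GL1`

Reindexing (`SEq`, `Tame`, `F8`) along an equivalence, and the reversal of a list.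
-/

set_option autoImplicit false

noncomputable section

open Finset Set
open Crest.Agent.R267.T3aDefs_957 Crest.Agent.R267.Hm_951 Crest.Agent.R267.Ang_739
open Crest.Agent.R267.Sys_808 Crest.Agent.R267.P413Def_322 Crest.Agent.R267.GS_808
open Crest.Agent.R267.Cone_808 Crest.Agent.R267.DraftB_808 Crest.Agent.R267.TopAsm_808
open Crest.Agent.R267.GlueDefs_322

namespace Crest.Agent.R267.GlLists_451

variable {ι ι' : Type} [Fintype ι] [Fintype ι']

/-- reindexing as a homeomorphism -/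
def re (e : ι ≃ ι') : (ι' → ℂ) ≃ₜ (ι → ℂ) where
  toFun x i := x (e i)
  invFun y i := y (e.symm i)
  left_inv x := by funext i; simp
  right_inv y := by funext i; simp
  continuous_toFun := continuous_pi fun i => continuous_apply _
  continuous_invFun := continuous_pi fun i => continuous_apply _

theorem re_act (e : ι ≃ ι') (w : ι → ℝ) (s : ℝ) (x : ι' → ℂ) :
    re e (act (fun i => w (e.symm i)) s x) = act w s (re e x) := by
  funext i
  simp [re, act]

/-- `SEq` along a reindexing -/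
theorem seq_re (e : ι ≃ ι') {f : (ι → ℂ) → ℂ} {g : (ι' → ℂ) → ℂ}
    (h : ∀ x, g x = f (fun i => x (e i))) : SEq f g := by
  intro κ _ u hu
  refine ⟨sphReindex (e.sumCongr (Equiv.refl κ)), fun s => ?_⟩
  have h1 : oplus g u (sphReindex (e.sumCongr (Equiv.refl κ)) s) = oplus f u s := by
    show g _ + u _ = f _ + u _
    rw [h]
    congr 1
    · congr 1
      funext i
      rw [sphReindex_apply]
      simp
  rw [h1]

/-- `Tame` along a reindexing -/
theorem tame_re (e : ι ≃ ι') {f : (ι → ℂ) → ℂ} {g : (ι' → ℂ) → ℂ}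
    (h : ∀ x, g x = f (fun i => x (e i))) (hf : Tame f) : Tame g := by
  obtain ⟨w, E, i1, i2, i3, G, Ψ, hw, hG, hΨ, hf⟩ := hf
  refine ⟨fun i => w (e.symm i), E, i1, i2, i3, G, (re e).trans Ψ, fun i => hw _, hG,
    fun s x => ?_, fun x => ?_⟩
  · show Ψ (re e (act _ s x)) = _
    rw [re_act, hΨ]
    rfl
  · rw [h]
    exact hf _

/-- `F8` along a reindexing -/
theorem F8_re [DecidableEq ι'] (e : ι ≃ ι') (K cB ga : ℝ) {M : ι → ℕ} {M' : ι' → ℕ}
    (hM : ∀ i, M' (e i) = M i) (C : Finset (ι × ι × ℕ)) (x : ι' → ℂ) :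
    F8 K cB ga M' (C.image fun t => (e t.1, e t.2.1, t.2.2)) x = F8 K cB ga M C (fun i => x (e i)) := by
  unfold F8
  have h1 : ∑ j, P8 K ga (M' j) (x j) = ∑ j, P8 K ga (M j) (x (e j)) := by
    rw [← Equiv.sum_comp e]
    refine Finset.sum_congr rfl fun i _ => ?_
    rw [hM]
  have h2 : ∑ t ∈ C.image (fun t : ι × ι × ℕ => (e t.1, e t.2.1, t.2.2)),
      H8 K t.2.2 (M' t.1) (M' t.2.1) (x t.1) (x t.2.1) =
      ∑ t ∈ C, H8 K t.2.2 (M t.1) (M t.2.1) (x (e t.1)) (x (e t.2.1)) := by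
    rw [Finset.sum_image]
    · refine Finset.sum_congr rfl fun t _ => ?_
      simp only [hM]
    · intro a _ b _ hab
      simp only [Prod.mk.injEq, EmbeddingLike.apply_eq_iff_eq] at hab
      exact Prod.ext hab.1 (Prod.ext hab.2.1 hab.2.2)
  rw [h1, h2]

/-- the reversal -/
def rv {n : ℕ} {c : List ℕ} (h : c.length = n + 1) : Fin (n + 1) ≃ Fin c.length :=
  Fin.revPerm.trans (finCongr h.symm)

theorem rv_val {n : ℕ} {c : List ℕ} (h : c.length = n + 1) (i : Fin (n + 1)) :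
    ((rv h i : Fin c.length) : ℕ) = n - i := by
  simp [rv, Fin.val_rev]

/-- the exponents, head first -/
def av {n : ℕ} {c : List ℕ} (h : c.length = n + 1) (i : Fin (n + 1)) : ℕ := c.get (rv h i)

theorem ofFn_av {n : ℕ} {c : List ℕ} (h : c.length = n + 1) :
    (List.ofFn fun i : Fin (n + 1) => av h i.rev) = c := by
  apply List.ext_get
  · rw [List.length_ofFn, h]
  · intro k h1 h2
    rw [List.get_ofFn]
    unfold av
    congr 1
    apply Fin.ext
    rw [rv_val]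
    simp only [Fin.val_rev, Fin.val_cast]
    rw [h] at h2
    omega

theorem exps_av {n : ℕ} {c : List ℕ} (h : c.length = n + 1) (hc : Pierce c) :
    LobeDefs_407.Exps (av h) := by
  constructor
  · intro i j hij
    have h1 := List.pairwise_iff_get.1 hc.2
    refine h1 _ _ ?_
    rw [Fin.lt_def, rv_val, rv_val]
    have h2 := j.2
    rw [Fin.lt_def] at hij
    omega
  · intro i
    exact hc.1 _ (List.get_mem _ _)

theorem Mc_rv {n : ℕ} {c : List ℕ} (h : c.length = n + 1) (i : Fin (n + 1)) :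
    Mc c (rv h i) = Mh (av h) i := by
  unfold Mc Mh av
  rw [rv_val]
  have h2 := i.2
  by_cases h0 : i = 0
  · subst h0
    rw [if_neg (by rw [h]; simp), if_pos rfl]
  · have h3 : (i : ℕ) ≠ 0 := fun h4 => h0 (Fin.ext h4)
    rw [if_pos (by omega), if_neg h0]

theorem Cc_rv {n : ℕ} {c : List ℕ} (h : c.length = n + 1) :
    Cc c = (Ch (av h)).image fun t => (rv h t.1, rv h t.2.1, t.2.2) := by
  unfold Cc Ch
  ext ⟨p, q, r⟩
  simp only [Finset.mem_image, Finset.mem_filter, Finset.mem_univ, true_and, Prod.mk.injEq,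
    Prod.exists]
  constructor
  · rintro ⟨x, y, h1, h2, h3, h4⟩
    subst h2 h3
    have hx : ((rv h).symm x : ℕ) + x = n := by
      have h5 := rv_val h ((rv h).symm x)
      rw [Equiv.apply_symm_apply] at h5
      have h6 := ((rv h).symm x).2
      omega
    have hy : ((rv h).symm y : ℕ) + y = n := by
      have h5 := rv_val h ((rv h).symm y)
      rw [Equiv.apply_symm_apply] at h5
      have h6 := ((rv h).symm y).2
      omega
    have hlt : ((rv h).symm x : ℕ) < n := by omega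
    refine ⟨(rv h).symm x, (rv h).symm y, r, ⟨⟨(rv h).symm x, hlt⟩, ?_, ?_, ?_⟩, ?_, ?_, rfl⟩
    · exact Fin.ext rfl
    · apply Fin.ext
      simp only [Fin.val_succ]
      omega
    · rw [← h4]
      unfold av
      congr 1
      apply Fin.ext
      rw [rv_val]
      simp only [Fin.val_succ]
      omega
    · exact Equiv.apply_symm_apply _ _
    · exact Equiv.apply_symm_apply _ _
  · rintro ⟨x, y, z, ⟨e, h1, h2, h3⟩, h4, h5, h6⟩
    subst h1 h2 h3 h4 h5 h6
    refine ⟨_, _, ?_, rfl, rfl, ?_⟩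
    · rw [rv_val, rv_val]
      simp only [Fin.val_succ, Fin.val_castSucc]
      have := e.2
      omega
    · rfl

/-- **GLUE-LISTS** -/
theorem gl1_of (H : GL1h) : GL1 := by
  intro c hne hc K ga cB h1 h2 h3 h4
  obtain ⟨n, hn⟩ : ∃ n, c.length = n + 1 :=
    Nat.exists_eq_succ_of_ne_zero (fun h => hne (List.eq_nil_of_length_eq_zero h))
  have h5 : ∀ i, 8 * (Mh (av hn) i : ℝ) + 2 ≤ K := by
    intro i
    rw [← Mc_rv hn]
    exact h4 _
  obtain ⟨h6, h7⟩ := H n (av hn) (exps_av hn hc) K ga cB h1 h2 h3 h5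
  rw [ofFn_av] at h6
  have h8 : ∀ x, L8 K cB ga c x = F8 K cB ga (Mh (av hn)) (Ch (av hn)) (fun i => x (rv hn i)) := by
    intro x
    unfold L8
    rw [Cc_rv hn, F8_re (rv hn) K cB ga (Mc_rv hn)]
  exact ⟨h6.trans (seq_re (rv hn) h8), tame_re (rv hn) h8 h7⟩

end Crest.Agent.R267.GlLists_451
end
end

-- ▼ part R267/T3bFin_855
section

/-!
# Row 267 (helper855): T3b, final assembly (LEMMA 267-855-2, definitions of helper407)
-/

set_option autoImplicit false

namespace Crest.Agent.R267.T3bFin_855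

open Crest.Agent.R267.LobeDefs_407

/-- all steps -/
theorem steps {n : ℕ} {a : Fin (n + 1) → ℕ} (ha : Exps a) : T3bAsm_601.Steps a where
  path j hj := PathP_951.path ha j hj
  align e := Align_504.alignP ha e
  s1 e := S1_855.s1P ha e
  s2 e := S2_843.s2p ha e
  s3 e := S3_82.s3_of_red ha e (RedP_951.redP ha.two e)
  s4 e := S4F_407.s4P ha e
  s4l e := S4F_407.s4lastP ha e
  base := S2_843.base ha

/-- **T3b** -/
theorem t3bP : T3bP := T3bAsm_601.t3b_of fun _ _ ha => steps ha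

end Crest.Agent.R267.T3bFin_855
end

-- ▼ part R267/Gl1_322
section

/-!
# Row 267 (helper322): GL1, unconditional
-/

set_option autoImplicit false

namespace Crest.Agent.R267.Gl1_322

open Crest.Agent.R267.GlueDefs_322

theorem starP : StarP :=
  GlStar_52.star (fun _ _ h0 h8 hM => GlLift_125.liftP h0 h8 hM) T3bFin_855.t3bP

theorem gl1h : GL1h := GlueDefs_322.gl1h starP GlLine_322.lineP

/-- **GL1**: every chain of S0407 is stably link equivalent to its lobed function -/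
theorem gl1 : GL1 := GlLists_451.gl1_of gl1h

end Crest.Agent.R267.Gl1_322
end

-- ▼ part R267/Fin407_322
section

/-!
# Row 267 (helper322): S0407 from GL1 (done), GL2 in dimensions `≥ 4` and T3a
(the proof of `sysP3` is helper842's proof of `sysP`)
-/

set_option autoImplicit false
set_option linter.unusedSectionVars false

noncomputable section

open Finset Set Matrix
open Crest.Agent.R267.P4Defs_780 Crest.Agent.R267.ChainPoly_145
open Crest.Agent.R267.T3aDefs_957 Crest.Agent.R267.Hm_951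
open Crest.Agent.R267.Sys_808 Crest.Agent.R267.P413Def_322 Crest.Agent.R267.GS_808
open Crest.Agent.R267.Cone_808 Crest.Agent.R267.DraftB_808 Crest.Agent.R267.TopAsm_808
open Crest.Agent.R267.Asm_808 Crest.Agent.R267.GlueDefs_322


namespace Crest.Agent.R267.Fin407_322

open Crest.Agent.R267.GlSys_842

/-- **SYS** -/
theorem sysP3 (h1 : GL1) (n : ℕ) (h2 : ∀ D : LD (n + 3), GL2P D)
    (h3 : ∀ D : LD (n + 3), T3aP D) : T3Prop n := by
  classical
  refine ⟨1, true, fun C hA hI hN => ?_⟩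
  have hP : ∀ c ∈ C, Pierce c := fun c hc => ⟨(hA c hc).2, hI c hc⟩
  have hS : ∀ c ∈ C, ∀ a ∈ c, 2 ≤ a := fun c hc => (hA c hc).2
  have hcard : Fintype.card (Var C) = n + 3 := (card_Var C).trans hN
  let f : Var C ≃ Fin (n + 3) := Fintype.equivFinOfCardEq hcard
  let D : LD (n + 3) := DS C hS f
  obtain ⟨c0, hc0, H⟩ := (h2 D).and (h3 D)
  obtain ⟨g0, hg0, H⟩ := H (max c0 5) (le_max_left _ _)
  obtain ⟨d0, hd0, H⟩ := H (min g0 (1 / 8)) (lt_min hg0 (by norm_num)) (min_le_left _ _)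
  obtain ⟨hz, m, e, G, hG, hlink⟩ := H d0 hd0 le_rfl
  have hc : (4 : ℝ) < max c0 5 := lt_of_lt_of_le (by norm_num) (le_max_right _ _)
  have hg : (0 : ℝ) < min g0 (1 / 8) := lt_min hg0 (by norm_num)
  have hg' : min g0 (1 / 8) ≤ (1 / 8 : ℝ) := min_le_right _ _
  have hL : ∀ c ∈ C, SEq (chainFun c) (L8 D.K (max c0 5) (min g0 (1 / 8)) c) ∧
      Tame (L8 D.K (max c0 5) (min g0 (1 / 8)) c) := fun c hcC =>
    h1 c (hA c hcC).1 (hP c hcC) D.K (min g0 (1 / 8)) (max c0 5) hg hg' hc (K_bound C hS f c hcC)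
  have hs : SEq (sysFun C) (sysL (L8 D.K (max c0 5) (min g0 (1 / 8))) C) :=
    seq_sysFun hS (fun c hc => (hL c hc).1) fun c hc => (hL c hc).2
  have hz2 : ZEq (sysL (L8 D.K (max c0 5) (min g0 (1 / 8))) C)
      (F8 D.K (max c0 5) (min g0 (1 / 8)) D.M D.C) := by
    refine ⟨sphReindex f, fun s => ?_⟩
    rw [sysL_eq, F8_reindex f]
    exact Iff.rfl
  refine ⟨m, G, _, hG, ((hs.zeq.trans hz2).trans hz).isLink hlink, ?_⟩
  obtain ⟨E, hE⟩ := letters C
  let Θ : {k : Var C → ℕ // LetG (Ms C) (Cs C) k} ≃ {k : Fin (n + 3) → ℕ // D.Let k} :=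
    { toFun := fun k => ⟨fun j => k.1 (f.symm j), (let_DS C hS f _).2 (by
        simpa only [Equiv.symm_apply_apply] using k.2)⟩
      invFun := fun k => ⟨fun v => k.1 (f v), (let_DS C hS f _).1 k.2⟩
      left_inv := fun k => Subtype.ext (by funext v; simp)
      right_inv := fun k => Subtype.ext (by funext v; simp) }
  let e' : Fin m ≃ PSys C := e.trans (E.trans Θ).symm
  have he' : ∀ a, e a = Θ (E (e' a)) := fun a => by
    show e a = (E.trans Θ) ((E.trans Θ).symm (e a))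
    rw [Equiv.apply_symm_apply]
  have h5 : Cong ℤ (sysMat C) (posSys C) := P413_322.p413 hP
  have h6 := Cong.tr h5 1 true
  have h7 : (1 : ℤ) • tr true (posSys C) = (posSys C).transpose := by
    rw [one_smul]; rfl
  rw [h7] at h6
  have h8 : Cong ℤ ((posSys C).transpose) ((posSys C).transpose.submatrix e' e') :=
    T3Asm_322.cong_submatrix _ e'
  have h9 : (posSys C).transpose.submatrix e' e' = Matrix.of fun a b =>
      open Classical in if ∀ j, (e b).1 j ≤ (e a).1 j then (1 : ℤ) else 0 := by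
    ext a b
    show posSys C (e' b) (e' a) = _
    rw [hE, Matrix.of_apply, he', he']
    refine if_congr ?_ rfl rfl
    constructor
    · intro h j
      exact h (f.symm j)
    · intro h v
      have := h (f v)
      simpa [Θ] using this
  rw [h9] at h8
  exact Cong.trans h6 h8

/-- **S0407 from GL2 and T3a**. -/
theorem s0407 (h2 : ∀ n, 1 ≤ n → ∀ D : LD (n + 3), GL2P D)
    (h3 : ∀ n, 1 ≤ n → ∀ D : LD (n + 3), T3aP D) : Asm_808.S0407Stmt :=
  TopAsm_808.stmt_of (fun n hn => sysP3 Gl1_322.gl1 n (h2 n hn) (h3 n hn)) ClassGF_808.classG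

end Crest.Agent.R267.Fin407_322
end
end

-- ▼ part R267/Gl2Fin_322
section

/-!
# Row 267 (helper322): GL2 from `K2Prop`, and S0407 from `K2Prop` and `T3aP`
-/

set_option autoImplicit false

namespace Crest.Agent.R267.Gl2Fin_322

open Crest.Agent.R267.T3aDefs_957 Crest.Agent.R267.GlueDefs_322

/-- **GL2** -/
theorem gl2 {N : ℕ} (D : LD N) (h : D.K2Prop) : GL2P D :=
  Gl2_322.gl2 D (Smooth_957.smooth D) (K1_996.k1 D (Smooth_957.smooth D)) h
    (GlHomeo_322.homeoP D) (GlC2b_796.c2P D) (GlCont_649.contP D) GlOpen_128.openP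

/-- **S0407 from K2 and T3a** -/
theorem s0407 (h2 : ∀ n, 1 ≤ n → ∀ D : LD (n + 3), D.K2Prop)
    (h3 : ∀ n, 1 ≤ n → ∀ D : LD (n + 3), T3aP D) : Asm_808.S0407Stmt :=
  Fin407_322.s0407 (fun n hn D => gl2 D (h2 n hn D)) h3

end Crest.Agent.R267.Gl2Fin_322
end

-- ▼ part R267/K2I_996
section

/-!
# Row 267, T3a: K2 in region I for `T3aDefs_957.LD.G`
-/

set_option autoImplicit false

noncomputable section

namespace Crest.Agent.R267.K2I_996

open Set Filter Topology Finset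
open Crest.Agent.R267.T3aDefs_957 Crest.Agent.R267.Calc_957
open Crest.Agent.R267.TLine_996 (SA SB plt)
open Crest.Agent.R267.K1_996 (M_le_Mx pl_im_abs re_of_crit Be_nonneg)
open Crest.Agent.R267.CLine_996 (lc lc_re lc_im lc_zero hasDerivAt_H)
open Crest.Agent.R267.AbsG_996 Crest.Agent.R267.AbsK_996

variable {N : ℕ}

/-- `LD.G` as an abstract lobed function. -/
def ag (D : LD N) (cB ga d : ℝ) : AG N where
  K1 := D.K1
  ga := ga
  T := 8 * D.Mx + 1
  P := fun j => pl ga (D.M j)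
  B := fun z => cB * ga * ∑ e ∈ D.C, D.Be d e z


lemma pl_hom (ga : ℝ) (M : ℕ) (w : ℂ) (r : ℝ) (hr : 0 < r) :
    pl ga M ((r : ℂ) * w) = (r : ℂ) * pl ga M w := by
  have e1 : ((r : ℂ) * w).re = r * w.re := Complex.re_ofReal_mul _ _
  have e2 : ((r : ℂ) * w).im = r * w.im := Complex.im_ofReal_mul _ _
  unfold pl
  rw [e1, e2, mul_div_mul_left _ _ hr.ne']
  by_cases h : 0 < w.re
  · rw [if_pos h, if_pos (mul_pos hr h)]
    push_cast
    ring
  · rw [if_neg h, if_neg (fun h1 => h ((mul_pos_iff_of_pos_left hr).1 h1))]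
    push_cast
    ring

lemma ag_ok (D : LD N) {cB ga : ℝ} (d : ℝ) (hc : 0 ≤ cB) (hg : 0 < ga) (hg1 : ga < 1) :
    (ag D cB ga d).Ok where
  T1 := by
    show (1 : ℝ) ≤ 8 * D.Mx + 1
    have : (0 : ℝ) ≤ D.Mx := Nat.cast_nonneg _
    linarith
  K1T := by
    show (8 * (D.Mx : ℝ) + 1) * N ≤ (8 * D.Mx + 2) * N
    have : (0 : ℝ) ≤ N := Nat.cast_nonneg _
    gcongr
    norm_num
  ga0 := hg
  ga1 := hg1
  diff := fun j w hw => (Calc2_957.hasFDerivAt_pl ga (D.M j) hw).differentiableAt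
  far := fun j w h => by
    change (8 * (D.Mx : ℝ) + 1) * w.re < |w.im| at h
    show pl ga (D.M j) w = _
    have : pl ga (D.M j) w = -((2 - ga : ℝ) : ℂ) * w.re - Complex.I * w.im := by
      rcases le_or_gt w.re 0 with h1 | h1
      · exact pl_of_nonpos h1
      · refine K1_996.pl_far ?_
        unfold K1_996.Far
        rw [abs_of_pos h1]
        have := M_le_Mx D j
        refine le_trans ?_ h.le
        gcongr
    exact this
  hom := fun j w r hr => pl_hom ga (D.M j) w r hr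
  re_le := fun j w h => R4_996.pl_re_le (D.M j) h
  im_le := fun j w => by
    refine (pl_im_abs ga (D.M j) w).trans ?_
    have := M_le_Mx D j
    show (8 * (D.M j : ℝ) + 1) * (|w.re| + |w.im|) ≤ (8 * (D.Mx : ℝ) + 1) * (|w.re| + |w.im|)
    gcongr
  crit := fun j w hw h => by
    have e : fderiv ℝ (pl ga (D.M j)) w Complex.I = plt (D.M j) w := by
      rw [(Calc2_957.hasFDerivAt_pl ga (D.M j) hw).fderiv]
      simp [Calc2_957.pb, plt]
    have h1 := re_of_crit (ga := ga) (M := D.M j) (w := w) (by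
      rw [← e]; exact h)
    exact ⟨h1.1, h1.2.le⟩
  B0 := fun z => mul_nonneg (mul_nonneg hc hg.le) (sum_nonneg fun e _ => Be_nonneg D d e z)

lemma win_nonneg (m M : ℕ) (τ : ℝ) : 0 ≤ win m M τ :=
  mul_nonneg (st_nonneg _) (by have := st_le_one ((τ - (8 * M - 1)) / 2); linarith)

lemma Be_deriv (D : LD N) {cB ga d : ℝ} (hd : 0 < d) {z : Fin N → ℂ} (hz : z ≠ 0)
    (y : Fin N → ℂ)
    (h : ∀ i, z i = 0 ∨ (ag D cB ga d).T * (z i).re < |(z i).im| ∨
      (0 < (z i).re ∧ y i = -(z i / ((z i).re : ℂ)) ∧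
        ∃ r ≤ 0, HasDerivAt (fun h => (ag D cB ga d).R d (lc z y h) i) r 0))
    (e : Fin N × Fin N × ℕ) : ∃ b ≤ 0, HasDerivAt (fun h => D.Be d e (lc z y h)) b 0 := by
  have hzero : ∀ i m M, M ≤ D.Mx → (z i = 0 ∨ (ag D cB ga d).T * (z i).re < |(z i).im|) →
      ∀ᶠ h in 𝓝 (0 : ℝ), D.R d (lc z y h) i = 0 ∨
        win m M ((lc z y h i).im / (lc z y h i).re) = 0 := by
    intro i m M hM hi
    filter_upwards [off_near (A := ag D cB ga d) (y := y) hd hz hi] with h hh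
    rcases hh with h1 | ⟨h1, h2⟩
    · exact Or.inl h1
    · right
      refine Curve_867.win_far (le_trans ?_ h2.le)
      show 8 * (M : ℝ) + 1 ≤ 8 * D.Mx + 1
      have : (M : ℝ) ≤ D.Mx := by exact_mod_cast hM
      linarith
  have hMx : ∀ j, D.M j ≤ D.Mx := fun j => by
    have := M_le_Mx D j
    exact_mod_cast this
  have hd0 : ∀ f : ℝ → ℝ, (∀ᶠ h in 𝓝 (0 : ℝ), f h = 0) → ∃ b ≤ 0, HasDerivAt f b 0 :=
    fun f hf => ⟨0, le_rfl, (hasDerivAt_const (0 : ℝ) (0 : ℝ)).congr_of_eventuallyEq hf⟩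
  by_cases h1 : z e.1 = 0 ∨ (ag D cB ga d).T * (z e.1).re < |(z e.1).im|
  · refine hd0 _ ?_
    filter_upwards [hzero e.1 e.2.2 (D.M e.1) (hMx _) h1] with h hh
    unfold LD.Be
    rcases hh with hh | hh
    · rw [hh]; simp
    · rw [hh]; simp
  by_cases h2 : z e.2.1 = 0 ∨ (ag D cB ga d).T * (z e.2.1).re < |(z e.2.1).im|
  · refine hd0 _ ?_
    filter_upwards [hzero e.2.1 (D.M e.2.1 - 1) (D.M e.2.1) (hMx _) h2] with h hh
    unfold LD.Be
    rcases hh with hh | hh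
    · rw [hh]; simp
    · rw [hh]; simp
  push Not at h1 h2
  obtain ⟨s1, y1, r1, hr1, k1⟩ := ((h e.1).resolve_left h1.1).resolve_left (not_lt.2 h1.2)
  obtain ⟨s2, y2, r2, hr2, k2⟩ := ((h e.2.1).resolve_left h2.1).resolve_left (not_lt.2 h2.2)
  have nn : ∀ i, ∀ᶠ h in 𝓝 (0 : ℝ), 0 ≤ (ag D cB ga d).R d (lc z y h) i := fun i =>
    Eventually.of_forall fun h => R_nonneg _ d _ i
  have k3 := hasDerivAt_H k1 k2 (nn _) (nn _)
  set u := (ag D cB ga d).R d (lc z y 0) e.1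
  set v := (ag D cB ga d).R d (lc z y 0) e.2.1
  have k4 := k3.mul_const (win e.2.2 (D.M e.1) ((z e.1).im / (z e.1).re) *
      win (D.M e.2.1 - 1) (D.M e.2.1) ((z e.2.1).im / (z e.2.1).re))
  refine ⟨_, ?_, k4.congr_of_eventuallyEq ?_⟩
  · refine mul_nonpos_of_nonpos_of_nonneg (div_nonpos_of_nonpos_of_nonneg ?_ (sq_nonneg _))
      (mul_nonneg (win_nonneg _ _ _) (win_nonneg _ _ _))
    have a1 : v ^ 2 * r1 ≤ 0 := mul_nonpos_of_nonneg_of_nonpos (sq_nonneg _) hr1
    have a2 : u ^ 2 * r2 ≤ 0 := mul_nonpos_of_nonneg_of_nonpos (sq_nonneg _) hr2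
    linarith
  · filter_upwards [tau_near s1 y1, tau_near s2 y2] with h e1 e2
    unfold LD.Be
    rw [e1, e2]
    rfl

lemma ag_BOk (D : LD N) {cB ga d : ℝ} (hc : 0 ≤ cB) (hg : 0 < ga) (hd : 0 < d) :
    BOk (ag D cB ga d) d := by
  intro z hz y h
  choose b hb0 hb using fun e => Be_deriv D hd hz y h e
  refine ⟨cB * ga * ∑ e ∈ D.C, b e, ?_, (HasDerivAt.fun_sum fun e _ => hb e).const_mul _⟩
  exact mul_nonpos_of_nonneg_of_nonpos (mul_nonneg hc hg.le) (sum_nonpos fun e _ => hb0 e)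

/-- **K2 in region I** (no condition on `G z`). -/
theorem k2I (D : LD N) (hS : D.Smooth) : LD.Ev fun c g d => ∀ z : Fin N → ℂ, z ≠ 0 →
    D.K1 ^ 2 * SA z < SB z → ∃ Y : Fin N → ℝ, (fderiv ℝ (D.G c g d) z (LD.vs 1 Y)).im = 0 ∧
      0 < (fderiv ℝ (D.G c g d) z (LD.vs 1 Y)).re := by
  obtain ⟨d0, hd0, hdk⟩ := exists_dOk1 (N := N) D.K1 (8 * D.Mx + 1)
  have h1 : LD.Ev fun c g d => 0 < c ∧ 0 < g ∧ g * (9 * N + 1) ≤ 1 / 2 ∧ 0 < d ∧ d ≤ d0 := by
    refine ⟨1, one_pos, fun c hc => ⟨1 / (2 * (9 * N + 1)), by positivity, fun g hg hg' =>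
      ⟨d0, hd0, fun d h h' => ⟨by linarith, hg, ?_, h, h'⟩⟩⟩⟩
    rw [le_div_iff₀ (by positivity)] at hg'
    linarith
  refine (hS.and h1).mono fun c g d _ _ _ ⟨hs, hc, hg, hg1, hdp, hd1⟩ z hz h2 => ?_
  have hN0 : (0 : ℝ) ≤ N := Nat.cast_nonneg _
  have hg2 : g < 1 := by nlinarith
  have hG : DifferentiableAt ℝ ((ag D c g d).G d) z :=
    (hs.contDiffAt (isOpen_compl_singleton.mem_nhds hz)).differentiableAt (by norm_num)
  have hok := ag_ok D d hc.le hg hg2
  obtain ⟨k1, k2, k3⟩ := hdk d hdp hd1 (ag D c g d) hok rfl rfl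
  exact AbsK_996.k2I hok hdp k1 k2 k3 hg1 (ag_BOk D hc.le hg hdp) hz hG h2

end Crest.Agent.R267.K2I_996
end
end

-- ▼ part R267/K2II_867
section

/-!
# K2 of T3a in the region II (`|t| ≤ K1 |s|`)
-/

set_option autoImplicit false

noncomputable section

open Finset

namespace Crest.Agent.R267.K2II_867

open Crest.Agent.R267.LemL_951 Crest.Agent.R267.T3aDefs_957 Crest.Agent.R267.Calc_957
  Crest.Agent.R267.Calc2_957 Crest.Agent.R267.Calc3_957 Crest.Agent.R267.Calc4_957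
  Crest.Agent.R267.K2b_867 Crest.Agent.R267.K2c_867

variable {N : ℕ} (D : LD N) (cB ga d : ℝ) (z : Fin N → ℂ)

/-- the point. -/
def mk : Pt N where
  D := D
  cB := cB
  ga := ga
  d := d
  z := z
  ps := fun j => ps D.K (z j)
  pt := fun j => pt D.K (z j)

variable {D} {cB ga d} {z}

theorem nu_eq : (mk D cB ga d z).nu = √(AA z) := rfl

theorem x_eq (h : II D z) (j : Fin N) : (mk D cB ga d z).x j = D.xr z j := by
  unfold Pt.x LD.xr
  rw [h.NN, nu_eq]
  rfl

theorem X_eq (h : II D z) (j : Fin N) : (mk D cB ga d z).X j = D.ch d z j := by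
  unfold Pt.X LD.ch
  rw [x_eq h]
  rfl

theorem cd_eq (h : II D z) (j : Fin N) : (mk D cB ga d z).cd j = chid d (D.xr z j) := by
  unfold Pt.cd chid
  rw [x_eq h]
  rfl

theorem S_eq : (mk D cB ga d z).S = S z := by
  unfold Pt.S S
  rw [sum_div]
  rfl

theorem rho_eq (h : II D z) (j : Fin N) : (mk D cB ga d z).rho j = rho D d z j := by
  unfold Pt.rho rho
  rw [x_eq h, X_eq h, cd_eq h, S_eq]

theorem Rr_eq (h : II D z) (j : Fin N) : (mk D cB ga d z).Rr j = D.R d z j := by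
  unfold Pt.Rr LD.R
  rw [X_eq h]
  rfl

theorem hh_eq (h : II D z) (e : (mk D cB ga d z).Ed) :
    (mk D cB ga d z).hh e = hh D d z e.1 := by
  unfold Pt.hh hh
  rw [Rr_eq h, Rr_eq h]
  rfl

theorem Be_eq' (h : II D z) (e : (mk D cB ga d z).Ed) :
    (mk D cB ga d z).hh e * ((mk D cB ga d z).la e * (mk D cB ga d z).be e) = D.Be d e.1 z := by
  rw [hh_eq h, Be_eq]
  rfl

theorem h1_eq (h : II D z) (e : (mk D cB ga d z).Ed) :
    (mk D cB ga d z).h1 e = h1 D d z e.1 := by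
  unfold Pt.h1 h1
  rw [Rr_eq h, Rr_eq h]
  rfl

theorem h2_eq (h : II D z) (e : (mk D cB ga d z).Ed) :
    (mk D cB ga d z).h2 e = h2 D d z e.1 := by
  unfold Pt.h2 h2
  rw [Rr_eq h, Rr_eq h]
  rfl

theorem la_eq (e : (mk D cB ga d z).Ed) : (mk D cB ga d z).la e = la D z e.1 := rfl

theorem be_eq (e : (mk D cB ga d z).Ed) : (mk D cB ga d z).be e = be D z e.1 := rfl

theorem lad_eq (e : (mk D cB ga d z).Ed) : (mk D cB ga d z).lad e = lad D z e.1 := rfl

theorem bed_eq (e : (mk D cB ga d z).Ed) : (mk D cB ga d z).bed e = bed D z e.1 := rfl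

theorem tB_eq (h : II D z) (j : Fin N) : (mk D cB ga d z).tB j = tB D cB ga d z j := by
  classical
  unfold Pt.tB tB
  rw [← sum_coe_sort D.C]
  refine congrArg (fun x => cB * ga * x) (sum_congr rfl fun e _ => ?_)
  rw [hh_eq h, la_eq, be_eq, lad_eq, bed_eq]
  have e1 : (mk D cB ga d z).src e = e.1.1 := rfl
  have e2 : (mk D cB ga d z).tgt e = e.1.2.1 := rfl
  rw [e1, e2, mul_add, mul_ite, mul_zero, mul_ite, mul_zero]
  have e3 : (mk D cB ga d z).z j = z j := rfl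
  rw [e3]
  congr 1
  · by_cases h1 : e.1.1 = j
    · rw [if_pos h1, if_pos h1]; ring
    · rw [if_neg h1, if_neg h1]
  · by_cases h1 : e.1.2.1 = j
    · rw [if_pos h1, if_pos h1]; ring
    · rw [if_neg h1, if_neg h1]

theorem HB_eq (h : II D z) (j : Fin N) : (mk D cB ga d z).HB j = HB D cB ga d z j := by
  classical
  unfold Pt.HB HB
  rw [← sum_coe_sort D.C]
  refine congrArg (fun x => cB * ga * x) (sum_congr rfl fun e _ => ?_)
  rw [h1_eq h, h2_eq h, la_eq, be_eq]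
  have e1 : (mk D cB ga d z).src e = e.1.1 := rfl
  have e2 : (mk D cB ga d z).tgt e = e.1.2.1 := rfl
  rw [e1, e2]

theorem Wp_iff (j : Fin N) : (mk D cB ga d z).Wp j ↔ 0 < (z j).re ∧ Wd D z j := by
  unfold Pt.Wp Wd
  constructor
  · intro h
    have h1 : 0 < (z j).re := h.1
    refine ⟨h1, ?_⟩
    rw [abs_of_pos h1]
    exact h.2
  · intro h
    refine ⟨h.1, ?_⟩
    have h2 := h.2
    rw [abs_of_pos h.1] at h2
    exact h2

theorem hP : (mk D cB ga d z).HP := by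
  intro j
  refine ⟨pt_mul_nonneg _ _, ?_, fun h => ?_⟩
  · by_cases hj : z j = 0
    · have e1 : (mk D cB ga d z).z j = 0 := hj
      rw [e1, pg_zero]
      simp
    · exact pg_euler _ hj
  · by_contra h1
    exact h (pt_of_le (K_nonneg D) (not_lt.1 h1))

/-- a steep variable is on the first or last line. -/
theorem steep {j : Fin N} (h0 : 0 < (z j).re) (hW : ¬ Wd D z j) (ga : ℝ) :
    pvd (D.M j) ((z j).im / (z j).re) = -Complex.I ∧
      pv ga (D.M j) ((z j).im / (z j).re) =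
        -((2 - ga : ℝ) : ℂ) - Complex.I * (((z j).im / (z j).re : ℝ) : ℂ) := by
  have h1 := le_K D j
  unfold Wd at hW
  rw [not_le, abs_of_pos h0] at hW
  have h2 : (8 * (D.M j : ℝ) + 1) * (z j).re < |(z j).im| := by nlinarith
  rcases le_total 0 (z j).im with h3 | h3
  · rw [abs_of_nonneg h3] at h2
    have h4 : 8 * (D.M j : ℝ) + 1 ≤ (z j).im / (z j).re := by
      rw [le_div_iff₀ h0]; exact h2.le
    rw [pvd_high (by linarith), pv_high (by linarith), st_of_ge (by linarith),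
      std_of_ge (by linarith)]
    constructor
    · simp
    · push_cast
      ring
  · have h4 : (z j).im / (z j).re ≤ 1 :=
      (div_nonpos_of_nonpos_of_nonneg h3 h0.le).trans zero_le_one
    rw [pvd_low h4, pv_low h4]
    exact ⟨rfl, rfl⟩

theorem pa_off {j : Fin N} (hW : ¬ (0 < (z j).re ∧ Wd D z j)) (ga : ℝ) :
    pa ga (D.M j) (z j) = -((2 - ga : ℝ) : ℂ) ∧ pb (D.M j) (z j) = -Complex.I := by
  unfold pa pb
  rcases le_or_gt (z j).re 0 with h | h
  · rw [if_neg (not_lt.2 h), if_neg (not_lt.2 h)]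
    exact ⟨rfl, rfl⟩
  · rw [if_pos h, if_pos h]
    obtain ⟨h1, h2⟩ := steep h (fun hh => hW ⟨h, hh⟩) ga
    rw [h1, h2]
    refine ⟨?_, rfl⟩
    ring

theorem tB_off {j : Fin N} (hW : ¬ (0 < (z j).re ∧ Wd D z j)) : tB D cB ga d z j = 0 := by
  classical
  unfold tB
  rw [sum_eq_zero, mul_zero]
  intro e _
  by_cases h1 : e.1 = j
  · by_cases h2 : e.2.1 = j
    · rcases le_or_gt (z j).re 0 with h | h
      · rw [hh_of_left (by rw [h1]; exact h), zero_mul]
      · have h3 : ¬ Wd D z j := fun hh => hW ⟨h, hh⟩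
        rw [(steep_left (e := e) (by rw [h1]; exact h) (by rw [h1]; exact h3)).2,
          (steep_right (e := e) (by rw [h2]; exact h) (by rw [h2]; exact h3)).2]
        simp
    · rw [if_pos h1, if_neg h2]
      rcases le_or_gt (z j).re 0 with h | h
      · rw [hh_of_left (by rw [h1]; exact h), zero_mul]
      · have h3 : ¬ Wd D z j := fun hh => hW ⟨h, hh⟩
        rw [(steep_left (e := e) (by rw [h1]; exact h) (by rw [h1]; exact h3)).2]
        simp
  · by_cases h2 : e.2.1 = j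
    · rw [if_neg h1, if_pos h2]
      rcases le_or_gt (z j).re 0 with h | h
      · rw [hh_of_right (by rw [h2]; exact h), zero_mul]
      · have h3 : ¬ Wd D z j := fun hh => hW ⟨h, hh⟩
        rw [(steep_right (e := e) (by rw [h2]; exact h) (by rw [h2]; exact h3)).2]
        simp
    · rw [if_neg h1, if_neg h2]
      simp

/-- **the derivative along `i e_j`.** -/
theorem w_eq (h : II D z) (j : Fin N) :
    dG D cB ga d z (LD.vt (Pi.single j (1 : ℝ))) = (mk D cB ga d z).w j := by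
  classical
  rw [dG_apply, h.sum_dBe_vt]
  have e1 : ∀ i : Fin N, dT D ga d z i (LD.vt (Pi.single j (1 : ℝ))) =
      if i = j then ((chid d (D.xr z j) * (pt D.K (z j) / √(AA z)) : ℝ) : ℂ) *
        pl ga (D.M j) (z j) + (D.ch d z j : ℂ) * pb (D.M j) (z j) else 0 := by
    intro i
    rw [dT_apply, h.dch_vt, vt_re, vt_im, Pi.single_apply]
    by_cases hi : i = j
    · subst hi
      rw [if_pos rfl, if_pos rfl]
      push_cast
      ring
    · rw [if_neg hi, if_neg hi]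
      simp
  rw [sum_congr rfl fun i _ => e1 i, sum_ite_eq' univ j, if_pos (mem_univ _)]
  unfold Pt.w
  by_cases hW : 0 < (z j).re ∧ Wd D z j
  · rw [if_pos ((Wp_iff j).2 hW), tB_eq h, X_eq h, pt_of_le (K_nonneg D) hW.2]
    have e2 : pb (D.M j) (z j) = pvd (D.M j) ((z j).im / (z j).re) := if_pos hW.1
    rw [e2]
    have e3 : (mk D cB ga d z).ta j = (z j).im / (z j).re := rfl
    have e4 : (mk D cB ga d z).D = D := rfl
    rw [e3, e4]
    simp
  · rw [if_neg (fun hh => hW ((Wp_iff j).1 hh)), tB_off hW, (pa_off hW ga).2, X_eq h, cd_eq h]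
    have e4 : (mk D cB ga d z).D = D := rfl
    have e5 : (mk D cB ga d z).z j = z j := rfl
    have e6 : (mk D cB ga d z).pt j = pt D.K (z j) := rfl
    have e7 : (mk D cB ga d z).ga = ga := rfl
    rw [e4, e5, e6, e7, nu_eq]
    push_cast
    ring

/-- **the derivative along `-(1, …, 1)`.** -/
theorem w0_eq (h : II D z) (hz : z ≠ 0) :
    dG D cB ga d z (LD.vs 1 0) = (mk D cB ga d z).w0 := by
  classical
  rw [dG_apply, h.sum_dBe_vs hz]
  unfold Pt.w0
  rw [Complex.ofReal_sum, ← sum_sub_distrib]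
  refine sum_congr rfl fun j _ => ?_
  rw [dT_apply, h.dch_vs, vs_re, vs_im]
  unfold Pt.w0j
  have hnu := h.sqrt_pos hz
  by_cases hW : 0 < (z j).re ∧ Wd D z j
  · rw [if_pos hW, if_pos ((Wp_iff j).2 hW), rho_eq h, HB_eq h]
    unfold Pt.w
    rw [if_pos ((Wp_iff j).2 hW), tB_eq h, X_eq h]
    have e3 : (mk D cB ga d z).ta j = tau z j := rfl
    have e4 : (mk D cB ga d z).D = D := rfl
    have e5 : (mk D cB ga d z).pj j = pv ga (D.M j) (tau z j) := rfl
    rw [e3, e4, e5]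
    have e6 : pa ga (D.M j) (z j) =
        pv ga (D.M j) (tau z j) - (tau z j : ℂ) * pvd (D.M j) (tau z j) := if_pos hW.1
    rw [e6, pl_of_pos hW.1, ps_of_le (K_nonneg D) hW.2, abs_of_pos hW.1, div_self hW.1.ne']
    have e7 : (z j).re = D.xr z j * √(AA z) := by
      rw [h.xr_W hW.2, abs_of_pos hW.1]
      field_simp
    have e8 : pv ga (D.M j) ((z j).im / (z j).re) = pv ga (D.M j) (tau z j) := rfl
    rw [e8]
    have e9 : ((chid d (D.xr z j) * (-1 + D.xr z j * S z) / √(AA z) : ℝ) : ℂ) *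
        (((z j).re : ℂ) * pv ga (D.M j) (tau z j)) =
        ((chid d (D.xr z j) * (-1 + D.xr z j * S z) * D.xr z j : ℝ) : ℂ) *
          pv ga (D.M j) (tau z j) := by
      rw [← mul_assoc, ← Complex.ofReal_mul]
      congr 2
      rw [e7]
      field_simp
    rw [e9]
    unfold rho
    simp only [Pi.zero_apply]
    push_cast
    ring
  · rw [if_neg hW, if_neg (fun hh => hW ((Wp_iff j).1 hh)), (pa_off hW ga).1, X_eq h, cd_eq h,
      x_eq h, S_eq]
    have e4 : (mk D cB ga d z).D = D := rfl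
    have e5 : (mk D cB ga d z).z j = z j := rfl
    have e6 : (mk D cB ga d z).ps j = ps D.K (z j) := rfl
    have e7 : (mk D cB ga d z).ga = ga := rfl
    rw [e4, e5, e6, e7, nu_eq]
    simp only [Pi.zero_apply]
    push_cast
    ring

/-! ### constants -/

theorem con (hN : 3 ≤ N) {c : ℝ} (hc : 12 * (N : ℝ) + 1 ≤ c) {g : ℝ} (hg : 0 < g)
    (hg1 : g * (48 * N + 78 * N * c * (D.C.card : ℝ) + 8 * (8 * D.Mx + 1) * c * (D.C.card : ℝ) + 4)
      ≤ 1) {d : ℝ} (hd : 0 < d)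
    (hd1 : d * ((N : ℝ) ^ 2 * (4 + 2 * (8 * D.Mx + 1) + 28 * D.K) + 8 * N ^ 2 / g +
      4 * N * ((D.C.card : ℝ) + 1) * c + 1) ≤ 1) (z : Fin N → ℂ) (u : ℂ) (eu : ℝ) :
    ((mk D c g d z).dat u eu).Con (Fintype.card (Fin N))
      (Fintype.card (mk D c g d z).Ed) := by
  have hN' : (3 : ℝ) ≤ N := by exact_mod_cast hN
  have hC : (Fintype.card (mk D c g d z).Ed : ℝ) = D.C.card := by
    have : Fintype.card (mk D c g d z).Ed = D.C.card := Fintype.card_coe D.C
    rw [this]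
  have hC0 : (0 : ℝ) ≤ D.C.card := Nat.cast_nonneg _
  have hM0 : (0 : ℝ) ≤ D.Mx := Nat.cast_nonneg _
  have hMx : (N : ℝ) ≤ D.Mx := by
    have : ∑ j : Fin N, 1 ≤ ∑ j, D.M j := sum_le_sum fun j _ => D.hM j
    simp only [sum_const, card_univ, Fintype.card_fin, smul_eq_mul, mul_one] at this
    exact_mod_cast this
  have hK : 39 * (N : ℝ) ≤ D.K := by
    unfold LD.K LD.K1
    have h1 : (26 : ℝ) ≤ 8 * D.Mx + 2 := by linarith
    have h2 : 26 * (3 * (N : ℝ)) ≤ (8 * D.Mx + 2) * ((N : ℝ) * N) :=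
      mul_le_mul h1 (by nlinarith) (by linarith) (by linarith)
    nlinarith
  have hK0 : 0 ≤ D.K := by linarith
  have hc0 : 0 < c := by linarith
  have a1 : 0 ≤ 78 * (N : ℝ) * c * D.C.card := by positivity
  have a2 : 0 ≤ 8 * (8 * (D.Mx : ℝ) + 1) * c * D.C.card := by positivity
  have a3 : 0 ≤ 48 * (N : ℝ) := by positivity
  have b1 : 0 ≤ g * (78 * (N : ℝ) * c * D.C.card) := mul_nonneg hg.le a1
  have b2 : 0 ≤ g * (8 * (8 * (D.Mx : ℝ) + 1) * c * D.C.card) := mul_nonneg hg.le a2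
  have b3 : 0 ≤ g * (48 * (N : ℝ)) := mul_nonneg hg.le a3
  have c1 : 0 ≤ d * ((N : ℝ) ^ 2 * (4 + 2 * (8 * D.Mx + 1) + 28 * D.K)) := by positivity
  have c2 : 0 ≤ d * (8 * (N : ℝ) ^ 2 / g) := by positivity
  have c3 : 0 ≤ d * (4 * N * ((D.C.card : ℝ) + 1) * c) := by positivity
  rw [Fintype.card_fin, hC]
  refine { hN := by linarith, hM := hC0, hga := hg, hga2 := ?_, hga3 := ?_, hcB := ?_, hcT := ?_,
           hcT2 := ?_, hKM := ?_, hcT3 := ?_, hK := hK, hcO := ?_, hd := hd, hd1 := ?_,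
           hd2 := ?_, hd3 := ?_ }
  · show g ≤ 1 / 4
    linarith
  · show 6 * (N : ℝ) * g ≤ 1 / 8
    linarith
  · show 12 * (N : ℝ) < c
    linarith
  · show 0 ≤ c * g * (Fintype.card (mk D c g d z).Ed : ℝ)
    positivity
  · show 6 * (N : ℝ) * (13 / 8 * (c * g * (Fintype.card (mk D c g d z).Ed : ℝ))) ≤ 1 / 8
    rw [hC]
    linarith
  · show 0 ≤ 8 * (D.Mx : ℝ) + 1
    linarith
  · show (8 * (D.Mx : ℝ) + 1) * (c * g * (Fintype.card (mk D c g d z).Ed : ℝ)) ≤ 1 / 8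
    rw [hC]
    linarith
  · show 0 ≤ 28 * D.K
    linarith
  · show (N : ℝ) ^ 2 * (4 + 2 * (8 * (D.Mx : ℝ) + 1) + 28 * D.K) * d < 1
    linarith
  · show 8 * (N : ℝ) ^ 2 * d ≤ g
    have : d * (8 * (N : ℝ) ^ 2 / g) ≤ 1 := by linarith
    rw [mul_div_assoc', div_le_one hg] at this
    linarith
  · show 2 * d * (2 * N * ((D.C.card : ℝ) + 1) * c) < 1
    linarith

/-- **K2 in the region II.** -/
theorem k2II (hN : 3 ≤ N) (hK1 : D.K1Prop) : LD.Ev fun c g d => ∀ z : Fin N → ℂ, z ≠ 0 →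
    II D z → D.G c g d z = 0 → ∃ (a : ℝ) (Y : Fin N → ℝ), 0 ≤ a ∧
      (fderiv ℝ (D.G c g d) z (LD.vs a Y)).im = 0 ∧
      0 < (fderiv ℝ (D.G c g d) z (LD.vs a Y)).re := by
  have key : LD.Ev fun c g d => 12 * (N : ℝ) + 1 ≤ c ∧ 0 < g ∧
      g * (48 * N + 78 * N * c * (D.C.card : ℝ) + 8 * (8 * D.Mx + 1) * c * (D.C.card : ℝ) + 4)
      ≤ 1 ∧ 0 < d ∧ d * ((N : ℝ) ^ 2 * (4 + 2 * (8 * D.Mx + 1) + 28 * D.K) + 8 * N ^ 2 / g +
      4 * N * ((D.C.card : ℝ) + 1) * c + 1) ≤ 1 := by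
    refine ⟨12 * N + 1, by positivity, fun c hc => ?_⟩
    have hc0 : 0 < c := lt_of_lt_of_le (by positivity) hc
    have h1 : 0 < 48 * (N : ℝ) + 78 * N * c * (D.C.card : ℝ) +
        8 * (8 * D.Mx + 1) * c * (D.C.card : ℝ) + 4 := by positivity
    refine ⟨1 / (48 * (N : ℝ) + 78 * N * c * (D.C.card : ℝ) +
        8 * (8 * D.Mx + 1) * c * (D.C.card : ℝ) + 4), by positivity, fun g hg hg1 => ?_⟩
    have hK0 := K_nonneg D
    have h2 : 0 < (N : ℝ) ^ 2 * (4 + 2 * (8 * D.Mx + 1) + 28 * D.K) + 8 * N ^ 2 / g +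
      4 * N * ((D.C.card : ℝ) + 1) * c + 1 := by positivity
    refine ⟨1 / ((N : ℝ) ^ 2 * (4 + 2 * (8 * D.Mx + 1) + 28 * D.K) + 8 * N ^ 2 / g +
      4 * N * ((D.C.card : ℝ) + 1) * c + 1), by positivity, fun d hd hd1 => ?_⟩
    refine ⟨hc, hg, ?_, hd, ?_⟩
    · rwa [le_div_iff₀ h1] at hg1
    · rwa [le_div_iff₀ h2] at hd1
  refine (hK1.and key).mono fun c g d hc0 hg0 hd0 ⟨hk, hc, hg, hg1, hd, hd1⟩ z hz h hG => ?_
  classical
  obtain ⟨Y0, hY0⟩ := hk z hz (by rw [hG]; simp) (by rw [hG]; simp)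
  rw [fderiv_G D c g hd hz] at hY0
  have hnu : 0 < (mk D c g d z).nu := h.sqrt_pos hz
  -- some `w j` has non-zero imaginary part
  have hvt : ∀ Y : Fin N → ℝ, dG D c g d z (LD.vt Y) =
      ∑ j, (Y j : ℂ) * (mk D c g d z).w j := by
    intro Y
    rw [vt_eq_sum Y, map_sum]
    refine sum_congr rfl fun j _ => ?_
    rw [map_smul, w_eq h]
    simp
  have hex : ∃ j, ((mk D c g d z).w j).im ≠ 0 := by
    by_contra h0
    push Not at h0
    refine hY0 ?_
    rw [hvt, Complex.im_sum]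
    refine sum_eq_zero fun j _ => ?_
    rw [Complex.im_ofReal_mul, h0 j, mul_zero]
  -- the zero
  have hG' : ∑ j, ((mk D c g d z).X j : ℂ) * pl (mk D c g d z).ga ((mk D c g d z).D.M j)
      ((mk D c g d z).z j) = ((∑ e : (mk D c g d z).Ed, (mk D c g d z).cB * (mk D c g d z).ga *
      ((mk D c g d z).hh e * ((mk D c g d z).la e * (mk D c g d z).be e)) : ℝ) : ℂ) := by
    have e1 : D.G c g d z = ∑ j, (D.ch d z j : ℂ) * pl g (D.M j) (z j) -
        ((c * g * ∑ e ∈ D.C, D.Be d e z : ℝ) : ℂ) := rfl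
    rw [e1, sub_eq_zero] at hG
    have e2 : ∀ j, ((mk D c g d z).X j : ℂ) * pl (mk D c g d z).ga ((mk D c g d z).D.M j)
      ((mk D c g d z).z j) = (D.ch d z j : ℂ) * pl g (D.M j) (z j) := by
      intro j
      rw [X_eq h]
      rfl
    rw [sum_congr rfl fun j _ => e2 j, hG, mul_sum, ← sum_coe_sort D.C]
    congr 1
    exact sum_congr rfl fun e _ => congrArg (fun x => c * g * x) (Be_eq' h e).symm
  have hpos : ∀ u : ℂ, u.re ^ 2 + u.im ^ 2 = 1 → 0 < u.re →
      (∀ j, rf u ((mk D c g d z).w j) = 0) → 0 < rf u (mk D c g d z).w0 := by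
    intro u hu hu0 hw
    exact Pt.rf_pos hP hnu (fun u eu => con hN hc hg hg1 hd hd1 z u eu) hG' hN hu hu0 hw
  obtain ⟨a, Y, ha, h1, h2⟩ := farkas (mk D c g d z).w (mk D c g d z).w0 hex hpos
  have e : fderiv ℝ (D.G c g d) z (LD.vs a Y) =
      (a : ℂ) * (mk D c g d z).w0 + ∑ j, (Y j : ℂ) * (mk D c g d z).w j := by
    rw [fderiv_G D c g hd hz, vs_eq, map_add, map_smul, w0_eq h hz, hvt]
    simp
  refine ⟨a, Y, ha, ?_, ?_⟩
  · rw [e]; exact h1
  · rw [e]; exact h2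

end Crest.Agent.R267.K2II_867
end
end

-- ▼ part R267/K2_996
section

/-!
# Row 267, T3a: K2Prop from smoothness (`3 ≤ N`)
-/

set_option autoImplicit false

namespace Crest.Agent.R267.K2_996

open Crest.Agent.R267.T3aDefs_957

variable {N : ℕ}

/-- **K2.** -/
theorem k2 (D : LD N) (hN : 3 ≤ N) (hS : D.Smooth) : D.K2Prop :=
  ((K2I_996.k2I D hS).and (K2II_867.k2II hN (K1_996.k1 D hS))).mono
    fun c g d _ _ _ ⟨h1, h2⟩ z hz hG => by
      by_cases h : Calc4_957.II D z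
      · exact h2 z hz h hG
      · obtain ⟨Y, a, b⟩ := h1 z hz (not_le.1 h)
        exact ⟨1, Y, zero_le_one, a, b⟩

end Crest.Agent.R267.K2_996
end

-- ▼ part R267/S407_322
section

/-!
# Row 267 (helper322): S0407 from `T3aP` alone
-/

set_option autoImplicit false

namespace Crest.Agent.R267.S407_322

open Crest.Agent.R267.T3aDefs_957 Crest.Agent.R267.GlueDefs_322

/-- **K2** for `N at least 3`, unconditional. -/
theorem k2 {N : ℕ} (hN : 3 ≤ N) (D : LD N) : D.K2Prop :=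
  K2_996.k2 D hN (Smooth_957.smooth D)


/-- **S0407 from T3a alone** -/
theorem s0407 (h3 : ∀ n, 1 ≤ n → ∀ D : LD (n + 3), T3aP D) : Asm_808.S0407Stmt :=
  Gl2Fin_322.s0407 (fun n _ D => k2 (by omega) D) h3

end Crest.Agent.R267.S407_322
end

-- ▼ part R267/EndF_864
section

/-!
# Row 267, T3-end: pointwise facts about lobed functions (unsigned and signed)

`GF n` : a function `G z = ∑ χ_d (x_j) q_j (z_j) - B z` on `ℂ^(n+3)` with `q_j` linear on the left half
plane and `B = 0` where all `re z_j ≤ 0`; `GF.Near L`: the shape of `q_j` and `B` near the rays of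
the letters. Results: `sgp, sgn, low, s0, c00, lin, tube, mono` and `GF.facts`.
-/

set_option autoImplicit false

namespace Crest.Agent.R267.EndF_864

open Set Metric Filter Topology
open scoped RealInnerProductSpace
open Crest.Agent.R267.GS_808 Crest.Agent.R267.EndDef_864 Crest.Agent.R267.EndBas_864
  Crest.Agent.R267.EndG_864 Crest.Agent.R267.EndH_864
  Crest.Agent.R267.T3aDefs_957 Crest.Agent.R267.Calc2_957
open Crest.Agent.R267.Calc3_957 (AA BB NN_pos NN_nonneg NN_sq chi_nonneg chi_le_one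
  chi_of_ge NN_of_le chid hasDerivAt_chi chid_of_le chid_of_ge mul_chid_le chid_mul_nonneg
  chid_nonneg hasFDerivAt_NN dNN pg_le_norm sr_apply si_apply)

variable {n m : ℕ}

/-! ### gauges -/

lemma AA_zc (s t : W n) : AA (zc s t) = ‖s‖ ^ 2 := (norm_sq_def s).symm

lemma BB_zc (s t : W n) : BB (zc s t) = ‖t‖ ^ 2 := (norm_sq_def t).symm

lemma zc_ne {s t : W n} (h : s ≠ 0 ∨ t ≠ 0) : zc s t ≠ 0 := by
  intro h1
  obtain ⟨h2, h3⟩ := zc_eq_zero h1
  rcases h with h | h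
  · exact h h2
  · exact h h3

lemma NN_zc {K : ℝ} {s t : W n} (h : ‖t‖ ≤ K * ‖s‖) : NN K (zc s t) = ‖s‖ := by
  rw [NN_of_le, AA_zc, Real.sqrt_sq (norm_nonneg _)]
  rw [AA_zc, BB_zc, ← mul_pow]
  exact pow_le_pow_left₀ (norm_nonneg _) h 2

lemma gq_le_div {K A B : ℝ} (hK : 0 < K) (hA : 0 ≤ A) (h : K ^ 2 * A ≤ B) :
    gq K A B ≤ B / K ^ 2 := by
  have hB : 0 ≤ B := (by positivity : 0 ≤ K ^ 2 * A).trans h
  unfold gq
  rw [max_eq_right (by linarith)]
  have h1 : (B - K ^ 2 * A) ^ 3 / ((3 * K ^ 2 + 3) * (A + B) ^ 2) ≤ (B - K ^ 2 * A) / K ^ 2 := by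
    by_cases h0 : A + B = 0
    · rw [h0]
      simp only [ne_eq, OfNat.ofNat_ne_zero, not_false_eq_true, zero_pow, mul_zero, div_zero]
      exact div_nonneg (by linarith) (by positivity)
    have h2 : 0 < A + B := lt_of_le_of_ne (by linarith) (Ne.symm h0)
    rw [div_le_div_iff₀ (by positivity) (by positivity)]
    have h3 : 0 ≤ B - K ^ 2 * A := by linarith
    have h4 : (B - K ^ 2 * A) ^ 2 ≤ (A + B) ^ 2 := by
      refine pow_le_pow_left₀ h3 ?_ 2
      nlinarith [mul_nonneg (sq_nonneg K) hA]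
    calc (B - K ^ 2 * A) ^ 3 * K ^ 2 = (B - K ^ 2 * A) * (K ^ 2 * (B - K ^ 2 * A) ^ 2) := by ring
      _ ≤ (B - K ^ 2 * A) * ((3 * K ^ 2 + 3) * (A + B) ^ 2) := by
          refine mul_le_mul_of_nonneg_left ?_ h3
          refine mul_le_mul ?_ h4 (sq_nonneg _) (by positivity)
          nlinarith [sq_nonneg K]
  have h2 : A + (B - K ^ 2 * A) / K ^ 2 = B / K ^ 2 := by
    field_simp
    ring
  linarith

/-- the planar gauge is at most `max |s| (|t| / K)`. -/
lemma pg_le_of {K : ℝ} (hK : 0 < K) {z : ℂ} {c : ℝ} (h1 : |z.re| ≤ c) (h2 : |z.im| ≤ K * c) :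
    pg K z ≤ c := by
  have hc : 0 ≤ c := (abs_nonneg _).trans h1
  rcases le_total |z.im| (K * |z.re|) with h | h
  · rw [pg_of_le hK.le h]
    exact h1
  · unfold pg
    rw [Real.sqrt_le_left hc]
    have h3 : K ^ 2 * z.re ^ 2 ≤ z.im ^ 2 := by
      have := pow_le_pow_left₀ (by positivity) h 2
      rwa [mul_pow, sq_abs, sq_abs] at this
    refine (gq_le_div hK (sq_nonneg _) h3).trans ?_
    rw [div_le_iff₀ (by positivity)]
    have := pow_le_pow_left₀ (abs_nonneg _) h2 2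
    rw [sq_abs, mul_pow] at this
    linarith

lemma norm_sq_le_pg (K : ℝ) (z : ℂ) : z.re ^ 2 + z.im ^ 2 ≤ (96 * K ^ 2 + 97) * pg K z ^ 2 := by
  have h1 : z.im ^ 2 ≤ (96 * K ^ 2 + 96) * gq K (z.re ^ 2) (z.im ^ 2) :=
    le_gq' (sq_nonneg _) (sq_nonneg _)
  have h2 : z.re ^ 2 ≤ gq K (z.re ^ 2) (z.im ^ 2) := le_gq
  rw [pg_sq]
  linarith

lemma abs_im_le_pg {K : ℝ} (hK : 0 ≤ K) (z : ℂ) : |z.im| ≤ 10 * (K + 1) * pg K z := by
  refine abs_le_of_sq_le_sq ?_ (mul_nonneg (by positivity) (pg_nonneg _ _))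
  rw [mul_pow, pg_sq]
  have h1 : z.im ^ 2 ≤ (96 * K ^ 2 + 96) * gq K (z.re ^ 2) (z.im ^ 2) :=
    le_gq' (sq_nonneg _) (sq_nonneg _)
  have h2 : 0 ≤ gq K (z.re ^ 2) (z.im ^ 2) := (sq_nonneg _).trans le_gq
  refine h1.trans (mul_le_mul_of_nonneg_right ?_ h2)
  nlinarith

lemma norm_tv_le {K : ℝ} (hK : 0 ≤ K) (s t : W n) : ‖t‖ ≤ 10 * (K + 1) * NN K (zc s t) := by
  refine le_of_sq_le_sq ?_ (mul_nonneg (by positivity) (NN_nonneg _ _))
  rw [mul_pow, NN_sq, AA_zc, BB_zc]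
  have h1 : ‖t‖ ^ 2 ≤ (96 * K ^ 2 + 96) * gq K (‖s‖ ^ 2) (‖t‖ ^ 2) :=
    le_gq' (sq_nonneg _) (sq_nonneg _)
  have h2 : 0 ≤ gq K (‖s‖ ^ 2) (‖t‖ ^ 2) := (sq_nonneg _).trans le_gq
  refine h1.trans (mul_le_mul_of_nonneg_right ?_ h2)
  nlinarith

lemma exists_large {K1 K : ℝ} (hK : 0 ≤ K) {z : Fin (n + 3) → ℂ} (hz : z ≠ 0) :
    ∃ j, 1 ≤ 10 * (n + 3) * (K + 1) * (pg K (z j) / NN K1 z) := by
  by_contra hcon
  push Not at hcon
  have hNN : 0 < NN K1 z := NN_pos hz
  have hn : (0 : ℝ) < n + 3 := by positivity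
  set C : ℝ := 10 * (n + 3) * (K + 1) with hC
  have hC0 : 0 < C := by positivity
  have h1 : ∀ j, (z j).re ^ 2 + (z j).im ^ 2 ≤ (96 * K ^ 2 + 97) / C ^ 2 * NN K1 z ^ 2 := by
    intro j
    refine (norm_sq_le_pg K (z j)).trans ?_
    have h2 : pg K (z j) ≤ NN K1 z / C := by
      have := (hcon j).le
      rw [le_div_iff₀ hC0]
      rw [mul_div_assoc'] at this
      rw [div_le_one hNN] at this
      linarith
    have h3 := pow_le_pow_left₀ (pg_nonneg _ _) h2 2
    calc (96 * K ^ 2 + 97) * pg K (z j) ^ 2 ≤ (96 * K ^ 2 + 97) * (NN K1 z / C) ^ 2 := by gcongr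
      _ = _ := by rw [div_pow]; ring
  have h2 : NN K1 z ^ 2 ≤ ∑ j, ((z j).re ^ 2 + (z j).im ^ 2) := by
    rw [NN_sq, Finset.sum_add_distrib]
    exact gq_le (Finset.sum_nonneg fun _ _ => sq_nonneg _) (Finset.sum_nonneg fun _ _ => sq_nonneg _)
  have h3 : ∑ j, ((z j).re ^ 2 + (z j).im ^ 2) ≤
      (n + 3) * ((96 * K ^ 2 + 97) / C ^ 2 * NN K1 z ^ 2) := by
    refine (Finset.sum_le_sum fun j _ => h1 j).trans ?_
    rw [Finset.sum_const, Finset.card_univ, Fintype.card_fin, nsmul_eq_mul]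
    push_cast
    exact le_rfl
  have h4 : (n + 3) * ((96 * K ^ 2 + 97) / C ^ 2) < 1 := by
    rw [mul_div_assoc', div_lt_one (by positivity), hC]
    have h5 : (1 : ℝ) ≤ n + 3 := by
      have : (0 : ℝ) ≤ n := Nat.cast_nonneg n
      linarith
    have h6 : 96 * K ^ 2 + 97 < 100 * (K + 1) ^ 2 := by nlinarith
    have h7 : ((n : ℝ) + 3) * (96 * K ^ 2 + 97) < (n + 3) * (100 * (K + 1) ^ 2) :=
      mul_lt_mul_of_pos_left h6 hn
    have h8 : ((n : ℝ) + 3) * (100 * (K + 1) ^ 2) ≤ (10 * (n + 3) * (K + 1)) ^ 2 := by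
      have : 0 ≤ ((n : ℝ) + 3) * ((n + 3) - 1) * (100 * (K + 1) ^ 2) := by
        refine mul_nonneg (mul_nonneg hn.le (by linarith)) (by positivity)
      nlinarith
    linarith
  have h5 := mul_lt_mul_of_pos_right h4 (pow_pos hNN 2)
  nlinarith

/-! ### the functions -/

/-- **lobed functions**. -/
structure GF (n : ℕ) where
  K1 : ℝ
  K : ℝ
  ga : ℝ
  d : ℝ
  q : Fin (n + 3) → ℂ → ℂ
  B : (Fin (n + 3) → ℂ) → ℝ
  hK1 : 1 ≤ K1
  hK : K1 ≤ K
  hga : 0 < ga
  hga1 : ga ≤ 1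
  hd : 0 < d
  hdK : 750 * (n + 3) ^ 2 * (K + 1) ^ 2 * d < 1
  q0 : ∀ j z, z.re ≤ 0 → q j z = -((2 - ga : ℝ) : ℂ) * z.re - Complex.I * z.im
  B0 : ∀ z, (∀ j, (z j).re ≤ 0) → B z = 0

namespace GF

variable (P : GF n)

/-- cut-off. -/
noncomputable def cg (z : Fin (n + 3) → ℂ) (j : Fin (n + 3)) : ℝ :=
  chi P.d (pg P.K (z j) / NN P.K1 z)

/-- the function. -/
noncomputable def G (z : Fin (n + 3) → ℂ) : ℂ :=
  ∑ j, (chi P.d (pg P.K (z j) / NN P.K1 z) : ℂ) * P.q j (z j) - ((P.B z : ℝ) : ℂ)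

lemma cg_nonneg (z : Fin (n + 3) → ℂ) (j : Fin (n + 3)) : 0 ≤ P.cg z j := chi_nonneg _ _

lemma one_le_K : 1 ≤ P.K := P.hK1.trans P.hK

lemma K_pos : 0 < P.K := zero_lt_one.trans_le P.one_le_K

lemma hN' : (3 : ℝ) ≤ n + 3 := by
  have : (0 : ℝ) ≤ n := Nat.cast_nonneg n
  linarith

lemma small1 : 750 * (n + 3) * P.d < 1 := by
  have h := P.hdK
  have h1 := hN' (n := n)
  have h2 := P.hd
  have h3 := P.one_le_K
  have h4 : 1 ≤ (n + 3 : ℝ) * (P.K + 1) ^ 2 := by nlinarith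
  have h5 : 0 ≤ 750 * (n + 3 : ℝ) * P.d := by positivity
  nlinarith

lemma small2 : 2 * P.d * (10 * (n + 3) * (P.K + 1)) ≤ 1 := by
  have h := P.hdK
  have h1 := hN' (n := n)
  have h2 := P.hd
  have h3 := P.one_le_K
  have h4 : 1 ≤ (n + 3 : ℝ) * (P.K + 1) := by nlinarith
  have h5 : 0 ≤ (n + 3 : ℝ) * (P.K + 1) * P.d := by positivity
  nlinarith

lemma d_lt : P.d < 1 := by
  have h := P.small1
  have h1 := hN' (n := n)
  have h2 := P.hd
  nlinarith

lemma exists_cg {z : Fin (n + 3) → ℂ} (hz : z ≠ 0) : ∃ j, P.cg z j = 1 := by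
  obtain ⟨j, hj⟩ := exists_large (K1 := P.K1) P.K_pos.le hz
  refine ⟨j, chi_of_ge P.hd ?_⟩
  have h1 := P.small2
  have h2 : 0 < 10 * (n + 3 : ℝ) * (P.K + 1) := by
    have := P.K_pos
    positivity
  have h3 := h1.trans hj
  rw [mul_comm (2 * P.d)] at h3
  exact le_of_mul_le_mul_left h3 h2

lemma im_of_nonpos {z : Fin (n + 3) → ℂ} (h : ∀ j, (z j).re ≤ 0) :
    (P.G z).im = ∑ j, P.cg z j * (-(z j).im) := by
  rw [G, P.B0 z h, Complex.ofReal_zero, sub_zero, Complex.im_sum]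
  refine Finset.sum_congr rfl fun j _ => ?_
  rw [Complex.im_ofReal_mul, P.q0 j _ (h j)]
  simp [cg]

lemma re_of_nonpos {z : Fin (n + 3) → ℂ} (h : ∀ j, (z j).re ≤ 0) :
    (P.G z).re = ∑ j, P.cg z j * (-(2 - P.ga) * (z j).re) := by
  rw [G, P.B0 z h, Complex.ofReal_zero, sub_zero, Complex.re_sum]
  refine Finset.sum_congr rfl fun j _ => ?_
  rw [Complex.re_ofReal_mul, P.q0 j _ (h j)]
  simp [cg]

lemma sgp (s t : W n) (hs : ∀ j, s j ≤ 0) (ht : ∀ j, t j < 0) : 0 < (P.G (zc s t)).im := by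
  rw [P.im_of_nonpos (z := zc s t) hs]
  have hz : zc s t ≠ 0 := by
    intro h
    have := congrArg Complex.im (congrFun h 0)
    exact absurd this (ht 0).ne
  obtain ⟨j, hj⟩ := P.exists_cg hz
  refine Finset.sum_pos' (fun i _ => mul_nonneg (P.cg_nonneg _ _) ?_) ⟨j, Finset.mem_univ _, ?_⟩
  · exact (neg_pos.2 (ht i)).le
  · rw [hj, one_mul]
    exact neg_pos.2 (ht j)

lemma sgn (s t : W n) (hs : ∀ j, s j ≤ 0) (ht : ∀ j, 0 < t j) : (P.G (zc s t)).im < 0 := by
  rw [P.im_of_nonpos (z := zc s t) hs]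
  have hz : zc s t ≠ 0 := by
    intro h
    have := congrArg Complex.im (congrFun h 0)
    exact absurd this (ht 0).ne'
  obtain ⟨j, hj⟩ := P.exists_cg hz
  have h1 : 0 < ∑ j, P.cg (zc s t) j * (zc s t j).im := by
    refine Finset.sum_pos' (fun i _ => mul_nonneg (P.cg_nonneg _ _) (ht i).le)
      ⟨j, Finset.mem_univ _, ?_⟩
    rw [hj, one_mul]
    exact ht j
  have h2 : ∑ j, P.cg (zc s t) j * (-(zc s t j).im) = -∑ j, P.cg (zc s t) j * (zc s t j).im := by
    rw [← Finset.sum_neg_distrib]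
    exact Finset.sum_congr rfl fun j _ => by ring
  rw [h2]
  linarith

/-- **over `s = 0`** the function is purely imaginary. -/
lemma s0 {z : Fin (n + 3) → ℂ} (h : ∀ j, (z j).re = 0) : (P.G z).re = 0 := by
  rw [P.re_of_nonpos fun j => (h j).le]
  exact Finset.sum_eq_zero fun j _ => by rw [h j, mul_zero, mul_zero]

/-- **the direction `i (1, …, 1)`**. -/
lemma c00 {h : ℝ} (hz : (P.G fun _ => Complex.I * (h : ℂ)).im = 0) : h = 0 := by
  have e : ∀ h : ℝ, (fun _ : Fin (n + 3) => Complex.I * (h : ℂ)) = zc 0 (vec fun _ => h) := by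
    intro h
    funext j
    exact Complex.ext (by simp [zc]) (by simp [zc])
  rw [e] at hz
  rcases lt_trichotomy h 0 with h1 | h1 | h1
  · exact absurd hz (P.sgp 0 _ (fun _ => le_rfl) fun _ => h1).ne'
  · exact h1
  · exact absurd hz (P.sgn 0 _ (fun _ => le_rfl) fun _ => h1).ne

/-- **the plate side**. -/
lemma low {z : Fin (n + 3) → ℂ} (h : ∀ j, (z j).re < 0) : 0 < (P.G z).re := by
  rw [P.re_of_nonpos fun j => (h j).le]
  have hz : z ≠ 0 := by
    intro h1
    have := congrArg Complex.re (congrFun h1 0)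
    exact absurd this (h 0).ne
  obtain ⟨j, hj⟩ := P.exists_cg hz
  have hg := P.hga1
  have hpos : ∀ i, 0 < -(2 - P.ga) * (z i).re := fun i => by
    have := h i
    nlinarith
  refine Finset.sum_pos' (fun i _ => mul_nonneg (P.cg_nonneg _ _) (hpos i).le)
    ⟨j, Finset.mem_univ _, ?_⟩
  rw [hj, one_mul]
  exact hpos j

/-- value of the cut-off where `|t_j|` is small. -/
lemma cg_eq {s t : W n} (hs : s ≠ 0) (ht : ‖t‖ ≤ P.K1 * ‖s‖) (j : Fin (n + 3))
    (h : |t j| ≤ P.K * (P.d * ‖s‖) ∨ |t j| ≤ P.K * |s j|) :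
    P.cg (zc s t) j = chi P.d (|s j| / ‖s‖) := by
  have h0 : 0 < ‖s‖ := norm_pos_iff.2 hs
  rw [cg, NN_zc ht]
  rcases le_or_gt |t j| (P.K * |s j|) with h1 | h1
  · rw [pg_of_le P.K_pos.le (z := zc s t j) h1]
    rfl
  · have h2 : |t j| ≤ P.K * (P.d * ‖s‖) := h.resolve_right (not_le.2 h1)
    have h3 : |s j| < P.d * ‖s‖ := lt_of_mul_lt_mul_left (h1.trans_le h2) P.K_pos.le
    rw [EndG_864.chi_of_le P.hd, EndG_864.chi_of_le P.hd]
    · rw [div_le_iff₀ h0]
      exact h3.le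
    · rw [div_le_iff₀ h0]
      exact pg_le_of P.K_pos (z := zc s t j) h3.le h2

/-- the profile for non-positive arguments. -/
lemma ypf_of_nonpos {d x : ℝ} (hd : 0 < d) (h : x ≤ d) : ypf d x = -chi d (-x) := by
  rw [ypf, EndG_864.chi_of_le hd h, zero_sub]

/-! ### over base points with negative coordinates -/

section lin

variable (L : LS n m) (Q : Par n) (hsm : ∀ k l j, L.sg k j ≠ L.sg l j →
    Q.ep * (‖vec (n := n) (L.V k)‖ + ‖vec (n := n) (L.V l)‖) < Q.d * |L.sg k j - L.sg l j|)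

lemma lin (hQ : Q.d = P.d) {κ1 : ℝ} (hκ : κ1 ≤ P.d) (s t : W n) (hs : s ≠ 0) (h : ∀ j, s j < 0)
    (ht : ‖t‖ ≤ κ1 * ‖s‖) : (P.G (zc s t)).im = ⟪(EndG_864.hd L Q hsm).nz s, t⟫ := by
  have h0 : 0 < ‖s‖ := norm_pos_iff.2 hs
  have h1 : ‖t‖ ≤ P.d * ‖s‖ := ht.trans (by gcongr)
  have hd := P.hd
  have hd1 := P.d_lt
  have hK := P.one_le_K
  rw [P.im_of_nonpos (z := zc s t) fun j => (h j).le, inner_def]
  refine Finset.sum_congr rfl fun j _ => ?_
  have h2 : ‖t‖ ≤ P.K1 * ‖s‖ := h1.trans (by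
    have := P.hK1
    gcongr
    linarith)
  rw [P.cg_eq hs h2 j (Or.inl ((abs_apply_le t j).trans (h1.trans (by
    have : 0 ≤ P.d * ‖s‖ := by positivity
    nlinarith))))]
  show chi P.d (|s j| / ‖s‖) * (-(t j)) = ypf Q.d (s j / ‖s‖) * t j
  have h3 : s j / ‖s‖ ≤ P.d := (div_nonpos_of_nonpos_of_nonneg (h j).le h0.le).trans hd.le
  rw [hQ, ypf_of_nonpos hd h3, abs_of_neg (h j), neg_div]
  ring

end lin

/-! ### near the rays -/

/-- shape of the function near the rays of the letters. -/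
structure Near (L : LS n m) (Sg : ℝ) : Prop where
  sgK : ∀ k j, |L.sg k j| ≤ Sg
  Sg0 : 0 ≤ Sg
  K1S : Sg + 1 ≤ P.K1
  qr : ∀ k j z, 0 < z.re → |z.im - L.sg k j * z.re| ≤ z.re → (P.q j z).re = P.ga * z.re ∧
    (P.q j z).im = (if L.neg k j then -1 else 1) * (z.im - L.sg k j * z.re)
  Bt : ∀ k z, (∀ j, (z j).re ≤ 0 ∨ P.cg z j = 0 ∨ |(z j).im - L.sg k j * (z j).re| ≤ (z j).re) →
    P.B z = 0

section tube

variable {P} (L : LS n m) (Q : Par n) (hsm : ∀ k l j, L.sg k j ≠ L.sg l j →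
    Q.ep * (‖vec (n := n) (L.V k)‖ + ‖vec (n := n) (L.V l)‖) < Q.d * |L.sg k j - L.sg l j|)

/-- distance from the rays in a tube. -/
lemma tube_dist {Vm : ℝ} (hVm : ∀ k, ‖vec (n := n) (L.V k)‖ ≤ Vm) {r2 : ℝ} {s t : W n} {k : Fin m}
    (h : ‖t - (EndG_864.hd L Q hsm).eta k s‖ ≤ r2 * ‖s‖) :
    ‖t - vec (fun j => max ((EndG_864.hd L Q hsm).hs s j) 0 * L.sg k j)‖ ≤ (r2 + Q.ep * Vm) * ‖s‖ := by
  set D := EndG_864.hd L Q hsm with hD
  have h3 : 0 ≤ D.ep * ‖s‖ * D.th s := mul_nonneg (mul_nonneg D.hep.le (norm_nonneg _)) (D.th0 s)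
  have h4 : ‖(D.ep * ‖s‖ * D.th s) • proj (D.nrm k s) (vec (D.V k))‖ ≤ Q.ep * Vm * ‖s‖ := by
    rw [norm_smul, Real.norm_of_nonneg h3]
    calc D.ep * ‖s‖ * D.th s * ‖proj (D.nrm k s) (vec (D.V k))‖
        ≤ D.ep * ‖s‖ * 1 * Vm := by
          refine mul_le_mul ?_ ((norm_proj_le _ _).trans (hVm k)) (norm_nonneg _) ?_
          · exact mul_le_mul_of_nonneg_left (D.th1 s) (mul_nonneg D.hep.le (norm_nonneg _))
          · exact mul_nonneg (mul_nonneg D.hep.le (norm_nonneg _)) zero_le_one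
      _ = Q.ep * Vm * ‖s‖ := by
          show Q.ep * ‖s‖ * 1 * Vm = _
          ring
  have e1 : t - vec (fun j => max (D.hs s j) 0 * L.sg k j) =
      (t - D.eta k s) + (D.ep * ‖s‖ * D.th s) • proj (D.nrm k s) (vec (D.V k)) := by
    rw [HD.eta]
    show _ = t - (vec (fun j => max (D.hs s j) 0 * L.sg k j) + _) + _
    abel
  rw [e1]
  refine (norm_add_le _ _).trans ?_
  linarith

/-- **tubes**. -/
lemma tube {Sg : ℝ} (H : Near P L Sg) (hQ : Q.d = P.d) {Vm : ℝ}
    (hVm : ∀ k, ‖vec (n := n) (L.V k)‖ ≤ Vm) {r2 : ℝ} (hr2 : r2 + Q.ep * Vm ≤ P.d)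
    (s t : W n) (k : Fin m) (hs : s ≠ 0)
    (h : ‖t - (EndG_864.hd L Q hsm).eta k s‖ ≤ r2 * ‖s‖) :
    (P.G (zc s t)).im = ⟪(EndG_864.hd L Q hsm).nrm k s, t - (EndG_864.hd L Q hsm).eta k s⟫ ∧
      0 < (P.G (zc s t)).re := by
  set D := EndG_864.hd L Q hsm with hD
  have h0 : 0 < ‖s‖ := norm_pos_iff.2 hs
  have hd := P.hd
  have hd1 := P.d_lt
  have hK := P.one_le_K
  have hK1 := P.hK1
  have hKK := P.hK
  have hSg := H.K1S
  have hSg0 := H.Sg0
  have hDd : D.d = P.d := hQ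
  have hdist := (tube_dist L Q hsm hVm h).trans (mul_le_mul_of_nonneg_right hr2 h0.le)
  set w : W n := vec (fun j => max (D.hs s j) 0 * L.sg k j) with hw
  have hwj : ∀ j, |t j - w j| ≤ P.d * ‖s‖ := fun j => (abs_apply_le (t - w) j).trans hdist
  -- size of `t`
  have hwn : ‖w‖ ≤ Sg * ‖s‖ := by
    refine le_of_sq_le_sq ?_ (by positivity)
    rw [norm_sq_def, mul_pow, norm_sq_def s, Finset.mul_sum]
    refine Finset.sum_le_sum fun j _ => ?_
    rw [hw, vec_apply, mul_pow, mul_comm (Sg ^ 2)]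
    refine mul_le_mul ?_ ?_ (sq_nonneg _) (sq_nonneg _)
    · exact sq_le_sq.2 (hs_abs_le L Q hsm s j)
    · rw [← sq_abs (L.sg k j)]
      exact pow_le_pow_left₀ (abs_nonneg _) (H.sgK k j) 2
  have htn : ‖t‖ ≤ P.K1 * ‖s‖ := by
    have h1 : ‖t‖ ≤ ‖t - w‖ + ‖w‖ := by
      have := norm_add_le (t - w) w
      rwa [sub_add_cancel] at this
    nlinarith
  -- the three cases
  have key : ∀ j, (zc s t j).re ≤ 0 ∨ P.cg (zc s t) j = 0 ∨
      |(zc s t j).im - L.sg k j * (zc s t j).re| ≤ (zc s t j).re := by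
    intro j
    show s j ≤ 0 ∨ P.cg (zc s t) j = 0 ∨ |t j - L.sg k j * s j| ≤ s j
    rcases le_or_gt (s j) 0 with h1 | h1
    · exact Or.inl h1
    refine Or.inr ?_
    rcases le_or_gt (s j) (P.d * ‖s‖) with h2 | h2
    · left
      have h3 : |t j| ≤ P.K * (P.d * ‖s‖) := by
        have h4 : |w j| ≤ Sg * (P.d * ‖s‖) := by
          rw [hw, vec_apply, abs_mul, mul_comm]
          refine mul_le_mul (H.sgK k j) ?_ (abs_nonneg _) hSg0
          refine (hs_abs_le L Q hsm s j).trans ?_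
          rwa [abs_of_pos h1]
        have h5 : |t j| ≤ |t j - w j| + |w j| := by
          have := abs_add_le (t j - w j) (w j)
          rwa [sub_add_cancel] at this
        have h6 := hwj j
        have h7 : 0 ≤ P.d * ‖s‖ := by positivity
        nlinarith
      rw [P.cg_eq hs htn j (Or.inl h3), EndG_864.chi_of_le hd]
      rw [div_le_iff₀ h0, abs_of_pos h1]
      exact h2
    · right
      have h3 : w j = L.sg k j * s j := by
        rw [hw, vec_apply, hs_of_large D hs (by rw [hDd]; exact h2.le), max_eq_left h1.le, mul_comm]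
      rw [← h3]
      exact (hwj j).trans h2.le
  have hB : P.B (zc s t) = 0 := H.Bt k _ key
  -- termwise
  have term : ∀ j, (((P.cg (zc s t) j : ℝ) : ℂ) * P.q j (zc s t j)).im =
      D.nrm k s j * (t j - w j) ∧
      0 ≤ (((P.cg (zc s t) j : ℝ) : ℂ) * P.q j (zc s t j)).re ∧
      (2 * P.d * ‖s‖ ≤ |s j| → 0 < (((P.cg (zc s t) j : ℝ) : ℂ) * P.q j (zc s t j)).re) := by
    intro j
    rw [Complex.im_ofReal_mul, Complex.re_ofReal_mul]
    rcases le_or_gt |s j| (P.d * ‖s‖) with h1 | h1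
    · -- dead variable
      have h3 : |t j| ≤ P.K * (P.d * ‖s‖) := by
        have h4 : |w j| ≤ Sg * (P.d * ‖s‖) := by
          rw [hw, vec_apply, abs_mul, mul_comm]
          refine mul_le_mul (H.sgK k j) ?_ (abs_nonneg _) hSg0
          exact (hs_abs_le L Q hsm s j).trans h1
        have h5 : |t j| ≤ |t j - w j| + |w j| := by
          have := abs_add_le (t j - w j) (w j)
          rwa [sub_add_cancel] at this
        have h6 := hwj j
        have h7 : 0 ≤ P.d * ‖s‖ := by positivity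
        nlinarith
      have h4 : P.cg (zc s t) j = 0 := by
        rw [P.cg_eq hs htn j (Or.inl h3), EndG_864.chi_of_le hd]
        rw [div_le_iff₀ h0]
        exact h1
      have h5 : D.nrm k s j = 0 := by
        have h6 : |s j / ‖s‖| ≤ D.d := by
          rw [abs_div, abs_of_pos h0, div_le_iff₀ h0, hDd]
          exact h1
        rw [nrm_apply, D.Ymp _ (abs_le.1 h6).2, D.Yp0 _ h6]
        simp
      rw [h4, h5, zero_mul, zero_mul, zero_mul]
      refine ⟨rfl, le_rfl, fun h6 => ?_⟩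
      have : 0 < P.d * ‖s‖ := by positivity
      linarith
    have hc : P.cg (zc s t) j = chi P.d (|s j| / ‖s‖) := by
      rcases le_or_gt (s j) 0 with h2 | h2
      · refine P.cg_eq hs htn j (Or.inl ?_)
        have h3 : w j = 0 := by
          rw [hw, vec_apply, max_eq_right (hs_nonpos D h2), zero_mul]
        have h4 := hwj j
        rw [h3, sub_zero] at h4
        have h7 : 0 ≤ P.d * ‖s‖ := by positivity
        nlinarith
      · refine P.cg_eq hs htn j (Or.inr ?_)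
        rw [abs_of_pos h2] at h1 ⊢
        have h3 : w j = L.sg k j * s j := by
          rw [hw, vec_apply, hs_of_large D hs (by rw [hDd]; exact h1.le), max_eq_left h2.le,
            mul_comm]
        have h5 : |t j| ≤ |t j - w j| + |w j| := by
          have := abs_add_le (t j - w j) (w j)
          rwa [sub_add_cancel] at this
        have h6 : |w j| ≤ Sg * s j := by
          rw [h3, abs_mul, abs_of_pos h2]
          exact mul_le_mul_of_nonneg_right (H.sgK k j) h2.le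
        have h7 := hwj j
        nlinarith
    have hcpos : 2 * P.d * ‖s‖ ≤ |s j| → 0 < P.cg (zc s t) j := by
      intro h2
      rw [hc]
      refine EndG_864.chi_pos hd ?_
      rw [lt_div_iff₀ h0]
      exact h1
    rcases le_or_gt (s j) 0 with h2 | h2
    · -- negative
      have h3 : w j = 0 := by
        rw [hw, vec_apply, max_eq_right (hs_nonpos D h2), zero_mul]
      have hq : P.q j (zc s t j) = -((2 - P.ga : ℝ) : ℂ) * (s j : ℂ) - Complex.I * (t j : ℂ) :=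
        P.q0 j (zc s t j) h2
      have hqi : (P.q j (zc s t j)).im = -t j := by rw [hq]; simp
      have hqr : (P.q j (zc s t j)).re = -(2 - P.ga) * s j := by rw [hq]; simp
      have hg := P.hga1
      have hpos : s j < 0 := by
        rw [abs_of_nonpos h2] at h1
        have : 0 < P.d * ‖s‖ := by positivity
        linarith
      have hqp : 0 < (P.q j (zc s t j)).re := by
        rw [hqr]
        nlinarith
      refine ⟨?_, mul_nonneg (P.cg_nonneg _ _) hqp.le, fun h4 => mul_pos (hcpos h4) hqp⟩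
      have h5 : s j / ‖s‖ ≤ D.d := by
        have : s j / ‖s‖ ≤ 0 := div_nonpos_of_nonpos_of_nonneg h2 h0.le
        exact this.trans (by rw [hDd]; exact hd.le)
      have h6 : D.nrm k s j = -chi P.d (|s j| / ‖s‖) := by
        rw [nrm_apply, D.Ymp _ h5, ite_self]
        show ypf Q.d _ = _
        rw [hQ, ypf_of_nonpos hd (by rwa [← hDd]), abs_of_nonpos h2, neg_div]
      rw [hqi, hc, h6, h3, sub_zero]
      ring
    · -- positive
      rw [abs_of_pos h2] at h1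
      have h3 : w j = L.sg k j * s j := by
        rw [hw, vec_apply, hs_of_large D hs (by rw [hDd]; exact h1.le), max_eq_left h2.le,
          mul_comm]
      have h4 : |t j - L.sg k j * s j| ≤ s j := by
        rw [← h3]
        exact (hwj j).trans h1.le
      obtain ⟨hqr, hqi⟩ := H.qr k j (zc s t j) h2 h4
      have hqp : 0 < (P.q j (zc s t j)).re := by
        rw [hqr]
        exact mul_pos P.hga h2
      refine ⟨?_, mul_nonneg (P.cg_nonneg _ _) hqp.le, fun h4 => mul_pos (hcpos h4) hqp⟩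
      have h5 : -(s j / ‖s‖) ≤ P.d := by
        have : 0 ≤ s j / ‖s‖ := by positivity
        linarith
      have h6 : D.nrm k s j = (if L.neg k j then -1 else 1) * chi P.d (|s j| / ‖s‖) := by
        rw [nrm_apply, abs_of_pos h2]
        show (if L.neg k j then ymf Q.d _ else ypf Q.d _) = _
        rw [hQ]
        split_ifs
        · rw [ymf, EndG_864.chi_of_le hd h5]
          ring
        · rw [ypf, EndG_864.chi_of_le hd h5]
          ring
      rw [hqi, hc, h6, h3]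
      show _ * (_ * (t j - L.sg k j * s j)) = _
      ring
  have hG : P.G (zc s t) = ∑ j, ((P.cg (zc s t) j : ℝ) : ℂ) * P.q j (zc s t j) := by
    rw [G, hB, Complex.ofReal_zero, sub_zero]
    rfl
  constructor
  · have e1 : ⟪D.nrm k s, t - w⟫ = ⟪D.nrm k s, t - D.eta k s⟫ := by
      have e2 : t - w = (t - D.eta k s) +
          (D.ep * ‖s‖ * D.th s) • proj (D.nrm k s) (vec (D.V k)) := by
        rw [HD.eta, hw]
        show _ = t - (vec (fun j => max (D.hs s j) 0 * L.sg k j) + _) + _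
        abel
      rw [e2, inner_add_right, inner_smul_right, inner_proj _ _ (nrm_ne D hs), mul_zero, add_zero]
    rw [← e1, inner_def, hG, Complex.im_sum]
    exact Finset.sum_congr rfl fun j _ => (term j).1
  · rw [hG, Complex.re_sum]
    obtain ⟨j, hj⟩ : ∃ j, 2 * P.d * ‖s‖ ≤ |s j| := by
      by_contra hcon
      push Not at hcon
      have h1 : ‖s‖ ^ 2 ≤ (n + 3) * (2 * P.d * ‖s‖) ^ 2 := by
        rw [norm_sq_def]
        refine (Finset.sum_le_sum fun j _ => ?_ : _ ≤ ∑ j : Fin (n + 3), (2 * P.d * ‖s‖) ^ 2).trans ?_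
        · rw [← sq_abs]
          exact pow_le_pow_left₀ (abs_nonneg _) (hcon j).le 2
        · rw [Finset.sum_const, Finset.card_univ, Fintype.card_fin, nsmul_eq_mul]
          push_cast
          exact le_rfl
      have h2 := P.small1
      have h3 := hN' (n := n)
      have h4 : (n + 3 : ℝ) * (2 * P.d) ^ 2 < 1 := by nlinarith
      have h5 := mul_lt_mul_of_pos_right h4 (pow_pos h0 2)
      nlinarith
    exact Finset.sum_pos' (fun i _ => (term i).2.1) ⟨j, Finset.mem_univ _, (term j).2.2 hj⟩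

end tube

/-! ### monotonicity over base points with non-positive coordinates -/

section mono

lemma hasDerivAt_zc (s t : W n) (h : ℝ) :
    HasDerivAt (fun h : ℝ => zc s (t + h • u1 n)) (fun _ => (⟨0, 1 / √(n + 3 : ℝ)⟩ : ℂ)) h := by
  refine hasDerivAt_pi.2 fun j => ?_
  have e : (fun h : ℝ => zc s (t + h • u1 n) j) = fun h : ℝ =>
      (s j : ℂ) + ((t j + h * (1 / √(n + 3 : ℝ)) : ℝ) : ℂ) * Complex.I := by
    funext h
    refine Complex.ext ?_ ?_
    · simp [zc]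
    · simp [zc, u1_apply]
  have h1 : HasDerivAt (fun h : ℝ => t j + h * (1 / √(n + 3 : ℝ))) (1 / √(n + 3 : ℝ)) h := by
    simpa using ((hasDerivAt_id h).mul_const (1 / √(n + 3 : ℝ))).const_add (t j)
  have h2 := (h1.ofReal_comp.mul_const Complex.I).const_add (s j : ℂ)
  rw [e]
  refine h2.congr_deriv (Complex.ext ?_ ?_)
  · simp
  · simp

/-- derivative of the total gauge in the direction `i (1,…,1)`. -/
lemma abs_dNN_le {K : ℝ} (hK : 0 ≤ K) {s t : W n} (hz : zc s t ≠ 0) :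
    |dNN K (zc s t) (fun _ => (⟨0, 1 / √(n + 3 : ℝ)⟩ : ℂ))| ≤ 10 * (K + 1) := by
  have hNN : 0 < NN K (zc s t) := NN_pos hz
  unfold dNN
  simp only [_root_.add_apply, _root_.smul_apply, sr_apply, si_apply]
  simp only [mul_zero, Finset.sum_const_zero, smul_eq_mul, zero_add]
  have e1 : ∑ j, (zc s t j).im * (1 / √(n + 3 : ℝ)) = ⟪u1 n, t⟫ := by
    rw [inner_def]
    refine Finset.sum_congr rfl fun j _ => ?_
    rw [u1_apply, mul_comm]
    rfl
  rw [e1, abs_mul, abs_div, abs_of_pos hNN]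
  have h1 : |⟪u1 n, t⟫| ≤ ‖t‖ := by
    have := abs_real_inner_le_norm (u1 n) t
    rwa [norm_u1, one_mul] at this
  have h2 : |gB K (AA (zc s t)) (BB (zc s t))| ≤ 1 := by
    rw [abs_of_nonneg (gB_nonneg (Calc3_957.AA_nonneg _) (Calc3_957.BB_nonneg _))]
    exact gB_le (Calc3_957.AA_nonneg _) (Calc3_957.BB_nonneg _)
  rw [div_mul_eq_mul_div, div_le_iff₀ hNN]
  calc _ ≤ 1 * ‖t‖ := by gcongr
    _ = ‖t‖ := one_mul _
    _ ≤ _ := norm_tv_le hK s t

lemma hasDerivAt_cg {s t : W n} (hs : s ≠ 0) (h : ℝ) (j : Fin (n + 3)) :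
    ∃ A : ℝ, HasDerivAt (fun h : ℝ => P.cg (zc s (t + h • u1 n)) j) A h ∧
      A * (-(t + h • u1 n) j) ≤ 750 * (P.K + 1) ^ 2 * P.d := by
  have hd := P.hd
  have hK := P.one_le_K
  have hK1 := P.hK1
  have hKK := P.hK
  have hN := sqrt_pos n
  have hz : ∀ h : ℝ, zc s (t + h • u1 n) ≠ 0 := fun h => zc_ne (Or.inl hs)
  have hNN : ∀ h : ℝ, 0 < NN P.K1 (zc s (t + h • u1 n)) := fun h => NN_pos (hz h)
  have hR : 0 ≤ 750 * (P.K + 1) ^ 2 * P.d := by positivity
  set c : ℝ := 1 / √(n + 3 : ℝ) with hc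
  have hcpos : 0 < c := by positivity
  have dN : HasDerivAt (fun h : ℝ => NN P.K1 (zc s (t + h • u1 n)))
      (dNN P.K1 (zc s (t + h • u1 n)) (fun _ => (⟨0, c⟩ : ℂ))) h :=
    HasFDerivAt.comp_hasDerivAt (l := NN P.K1) (f := fun h : ℝ => zc s (t + h • u1 n)) h
      (hasFDerivAt_NN P.K1 (hz h)) (hasDerivAt_zc s t h)
  by_cases hzj : zc s (t + h • u1 n) j = 0
  · refine ⟨0, ?_, by rw [zero_mul]; exact hR⟩
    refine (hasDerivAt_const h (0 : ℝ)).congr_of_eventuallyEq ?_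
    have h1 : ContinuousAt (fun h : ℝ => ‖zc s (t + h • u1 n) j‖ -
        P.d * NN P.K1 (zc s (t + h • u1 n))) h := by
      refine ContinuousAt.sub ?_ (continuousAt_const.mul dN.continuousAt)
      exact ((continuous_apply j).continuousAt.comp (hasDerivAt_zc s t h).continuousAt).norm
    have h2 : ‖zc s (t + h • u1 n) j‖ - P.d * NN P.K1 (zc s (t + h • u1 n)) < 0 := by
      rw [hzj, norm_zero, zero_sub, neg_lt_zero]
      exact mul_pos hd (hNN h)
    filter_upwards [h1.eventually (gt_mem_nhds h2)] with x hx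
    refine EndG_864.chi_of_le hd ?_
    rw [div_le_iff₀ (hNN x)]
    have := pg_le_norm P.K (zc s (t + x • u1 n) j)
    linarith
  · have dP : HasDerivAt (fun h : ℝ => pg P.K (zc s (t + h • u1 n) j))
        (pt P.K (zc s (t + h • u1 n) j) * c) h := by
      have h1 : HasDerivAt (fun h : ℝ => zc s (t + h • u1 n) j) (⟨0, c⟩ : ℂ) h :=
        hasDerivAt_pi.1 (hasDerivAt_zc s t h) j
      refine ((hasFDerivAt_pg P.K hzj).comp_hasDerivAt h h1).congr_deriv ?_
      simp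
    have dx := dP.div dN (hNN h).ne'
    have dc := (hasDerivAt_chi P.d (pg P.K (zc s (t + h • u1 n) j) /
      NN P.K1 (zc s (t + h • u1 n)))).comp h dx
    refine ⟨_, dc, ?_⟩
    have hE := abs_dNN_le (K := P.K1) (by linarith) (hz h)
    rw [← hc] at hE
    set E := dNN P.K1 (zc s (t + h • u1 n)) (fun _ => (⟨0, c⟩ : ℂ)) with hEdef
    set p := pg P.K (zc s (t + h • u1 n) j) with hp
    set NNh := NN P.K1 (zc s (t + h • u1 n)) with hNNh
    have hNN0 : 0 < NNh := hNN h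
    have hp0 : 0 ≤ p := pg_nonneg _ _
    set x := p / NNh with hx
    set T := (t + h • u1 n) j with hT
    have hpt : 0 ≤ pt P.K (zc s (t + h • u1 n) j) * T := pt_mul_nonneg _ (zc s (t + h • u1 n) j)
    set w := pt P.K (zc s (t + h • u1 n) j) with hw
    have hTp : |T| ≤ 10 * (P.K + 1) * p := abs_im_le_pg (by linarith) (zc s (t + h • u1 n) j)
    have e1 : chid P.d x * ((w * c * NNh - p * E) / NNh ^ 2) * -T =
        -(chid P.d x * (w * T) * c / NNh) + (x * chid P.d x) * (E * T) / NNh := by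
      rw [hx]
      field_simp
      ring
    rw [e1]
    have h1 : 0 ≤ chid P.d x * (w * T) * c / NNh := by
      have := chid_nonneg hd x
      positivity
    have h2 : (x * chid P.d x) * (E * T) / NNh ≤ 750 * (P.K + 1) ^ 2 * P.d := by
      by_cases h3 : chid P.d x = 0
      · rw [h3, mul_zero, zero_mul, zero_div]
        exact hR
      have h4 : x < 2 * P.d := by
        by_contra h4
        exact h3 (chid_of_ge hd (not_lt.1 h4))
      have h5 : p ≤ 2 * P.d * NNh := by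
        rw [hx, div_lt_iff₀ hNN0] at h4
        exact h4.le
      have h6 : E * T ≤ 10 * (P.K + 1) * (10 * (P.K + 1) * (2 * P.d * NNh)) := by
        calc E * T ≤ |E * T| := le_abs_self _
          _ = |E| * |T| := abs_mul _ _
          _ ≤ (10 * (P.K + 1)) * (10 * (P.K + 1) * (2 * P.d * NNh)) := by
              refine mul_le_mul (hE.trans (by linarith)) (hTp.trans ?_) (abs_nonneg _) (by positivity)
              gcongr
      have h7 : 0 ≤ x * chid P.d x := chid_mul_nonneg hd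
      have h8 : x * chid P.d x ≤ 15 / 4 := mul_chid_le hd
      rw [div_le_iff₀ hNN0]
      calc (x * chid P.d x) * (E * T)
          ≤ (x * chid P.d x) * (10 * (P.K + 1) * (10 * (P.K + 1) * (2 * P.d * NNh))) :=
            mul_le_mul_of_nonneg_left h6 h7
        _ ≤ 15 / 4 * (10 * (P.K + 1) * (10 * (P.K + 1) * (2 * P.d * NNh))) := by
            refine mul_le_mul_of_nonneg_right h8 (by positivity)
        _ = _ := by ring
    linarith

/-- **monotonicity** in the direction `i (1,…,1)`. -/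
lemma mono (s : W n) (hs : s ≠ 0) (hneg : ∀ j, s j ≤ 0) (t : W n) (h h' : ℝ) (hh : h < h') :
    (P.G (zc s (t + h' • u1 n))).im < (P.G (zc s (t + h • u1 n))).im := by
  have hN := sqrt_pos n
  have key : StrictAnti fun h : ℝ => (P.G (zc s (t + h • u1 n))).im := by
    refine strictAnti_of_deriv_neg fun h => ?_
    have e : (fun h : ℝ => (P.G (zc s (t + h • u1 n))).im) = fun h : ℝ =>
        ∑ j, P.cg (zc s (t + h • u1 n)) j * (-(t + h • u1 n) j) := by
      funext h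
      rw [P.im_of_nonpos (z := zc s (t + h • u1 n)) hneg]
      rfl
    rw [e]
    choose A hA hA' using fun j => P.hasDerivAt_cg (t := t) hs h j
    have dt : ∀ j, HasDerivAt (fun h : ℝ => -(t + h • u1 n) j) (-(1 / √(n + 3 : ℝ))) h := by
      intro j
      have e1 : (fun h : ℝ => -(t + h • u1 n) j) = fun h : ℝ => -(t j + h * (1 / √(n + 3 : ℝ))) := by
        funext h
        simp [u1_apply]
      have h1 : HasDerivAt (fun h : ℝ => t j + h * (1 / √(n + 3 : ℝ))) (1 / √(n + 3 : ℝ)) h := by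
        simpa using ((hasDerivAt_id h).mul_const (1 / √(n + 3 : ℝ))).const_add (t j)
      rw [e1]
      exact h1.neg
    have dG : HasDerivAt (fun h : ℝ => ∑ j, P.cg (zc s (t + h • u1 n)) j * (-(t + h • u1 n) j))
        (∑ j, (A j * (-(t + h • u1 n) j) + P.cg (zc s (t + h • u1 n)) j *
          (-(1 / √(n + 3 : ℝ))))) h :=
      HasDerivAt.fun_sum fun j _ => (hA j).mul (dt j)
    rw [dG.deriv, Finset.sum_add_distrib, ← Finset.sum_mul]
    have h1 : ∑ j, A j * (-(t + h • u1 n) j) ≤ (n + 3) * (750 * (P.K + 1) ^ 2 * P.d) := by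
      refine (Finset.sum_le_sum fun j _ => hA' j).trans ?_
      rw [Finset.sum_const, Finset.card_univ, Fintype.card_fin, nsmul_eq_mul]
      push_cast
      exact le_rfl
    have h2 : 1 ≤ ∑ j, P.cg (zc s (t + h • u1 n)) j := by
      obtain ⟨j, hj⟩ := P.exists_cg (z := zc s (t + h • u1 n)) (zc_ne (Or.inl hs))
      rw [← hj]
      exact Finset.single_le_sum (f := fun j => P.cg (zc s (t + h • u1 n)) j)
        (fun i _ => P.cg_nonneg _ _) (Finset.mem_univ j)
    have h3 : (n + 3 : ℝ) * (750 * (P.K + 1) ^ 2 * P.d) < 1 / √(n + 3 : ℝ) := by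
      rw [lt_div_iff₀ hN]
      have h4 : √(n + 3 : ℝ) ≤ n + 3 := by
        rw [Real.sqrt_le_left (by positivity)]
        have := hN' (n := n)
        nlinarith
      have h5 := P.hdK
      have hd := P.hd
      have h6 : 0 ≤ (n + 3 : ℝ) * (750 * (P.K + 1) ^ 2 * P.d) := by positivity
      nlinarith
    have h4 : 1 / √(n + 3 : ℝ) ≤ (∑ j, P.cg (zc s (t + h • u1 n)) j) * (1 / √(n + 3 : ℝ)) := by
      have : 0 < 1 / √(n + 3 : ℝ) := by positivity
      nlinarith
    linarith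
  exact key hh

end mono

/-- **the facts of END2.** -/
lemma facts {L : LS n m} {Q : Par n} (hsm : ∀ k l j, L.sg k j ≠ L.sg l j →
    Q.ep * (‖vec (n := n) (L.V k)‖ + ‖vec (n := n) (L.V l)‖) < Q.d * |L.sg k j - L.sg l j|)
    {Sg : ℝ} (H : Near P L Sg) (hQ : Q.d = P.d) (hc : ContinuousOn P.G {0}ᶜ)
    (hh : ∀ (l : ℝ) z, 0 < l → P.G (l • z) = l • P.G z) {Vm : ℝ}
    (hVm : ∀ k, ‖vec (n := n) (L.V k)‖ ≤ Vm) {r2 κ1 : ℝ} (hr2 : r2 + Q.ep * Vm ≤ P.d)
    (hκ1 : κ1 ≤ P.d) : Facts P.G (EndG_864.hd L Q hsm) r2 κ1 where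
  cG := hc
  hom := hh
  mono := P.mono
  sgp := P.sgp
  sgn := P.sgn
  lin s t hs h ht := P.lin L Q hsm hQ hκ1 s t hs h ht
  tube s t k hs h := (tube L Q hsm H hQ hVm hr2 s t k hs h).1

end GF

end Crest.Agent.R267.EndF_864
end

-- ▼ part R267/EndJ_864
section

/-!
# Row 267, T3-end: the instance for `LD` (unsigned, for S0407)

Letters `ls D e`, the matrix, the `GF` instance `gf`, `Near`, parameters.
-/

set_option autoImplicit false

namespace Crest.Agent.R267.EndJ_864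

open Set Metric Filter Topology Finset
open scoped RealInnerProductSpace
open Crest.Agent.R267.GS_808 Crest.Agent.R267.EndDef_864 Crest.Agent.R267.EndBas_864
  Crest.Agent.R267.EndG_864 Crest.Agent.R267.EndH_864 Crest.Agent.R267.EndF_864
  Crest.Agent.R267.EndI_864 Crest.Agent.R267.T3aDefs_957

variable {n m : ℕ}

/-! ### the letters -/

section letters

variable (D : LD (n + 3)) (e : Fin m ≃ {k : Fin (n + 3) → ℕ // D.Let k})

lemma exists_enum : ∃ m : ℕ, Nonempty (Fin m ≃ {k : Fin (n + 3) → ℕ // D.Let k}) := by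
  have h : Finite {k : Fin (n + 3) → ℕ // D.Let k} := by
    refine Finite.of_injective (β := (j : Fin (n + 3)) → Fin (D.M j))
      (fun k j => ⟨k.1 j, k.2.1 j⟩) ?_
    intro k k' hkk
    refine Subtype.ext (funext fun j => ?_)
    exact Fin.mk.inj (congrFun hkk j)
  exact ⟨_, ⟨(Finite.equivFin _).symm⟩⟩

lemma M_le_Mx (j : Fin (n + 3)) : D.M j ≤ D.Mx :=
  Finset.single_le_sum (f := D.M) (fun _ _ => Nat.zero_le _) (Finset.mem_univ j)

lemma let_le (a : Fin m) (j : Fin (n + 3)) : ((e a).1 j : ℝ) + 1 ≤ D.M j := by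
  exact_mod_cast (e a).2.1 j

lemma abs_sg_sub_le (a b : Fin m) (j : Fin (n + 3)) :
    |sg ((e a).1 j) - sg ((e b).1 j)| ≤ 8 * D.Mx := by
  have h1 := let_le D e a j
  have h2 := let_le D e b j
  have h3 : (D.M j : ℝ) ≤ D.Mx := by exact_mod_cast M_le_Mx D j
  have h4 : (0 : ℝ) ≤ ((e a).1 j : ℝ) := Nat.cast_nonneg _
  have h5 : (0 : ℝ) ≤ ((e b).1 j : ℝ) := Nat.cast_nonneg _
  unfold sg
  rw [abs_le]
  constructor <;> linarith

lemma eight_le {i j : ℕ} (h : sg i ≠ sg j) : 8 ≤ |sg i - sg j| := by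
  have hij : i ≠ j := fun h' => h (by rw [h'])
  rcases lt_or_gt_of_ne hij with h1 | h1
  · have : (i : ℝ) + 1 ≤ j := by exact_mod_cast h1
    rw [abs_sub_comm]
    refine le_trans ?_ (le_abs_self _)
    unfold sg
    linarith
  · have : (j : ℝ) + 1 ≤ i := by exact_mod_cast h1
    refine le_trans ?_ (le_abs_self _)
    unfold sg
    linarith

lemma sg_le_iff {i j : ℕ} : sg i ≤ sg j ↔ i ≤ j := by
  unfold sg
  rw [add_le_add_iff_right, mul_le_mul_iff_right₀ (by norm_num : (0 : ℝ) < 8), Nat.cast_le]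

lemma sg_lt_iff {i j : ℕ} : sg i < sg j ↔ i < j := by
  rw [← not_le, sg_le_iff, not_le]


lemma sg_nonneg (i : ℕ) : 0 ≤ sg i := by unfold sg; positivity

/-- tilt. -/
noncomputable def del : ℝ := 1 / ((n + 3) * (D.Mx + 1))

lemma del_pos : 0 < del D := by unfold del; positivity

/-- **the letters**. -/
noncomputable def ls : LS n m where
  sg a j := sg ((e a).1 j)
  V a j := sg ((e a).1 j) + del D * ∑ i, sg ((e a).1 i)
  neg _ _ := false
  ray _ _ _ _ := rfl
  hV k l j h := by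
    have h1 := eight_le h
    have h2 : |del D * (∑ i, sg ((e k).1 i) - ∑ i, sg ((e l).1 i))| < 8 := by
      rw [abs_mul, abs_of_pos (del_pos D), ← Finset.sum_sub_distrib]
      have h3 : |∑ i, (sg ((e k).1 i) - sg ((e l).1 i))| ≤ (n + 3) * (8 * D.Mx) := by
        refine (Finset.abs_sum_le_sum_abs _ _).trans
          ((Finset.sum_le_sum fun i _ => abs_sg_sub_le D e k l i).trans ?_)
        rw [Finset.sum_const, Finset.card_univ, Fintype.card_fin, nsmul_eq_mul]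
        push_cast
        exact le_rfl
      refine (mul_le_mul_of_nonneg_left h3 (del_pos D).le).trans_lt ?_
      unfold del
      rw [div_mul_eq_mul_div, div_lt_iff₀ (by positivity)]
      have : (0 : ℝ) < n + 3 := by positivity
      nlinarith
    set x := sg ((e k).1 j) - sg ((e l).1 j) with hx
    have e1 : sg ((e k).1 j) + del D * ∑ i, sg ((e k).1 i) -
        (sg ((e l).1 j) + del D * ∑ i, sg ((e l).1 i)) =
        x + del D * (∑ i, sg ((e k).1 i) - ∑ i, sg ((e l).1 i)) := by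
      rw [hx]
      ring
    rw [e1]
    set y := del D * (∑ i, sg ((e k).1 i) - ∑ i, sg ((e l).1 i)) with hy
    have h3 : |x * y| < |x| * |x| := by
      rw [abs_mul]
      exact mul_lt_mul_of_pos_left (h2.trans_le h1) (by linarith)
    have h4 := (abs_lt.1 h3).1
    rw [abs_mul_abs_self] at h4
    nlinarith
  trich k l h := by
    have key : ∀ k l : Fin m, k ≠ l → (∀ j, (e l).1 j ≤ (e k).1 j) →
        Pos (fun a j => sg ((e a).1 j)) (fun a j => sg ((e a).1 j) + del D * ∑ i, sg ((e a).1 i))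
          (fun _ _ => false) k l := by
      intro k l h h1
      have h2 : ∃ j, (e l).1 j < (e k).1 j := by
        by_contra h3
        push Not at h3
        apply h
        refine e.injective (Subtype.ext (funext fun j => le_antisymm (h3 j) (h1 j)))
      refine ⟨fun j => sg_le_iff.2 (h1 j), ?_, fun j => ?_, fun _ _ => rfl⟩
      · obtain ⟨j, hj⟩ := h2
        exact ⟨j, sg_lt_iff.2 hj⟩
      · have h3 : ∑ i, sg ((e l).1 i) < ∑ i, sg ((e k).1 i) := by
          obtain ⟨i, hi⟩ := h2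
          exact Finset.sum_lt_sum (fun i _ => sg_le_iff.2 (h1 i))
            ⟨i, Finset.mem_univ _, sg_lt_iff.2 hi⟩
        have h4 := sg_le_iff.2 (h1 j)
        have h5 := mul_lt_mul_of_pos_left h3 (del_pos D)
        show sg ((e l).1 j) + del D * ∑ i, sg ((e l).1 i) <
          sg ((e k).1 j) + del D * ∑ i, sg ((e k).1 i)
        linarith
    by_cases h1 : ∀ j, (e l).1 j ≤ (e k).1 j
    · exact Or.inl (key k l h h1)
    by_cases h2 : ∀ j, (e k).1 j ≤ (e l).1 j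
    · exact Or.inr (Or.inl (key l k h.symm h2))
    push Not at h1 h2
    obtain ⟨j, hj⟩ := h1
    obtain ⟨i, hi⟩ := h2
    exact Or.inr (Or.inr (Or.inl (Or.inl ⟨i, j, sg_lt_iff.2 hi, sg_lt_iff.2 hj⟩)))

lemma ls_sg (a : Fin m) (j : Fin (n + 3)) : (ls D e).sg a j = sg ((e a).1 j) := rfl

lemma ls_gap (k l : Fin m) (j : Fin (n + 3)) (h : (ls D e).sg k j ≠ (ls D e).sg l j) :
    1 ≤ |(ls D e).sg k j - (ls D e).sg l j| := by
  have := eight_le h
  rw [ls_sg, ls_sg]
  linarith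

lemma exists_Vm : ∃ Vm : ℝ, 0 ≤ Vm ∧ ∀ k, ‖vec (n := n) ((ls D e).V k)‖ ≤ Vm := by
  obtain ⟨M, hM⟩ := (Set.finite_range fun k => ‖vec (n := n) ((ls D e).V k)‖).bddAbove
  exact ⟨max M 0, le_max_right _ _, fun k => (hM ⟨k, rfl⟩).trans (le_max_left _ _)⟩

open Classical in
/-- **the matrix**. -/
lemma mat_eq (Q : Par n) (hsm : ∀ k l j, (ls D e).sg k j ≠ (ls D e).sg l j →
    Q.ep * (‖vec (n := n) ((ls D e).V k)‖ + ‖vec (n := n) ((ls D e).V l)‖) <
      Q.d * |(ls D e).sg k j - (ls D e).sg l j|) :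
    (hd (ls D e) Q hsm).mat =
      Matrix.of fun a b => if ∀ j, (e b).1 j ≤ (e a).1 j then 1 else 0 := by
  ext k l
  rw [Matrix.of_apply]
  unfold HD.mat
  by_cases h : k = l
  · rw [if_pos h, h, if_pos fun j => le_rfl]
    exact if_pos fun j => rfl
  · rw [if_neg h]
    refine if_congr ⟨fun h1 j => sg_le_iff.1 (h1.1 j), fun h1 => ?_⟩ rfl rfl
    rcases (ls D e).trich k l h with h2 | h2 | h2 | h2
    · exact h2
    · obtain ⟨j, hj⟩ := h2.2.1
      exact absurd (sg_le_iff.2 (h1 j)) (not_le.2 hj)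
    · rcases h2 with ⟨i, j, -, hj⟩ | ⟨-, i, j, -, -, -, hj⟩
      · exact absurd (sg_le_iff.2 (h1 j)) (not_le.2 hj)
      · exact absurd hj (by simp [ls])
    · rcases h2 with ⟨i, j, hi, -⟩ | ⟨-, i, j, -, -, -, hj⟩
      · exact absurd (sg_le_iff.2 (h1 i)) (not_le.2 hi)
      · exact absurd hj (by simp [ls])

end letters

/-! ### the function -/

section fn

variable (D : LD (n + 3))

lemma one_le_K1 : 1 ≤ D.K1 := by
  have := Calc3_957.le_K1 D 0
  have h : (0 : ℝ) ≤ D.M 0 := Nat.cast_nonneg _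
  linarith

lemma Be_of_R {d : ℝ} {z : Fin (n + 3) → ℂ} {e : Fin (n + 3) × Fin (n + 3) × ℕ}
    (h : D.R d z e.1 = 0 ∨ D.R d z e.2.1 = 0) : D.Be d e z = 0 := by
  unfold LD.Be
  rcases h with h | h
  · rw [h, zero_mul, zero_div, zero_mul]
  · rw [h, mul_zero, zero_div, zero_mul]

/-- **the `GF` instance**. -/
noncomputable def gf (cB : ℝ) {ga d : ℝ} (hga : 0 < ga) (hga1 : ga ≤ 1) (hd : 0 < d)
    (hdK : 750 * (n + 3) ^ 2 * (D.K + 1) ^ 2 * d < 1) : GF n where
  K1 := D.K1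
  K := D.K
  ga := ga
  d := d
  q j := pl ga (D.M j)
  B z := cB * ga * ∑ e ∈ D.C, D.Be d e z
  hK1 := one_le_K1 D
  hK := Calc3_957.K1_le_K D 0
  hga := hga
  hga1 := hga1
  hd := hd
  hdK := hdK
  q0 j z h := Calc_957.pl_of_nonpos h
  B0 z h := by
    rw [Finset.sum_eq_zero fun e _ => Be_of_R D (Or.inl (Calc3_957.R_of_nonpos D (h e.1))),
      mul_zero]


/-- the planar function near a ray. -/
lemma pl_near {ga : ℝ} {M l : ℕ} (hl : l < M) {z : ℂ} (h0 : 0 < z.re)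
    (h : |z.im - sg l * z.re| ≤ z.re) : (pl ga M z).re = ga * z.re ∧
    (pl ga M z).im = z.im - sg l * z.re := by
  have e1 : z.im / z.re - sg l = (z.im - sg l * z.re) / z.re := by
    field_simp
  have h1 : |z.im / z.re - sg l| ≤ 1 := by
    rw [e1, abs_div, abs_of_pos h0, div_le_one h0]
    exact h
  rw [Calc_957.pl_of_pos h0, Calc_957.pv_cell hl (h1.trans (by norm_num)),
    Calc_957.Af_of_le h1, Calc_957.Bf_of_abs_le h1, Complex.re_ofReal_mul, Complex.im_ofReal_mul]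
  constructor
  · simp
    ring
  · simp only [Complex.add_im, Complex.ofReal_im, Complex.mul_im, Complex.I_re, Complex.I_im,
      Complex.ofReal_re, zero_mul, one_mul, zero_add]
    field_simp

lemma R_eq_zero {d : ℝ} {z : Fin (n + 3) → ℂ} {j : Fin (n + 3)}
    (h : (z j).re ≤ 0 ∨ D.ch d z j = 0) : D.R d z j = 0 := by
  unfold LD.R
  rcases h with h | h
  · rw [max_eq_left h, mul_zero]
  · rw [h, zero_mul]

/-- the couplings vanish near the rays of a letter. -/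
lemma Be_near {k : Fin (n + 3) → ℕ} (hk : D.Let k) {d : ℝ} {z : Fin (n + 3) → ℂ}
    (h : ∀ j, (z j).re ≤ 0 ∨ D.ch d z j = 0 ∨ |(z j).im - sg (k j) * (z j).re| ≤ (z j).re)
    {e : Fin (n + 3) × Fin (n + 3) × ℕ} (he : e ∈ D.C) : D.Be d e z = 0 := by
  by_cases h1 : D.R d z e.1 = 0
  · exact Be_of_R D (Or.inl h1)
  by_cases h2 : D.R d z e.2.1 = 0
  · exact Be_of_R D (Or.inr h2)
  have key : ∀ j, D.R d z j ≠ 0 → (z j).im / (z j).re ≤ 8 * (k j : ℝ) + 5 := by
    intro j hj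
    have h3 : 0 < (z j).re := by
      by_contra h4
      exact hj (R_eq_zero D (Or.inl (not_lt.1 h4)))
    rcases h j with h4 | h4 | h4
    · exact absurd h3 (not_lt.2 h4)
    · exact absurd (R_eq_zero D (Or.inr h4)) hj
    · rw [div_le_iff₀ h3]
      have := (abs_le.1 h4).2
      unfold sg at this
      linarith
  unfold LD.Be
  have h3 := hk.2 e he
  by_cases h4 : e.2.2 ≤ k e.1
  · have h5 : k e.2.1 + 1 ≤ D.M e.2.1 - 1 := by
      have h6 := hk.1 e.2.1
      have h7 : k e.2.1 + 1 ≠ D.M e.2.1 := fun h8 => h3 ⟨h4, h8⟩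
      omega
    have h6 : (k e.2.1 : ℝ) + 1 ≤ ((D.M e.2.1 - 1 : ℕ) : ℝ) := by exact_mod_cast h5
    rw [Calc3_957.win_low (m := D.M e.2.1 - 1) (by linarith [key e.2.1 h2]), mul_zero, mul_zero]
  · have h6 : (k e.1 : ℝ) + 1 ≤ (e.2.2 : ℝ) := by exact_mod_cast (not_le.1 h4)
    rw [Calc3_957.win_low (m := e.2.2) (by linarith [key e.1 h1]), zero_mul, mul_zero]

/-- **near the rays**. -/
lemma near (e : Fin m ≃ {k : Fin (n + 3) → ℕ // D.Let k}) (cB : ℝ) {ga d : ℝ} (hga : 0 < ga)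
    (hga1 : ga ≤ 1) (hd : 0 < d) (hdK : 750 * (n + 3) ^ 2 * (D.K + 1) ^ 2 * d < 1) :
    GF.Near (gf D cB hga hga1 hd hdK) (ls D e) (D.K1 - 1) where
  sgK k j := by
    have h1 := let_le D e k j
    have h2 := Calc3_957.le_K1 D j
    rw [ls_sg, abs_of_nonneg (sg_nonneg _)]
    unfold sg
    linarith
  Sg0 := by
    have := one_le_K1 D
    linarith
  K1S := by
    show D.K1 - 1 + 1 ≤ D.K1
    linarith
  qr k j z h0 h := by
    have h1 := pl_near (ga := ga) ((e k).2.1 j) h0 h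
    refine ⟨h1.1, h1.2.trans ?_⟩
    show _ = (if false = true then (-1 : ℝ) else 1) * _
    simp [ls_sg]
  Bt k z h := by
    show cB * ga * ∑ e ∈ D.C, D.Be d e z = 0
    rw [Finset.sum_eq_zero fun c hc => Be_near D (d := d) (e k).2 h hc, mul_zero]

/-! ### parameters -/

/-- bound of `d`. -/
noncomputable def dJ : ℝ := 1 / (751 * (n + 3) ^ 2 * (D.K + 1) ^ 2)

lemma K_nonneg : 0 ≤ D.K := Calc3_957.K_nonneg D

lemma dJ_pos : 0 < dJ D := by
  have := K_nonneg D
  unfold dJ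
  positivity

lemma hdK_of {d : ℝ} (hd : 0 < d) (h : d ≤ dJ D) : 750 * (n + 3) ^ 2 * (D.K + 1) ^ 2 * d < 1 := by
  have h1 := K_nonneg D
  have h2 : 0 < 751 * ((n : ℝ) + 3) ^ 2 * (D.K + 1) ^ 2 := by positivity
  unfold dJ at h
  rw [le_div_iff₀ h2] at h
  have h3 : 0 < ((n : ℝ) + 3) ^ 2 * (D.K + 1) ^ 2 * d := by positivity
  nlinarith

lemma hdN_of {d : ℝ} (hd : 0 < d) (h : d ≤ dJ D) : d ^ 2 * (n + 3) < 1 := by
  have h1 := K_nonneg D
  have h2 := hdK_of D hd h
  have h3 : (3 : ℝ) ≤ n + 3 := by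
    have : (0 : ℝ) ≤ n := Nat.cast_nonneg n
    linarith
  have h4 : 1 ≤ (D.K + 1) ^ 2 := by nlinarith
  have h5 : (n + 3 : ℝ) * d ≤ (n + 3) ^ 2 * (D.K + 1) ^ 2 * d := by
    have : (n + 3 : ℝ) ≤ (n + 3) ^ 2 * (D.K + 1) ^ 2 := by nlinarith
    exact mul_le_mul_of_nonneg_right this hd.le
  have h6 : (n + 3 : ℝ) * d < 1 := by nlinarith
  have h7 : d < 1 := by nlinarith
  nlinarith

end fn

end Crest.Agent.R267.EndJ_864
end

-- ▼ part R267/EndK_864
section

/-!
# Row 267, T3-end: the hypotheses of the flow-line theorem for `LD`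
-/

set_option autoImplicit false

namespace Crest.Agent.R267.EndK_864

open Set Metric Filter Topology
open scoped RealInnerProductSpace
open Crest.Agent.R267.GS_808 Crest.Agent.R267.EndDef_864 Crest.Agent.R267.EndBas_864
  Crest.Agent.R267.EndG_864 Crest.Agent.R267.EndH_864 Crest.Agent.R267.EndF_864
  Crest.Agent.R267.EndI_864 Crest.Agent.R267.EndJ_864 Crest.Agent.R267.T3aDefs_957

variable {n m : ℕ}

/-- **pointwise hypotheses of the flow-line theorem** (besides the tubes). -/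
structure Hyp (G : (Fin (n + 3) → ℂ) → ℂ) (L : LS n m) : Prop where
  sm : ContDiffOn ℝ 2 G {0}ᶜ
  hom : ∀ (l : ℝ) z, 0 < l → G (l • z) = l • G z
  s0 : ∀ z : Fin (n + 3) → ℂ, (∀ j, (z j).re = 0) → (G z).re = 0
  k1 : ∀ z : Fin (n + 3) → ℂ, z ≠ 0 → (G z).im = 0 → 0 ≤ (G z).re →
    ∃ Y : Fin (n + 3) → ℝ, (fderiv ℝ G z (LD.vt Y)).im ≠ 0
  k2 : ∀ z : Fin (n + 3) → ℂ, z ≠ 0 → G z = 0 → ∃ (a : ℝ) (Y : Fin (n + 3) → ℝ), 0 ≤ a ∧
    (fderiv ℝ G z (LD.vs a Y)).im = 0 ∧ 0 < (fderiv ℝ G z (LD.vs a Y)).re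
  c00 : ∀ h : ℝ, (G fun _ => Complex.I * (h : ℂ)).im = 0 → h = 0
  low : ∀ z : Fin (n + 3) → ℂ, (∀ j, (z j).re < 0) → 0 < (G z).re
  r4 : ∀ (z : Fin (n + 3) → ℂ) (l : ℝ), 0 < l → (∀ j, (z j).re = l) → (G z).im = 0 →
    0 ≤ (G z).re → ∃ (k : Fin m) (Y : Fin (n + 3) → ℝ),
      (fderiv ℝ G z (LD.vt Y)).im = 0 ∧ (fderiv ℝ G z (LD.vt Y)).re ≤ 0 ∧
      (G z = 0 → (fderiv ℝ G z (LD.vt Y)).re < 0) ∧
      (∀ j, ((z j).im - L.sg k j * (z j).re) ^ 2 ≤ Y j * ((z j).im - L.sg k j * (z j).re)) ∧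
      ∀ j, |(z j).im - L.sg k j * (z j).re| < 2 * (z j).re

lemma cen_of {z : Fin (n + 3) → ℂ} {l : ℝ} (hl : 0 < l) (h : ∀ j, (z j).re = l) : LD.Cen z := by
  intro j
  rw [h j]
  refine ⟨hl, ?_⟩
  have h1 : ∑ i, (z i).re ^ 2 = (n + 3) * l ^ 2 := by
    rw [Finset.sum_congr rfl fun i _ => by rw [h i], Finset.sum_const, Finset.card_univ,
      Fintype.card_fin, nsmul_eq_mul]
    push_cast
    ring
  rw [h1, Real.sqrt_le_left (by positivity)]
  push_cast
  have h2 : (0 : ℝ) ≤ n := Nat.cast_nonneg n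
  have h3 : (n + 3 : ℝ) ≤ (2 * (n + 3)) ^ 2 := by nlinarith
  calc (n + 3 : ℝ) * l ^ 2 ≤ (2 * (n + 3)) ^ 2 * l ^ 2 := by gcongr
    _ = _ := by ring

/-- **hypotheses for `LD`**. -/
theorem hyp (D : LD (n + 3)) (e : Fin m ≃ {k : Fin (n + 3) → ℕ // D.Let k}) :
    LD.Ev fun cB ga d => Hyp (D.G cB ga d) (ls D e) ∧ ga ≤ 1 ∧ d ≤ dJ D := by
  have hS : D.Smooth := Smooth_957.smooth D
  have hc : LD.Ev fun _ ga d => ga ≤ 1 ∧ d ≤ dJ D :=
    ⟨1, one_pos, fun c _ => ⟨1, one_pos, fun g _ hg => ⟨dJ D, dJ_pos D, fun d _ hd => ⟨hg, hd⟩⟩⟩⟩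
  have h1 := (((hS.and (K1_996.k1 D hS)).and (K2_996.k2 D (by omega) hS)).and
    (R4_996.r4' D hS)).and hc
  refine h1.mono fun cB ga d hcB hga hd ⟨⟨⟨⟨h1, h2⟩, h3⟩, h4⟩, h5, h6⟩ => ⟨?_, h5, h6⟩
  have hdK := hdK_of D hd h6
  have hG : (gf D cB hga h5 hd hdK).G = D.G cB ga d := rfl
  refine ⟨h1, ?_, ?_, h2, h3, ?_, ?_, ?_⟩
  · intro l z hl
    exact GlBas_322.Gx_smul D (chi d) cB ga hl z
  · intro z hz
    exact (gf D cB hga h5 hd hdK).s0 hz
  · intro h hz
    exact (gf D cB hga h5 hd hdK).c00 hz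
  · intro z hz
    exact (gf D cB hga h5 hd hdK).low hz
  · intro z l hl hz him hre
    have hz0 : z ≠ 0 := by
      intro h
      have := hz 0
      rw [h] at this
      exact hl.ne this
    obtain ⟨k, Y, a1, a2, a3, a4, a5, a6⟩ := h4 z hz0 (cen_of hl hz) him hre
    have e1 : ∀ j, (ls D e).sg (e.symm ⟨k, a1⟩) j = sg (k j) := by
      intro j
      rw [ls_sg, Equiv.apply_symm_apply]
    refine ⟨e.symm ⟨k, a1⟩, Y, a2, a3, a4, ?_, ?_⟩
    · intro j
      rw [e1]
      exact a5 j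
    · intro j
      rw [e1]
      exact a6 j

/-- conclusion of the flow-line theorem for given data. -/
def FlP (L : LS n m) (Q : Par n) (hsm : ∀ k l j, L.sg k j ≠ L.sg l j →
    Q.ep * (‖vec (n := n) (L.V k)‖ + ‖vec (n := n) (L.V l)‖) < Q.d * |L.sg k j - L.sg l j|)
    (G : (Fin (n + 3) → ℂ) → ℂ) (κ2 : ℝ) : Prop :=
  ∃ r0 : ℝ, 0 < r0 ∧ ∀ r, 0 < r → r < r0 → ∃ ε : ℝ, 0 < ε ∧ FLOut G (hd L Q hsm) Q.e κ2 ε r

open Classical in
/-- **T3aP from the flow-line theorem**. -/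
theorem t3aP_of (D : LD (n + 3)) (hC : ∀ (m : ℕ) (e : Fin m ≃ {k : Fin (n + 3) → ℕ // D.Let k})
    (Q : Par n) (hsm : ∀ k l j, (ls D e).sg k j ≠ (ls D e).sg l j →
      Q.ep * (‖vec (n := n) ((ls D e).V k)‖ + ‖vec (n := n) ((ls D e).V l)‖) <
        Q.d * |(ls D e).sg k j - (ls D e).sg l j|) (G : (Fin (n + 3) → ℂ) → ℂ) (r2 Vm : ℝ),
      Hyp G (ls D e) → 0 < r2 → Q.e = Q.d / 2 → (∀ k j, |(ls D e).sg k j| ≤ D.K1 - 1) →
      (∀ k, ‖vec (n := n) ((ls D e).V k)‖ ≤ Vm) → 0 ≤ Vm → r2 + Q.ep * Vm ≤ Q.d →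
      (1 + √(n + 3 : ℝ)) * (Q.ep * Vm) < Q.d → Q.ep * Vm < 1 →
      (∀ (s t : W n) (k : Fin m), s ≠ 0 → ‖t - (hd (ls D e) Q hsm).eta k s‖ ≤ r2 * ‖s‖ →
        (G (zc s t)).im = ⟪(hd (ls D e) Q hsm).nrm k s, t - (hd (ls D e) Q hsm).eta k s⟫ ∧
          0 < (G (zc s t)).re) →
      FlP (ls D e) Q hsm G D.K1) : GlueDefs_322.T3aP D := by
  obtain ⟨m, ⟨e⟩⟩ := exists_enum D
  refine (hyp D e).mono fun cB ga d hcB hga hd' h => ?_
  obtain ⟨h1, h2, h3⟩ := h
  obtain ⟨Vm, hVm0, hVm⟩ := exists_Vm D e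
  have hN := sqrt_pos n
  have hdK := hdK_of D hd' h3
  have hdN := hdN_of D hd' h3
  have hη : 0 < d / (4 * (1 + √(n + 3 : ℝ)) * (Vm + 1)) := by positivity
  obtain ⟨Q, hQd, hQe, hQep, hsm⟩ := exists_par (ls D e) hVm (ls_gap D e) hd' hdN hη
  have hep0 := Q.hep
  set P := gf D cB hga h2 hd' hdK with hP
  have hd1 : d < 1 := P.d_lt
  have hepV : (1 + √(n + 3 : ℝ)) * (Q.ep * Vm) ≤ d / 4 := by
    rw [le_div_iff₀ (by positivity)] at hQep
    have h4 : Q.ep * (4 * (1 + √(n + 3 : ℝ)) * (Vm + 1)) =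
        4 * ((1 + √(n + 3 : ℝ)) * (Q.ep * Vm)) + 4 * (1 + √(n + 3 : ℝ)) * Q.ep := by ring
    have h5 : 0 < 4 * (1 + √(n + 3 : ℝ)) * Q.ep := by positivity
    linarith
  have hepV0 : 0 ≤ Q.ep * Vm := mul_nonneg hep0.le hVm0
  have hepV' : Q.ep * Vm ≤ d / 4 := by nlinarith
  have hNear := near D e cB hga h2 hd' hdK
  have hr2 : d / 2 + Q.ep * Vm ≤ P.d := by
    show d / 2 + Q.ep * Vm ≤ d
    linarith
  have hQP : Q.d = P.d := hQd
  have F : Facts P.G (hd (ls D e) Q hsm) (d / 2) d :=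
    P.facts hsm hNear hQP h1.sm.continuousOn h1.hom hVm hr2 le_rfl
  have hK1 := one_le_K1 D
  obtain ⟨S, hS1, hS2⟩ := final (ls D e) Q hsm (κ2 := D.K1) F (by positivity) (by linarith)
    (by linarith : D.K1 - 1 + Q.ep * Vm < D.K1) hK1 hNear.sgK hVm (by linarith) hVm0
    (hC m e Q hsm (D.G cB ga d) (d / 2) Vm h1 (by positivity) (by rw [hQe, hQd]) hNear.sgK hVm hVm0
      (by rw [hQd]; exact hr2) (by rw [hQd]; linarith) (by linarith)
      fun s t k hs ht => GF.tube (P := P) (ls D e) Q hsm hNear hQP hVm hr2 s t k hs ht)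
  rw [mat_eq D e Q hsm] at hS1
  exact ⟨m, e, S, hS1, hS2⟩

end Crest.Agent.R267.EndK_864
end

-- ▼ part R267/EndL_864

/-!
# Row 267: T3aP (unsigned): the link of the lobed function is a graph link
-/

set_option autoImplicit false

namespace Crest.Agent.R267.EndL_864

open scoped RealInnerProductSpace
open Crest.Agent.R267.EndDef_864 Crest.Agent.R267.EndG_864 Crest.Agent.R267.EndH_864
  Crest.Agent.R267.EndJ_864 Crest.Agent.R267.EndK_864 Crest.Agent.R267.T3aDefs_957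
  Crest.Agent.R267.Carve3_363

variable {n : ℕ}

/-- **T3a**. -/
theorem t3aP (D : LD (n + 3)) : GlueDefs_322.T3aP D := by
  refine t3aP_of D fun m e Q hsm G r2 Vm H hr2 _ hSg hVm hVm0 _ _ hepV htube => ?_
  have hK1 := one_le_K1 D
  have H3 : CF (ls D e) Q hsm 4 r2 D.K1 G :=
    { hp := by norm_num
      rays := fun k j => ⟨(e k).1 j, by rw [ls_sg]; unfold sg; ring⟩
      hr2 := hr2
      hκ2 := by linarith
      T1 := T1_of (ls D e) Q hsm hSg hVm (by linarith) (by linarith)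
      sm := H.sm
      hom := H.hom
      S0 := H.s0
      K1 := H.k1
      K2 := H.k2
      c00 := H.c00
      low := H.low
      tube := htube
      R4 := fun l x hl hx him hre => by
        obtain ⟨k, Y, a1, a2, a3, a4, a5⟩ := H.r4 x l hl hx him hre
        refine ⟨k, Y, a1, a2, fun h => a3 (Complex.ext h him), fun j => ⟨?_, ?_⟩⟩
        · have := a4 j
          rwa [hx j, mul_comm (Y j)] at this
        · have := a5 j
          rwa [hx j] at this }
  obtain ⟨r0, h0, h1⟩ := carve3 H3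
  refine ⟨r0, h0, fun r hr hr' => ?_⟩
  obtain ⟨ε0, h2, h3⟩ := h1 r hr hr'
  exact ⟨ε0, h2, h3 ε0 h2 le_rfl⟩

end Crest.Agent.R267.EndL_864
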