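import Crest.Agent.R267.HubInst_370
import Crest.Agent.R267.SFLDc_330

/-!
# Row 267 (helper370): the facts `HubInst_370.Facts` for the literal data `DfL`, `DgL`

* `st_wph`: the trichotomy (hub lobe / word sector / flat) of a word `p = wph e M α β` and of its flat
  lift `hh` (arcs `≥ n` replaced by a constant);
* `Num b D`: numerical facts; `facts : Num b D → Facts b D`; `num_f`, `num_g`; `facts_f`, `facts_g`.
-/

set_option autoImplicit false

noncomputable section

open Finset Set Filter Topology
open Crest.Agent.R267.T3aNDefs_88 Crest.Agent.R267.Ang_739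
open Crest.Agent.R267.GlNDefs_9 Crest.Agent.R267.HubDefs_284
open Crest.Agent.R267.WordPh_9 Crest.Agent.R267.WordPh2_9 Crest.Agent.R267.HubInst_370
open Crest.Agent.R267.SFLDc_330 Crest.Agent.R267.SFLDb_330

namespace Crest.Agent.R267.HubFacts_370

variable {M : ℕ} {α β : ℕ → ℝ} {e : ℕ → ℝ}

/-! ### one word -/

/-- left ends of the hub arcs, then the end of the turn -/
def al' (α : ℕ → ℝ) (n : ℕ) (i : ℕ) : ℝ := if i < n then α i else α 0 + 2 * Real.pi

theorem arcs' (h : Arcs M α β) {n : ℕ} (hn : 1 ≤ n) (hnM : n ≤ M + 1) :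
    Arcs (n - 1) (al' α n) β where
  ab := fun i hi => by
    unfold al'
    rw [if_pos (by omega)]
    exact h.ab i (by omega)
  ba := fun i hi => by
    unfold al'
    have h1 := h.ba i (by omega)
    split_ifs with h2
    · exact h1
    · have h3 := arcs_mono h (show i + 1 ≤ M + 1 by omega) le_rfl
      have h4 := h.last
      linarith
  last := by
    unfold al'
    rw [if_neg (by omega), if_pos (by omega)]


theorem se_one (i : ℕ) : se (fun _ => (1 : ℝ)) i = 1 := by unfold se; split <;> rfl

/-- left ends of the lobes are flat -/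
theorem flat_al (h : Arcs M α β) (he : ∀ l, e l = 1 ∨ e l = -1) {i : ℕ} (hi : i ≤ M) (k : ℤ) :
    deriv (wph e M α β) (α i + 2 * Real.pi * k) = 0 ∧
      cis (wph e M α β (α i + 2 * Real.pi * k)) = -1 := by
  rcases Nat.eq_zero_or_pos i with h5 | h5
  · subst h5
    have e1 : α 0 + 2 * Real.pi * k = α (M + 1) + 2 * Real.pi * ((k - 1 : ℤ) : ℝ) := by
      rw [h.last]; push_cast; ring
    rw [e1, deriv_wph_add_int]
    exact ⟨deriv_wph_gap h le_rfl (h.ba M le_rfl).le le_rfl,
      cis_wph_gap h he (i := M) le_rfl (h.ba M le_rfl).le le_rfl (k - 1)⟩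
  · obtain ⟨j, rfl⟩ : ∃ j, i = j + 1 := ⟨i - 1, by omega⟩
    rw [deriv_wph_add_int]
    exact ⟨deriv_wph_gap h (by omega) (h.ba j (by omega)).le le_rfl,
      cis_wph_gap h he (i := j) (by omega) (h.ba j (by omega)).le le_rfl k⟩

theorem cen_hub {n : ℕ} (hs : ∀ i < n, se e i = 1) {i : ℕ} (hi : i < n) :
    cen e i = 2 * Real.pi * i := by
  rw [cen_eq, hs i hi]
  have : ∑ k ∈ range i, se e k = i := by
    rw [Finset.sum_congr rfl fun k hk => hs k (by have := Finset.mem_range.1 hk; omega)]
    simp
  rw [this]; ring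

theorem cen_one (i : ℕ) : cen (fun _ => (1 : ℝ)) i = 2 * Real.pi * i :=
  cen_hub (n := i + 1) (fun i _ => se_one i) (Nat.lt_succ_self i)

/-- on the hub lobes the word and its flat lift agree -/
theorem val_hub (h : Arcs M α β) {n : ℕ} (hn : 1 ≤ n) (hnM : n ≤ M + 1)
    (hs : ∀ i < n, se e i = 1) {i : ℕ} (hi : i < n) {y : ℝ} (h1 : α i ≤ y) (h2 : y ≤ β i) :
    wph e M α β y = wph (fun _ => 1) (n - 1) (al' α n) β y := by
  have h' := arcs' h hn hnM
  have hb := h.ba i (by omega)
  have hb' := h'.ba i (by omega)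
  have ha : al' α n i = α i := if_pos hi
  rw [wph_val h (i := i) (by omega) h1 (by linarith),
    wph_val h' (i := i) (by omega) (by rw [ha]; exact h1) (by linarith), ha, cen_hub hs hi,
    cen_one, hs i hi, se_one]

theorem deriv_hub (h : Arcs M α β) {n : ℕ} (hn : 1 ≤ n) (hnM : n ≤ M + 1)
    (hs : ∀ i < n, se e i = 1) {i : ℕ} (hi : i < n) {y : ℝ} (h1 : α i < y) (h2 : y < β i) :
    deriv (wph (fun _ => 1) (n - 1) (al' α n) β) y = deriv (wph e M α β) y := by
  have hev : wph (fun _ => 1) (n - 1) (al' α n) β =ᶠ[𝓝 y] wph e M α β := by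
    filter_upwards [Ioo_mem_nhds h1 h2] with x hx
    exact (val_hub h hn hnM hs hi hx.1.le hx.2.le).symm
  exact hev.deriv_eq

theorem tot_one (n : ℕ) (hn : 1 ≤ n) : tot (fun _ => (1 : ℝ)) (n - 1) = 2 * Real.pi * n := by
  rw [tot_eq]
  simp only [se_one, Finset.sum_const, Finset.card_range, nsmul_eq_mul, mul_one]
  have : n - 1 + 1 = n := by omega
  rw [this]

/-- **trichotomy** -/
theorem st_wph (h : Arcs M α β) (he : ∀ l, e l = 1 ∨ e l = -1) {n : ℕ} (hn : 1 ≤ n)
    (hnM : n ≤ M + 1) (hs : ∀ i < n, se e i = 1) (x : ℝ) :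
    (deriv (wph e M α β) x ≠ 0 ∧
      deriv (wph (fun _ => 1) (n - 1) (al' α n) β) x = deriv (wph e M α β) x ∧
      cis (wph (fun _ => 1) (n - 1) (al' α n) β x) = cis (wph e M α β x)) ∨
    (deriv (wph e M α β) x ≠ 0 ∧ deriv (wph (fun _ => 1) (n - 1) (al' α n) β) x = 0 ∧
      cis (wph (fun _ => 1) (n - 1) (al' α n) β x) = -1) ∨
    (deriv (wph e M α β) x = 0 ∧ deriv (wph (fun _ => 1) (n - 1) (al' α n) β) x = 0 ∧
      cis (wph e M α β x) = -1 ∧ cis (wph (fun _ => 1) (n - 1) (al' α n) β x) = -1) := by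
  have h' := arcs' h hn hnM
  obtain ⟨k, y, hy1, hy2, rfl⟩ := exists_dom (α 0) x
  obtain ⟨i, hi, h1, h2⟩ := exists_piece h hy1 hy2
  by_cases hin : i < n
  · have ha : al' α n i = α i := if_pos hin
    rcases lt_or_ge y (β i) with h4 | h4
    · rcases h1.lt_or_eq with h3 | h3
      · -- open hub lobe
        have hd := deriv_hub h hn hnM hs hin h3 h4
        have hc : cis (wph (fun _ => 1) (n - 1) (al' α n) β (y + 2 * Real.pi * k)) =
            cis (wph e M α β (y + 2 * Real.pi * k)) := by
          obtain ⟨m, hm⟩ := exists_tot he M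
          rw [wph_add_int, wph_add_int, tot_one n hn, hm, val_hub h hn hnM hs hin h3.le h4.le,
            show (k : ℝ) * (2 * Real.pi * n) = 2 * Real.pi * ((k * n : ℤ) : ℝ) by push_cast; ring,
            show (k : ℝ) * (2 * Real.pi * m) = 2 * Real.pi * ((k * m : ℤ) : ℝ) by push_cast; ring,
            cis_per, cis_per]
        by_cases h0 : deriv (wph e M α β) (y + 2 * Real.pi * k) = 0
        · right; right
          have h5 := cis_of_deriv_zero h he h0
          refine ⟨h0, ?_, h5, by rw [hc, h5]⟩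
          rw [deriv_wph_add_int] at h0 ⊢
          rw [hd, h0]
        · left
          refine ⟨h0, ?_, hc⟩
          rw [deriv_wph_add_int, deriv_wph_add_int, hd]
      · -- left end
        right; right
        have h5 := flat_al h he hi k
        have h6 := flat_al h' (fun _ => Or.inl rfl) (i := i) (by omega) k
        rw [ha] at h6
        rw [h3] at h5 h6
        exact ⟨h5.1, h6.1, h5.2, h6.2⟩
    · -- hub gap
      right; right
      have h5 : y ≤ al' α n (i + 1) := by
        unfold al'
        split_ifs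
        · exact h2.le
        · exact hy2.le
      rw [deriv_wph_add_int, deriv_wph_add_int]
      exact ⟨deriv_wph_gap h hi h4 h2.le, deriv_wph_gap h' (by omega) h4 h5,
        cis_wph_gap h he hi h4 h2.le k, cis_wph_gap h' (fun _ => Or.inl rfl) (by omega) h4 h5 k⟩
  · -- word sector
    have h3 : β (n - 1) ≤ y := (beta_le h (show n - 1 < i by omega) (by omega)).trans h1
    have h4 : y ≤ al' α n (n - 1 + 1) := by
      unfold al'
      rw [if_neg (by omega)]
      exact hy2.le
    have h5 : deriv (wph (fun _ => 1) (n - 1) (al' α n) β) (y + 2 * Real.pi * k) = 0 := by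
      rw [deriv_wph_add_int]
      exact deriv_wph_gap h' le_rfl h3 h4
    have h6 := cis_wph_gap h' (e := fun _ => (1 : ℝ)) (fun _ => Or.inl rfl) (i := n - 1) le_rfl
      h3 h4 k
    by_cases h0 : deriv (wph e M α β) (y + 2 * Real.pi * k) = 0
    · right; right
      exact ⟨h0, h5, cis_of_deriv_zero h he h0, h6⟩
    · right; left
      exact ⟨h0, h5, h6⟩

/-! ### the facts -/

/-- numerical facts -/
structure Num (b : Bool) (D : SD 4) : Prop where
  card : ∀ e, (D.bx e).S.card = 2 ∨ (D.bx e).S.card = 3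
  lohi : ∀ e, ∀ j ∈ (D.bx e).S, (D.bx e).lo j ≤ (D.bx e).hi j
  nM : ∀ j, nh b j ≤ D.M j + 1
  pos : ∀ j l, l + 1 < nh b j → D.neg j l = false

variable {b : Bool} {D : SD 4}

theorem nh_pos (b : Bool) (j : Fin 4) : 1 ≤ nh b j := by
  cases b <;> fin_cases j <;> decide


theorem Num.hs (N : Num b D) (j : Fin 4) : ∀ i < nh b j, se (D.sn j) i = 1 := by
  intro i hi
  unfold se
  split_ifs with h0
  · rfl
  · unfold SD.sn
    rw [N.pos j (i - 1) (by omega)]
    rfl

theorem Num.chiW (N : Num false D) : WinA (D.M 0) (aE (D.M 0)) (bE (D.M 0)) (nh false 0 - 1)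
    (D.M 0) (chi false D) :=
  winA (arcsE (D.M 0)) (by have := N.nM 0; omega) le_rfl

/-- **the facts** -/
theorem facts (N : Num b D) : Facts b D where
  card := N.card
  lohi := N.lohi
  hC := fun j => contDiff_wph (arcs' (arcsE (D.M j)) (nh_pos b j) (N.nM j))
  hdeg := fun j x => by
    have h1 : hh b D j (x + 2 * Real.pi) = hh b D j x + tot (fun _ => 1) (nh b j - 1) := wph_add x
    rw [h1, tot_one _ (nh_pos b j)]
  st := fun j x => st_wph (arcsE (D.M j)) (sn_pm (D := D) j) (nh_pos b j) (N.nM j) (N.hs j) x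
  lamd := fun e j hj x hp => by
    by_contra hne
    exact hp (flat_of_wn (arcsE (D.M j)) (sn_pm (D := D) j) (N.lohi e j hj) (D.hhi e j hj) hne).1
  χC := by
    cases b
    · exact N.chiW.smooth
    · exact contDiff_const
  χper := fun x => by
    cases b
    · exact N.chiW.per x
    · rfl
  χ01 := fun x => by
    cases b
    · exact ⟨N.chiW.nn x, N.chiW.le x⟩
    · exact ⟨zero_le_one, le_rfl⟩
  χd := fun x hp => by
    cases b
    · by_contra hne
      exact hp (flat_of_wn (arcsE (D.M 0)) (sn_pm (D := D) 0)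
        (show nh false 0 - 1 ≤ D.M 0 by have := N.nM 0; omega) le_rfl hne).1
    · exact deriv_const x 1

theorem num_f : Num true DfL where
  card := fun e => by
    revert e
    show ∀ e : Fin bxFL.length, (mkB (bxFL.get e)).S.card = 2 ∨ (mkB (bxFL.get e)).S.card = 3
    decide +kernel
  lohi := by
    show ∀ e : Fin bxFL.length, ∀ j ∈ (mkB (bxFL.get e)).S,
      (mkB (bxFL.get e)).lo j ≤ (mkB (bxFL.get e)).hi j
    decide +kernel
  nM := by
    show ∀ j, nh true j ≤ MM j + 1
    decide
  pos := fun j l hl => by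
    show negF j l = false
    have h1 : l < 14 := by
      have h2 : ∀ j, nh true j ≤ 15 := by decide
      have := h2 j
      omega
    revert j
    interval_cases l <;> decide

theorem num_g : Num false DgL where
  card := fun e => by
    revert e
    show ∀ e : Fin bxGL.length, (mkB (bxGL.get e)).S.card = 2 ∨ (mkB (bxGL.get e)).S.card = 3
    decide +kernel
  lohi := by
    show ∀ e : Fin bxGL.length, ∀ j ∈ (mkB (bxGL.get e)).S,
      (mkB (bxGL.get e)).lo j ≤ (mkB (bxGL.get e)).hi j
    decide +kernel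
  nM := by
    show ∀ j, nh false j ≤ MM j + 1
    decide
  pos := fun j l hl => by
    show negG j l = false
    have h1 : l < 14 := by
      have h2 : ∀ j, nh false j ≤ 15 := by decide
      have := h2 j
      omega
    revert j
    interval_cases l <;> decide

/-- **the facts for `f`** -/
theorem facts_f : Facts true DfL := facts num_f

/-- **the facts for `g`** -/
theorem facts_g : Facts false DgL := facts num_g

end Crest.Agent.R267.HubFacts_370
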