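import Mathlib

/-!
# Row 267, T3N hub step for `f` (helper568): real sign patterns

Variables `0, 1, 2, 3 = x, y, z, w`; own magnitudes `R i ≥ 0`, own signs `e i = ± 1`
(`e i = 1`: on a positive ray; `e i = -1`: off-lobe), couplings `a` (`x² y z`) and `b` (`(y z)⁵`)
with signs `sa, sb = ± 1`, boxes `c` with support `S c`, exponents `th c i`, magnitude `de c ≥ 0`
and window `la c`.  `N i = ∑ c, th c i * de c`.

Radial equations of a critical zero (divided by the degrees `5/2, 10, 10, 15`):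
`e 0 R 0 + (4/5) sa a = N 0`, `e i R i + (sa a + 5 sb b) / 10 = N i` (`i = 1, 2`), `e 3 R 3 = N 3`.
-/

set_option autoImplicit false

namespace Crest.Agent.R267.PatF_568

open Finset

/-- boxes at a point. -/
structure Bx {κ : Type} [Fintype κ] (R e : Fin 4 → ℝ) (S : κ → Finset (Fin 4))
    (th : κ → Fin 4 → ℝ) (la de : κ → ℝ) : Prop where
  R0 : ∀ i, 0 ≤ R i
  e1 : ∀ i, e i = 1 ∨ e i = -1
  th0 : ∀ c i, 0 ≤ th c i
  ths : ∀ c i, i ∉ S c → th c i = 0
  de0 : ∀ c, 0 ≤ de c
  /-- at the rays the windows are `0` or `1`. -/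
  la01 : ∀ c, (∀ i ∈ S c, e i = 1) → la c = 0 ∨ la c = 1
  off : ∀ c, la c = 0 → de c = 0
  /-- AM-GM: the constant is bigger than the critical one. -/
  amgm : ∀ c, la c = 1 → (∀ i ∈ S c, th c i * de c ≤ R i) → de c = 0
  zero : ∀ c, ∀ i ∈ S c, R i = 0 → de c = 0
  pos : ∀ c, la c = 1 → (∀ i ∈ S c, 0 < R i) → 0 < de c

section

variable {κ : Type} [Fintype κ] {R e : Fin 4 → ℝ} {S : κ → Finset (Fin 4)}
  {th : κ → Fin 4 → ℝ} {la de : κ → ℝ}

theorem Bx.N_nonneg (h : Bx R e S th la de) (i : Fin 4) : 0 ≤ ∑ c, th c i * de c :=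
  Finset.sum_nonneg fun c _ => mul_nonneg (h.th0 c i) (h.de0 c)

theorem Bx.le_N (h : Bx R e S th la de) (c : κ) (i : Fin 4) : th c i * de c ≤ ∑ c, th c i * de c :=
  Finset.single_le_sum (f := fun c => th c i * de c)
    (fun c _ => mul_nonneg (h.th0 c i) (h.de0 c)) (Finset.mem_univ c)

/-- if `R i ≥ N i` on the support of a box with window `1`, the box vanishes. -/
theorem Bx.box_zero (h : Bx R e S th la de) {c : κ} (hc : la c = 1)
    (hR : ∀ i ∈ S c, ∑ c, th c i * de c ≤ R i) : de c = 0 :=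
  h.amgm c hc fun i hi => (h.le_N c i).trans (hR i hi)

theorem Bx.no_box (h : Bx R e S th la de) {c : κ} (hc : la c = 1)
    (hR : ∀ i ∈ S c, ∑ c, th c i * de c ≤ R i ∧ 0 < R i) : False :=
  (h.pos c hc fun i hi => (hR i hi).2).ne' (h.box_zero hc fun i hi => (hR i hi).1)

theorem Bx.N_zero (h : Bx R e S th la de) {i : Fin 4} (hi : ∀ c, i ∈ S c → de c = 0) :
    ∑ c, th c i * de c = 0 :=
  Finset.sum_eq_zero fun c _ => by
    by_cases hc : i ∈ S c
    · rw [hi c hc, mul_zero]
    · rw [h.ths c i hc, zero_mul]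

/-- own terms minus boxes: no critical zero. -/
theorem Bx.own (h : Bx R e S th la de) (hE : ∀ i, e i * R i = ∑ c, th c i * de c) (i : Fin 4) :
    R i = 0 := by
  have hde : ∀ c, de c = 0 := by
    intro c
    by_cases hall : ∀ i ∈ S c, e i = 1
    · rcases h.la01 c hall with h0 | h1
      · exact h.off c h0
      · refine h.box_zero h1 fun i hi => ?_
        rw [← hE i, hall i hi, one_mul]
    · push Not at hall
      obtain ⟨i, hi, hne⟩ := hall
      have hm : e i = -1 := (h.e1 i).resolve_left hne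
      have h1 := hE i
      have h2 := h.N_nonneg i
      have h3 := h.R0 i
      rw [hm] at h1
      exact h.zero c i hi (by linarith)
  have h1 := hE i
  simp only [hde, mul_zero, Finset.sum_const_zero] at h1
  rcases h.e1 i with h2 | h2 <;> rw [h2] at h1 <;> linarith


end


end Crest.Agent.R267.PatF_568
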