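import Crest.Agent.R267.HubEng_370
import Crest.Agent.R267.HubFacts_370
import Crest.Agent.R267.PatF_568

-- ▼ part R267/HubEng2_370
section

/-!
# Row 267 (helper370): real form and rounding of the pointwise data `Out` of `HubEng_370`

At a critical zero: signs `es i`, `sv v ∈ {1, -1}`, primed magnitudes `R' = R |rf|`, `r' = r |rf|`,
`B' = ζ.re B`, the exact radial equations `real`, bounds `R'_ge`, .., integer positions `pos`.
-/

set_option autoImplicit false
set_option linter.unusedSectionVars false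

noncomputable section

open Set Filter Topology
open scoped ContDiff
open Crest.Agent.R267.Ang_739 Crest.Agent.R267.StairFn_739 Crest.Agent.R267.StairPh_739
open Crest.Agent.R267.LemL_951 Crest.Agent.R267.PolF_943 Crest.Agent.R267.RndP_222
open Crest.Agent.R267.HubEng_370

namespace Crest.Agent.R267.HubEng_370

variable {ι ε β : Type} [Fintype ι] [DecidableEq ι] [Fintype ε] [Fintype β]

namespace Hub

variable (H : Hub ι ε β)

/-- own sign (`-1` if the variable vanishes) -/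
def es (z : ι → ℂ) (ζ : ℂ) (i : ι) : ℝ := if 0 < H.R z i ∧ 0 < rf ζ (H.ka z i) then 1 else -1

/-- primed own modulus -/
def Rp (z : ι → ℂ) (ζ : ℂ) (i : ι) : ℝ := H.R z i * |rf ζ (H.ka z i)|

/-- sign of a coupling -/
def sv (z : ι → ℂ) (ζ : ℂ) (v : ε) : ℝ := if 0 < rf ζ (H.ta z v) then 1 else -1

/-- primed modulus of a coupling -/
def rp (t : ℝ) (z : ι → ℂ) (ζ : ℂ) (v : ε) : ℝ := H.r t z v * |rf ζ (H.ta z v)|

/-- primed deletion -/
def Bp (z : ι → ℂ) (ζ : ℂ) (c : β) : ℝ := ζ.re * H.B z c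

variable {H} {T : Set ℝ} {e t : ℝ} {z : ι → ℂ} {ζ : ℂ}

theorem es_pm (i : ι) : H.es z ζ i = 1 ∨ H.es z ζ i = -1 := by
  unfold es; split_ifs
  · exact Or.inl rfl
  · exact Or.inr rfl

theorem sv_pm (v : ε) : H.sv z ζ v = 1 ∨ H.sv z ζ v = -1 := by
  unfold sv; split_ifs
  · exact Or.inl rfl
  · exact Or.inr rfl

theorem es_zero {i : ι} (hi : z i = 0) (hD : H.D i ≠ 0) : H.es z ζ i = -1 := by
  unfold es
  rw [if_neg]
  rintro ⟨h1, -⟩
  rw [R, hi, norm_zero, Real.zero_rpow hD] at h1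
  exact lt_irrefl _ h1

theorem sign_mul (x : ℝ) : (if 0 < x then (1 : ℝ) else -1) * |x| = x := by
  split_ifs with h
  · rw [abs_of_pos h, one_mul]
  · rw [abs_of_nonpos (not_lt.1 h)]; ring

theorem es_mul (i : ι) : H.es z ζ i * H.Rp z ζ i = H.R z i * rf ζ (H.ka z i) := by
  unfold es Rp
  rcases (R_nonneg (H := H) z i).eq_or_lt with h0 | h0
  · rw [← h0]; simp
  · by_cases h1 : 0 < rf ζ (H.ka z i)
    · rw [if_pos ⟨h0, h1⟩, abs_of_pos h1, one_mul]
    · rw [if_neg fun h => h1 h.2, abs_of_nonpos (not_lt.1 h1)]; ring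

theorem sv_mul (v : ε) : H.sv z ζ v * H.rp t z ζ v = H.r t z v * rf ζ (H.ta z v) := by
  unfold sv rp
  rw [mul_left_comm, sign_mul]

/-- **real radial equations** -/
theorem Out.real (o : H.Out e t z ζ) (i : ι) :
    H.es z ζ i * H.Rp z ζ i + ∑ v, H.sh v i / H.D i * (H.sv z ζ v * H.rp t z ζ v) =
      ∑ c, H.th c i / H.D i * H.Bp z ζ c := by
  have h1 := o.rad i
  rw [es_mul]
  simp only [sv_mul]
  rw [h1, Finset.mul_sum]
  exact Finset.sum_congr rfl fun c _ => by rw [Bp]; ring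

/-- all own directions are almost parallel to the conormal -/
theorem Out.jf_own (h : H.Ok T e) (o : H.Out e t z ζ) {i : ι} (hi : 0 < H.R z i) :
    |jf ζ (H.ka z i)| ≤ e := by
  by_cases hp : deriv (H.p i) (ag z i) = 0
  · rcases o.alt with h1 | h1
    · rcases h.st i (ag z i) with h2 | h2 | h2
      · exact absurd hp h2.1
      · exact absurd hp h2.1
      · have : H.ka z i = -1 := h2.2.2.1
        rw [this]
        simpa [jf] using h1
    · exact absurd (h1.2.1 i hp) hi.ne'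
  · exact o.own i hi hp

theorem Out.Rp_bd (h : H.Ok T e) (o : H.Out e t z ζ) (i : ι) :
    (1 - e) * H.R z i ≤ H.Rp z ζ i ∧ H.Rp z ζ i ≤ H.R z i := by
  rcases (R_nonneg (H := H) z i).eq_or_lt with h0 | h0
  · unfold Rp; rw [← h0]; simp
  · have h1 := rf_abs o.norm (norm_cis _) (o.jf_own h h0)
    unfold Rp
    constructor
    · rw [mul_comm]; exact mul_le_mul_of_nonneg_left h1.1 h0.le
    · have := mul_le_mul_of_nonneg_left h1.2 h0.le
      rwa [mul_one] at this

theorem Out.rp_bd (h : H.Ok T e) (ht : t ∈ Icc (0 : ℝ) 1) (o : H.Out e t z ζ) (v : ε) :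
    (1 - 2 * e) * H.r t z v ≤ H.rp t z ζ v ∧ H.rp t z ζ v ≤ H.r t z v := by
  rcases (h.r_nonneg ht z v).eq_or_lt with h0 | h0
  · unfold rp; rw [← h0]; simp
  · have h1 := rf_abs o.norm (norm_cis _) (o.cpl v h0)
    unfold rp
    constructor
    · rw [mul_comm]; exact mul_le_mul_of_nonneg_left h1.1 h0.le
    · have := mul_le_mul_of_nonneg_left h1.2 h0.le
      rwa [mul_one] at this


theorem Rp_nonneg (i : ι) : 0 ≤ H.Rp z ζ i := mul_nonneg (R_nonneg z i) (abs_nonneg _)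

theorem Ok.rp_nonneg (h : H.Ok T e) (ht : t ∈ Icc (0 : ℝ) 1) (v : ε) : 0 ≤ H.rp t z ζ v :=
  mul_nonneg (h.r_nonneg ht z v) (abs_nonneg _)

theorem Ok.Bp_nonneg (h : H.Ok T e) (hr : 0 ≤ ζ.re) (c : β) : 0 ≤ H.Bp z ζ c :=
  mul_nonneg hr (h.B_nonneg z c)

/-- `Rp` vanishes only with the variable -/
theorem Out.Rp_pos_iff (h : H.Ok T e) (he : e < 1) (o : H.Out e t z ζ) (i : ι) :
    0 < H.Rp z ζ i ↔ z i ≠ 0 := by
  rw [← h.R_pos_iff z i]
  constructor
  · intro h1; exact h1.trans_le (o.Rp_bd h i).2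
  · intro h1
    exact lt_of_lt_of_le (mul_pos (by linarith) h1) (o.Rp_bd h i).1

/-! ### the real case: positions -/

/-- own phases are close to multiples of `π`, with the right sign -/
theorem Out.pos_own (h : H.Ok T e) (he : 5 * e < 1) (o : H.Out e t z ζ) (hr : |ζ.im| ≤ e) {i : ι}
    (hi : 0 < H.R z i) :
    ∃ n : ℤ, |H.p i (ag z i) - Real.pi * n| ≤ 4 * e ∧ H.es z ζ i = eps n := by
  obtain ⟨n, hn⟩ := rnd o.norm hr (o.jf_own h hi)
  refine ⟨n, hn, ?_⟩
  have h1 := rf_near o.norm o.re hr hn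
  have h3 : rf ζ (cis (H.p i (ag z i))) = rf ζ (H.ka z i) := rfl
  rw [h3] at h1
  unfold es
  rcases eps_pm n with h2 | h2
  · rw [h2] at h1 ⊢
    rw [if_pos ⟨hi, by linarith [h1.1]⟩]
  · rw [h2] at h1 ⊢
    rw [if_neg fun h4 => by linarith [h1.1, h4.2]]

/-- reduced phases are close to multiples of `π` -/
theorem Out.pos (h : H.Ok T e) (o : H.Out e t z ζ) (hr : |ζ.im| ≤ e) {i : ι}
    (hi : 0 < H.R z i) : ∃ n : ℤ, |H.ph i (ag z i) - Real.pi * n| ≤ 4 * e := by
  refine rnd o.norm hr ?_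
  rcases h.st i (ag z i) with h2 | h2 | h2
  · rw [h2.2.2]; exact o.jf_own h hi
  · rw [h2.2.2]; simpa [jf] using hr
  · rw [h2.2.2.2]; simpa [jf] using hr

/-- a flat own term has the sign `-1` -/
theorem Out.es_flat (h : H.Ok T e) (o : H.Out e t z ζ) {i : ι}
    (hp : deriv (H.p i) (ag z i) = 0) : H.es z ζ i = -1 := by
  unfold es
  rw [if_neg]
  rintro ⟨-, h1⟩
  rcases h.st i (ag z i) with h2 | h2 | h2
  · exact absurd hp h2.1
  · exact absurd hp h2.1
  · have : H.ka z i = -1 := h2.2.2.1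
    rw [this] at h1
    have h3 : rf ζ (-1) = -ζ.re := by simp [rf]
    rw [h3] at h1
    linarith [o.re]

/-- an own term of sign `1` is in a lobe -/
theorem Out.es_one (h : H.Ok T e) (o : H.Out e t z ζ) {i : ι} (h1 : H.es z ζ i = 1) :
    deriv (H.p i) (ag z i) ≠ 0 := by
  intro hp
  rw [o.es_flat h hp] at h1
  norm_num at h1

/-- the sign of a coupling whose phase is close to `π m` -/
theorem Out.sv_eq (o : H.Out e t z ζ) (hr : |ζ.im| ≤ e) {v : ε} {m : ℤ} {e' : ℝ}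
    (hm : |H.Φ v (lft H.ph (ag z)) - Real.pi * m| ≤ e') (he : e + e' < 1) :
    H.sv z ζ v = eps m := by
  have h1 := rf_near o.norm o.re hr hm
  have h3 : rf ζ (cis (H.Φ v (lft H.ph (ag z)))) = rf ζ (H.ta z v) := rfl
  rw [h3] at h1
  unfold sv
  rcases eps_pm m with h2 | h2
  · rw [h2] at h1 ⊢
    rw [if_pos (by linarith [h1.1])]
  · rw [h2] at h1 ⊢
    rw [if_neg (by linarith [h1.1])]

/-! ### the non real case -/

/-- in the non real case a coupling has the sign of a variable in a hub lobe -/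
theorem Out.sv_im (h : H.Ok T e) (he : 3 * e < 1) (o : H.Out e t z ζ) (hr : e < |ζ.im|) {v : ε}
    (hv : 0 < H.r t z v) : ∃ i, H.act z i ∧ 0 < H.R z i ∧ H.sh v i ≠ 0 ∧
      H.sv z ζ v = H.es z ζ i := by
  rcases o.alt with h1 | h1
  · exact absurd h1 (not_le.2 hr)
  obtain ⟨i, hi, hR, hs, hc⟩ := h1.2.2.1 v hv
  refine ⟨i, hi, hR, hs, ?_⟩
  have h2 := rf_abs o.norm (norm_cis _) (o.jf_own h hR)
  have h3 := sgn_close o.norm hc (by
    show 2 * e < |rf ζ (H.ka z i)|
    have : |rf ζ (cis (H.p i (ag z i)))| = |rf ζ (H.ka z i)| := rfl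
    rw [this] at h2
    linarith [h2.1])
  unfold sv es
  by_cases h4 : 0 < rf ζ (H.ka z i)
  · rw [if_pos (h3.1.1 h4), if_pos ⟨hR, h4⟩]
  · rw [if_neg (fun h5 => h4 (h3.1.2 h5)), if_neg (fun h5 => h4 h5.2)]

/-- in the non real case all deletions vanish -/
theorem Out.Bp_im (o : H.Out e t z ζ) (hr : e < |ζ.im|) (c : β) : H.Bp z ζ c = 0 := by
  rcases o.alt with h1 | h1
  · exact absurd h1 (not_le.2 hr)
  · unfold Bp; rw [h1.2.2.2 c, mul_zero]

end Hub

end Crest.Agent.R267.HubEng_370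
end
end

-- ▼ part R267/HubBx_370

/-!
# Row 267 (helper370): the pointwise data `Out` of the literal hub `HX` in the letters of the pattern
lemmas (`PatF_568.Bx`, `PatFR_440.patFR`, `PatGR_222.patG2`)

* `ww01`: windows are `0` or `1` in the lobes; `bx`: the structure `Bx`;
* `eq_f`, `eq_g`: the four radial equations with the numerical shares;
* `mag_f`, `mag_g`: relations between the magnitudes; `rel_f`, `rel_g1`, `rel_g2`.
-/

set_option autoImplicit false

noncomputable section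

open Finset Set
open Crest.Agent.R267.T3aNDefs_88 Crest.Agent.R267.Ang_739 Crest.Agent.R267.StairFn_739
open Crest.Agent.R267.GlNDefs_9 Crest.Agent.R267.HubDefs_284 Crest.Agent.R267.HubEng_370
open Crest.Agent.R267.WordPh_9 Crest.Agent.R267.WordPh2_9 Crest.Agent.R267.HubInst_370
open Crest.Agent.R267.PolF_943 Crest.Agent.R267.LemL_951 Crest.Agent.R267.RndP_222

namespace Crest.Agent.R267.HubBx_370

variable {b : Bool} {D : SD 4} {A B : ℝ → ℝ → ℝ} {t : ℝ} {z : Fin 4 → ℂ} {ζ : ℂ}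

/-- the literal hub function -/
abbrev HH (b : Bool) (D : SD 4) (A B : ℝ → ℝ → ℝ) : Hub (Fin 4) (Fin 2) (Fin D.nb) :=
  HX b D (Hs dd_pos) A B

theorem edd : 15 * dd = 3 / 2000 := by unfold dd; norm_num

/-! ### windows -/

/-- in a lobe a window is `0` or `1` -/
theorem wn01 {M : ℕ} {α β : ℕ → ℝ} (h : Arcs M α β) {e : ℕ → ℝ} {lo hi : ℕ}
    (hlo : lo ≤ hi) (hhi : hi ≤ M) {x : ℝ} (hx : deriv (wph e M α β) x ≠ 0) :
    wn α β lo hi x = 0 ∨ wn α β lo hi x = 1 := by
  obtain ⟨k, y, hy1, hy2, rfl⟩ := exists_dom (α 0) x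
  obtain ⟨i, hi', h1, h2⟩ := exists_piece h hy1 hy2
  rw [deriv_wph_add_int] at hx
  rw [wn_add_int]
  rcases lt_or_ge y (β i) with h4 | h4
  · rw [wn_lobe h hlo hhi hi' h1 h4.le]
    split_ifs
    · exact Or.inr rfl
    · exact Or.inl rfl
  · exact absurd (deriv_wph_gap h hi' h4 h2.le) hx

theorem ww01 (F : Facts b D) (c : Fin D.nb) {j : Fin 4} (hj : j ∈ (D.bx c).S) {x : ℝ}
    (hx : deriv (pp D j) x ≠ 0) : ww D c j x = 0 ∨ ww D c j x = 1 :=
  wn01 (arcsE (D.M j)) (F.lohi c j hj) (D.hhi c j hj) hx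

theorem La_eq (c : Fin D.nb) (θ : Fin 4 → ℝ) :
    (HH b D A B).La c θ = ∏ j ∈ (D.bx c).S, ww D c j (θ j) := by
  show ∏ j, (if j ∈ (D.bx c).S then ww D c j else fun _ => 1) (θ j) = _
  rw [← Finset.prod_subset (Finset.subset_univ (D.bx c).S)]
  · exact Finset.prod_congr rfl fun j hj => by rw [if_pos hj]
  · intro j _ hj
    rw [if_neg hj]

/-! ### boxes -/

theorem th_eq (c : Fin D.nb) (i : Fin 4) :
    (HH b D A B).th c i = if i ∈ (D.bx c).S then D3 b i / cd D c else 0 := rfl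

/-- shares of the boxes -/
def sb (D : SD 4) (c : Fin D.nb) (i : Fin 4) : ℝ := if i ∈ (D.bx c).S then 1 / cd D c else 0

theorem th_div (F : Facts b D) (c : Fin D.nb) (i : Fin 4) :
    (HH b D A B).th c i / (HH b D A B).D i = sb D c i := by
  rw [th_eq]
  show (if i ∈ (D.bx c).S then D3 b i / cd D c else 0) / D3 b i = _
  have h1 : D3 b i ≠ 0 := by have := D3_pos b i; intro h; rw [h] at this; linarith
  have h2 := cd_pos F c
  unfold sb
  split_ifs
  · field_simp
  · simp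

/-- the magnitude of a box, to the power `|S|` -/
theorem mag_box (F : Facts b D) (c : Fin D.nb) (z : Fin 4 → ℂ) :
    mag ((HH b D A B).th c) z ^ (D.bx c).S.card = ∏ i ∈ (D.bx c).S, (HH b D A B).R z i := by
  have h2 := cd_pos F c
  have e1 : mag ((HH b D A B).th c) z = ∏ i ∈ (D.bx c).S, ‖z i‖ ^ (D3 b i / cd D c) := by
    unfold mag
    rw [← Finset.prod_subset (Finset.subset_univ (D.bx c).S)]
    · exact Finset.prod_congr rfl fun j hj => by rw [th_eq, if_pos hj]
    · intro j _ hj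
      rw [th_eq, if_neg hj, Real.rpow_zero]
  rw [e1, ← Finset.prod_pow]
  refine Finset.prod_congr rfl fun i _ => ?_
  show (‖z i‖ ^ (D3 b i / cd D c)) ^ (D.bx c).S.card = ‖z i‖ ^ D3 b i
  rw [← Real.rpow_natCast, ← Real.rpow_mul (norm_nonneg _)]
  congr 1
  show D3 b i / cd D c * cd D c = D3 b i
  field_simp

theorem cc_big (F : Facts b D) (c : Fin D.nb) : cd D c < (1 - 15 * dd) * cc D c := by
  rw [edd]
  unfold cc
  rcases F.card c with h | h
  · rw [if_pos h]
    show (((D.bx c).S.card : ℕ) : ℝ) < _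
    rw [h]; norm_num
  · rw [if_neg (by omega)]
    show (((D.bx c).S.card : ℕ) : ℝ) < _
    rw [h]; norm_num

theorem B_eq (c : Fin D.nb) : (HH b D A B).B z c =
    cc D c * (HH b D A B).La c (ag z) * mag ((HH b D A B).th c) z := rfl

/-- a box of window `1` over nonzero variables is positive; hence the conormal is almost real -/
theorem B_pos {c : Fin D.nb} (hl : (HH b D A B).La c (ag z) = 1)
    (hz : ∀ i ∈ (D.bx c).S, z i ≠ 0) : 0 < (HH b D A B).B z c := by
  rw [B_eq, hl]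
  have h1 : 0 < cc D c := by unfold cc; split_ifs <;> norm_num
  have h2 : 0 < mag ((HH b D A B).th c) z := by
    refine mag_pos fun i hi => hz i ?_
    by_contra hne
    exact hi (by rw [th_eq, if_neg hne])
  positivity

theorem B_zero (F : Facts b D) {c : Fin D.nb} {i : Fin 4} (hi : i ∈ (D.bx c).S)
    (hz : z i = 0) : (HH b D A B).B z c = 0 := by
  rw [B_eq]
  have h2 := cd_pos F c
  have h3 := D3_pos b i
  rw [mag_eq_zero (i := i) (by
    rw [th_eq, if_pos hi]
    exact (div_pos (by linarith) h2).ne') hz, mul_zero]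

/-- **the structure `Bx` of the pattern lemmas** -/
theorem bx (F : Facts b D) (hs : Sched b D A B) (o : (HH b D A B).Out (15 * dd) t z ζ) :
    PatF_568.Bx ((HH b D A B).Rp z ζ) ((HH b D A B).es z ζ) (fun c => (D.bx c).S) (sb D)
      (fun c => (HH b D A B).La c (ag z)) ((HH b D A B).Bp z ζ) := by
  have h : (HH b D A B).Ok univ (15 * dd) := ok dd_pos F hs
  have he : 15 * dd < 1 := by rw [edd]; norm_num
  have hRz : ∀ i, (HH b D A B).Rp z ζ i = 0 → z i = 0 := by
    intro i hi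
    by_contra hne
    exact ((Hub.Out.Rp_pos_iff h he o i).2 hne).ne' hi
  -- real case if a box is alive
  have hreal : ∀ c, 0 < (HH b D A B).B z c → 1 - 15 * dd ≤ ζ.re := by
    intro c hc
    rcases o.alt with h1 | h1
    · exact (re_bd o.norm o.re h1).1
    · exact absurd (h1.2.2.2 c) hc.ne'
  refine ⟨fun i => Hub.Rp_nonneg i, fun i => Hub.es_pm i, fun c i => ?_, fun c i hi => ?_,
    fun c => h.Bp_nonneg o.re c, fun c hc => ?_, fun c hc => ?_, fun c hl hR => ?_,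
    fun c i hi hR => ?_, fun c hl hR => ?_⟩
  · unfold sb
    have := cd_pos F c
    split_ifs
    · positivity
    · exact le_rfl
  · unfold sb; rw [if_neg hi]
  · -- windows
    rw [La_eq]
    have h1 : ∀ i ∈ (D.bx c).S, ww D c i (ag z i) = 0 ∨ ww D c i (ag z i) = 1 := fun i hi =>
      ww01 F c hi (Hub.Out.es_one h o (hc i hi))
    by_cases h2 : ∃ i ∈ (D.bx c).S, ww D c i (ag z i) = 0
    · obtain ⟨i, hi, h3⟩ := h2
      exact Or.inl (Finset.prod_eq_zero hi h3)
    · push Not at h2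
      exact Or.inr (Finset.prod_eq_one fun i hi => (h1 i hi).resolve_left (h2 i hi))
  · show ζ.re * (HH b D A B).B z c = 0
    rw [B_eq, show (HH b D A B).La c (ag z) = 0 from hc]
    ring
  · -- AM-GM
    rcases (h.B_nonneg z c).eq_or_lt with h0 | h0
    · show ζ.re * (HH b D A B).B z c = 0
      rw [← h0, mul_zero]
    exfalso
    have hre := hreal c h0
    have hl' : (HH b D A B).La c (ag z) = 1 := hl
    set m := mag ((HH b D A B).th c) z with hm
    have hm0 : 0 ≤ m := mag_nonneg _ _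
    have hBp : (1 - 15 * dd) * cc D c * m ≤ (HH b D A B).Bp z ζ c := by
      show _ ≤ ζ.re * (HH b D A B).B z c
      rw [B_eq, hl', mul_one, mul_assoc]
      have h1 : 0 ≤ cc D c * m := by
        have : 0 ≤ cc D c := by unfold cc; split_ifs <;> norm_num
        positivity
      exact mul_le_mul_of_nonneg_right hre h1
    have hcd := cd_pos F c
    have hcard : (D.bx c).S.card ≠ 0 := by rcases F.card c with h1 | h1 <;> omega
    have hle : (HH b D A B).Bp z ζ c / cd D c ≤ m := by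
      refine le_of_pow_le_pow_left₀ hcard hm0 ?_
      rw [hm, mag_box F c z, ← Finset.prod_const]
      refine Finset.prod_le_prod (fun i _ => div_nonneg (h.Bp_nonneg o.re c) hcd.le)
        fun i hi => ?_
      have h1 := hR i hi
      unfold sb at h1
      rw [if_pos hi] at h1
      have h2 : (HH b D A B).Bp z ζ c / cd D c = 1 / cd D c * (HH b D A B).Bp z ζ c := by ring
      rw [h2]
      exact h1.trans (Hub.Out.Rp_bd h o i).2
    have hmp : 0 < m := by
      rcases hm0.eq_or_lt with h1 | h1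
      · exfalso
        rw [B_eq, ← hm, ← h1, mul_zero] at h0
        exact lt_irrefl _ h0
      · exact h1
    rw [div_le_iff₀ hcd] at hle
    have h3 := cc_big F c
    have h4 : cd D c * m < (1 - 15 * dd) * cc D c * m := mul_lt_mul_of_pos_right h3 hmp
    linarith
  · show ζ.re * (HH b D A B).B z c = 0
    rw [B_zero F hi (hRz i hR), mul_zero]
  · have h1 : 0 < (HH b D A B).B z c := B_pos hl fun i hi =>
      (Hub.Out.Rp_pos_iff h he o i).1 (hR i hi)
    have h2 := hreal c h1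
    show 0 < ζ.re * (HH b D A B).B z c
    have h3 : 0 < ζ.re := by linarith
    positivity

/-! ### the radial equations -/

theorem box_sum (F : Facts b D) (i : Fin 4) :
    ∑ c, (HH b D A B).th c i / (HH b D A B).D i * (HH b D A B).Bp z ζ c =
      ∑ c, sb D c i * (HH b D A B).Bp z ζ c :=
  Finset.sum_congr rfl fun c _ => by rw [th_div F]

theorem sh_eq (k : Fin 2) (i : Fin 4) :
    (HH b D A B).sh k i / (HH b D A B).D i = 3 * (vc b k i : ℝ) / D3 b i := rfl

theorem rad_gen (F : Facts b D) (o : (HH b D A B).Out (15 * dd) t z ζ) (i : Fin 4) :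
    (HH b D A B).es z ζ i * (HH b D A B).Rp z ζ i +
      (3 * (vc b 0 i : ℝ) / D3 b i * ((HH b D A B).sv z ζ 0 * (HH b D A B).rp t z ζ 0) +
       3 * (vc b 1 i : ℝ) / D3 b i * ((HH b D A B).sv z ζ 1 * (HH b D A B).rp t z ζ 1)) =
      ∑ c, sb D c i * (HH b D A B).Bp z ζ c := by
  have h1 := o.real i
  rw [box_sum F, Fin.sum_univ_two, sh_eq, sh_eq] at h1
  exact h1

/-- **the equations of `f`** -/
theorem eq_f (F : Facts true D) (o : (HH true D A B).Out (15 * dd) t z ζ) :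
    ((HH true D A B).es z ζ 0 * (HH true D A B).Rp z ζ 0 +
      4 / 5 * ((HH true D A B).sv z ζ 0 * (HH true D A B).rp t z ζ 0) =
        ∑ c, sb D c 0 * (HH true D A B).Bp z ζ c) ∧
    ((HH true D A B).es z ζ 1 * (HH true D A B).Rp z ζ 1 +
      1 / 10 * ((HH true D A B).sv z ζ 0 * (HH true D A B).rp t z ζ 0 +
        5 * ((HH true D A B).sv z ζ 1 * (HH true D A B).rp t z ζ 1)) =
        ∑ c, sb D c 1 * (HH true D A B).Bp z ζ c) ∧
    ((HH true D A B).es z ζ 2 * (HH true D A B).Rp z ζ 2 +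
      1 / 10 * ((HH true D A B).sv z ζ 0 * (HH true D A B).rp t z ζ 0 +
        5 * ((HH true D A B).sv z ζ 1 * (HH true D A B).rp t z ζ 1)) =
        ∑ c, sb D c 2 * (HH true D A B).Bp z ζ c) ∧
    ((HH true D A B).es z ζ 3 * (HH true D A B).Rp z ζ 3 =
        ∑ c, sb D c 3 * (HH true D A B).Bp z ζ c) := by
  have d0 : D3 true 0 = 15 / 2 := by norm_num [D3, DS]
  have d1 : D3 true 1 = 30 := by norm_num [D3, DS]
  have d2 : D3 true 2 = 30 := by simp [D3, DS]; norm_num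
  have a0 : (vc true 0 0 : ℝ) = 2 := by norm_num [vc]
  have a1 : (vc true 0 1 : ℝ) = 1 := by norm_num [vc]
  have a2 : (vc true 0 2 : ℝ) = 1 := by simp [vc]
  have a3 : (vc true 0 3 : ℝ) = 0 := by simp [vc]
  have b0 : (vc true 1 0 : ℝ) = 0 := by norm_num [vc]
  have b1 : (vc true 1 1 : ℝ) = 5 := by norm_num [vc]
  have b2 : (vc true 1 2 : ℝ) = 5 := by simp [vc]
  have b3 : (vc true 1 3 : ℝ) = 0 := by simp [vc]
  refine ⟨?_, ?_, ?_, ?_⟩
  · rw [← rad_gen F o 0, d0, a0, b0]; ring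
  · rw [← rad_gen F o 1, d1, a1, b1]; ring
  · rw [← rad_gen F o 2, d2, a2, b2]; ring
  · rw [← rad_gen F o 3, a3, b3]; ring

/-- **the equations of `g`** -/
theorem eq_g (F : Facts false D) (o : (HH false D A B).Out (15 * dd) t z ζ) :
    ((HH false D A B).es z ζ 0 * (HH false D A B).Rp z ζ 0 +
      (3 * ((HH false D A B).sv z ζ 0 * (HH false D A B).rp t z ζ 0) +
        (HH false D A B).sv z ζ 1 * (HH false D A B).rp t z ζ 1) / 5 =
        ∑ c, sb D c 0 * (HH false D A B).Bp z ζ c) ∧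
    ((HH false D A B).es z ζ 1 * (HH false D A B).Rp z ζ 1 +
      ((HH false D A B).sv z ζ 0 * (HH false D A B).rp t z ζ 0 +
        2 * ((HH false D A B).sv z ζ 1 * (HH false D A B).rp t z ζ 1)) / 5 =
        ∑ c, sb D c 1 * (HH false D A B).Bp z ζ c) ∧
    ((HH false D A B).es z ζ 2 * (HH false D A B).Rp z ζ 2 +
      ((HH false D A B).sv z ζ 0 * (HH false D A B).rp t z ζ 0 +
        2 * ((HH false D A B).sv z ζ 1 * (HH false D A B).rp t z ζ 1)) / 5 =
        ∑ c, sb D c 2 * (HH false D A B).Bp z ζ c) ∧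
    ((HH false D A B).es z ζ 3 * (HH false D A B).Rp z ζ 3 =
        ∑ c, sb D c 3 * (HH false D A B).Bp z ζ c) := by
  have d0 : D3 false 0 = 15 := by norm_num [D3, DS]
  have d1 : D3 false 1 = 15 := by norm_num [D3, DS]
  have d2 : D3 false 2 = 15 := by simp [D3, DS]; norm_num
  have a0 : (vc false 0 0 : ℝ) = 3 := by norm_num [vc]
  have a1 : (vc false 0 1 : ℝ) = 1 := by norm_num [vc]
  have a2 : (vc false 0 2 : ℝ) = 1 := by simp [vc]
  have a3 : (vc false 0 3 : ℝ) = 0 := by simp [vc]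
  have b0 : (vc false 1 0 : ℝ) = 1 := by norm_num [vc]
  have b1 : (vc false 1 1 : ℝ) = 2 := by norm_num [vc]
  have b2 : (vc false 1 2 : ℝ) = 2 := by simp [vc]
  have b3 : (vc false 1 3 : ℝ) = 0 := by simp [vc]
  refine ⟨?_, ?_, ?_, ?_⟩
  · rw [← rad_gen F o 0, d0, a0, b0]; ring
  · rw [← rad_gen F o 1, d1, a1, b1]; ring
  · rw [← rad_gen F o 2, d2, a2, b2]; ring
  · rw [← rad_gen F o 3, a3, b3]; ring

/-! ### the magnitudes -/

/-- magnitude of a coupling -/
theorem mag_sh (k : Fin 2) (z : Fin 4 → ℂ) :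
    mag ((HH b D A B).sh k) z = ∏ i, ‖z i‖ ^ (3 * vc b k i) := by
  unfold mag
  refine Finset.prod_congr rfl fun i _ => ?_
  show ‖z i‖ ^ (3 * (vc b k i : ℝ)) = _
  rw [← Real.rpow_natCast]
  congr 1
  push_cast
  ring

theorem r_eq (k : Fin 2) : (HH b D A B).r t z k =
    (if k = 0 then A t (ag z 0) else B t (ag z 0)) * mag ((HH b D A B).sh k) z := rfl

/-- `f`: `α⁵ = R₀⁴ β`, `β² = R₁ R₂` for the magnitudes of the monomials -/
theorem mag_f (z : Fin 4 → ℂ) :
    mag ((HH true D A B).sh 0) z ^ 5 =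
      (HH true D A B).R z 0 ^ 4 * mag ((HH true D A B).sh 1) z ∧
    mag ((HH true D A B).sh 1) z ^ 2 = (HH true D A B).R z 1 * (HH true D A B).R z 2 := by
  have d0 : D3 true 0 = 15 / 2 := by norm_num [D3, DS]
  have d1 : D3 true 1 = 30 := by norm_num [D3, DS]
  have d2 : D3 true 2 = 30 := by simp [D3, DS]; norm_num
  have e0 : (HH true D A B).R z 0 ^ 4 = ‖z 0‖ ^ 30 := by
    show (‖z 0‖ ^ D3 true 0) ^ 4 = _
    rw [d0, ← Real.rpow_natCast, ← Real.rpow_mul (norm_nonneg _), ← Real.rpow_natCast]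
    norm_num
  have e1 : (HH true D A B).R z 1 = ‖z 1‖ ^ 30 := by
    show ‖z 1‖ ^ D3 true 1 = _
    rw [d1, ← Real.rpow_natCast]; norm_num
  have e2 : (HH true D A B).R z 2 = ‖z 2‖ ^ 30 := by
    show ‖z 2‖ ^ D3 true 2 = _
    rw [d2, ← Real.rpow_natCast]; norm_num
  have ma : mag ((HH true D A B).sh 0) z = ‖z 0‖ ^ 6 * ‖z 1‖ ^ 3 * ‖z 2‖ ^ 3 := by
    rw [mag_sh, Fin.prod_univ_four]
    simp [vc]
  have mb : mag ((HH true D A B).sh 1) z = ‖z 1‖ ^ 15 * ‖z 2‖ ^ 15 := by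
    rw [mag_sh, Fin.prod_univ_four]
    simp [vc]
  rw [e0, e1, e2, ma, mb]
  constructor <;> ring

/-- `g`: `β R₀ = α²`, `α R₁ R₂ = β³` for the magnitudes of the monomials -/
theorem mag_g (z : Fin 4 → ℂ) :
    mag ((HH false D A B).sh 1) z * (HH false D A B).R z 0 =
      mag ((HH false D A B).sh 0) z ^ 2 ∧
    mag ((HH false D A B).sh 0) z * ((HH false D A B).R z 1 * (HH false D A B).R z 2) =
      mag ((HH false D A B).sh 1) z ^ 3 := by
  have d0 : D3 false 0 = 15 := by norm_num [D3, DS]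
  have d1 : D3 false 1 = 15 := by norm_num [D3, DS]
  have d2 : D3 false 2 = 15 := by simp [D3, DS]; norm_num
  have e0 : (HH false D A B).R z 0 = ‖z 0‖ ^ 15 := by
    show ‖z 0‖ ^ D3 false 0 = _
    rw [d0, ← Real.rpow_natCast]; norm_num
  have e1 : (HH false D A B).R z 1 = ‖z 1‖ ^ 15 := by
    show ‖z 1‖ ^ D3 false 1 = _
    rw [d1, ← Real.rpow_natCast]; norm_num
  have e2 : (HH false D A B).R z 2 = ‖z 2‖ ^ 15 := by
    show ‖z 2‖ ^ D3 false 2 = _
    rw [d2, ← Real.rpow_natCast]; norm_num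
  have ma : mag ((HH false D A B).sh 0) z = ‖z 0‖ ^ 9 * ‖z 1‖ ^ 3 * ‖z 2‖ ^ 3 := by
    rw [mag_sh, Fin.prod_univ_four]
    simp [vc]
  have mb : mag ((HH false D A B).sh 1) z = ‖z 0‖ ^ 3 * ‖z 1‖ ^ 6 * ‖z 2‖ ^ 6 := by
    rw [mag_sh, Fin.prod_univ_four]
    simp [vc]
  rw [e0, e1, e2, ma, mb]
  constructor <;> ring

/-- `f`: exact relation of the true magnitudes (input of `PatFR_440.key_of`) -/
theorem rel_f : B t (ag z 0) * (HH true D A B).r t z 0 ^ 5 =
    A t (ag z 0) ^ 5 * ((HH true D A B).R z 0 ^ 4 * (HH true D A B).r t z 1) := by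
  have h1 := (mag_f (D := D) (A := A) (B := B) z).1
  rw [r_eq, r_eq, if_pos rfl, if_neg (by decide), mul_pow, h1]
  ring

/-- `g`: first one-sided relation of the primed magnitudes (`k = 51/50`) -/
theorem rel_g1 (F : Facts false D) (hs : Sched false D A B) (ht : t ∈ Icc (0 : ℝ) 1)
    (o : (HH false D A B).Out (15 * dd) t z ζ) :
    (HH false D A B).rp t z ζ 1 * (HH false D A B).Rp z ζ 0 * A t (ag z 0) ^ 2 ≤
      51 / 50 * B t (ag z 0) * (HH false D A B).rp t z ζ 0 ^ 2 := by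
  have h : (HH false D A B).Ok univ (15 * dd) := ok dd_pos F hs
  have hA := hs.A0 t ht (ag z 0)
  have hB := hs.B0 t ht (ag z 0)
  have r1 := (Hub.Out.rp_bd h ht o 1).2
  have r0 := (Hub.Out.rp_bd h ht o 0).1
  have R0 := (Hub.Out.Rp_bd h o 0).2
  have p1 : 0 ≤ (HH false D A B).rp t z ζ 1 := h.rp_nonneg ht 1
  have p0 : 0 ≤ (HH false D A B).rp t z ζ 0 := h.rp_nonneg ht 0
  have q0 : 0 ≤ (HH false D A B).r t z 0 := h.r_nonneg ht z 0
  have q1 : 0 ≤ (HH false D A B).r t z 1 := h.r_nonneg ht z 1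
  have s0 : 0 ≤ (HH false D A B).Rp z ζ 0 := Hub.Rp_nonneg 0
  have S0 : 0 ≤ (HH false D A B).R z 0 := Hub.R_nonneg z 0
  have hid : (HH false D A B).r t z 1 * (HH false D A B).R z 0 * A t (ag z 0) ^ 2 =
      B t (ag z 0) * (HH false D A B).r t z 0 ^ 2 := by
    have h1 := (mag_g (D := D) (A := A) (B := B) z).1
    rw [r_eq, r_eq, if_pos rfl, if_neg (by decide), mul_pow, ← h1]
    ring
  have e1 : (HH false D A B).rp t z ζ 1 * (HH false D A B).Rp z ζ 0 * A t (ag z 0) ^ 2 ≤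
      (HH false D A B).r t z 1 * (HH false D A B).R z 0 * A t (ag z 0) ^ 2 := by
    gcongr
  have e2 : (1 - 2 * (15 * dd)) ^ 2 * (HH false D A B).r t z 0 ^ 2 ≤
      (HH false D A B).rp t z ζ 0 ^ 2 := by
    rw [← mul_pow]
    refine pow_le_pow_left₀ (mul_nonneg ?_ q0) r0 2
    rw [edd]; norm_num
  have e3 : (HH false D A B).r t z 0 ^ 2 ≤ 51 / 50 * (HH false D A B).rp t z ζ 0 ^ 2 := by
    have : (50 / 51 : ℝ) ≤ (1 - 2 * (15 * dd)) ^ 2 := by rw [edd]; norm_num
    nlinarith [sq_nonneg ((HH false D A B).r t z 0)]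
  calc _ ≤ _ := e1
    _ = B t (ag z 0) * (HH false D A B).r t z 0 ^ 2 := hid
    _ ≤ B t (ag z 0) * (51 / 50 * (HH false D A B).rp t z ζ 0 ^ 2) := by gcongr
    _ = _ := by ring

/-- `g`: second one-sided relation of the primed magnitudes (`k = 51/50`) -/
theorem rel_g2 (F : Facts false D) (hs : Sched false D A B) (ht : t ∈ Icc (0 : ℝ) 1)
    (o : (HH false D A B).Out (15 * dd) t z ζ) :
    (HH false D A B).rp t z ζ 0 * ((HH false D A B).Rp z ζ 1 * (HH false D A B).Rp z ζ 2) *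
      B t (ag z 0) ^ 3 ≤ 51 / 50 * A t (ag z 0) * (HH false D A B).rp t z ζ 1 ^ 3 := by
  have h : (HH false D A B).Ok univ (15 * dd) := ok dd_pos F hs
  have hA := hs.A0 t ht (ag z 0)
  have hB := hs.B0 t ht (ag z 0)
  have r1 := (Hub.Out.rp_bd h ht o 1).1
  have r0 := (Hub.Out.rp_bd h ht o 0).2
  have R1 := (Hub.Out.Rp_bd h o 1).2
  have R2 := (Hub.Out.Rp_bd h o 2).2
  have p1 : 0 ≤ (HH false D A B).rp t z ζ 1 := h.rp_nonneg ht 1
  have p0 : 0 ≤ (HH false D A B).rp t z ζ 0 := h.rp_nonneg ht 0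
  have q0 : 0 ≤ (HH false D A B).r t z 0 := h.r_nonneg ht z 0
  have q1 : 0 ≤ (HH false D A B).r t z 1 := h.r_nonneg ht z 1
  have s1 : 0 ≤ (HH false D A B).Rp z ζ 1 := Hub.Rp_nonneg 1
  have s2 : 0 ≤ (HH false D A B).Rp z ζ 2 := Hub.Rp_nonneg 2
  have S1 : 0 ≤ (HH false D A B).R z 1 := Hub.R_nonneg z 1
  have S2 : 0 ≤ (HH false D A B).R z 2 := Hub.R_nonneg z 2
  have hid : (HH false D A B).r t z 0 * ((HH false D A B).R z 1 * (HH false D A B).R z 2) *
      B t (ag z 0) ^ 3 = A t (ag z 0) * (HH false D A B).r t z 1 ^ 3 := by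
    have h1 := (mag_g (D := D) (A := A) (B := B) z).2
    rw [r_eq, r_eq, if_pos rfl, if_neg (by decide), mul_pow, ← h1]
    ring
  have e1 : (HH false D A B).rp t z ζ 0 *
      ((HH false D A B).Rp z ζ 1 * (HH false D A B).Rp z ζ 2) * B t (ag z 0) ^ 3 ≤
      (HH false D A B).r t z 0 * ((HH false D A B).R z 1 * (HH false D A B).R z 2) *
      B t (ag z 0) ^ 3 := by
    gcongr
  have e2 : (1 - 2 * (15 * dd)) ^ 3 * (HH false D A B).r t z 1 ^ 3 ≤
      (HH false D A B).rp t z ζ 1 ^ 3 := by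
    rw [← mul_pow]
    refine pow_le_pow_left₀ (mul_nonneg ?_ q1) r1 3
    rw [edd]; norm_num
  have e3 : (HH false D A B).r t z 1 ^ 3 ≤ 51 / 50 * (HH false D A B).rp t z ζ 1 ^ 3 := by
    have : (50 / 51 : ℝ) ≤ (1 - 2 * (15 * dd)) ^ 3 := by rw [edd]; norm_num
    nlinarith [pow_nonneg q1 3]
  calc _ ≤ _ := e1
    _ = A t (ag z 0) * (HH false D A B).r t z 1 ^ 3 := hid
    _ ≤ A t (ag z 0) * (51 / 50 * (HH false D A B).rp t z ζ 1 ^ 3) := by gcongr
    _ = _ := by ring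

/-- positive couplings have nonzero variables -/
theorem r_pos_var {k : Fin 2} (hr : 0 < (HH b D A B).r t z k) {i : Fin 4} (hi : vc b k i ≠ 0) :
    z i ≠ 0 :=
  Hub.r_pos_var hr (i := i) (by
    show 3 * (vc b k i : ℝ) ≠ 0
    have : (vc b k i : ℝ) ≠ 0 := by exact_mod_cast hi
    positivity)

end Crest.Agent.R267.HubBx_370
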