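import Mathlib

/-!
# Row 267, planar arms: radial cut-offs

On the slice `|v| = 1`, `w = u e^{iω}`, a function `F (θ, u, ω)` which is close to `P θ` (own term of
`v`) for small `u` and close to `u^15 e^{i Q (θ, ω)}` (own term of `w`) for large `u` is replaced by
`cut a b F P Q`, which is `P θ` for `u ≤ a/2`, `F` for `a ≤ u ≤ b` and `u^15 e^{15 i ω}` for `2b ≤ u`.
The cut function has no new zeros.
-/

set_option autoImplicit false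

noncomputable section

namespace Crest.Agent.R267.NCut_88

open Set Real

/-- `0` for `u ≤ a/2`, `1` for `u ≥ a`. -/
def lo (a u : ℝ) : ℝ := smoothTransition (2 * u / a - 1)

/-- `0` for `u ≤ b`, `1` for `u ≥ 2b`. -/
def hi (b u : ℝ) : ℝ := smoothTransition (u / b - 1)

theorem lo_of_le {a u : ℝ} (ha : 0 < a) (h : u ≤ a / 2) : lo a u = 0 := by
  unfold lo
  refine smoothTransition.zero_of_nonpos ?_
  rw [sub_nonpos, div_le_one ha]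
  linarith

theorem lo_of_ge {a u : ℝ} (ha : 0 < a) (h : a ≤ u) : lo a u = 1 := by
  unfold lo
  refine smoothTransition.one_of_one_le ?_
  have : (2 : ℝ) ≤ 2 * u / a := by rw [le_div_iff₀ ha]; linarith
  linarith

theorem lo_nonneg (a u : ℝ) : 0 ≤ lo a u := smoothTransition.nonneg _

theorem lo_le_one (a u : ℝ) : lo a u ≤ 1 := smoothTransition.le_one _

theorem hi_of_le {b u : ℝ} (hb : 0 < b) (h : u ≤ b) : hi b u = 0 := by
  unfold hi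
  refine smoothTransition.zero_of_nonpos ?_
  rw [sub_nonpos, div_le_one hb]
  exact h

theorem hi_of_ge {b u : ℝ} (hb : 0 < b) (h : 2 * b ≤ u) : hi b u = 1 := by
  unfold hi
  refine smoothTransition.one_of_one_le ?_
  have : (2 : ℝ) ≤ u / b := by rw [le_div_iff₀ hb]; linarith
  linarith

theorem hi_nonneg (b u : ℝ) : 0 ≤ hi b u := smoothTransition.nonneg _

theorem hi_le_one (b u : ℝ) : hi b u ≤ 1 := smoothTransition.le_one _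

theorem contDiff_lo (a : ℝ) : ContDiff ℝ 2 (lo a) := by
  unfold lo
  exact smoothTransition.contDiff.comp
    (((contDiff_const.mul contDiff_id).div_const a).sub contDiff_const)

theorem contDiff_hi (b : ℝ) : ContDiff ℝ 2 (hi b) := by
  unfold hi
  exact smoothTransition.contDiff.comp ((contDiff_id.div_const b).sub contDiff_const)

/-- `e^{i x}`. -/
def cis (x : ℝ) : ℂ := Complex.exp (x * Complex.I)

theorem norm_cis (x : ℝ) : ‖cis x‖ = 1 := Complex.norm_exp_ofReal_mul_I x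

theorem cis_add_two_pi_mul (x : ℝ) (n : ℤ) : cis (x + n * (2 * π)) = cis x := by
  unfold cis
  have e : ((x + n * (2 * π) : ℝ) : ℂ) * Complex.I =
      (x : ℂ) * Complex.I + (n : ℂ) * (2 * (π : ℂ) * Complex.I) := by
    push_cast
    ring
  rw [e, Complex.exp_add, Complex.exp_int_mul_two_pi_mul_I, mul_one]

theorem contDiff_cis : ContDiff ℝ 2 cis := by
  unfold cis
  exact (Complex.contDiff_exp (𝕜 := ℝ)).comp (Complex.ofRealCLM.contDiff.mul contDiff_const)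

/-- the interpolated phase of `w`. -/
def Qu (b : ℝ) (Q : ℝ → ℝ → ℝ) (q : ℝ × ℝ × ℝ) : ℝ :=
  (1 - hi b q.2.1) * Q q.1 q.2.2 + hi b q.2.1 * (15 * q.2.2)

/-- **the cut function.** -/
def cut (a b : ℝ) (F : ℝ × ℝ × ℝ → ℂ) (P : ℝ → ℂ) (Q : ℝ → ℝ → ℝ) (q : ℝ × ℝ × ℝ) : ℂ :=
  ((1 - lo a q.2.1 : ℝ) : ℂ) * P q.1 +
    ((1 - hi b q.2.1 : ℝ) : ℂ) * (((lo a q.2.1 : ℝ) : ℂ) * F q -
      ((q.2.1 ^ 15 : ℝ) : ℂ) * cis (Q q.1 q.2.2)) +
    ((q.2.1 ^ 15 : ℝ) : ℂ) * cis (Qu b Q q)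

variable {a b : ℝ} {F : ℝ × ℝ × ℝ → ℂ} {P : ℝ → ℂ} {Q : ℝ → ℝ → ℝ}

theorem cut_low (hb : 0 < b) {q : ℝ × ℝ × ℝ} (h : q.2.1 ≤ b) :
    cut a b F P Q q = ((1 - lo a q.2.1 : ℝ) : ℂ) * P q.1 + ((lo a q.2.1 : ℝ) : ℂ) * F q := by
  unfold cut Qu
  rw [hi_of_le hb h]
  simp only [sub_zero, one_mul, zero_mul, add_zero, Complex.ofReal_one]
  ring

theorem cut_mid (ha : 0 < a) (hb : 0 < b) {q : ℝ × ℝ × ℝ} (h : a ≤ q.2.1) (h' : q.2.1 ≤ b) :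
    cut a b F P Q q = F q := by
  rw [cut_low hb h', lo_of_ge ha h]
  simp

theorem cut_inner (ha : 0 < a) (hab : a ≤ b) {q : ℝ × ℝ × ℝ} (h : q.2.1 ≤ a / 2) :
    cut a b F P Q q = P q.1 := by
  rw [cut_low (ha.trans_le hab) (by linarith), lo_of_le ha h]
  simp

theorem cut_high (ha : 0 < a) {q : ℝ × ℝ × ℝ} (h : a ≤ q.2.1) :
    cut a b F P Q q = ((1 - hi b q.2.1 : ℝ) : ℂ) * (F q -
      ((q.2.1 ^ 15 : ℝ) : ℂ) * cis (Q q.1 q.2.2)) +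
    ((q.2.1 ^ 15 : ℝ) : ℂ) * cis (Qu b Q q) := by
  unfold cut
  rw [lo_of_ge ha h]
  simp

theorem cut_outer (ha : 0 < a) (hab : a ≤ b) {q : ℝ × ℝ × ℝ} (h : 2 * b ≤ q.2.1) :
    cut a b F P Q q = ((q.2.1 ^ 15 : ℝ) : ℂ) * cis (15 * q.2.2) := by
  have hb := ha.trans_le hab
  rw [cut_high ha (by linarith)]
  unfold Qu
  rw [hi_of_ge hb h]
  simp

theorem cut_ne_low (ha : 0 < a) (hab : a ≤ b) {q : ℝ × ℝ × ℝ} (h : q.2.1 ≤ a)
    (hF : ‖F q - P q.1‖ < ‖P q.1‖) : cut a b F P Q q ≠ 0 := by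
  rw [cut_low (ha.trans_le hab) (h.trans hab)]
  intro h0
  have e : ((1 - lo a q.2.1 : ℝ) : ℂ) * P q.1 + ((lo a q.2.1 : ℝ) : ℂ) * F q =
      P q.1 + ((lo a q.2.1 : ℝ) : ℂ) * (F q - P q.1) := by
    push_cast
    ring
  rw [e] at h0
  have h1 : P q.1 = -(((lo a q.2.1 : ℝ) : ℂ) * (F q - P q.1)) := eq_neg_of_add_eq_zero_left h0
  have h2 : ‖P q.1‖ ≤ ‖F q - P q.1‖ := by
    calc ‖P q.1‖ = ‖-(((lo a q.2.1 : ℝ) : ℂ) * (F q - P q.1))‖ := congrArg _ h1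
      _ = lo a q.2.1 * ‖F q - P q.1‖ := by
          rw [norm_neg, norm_mul, Complex.norm_real, Real.norm_of_nonneg (lo_nonneg _ _)]
      _ ≤ 1 * ‖F q - P q.1‖ := mul_le_mul_of_nonneg_right (lo_le_one _ _) (norm_nonneg _)
      _ = _ := one_mul _
  linarith

theorem cut_ne_high (ha : 0 < a) (hab : a ≤ b) {q : ℝ × ℝ × ℝ} (h : b ≤ q.2.1)
    (hF : ‖F q - ((q.2.1 ^ 15 : ℝ) : ℂ) * cis (Q q.1 q.2.2)‖ < q.2.1 ^ 15) :
    cut a b F P Q q ≠ 0 := by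
  rw [cut_high ha (hab.trans h)]
  intro h0
  have hb := ha.trans_le hab
  have hq : 0 ≤ q.2.1 ^ 15 := pow_nonneg (hb.le.trans h) _
  set X := F q - ((q.2.1 ^ 15 : ℝ) : ℂ) * cis (Q q.1 q.2.2) with hX
  have h1 : ((q.2.1 ^ 15 : ℝ) : ℂ) * cis (Qu b Q q) = -(((1 - hi b q.2.1 : ℝ) : ℂ) * X) :=
    eq_neg_of_add_eq_zero_right h0
  have h2 : q.2.1 ^ 15 ≤ ‖X‖ := by
    calc q.2.1 ^ 15 = ‖((q.2.1 ^ 15 : ℝ) : ℂ) * cis (Qu b Q q)‖ := by
          rw [norm_mul, norm_cis, mul_one, Complex.norm_real, Real.norm_of_nonneg hq]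
      _ = ‖-(((1 - hi b q.2.1 : ℝ) : ℂ) * X)‖ := congrArg _ h1
      _ = (1 - hi b q.2.1) * ‖X‖ := by
          rw [norm_neg, norm_mul, Complex.norm_real,
            Real.norm_of_nonneg (sub_nonneg.2 (hi_le_one _ _))]
      _ ≤ 1 * ‖X‖ := mul_le_mul_of_nonneg_right (by linarith [hi_nonneg b q.2.1]) (norm_nonneg _)
      _ = _ := one_mul _
  linarith

/-- near a point with `a < u < b` the cut function is `F`. -/
theorem cut_nhds (ha : 0 < a) (hb : 0 < b) {q : ℝ × ℝ × ℝ} (h : a < q.2.1) (h' : q.2.1 < b) :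
    cut a b F P Q =ᶠ[nhds q] F := by
  have h1 : ∀ᶠ r : ℝ × ℝ × ℝ in nhds q, a < r.2.1 :=
    (continuous_snd.fst).continuousAt.eventually (lt_mem_nhds h)
  have h2 : ∀ᶠ r : ℝ × ℝ × ℝ in nhds q, r.2.1 < b :=
    (continuous_snd.fst).continuousAt.eventually (gt_mem_nhds h')
  filter_upwards [h1, h2] with r hr hr'
  exact cut_mid ha hb hr.le hr'.le

/-- **regularity of the cut function.** -/
theorem cut_reg (ha : 0 < a) (hab : a ≤ b)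
    (hlow : ∀ θ u ω : ℝ, 0 < u → u ≤ a → ‖F (θ, u, ω) - P θ‖ < ‖P θ‖)
    (hhigh : ∀ θ u ω : ℝ, b ≤ u → ‖F (θ, u, ω) - ((u ^ 15 : ℝ) : ℂ) * cis (Q θ ω)‖ < u ^ 15)
    (hreg : ∀ θ u ω : ℝ, 0 < u → F (θ, u, ω) = 0 →
      ∀ c : ℂ, ∃ y : ℝ × ℝ × ℝ, fderiv ℝ F (θ, u, ω) y = c)
    (θ u ω : ℝ) (hu : 0 < u) (h0 : cut a b F P Q (θ, u, ω) = 0) (c : ℂ) :
    ∃ y : ℝ × ℝ × ℝ, fderiv ℝ (cut a b F P Q) (θ, u, ω) y = c := by
  have hb := ha.trans_le hab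
  rcases le_or_gt u a with h | h
  · exact absurd h0 (cut_ne_low ha hab (q := (θ, u, ω)) h (hlow θ u ω hu h))
  · rcases le_or_gt b u with h' | h'
    · exact absurd h0 (cut_ne_high ha hab (q := (θ, u, ω)) h' (hhigh θ u ω h'))
    · have h1 := cut_nhds (F := F) (P := P) (Q := Q) ha hb (q := (θ, u, ω)) h h'
      rw [h1.eq_of_nhds] at h0
      rw [h1.fderiv_eq]
      exact hreg θ u ω hu h0 c

theorem cut_per_theta (hF : ∀ θ u ω : ℝ, F (θ + 2 * π, u, ω) = F (θ, u, ω))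
    (hP : ∀ θ, P (θ + 2 * π) = P θ) (hQ : ∀ θ ω, Q (θ + 2 * π) ω = Q θ ω) (θ u ω : ℝ) :
    cut a b F P Q (θ + 2 * π, u, ω) = cut a b F P Q (θ, u, ω) := by
  unfold cut Qu
  simp only [hF, hP, hQ]

theorem cut_per_omega (hF : ∀ θ u ω : ℝ, F (θ, u, ω + 2 * π) = F (θ, u, ω))
    (hQ : ∀ θ ω, Q θ (ω + 2 * π) = Q θ ω + 15 * (2 * π)) (θ u ω : ℝ) :
    cut a b F P Q (θ, u, ω + 2 * π) = cut a b F P Q (θ, u, ω) := by
  unfold cut Qu
  simp only [hF, hQ]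
  have e1 : cis (Q θ ω + 15 * (2 * π)) = cis (Q θ ω) := by
    have := cis_add_two_pi_mul (Q θ ω) 15
    push_cast at this
    exact this
  have e2 : cis ((1 - hi b u) * (Q θ ω + 15 * (2 * π)) + hi b u * (15 * (ω + 2 * π))) =
      cis ((1 - hi b u) * Q θ ω + hi b u * (15 * ω)) := by
    have := cis_add_two_pi_mul ((1 - hi b u) * Q θ ω + hi b u * (15 * ω)) 15
    push_cast at this
    rw [← this]
    congr 1
    ring
  rw [e1, e2]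

/-- joint smoothness in the time and the point. -/
theorem cut_smooth (a b : ℝ) {I : Set ℝ} {F : ℝ → ℝ × ℝ × ℝ → ℂ} {P : ℝ → ℝ → ℂ}
    {Q : ℝ → ℝ → ℝ → ℝ}
    (hF : ContDiffOn ℝ 2 (fun q : ℝ × ℝ × ℝ × ℝ => F q.1 q.2) (I ×ˢ {p | 0 < p.2.1}))
    (hP : ContDiffOn ℝ 2 (fun q : ℝ × ℝ => P q.1 q.2) (I ×ˢ univ))
    (hQ : ContDiffOn ℝ 2 (fun q : ℝ × ℝ × ℝ => Q q.1 q.2.1 q.2.2) (I ×ˢ univ)) :
    ContDiffOn ℝ 2 (fun q : ℝ × ℝ × ℝ × ℝ => cut a b (F q.1) (P q.1) (Q q.1) q.2)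
      (I ×ˢ {p | 0 < p.2.1}) := by
  have hu : ContDiff ℝ 2 fun q : ℝ × ℝ × ℝ × ℝ => q.2.2.1 :=
    contDiff_fst.comp (contDiff_snd.comp contDiff_snd)
  have hlo : ContDiff ℝ 2 fun q : ℝ × ℝ × ℝ × ℝ => lo a q.2.2.1 := (contDiff_lo a).comp hu
  have hhi : ContDiff ℝ 2 fun q : ℝ × ℝ × ℝ × ℝ => hi b q.2.2.1 := (contDiff_hi b).comp hu
  have hP' : ContDiffOn ℝ 2 (fun q : ℝ × ℝ × ℝ × ℝ => P q.1 q.2.1) (I ×ˢ {p | 0 < p.2.1}) :=
    hP.comp (f := fun q : ℝ × ℝ × ℝ × ℝ => (q.1, q.2.1))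
      (contDiff_fst.prodMk (contDiff_fst.comp contDiff_snd)).contDiffOn
      fun q hq => ⟨hq.1, mem_univ _⟩
  have hQ' : ContDiffOn ℝ 2 (fun q : ℝ × ℝ × ℝ × ℝ => Q q.1 q.2.1 q.2.2.2)
      (I ×ˢ {p | 0 < p.2.1}) :=
    hQ.comp (f := fun q : ℝ × ℝ × ℝ × ℝ => (q.1, q.2.1, q.2.2.2))
      (contDiff_fst.prodMk ((contDiff_fst.comp contDiff_snd).prodMk
        (contDiff_snd.comp (contDiff_snd.comp contDiff_snd)))).contDiffOn
      fun q hq => ⟨hq.1, mem_univ _⟩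
  have hω : ContDiff ℝ 2 fun q : ℝ × ℝ × ℝ × ℝ => q.2.2.2 :=
    contDiff_snd.comp (contDiff_snd.comp contDiff_snd)
  have hr : ∀ {f : ℝ × ℝ × ℝ × ℝ → ℝ} {s : Set (ℝ × ℝ × ℝ × ℝ)}, ContDiffOn ℝ 2 f s →
      ContDiffOn ℝ 2 (fun q => ((f q : ℝ) : ℂ)) s := fun {f s} hf =>
    Complex.ofRealCLM.contDiff.comp_contDiffOn hf
  have hQu : ContDiffOn ℝ 2 (fun q : ℝ × ℝ × ℝ × ℝ => Qu b (Q q.1) q.2)
      (I ×ˢ {p | 0 < p.2.1}) := by
    unfold Qu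
    exact ((contDiffOn_const.sub hhi.contDiffOn).mul hQ').add
      (hhi.contDiffOn.mul (contDiffOn_const.mul hω.contDiffOn))
  unfold cut
  refine ((hr (contDiffOn_const.sub hlo.contDiffOn)).mul hP').add
    ((hr (contDiffOn_const.sub hhi.contDiffOn)).mul (((hr hlo.contDiffOn).mul hF).sub
      ((hr (hu.pow 15).contDiffOn).mul (contDiff_cis.comp_contDiffOn hQ')))) |>.add
    ((hr (hu.pow 15).contDiffOn).mul (contDiff_cis.comp_contDiffOn hQu))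

/-! ### bounds for sums -/



end Crest.Agent.R267.NCut_88
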