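import Crest.Agent.R267.NSDefs_966

-- ▼ part R267/NSHat_966
section

/-!
# Row 267, C1: calculus of `Sp`, `Gp`, `bil`, `hat` (helper966)

`Sp_eq`, `Gp_eq`, `bil_eq`, `bilS_eq`, `bilG_eq` : local formulas; `contDiff_Sp`, `contDiff_bilS`,
`contDiff_bilG` : `C²`; periodicity.
-/

set_option autoImplicit false
set_option linter.unusedSectionVars false

noncomputable section

open Set Filter Topology Finset
open scoped ContDiff
open Crest.Agent.R267.T3aDefs_957 (st)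
open Crest.Agent.R267.Calc_957
open Crest.Agent.R267.NSDefs_966

namespace Crest.Agent.R267.NSHat_966

/-! ### the profiles -/

theorem Sp_eq (k : ℤ) {x : ℝ} (h1 : (k : ℝ) - 1 / 2 ≤ x) (h2 : x ≤ k + 1) :
    Sp x = k + st (2 * (x - k)) := by
  unfold Sp
  rcases lt_trichotomy x k with h | h | h
  · have hf : ⌊x⌋ = k - 1 := by
      rw [Int.floor_eq_iff]; push_cast; constructor <;> linarith
    have hfr : Int.fract x = x - (k - 1) := by
      rw [← Int.self_sub_floor, hf]; push_cast; ring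
    rw [hf, hfr, st_of_ge (by linarith), st_of_le (by linarith)]
    push_cast; ring
  · subst h
    simp
  · rcases h2.lt_or_eq with h3 | h3
    · have hf : ⌊x⌋ = k := by
        rw [Int.floor_eq_iff]; constructor <;> linarith
      have hfr : Int.fract x = x - k := by
        rw [← Int.self_sub_floor, hf]
      rw [hf, hfr]
    · have hf : ⌊x⌋ = k + 1 := by
        rw [Int.floor_eq_iff]; push_cast; constructor <;> linarith
      have hfr : Int.fract x = 0 := by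
        rw [← Int.self_sub_floor, hf]; push_cast; linarith
      rw [hf, hfr, st_of_ge (show (1 : ℝ) ≤ 2 * (x - k) by linarith), mul_zero,
        st_of_le le_rfl]
      push_cast; ring

theorem exists_cell (x : ℝ) : ∃ k : ℤ, (k : ℝ) - 1 / 2 < x ∧ x < k + 1 := by
  refine ⟨⌊x⌋, ?_, Int.lt_floor_add_one x⟩
  have := Int.floor_le x
  linarith

theorem exists_cell2 (x : ℝ) : ∃ k : ℤ, (k : ℝ) ≤ x ∧ x < k + 1 :=
  ⟨⌊x⌋, Int.floor_le x, Int.lt_floor_add_one x⟩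

theorem Sp_add_int (x : ℝ) (n : ℤ) : Sp (x + n) = Sp x + n := by
  unfold Sp
  rw [Int.floor_add_intCast, Int.fract_add_intCast]
  push_cast; ring

theorem Sp_add_nat (x : ℝ) (n : ℕ) : Sp (x + n) = Sp x + n := by
  have := Sp_add_int x n
  push_cast at this
  exact this

theorem Sp_add_15 (x : ℝ) : Sp (x + 15) = Sp x + 15 := by
  have := Sp_add_nat x 15
  push_cast at this
  exact this

theorem Gp_add_nat (x : ℝ) (n : ℕ) : Gp (x + n) = Gp x + n := by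
  unfold Gp
  rw [← Sp_add_nat]
  congr 1; ring

theorem Gp_add_15 (x : ℝ) : Gp (x + 15) = Gp x + 15 := by
  have := Gp_add_nat x 15
  push_cast at this
  exact this

/-- `Gp` on the cell `k` : lobe `[k, k+1/2]` flat, gap `[k+1/2, k+1]` rising. -/
theorem Gp_eq (k : ℤ) {x : ℝ} (h1 : (k : ℝ) ≤ x) (h2 : x ≤ k + 3 / 2) :
    Gp x = k + st (2 * (x - k) - 1) := by
  unfold Gp
  rw [Sp_eq k (by linarith) (by linarith)]
  congr 2; ring

theorem isOpen_cell (k : ℤ) : IsOpen {x : ℝ | (k : ℝ) - 1 / 2 < x ∧ x < k + 1} := by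
  have : {x : ℝ | (k : ℝ) - 1 / 2 < x ∧ x < k + 1} = Ioo ((k : ℝ) - 1 / 2) (k + 1) := rfl
  rw [this]; exact isOpen_Ioo

theorem contDiff_Sp : ContDiff ℝ 2 Sp := by
  rw [contDiff_iff_contDiffAt]
  intro x
  obtain ⟨k, h1, h2⟩ := exists_cell x
  have h : ContDiffAt ℝ 2 (fun x : ℝ => (k : ℝ) + st (2 * (x - k))) x :=
    (contDiff_const.add (contDiff_st.comp (contDiff_const.mul
      (contDiff_id.sub contDiff_const)))).contDiffAt
  refine h.congr_of_eventuallyEq ?_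
  filter_upwards [(isOpen_cell k).mem_nhds ⟨h1, h2⟩] with z hz
  exact Sp_eq k hz.1.le hz.2.le


theorem hasDerivAt_Sp (k : ℤ) {x : ℝ} (h1 : (k : ℝ) - 1 / 2 < x) (h2 : x < k + 1) :
    HasDerivAt Sp (2 * std (2 * (x - k))) x := by
  have h : HasDerivAt (fun x : ℝ => (k : ℝ) + st (2 * (x - k))) (2 * std (2 * (x - k))) x := by
    have h0 : HasDerivAt (fun x : ℝ => 2 * (x - k)) 2 x := by
      have := ((hasDerivAt_id x).sub_const (k : ℝ)).const_mul 2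
      simpa using this
    have := ((hasDerivAt_st (2 * (x - k))).comp x h0).const_add (k : ℝ)
    rw [mul_comm]
    exact this
  refine h.congr_of_eventuallyEq ?_
  filter_upwards [(isOpen_cell k).mem_nhds ⟨h1, h2⟩] with z hz
  exact Sp_eq k hz.1.le hz.2.le

/-! ### bilinear interpolation -/

/-- the bilinear formula. -/
def bf (a b c d μ ν : ℝ) : ℝ :=
  (1 - μ) * (1 - ν) * a + μ * (1 - ν) * b + (1 - μ) * ν * c + μ * ν * d

theorem bil_eq (N : ℤ → ℤ → ℝ) (k l : ℤ) {μ ν : ℝ} (hμ : 0 ≤ μ) (hμ1 : μ ≤ 1) (hν : 0 ≤ ν)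
    (hν1 : ν ≤ 1) :
    bil N (k + μ) (l + ν) = bf (N k l) (N (k + 1) l) (N k (l + 1)) (N (k + 1) (l + 1)) μ ν := by
  have key : ∀ (k : ℤ) (μ : ℝ), 0 ≤ μ → μ ≤ 1 →
      (⌊(k : ℝ) + μ⌋ = k ∧ Int.fract ((k : ℝ) + μ) = μ) ∨
      (μ = 1 ∧ ⌊(k : ℝ) + μ⌋ = k + 1 ∧ Int.fract ((k : ℝ) + μ) = 0) := by
    intro k μ h0 h1
    rcases h1.lt_or_eq with h | h
    · left
      have hf : ⌊(k : ℝ) + μ⌋ = k := by rw [Int.floor_eq_iff]; constructor <;> linarith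
      refine ⟨hf, ?_⟩
      rw [← Int.self_sub_floor, hf]; ring
    · right
      have hf : ⌊(k : ℝ) + μ⌋ = k + 1 := by
        rw [Int.floor_eq_iff]; push_cast; constructor <;> linarith
      refine ⟨h, hf, ?_⟩
      rw [← Int.self_sub_floor, hf]; push_cast; linarith
  unfold bil bf
  rcases key k μ hμ hμ1 with ⟨h1, h2⟩ | ⟨h0, h1, h2⟩ <;>
  rcases key l ν hν hν1 with ⟨h3, h4⟩ | ⟨h0', h3, h4⟩ <;>
  rw [h1, h2, h3, h4]
  · subst h0'; ring
  · subst h0; ring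
  · subst h0 h0'; ring

theorem bilS_eq (N : ℤ → ℤ → ℝ) (k l : ℤ) {x y : ℝ} (h1 : (k : ℝ) - 1 / 2 ≤ x) (h2 : x ≤ k + 1)
    (h3 : (l : ℝ) - 1 / 2 ≤ y) (h4 : y ≤ l + 1) :
    bil N (Sp x) (Sp y) = bf (N k l) (N (k + 1) l) (N k (l + 1)) (N (k + 1) (l + 1))
      (st (2 * (x - k))) (st (2 * (y - l))) := by
  rw [Sp_eq k h1 h2, Sp_eq l h3 h4]
  exact bil_eq N k l (st_nonneg _) (st_le_one _) (st_nonneg _) (st_le_one _)

theorem bilG_eq (N : ℤ → ℤ → ℝ) (k l : ℤ) {x y : ℝ} (h1 : (k : ℝ) ≤ x) (h2 : x ≤ k + 3 / 2)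
    (h3 : (l : ℝ) ≤ y) (h4 : y ≤ l + 3 / 2) :
    bil N (Gp x) (Gp y) = bf (N k l) (N (k + 1) l) (N k (l + 1)) (N (k + 1) (l + 1))
      (st (2 * (x - k) - 1)) (st (2 * (y - l) - 1)) := by
  rw [Gp_eq k h1 h2, Gp_eq l h3 h4]
  exact bil_eq N k l (st_nonneg _) (st_le_one _) (st_nonneg _) (st_le_one _)

/-- on the lobe cube `(k, l)` a window is constant. -/
theorem bilG_lobe (N : ℤ → ℤ → ℝ) (k l : ℤ) {x y : ℝ} (h1 : (k : ℝ) ≤ x) (h2 : x ≤ k + 1 / 2)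
    (h3 : (l : ℝ) ≤ y) (h4 : y ≤ l + 1 / 2) : bil N (Gp x) (Gp y) = N k l := by
  rw [bilG_eq N k l h1 (by linarith) h3 (by linarith), st_of_le (by linarith),
    st_of_le (by linarith)]
  unfold bf; ring

theorem bilS_add (N : ℤ → ℤ → ℝ) (n : ℤ) (c : ℝ) (h : ∀ k l, N (k + n) l = N k l + c) (X Y : ℝ) :
    bil N (X + n) Y = bil N X Y + c := by
  unfold bil
  rw [Int.floor_add_intCast, Int.fract_add_intCast, h,
    show ⌊X⌋ + n + 1 = (⌊X⌋ + 1) + n by ring, h, h, h]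
  ring

theorem bilS_add' (N : ℤ → ℤ → ℝ) (n : ℤ) (c : ℝ) (h : ∀ k l, N k (l + n) = N k l + c) (X Y : ℝ) :
    bil N X (Y + n) = bil N X Y + c := by
  unfold bil
  rw [Int.floor_add_intCast, Int.fract_add_intCast, h,
    show ⌊Y⌋ + n + 1 = (⌊Y⌋ + 1) + n by ring, h, h, h]
  ring

theorem contDiff_bf (a b c d : ℝ) {f g : ℝ × ℝ → ℝ} (hf : ContDiff ℝ 2 f) (hg : ContDiff ℝ 2 g) :
    ContDiff ℝ 2 fun z => bf a b c d (f z) (g z) := by
  unfold bf; fun_prop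

theorem contDiff_bilS (N : ℤ → ℤ → ℝ) : ContDiff ℝ 2 fun z : ℝ × ℝ => bil N (Sp z.1) (Sp z.2) := by
  rw [contDiff_iff_contDiffAt]
  intro z
  obtain ⟨k, h1, h2⟩ := exists_cell z.1
  obtain ⟨l, h3, h4⟩ := exists_cell z.2
  have h : ContDiffAt ℝ 2 (fun z : ℝ × ℝ => bf (N k l) (N (k + 1) l) (N k (l + 1))
      (N (k + 1) (l + 1)) (st (2 * (z.1 - k))) (st (2 * (z.2 - l)))) z :=
    (contDiff_bf _ _ _ _
      (contDiff_st.comp (contDiff_const.mul (contDiff_fst.sub contDiff_const)))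
      (contDiff_st.comp (contDiff_const.mul (contDiff_snd.sub contDiff_const)))).contDiffAt
  refine h.congr_of_eventuallyEq ?_
  have o1 : {z : ℝ × ℝ | (k : ℝ) - 1 / 2 < z.1 ∧ z.1 < k + 1} ∈ 𝓝 z :=
    ((isOpen_cell k).preimage continuous_fst).mem_nhds ⟨h1, h2⟩
  have o2 : {z : ℝ × ℝ | (l : ℝ) - 1 / 2 < z.2 ∧ z.2 < l + 1} ∈ 𝓝 z :=
    ((isOpen_cell l).preimage continuous_snd).mem_nhds ⟨h3, h4⟩
  filter_upwards [o1, o2] with w hw hw'
  exact bilS_eq N k l hw.1.le hw.2.le hw'.1.le hw'.2.le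

theorem contDiff_bilG (N : ℤ → ℤ → ℝ) : ContDiff ℝ 2 fun z : ℝ × ℝ => bil N (Gp z.1) (Gp z.2) := by
  have h := (contDiff_bilS N).comp (g := fun z : ℝ × ℝ => bil N (Sp z.1) (Sp z.2))
    (f := fun z : ℝ × ℝ => (z.1 - 1 / 2, z.2 - 1 / 2)) (by fun_prop)
  exact h

end Crest.Agent.R267.NSHat_966
end
end

-- ▼ part R267/NSOk_966

/-!
# Row 267, C1: leaf OK (helper966)

`ok_prop : OkProp`.
-/

set_option autoImplicit false
set_option linter.unusedSectionVars false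

noncomputable section

open Set Filter Topology Finset
open scoped ContDiff
open Crest.Agent.R267.T3aDefs_957 (st)
open Crest.Agent.R267.Calc_957
open Crest.Agent.R267.NSDefs_966
open Crest.Agent.R267.NSHat_966

namespace Crest.Agent.R267.NSOk_966

variable {m : ℕ} {S : NS m}

theorem hat_add_n (hS : S.Ok) (s : Fin (m + 2)) (x y : ℝ) :
    S.hat s (x + S.n) y = S.hat s x y + S.i s := by
  unfold NS.hat
  rw [Sp_add_nat]
  have := bilS_add (fun k l => (S.N s k l : ℝ)) (S.n : ℤ) (S.i s : ℝ)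
    (fun k l => by rw [hS.perk]; push_cast; ring) (Sp x) (Sp y)
  push_cast at this
  exact this

theorem hat_add_15 (hS : S.Ok) (s : Fin (m + 2)) (x y : ℝ) :
    S.hat s x (y + 15) = S.hat s x y + S.j s := by
  unfold NS.hat
  rw [Sp_add_15]
  have := bilS_add' (fun k l => (S.N s k l : ℝ)) 15 (S.j s : ℝ)
    (fun k l => by rw [hS.perl]; push_cast; ring) (Sp x) (Sp y)
  push_cast at this
  exact this

theorem flat_add_n (hS : S.Ok) (s : Fin (m + 2)) (k l : ℤ) :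
    S.flat s (k + S.n) l ↔ S.flat s k l := by
  unfold NS.flat
  rw [show k + (S.n : ℤ) + 1 = (k + 1) + S.n by ring, hS.perk, hS.perk, hS.perk, hS.perk]
  constructor <;> rintro ⟨h1, h2, h3⟩ <;> refine ⟨?_, ?_, ?_⟩ <;> linarith

theorem flat_add_15 (hS : S.Ok) (s : Fin (m + 2)) (k l : ℤ) :
    S.flat s k (l + 15) ↔ S.flat s k l := by
  unfold NS.flat
  rw [show l + (15 : ℤ) + 1 = (l + 1) + 15 by ring, hS.perl, hS.perl, hS.perl, hS.perl]
  constructor <;> rintro ⟨h1, h2, h3⟩ <;> refine ⟨?_, ?_, ?_⟩ <;> linarith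

theorem kill_add_n (hS : S.Ok) (k l : ℤ) : S.kill (k + S.n) l ↔ S.kill k l := by
  unfold NS.kill
  simp only [flat_add_n hS]

theorem kill_add_15 (hS : S.Ok) (k l : ℤ) : S.kill k (l + 15) ↔ S.kill k l := by
  unfold NS.kill
  simp only [flat_add_15 hS]

theorem bilG_add_n (N : ℤ → ℤ → ℝ) (n : ℕ) (h : ∀ k l, N (k + n) l = N k l) (x y : ℝ) :
    bil N (Gp (x + n)) (Gp y) = bil N (Gp x) (Gp y) := by
  rw [Gp_add_nat]
  have := bilS_add N (n : ℤ) 0 (fun k l => by rw [h, add_zero]) (Gp x) (Gp y)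
  push_cast at this
  rw [this, add_zero]

theorem bilG_add_15 (N : ℤ → ℤ → ℝ) (h : ∀ k l, N k (l + 15) = N k l) (x y : ℝ) :
    bil N (Gp x) (Gp (y + 15)) = bil N (Gp x) (Gp y) := by
  rw [Gp_add_15]
  have := bilS_add' N 15 0 (fun k l => by rw [h, add_zero]) (Gp x) (Gp y)
  push_cast at this
  rw [this, add_zero]

theorem fl_add_n (hS : S.Ok) (s : Fin (m + 2)) (x y : ℝ) : S.fl s (x + S.n) y = S.fl s x y :=
  bilG_add_n _ _ (fun k l => by simp only [flat_add_n hS]) x y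

theorem fl_add_15 (hS : S.Ok) (s : Fin (m + 2)) (x y : ℝ) : S.fl s x (y + 15) = S.fl s x y :=
  bilG_add_15 _ (fun k l => by simp only [flat_add_15 hS]) x y

theorem kl_add_n (hS : S.Ok) (x y : ℝ) : S.kl (x + S.n) y = S.kl x y :=
  bilG_add_n _ _ (fun k l => by simp only [kill_add_n hS]) x y

theorem kl_add_15 (hS : S.Ok) (x y : ℝ) : S.kl x (y + 15) = S.kl x y :=
  bilG_add_15 _ (fun k l => by simp only [kill_add_15 hS]) x y

theorem contDiff_hat (s : Fin (m + 2)) : ContDiff ℝ 2 fun z : ℝ × ℝ => S.hat s z.1 z.2 :=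
  contDiff_bilS _

theorem contDiff_fl (s : Fin (m + 2)) : ContDiff ℝ 2 fun z : ℝ × ℝ => S.fl s z.1 z.2 :=
  contDiff_bilG _

theorem contDiff_kl : ContDiff ℝ 2 fun z : ℝ × ℝ => S.kl z.1 z.2 :=
  contDiff_bilG _

/-- the last staircase depends on `x` only. -/
theorem hat_last (hS : S.Ok) (x y : ℝ) :
    S.hat (Fin.last (m + 1)) x y = S.hat (Fin.last (m + 1)) x 0 := by
  unfold NS.hat bil
  simp only [hS.N1 _ (⌊Sp y⌋) 0, hS.N1 _ (⌊Sp y⌋ + 1) 0, hS.N1 _ (⌊Sp 0⌋) 0,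
    hS.N1 _ (⌊Sp 0⌋ + 1) 0]
  ring

/-- the first staircase is `Sp y`. -/
theorem hat_zero (hS : S.Ok) (x y : ℝ) : S.hat 0 x y = Sp y := by
  unfold NS.hat bil
  simp only [hS.N0]
  have := Int.floor_add_fract (Sp y)
  push_cast
  linear_combination this

theorem j_lt (hS : S.Ok) (s : Fin m) : 1 ≤ S.j (NS.ix s) ∧ S.j (NS.ix s) ≤ 14 := by
  have h0 : (0 : Fin (m + 2)) < NS.ix s := Fin.succ_pos _
  have h1 : NS.ix s < Fin.last (m + 1) := by
    rw [Fin.lt_def]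
    unfold NS.ix
    simp only [Fin.val_succ, Fin.val_castSucc, Fin.val_last]
    omega
  have h2 := hS.hj h0
  have h3 := hS.hj h1
  rw [hS.j0] at h2
  rw [hS.j1] at h3
  omega

theorem ok_A (hS : S.Ok) (M : Fin m → ℝ) (Mv : ℝ) (hM : 0 < Mv) : (S.pathA M Mv).Ok := by
  have hn : (S.n : ℝ) ≠ 0 := by
    have := hS.hn
    positivity
  refine ⟨hS.hn, ?_, contDiff_const, ?_, fun σ => contDiff_const, fun σ => ?_, fun t y => ?_,
    fun t x => ?_, fun t _ => hM, fun σ => ?_, fun σ t x y => rfl, fun σ t x y => rfl,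
    fun σ => ⟨S.i (NS.ix σ), fun t x y => ?_⟩, fun σ => ⟨S.j (NS.ix σ), fun t x y => ?_⟩⟩
  · have h : ContDiff ℝ 2 fun z : ℝ × ℝ => Sp z.2 := contDiff_Sp.comp contDiff_snd
    show ContDiff ℝ 2 fun z : ℝ × ℝ => (1 - z.1) * z.2 + z.1 * (Sp z.2 + 1 / 2)
    fun_prop
  · have h : ContDiff ℝ 2 fun z : ℝ × ℝ => S.hat (Fin.last (m + 1)) z.2 0 :=
      (contDiff_hat (S := S) (Fin.last (m + 1))).comp (f := fun z : ℝ × ℝ => (z.2, (0 : ℝ)))
        (by fun_prop)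
    show ContDiff ℝ 2 fun z : ℝ × ℝ => (1 - z.1) * (15 * z.2 / S.n) +
      z.1 * (S.hat (Fin.last (m + 1)) z.2 0 + 1 / 2)
    fun_prop
  · have h : ContDiff ℝ 2 fun z : ℝ × ℝ × ℝ => S.hat (NS.ix σ) z.2.1 z.2.2 :=
      (contDiff_hat (S := S) (NS.ix σ)).comp contDiff_snd
    show ContDiff ℝ 2 fun z : ℝ × ℝ × ℝ =>
      (1 - z.1) * (S.i (NS.ix σ) * z.2.1 / S.n + S.j (NS.ix σ) * z.2.2 / 15) +
      z.1 * (S.hat (NS.ix σ) z.2.1 z.2.2 + 1 / 2)
    fun_prop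
  · show (1 - t) * (y + 15) + t * (Sp (y + 15) + 1 / 2) = (1 - t) * y + t * (Sp y + 1 / 2) + 15
    rw [Sp_add_15]; ring
  · show (1 - t) * (15 * (x + S.n) / S.n) + t * (S.hat (Fin.last (m + 1)) (x + S.n) 0 + 1 / 2) =
      (1 - t) * (15 * x / S.n) + t * (S.hat (Fin.last (m + 1)) x 0 + 1 / 2) + 15
    rw [hat_add_n hS, hS.i1]
    push_cast
    field_simp
    ring
  · have h := j_lt hS σ
    show (1 : ℝ) ≤ (S.j (NS.ix σ) : ℝ) ∧ (S.j (NS.ix σ) : ℝ) ≤ 14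
    exact ⟨by exact_mod_cast h.1, by exact_mod_cast h.2⟩
  · show (1 - t) * (S.i (NS.ix σ) * (x + S.n) / S.n + S.j (NS.ix σ) * y / 15) +
      t * (S.hat (NS.ix σ) (x + S.n) y + 1 / 2) =
      (1 - t) * (S.i (NS.ix σ) * x / S.n + S.j (NS.ix σ) * y / 15) +
      t * (S.hat (NS.ix σ) x y + 1 / 2) + ((S.i (NS.ix σ) : ℤ) : ℝ)
    rw [hat_add_n hS]
    push_cast
    field_simp
    ring
  · show (1 - t) * (S.i (NS.ix σ) * x / S.n + S.j (NS.ix σ) * (y + 15) / 15) +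
      t * (S.hat (NS.ix σ) x (y + 15) + 1 / 2) =
      (1 - t) * (S.i (NS.ix σ) * x / S.n + S.j (NS.ix σ) * y / 15) +
      t * (S.hat (NS.ix σ) x y + 1 / 2) + ((S.j (NS.ix σ) : ℤ) : ℝ)
    rw [hat_add_15 hS]
    push_cast
    field_simp
    ring

theorem ok_B (hS : S.Ok) (M : Fin m → ℝ) (Mv : ℝ) (hM : 0 < Mv) : (S.pathB M Mv).Ok := by
  refine ⟨hS.hn, ?_, contDiff_const, ?_, fun σ => ?_, fun σ => ?_, fun t y => ?_,
    fun t x => ?_, fun t _ => hM, fun σ => ?_, fun σ t x y => ?_, fun σ t x y => ?_,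
    fun σ => ⟨S.i (NS.ix σ), fun t x y => ?_⟩, fun σ => ⟨S.j (NS.ix σ), fun t x y => ?_⟩⟩
  · have h : ContDiff ℝ 2 fun z : ℝ × ℝ => Sp z.2 := contDiff_Sp.comp contDiff_snd
    show ContDiff ℝ 2 fun z : ℝ × ℝ => Sp z.2 + 1 / 2
    fun_prop
  · have h : ContDiff ℝ 2 fun z : ℝ × ℝ => S.hat (Fin.last (m + 1)) z.2 0 :=
      (contDiff_hat (S := S) (Fin.last (m + 1))).comp (f := fun z : ℝ × ℝ => (z.2, (0 : ℝ)))
        (by fun_prop)
    show ContDiff ℝ 2 fun z : ℝ × ℝ => S.hat (Fin.last (m + 1)) z.2 0 + 1 / 2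
    fun_prop
  · have h : ContDiff ℝ 2 fun z : ℝ × ℝ × ℝ => S.fl (NS.ix σ) z.2.1 z.2.2 :=
      (contDiff_fl (S := S) (NS.ix σ)).comp contDiff_snd
    show ContDiff ℝ 2 fun z : ℝ × ℝ × ℝ =>
      M σ * (1 - z.1 + z.1 * S.fl (NS.ix σ) z.2.1 z.2.2)
    fun_prop
  · have h : ContDiff ℝ 2 fun z : ℝ × ℝ × ℝ => S.hat (NS.ix σ) z.2.1 z.2.2 :=
      (contDiff_hat (S := S) (NS.ix σ)).comp contDiff_snd
    show ContDiff ℝ 2 fun z : ℝ × ℝ × ℝ => S.hat (NS.ix σ) z.2.1 z.2.2 + 1 / 2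
    fun_prop
  · show Sp (y + 15) + 1 / 2 = Sp y + 1 / 2 + 15
    rw [Sp_add_15]; ring
  · show S.hat (Fin.last (m + 1)) (x + S.n) 0 + 1 / 2 = S.hat (Fin.last (m + 1)) x 0 + 1 / 2 + 15
    rw [hat_add_n hS, hS.i1]
    push_cast
    ring
  · have h := j_lt hS σ
    show (1 : ℝ) ≤ (S.j (NS.ix σ) : ℝ) ∧ (S.j (NS.ix σ) : ℝ) ≤ 14
    exact ⟨by exact_mod_cast h.1, by exact_mod_cast h.2⟩
  · show M σ * (1 - t + t * S.fl (NS.ix σ) (x + S.n) y) = M σ * (1 - t + t * S.fl (NS.ix σ) x y)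
    rw [fl_add_n hS]
  · show M σ * (1 - t + t * S.fl (NS.ix σ) x (y + 15)) = M σ * (1 - t + t * S.fl (NS.ix σ) x y)
    rw [fl_add_15 hS]
  · show S.hat (NS.ix σ) (x + S.n) y + 1 / 2 = S.hat (NS.ix σ) x y + 1 / 2 +
      ((S.i (NS.ix σ) : ℤ) : ℝ)
    rw [hat_add_n hS]
    push_cast
    ring
  · show S.hat (NS.ix σ) x (y + 15) + 1 / 2 = S.hat (NS.ix σ) x y + 1 / 2 +
      ((S.j (NS.ix σ) : ℤ) : ℝ)
    rw [hat_add_15 hS]
    push_cast
    ring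

theorem ok_C (hS : S.Ok) (M : Fin m → ℝ) (cv h1 h2 : ℝ → ℝ) (hcv : ContDiff ℝ 2 cv)
    (hh1 : ContDiff ℝ 2 h1) (hh2 : ContDiff ℝ 2 h2) (hM : ∀ t, 0 < cv t) :
    (S.pathC M cv h1 h2).Ok := by
  refine ⟨hS.hn, ?_, hcv, ?_, fun σ => ?_, fun σ => contDiff_const, fun t y => ?_,
    fun t x => ?_, fun t _ => hM t, fun σ => ?_, fun σ t x y => ?_, fun σ t x y => ?_,
    fun σ => ⟨0, fun t x y => by simp [NS.pathC]⟩, fun σ => ⟨0, fun t x y => by simp [NS.pathC]⟩⟩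
  · have h : ContDiff ℝ 2 fun z : ℝ × ℝ => Sp z.2 := contDiff_Sp.comp contDiff_snd
    show ContDiff ℝ 2 fun z : ℝ × ℝ => Sp z.2 + 1 / 2
    fun_prop
  · have h : ContDiff ℝ 2 fun z : ℝ × ℝ => S.hat (Fin.last (m + 1)) z.2 0 :=
      (contDiff_hat (S := S) (Fin.last (m + 1))).comp (f := fun z : ℝ × ℝ => (z.2, (0 : ℝ)))
        (by fun_prop)
    show ContDiff ℝ 2 fun z : ℝ × ℝ => S.hat (Fin.last (m + 1)) z.2 0 + 1 / 2
    fun_prop
  · cases σ with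
    | none =>
      have h : ContDiff ℝ 2 fun z : ℝ × ℝ × ℝ => S.kl z.2.1 z.2.2 :=
        (contDiff_kl (S := S)).comp contDiff_snd
      have h' : ContDiff ℝ 2 fun z : ℝ × ℝ × ℝ => h1 z.1 := hh1.comp contDiff_fst
      show ContDiff ℝ 2 fun z : ℝ × ℝ × ℝ => h1 z.1 * S.kl z.2.1 z.2.2
      fun_prop
    | some σ =>
      have h : ContDiff ℝ 2 fun z : ℝ × ℝ × ℝ => S.fl (NS.ix σ) z.2.1 z.2.2 :=
        (contDiff_fl (S := S) (NS.ix σ)).comp contDiff_snd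
      have h' : ContDiff ℝ 2 fun z : ℝ × ℝ × ℝ => h2 z.1 := hh2.comp contDiff_fst
      show ContDiff ℝ 2 fun z : ℝ × ℝ × ℝ => M σ * h2 z.1 * S.fl (NS.ix σ) z.2.1 z.2.2
      fun_prop
  · show Sp (y + 15) + 1 / 2 = Sp y + 1 / 2 + 15
    rw [Sp_add_15]; ring
  · show S.hat (Fin.last (m + 1)) (x + S.n) 0 + 1 / 2 = S.hat (Fin.last (m + 1)) x 0 + 1 / 2 + 15
    rw [hat_add_n hS, hS.i1]
    push_cast
    ring
  · cases σ with
    | none =>
      show (1 : ℝ) ≤ 15 / 2 ∧ (15 / 2 : ℝ) ≤ 14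
      norm_num
    | some σ =>
      have h := j_lt hS σ
      show (1 : ℝ) ≤ (S.j (NS.ix σ) : ℝ) ∧ (S.j (NS.ix σ) : ℝ) ≤ 14
      exact ⟨by exact_mod_cast h.1, by exact_mod_cast h.2⟩
  · cases σ with
    | none =>
      show h1 t * S.kl (x + S.n) y = h1 t * S.kl x y
      rw [kl_add_n hS]
    | some σ =>
      show M σ * h2 t * S.fl (NS.ix σ) (x + S.n) y = M σ * h2 t * S.fl (NS.ix σ) x y
      rw [fl_add_n hS]
  · cases σ with
    | none =>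
      show h1 t * S.kl x (y + 15) = h1 t * S.kl x y
      rw [kl_add_15 hS]
    | some σ =>
      show M σ * h2 t * S.fl (NS.ix σ) x (y + 15) = M σ * h2 t * S.fl (NS.ix σ) x y
      rw [fl_add_15 hS]

/-- **LEAF OK.** -/
theorem ok_prop : OkProp := fun _ _ hS =>
  ⟨fun M Mv h => ⟨ok_A hS M Mv h, ok_B hS M Mv h⟩,
    fun M cv h1 h2 a b c d => ok_C hS M cv h1 h2 a b c d⟩

end Crest.Agent.R267.NSOk_966
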