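import Crest.Agent.R267.PolArm_484
import Crest.Agent.R267.NCut_88
import Crest.Agent.R267.NSOk_966

-- ▼ part R267/NStep_88
section

/-!
# Row 267, planar arms: paths of uncut functions give homotopies of arms

`UPath F P Q` : a path of functions `F t (θ, u, ω)` (`|v| = 1`, `w = u e^{iω}`, `u > 0`), close to
`P t θ` for small `u`, close to `u^15 e^{i Q t θ ω}` for large `u`, with onto slice derivatives at
all the zeros. `UPath.step` : the cut functions (`NCut_88.cut`) are joined by an `AStep`.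
`CEq` : the resulting equivalence relation on triples `(F, P, Q)`.
-/

set_option autoImplicit false

noncomputable section

namespace Crest.Agent.R267.NStep_88

open Set Real
open Crest.Agent.R267.NdR_484 Crest.Agent.R267.NdY_484 Crest.Agent.R267.PolArm_484
open Crest.Agent.R267.NCut_88

variable {bo : Bool} {v : Fin 3}

/-- a path of uncut functions. -/
structure UPath (F : ℝ → ℝ × ℝ × ℝ → ℂ) (P : ℝ → ℝ → ℂ) (Q : ℝ → ℝ → ℝ → ℝ) : Prop where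
  smF : ContDiffOn ℝ 2 (fun q : ℝ × ℝ × ℝ × ℝ => F q.1 q.2) (Icc (0 : ℝ) 1 ×ˢ {p | 0 < p.2.1})
  smP : ContDiffOn ℝ 2 (fun q : ℝ × ℝ => P q.1 q.2) (Icc (0 : ℝ) 1 ×ˢ univ)
  smQ : ContDiffOn ℝ 2 (fun q : ℝ × ℝ × ℝ => Q q.1 q.2.1 q.2.2) (Icc (0 : ℝ) 1 ×ˢ univ)
  perF1 : ∀ t ∈ Icc (0 : ℝ) 1, ∀ θ u ω, 0 < u → F t (θ + 2 * π, u, ω) = F t (θ, u, ω)
  perF2 : ∀ t ∈ Icc (0 : ℝ) 1, ∀ θ u ω, 0 < u → F t (θ, u, ω + 2 * π) = F t (θ, u, ω)
  perP : ∀ t ∈ Icc (0 : ℝ) 1, ∀ θ, P t (θ + 2 * π) = P t θ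
  perQ1 : ∀ t ∈ Icc (0 : ℝ) 1, ∀ θ ω, Q t (θ + 2 * π) ω = Q t θ ω
  perQ2 : ∀ t ∈ Icc (0 : ℝ) 1, ∀ θ ω, Q t θ (ω + 2 * π) = Q t θ ω + 15 * (2 * π)
  low : ∃ a0 : ℝ, 0 < a0 ∧ ∀ t ∈ Icc (0 : ℝ) 1, ∀ θ u ω, 0 < u → u ≤ a0 →
    ‖F t (θ, u, ω) - P t θ‖ < ‖P t θ‖
  high : ∃ b0 : ℝ, ∀ t ∈ Icc (0 : ℝ) 1, ∀ θ u ω, b0 ≤ u →
    ‖F t (θ, u, ω) - ((u ^ 15 : ℝ) : ℂ) * cis (Q t θ ω)‖ < u ^ 15
  reg : ∀ t ∈ Icc (0 : ℝ) 1, ∀ θ u ω, 0 < u → F t (θ, u, ω) = 0 →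
    ∀ c : ℂ, ∃ y : ℝ × ℝ × ℝ, fderiv ℝ (F t) (θ, u, ω) y = c

/-- a function on `u > 0` with its two asymptotic terms. -/
structure Tri where
  F : ℝ × ℝ × ℝ → ℂ
  P : ℝ → ℂ
  Q : ℝ → ℝ → ℝ

/-- the arm of a triple with the cut-offs `a`, `b`. -/
def Tri.arm (X : Tri) (bo : Bool) (v : Fin 3) (a b : ℝ) : ℂ × ℂ → ℂ :=
  PA bo v (cut a b X.F X.P X.Q)

theorem cis_pow (u ω : ℝ) : ((u ^ 15 : ℝ) : ℂ) * cis (15 * ω) =
    ((u : ℂ) * Complex.exp (ω * Complex.I)) ^ 15 := by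
  unfold cis
  rw [mul_pow, ← Complex.exp_nat_mul]
  push_cast
  congr 2
  ring

/-- **a path of uncut functions gives a homotopy of arms.** -/
theorem UPath.step {F : ℝ → ℝ × ℝ × ℝ → ℂ} {P : ℝ → ℝ → ℂ} {Q : ℝ → ℝ → ℝ → ℝ}
    (h : UPath F P Q) : ∃ a0 : ℝ, 0 < a0 ∧ ∃ b0 : ℝ, ∀ a b : ℝ, 0 < a → a ≤ a0 → b0 ≤ b → a ≤ b →
      AStep bo v (Tri.arm ⟨F 0, P 0, Q 0⟩ bo v a b) (Tri.arm ⟨F 1, P 1, Q 1⟩ bo v a b) := by
  obtain ⟨a0, ha0, hlow⟩ := h.low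
  obtain ⟨b0, hhigh⟩ := h.high
  refine ⟨a0, ha0, b0, fun a b ha haa hbb hab => ?_⟩
  have hb := ha.trans_le hab
  refine astep_PA (h := fun t => cut a b (F t) (P t) (Q t)) ?_ ?_ ?_ ?_ ?_ ?_
  · exact cut_smooth a b h.smF h.smP h.smQ
  · intro t ht θ u ω hu
    show cut a b (F t) (P t) (Q t) (θ + 2 * π, u, ω) = cut a b (F t) (P t) (Q t) (θ, u, ω)
    unfold cut Qu
    simp only [h.perF1 t ht θ u ω hu, h.perP t ht θ, h.perQ1 t ht θ ω]
  · intro t ht θ u ω hu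
    show cut a b (F t) (P t) (Q t) (θ, u, ω + 2 * π) = cut a b (F t) (P t) (Q t) (θ, u, ω)
    unfold cut Qu
    simp only [h.perF2 t ht θ u ω hu, h.perQ2 t ht θ ω]
    have e1 : cis (Q t θ ω + 15 * (2 * π)) = cis (Q t θ ω) := by
      have := cis_add_two_pi_mul (Q t θ ω) 15
      push_cast at this
      exact this
    have e2 : cis ((1 - hi b u) * (Q t θ ω + 15 * (2 * π)) + hi b u * (15 * (ω + 2 * π))) =
        cis ((1 - hi b u) * Q t θ ω + hi b u * (15 * ω)) := by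
      have := cis_add_two_pi_mul ((1 - hi b u) * Q t θ ω + hi b u * (15 * ω)) 15
      push_cast at this
      rw [← this]
      congr 1
      ring
    rw [e1, e2]
  · refine ⟨a / 2, half_pos ha, fun t _ θ u ω _ hu => ?_⟩
    show cut a b (F t) (P t) (Q t) (θ, u, ω) = cut a b (F t) (P t) (Q t) (θ, a / 2, 0)
    rw [cut_inner ha hab (q := (θ, u, ω)) hu, cut_inner ha hab (q := (θ, a / 2, 0)) (le_refl _)]
  · refine ⟨2 * b, fun t _ θ u ω hu => ?_⟩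
    show cut a b (F t) (P t) (Q t) (θ, u, ω) = _
    rw [cut_outer ha hab (q := (θ, u, ω)) hu, cis_pow]
  · intro t ht θ u ω hu h0 c
    exact cut_reg ha hab (fun θ u ω hu hua => hlow t ht θ u ω hu (hua.trans haa))
      (fun θ u ω hbu => hhigh t ht θ u ω (hbb.trans hbu)) (h.reg t ht) θ u ω hu h0 c

/-- **equivalence of triples**: the arms are joined for all small `a` and all large `b`. -/
def CEq (bo : Bool) (v : Fin 3) (X Y : Tri) : Prop :=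
  ∃ a0 : ℝ, 0 < a0 ∧ ∃ b0 : ℝ, ∀ a b : ℝ, 0 < a → a ≤ a0 → b0 ≤ b → a ≤ b →
    AEq bo v (X.arm bo v a b) (Y.arm bo v a b)

theorem CEq.refl (X : Tri) : CEq bo v X X := ⟨1, one_pos, 0, fun _ _ _ _ _ _ => AEq.refl _⟩

theorem CEq.symm {X Y : Tri} (h : CEq bo v X Y) : CEq bo v Y X := by
  obtain ⟨a0, ha0, b0, H⟩ := h
  exact ⟨a0, ha0, b0, fun a b h1 h2 h3 h4 => (H a b h1 h2 h3 h4).symm⟩

theorem CEq.trans {X Y Z : Tri} (h : CEq bo v X Y) (h' : CEq bo v Y Z) : CEq bo v X Z := by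
  obtain ⟨a0, ha0, b0, H⟩ := h
  obtain ⟨a1, ha1, b1, H'⟩ := h'
  refine ⟨min a0 a1, lt_min ha0 ha1, max b0 b1, fun a b h1 h2 h3 h4 => ?_⟩
  exact (H a b h1 (h2.trans (min_le_left _ _)) ((le_max_left _ _).trans h3) h4).trans
    (H' a b h1 (h2.trans (min_le_right _ _)) ((le_max_right _ _).trans h3) h4)

/-- **a path of uncut functions gives an equivalence.** -/
theorem UPath.ceq {F : ℝ → ℝ × ℝ × ℝ → ℂ} {P : ℝ → ℝ → ℂ} {Q : ℝ → ℝ → ℝ → ℝ}
    (h : UPath F P Q) : CEq bo v ⟨F 0, P 0, Q 0⟩ ⟨F 1, P 1, Q 1⟩ := by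
  obtain ⟨a0, ha0, b0, H⟩ := h.step (bo := bo) (v := v)
  exact ⟨a0, ha0, b0, fun a b h1 h2 h3 h4 => (H a b h1 h2 h3 h4).aeq⟩


/-! ### sums of terms -/



end Crest.Agent.R267.NStep_88
end
end

-- ▼ part R267/NSLift_966

/-!
# Row 267, C1: polar data families are `UPath`s (helper966)

`upath : D.Ok → D.Reg → UPath D.F D.P D.Qr`, `ceq : CEq bo v (D.tri 0) (D.tri 1)`.
-/

set_option autoImplicit false
set_option linter.unusedSectionVars false

noncomputable section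

open Set Filter Topology Finset

open Crest.Agent.R267.NSDefs_966
open Crest.Agent.R267.NCut_88 (cis)
open Crest.Agent.R267.NStep_88

namespace Crest.Agent.R267.NSDefs_966

namespace PD

variable {ι : Type} [Fintype ι] (D : PD ι)

/-- the uncut function in the variables `(θ, u, ω)`. -/
def F (t : ℝ) (z : ℝ × ℝ × ℝ) : ℂ :=
  D.K t (D.n * z.1 / (2 * Real.pi), Real.log z.2.1, 15 * z.2.2 / (2 * Real.pi))

/-- own term of `v`. -/
def P (t θ : ℝ) : ℂ := ((D.cv t : ℝ) : ℂ) * e (D.p (t, D.n * θ / (2 * Real.pi)))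

/-- own phase of `w` in radians. -/
def Qr (t _θ ω : ℝ) : ℝ := 2 * Real.pi * D.q (t, 15 * ω / (2 * Real.pi))

/-- the triple at time `t`. -/
def tri (t : ℝ) : Tri := ⟨D.F t, D.P t, D.Qr t⟩

end PD

end Crest.Agent.R267.NSDefs_966

namespace Crest.Agent.R267.NSLift_966

theorem e_eq (x : ℝ) : e x = cis (2 * Real.pi * x) := by
  unfold e cis
  push_cast
  rfl

theorem norm_e (x : ℝ) : ‖e x‖ = 1 := by
  rw [e_eq]; exact NCut_88.norm_cis _

theorem contDiff_e : ContDiff ℝ 2 e := by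
  have : e = fun x => cis (2 * Real.pi * x) := funext e_eq
  rw [this]
  exact NCut_88.contDiff_cis.comp (contDiff_const.mul contDiff_id)

theorem e_add_int (x : ℝ) (k : ℤ) : e (x + k) = e x := by
  rw [e_eq, e_eq, ← NCut_88.cis_add_two_pi_mul (2 * Real.pi * x) k]
  congr 1; ring

theorem e_add_15 (x : ℝ) : e (x + 15) = e x := by
  have := e_add_int x 15
  push_cast at this
  exact this

variable {ι : Type} [Fintype ι] {D : PD ι}

theorem pi_ne : (2 * Real.pi) ≠ 0 := by positivity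

/-- a continuous periodic family is bounded. -/
theorem bounded {n : ℕ} (hn : 0 < n) {c : ℝ × ℝ × ℝ → ℝ} (hc : Continuous c)
    (hx : ∀ t x y, c (t, x + n, y) = c (t, x, y)) (hy : ∀ t x y, c (t, x, y + 15) = c (t, x, y)) :
    ∃ C : ℝ, 0 ≤ C ∧ ∀ t ∈ Icc (0 : ℝ) 1, ∀ x y, |c (t, x, y)| ≤ C := by
  have hK : IsCompact (Icc (0 : ℝ) 1 ×ˢ (Icc (0 : ℝ) n ×ˢ Icc (0 : ℝ) 15)) :=
    isCompact_Icc.prod (isCompact_Icc.prod isCompact_Icc)
  obtain ⟨C, hC⟩ := hK.exists_bound_of_continuousOn hc.continuousOn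
  refine ⟨max C 0, le_max_right _ _, fun t ht x y => ?_⟩
  have hn' : (0 : ℝ) < n := by exact_mod_cast hn
  have px : Function.Periodic (fun x => c (t, x, y)) (n : ℝ) := fun x => hx t x y
  obtain ⟨x', hx', e1⟩ := px.exists_mem_Ico₀ hn' x
  have py : Function.Periodic (fun y => c (t, x', y)) (15 : ℝ) := fun y => hy t x' y
  obtain ⟨y', hy', e2⟩ := py.exists_mem_Ico₀ (by norm_num) y
  have e3 : c (t, x, y) = c (t, x', y') := e1.trans e2
  rw [e3]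
  have := hC (t, x', y') ⟨ht, ⟨hx'.1, hx'.2.le⟩, ⟨hy'.1, hy'.2.le⟩⟩
  rw [Real.norm_eq_abs] at this
  exact this.trans (le_max_left _ _)

theorem bounded_all (hD : D.Ok) : ∃ C : ℝ, 0 ≤ C ∧ ∀ σ, ∀ t ∈ Icc (0 : ℝ) 1, ∀ x y,
    |D.c σ (t, x, y)| ≤ C := by
  choose C hC0 hC using fun σ => bounded hD.hn (hD.cc σ).continuous (hD.pcx σ) (hD.pcy σ)
  refine ⟨∑ σ, C σ, Finset.sum_nonneg fun σ _ => hC0 σ, fun σ t ht x y => ?_⟩
  exact (hC σ t ht x y).trans (Finset.single_le_sum (fun σ _ => hC0 σ) (Finset.mem_univ σ))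

theorem cv_low (hD : D.Ok) : ∃ m : ℝ, 0 < m ∧ ∀ t ∈ Icc (0 : ℝ) 1, m ≤ D.cv t := by
  obtain ⟨t0, ht0, h⟩ := isCompact_Icc.exists_isMinOn (nonempty_Icc.2 (zero_le_one (α := ℝ)))
    hD.ccv.continuous.continuousOn
  exact ⟨D.cv t0, hD.hcv t0 ht0, fun t ht => h ht⟩

theorem cv_high (hD : D.Ok) : ∃ m : ℝ, 0 < m ∧ ∀ t ∈ Icc (0 : ℝ) 1, D.cv t ≤ m := by
  obtain ⟨t0, ht0, h⟩ := isCompact_Icc.exists_isMaxOn (nonempty_Icc.2 (zero_le_one (α := ℝ)))
    hD.ccv.continuous.continuousOn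
  exact ⟨D.cv t0, hD.hcv t0 ht0, fun t ht => h ht⟩

theorem norm_mid_le (hD : D.Ok) {C : ℝ} (hC : ∀ σ, ∀ t ∈ Icc (0 : ℝ) 1, ∀ x y,
    |D.c σ (t, x, y)| ≤ C) {t : ℝ} (ht : t ∈ Icc (0 : ℝ) 1) (z : ℝ × ℝ × ℝ) (B : ℝ)
    (hB : ∀ σ, Real.exp (D.E σ * z.2.1) ≤ B) : ‖D.mid t z‖ ≤ Fintype.card ι * (C * B) := by
  unfold PD.mid
  refine (norm_sum_le _ _).trans ?_
  refine (Finset.sum_le_card_nsmul _ _ (C * B) fun σ _ => ?_).trans ?_
  · rw [norm_mul, norm_e, mul_one, Complex.norm_real, Real.norm_eq_abs, abs_mul, Real.abs_exp]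
    have h0 : 0 ≤ C := (abs_nonneg _).trans (hC σ t ht z.1 z.2.2)
    exact mul_le_mul (hC σ t ht _ _) (hB σ) (Real.exp_pos _).le h0
  · rw [Finset.card_univ, nsmul_eq_mul]

theorem exp_log_pow {u : ℝ} (hu : 0 < u) : Real.exp (15 * Real.log u) = u ^ 15 := by
  rw [show (15 : ℝ) * Real.log u = ((15 : ℕ) : ℝ) * Real.log u by norm_num, ← Real.log_pow,
    Real.exp_log (pow_pos hu _)]

/-- exponential bounds for `u ≤ 1`. -/
theorem exp_le_low {E u : ℝ} (hE : 1 ≤ E) (hu : 0 < u) (hu1 : u ≤ 1) :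
    Real.exp (E * Real.log u) ≤ u := by
  have h1 : Real.log u ≤ 0 := Real.log_nonpos hu.le hu1
  calc Real.exp (E * Real.log u) ≤ Real.exp (Real.log u) := Real.exp_le_exp.2 (by nlinarith)
    _ = u := Real.exp_log hu

theorem exp_le_high {E u : ℝ} (hE : E ≤ 14) (hu1 : 1 ≤ u) :
    Real.exp (E * Real.log u) ≤ u ^ 14 := by
  have h1 : 0 ≤ Real.log u := Real.log_nonneg hu1
  calc Real.exp (E * Real.log u) ≤ Real.exp (14 * Real.log u) := Real.exp_le_exp.2 (by nlinarith)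
    _ = u ^ 14 := by
      rw [show (14 : ℝ) * Real.log u = ((14 : ℕ) : ℝ) * Real.log u by norm_num, ← Real.log_pow,
        Real.exp_log (pow_pos (by linarith) _)]

theorem F_eq (t : ℝ) {θ u ω : ℝ} (hu : 0 < u) : D.F t (θ, u, ω) =
    ((u ^ 15 : ℝ) : ℂ) * cis (D.Qr t θ ω) + D.P t θ +
      D.mid t (D.n * θ / (2 * Real.pi), Real.log u, 15 * ω / (2 * Real.pi)) := by
  unfold PD.F PD.K PD.P PD.Qr
  simp only
  rw [exp_log_pow hu, e_eq (D.q _)]

theorem norm_P (hD : D.Ok) {t : ℝ} (ht : t ∈ Icc (0 : ℝ) 1) (θ : ℝ) : ‖D.P t θ‖ = D.cv t := by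
  unfold PD.P
  rw [norm_mul, norm_e, mul_one, Complex.norm_real, Real.norm_eq_abs, abs_of_pos (hD.hcv t ht)]

theorem smK (hD : D.Ok) : ContDiff ℝ 2 (fun q : ℝ × ℝ × ℝ × ℝ => D.K q.1 q.2) := by
  have h1 : ContDiff ℝ 2 (fun q : ℝ × ℝ × ℝ × ℝ => D.q (q.1, q.2.2.2)) :=
    hD.cq.comp (by fun_prop)
  have h2 : ContDiff ℝ 2 (fun q : ℝ × ℝ × ℝ × ℝ => D.p (q.1, q.2.1)) :=
    hD.cp.comp (by fun_prop)
  have h3 : ContDiff ℝ 2 (fun q : ℝ × ℝ × ℝ × ℝ => D.cv q.1) := hD.ccv.comp contDiff_fst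
  have hof : ContDiff ℝ 2 (fun x : ℝ => (x : ℂ)) := Complex.ofRealCLM.contDiff
  unfold PD.K PD.mid
  refine ContDiff.add (ContDiff.add ?_ ?_) (ContDiff.sum fun σ _ => ?_)
  · refine ContDiff.mul (hof.comp ?_) (contDiff_e.comp h1)
    fun_prop
  · exact (hof.comp h3).mul (contDiff_e.comp h2)
  · have h4 : ContDiff ℝ 2 (fun q : ℝ × ℝ × ℝ × ℝ => D.c σ (q.1, q.2.1, q.2.2.2)) :=
      (hD.cc σ).comp (by fun_prop)
    have h5 : ContDiff ℝ 2 (fun q : ℝ × ℝ × ℝ × ℝ => D.ψ σ (q.1, q.2.1, q.2.2.2)) :=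
      (hD.cψ σ).comp (by fun_prop)
    refine ContDiff.mul (hof.comp (h4.mul ?_)) (contDiff_e.comp h5)
    fun_prop

theorem smPhi (n : ℕ) : ContDiffOn ℝ 2 (fun q : ℝ × ℝ × ℝ × ℝ =>
    ((q.1, n * q.2.1 / (2 * Real.pi), Real.log q.2.2.1, 15 * q.2.2.2 / (2 * Real.pi)) :
      ℝ × ℝ × ℝ × ℝ)) {q | 0 < q.2.2.1} := by
  refine ContDiffOn.prodMk (by fun_prop) (ContDiffOn.prodMk (by fun_prop)
    (ContDiffOn.prodMk ?_ (by fun_prop)))
  exact ContDiffOn.log (by fun_prop) fun q hq => ne_of_gt hq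

/-- **LIFT**: a regular family of polar data is a `UPath`. -/
theorem upath (hD : D.Ok) (hR : D.Reg) : UPath D.F D.P D.Qr := by
  obtain ⟨C, hC0, hC⟩ := bounded_all hD
  obtain ⟨m, hm, hml⟩ := cv_low hD
  obtain ⟨m', hm', hmu⟩ := cv_high hD
  have hn : (D.n : ℝ) ≠ 0 := by
    have := hD.hn
    positivity
  have hpi := pi_ne
  refine ⟨?_, ?_, ?_, ?_, ?_, ?_, fun t _ θ ω => rfl, ?_, ?_, ?_, ?_⟩
  · have h1 : ContDiffOn ℝ 2 (fun q : ℝ × ℝ × ℝ × ℝ =>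
        ((q.1, D.n * q.2.1 / (2 * Real.pi), Real.log q.2.2.1, 15 * q.2.2.2 / (2 * Real.pi)) :
          ℝ × ℝ × ℝ × ℝ)) (Icc (0 : ℝ) 1 ×ˢ {p : ℝ × ℝ × ℝ | 0 < p.2.1}) :=
      (smPhi D.n).mono fun q hq => hq.2
    have h2 := (smK hD).comp_contDiffOn h1
    exact h2.congr fun q _ => rfl
  · have hof : ContDiff ℝ 2 (fun x : ℝ => (x : ℂ)) := Complex.ofRealCLM.contDiff
    have h2 : ContDiff ℝ 2 (fun q : ℝ × ℝ => D.p (q.1, D.n * q.2 / (2 * Real.pi))) :=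
      hD.cp.comp (by fun_prop)
    exact ((hof.comp (hD.ccv.comp contDiff_fst)).mul (contDiff_e.comp h2)).contDiffOn
  · have h2 : ContDiff ℝ 2 (fun q : ℝ × ℝ × ℝ => D.q (q.1, 15 * q.2.2 / (2 * Real.pi))) :=
      hD.cq.comp (by fun_prop)
    exact (contDiff_const.mul h2).contDiffOn
  · intro t _ θ u ω _
    show D.K t (D.n * (θ + 2 * Real.pi) / (2 * Real.pi), Real.log u, 15 * ω / (2 * Real.pi)) =
      D.K t (D.n * θ / (2 * Real.pi), Real.log u, 15 * ω / (2 * Real.pi))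
    have e0 : D.n * (θ + 2 * Real.pi) / (2 * Real.pi) = D.n * θ / (2 * Real.pi) + D.n := by
      field_simp
    rw [e0]
    unfold PD.K PD.mid
    simp only [hD.pp, e_add_15, hD.pcx]
    congr 1
    refine Finset.sum_congr rfl fun σ _ => ?_
    obtain ⟨i, hi⟩ := hD.pψx σ
    rw [hi, e_add_int]
  · intro t _ θ u ω _
    show D.K t (D.n * θ / (2 * Real.pi), Real.log u, 15 * (ω + 2 * Real.pi) / (2 * Real.pi)) =
      D.K t (D.n * θ / (2 * Real.pi), Real.log u, 15 * ω / (2 * Real.pi))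
    have e0 : 15 * (ω + 2 * Real.pi) / (2 * Real.pi) = 15 * ω / (2 * Real.pi) + 15 := by
      field_simp
    rw [e0]
    unfold PD.K PD.mid
    simp only [hD.pq, e_add_15, hD.pcy]
    congr 1
    refine Finset.sum_congr rfl fun σ _ => ?_
    obtain ⟨j, hj⟩ := hD.pψy σ
    rw [hj, e_add_int]
  · intro t _ θ
    unfold PD.P
    have e0 : D.n * (θ + 2 * Real.pi) / (2 * Real.pi) = D.n * θ / (2 * Real.pi) + D.n := by
      field_simp
    rw [e0, hD.pp, e_add_15]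
  · intro t _ θ ω
    unfold PD.Qr
    have e0 : 15 * (ω + 2 * Real.pi) / (2 * Real.pi) = 15 * ω / (2 * Real.pi) + 15 := by
      field_simp
    rw [e0, hD.pq]; ring
  · -- low
    have hX : 0 < 1 + Fintype.card ι * C := by positivity
    refine ⟨min 1 (m / (2 * (1 + Fintype.card ι * C))), lt_min one_pos (by positivity),
      fun t ht θ u ω hu h => ?_⟩
    have hu1 : u ≤ 1 := h.trans (min_le_left _ _)
    rw [F_eq t hu, norm_P hD ht,
      show ((u ^ 15 : ℝ) : ℂ) * cis (D.Qr t θ ω) + D.P t θ +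
        D.mid t (D.n * θ / (2 * Real.pi), Real.log u, 15 * ω / (2 * Real.pi)) - D.P t θ =
        ((u ^ 15 : ℝ) : ℂ) * cis (D.Qr t θ ω) +
        D.mid t (D.n * θ / (2 * Real.pi), Real.log u, 15 * ω / (2 * Real.pi)) by ring]
    have h1 : ‖((u ^ 15 : ℝ) : ℂ) * cis (D.Qr t θ ω)‖ ≤ u := by
      rw [norm_mul, NCut_88.norm_cis, mul_one, Complex.norm_real, Real.norm_eq_abs,
        abs_of_pos (pow_pos hu _)]
      calc u ^ 15 ≤ u ^ 1 := pow_le_pow_of_le_one hu.le hu1 (by norm_num)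
        _ = u := pow_one u
    have h2 := norm_mid_le hD hC ht (D.n * θ / (2 * Real.pi), Real.log u,
      15 * ω / (2 * Real.pi)) u fun σ => exp_le_low (hD.hE σ).1 hu hu1
    have h3 : (1 + Fintype.card ι * C) * u ≤ m / 2 := by
      have := h.trans (min_le_right _ _)
      calc (1 + Fintype.card ι * C) * u ≤
          (1 + Fintype.card ι * C) * (m / (2 * (1 + Fintype.card ι * C))) :=
            mul_le_mul_of_nonneg_left this hX.le
        _ = m / 2 := by field_simp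
    have h4 := norm_add_le (((u ^ 15 : ℝ) : ℂ) * cis (D.Qr t θ ω))
      (D.mid t (D.n * θ / (2 * Real.pi), Real.log u, 15 * ω / (2 * Real.pi)))
    have h5 := hml t ht
    calc _ ≤ u + Fintype.card ι * (C * u) := h4.trans (add_le_add h1 h2)
      _ = (1 + Fintype.card ι * C) * u := by ring
      _ ≤ m / 2 := h3
      _ < m := by linarith
      _ ≤ _ := h5
  · -- high
    refine ⟨1 + (m' + Fintype.card ι * C), fun t ht θ u ω h => ?_⟩
    have hcC : 0 ≤ Fintype.card ι * C := by positivity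
    have hu1 : 1 ≤ u := by linarith
    have hu : 0 < u := by linarith
    rw [F_eq t hu,
      show ((u ^ 15 : ℝ) : ℂ) * cis (D.Qr t θ ω) + D.P t θ +
        D.mid t (D.n * θ / (2 * Real.pi), Real.log u, 15 * ω / (2 * Real.pi)) -
        ((u ^ 15 : ℝ) : ℂ) * cis (D.Qr t θ ω) = D.P t θ +
        D.mid t (D.n * θ / (2 * Real.pi), Real.log u, 15 * ω / (2 * Real.pi)) by ring]
    have h2 := norm_mid_le hD hC ht (D.n * θ / (2 * Real.pi), Real.log u,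
      15 * ω / (2 * Real.pi)) (u ^ 14) fun σ => exp_le_high (hD.hE σ).2 hu1
    have h4 := norm_add_le (D.P t θ)
      (D.mid t (D.n * θ / (2 * Real.pi), Real.log u, 15 * ω / (2 * Real.pi)))
    rw [norm_P hD ht] at h4
    have h5 := hmu t ht
    have h6 : 1 ≤ u ^ 14 := one_le_pow₀ hu1
    calc _ ≤ m' * u ^ 14 + Fintype.card ι * (C * u ^ 14) := by
          refine h4.trans (add_le_add ?_ h2)
          nlinarith
      _ = (m' + Fintype.card ι * C) * u ^ 14 := by ring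
      _ < u * u ^ 14 := mul_lt_mul_of_pos_right (by linarith) (by positivity)
      _ = u ^ 15 := by ring
  · -- regularity
    intro t ht θ u ω hu h0 c
    have hz := hR t ht (D.n * θ / (2 * Real.pi), Real.log u, 15 * ω / (2 * Real.pi)) h0
    obtain ⟨y, hy⟩ := hz c
    have hK : DifferentiableAt ℝ (D.K t)
        (D.n * θ / (2 * Real.pi), Real.log u, 15 * ω / (2 * Real.pi)) := by
      have := (smK hD).comp (contDiff_prodMk_right t)
      exact (this.differentiable (by norm_num)).differentiableAt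
    have g1 : HasFDerivAt (fun z : ℝ × ℝ × ℝ => D.n * z.1 / (2 * Real.pi))
        ((D.n / (2 * Real.pi)) • ContinuousLinearMap.fst ℝ ℝ (ℝ × ℝ)) (θ, u, ω) := by
      have := (ContinuousLinearMap.fst ℝ ℝ (ℝ × ℝ)).hasFDerivAt (x := (θ, u, ω))
      have := this.const_mul (D.n / (2 * Real.pi))
      have hfun : (fun z : ℝ × ℝ × ℝ => D.n * z.1 / (2 * Real.pi)) = fun z : ℝ × ℝ × ℝ =>
          D.n / (2 * Real.pi) * (ContinuousLinearMap.fst ℝ ℝ (ℝ × ℝ)) z := by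
        funext z
        show D.n * z.1 / (2 * Real.pi) = D.n / (2 * Real.pi) * z.1
        ring
      rw [hfun]
      exact this
    have g3 : HasFDerivAt (fun z : ℝ × ℝ × ℝ => 15 * z.2.2 / (2 * Real.pi))
        ((15 / (2 * Real.pi)) • (ContinuousLinearMap.snd ℝ ℝ ℝ).comp
          (ContinuousLinearMap.snd ℝ ℝ (ℝ × ℝ))) (θ, u, ω) := by
      have := ((ContinuousLinearMap.snd ℝ ℝ ℝ).comp
          (ContinuousLinearMap.snd ℝ ℝ (ℝ × ℝ))).hasFDerivAt (x := (θ, u, ω))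
      have := this.const_mul (15 / (2 * Real.pi))
      have hfun : (fun z : ℝ × ℝ × ℝ => 15 * z.2.2 / (2 * Real.pi)) = fun z : ℝ × ℝ × ℝ =>
          15 / (2 * Real.pi) * ((ContinuousLinearMap.snd ℝ ℝ ℝ).comp
          (ContinuousLinearMap.snd ℝ ℝ (ℝ × ℝ))) z := by
        funext z
        show 15 * z.2.2 / (2 * Real.pi) = 15 / (2 * Real.pi) * z.2.2
        ring
      rw [hfun]
      exact this
    have g2 : HasFDerivAt (fun z : ℝ × ℝ × ℝ => Real.log z.2.1)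
        (u⁻¹ • (ContinuousLinearMap.fst ℝ ℝ ℝ).comp
          (ContinuousLinearMap.snd ℝ ℝ (ℝ × ℝ))) (θ, u, ω) := by
      have := ((ContinuousLinearMap.fst ℝ ℝ ℝ).comp
          (ContinuousLinearMap.snd ℝ ℝ (ℝ × ℝ))).hasFDerivAt (x := (θ, u, ω))
      exact this.log hu.ne'
    have hφ := g1.prodMk (g2.prodMk g3)
    have hcomp := HasFDerivAt.comp (f := fun z : ℝ × ℝ × ℝ => ((D.n * z.1 / (2 * Real.pi),
      Real.log z.2.1, 15 * z.2.2 / (2 * Real.pi)) : ℝ × ℝ × ℝ)) (θ, u, ω) hK.hasFDerivAt hφ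
    have hF : fderiv ℝ (D.F t) (θ, u, ω) = _ := hcomp.fderiv
    refine ⟨(2 * Real.pi / D.n * y.1, u * y.2.1, 2 * Real.pi / 15 * y.2.2), ?_⟩
    rw [hF, ← hy]
    simp only [ContinuousLinearMap.comp_apply, ContinuousLinearMap.prod_apply,
      ContinuousLinearMap.smul_apply, ContinuousLinearMap.coe_fst', ContinuousLinearMap.coe_snd',
      smul_eq_mul]
    congr 1
    refine Prod.ext ?_ (Prod.ext ?_ ?_)
    · show D.n / (2 * Real.pi) * (2 * Real.pi / D.n * y.1) = y.1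
      field_simp
    · show u⁻¹ * (u * y.2.1) = y.2.1
      field_simp
    · show 15 / (2 * Real.pi) * (2 * Real.pi / 15 * y.2.2) = y.2.2
      field_simp

/-- **LIFT**, as an equivalence of triples. -/
theorem ceq {bo : Bool} {v : Fin 3} (hD : D.Ok) (hR : D.Reg) : CEq bo v (D.tri 0) (D.tri 1) :=
  (upath hD hR).ceq

end Crest.Agent.R267.NSLift_966
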