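import Crest.Agent.R267.HubDefs_284
import Crest.Agent.R267.Asm406_808
import Crest.Agent.R267.NdY_484
import Crest.Agent.R267.SFLDc_330
import Crest.Agent.R267.NSLift_966
import Crest.Agent.R267.PlStart_484

-- ▼ part R267/HubAsm_284
section

/-!
# S0406, hub step: assembly (helper284)

* bridges between the stages of `HubDefs_284` (`fs_slice`, `fs_one`, `fs_zero`, `hx_zero`);
* `hub` : `PowP`, `BoxP`, `StartP`, `Path1P`, `Path2P` give
  `∃ M0, ∀ M ≥ M0, ZEq (F1 b D M) (XX b D).fn`;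
* `xx_ok`, `xx_okF`, `xx_okG` : the final polar data are admissible;
* `ArmsP b D` (C1) and `hubProp` : the function level `HubProp b D`;
* `lit` : the literal S0406.
-/

set_option autoImplicit false

noncomputable section

open Finset Set
open Crest.Agent.R267.T3aNDefs_88 Crest.Agent.R267.Hm_951 Crest.Agent.R267.Ang_739
open Crest.Agent.R267.GlNDefs_9 Crest.Agent.R267.NdR_484 Crest.Agent.R267.StairFn_739
open Crest.Agent.R267.WordPh_9 Crest.Agent.R267.WordPh2_9 Crest.Agent.R267.HubDefs_284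
open Crest.Agent.R267.PolF_943 Crest.Agent.R267.NdY_484 Crest.Agent.R267.Asm406_808
open Crest.Agent.R267.SFLDc_330 Crest.Agent.R267.SFLDb_330 Crest.Agent.R267.SFLDa_330
open Crest.Agent.R267.SFDefs_330 Crest.Agent.R267.SFLD_330

namespace Crest.Agent.R267.HubAsm_284

variable (b : Bool) (D : SD 4)

/-! ### slices of the hub family -/

/-- a slice only sees the values of the parameters at that time. -/
theorem fs_slice (H : ℕ → ℕ → ℝ → ℝ) (s : ℝ → ℝ) (A B : ℝ → ℝ → ℝ) (t : ℝ) (z : E4) :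
    Fs b D H s A B (t, z) =
      Fs b D H (fun _ => s t) (fun _ x => A t x) (fun _ x => B t x) (0, z) := by
  unfold Fs PF
  refine Finset.sum_congr rfl fun v _ => ?_
  rcases v with i | k | e <;> rfl

/-- at `s = 1` the family is the hub function. -/
theorem fs_one (H : ℕ → ℕ → ℝ → ℝ) (A B : ℝ → ℝ → ℝ) :
    Fs b D H (fun _ => 1) A B = (HX b D H A B).fn := by
  funext q
  unfold Fs HubEng_370.Hub.fn PF
  refine Finset.sum_congr rfl fun v _ => ?_
  rcases v with i | k | e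
  · rfl
  · unfold PM
    congr 1
    show ((HX b D H A B).amp k (q.1, ag q.2) : ℂ) *
        cis (StairPh_739.path (Ph b H k) (hh b D) (vc b k) (1, ag q.2)) =
      ((HX b D H A B).amp k (q.1, ag q.2) : ℂ) *
        cis (Ph b H k (StairPh_739.lft (hh b D) (ag q.2)))
    rw [StairPh_739.path]
    simp
  · rfl

/-- at `s = 0` the family does not see the staircases. -/
theorem fs_zero (H H' : ℕ → ℕ → ℝ → ℝ) (A B : ℝ → ℝ → ℝ) :
    Fs b D H (fun _ => 0) A B = Fs b D H' (fun _ => 0) A B := by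
  funext q
  unfold Fs PF
  refine Finset.sum_congr rfl fun v _ => ?_
  rcases v with i | k | e
  · rfl
  · unfold PM
    congr 1
    show ((HX b D H A B).amp k (q.1, ag q.2) : ℂ) *
        cis (StairPh_739.path (Ph b H k) (hh b D) (vc b k) (0, ag q.2)) =
      ((HX b D H' A B).amp k (q.1, ag q.2) : ℂ) *
        cis (StairPh_739.path (Ph b H' k) (hh b D) (vc b k) (0, ag q.2))
    rw [StairPh_739.path, StairPh_739.path]
    simp only [zero_mul, add_zero]
    rfl
  · rfl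

theorem hx_slice (H : ℕ → ℕ → ℝ → ℝ) (A B : ℝ → ℝ → ℝ) (t : ℝ) (z : E4) :
    (HX b D H A B).fn (t, z) = (HX b D H (fun _ x => A t x) (fun _ x => B t x)).fn (0, z) := by
  rw [← fs_one, ← fs_one, fs_slice]

/-- magnitude of a box -/
theorem mag_box (S : Finset (Fin 4)) (d : Fin 4 → ℝ) (z : E4) :
    mag (fun j => if j ∈ S then d j else 0) z = ∏ j ∈ S, ‖z j‖ ^ d j := by
  unfold mag
  rw [← Finset.prod_filter_mul_prod_filter_not Finset.univ (fun j => j ∈ S)]
  have h1 : ∏ j ∈ Finset.univ.filter (fun j => ¬ j ∈ S), ‖z j‖ ^ (if j ∈ S then d j else 0) =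
      1 := by
    refine Finset.prod_eq_one fun j hj => ?_
    rw [if_neg (Finset.mem_filter.1 hj).2, Real.rpow_zero]
  rw [h1, mul_one]
  refine Finset.prod_congr (by ext; simp) fun j hj => ?_
  show ‖z j‖ ^ (if j ∈ S then d j else 0) = _
  rw [if_pos (by simpa using hj)]

/-- the end of the hub step. -/
theorem hx_zero (H : ℕ → ℕ → ℝ → ℝ) (A B : ℝ → ℝ → ℝ) {t : ℝ} (hA : ∀ x, A t x = 0)
    (hB : ∀ x, B t x = 0) (z : E4) : (HX b D H A B).fn (t, z) = (XX b D).fn z := by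
  unfold HubEng_370.Hub.fn PF
  rw [Fintype.sum_sum_type, Fintype.sum_sum_type]
  have e1 : ∀ i : Fin 4, PM ((HX b D H A B).E (Sum.inl i)) ((HX b D H A B).C (Sum.inl i)) (t, z) =
      pc (D3 b i) 1 (pp D i) (z i) := by
    intro i
    show (mag (Pi.single i (D3 b i)) z : ℂ) * cis (pp D i (ag z i)) = _
    rw [HubEng_370.Hub.mag_single]
    simp only [pc, pol, Complex.real_smul, Complex.ofReal_one, one_mul]
    rfl
  have e2 : ∀ k : Fin 2, PM ((HX b D H A B).E (Sum.inr (Sum.inl k)))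
      ((HX b D H A B).C (Sum.inr (Sum.inl k))) (t, z) = 0 := by
    intro k
    have : (HX b D H A B).amp k (t, ag z) = 0 := by
      show (if k = 0 then A t (ag z 0) else B t (ag z 0)) = 0
      rw [hA, hB, ite_self]
    show (mag _ z : ℂ) * ((((HX b D H A B).amp k (t, ag z) : ℝ) : ℂ) * _) = 0
    rw [this]
    simp
  have e3 : ∀ e : Fin D.nb, PM ((HX b D H A B).E (Sum.inr (Sum.inr e)))
      ((HX b D H A B).C (Sum.inr (Sum.inr e))) (t, z) =
      -((cc D e * ∏ j ∈ (D.bx e).S, pol (D3 b j / cd D e) (ww D e j) (z j) : ℝ) : ℂ) := by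
    intro e
    show (mag (fun j => if j ∈ (D.bx e).S then D3 b j / cd D e else 0) z : ℂ) *
      (-((cc D e * (∏ j, (if j ∈ (D.bx e).S then ww D e j else fun _ => 1) (ag z j)) : ℝ) : ℂ)) = _
    rw [mag_box]
    have h1 : ∏ j, (if j ∈ (D.bx e).S then ww D e j else fun _ => (1 : ℝ)) (ag z j) =
        ∏ j ∈ (D.bx e).S, ww D e j (ag z j) := by
      rw [← Finset.prod_filter_mul_prod_filter_not Finset.univ (fun j => j ∈ (D.bx e).S)]
      have h2 : ∏ j ∈ Finset.univ.filter (fun j => ¬ j ∈ (D.bx e).S),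
          (if j ∈ (D.bx e).S then ww D e j else fun _ => (1 : ℝ)) (ag z j) = 1 := by
        refine Finset.prod_eq_one fun j hj => ?_
        rw [if_neg (Finset.mem_filter.1 hj).2]
      rw [h2, mul_one]
      refine Finset.prod_congr (by ext; simp) fun j hj => ?_
      rw [if_pos (by simpa using hj)]
    have h3 : ∏ j ∈ (D.bx e).S, pol (D3 b j / cd D e) (ww D e j) (z j) =
        (∏ j ∈ (D.bx e).S, ‖z j‖ ^ (D3 b j / cd D e)) * ∏ j ∈ (D.bx e).S, ww D e j (ag z j) := by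
      rw [← Finset.prod_mul_distrib]
      rfl
    rw [h1, h3]
    push_cast
    ring
  rw [Finset.sum_congr rfl fun i _ => e1 i, Finset.sum_congr rfl fun k _ => e2 k,
    Finset.sum_congr rfl fun e _ => e3 e]
  unfold PD.fn
  simp only [Finset.sum_const_zero, zero_add, Finset.sum_neg_distrib, Complex.ofReal_sum]
  rfl

/-! ### the chain -/

/-- **the hub step**: from `F1` to the final polar function. -/
theorem hub (hP : PowP b D) (hB : BoxP b D) (hS : StartP b D) (h1 : Path1P b D)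
    (h2 : Path2P b D) : ∃ M0 : ℝ, ∀ M ≥ M0, ZEq (F1 b D M) (XX b D).fn := by
  obtain ⟨mB, hB⟩ := hB
  obtain ⟨mS, hS⟩ := hS
  obtain ⟨m1, h1⟩ := h1
  obtain ⟨m2, h2⟩ := h2
  refine ⟨max (max mB mS) (max m1 m2), fun M hM => ?_⟩
  have z0 := hP M
  have z1 := (hB M (((le_max_left _ _).trans (le_max_left _ _)).trans hM)).link
  have z2 := (hS M (((le_max_right _ _).trans (le_max_left _ _)).trans hM)).link
  have z3 := (h1 M (((le_max_left _ _).trans (le_max_right _ _)).trans hM)).link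
  have z4 := (h2 M (((le_max_right _ _).trans (le_max_right _ _)).trans hM)).link
  -- the corners
  have e0 : (fun x : E4 => (fun q : ℝ × E4 => Fs b D Gs (fun _ => 0) (fun _ _ => M) (fun _ _ => M)
      (0, q.2) + (((1 - q.1) * (boxP D (D3 b) q.2 - boxH D (D3 b) q.2) : ℝ) : ℂ)) (0, x)) =
      F2 b D M := by
    funext x
    simp only [F2, sub_zero, one_mul]
  have e1 : (fun x : E4 => (fun q : ℝ × E4 => Fs b D Gs (fun _ => 0) (fun _ _ => M) (fun _ _ => M)
      (0, q.2) + (((1 - q.1) * (boxP D (D3 b) q.2 - boxH D (D3 b) q.2) : ℝ) : ℂ)) (1, x)) =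
      fun x => Fs b D (Hs dd_pos) (fun t => t) (fun _ _ => M) (fun _ _ => M) (0, x) := by
    funext x
    simp only [sub_self, zero_mul, Complex.ofReal_zero, add_zero]
    rw [fs_zero b D Gs (Hs dd_pos)]
    exact (fs_slice b D (Hs dd_pos) (fun t => t) (fun _ _ => M) (fun _ _ => M) 0 x).symm
  have e2 : (fun x : E4 => Fs b D (Hs dd_pos) (fun t => t) (fun _ _ => M) (fun _ _ => M) (1, x)) =
      fun x => (HX b D (Hs dd_pos) (fun t x => M * (1 - t * (1 - chi b D x)))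
        fun t x => M * (1 - t * chi b D x)).fn (0, x) := by
    funext x
    rw [fs_slice, fs_one, hx_slice b D (Hs dd_pos) (fun t x => M * (1 - t * (1 - chi b D x)))]
    simp only [zero_mul, sub_zero, mul_one]
  have e3 : (fun x : E4 => (HX b D (Hs dd_pos) (fun t x => M * (1 - t * (1 - chi b D x)))
        fun t x => M * (1 - t * chi b D x)).fn (1, x)) =
      fun x => (HX b D (Hs dd_pos) (fun t x => (1 - t) * (M * chi b D x))
        fun t x => (1 - t) * (M * (1 - chi b D x))).fn (0, x) := by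
    funext x
    rw [hx_slice, hx_slice b D (Hs dd_pos) (fun t x => (1 - t) * (M * chi b D x))]
    simp only [one_mul, sub_zero, sub_sub_cancel]
  have e4 : (fun x : E4 => (HX b D (Hs dd_pos) (fun t x => (1 - t) * (M * chi b D x))
        fun t x => (1 - t) * (M * (1 - chi b D x))).fn (1, x)) = (XX b D).fn := by
    funext x
    exact hx_zero b D _ _ _ (fun y => by ring) (fun y => by ring) x
  rw [e0, e1] at z1
  rw [e2] at z2
  rw [e3] at z3
  rw [e4] at z4
  exact z0.trans (z1.trans (z2.trans (z3.trans z4)))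

/-! ### the final polar data are admissible -/

variable {b D}




/-! ### the function level -/

variable (b D)

/-- **C1**: the official arms are joined to arms in target form. -/
def ArmsP : Prop := ∃ r1 : ℝ, 0 < r1 ∧ ∀ r, 0 < r → r ≤ r1 → ∃ W1 : ℝ, ∀ W, W1 ≤ W →
  ∃ A : Fin 3 → ℂ × ℂ → ℂ, (∀ v, AEq b v (Ab b W r v) (A v)) ∧ ∀ v, Tgt b D v (A v)

variable {b D}

/-- the official arms are arms. -/
theorem arm_Ab (b : Bool) : ∃ r1 : ℝ, 0 < r1 ∧ ∃ W0 : ℝ, ∀ W ≥ W0, ∀ r, 0 < r → r ≤ r1 →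
    ∀ v, Arm b v (Ab b W r v) := by
  obtain ⟨r1, hr1, W0, _, H⟩ := NdZ_484.arms_arm
  refine ⟨r1, hr1, W0, fun W hW r hr hrr => ?_⟩
  obtain ⟨h1, h2⟩ := H W hW r hr hrr
  cases b
  · exact h2
  · exact h1

/-- **the function level** `HubProp` from the arrows C1, C2, C3, C4, C7. -/
theorem hubProp (hA : ArmsP b D) (hG : GamP b D) (hP : PowP b D) (hB : BoxP b D)
    (hS : StartP b D) (h1 : Path1P b D) (h2 : Path2P b D) (hX : (XX b D).Ok) : HubProp b D := by
  obtain ⟨mh, hh⟩ := hub b D hP hB hS h1 h2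
  obtain ⟨r1, hr1, h⟩ := hA
  obtain ⟨r2, hr2, W0, H⟩ := arm_Ab b
  refine ⟨min r1 r2, lt_min hr1 hr2, fun r hr hrr => ?_⟩
  obtain ⟨W1, h⟩ := h r hr (hrr.trans (min_le_left _ _))
  refine ⟨max W0 W1, fun W hW M0 => ?_⟩
  obtain ⟨A, hA, hT⟩ := h W ((le_max_right _ _).trans hW)
  obtain ⟨hArm, m, _, hm⟩ := zeq_of_aeq
    (H W ((le_max_left _ _).trans hW) r hr (hrr.trans (min_le_right _ _))) hA
  obtain ⟨mg, hg⟩ := hG A hArm hT
  refine ⟨max (max M0 m) (max mg mh), (le_max_left _ _).trans (le_max_left _ _), XX b D, hX, ?_⟩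
  exact (hm _ ((le_max_right _ _).trans (le_max_left _ _))).trans
    ((hg _ ((le_max_left _ _).trans (le_max_right _ _))).trans
      (hh _ ((le_max_right _ _).trans (le_max_right _ _))))

end Crest.Agent.R267.HubAsm_284
end
end

-- ▼ part R267/NEnt_407
section

/-!
# Row 267, C1 (helper407): the entry in the letters of `NSDefs_966`, `NStep_88`

* `arm_congr` : the arm of a triple only sees `F` for `u > 0`;
* `entry_tri` : 484's entry ends in `((S.pathA (S.Mr a r) (Mvr a r)).tri 0).arm`.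
-/

set_option autoImplicit false
set_option linter.unusedSectionVars false

noncomputable section

open Set
open scoped Real
open Crest.Agent.R267.NdR_484 Crest.Agent.R267.NdS_484 Crest.Agent.R267.NdY_484
open Crest.Agent.R267.PolArm_484 Crest.Agent.R267.NSDefs_966 Crest.Agent.R267.NCut_88
open Crest.Agent.R267.NStep_88 Crest.Agent.R267.PlStart_484

namespace Crest.Agent.R267.NEnt_407

variable {m : ℕ} {b : Bool} {v : Fin 3}

theorem PA_congr {h h' : ℝ × ℝ × ℝ → ℂ} (H : ∀ θ u ω, 0 ≤ u → h (θ, u, ω) = h' (θ, u, ω)) :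
    PA b v h = PA b v h' := by
  funext z
  unfold PA LA
  simp only
  rw [H _ _ _ (norm_nonneg _)]

theorem arm_congr {F F' : ℝ × ℝ × ℝ → ℂ} {P P' : ℝ → ℂ} {Q Q' : ℝ → ℝ → ℝ} {a c : ℝ} (ha : 0 < a)
    (hac : a ≤ c) (hF : ∀ θ u ω, 0 < u → F (θ, u, ω) = F' (θ, u, ω)) (hP : ∀ θ, P θ = P' θ)
    (hQ : ∀ θ ω, Q θ ω = Q' θ ω) :
    PA b v (cut a c F P Q) = PA b v (cut a c F' P' Q') := by
  have hP' : P = P' := funext hP
  have hQ' : Q = Q' := funext fun θ => funext fun ω => hQ θ ω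
  subst hP' hQ'
  refine PA_congr fun θ u ω _ => ?_
  rcases le_or_gt u (a / 2) with h | h
  · rw [cut_inner ha hac (q := (θ, u, ω)) h, cut_inner ha hac (q := (θ, u, ω)) h]
  · unfold cut
    rw [hF θ u ω (by simpa using lt_of_le_of_lt (by positivity : (0 : ℝ) ≤ a / 2) h)]

/-- exponents of `r`. -/
def xN (S : NS m) (a : ℕ) (s : Fin (m + 2)) : ℕ := a * S.i s + S.j s - 15

/-- linear phases. -/
def lin (S : NS m) (s : Fin (m + 2)) (θ ω : ℝ) : ℝ := S.i s * θ + S.j s * ω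

theorem exp_mul_log {u : ℝ} (hu : 0 < u) (j : ℕ) : Real.exp ((j : ℝ) * Real.log u) = u ^ j := by
  rw [← Real.log_pow, Real.exp_log (pow_pos hu _)]

theorem tri0_F (S : NS m) (hS : S.Ok) (a : ℕ) (r : ℝ) {θ u ω : ℝ} (hu : 0 < u) :
    (S.pathA (S.Mr a r) (NS.Mvr a r)).F 0 (θ, u, ω) = Fz r (xN S a) S.j (lin S) (θ, u, ω) := by
  have hn : (S.n : ℝ) ≠ 0 := by
    have := hS.hn
    positivity
  have hpi : (2 * π : ℝ) ≠ 0 := by positivity
  unfold Fz
  rw [Fin.sum_univ_succ, Fin.sum_univ_castSucc]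
  rw [NSLift_966.F_eq 0 hu]
  have e0 : (S.pathA (S.Mr a r) (NS.Mvr a r)).Qr 0 θ ω = lin S 0 θ ω := by
    unfold PD.Qr NS.pathA lin
    simp only [hS.i0, hS.j0]
    push_cast
    field_simp
    ring
  have e1 : (S.pathA (S.Mr a r) (NS.Mvr a r)).P 0 θ =
      ((r ^ xN S a (Fin.last (m + 1)) : ℝ) : ℂ) * cis (lin S (Fin.last (m + 1)) θ ω) := by
    unfold PD.P
    rw [NSLift_966.e_eq]
    have h1 : NS.Mvr a r = r ^ xN S a (Fin.last (m + 1)) := by
      unfold NS.Mvr xN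
      rw [hS.i1, hS.j1]
      congr 1
      omega
    have h2 : 2 * π * (S.pathA (S.Mr a r) (NS.Mvr a r)).p (0, (S.pathA (S.Mr a r) (NS.Mvr a r)).n *
        θ / (2 * π)) = lin S (Fin.last (m + 1)) θ ω := by
      unfold NS.pathA lin
      simp only [hS.i1, hS.j1]
      push_cast
      field_simp
      ring
    rw [h2]
    show ((NS.Mvr a r : ℝ) : ℂ) * _ = _
    rw [h1]
  have e2 : (S.pathA (S.Mr a r) (NS.Mvr a r)).mid 0 ((S.pathA (S.Mr a r) (NS.Mvr a r)).n * θ /
      (2 * π), Real.log u, 15 * ω / (2 * π)) =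
      ∑ s : Fin m, ((r ^ xN S a s.castSucc.succ * u ^ S.j s.castSucc.succ : ℝ) : ℂ) *
        cis (lin S s.castSucc.succ θ ω) := by
    unfold PD.mid
    refine Finset.sum_congr rfl fun s _ => ?_
    have h2 : 2 * π * (S.pathA (S.Mr a r) (NS.Mvr a r)).ψ s (0,
        (S.pathA (S.Mr a r) (NS.Mvr a r)).n * θ / (2 * π), 15 * ω / (2 * π)) =
        lin S s.castSucc.succ θ ω := by
      unfold NS.pathA lin NS.ix
      simp only
      field_simp
      ring
    rw [NSLift_966.e_eq, h2]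
    congr 2
    show S.Mr a r s * Real.exp ((S.j (NS.ix s) : ℝ) * Real.log u) = _
    rw [exp_mul_log hu]
    rfl
  rw [e0, e1, e2]
  have e3 : ((r ^ xN S a 0 * u ^ S.j 0 : ℝ) : ℂ) = ((u ^ 15 : ℝ) : ℂ) := by
    have : xN S a 0 = 0 := by
      unfold xN
      rw [hS.i0, hS.j0]
      simp
    rw [this, hS.j0, pow_zero, one_mul]
  have e4 : ((r ^ xN S a (Fin.last (m + 1)) * u ^ S.j (Fin.last (m + 1)) : ℝ) : ℂ) =
      ((r ^ xN S a (Fin.last (m + 1)) : ℝ) : ℂ) := by
    rw [hS.j1, pow_zero, mul_one]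
  simp only [Fin.succ_last]
  rw [e3, e4]
  ring

/-- **the entry**: from the official arm to the start of path A. -/
theorem entry_tri {S : NS m} (hS : S.Ok) {T : Finset (ℕ × ℕ)}
    (hD : PlStart_484.Dat (aw b v) T S.i S.j (xN S (aw b v)) 0 (Fin.last (m + 1)))
    (hd : ArmDat (aw b v) T (fun _ => 1)) :
    ∃ r1 : ℝ, 0 < r1 ∧ ∃ W0 : ℝ, 1 ≤ W0 ∧ ∃ b0 : ℝ, 0 < b0 ∧ ∀ r, 0 < r → r ≤ r1 →
      ∃ a0 : ℝ, 0 < a0 ∧ ∀ a, 0 < a → a ≤ a0 → ∀ c ≥ b0, a ≤ c → ∀ W ≥ W0,
        AStep b v (Ac (aw b v) T (fun _ => 1) W r)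
          (((S.pathA (S.Mr (aw b v) r) (NS.Mvr (aw b v) r)).tri 0).arm b v a c) := by
  obtain ⟨r1, hr1, W0, hW0, b0, hb0, H⟩ := PlStart_484.entry hD hd (ψ := lin S) fun _ _ _ => rfl
  refine ⟨r1, hr1, W0, hW0, b0, hb0, fun r hr hrr => ?_⟩
  obtain ⟨a0, ha0, K⟩ := H r hr hrr
  refine ⟨a0, ha0, fun a ha haa c hc hac W hW => ?_⟩
  have := K a ha haa c hc W hW
  have e : PA b v (cut a c (Fz r (xN S (aw b v)) S.j (lin S))
      (Pz r (xN S (aw b v)) (lin S) (Fin.last (m + 1))) (lin S 0)) =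
      ((S.pathA (S.Mr (aw b v) r) (NS.Mvr (aw b v) r)).tri 0).arm b v a c := by
    refine arm_congr ha hac (fun θ u ω hu => (tri0_F S hS _ r hu).symm) (fun θ => ?_)
      fun θ ω => ?_
    · unfold Pz
      show _ = (S.pathA (S.Mr (aw b v) r) (NS.Mvr (aw b v) r)).P 0 θ
      unfold PD.P
      rw [NSLift_966.e_eq]
      have h1 : NS.Mvr (aw b v) r = r ^ xN S (aw b v) (Fin.last (m + 1)) := by
        unfold NS.Mvr xN
        rw [hS.i1, hS.j1]
        congr 1
        omega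
      have hn : (S.n : ℝ) ≠ 0 := by
        have := hS.hn
        positivity
      have h2 : 2 * π * (S.pathA (S.Mr (aw b v) r) (NS.Mvr (aw b v) r)).p (0,
          (S.pathA (S.Mr (aw b v) r) (NS.Mvr (aw b v) r)).n * θ / (2 * π)) =
          lin S (Fin.last (m + 1)) θ 0 := by
        unfold NS.pathA lin
        simp only [hS.i1, hS.j1]
        push_cast
        field_simp
        ring
      rw [h2]
      show _ = ((NS.Mvr (aw b v) r : ℝ) : ℂ) * _
      rw [h1]
    · show lin S 0 θ ω = (S.pathA (S.Mr (aw b v) r) (NS.Mvr (aw b v) r)).Qr 0 θ ω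
      unfold PD.Qr NS.pathA lin
      simp only [hS.i0, hS.j0]
      push_cast
      field_simp
      ring
  rw [← e]
  exact this

end Crest.Agent.R267.NEnt_407
end
end

-- ▼ part R267/NSSplice_966

/-!
# Row 267, C1: splices and the chain of one arm (helper966)

`tri_AB`, `tri_BC`, `tri_CC`, `tri_Cfin` : equality of the ends of consecutive families;
`chain_of` : from the official arm (path A at `t = 0`) to the end form `S.fin`.
-/

set_option autoImplicit false
set_option linter.unusedSectionVars false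

noncomputable section

open Set Filter Topology Finset
open Crest.Agent.R267.T3aDefs_957 (st)
open Crest.Agent.R267.Calc_957
open Crest.Agent.R267.NSDefs_966
open Crest.Agent.R267.NSHat_966
open Crest.Agent.R267.NSOk_966
open Crest.Agent.R267.NSLift_966
open Crest.Agent.R267.NStep_88

namespace Crest.Agent.R267.NSSplice_966

variable {m : ℕ} {S : NS m}

/-- equality of triples from equality of the data at the two times. -/
theorem tri_ext {ι κ : Type} [Fintype ι] [Fintype κ] {D : PD ι} {D' : PD κ} {t t' : ℝ}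
    (hn : D.n = D'.n) (hq : ∀ y, D.q (t, y) = D'.q (t', y)) (hcv : D.cv t = D'.cv t')
    (hp : ∀ x, D.p (t, x) = D'.p (t', x)) (hm : ∀ z, D.mid t z = D'.mid t' z) :
    D.tri t = D'.tri t' := by
  have hK : ∀ z, D.K t z = D'.K t' z := fun z => by
    unfold PD.K
    rw [hq, hcv, hp, hm]
  unfold PD.tri
  congr 1
  · funext z
    unfold PD.F
    rw [hK, hn]
  · funext θ
    unfold PD.P
    rw [hcv, hp, hn]
  · funext θ ω
    unfold PD.Qr
    rw [hq]

/-- where the window of a term is active, its phase is an integer. -/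
theorem fl_hat (S : NS m) (s : Fin (m + 2)) (x y : ℝ) (h : S.fl s x y ≠ 0) :
    ∃ k : ℤ, S.hat s x y = k := by
  obtain ⟨k, hk1, hk2⟩ := exists_cell2 x
  obtain ⟨l, hl1, hl2⟩ := exists_cell2 y
  have hfl : S.fl s x y = _ := bilG_eq (fun k l => if S.flat s k l then (1 : ℝ) else 0) k l hk1
    (by linarith) hl1 (by linarith)
  have hhat : S.hat s x y = _ := bilS_eq (fun k l => (S.N s k l : ℝ)) k l (by linarith) hk2.le
    (by linarith) hl2.le
  rw [hfl] at h
  rcases le_or_gt (x - k) (1 / 2) with hx | hx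
  · have e1 : st (2 * (x - k) - 1) = 0 := st_of_le (by linarith)
    rcases le_or_gt (y - l) (1 / 2) with hy | hy
    · have e2 : st (2 * (y - l) - 1) = 0 := st_of_le (by linarith)
      rw [e1, e2] at h
      unfold bf at h
      have hf : S.flat s k l := by
        by_contra hc
        simp [hc] at h
      refine ⟨S.N s k l, ?_⟩
      rw [hhat]
      unfold bf
      rw [hf.1, hf.2.1, hf.2.2]
      ring
    · have e2 : st (2 * (y - l)) = 1 := st_of_ge (by linarith)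
      rw [e1] at h
      unfold bf at h
      have hf : S.N s (k + 1) (l + 1) = S.N s k (l + 1) := by
        by_cases h1 : S.flat s k l
        · rw [h1.2.2, h1.2.1]
        · by_cases h2 : S.flat s k (l + 1)
          · exact h2.1
          · simp [h1, h2] at h
      refine ⟨S.N s k (l + 1), ?_⟩
      rw [hhat, e2]
      unfold bf
      rw [hf]
      ring
  · have e1 : st (2 * (x - k)) = 1 := st_of_ge (by linarith)
    rcases le_or_gt (y - l) (1 / 2) with hy | hy
    · have e2 : st (2 * (y - l) - 1) = 0 := st_of_le (by linarith)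
      rw [e2] at h
      unfold bf at h
      have hf : S.N s (k + 1) (l + 1) = S.N s (k + 1) l := by
        by_cases h1 : S.flat s k l
        · rw [h1.2.2, h1.1]
        · by_cases h2 : S.flat s (k + 1) l
          · exact h2.2.1
          · simp [h1, h2] at h
      refine ⟨S.N s (k + 1) l, ?_⟩
      rw [hhat, e1]
      unfold bf
      rw [hf]
      ring
    · have e2 : st (2 * (y - l)) = 1 := st_of_ge (by linarith)
      refine ⟨S.N s (k + 1) (l + 1), ?_⟩
      rw [hhat, e1, e2]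
      unfold bf
      ring

theorem fl_e (S : NS m) (s : Fin (m + 2)) (x y : ℝ) :
    ((S.fl s x y : ℝ) : ℂ) * e (S.hat s x y + 1 / 2) = ((S.fl s x y : ℝ) : ℂ) * e (1 / 2) := by
  by_cases h : S.fl s x y = 0
  · rw [h]; simp
  · obtain ⟨k, hk⟩ := fl_hat S s x y h
    rw [hk, add_comm, e_add_int]

theorem tri_AB (M : Fin m → ℝ) (Mv : ℝ) : (S.pathA M Mv).tri 1 = (S.pathB M Mv).tri 0 := by
  refine tri_ext rfl (fun y => ?_) rfl (fun x => ?_) fun z => ?_
  · show (1 - 1) * y + 1 * (Sp y + 1 / 2) = Sp y + 1 / 2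
    ring
  · show (1 - 1) * (15 * x / S.n) + 1 * (S.hat (Fin.last (m + 1)) x 0 + 1 / 2) =
      S.hat (Fin.last (m + 1)) x 0 + 1 / 2
    ring
  · unfold PD.mid
    refine Finset.sum_congr rfl fun σ _ => ?_
    show ((M σ * Real.exp (S.j (NS.ix σ) * z.2.1) : ℝ) : ℂ) *
      e ((1 - 1) * (S.i (NS.ix σ) * z.1 / S.n + S.j (NS.ix σ) * z.2.2 / 15) +
        1 * (S.hat (NS.ix σ) z.1 z.2.2 + 1 / 2)) =
      ((M σ * (1 - 0 + 0 * S.fl (NS.ix σ) z.1 z.2.2) * Real.exp (S.j (NS.ix σ) * z.2.1) : ℝ) : ℂ) *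
      e (S.hat (NS.ix σ) z.1 z.2.2 + 1 / 2)
    congr 2
    · ring_nf
    · ring

theorem tri_BC (M : Fin m → ℝ) (Mv : ℝ) (h1 h2 : ℝ → ℝ) (hh1 : h1 0 = 0) (hh2 : h2 0 = 1) :
    (S.pathB M Mv).tri 1 = (S.pathC M (fun _ => Mv) h1 h2).tri 0 := by
  refine tri_ext rfl (fun y => rfl) rfl (fun x => rfl) fun z => ?_
  unfold PD.mid
  rw [Fintype.sum_option]
  have e0 : (((S.pathC M (fun _ => Mv) h1 h2).c none (0, z.1, z.2.2) *
      Real.exp ((S.pathC M (fun _ => Mv) h1 h2).E none * z.2.1) : ℝ) : ℂ) *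
      e ((S.pathC M (fun _ => Mv) h1 h2).ψ none (0, z.1, z.2.2)) = 0 := by
    show ((h1 0 * S.kl z.1 z.2.2 * Real.exp (15 / 2 * z.2.1) : ℝ) : ℂ) * e (1 / 2) = 0
    rw [hh1]; simp
  rw [e0, zero_add]
  refine Finset.sum_congr rfl fun σ _ => ?_
  show ((M σ * (1 - 1 + 1 * S.fl (NS.ix σ) z.1 z.2.2) * Real.exp (S.j (NS.ix σ) * z.2.1) : ℝ) : ℂ) *
      e (S.hat (NS.ix σ) z.1 z.2.2 + 1 / 2) =
    ((M σ * h2 0 * S.fl (NS.ix σ) z.1 z.2.2 * Real.exp (S.j (NS.ix σ) * z.2.1) : ℝ) : ℂ) *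
      e (1 / 2)
  have h := fl_e S (NS.ix σ) z.1 z.2.2
  rw [hh2]
  push_cast
  linear_combination (M σ : ℂ) * Complex.exp (S.j (NS.ix σ) * z.2.1) * h

theorem tri_CC (M : Fin m → ℝ) {cv h1 h2 cv' h1' h2' : ℝ → ℝ} {t t' : ℝ} (e0 : cv t = cv' t')
    (e1 : h1 t = h1' t') (e2 : h2 t = h2' t') :
    (S.pathC M cv h1 h2).tri t = (S.pathC M cv' h1' h2').tri t' := by
  refine tri_ext rfl (fun y => rfl) e0 (fun x => rfl) fun z => ?_
  unfold PD.mid
  rw [Fintype.sum_option, Fintype.sum_option]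
  congr 1
  · show ((h1 t * S.kl z.1 z.2.2 * Real.exp (15 / 2 * z.2.1) : ℝ) : ℂ) * e (1 / 2) =
      ((h1' t' * S.kl z.1 z.2.2 * Real.exp (15 / 2 * z.2.1) : ℝ) : ℂ) * e (1 / 2)
    rw [e1]
  · refine Finset.sum_congr rfl fun σ _ => ?_
    show ((M σ * h2 t * S.fl (NS.ix σ) z.1 z.2.2 * Real.exp (S.j (NS.ix σ) * z.2.1) : ℝ) : ℂ) *
        e (1 / 2) =
      ((M σ * h2' t' * S.fl (NS.ix σ) z.1 z.2.2 * Real.exp (S.j (NS.ix σ) * z.2.1) : ℝ) : ℂ) *
        e (1 / 2)
    rw [e2]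

theorem tri_Cfin (M : Fin m → ℝ) {cv h1 h2 : ℝ → ℝ} {t : ℝ} (e0 : cv t = 1) (e1 : h1 t = 5)
    (e2 : h2 t = 0) : (S.pathC M cv h1 h2).tri t = S.fin.tri 0 := by
  refine tri_ext rfl (fun y => rfl) e0 (fun x => rfl) fun z => ?_
  unfold PD.mid
  rw [Fintype.sum_option]
  have e3 : ∑ σ : Fin m, (((S.pathC M cv h1 h2).c (some σ) (t, z.1, z.2.2) *
      Real.exp ((S.pathC M cv h1 h2).E (some σ) * z.2.1) : ℝ) : ℂ) *
      e ((S.pathC M cv h1 h2).ψ (some σ) (t, z.1, z.2.2)) = 0 := by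
    refine Finset.sum_eq_zero fun σ _ => ?_
    show ((M σ * h2 t * S.fl (NS.ix σ) z.1 z.2.2 * Real.exp (S.j (NS.ix σ) * z.2.1) : ℝ) : ℂ) *
      e (1 / 2) = 0
    rw [e2]; simp
  rw [e3, add_zero, Fintype.sum_unique]
  show ((h1 t * S.kl z.1 z.2.2 * Real.exp (15 / 2 * z.2.1) : ℝ) : ℂ) * e (1 / 2) =
    ((5 * S.kl z.1 z.2.2 * Real.exp (15 / 2 * z.2.1) : ℝ) : ℂ) * e (1 / 2)
  rw [e1]

/-- **the chain of one arm.** -/
theorem chain_of (hZ : ZoneProp) (hSep : SepProp) (hB : RegBProp) (hC : RegCProp) (hS : S.Ok)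
    {a : ℕ} (hc : S.Cvx a) (bo : Bool) (v : Fin 3) : ∃ r0 > 0, ∀ r : ℝ, 0 < r → r ≤ r0 →
      CEq bo v ((S.pathA (S.Mr a r) (NS.Mvr a r)).tri 0) (S.fin.tri 0) := by
  obtain ⟨δ, hδ, hz⟩ := hZ m S hS
  obtain ⟨r0, hr0, hs⟩ := hSep m S a hS hc δ hδ
  refine ⟨r0, hr0, fun r hr hrr => ?_⟩
  obtain ⟨hsep, hneg⟩ := hs r hr hrr
  set M := S.Mr a r with hM
  set Mv := NS.Mvr a r with hMv
  have hM0 : ∀ s, 0 < M s := fun s => pow_pos hr _
  have hMv0 : 0 < Mv := pow_pos hr _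
  have hsq : 0 < √Mv := Real.sqrt_pos.2 hMv0
  -- path A
  have cA : CEq bo v ((S.pathA M Mv).tri 0) ((S.pathA M Mv).tri 1) :=
    ceq (ok_A hS M Mv hMv0) (hz M Mv hM0 hMv0 hsep)
  -- path B
  have cB : CEq bo v ((S.pathB M Mv).tri 0) ((S.pathB M Mv).tri 1) :=
    ceq (ok_B hS M Mv hMv0) (hB m S hS M Mv hM0 hMv0 hneg)
  -- path C, first segment
  have c1 : CEq bo v ((S.pathC M (fun _ => Mv) (fun t => 5 * t * √Mv) fun _ => 1).tri 0)
      ((S.pathC M (fun _ => Mv) (fun t => 5 * t * √Mv) fun _ => 1).tri 1) :=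
    ceq (ok_C hS M _ _ _ contDiff_const (by fun_prop) contDiff_const fun _ => hMv0)
      (hC m S hS M _ _ _ hM0 (fun _ => hMv0)
        (fun t ht => ⟨mul_nonneg (mul_nonneg (by norm_num) ht.1) hsq.le, zero_le_one⟩)
        fun t _ => Or.inr ⟨rfl, hneg⟩)
  -- second segment
  have c2 : CEq bo v ((S.pathC M (fun _ => Mv) (fun _ => 5 * √Mv) fun t => 1 - t).tri 0)
      ((S.pathC M (fun _ => Mv) (fun _ => 5 * √Mv) fun t => 1 - t).tri 1) :=
    ceq (ok_C hS M _ _ _ contDiff_const contDiff_const (by fun_prop) fun _ => hMv0)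
      (hC m S hS M _ _ _ hM0 (fun _ => hMv0)
        (fun t ht => ⟨by positivity, by linarith [ht.2]⟩)
        fun t _ => Or.inl (by
          show 2 * √Mv < 5 * √Mv
          linarith))
  -- third segment
  let cv : ℝ → ℝ := fun t => Real.exp ((1 - t) * Real.log Mv)
  let h1 : ℝ → ℝ := fun t => 5 * Real.exp ((1 - t) * Real.log Mv / 2)
  have hsqrt : ∀ t, √(cv t) = Real.exp ((1 - t) * Real.log Mv / 2) := fun t => by
    show √(Real.exp ((1 - t) * Real.log Mv)) = _
    rw [Real.exp_half]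
  have c3 : CEq bo v ((S.pathC M cv h1 fun _ => 0).tri 0) ((S.pathC M cv h1 fun _ => 0).tri 1) :=
    ceq (ok_C hS M _ _ _ (by fun_prop) (by fun_prop) contDiff_const fun _ => Real.exp_pos _)
      (hC m S hS M _ _ _ hM0 (fun _ => Real.exp_pos _)
        (fun t ht => ⟨by positivity, le_rfl⟩)
        fun t _ => Or.inl (by
          rw [hsqrt]
          show 2 * Real.exp ((1 - t) * Real.log Mv / 2) < 5 * Real.exp ((1 - t) * Real.log Mv / 2)
          have := Real.exp_pos ((1 - t) * Real.log Mv / 2)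
          linarith))
  have hcv0 : cv 0 = Mv := by
    show Real.exp ((1 - 0) * Real.log Mv) = Mv
    rw [sub_zero, one_mul, Real.exp_log hMv0]
  have hh10 : h1 0 = 5 * √Mv := by
    show 5 * Real.exp ((1 - 0) * Real.log Mv / 2) = 5 * √Mv
    rw [← hsqrt 0, hcv0]
  rw [tri_AB] at cA
  rw [tri_BC M Mv (fun t => 5 * t * √Mv) (fun _ => 1) (by simp) rfl] at cB
  rw [tri_CC (cv := fun _ => Mv) (h1 := fun t => 5 * t * √Mv) (h2 := fun _ => 1)
    (cv' := fun _ => Mv) (h1' := fun _ => 5 * √Mv) (h2' := fun t => 1 - t) (t := 1) (t' := 0) M rfl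
    (by ring) (by ring)] at c1
  rw [tri_CC (cv := fun _ => Mv) (h1 := fun _ => 5 * √Mv) (h2 := fun t => 1 - t)
    (cv' := cv) (h1' := h1) (h2' := fun _ => 0) (t := 1) (t' := 0) M hcv0.symm
    hh10.symm (by ring)] at c2
  rw [tri_Cfin (t := 1) (cv := cv) (h1 := h1) (h2 := fun _ => 0) M
    (by show Real.exp ((1 - 1) * Real.log Mv) = 1; simp)
    (by show 5 * Real.exp ((1 - 1) * Real.log Mv / 2) = 5; simp) rfl] at c3
  exact (((cA.trans cB).trans c1).trans c2).trans c3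

end Crest.Agent.R267.NSSplice_966
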