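import Mathlib
import Crest.Agent.R267.NSDefs_966
import Crest.Agent.R267.PolF_943

-- ▼ part R267/Zone_951
section

/-!
# N2, ZONE THEOREM (helper951; 966 #3428 (1))

`kappa = sum_s r^{X s} u^{J s} e_s`, exponents `J` strictly decreasing, `X` strictly convex along
`J`: for `r` small at most two adjacent terms compete, so a bad zero (all derivatives collinear)
forces `e_s = - e_{s'}` and equal gradients for an adjacent pair.
-/

set_option autoImplicit false
set_option linter.unusedSectionVars false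

noncomputable section

open Set Finset Complex

namespace Crest.Agent.R267.Zone_951

variable {ι : Type*} [Fintype ι] [LinearOrder ι]

/-- the collinearity equations of the family `a_s e_s`. -/
structure Col {δ : Type*} (J : ι → ℝ) (e : ι → ℂ) (g : δ → ι → ℝ) (a : ι → ℝ) (ζ : ℂ) : Prop where
  zero : ∑ s, (a s : ℂ) * e s = 0
  rad : ((starRingEnd ℂ) ζ * ∑ s, ((J s * a s : ℝ) : ℂ) * e s).re = 0
  ang : ∀ d, ((starRingEnd ℂ) ζ * ∑ s, ((g d s * a s : ℝ) : ℂ) * (I * e s)).re = 0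

/-- only an adjacent pair present: contradiction. -/
theorem no_col {δ : Type*} {J : ι → ℝ} (hJ : StrictAnti J) {e : ι → ℂ} (he : ∀ s, ‖e s‖ = 1)
    {g : δ → ι → ℝ} (adj : ∀ s s', s ⋖ s' → e s = - e s' → ∃ d, g d s ≠ g d s')
    {a : ι → ℝ} (ha : ∀ s, 0 ≤ a s) (hs : ∑ s, a s = 1) {ζ : ℂ} (hζ : ζ ≠ 0)
    (hc : Col J e g a ζ) (h0 : ∀ s s', s < s' → ¬ s ⋖ s' → a s * a s' = 0) : False := by
  classical
  set S : Finset ι := Finset.univ.filter fun s => a s ≠ 0 with hS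
  have hSne : S.Nonempty := by
    by_contra h
    rw [Finset.not_nonempty_iff_eq_empty] at h
    have : ∀ s, a s = 0 := fun s => by
      by_contra h1
      have : s ∈ S := by rw [hS]; simp [h1]
      rw [h] at this
      simp at this
    rw [Finset.sum_eq_zero fun s _ => this s] at hs
    exact zero_ne_one hs
  set s := S.min' hSne with hsdef
  have hsS : s ∈ S := S.min'_mem hSne
  have has : a s ≠ 0 := by
    have := hsS
    rw [hS, Finset.mem_filter] at this
    exact this.2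
  have hin : ∀ s' ∈ S, s' ≠ s → s ⋖ s' := by
    intro s' hs' hne
    have h1 : s < s' := lt_of_le_of_ne (S.min'_le s' hs') (Ne.symm hne)
    by_contra h2
    have h3 := h0 s s' h1 h2
    rw [hS, Finset.mem_filter] at hs'
    exact (mul_ne_zero has hs'.2) h3
  by_cases hone : ∃ s' ∈ S, s' ≠ s
  · obtain ⟨s', hs', hne⟩ := hone
    have hcov := hin s' hs' hne
    have hsup : ∀ x, x ≠ s → x ≠ s' → a x = 0 := by
      intro x h1 h2
      by_contra h3
      have h4 : x ∈ S := by rw [hS]; simp [h3]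
      exact h2 ((hin x h4 h1).unique_right hcov)
    have two : ∀ {E : Type} [AddCommMonoid E] (f : ι → E), (∀ x, x ≠ s → x ≠ s' → f x = 0) →
        ∑ x, f x = f s + f s' := by
      intro E _ f hf
      rw [← Finset.sum_pair (Ne.symm hne)]
      refine (Finset.sum_subset (Finset.subset_univ _) fun x _ hx => ?_).symm
      simp only [Finset.mem_insert, Finset.mem_singleton, not_or] at hx
      exact hf x hx.1 hx.2
    have e1 : (a s : ℂ) * e s + (a s' : ℂ) * e s' = 0 := by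
      rw [← two (fun x => (a x : ℂ) * e x) fun x h1 h2 => by rw [hsup x h1 h2]; simp]
      exact hc.zero
    have e2 : a s = a s' := by
      have h1 : (a s : ℂ) * e s = -((a s' : ℂ) * e s') := eq_neg_of_add_eq_zero_left e1
      have h2 := congrArg norm h1
      rw [norm_neg, norm_mul, norm_mul, he, he, mul_one, mul_one, Complex.norm_real,
        Complex.norm_real, Real.norm_of_nonneg (ha s), Real.norm_of_nonneg (ha s')] at h2
      exact h2
    have has' : (a s : ℂ) ≠ 0 := by exact_mod_cast has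
    have e3 : e s = - e s' := by
      rw [← e2] at e1
      have h1 : (a s : ℂ) * (e s + e s') = 0 := by linear_combination e1
      exact eq_neg_of_add_eq_zero_left ((mul_eq_zero.1 h1).resolve_left has')
    have e3' : e s' = - e s := by rw [e3, neg_neg]
    have hJJ : J s - J s' ≠ 0 := sub_ne_zero.2 (hJ hcov.1).ne'
    have r1 : ((starRingEnd ℂ) ζ * e s).re = 0 := by
      have h1 := hc.rad
      rw [two (fun x => ((J x * a x : ℝ) : ℂ) * e x) fun x h1 h2 => by rw [hsup x h1 h2]; simp,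
        ← e2, e3'] at h1
      have h2 : (starRingEnd ℂ) ζ * (((J s * a s : ℝ) : ℂ) * e s + ((J s' * a s : ℝ) : ℂ) * -e s) =
          (((J s - J s') * a s : ℝ) : ℂ) * ((starRingEnd ℂ) ζ * e s) := by
        push_cast; ring
      rw [h2, Complex.re_ofReal_mul] at h1
      exact (mul_eq_zero.1 h1).resolve_left (mul_ne_zero hJJ has)
    have r2 : ((starRingEnd ℂ) ζ * e s).im ≠ 0 := by
      intro h1
      have h2 : (starRingEnd ℂ) ζ * e s = 0 := Complex.ext r1 h1
      rcases mul_eq_zero.1 h2 with h3 | h3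
      · exact hζ ((map_eq_zero _).1 h3)
      · have := he s
        rw [h3, norm_zero] at this
        exact zero_ne_one this
    obtain ⟨d, hd⟩ := adj s s' hcov e3
    have h1 := hc.ang d
    rw [two (fun x => ((g d x * a x : ℝ) : ℂ) * (I * e x)) fun x h1 h2 => by
      rw [hsup x h1 h2]; simp, ← e2, e3'] at h1
    have h2 : (starRingEnd ℂ) ζ *
        (((g d s * a s : ℝ) : ℂ) * (I * e s) + ((g d s' * a s : ℝ) : ℂ) * (I * -e s)) =
          (((g d s - g d s') * a s : ℝ) : ℂ) * (I * ((starRingEnd ℂ) ζ * e s)) := by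
      push_cast; ring
    rw [h2, Complex.re_ofReal_mul, Complex.I_mul_re] at h1
    exact (mul_ne_zero (mul_ne_zero (sub_ne_zero.2 hd) has) (neg_ne_zero.2 r2)) h1
  · push Not at hone
    have hsup : ∀ x, x ≠ s → a x = 0 := by
      intro x h1
      by_contra h3
      exact h1 (hone x (by rw [hS]; simp [h3]))
    have h1 := hc.zero
    rw [Finset.sum_eq_single s (fun x _ h => by rw [hsup x h]; simp) (by simp)] at h1
    rcases mul_eq_zero.1 h1 with h2 | h2
    · exact has (by exact_mod_cast h2)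
    · have := he s
      rw [h2, norm_zero] at this
      exact zero_ne_one this

/-- **compactness**: a uniform constant. -/
theorem exists_c {δ : Type*} {Q : Type*} [TopologicalSpace Q] {K : Set Q} (hK : IsCompact K)
    {J : ι → ℝ} (hJ : StrictAnti J) {e : ι → Q → ℂ} (hec : ∀ s, ContinuousOn (e s) K)
    (he : ∀ s, ∀ q ∈ K, ‖e s q‖ = 1) {g : δ → ι → Q → ℝ} (hg : ∀ d s, ContinuousOn (g d s) K)
    (adj : ∀ q ∈ K, ∀ s s', s ⋖ s' → e s q = - e s' q → ∃ d, g d s q ≠ g d s' q) :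
    ∃ c : ℝ, 0 < c ∧ ∀ q ∈ K, ∀ a : ι → ℝ, (∀ s, 0 ≤ a s) → ∑ s, a s = 1 → ∀ ζ : ℂ, ζ ≠ 0 →
      Col J (fun s => e s q) (fun d s => g d s q) a ζ → ∃ s s', s < s' ∧ ¬ s ⋖ s' ∧
        c ≤ a s * a s' := by
  classical
  have : CompactSpace K := isCompact_iff_compactSpace.1 hK
  set B : Set (K × (ι → ℝ) × ℂ) := {p | p.2.1 ∈ stdSimplex ℝ ι ∧ ‖p.2.2‖ = 1 ∧
    Col J (fun s => e s p.1) (fun d s => g d s p.1) p.2.1 p.2.2} with hB
  have hec' : ∀ s, Continuous fun q : K => e s q := fun s => continuousOn_iff_continuous_domRestrict.1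
    (hec s)
  have hg' : ∀ d s, Continuous fun q : K => g d s q := fun d s =>
    continuousOn_iff_continuous_domRestrict.1 (hg d s)
  have he1 : ∀ s, Continuous fun p : K × (ι → ℝ) × ℂ => e s p.1 := fun s =>
    (hec' s).comp continuous_fst
  have hg1 : ∀ d s, Continuous fun p : K × (ι → ℝ) × ℂ => g d s p.1 := fun d s =>
    (hg' d s).comp continuous_fst
  have ha1 : ∀ s, Continuous fun p : K × (ι → ℝ) × ℂ => p.2.1 s := fun s =>
    (continuous_apply s).comp (continuous_fst.comp continuous_snd)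
  have hz1 : Continuous fun p : K × (ι → ℝ) × ℂ => p.2.2 := continuous_snd.comp continuous_snd
  have hcl : IsClosed B := by
    have : B = (fun p : K × (ι → ℝ) × ℂ => p.2.1) ⁻¹' (stdSimplex ℝ ι) ∩
        ({p | ‖p.2.2‖ = 1} ∩ ({p | ∑ s, (p.2.1 s : ℂ) * e s p.1 = 0} ∩
        ({p | ((starRingEnd ℂ) p.2.2 * ∑ s, ((J s * p.2.1 s : ℝ) : ℂ) * e s p.1).re = 0} ∩
        ⋂ d, {p | ((starRingEnd ℂ) p.2.2 *
          ∑ s, ((g d s p.1 * p.2.1 s : ℝ) : ℂ) * (I * e s p.1)).re = 0}))) := by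
      ext p
      simp only [hB, Set.mem_ofPred_eq, Set.mem_inter_iff, Set.mem_preimage, Set.mem_iInter]
      constructor
      · rintro ⟨h1, h2, h3⟩
        exact ⟨h1, h2, h3.zero, h3.rad, h3.ang⟩
      · rintro ⟨h1, h2, h3, h4, h5⟩
        exact ⟨h1, h2, h3, h4, h5⟩
    rw [this]
    refine ((isClosed_stdSimplex ℝ ι).preimage (continuous_fst.comp continuous_snd)).inter
      ((isClosed_eq hz1.norm continuous_const).inter ((isClosed_eq ?_ continuous_const).inter
      ((isClosed_eq ?_ continuous_const).inter (isClosed_iInter fun d => isClosed_eq ?_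
        continuous_const))))
    · exact continuous_finsetSum _ fun s _ =>
        (Complex.continuous_ofReal.comp (ha1 s)).mul (he1 s)
    · exact Complex.continuous_re.comp ((Complex.continuous_conj.comp hz1).mul
        (continuous_finsetSum _ fun s _ =>
          (Complex.continuous_ofReal.comp (continuous_const.mul (ha1 s))).mul (he1 s)))
    · exact Complex.continuous_re.comp ((Complex.continuous_conj.comp hz1).mul
        (continuous_finsetSum _ fun s _ =>
          (Complex.continuous_ofReal.comp ((hg1 d s).mul (ha1 s))).mul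
            (continuous_const.mul (he1 s))))
  have hcpt : IsCompact B := by
    refine (isCompact_univ.prod ((isCompact_stdSimplex ℝ ι).prod
      (isCompact_closedBall (0 : ℂ) 1))).of_isClosed_subset hcl ?_
    rintro ⟨q, a, z⟩ ⟨h1, h2, -⟩
    exact ⟨trivial, h1, by simpa using h2.le⟩
  set Pr : Finset (ι × ι) := Finset.univ.filter fun p => p.1 < p.2 ∧ ¬ p.1 ⋖ p.2 with hPr
  set Φ : K × (ι → ℝ) × ℂ → ℝ := fun p => ∑ x ∈ Pr, p.2.1 x.1 * p.2.1 x.2 with hΦ
  have hΦc : Continuous Φ := continuous_finsetSum _ fun x _ => (ha1 x.1).mul (ha1 x.2)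
  have hζ' : ∀ ζ : ℂ, ζ ≠ 0 → ∀ q : K, ∀ a : ι → ℝ,
      Col J (fun s => e s q) (fun d s => g d s q) a ζ →
      Col J (fun s => e s q) (fun d s => g d s q) a (((‖ζ‖⁻¹ : ℝ) : ℂ) * ζ) := by
    intro ζ _ q a h
    refine ⟨h.zero, ?_, fun d => ?_⟩
    · rw [map_mul, Complex.conj_ofReal, mul_assoc, Complex.re_ofReal_mul, h.rad, mul_zero]
    · rw [map_mul, Complex.conj_ofReal, mul_assoc, Complex.re_ofReal_mul, h.ang d, mul_zero]
  rcases B.eq_empty_or_nonempty with hBe | hBn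
  · refine ⟨1, one_pos, fun q hq a ha hs ζ hζ hc => ?_⟩
    exfalso
    have : ((⟨q, hq⟩ : K), a, ((‖ζ‖⁻¹ : ℝ) : ℂ) * ζ) ∈ B := by
      refine ⟨⟨ha, hs⟩, ?_, hζ' ζ hζ ⟨q, hq⟩ a hc⟩
      rw [norm_mul, Complex.norm_real, norm_inv, norm_norm,
        inv_mul_cancel₀ (norm_ne_zero_iff.2 hζ)]
    rw [hBe] at this
    exact this
  · obtain ⟨p0, hp0, hmin⟩ := hcpt.exists_isMinOn hBn hΦc.continuousOn
    have hpos : 0 < Φ p0 := by
      by_contra hneg
      have hnn : ∀ x ∈ Pr, 0 ≤ p0.2.1 x.1 * p0.2.1 x.2 := fun x _ =>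
        mul_nonneg (hp0.1.1 _) (hp0.1.1 _)
      have h1 : Φ p0 = 0 := le_antisymm (not_lt.1 hneg) (Finset.sum_nonneg hnn)
      have h2 := (Finset.sum_eq_zero_iff_of_nonneg hnn).1 h1
      refine no_col (J := J) hJ (fun s => he s p0.1 p0.1.2) (fun s s' h h' =>
        adj p0.1 p0.1.2 s s' h h') hp0.1.1 hp0.1.2 (ζ := p0.2.2) ?_ hp0.2.2 fun s s' hs hs' => ?_
      · intro h
        have := hp0.2.1
        rw [h, norm_zero] at this
        exact zero_ne_one this
      · exact h2 (s, s') (by rw [hPr]; simp [hs, hs'])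
    refine ⟨Φ p0 / (Pr.card + 1), by positivity, fun q hq a ha hs ζ hζ hc => ?_⟩
    have hm : ((⟨q, hq⟩ : K), a, ((‖ζ‖⁻¹ : ℝ) : ℂ) * ζ) ∈ B := by
      refine ⟨⟨ha, hs⟩, ?_, hζ' ζ hζ ⟨q, hq⟩ a hc⟩
      rw [norm_mul, Complex.norm_real, norm_inv, norm_norm,
        inv_mul_cancel₀ (norm_ne_zero_iff.2 hζ)]
    have h1 : Φ p0 ≤ Φ ((⟨q, hq⟩ : K), a, ((‖ζ‖⁻¹ : ℝ) : ℂ) * ζ) := hmin hm
    by_contra hno
    push Not at hno
    have h2 : Φ ((⟨q, hq⟩ : K), a, ((‖ζ‖⁻¹ : ℝ) : ℂ) * ζ) ≤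
        Pr.card • (Φ p0 / (Pr.card + 1)) := by
      refine Finset.sum_le_card_nsmul _ _ _ fun x hx => ?_
      rw [hPr, Finset.mem_filter] at hx
      exact (hno x.1 x.2 hx.2.1 hx.2.2).le
    have h3 : (Pr.card : ℝ) * (Φ p0 / (Pr.card + 1)) < Φ p0 := by
      rw [mul_div_assoc', div_lt_iff₀ (by positivity)]
      nlinarith
    rw [nsmul_eq_mul] at h2
    linarith

/-- **concavity**: nonadjacent terms do not compete. -/
theorem prod_le {J X : ι → ℕ} (hJ : StrictAnti J)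
    (hX : ∀ p m q, p < m → m < q → (J p - J q) * X m < (J m - J q) * X p + (J p - J m) * X q)
    {r u : ℝ} (hr : 0 < r) (hr1 : r ≤ 1) (hu : 0 < u) {p m q : ι} (hpm : p < m) (hmq : m < q)
    {S : ℝ} (hS : ∀ s, r ^ X s * u ^ J s ≤ S) :
    ((r ^ X p * u ^ J p / S) * (r ^ X q * u ^ J q / S)) ^ (J p - J q) ≤ r := by
  have hpos : ∀ s, 0 < r ^ X s * u ^ J s := fun s => by positivity
  have hS0 : 0 < S := (hpos p).trans_le (hS p)
  set A : ι → ℝ := fun s => r ^ X s * u ^ J s / S with hA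
  have hA0 : ∀ s, 0 < A s := fun s => div_pos (hpos s) hS0
  have hA1 : ∀ s, A s ≤ 1 := fun s => (div_le_one hS0).2 (hS s)
  have h1 : J m < J p := hJ hpm
  have h2 : J q < J m := hJ hmq
  obtain ⟨k, hk⟩ := Nat.exists_eq_add_of_lt (hX p m q hpm hmq)
  set P := J m - J q with hP
  set R := J p - J m with hR
  have hPR : J p - J q = P + R := by omega
  rw [hPR] at hk ⊢
  have key : A p ^ P * A q ^ R = r ^ (k + 1) * A m ^ (P + R) := by
    simp only [hA, div_pow]
    rw [div_mul_div_comm, ← pow_add, mul_div_assoc']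
    congr 1
    rw [mul_pow, mul_pow, mul_pow, ← pow_mul, ← pow_mul, ← pow_mul, ← pow_mul, ← pow_mul, ← pow_mul]
    have e1 : X p * P + X q * R = (k + 1) + X m * (P + R) := by nlinarith
    have e2 : J p * P + J q * R = J m * (P + R) := by
      have a1 : J m = J q + P := by omega
      have a2 : J p = J q + P + R := by omega
      rw [a1, a2]; ring
    calc r ^ (X p * P) * u ^ (J p * P) * (r ^ (X q * R) * u ^ (J q * R)) =
        r ^ (X p * P + X q * R) * u ^ (J p * P + J q * R) := by rw [pow_add, pow_add]; ring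
      _ = _ := by rw [e1, e2, pow_add]; ring
  calc (A p * A q) ^ (P + R) = (A p ^ P * A q ^ R) * (A p ^ R * A q ^ P) := by
        rw [mul_pow, pow_add, pow_add]; ring
    _ ≤ (A p ^ P * A q ^ R) * 1 := by
        refine mul_le_mul_of_nonneg_left ?_ (by have := hA0 p; have := hA0 q; positivity)
        exact mul_le_one₀ (pow_le_one₀ (hA0 p).le (hA1 p)) (pow_nonneg (hA0 q).le _)
          (pow_le_one₀ (hA0 q).le (hA1 q))
    _ = r ^ (k + 1) * A m ^ (P + R) := by rw [mul_one, key]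
    _ ≤ r ^ (k + 1) * 1 := mul_le_mul_of_nonneg_left (pow_le_one₀ (hA0 m).le (hA1 m))
        (by positivity)
    _ ≤ r := by
        rw [mul_one]
        calc r ^ (k + 1) ≤ r ^ 1 := pow_le_pow_of_le_one hr.le hr1 (by omega)
          _ = r := pow_one r

/-- **ZONE THEOREM, pointwise form.** -/
theorem zone [Nonempty ι] {δ : Type*} {Q : Type*} [TopologicalSpace Q] {K : Set Q}
    (hK : IsCompact K) {J X : ι → ℕ} (hJ : StrictAnti J)
    (hX : ∀ p m q, p < m → m < q → (J p - J q) * X m < (J m - J q) * X p + (J p - J m) * X q)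
    {e : ι → Q → ℂ} (hec : ∀ s, ContinuousOn (e s) K)
    (he : ∀ s, ∀ q ∈ K, ‖e s q‖ = 1) {g : δ → ι → Q → ℝ} (hg : ∀ d s, ContinuousOn (g d s) K)
    (adj : ∀ q ∈ K, ∀ s s', s ⋖ s' → e s q = - e s' q → ∃ d, g d s q ≠ g d s' q) :
    ∃ r0 : ℝ, 0 < r0 ∧ r0 ≤ 1 ∧ ∀ r, 0 < r → r ≤ r0 → ∀ q ∈ K, ∀ u : ℝ, 0 < u → ∀ ζ : ℂ, ζ ≠ 0 →
      ¬ Col (fun s => (J s : ℝ)) (fun s => e s q) (fun d s => g d s q)
        (fun s => r ^ X s * u ^ J s) ζ := by
  classical
  have hJ' : StrictAnti fun s => (J s : ℝ) := fun a b h => by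
    show (J b : ℝ) < J a
    exact_mod_cast hJ h
  obtain ⟨c, hc, H⟩ := exists_c hK hJ' hec he hg adj
  set B : ℕ := ∑ s, J s with hB
  set c' : ℝ := min c 1 with hc'
  have hc'0 : 0 < c' := lt_min hc one_pos
  refine ⟨c' ^ (B + 1) / 2, by positivity, ?_, fun r hr hrr q hq u hu ζ hζ hcol => ?_⟩
  · have : c' ^ (B + 1) ≤ 1 := pow_le_one₀ hc'0.le (min_le_right _ _)
    linarith
  have hcp : c' ^ (B + 1) ≤ 1 := pow_le_one₀ hc'0.le (min_le_right _ _)
  have hr1 : r ≤ 1 := by linarith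
  have hpos : ∀ s, 0 < r ^ X s * u ^ J s := fun s => by positivity
  set S : ℝ := ∑ s, r ^ X s * u ^ J s with hS
  have hle : ∀ s, r ^ X s * u ^ J s ≤ S := fun s =>
    Finset.single_le_sum (f := fun s => r ^ X s * u ^ J s) (fun s _ => (hpos s).le)
      (Finset.mem_univ s)
  obtain ⟨s0⟩ := ‹Nonempty ι›
  have hS0 : 0 < S := (hpos s0).trans_le (hle s0)
  obtain ⟨s, s', h1, h2, h3⟩ := H q hq (fun s => r ^ X s * u ^ J s / S)
    (fun s => (div_pos (hpos s) hS0).le) (by rw [← Finset.sum_div, div_self hS0.ne']) ζ hζ (by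
      have hSc : (S : ℂ) ≠ 0 := by exact_mod_cast hS0.ne'
      refine ⟨?_, ?_, fun d => ?_⟩
      · have h := hcol.zero
        have e1 : ∑ s, ((r ^ X s * u ^ J s / S : ℝ) : ℂ) * e s q =
            ((S : ℂ))⁻¹ * ∑ s, ((r ^ X s * u ^ J s : ℝ) : ℂ) * e s q := by
          rw [Finset.mul_sum]
          refine Finset.sum_congr rfl fun s _ => ?_
          push_cast
          field_simp
        rw [e1, h, mul_zero]
      · have h := hcol.rad
        have e1 : ∑ s, (((J s : ℝ) * (r ^ X s * u ^ J s / S) : ℝ) : ℂ) * e s q =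
            ((S⁻¹ : ℝ) : ℂ) * ∑ s, (((J s : ℝ) * (r ^ X s * u ^ J s) : ℝ) : ℂ) * e s q := by
          rw [Finset.mul_sum]
          refine Finset.sum_congr rfl fun s _ => ?_
          push_cast
          field_simp
        rw [e1, mul_left_comm, Complex.re_ofReal_mul, h, mul_zero]
      · have h := hcol.ang d
        have e1 : ∑ s, ((g d s q * (r ^ X s * u ^ J s / S) : ℝ) : ℂ) * (I * e s q) =
            ((S⁻¹ : ℝ) : ℂ) * ∑ s, ((g d s q * (r ^ X s * u ^ J s) : ℝ) : ℂ) * (I * e s q) := by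
          rw [Finset.mul_sum]
          refine Finset.sum_congr rfl fun s _ => ?_
          push_cast
          field_simp
        rw [e1, mul_left_comm, Complex.re_ofReal_mul, h, mul_zero])
  obtain ⟨m, hm1, hm2⟩ : ∃ m, s < m ∧ m < s' := by
    rw [covBy_iff_lt_and_eq_or_eq] at h2
    by_contra hno
    push Not at hno
    exact (not_covBy_iff h1).1 (by
      intro hcov
      exact h2 ((covBy_iff_lt_and_eq_or_eq).1 hcov)) |>.elim fun m hm => (hno m hm.1) |>.not_gt hm.2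
  have h4 := prod_le hJ hX hr hr1 hu hm1 hm2 hle
  have h5 : c' ≤ r ^ X s * u ^ J s / S * (r ^ X s' * u ^ J s' / S) := (min_le_left _ _).trans h3
  have h6 : c' ^ (J s - J s') ≤ r := (pow_le_pow_left₀ hc'0.le h5 _).trans h4
  have h7 : J s - J s' ≤ B + 1 := by
    have : J s ≤ B := Finset.single_le_sum (f := J) (fun _ _ => Nat.zero_le _) (Finset.mem_univ s)
    omega
  have h8 : c' ^ (B + 1) ≤ c' ^ (J s - J s') :=
    pow_le_pow_of_le_one hc'0.le (min_le_right _ _) h7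
  have h9 : 0 < c' ^ (B + 1) := by positivity
  linarith

end Crest.Agent.R267.Zone_951
end
end

-- ▼ part R267/ZoneN_951

/-!
# N2, LEAF ZONE of `NSDefs_966` (helper951)

`zoneProp_of : OkProp → PairProp → ZoneProp`.
-/

set_option autoImplicit false
set_option linter.unusedSectionVars false

noncomputable section

open Set Finset
open scoped Real
open Crest.Agent.R267.NSDefs_966 Crest.Agent.R267.Zone_951

namespace Crest.Agent.R267.ZoneN_951

theorem norm_e (x : ℝ) : ‖e x‖ = 1 := by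
  unfold e
  rw [show (2 * Real.pi * x * Complex.I : ℂ) = ((2 * π * x : ℝ) : ℂ) * Complex.I by push_cast; ring]
  exact Complex.norm_exp_ofReal_mul_I _

theorem continuous_e : Continuous e := by
  unfold e
  fun_prop

theorem e_add_int (x : ℝ) (k : ℤ) : e (x + k) = e x := by
  unfold e
  have h : (2 * Real.pi * ((x + k : ℝ) : ℂ) * Complex.I) =
      2 * Real.pi * (x : ℂ) * Complex.I + (k : ℂ) * (2 * (π : ℂ) * Complex.I) := by
    push_cast; ring
  rw [h, Complex.exp_add, Complex.exp_int_mul_two_pi_mul_I, mul_one]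

theorem hasDerivAt_e {f : ℝ → ℝ} {f' x : ℝ} (h : HasDerivAt f f' x) :
    HasDerivAt (fun τ => e (f τ)) (((2 * π * f' : ℝ) : ℂ) * (Complex.I * e (f x))) x := by
  unfold e
  have h1 := ((h.ofReal_comp).const_mul (2 * Real.pi : ℂ)).mul_const Complex.I |>.cexp
  refine h1.congr_deriv ?_
  push_cast
  ring

/-- opposite phases. -/
theorem of_e_eq_neg {a b : ℝ} (h : e a = - e b) : ∃ k : ℤ, a - b = k + 1 / 2 := by
  have h1 : e (b + 1 / 2) = - e b := by
    unfold e
    have h2 : (2 * Real.pi * ((b + 1 / 2 : ℝ) : ℂ) * Complex.I) =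
        2 * Real.pi * (b : ℂ) * Complex.I + (π : ℂ) * Complex.I := by
      push_cast; ring
    rw [h2, Complex.exp_add, Complex.exp_pi_mul_I]
    ring
  rw [← h1] at h
  unfold e at h
  obtain ⟨k, hk⟩ := Complex.exp_eq_exp_iff_exists_int.1 h
  refine ⟨k, ?_⟩
  have hpi : (2 * (π : ℂ) * Complex.I) ≠ 0 := Complex.two_pi_I_ne_zero
  have h3 : ((a : ℝ) : ℂ) = ((b + 1 / 2 : ℝ) : ℂ) + k := by
    have h4 : (2 * (π : ℂ) * Complex.I) * (a : ℂ) =
        (2 * (π : ℂ) * Complex.I) * (((b + 1 / 2 : ℝ) : ℂ) + k) := by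
      linear_combination hk
    exact mul_left_cancel₀ hpi h4
  have h5 : a = b + 1 / 2 + k := by exact_mod_cast h3
  linarith

theorem fd_line {E : Type*} [NormedAddCommGroup E] [NormedSpace ℝ E] {f : E → ℂ} {q v : E}
    {c : ℝ → E} {z : ℂ} (hd : DifferentiableAt ℝ f q) (hc : HasDerivAt c v 0) (h0 : c 0 = q)
    (h : HasDerivAt (fun τ => f (c τ)) z 0) : fderiv ℝ f q v = z := by
  have h1 : HasFDerivAt f (fderiv ℝ f q) (c 0) := by rw [h0]; exact hd.hasFDerivAt
  exact (h1.comp_hasDerivAt (0 : ℝ) hc).unique h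

variable {m : ℕ} {S : NS m}

theorem bil_l (X Y : ℝ) : bil (fun (_ l : ℤ) => (l : ℝ)) X Y = Y := by
  unfold bil
  push_cast
  have := Int.floor_add_fract Y
  linear_combination this

/-- own term of `w`. -/
theorem hat_first (hS : S.Ok) (x y : ℝ) : S.hat 0 x y = Sp y := by
  unfold NS.hat
  have : (fun k l : ℤ => ((S.N 0 k l : ℤ) : ℝ)) = fun (_ l : ℤ) => (l : ℝ) := by
    funext k l
    rw [hS.N0]
  rw [this, bil_l]

/-- own term of `v`. -/
theorem hat_last (hS : S.Ok) (x y : ℝ) :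
    S.hat (Fin.last (m + 1)) x y = S.hat (Fin.last (m + 1)) x 0 := by
  unfold NS.hat bil
  simp only
  rw [hS.N1 ⌊Sp x⌋ ⌊Sp y⌋ 0, hS.N1 (⌊Sp x⌋ + 1) ⌊Sp y⌋ 0, hS.N1 ⌊Sp x⌋ (⌊Sp y⌋ + 1) 0,
    hS.N1 (⌊Sp x⌋ + 1) (⌊Sp y⌋ + 1) 0, hS.N1 ⌊Sp x⌋ ⌊Sp 0⌋ 0, hS.N1 (⌊Sp x⌋ + 1) ⌊Sp 0⌋ 0,
    hS.N1 ⌊Sp x⌋ (⌊Sp 0⌋ + 1) 0, hS.N1 (⌊Sp x⌋ + 1) (⌊Sp 0⌋ + 1) 0]
  ring

theorem pha_first (hS : S.Ok) (M : Fin m → ℝ) (Mv t x y : ℝ) :
    S.pha 0 (t, x, y) = (S.pathA M Mv).q (t, y) := by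
  show (1 - t) * ((S.i 0 : ℝ) * x / S.n + (S.j 0 : ℝ) * y / 15) + t * (S.hat 0 x y + 1 / 2) =
    (1 - t) * y + t * (Sp y + 1 / 2)
  rw [hat_first hS, hS.i0, hS.j0]
  push_cast
  ring

theorem pha_last (hS : S.Ok) (M : Fin m → ℝ) (Mv t x y : ℝ) :
    S.pha (Fin.last (m + 1)) (t, x, y) = (S.pathA M Mv).p (t, x) := by
  show (1 - t) * ((S.i (Fin.last (m + 1)) : ℝ) * x / S.n + (S.j (Fin.last (m + 1)) : ℝ) * y / 15) +
    t * (S.hat (Fin.last (m + 1)) x y + 1 / 2) =
    (1 - t) * (15 * x / S.n) + t * (S.hat (Fin.last (m + 1)) x 0 + 1 / 2)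
  rw [hat_last hS, hS.i1, hS.j1]
  push_cast
  ring

theorem smooth_pha (hOk : OkProp) (hS : S.Ok) (s : Fin (m + 2)) : ContDiff ℝ 2 (S.pha s) := by
  have h := ((hOk m S hS).1 (fun _ => 1) 1 one_pos).1
  rcases Fin.eq_zero_or_eq_succ s with rfl | ⟨s', rfl⟩
  · have e0 : S.pha 0 = fun z : ℝ × ℝ × ℝ => (S.pathA (fun _ => 1) 1).q (z.1, z.2.2) :=
      funext fun z => pha_first hS _ _ z.1 z.2.1 z.2.2
    rw [e0]
    exact h.cq.comp (f := fun z : ℝ × ℝ × ℝ => (z.1, z.2.2)) (by fun_prop)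
  · induction s' using Fin.lastCases with
    | last =>
      have e0 : S.pha (Fin.last m).succ =
          fun z : ℝ × ℝ × ℝ => (S.pathA (fun _ => 1) 1).p (z.1, z.2.1) :=
        funext fun z => pha_last hS _ _ z.1 z.2.1 z.2.2
      rw [e0]
      exact h.cp.comp (f := fun z : ℝ × ℝ × ℝ => (z.1, z.2.1)) (by fun_prop)
    | cast i => exact h.cψ i

/-- quasi-periodicity. -/
theorem per_pha (hOk : OkProp) (hS : S.Ok) (s : Fin (m + 2)) :
    (∃ i : ℤ, ∀ t x y, S.pha s (t, x + S.n, y) = S.pha s (t, x, y) + i) ∧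
      ∃ j : ℤ, ∀ t x y, S.pha s (t, x, y + 15) = S.pha s (t, x, y) + j := by
  have h := ((hOk m S hS).1 (fun _ => 1) 1 one_pos).1
  rcases Fin.eq_zero_or_eq_succ s with rfl | ⟨s', rfl⟩
  · refine ⟨⟨0, fun t x y => ?_⟩, ⟨15, fun t x y => ?_⟩⟩
    · rw [pha_first hS (fun _ => 1) 1, pha_first hS (fun _ => 1) 1]; simp
    · rw [pha_first hS (fun _ => 1) 1, pha_first hS (fun _ => 1) 1, h.pq]; norm_num
  · induction s' using Fin.lastCases with
    | last =>
      refine ⟨⟨15, fun t x y => ?_⟩, ⟨0, fun t x y => ?_⟩⟩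
      · have e1 := pha_last hS (fun _ => 1) 1 t (x + S.n) y
        have e2 := pha_last hS (fun _ => 1) 1 t x y
        rw [Fin.succ_last, e1, e2]
        have := h.pp t x
        have hn : (S.pathA (fun _ => 1) 1).n = S.n := rfl
        rw [hn] at this
        rw [this]; norm_num
      · rw [Fin.succ_last, pha_last hS (fun _ => 1) 1, pha_last hS (fun _ => 1) 1]; simp
    | cast i => exact ⟨h.pψx i, h.pψy i⟩

/-- the sum of all the terms. -/
def Kf (S : NS m) (c : Fin (m + 2) → ℝ) (t : ℝ) (z : ℝ × ℝ × ℝ) : ℂ :=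
  ∑ s, ((c s * Real.exp (S.j s * z.2.1) : ℝ) : ℂ) * e (S.pha s (t, z.1, z.2.2))

theorem K_eq (hS : S.Ok) (M : Fin m → ℝ) (Mv t : ℝ) :
    (S.pathA M Mv).K t = Kf S (cf M Mv) t := by
  funext z
  unfold Kf
  rw [Fin.sum_univ_succ, Fin.sum_univ_castSucc]
  have c0 : cf M Mv 0 = 1 := by simp [cf]
  have c1 : cf M Mv (Fin.last m).succ = Mv := by simp [cf]
  have c2 : ∀ s : Fin m, cf M Mv s.castSucc.succ = M s := fun s => by
    simp only [cf, Fin.cons_succ, Fin.snoc_castSucc]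
  have j0 : S.j 0 = 15 := hS.j0
  have j1 : S.j (Fin.last m).succ = 0 := hS.j1
  rw [c0, c1, j0, j1]
  have e1 : S.pha (Fin.last m).succ (t, z.1, z.2.2) = (S.pathA M Mv).p (t, z.1) :=
    pha_last hS M Mv t z.1 z.2.2
  rw [e1, pha_first hS M Mv]
  simp only [c2]
  unfold PD.K PD.mid
  have e2 : (S.pathA M Mv).cv t = Mv := rfl
  rw [e2]
  have e3 : ∀ s : Fin m, ((((S.pathA M Mv).c s (t, z.1, z.2.2) *
      Real.exp ((S.pathA M Mv).E s * z.2.1) : ℝ) : ℂ) * e ((S.pathA M Mv).ψ s (t, z.1, z.2.2))) =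
      ((M s * Real.exp (S.j s.castSucc.succ * z.2.1) : ℝ) : ℂ) *
        e (S.pha s.castSucc.succ (t, z.1, z.2.2)) := fun s => rfl
  simp only [e3]
  simp only [Nat.cast_ofNat, one_mul, Nat.cast_zero, zero_mul, Real.exp_zero, mul_one]
  ring

section der

theorem smooth_Kf (hOk : OkProp) (hS : S.Ok) (c : Fin (m + 2) → ℝ) (t : ℝ) :
    ContDiff ℝ 2 (Kf S c t) := by
  unfold Kf
  refine ContDiff.sum fun s _ => ?_
  have h1 : ContDiff ℝ 2 fun z : ℝ × ℝ × ℝ => (c s * Real.exp (S.j s * z.2.1) : ℝ) := by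
    fun_prop
  have h2 : ContDiff ℝ 2 fun z : ℝ × ℝ × ℝ => S.pha s (t, z.1, z.2.2) :=
    (smooth_pha hOk hS s).comp (f := fun z : ℝ × ℝ × ℝ => (t, z.1, z.2.2)) (by fun_prop)
  have h3 : ContDiff ℝ 2 e := by
    unfold e
    exact (Complex.contDiff_exp (𝕜 := ℝ)).comp
      ((contDiff_const.mul Complex.ofRealCLM.contDiff).mul contDiff_const)
  exact (Complex.ofRealCLM.contDiff.comp h1).mul (h3.comp h2)

/-- partial derivatives of the phases. -/
theorem line_pha (hOk : OkProp) (hS : S.Ok) (s : Fin (m + 2)) (t x y : ℝ) (v : ℝ × ℝ) :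
    HasDerivAt (fun τ : ℝ => S.pha s (t, x + τ * v.1, y + τ * v.2))
      (fderiv ℝ (S.pha s) (t, x, y) (0, v.1, v.2)) 0 := by
  have hx : HasDerivAt (fun τ : ℝ => x + τ * v.1) v.1 0 := by
    have h1 : HasDerivAt (fun τ : ℝ => x + τ * v.1) (1 * v.1) 0 :=
      ((hasDerivAt_id (0 : ℝ)).mul_const v.1).const_add x
    simpa using h1
  have hy : HasDerivAt (fun τ : ℝ => y + τ * v.2) v.2 0 := by
    have h1 : HasDerivAt (fun τ : ℝ => y + τ * v.2) (1 * v.2) 0 :=
      ((hasDerivAt_id (0 : ℝ)).mul_const v.2).const_add y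
    simpa using h1
  have h2 : HasFDerivAt (S.pha s) (fderiv ℝ (S.pha s) (t, x, y))
      ((fun τ : ℝ => (t, x + τ * v.1, y + τ * v.2)) 0) := by
    have := ((smooth_pha hOk hS s).differentiable (by norm_num) (t, x, y)).hasFDerivAt
    simpa using this
  exact HasFDerivAt.comp_hasDerivAt (f := fun τ : ℝ => (t, x + τ * v.1, y + τ * v.2)) (0 : ℝ) h2
    ((hasDerivAt_const _ _).prodMk (hx.prodMk hy))

theorem fd_rad (hOk : OkProp) (hS : S.Ok) (c : Fin (m + 2) → ℝ) (t x lam y : ℝ) :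
    fderiv ℝ (Kf S c t) (x, lam, y) (0, 1, 0) =
      ∑ s, (((S.j s : ℝ) * (c s * Real.exp (S.j s * lam)) : ℝ) : ℂ) * e (S.pha s (t, x, y)) := by
  refine fd_line (c := fun τ => (x, lam + τ, y))
    ((smooth_Kf hOk hS c t).differentiable (by norm_num) _) ?_ (by simp) ?_
  · refine (hasDerivAt_const _ _).prodMk (HasDerivAt.prodMk ?_ (hasDerivAt_const _ _))
    exact (hasDerivAt_id (0 : ℝ)).const_add lam
  · unfold Kf
    refine HasDerivAt.fun_sum fun s _ => ?_
    have h0 : HasDerivAt (fun τ : ℝ => (S.j s : ℝ) * (lam + τ)) ((S.j s : ℝ) * 1) 0 :=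
      ((hasDerivAt_id (0 : ℝ)).const_add lam).const_mul _
    have h1 := (h0.exp.const_mul (c s)).ofReal_comp.mul_const (e (S.pha s (t, x, y)))
    refine h1.congr_deriv ?_
    simp only [add_zero, mul_one]
    push_cast
    ring

theorem fd_ang (hOk : OkProp) (hS : S.Ok) (c : Fin (m + 2) → ℝ) (t x lam y : ℝ) (v : ℝ × ℝ) :
    fderiv ℝ (Kf S c t) (x, lam, y) (v.1, 0, v.2) =
      ∑ s, (((2 * π * fderiv ℝ (S.pha s) (t, x, y) (0, v.1, v.2)) *
        (c s * Real.exp (S.j s * lam)) : ℝ) : ℂ) * (Complex.I * e (S.pha s (t, x, y))) := by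
  have hx : HasDerivAt (fun τ : ℝ => x + τ * v.1) v.1 0 := by
    have h1 : HasDerivAt (fun τ : ℝ => x + τ * v.1) (1 * v.1) 0 :=
      ((hasDerivAt_id (0 : ℝ)).mul_const v.1).const_add x
    simpa using h1
  have hy : HasDerivAt (fun τ : ℝ => y + τ * v.2) v.2 0 := by
    have h1 : HasDerivAt (fun τ : ℝ => y + τ * v.2) (1 * v.2) 0 :=
      ((hasDerivAt_id (0 : ℝ)).mul_const v.2).const_add y
    simpa using h1
  refine fd_line (c := fun τ => (x + τ * v.1, lam, y + τ * v.2))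
    ((smooth_Kf hOk hS c t).differentiable (by norm_num) _) ?_ (by simp) ?_
  · exact hx.prodMk ((hasDerivAt_const _ _).prodMk hy)
  · unfold Kf
    refine HasDerivAt.fun_sum fun s _ => ?_
    have h3 := (hasDerivAt_e (line_pha hOk hS s t x y v)).const_mul
      ((c s * Real.exp (S.j s * lam) : ℝ) : ℂ)
    refine h3.congr_deriv ?_
    simp only [zero_mul, add_zero]
    push_cast
    ring

end der

/-- a point of the fundamental interval. -/
theorem exists_rep {p : ℝ} (hp : 0 < p) (x : ℝ) : ∃ k : ℤ, x + k * p ∈ Icc (0 : ℝ) p := by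
  refine ⟨-⌊x / p⌋, ?_, ?_⟩
  · have h1 := Int.floor_le (x / p)
    have h2 : (⌊x / p⌋ : ℝ) * p ≤ x := by
      calc (⌊x / p⌋ : ℝ) * p ≤ x / p * p := mul_le_mul_of_nonneg_right h1 hp.le
        _ = x := div_mul_cancel₀ x hp.ne'
    push_cast
    linarith
  · have h1 := (Int.lt_floor_add_one (x / p)).le
    have h2 : x ≤ ((⌊x / p⌋ : ℝ) + 1) * p := by
      calc x = x / p * p := (div_mul_cancel₀ x hp.ne').symm
        _ ≤ _ := mul_le_mul_of_nonneg_right h1 hp.le
    push_cast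
    linarith

theorem Kf_shift (hOk : OkProp) (hS : S.Ok) (c : Fin (m + 2) → ℝ) (t : ℝ) (k l : ℤ)
    (z : ℝ × ℝ × ℝ) :
    Kf S c t (z + ((k : ℝ) * (S.n : ℝ), (0 : ℝ), (l : ℝ) * 15)) = Kf S c t z := by
  obtain ⟨x, lam, y⟩ := z
  have h1 : Function.Periodic (fun x => Kf S c t (x, lam, y + (l : ℝ) * 15)) (S.n : ℝ) := by
    intro x
    unfold Kf
    refine Finset.sum_congr rfl fun s _ => ?_
    obtain ⟨i, hi⟩ := (per_pha hOk hS s).1
    simp only
    rw [hi, e_add_int]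
  have h2 : Function.Periodic (fun y => Kf S c t (x, lam, y)) (15 : ℝ) := by
    intro y
    unfold Kf
    refine Finset.sum_congr rfl fun s _ => ?_
    obtain ⟨i, hi⟩ := (per_pha hOk hS s).2
    simp only
    rw [hi, e_add_int]
  have e1 : Kf S c t (x + (k : ℝ) * (S.n : ℝ), lam, y + (l : ℝ) * 15) =
      Kf S c t (x, lam, y + (l : ℝ) * 15) := h1.int_mul k x
  have e2 : Kf S c t (x, lam, y + (l : ℝ) * 15) = Kf S c t (x, lam, y) := h2.int_mul l y
  show Kf S c t (x + (k : ℝ) * (S.n : ℝ), lam + 0, y + (l : ℝ) * 15) = _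
  rw [add_zero, e1, e2]

theorem fderiv_shift (hOk : OkProp) (hS : S.Ok) (c : Fin (m + 2) → ℝ) (t : ℝ) (k l : ℤ)
    (z : ℝ × ℝ × ℝ) :
    fderiv ℝ (Kf S c t) (z + ((k : ℝ) * (S.n : ℝ), (0 : ℝ), (l : ℝ) * 15)) =
      fderiv ℝ (Kf S c t) z := by
  rw [← fderiv_comp_add_right]
  congr 1
  funext x
  exact Kf_shift hOk hS c t k l x

/-- the compactness constant. -/
theorem exists_delta (hOk : OkProp) (hPair : PairProp) (hS : S.Ok) :
    ∃ c : ℝ, 0 < c ∧ ∀ q ∈ Icc (0 : ℝ) 1 ×ˢ (Icc (0 : ℝ) S.n ×ˢ Icc (0 : ℝ) 15),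
      ∀ a : Fin (m + 2) → ℝ, (∀ s, 0 ≤ a s) → ∑ s, a s = 1 → ∀ ζ : ℂ, ζ ≠ 0 →
      Col (δ := Bool) (fun s => (S.j s : ℝ)) (fun s => e (S.pha s q))
        (fun d s => 2 * π * fderiv ℝ (S.pha s) q
          (0, if d then ((1 : ℝ), (0 : ℝ)) else (0, 1))) a ζ →
        ∃ s s', s < s' ∧ ¬ s ⋖ s' ∧ c ≤ a s * a s' := by
  have hKc : IsCompact (Icc (0 : ℝ) 1 ×ˢ (Icc (0 : ℝ) S.n ×ˢ Icc (0 : ℝ) 15)) :=
    isCompact_Icc.prod (isCompact_Icc.prod isCompact_Icc)
  have hJ : StrictAnti fun s => (S.j s : ℝ) := fun a b h => by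
    show (S.j b : ℝ) < S.j a
    exact_mod_cast hS.hj h
  refine exists_c (δ := Bool) hKc hJ (e := fun s q => e (S.pha s q))
    (g := fun d s q => 2 * π * fderiv ℝ (S.pha s) q
          (0, if d then ((1 : ℝ), (0 : ℝ)) else (0, 1)))
    (fun s => (continuous_e.comp (smooth_pha hOk hS s).continuous).continuousOn)
    (fun s q _ => norm_e _) (fun d s => ?_) ?_
  · refine Continuous.continuousOn ?_
    exact continuous_const.mul
      ((((smooth_pha hOk hS s).continuous_fderiv (by norm_num))).clm_apply continuous_const)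
  · rintro ⟨t, x, y⟩ ⟨ht, -, -⟩ s s' hs he
    obtain ⟨k, hk⟩ := of_e_eq_neg he
    have hss : (s : ℕ) + 1 = s' := by
      have h1 : (s : ℕ) < s' := hs.1
      by_contra hne
      have h3 : (s : ℕ) + 1 < s' := by omega
      have h4 : (s : ℕ) + 1 < m + 2 := by have := s'.2; omega
      exact hs.2 (c := ⟨(s : ℕ) + 1, h4⟩) (Fin.lt_def.2 (by simp)) (Fin.lt_def.2 h3)
    have hsm : (s : ℕ) < m + 1 := by have := s'.2; omega
    set s0 : Fin (m + 1) := ⟨s, hsm⟩ with hs0
    have e1 : s = s0.castSucc := Fin.ext rfl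
    have e2 : s' = s0.succ := Fin.ext (by rw [Fin.val_succ]; exact hss.symm)
    rw [e1, e2] at hk ⊢
    have hd : ∀ (s : Fin (m + 2)), deriv (fun x' => S.pha s (t, x', y)) x =
        fderiv ℝ (S.pha s) (t, x, y) (0, 1, 0) ∧ deriv (fun y' => S.pha s (t, x, y')) y =
        fderiv ℝ (S.pha s) (t, x, y) (0, 0, 1) ∧
        DifferentiableAt ℝ (fun x' => S.pha s (t, x', y)) x ∧
        DifferentiableAt ℝ (fun y' => S.pha s (t, x, y')) y := by
      intro s
      have h2 : HasFDerivAt (S.pha s) (fderiv ℝ (S.pha s) (t, x, y)) (t, x, y) :=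
        ((smooth_pha hOk hS s).differentiable (by norm_num) (t, x, y)).hasFDerivAt
      have h3 : HasDerivAt (fun x' => S.pha s (t, x', y))
          (fderiv ℝ (S.pha s) (t, x, y) (0, 1, 0)) x :=
        HasFDerivAt.comp_hasDerivAt (f := fun x' : ℝ => (t, x', y)) x h2
          ((hasDerivAt_const _ _).prodMk ((hasDerivAt_id x).prodMk (hasDerivAt_const _ _)))
      have h4 : HasDerivAt (fun y' => S.pha s (t, x, y'))
          (fderiv ℝ (S.pha s) (t, x, y) (0, 0, 1)) y :=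
        HasFDerivAt.comp_hasDerivAt (f := fun y' : ℝ => (t, x, y')) y h2
          ((hasDerivAt_const _ _).prodMk ((hasDerivAt_const _ _).prodMk (hasDerivAt_id y)))
      exact ⟨h3.deriv, h4.deriv, h3.differentiableAt, h4.differentiableAt⟩
    have hpi : (2 * π : ℝ) ≠ 0 := by positivity
    rcases hPair m S hS t ht s0 x y ⟨k, hk⟩ with h1 | h1
    · refine ⟨true, fun h2 => h1 ?_⟩
      rw [deriv_fun_sub (hd _).2.2.1 (hd _).2.2.1, (hd _).1, (hd _).1, sub_eq_zero]
      simpa using mul_left_cancel₀ hpi h2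
    · refine ⟨false, fun h2 => h1 ?_⟩
      rw [deriv_fun_sub (hd _).2.2.2 (hd _).2.2.2, (hd _).2.1, (hd _).2.1, sub_eq_zero]
      simpa using mul_left_cancel₀ hpi h2

/-- **LEAF ZONE.** -/
theorem zoneProp_of (hOk : OkProp) (hPair : PairProp) : ZoneProp := by
  intro m S hS
  obtain ⟨c, hc, H⟩ := exists_delta hOk hPair hS
  refine ⟨c / 2, by positivity, fun M Mv hM hMv hSep t ht z h0 => ?_⟩
  obtain ⟨x, lam, y⟩ := z
  rw [K_eq hS] at h0 ⊢
  have hn : (0 : ℝ) < S.n := by exact_mod_cast hS.hn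
  obtain ⟨k, hk⟩ := exists_rep hn x
  obtain ⟨l, hl⟩ := exists_rep (show (0 : ℝ) < 15 by norm_num) y
  have e0 : ((x, lam, y) : ℝ × ℝ × ℝ) + ((k : ℝ) * (S.n : ℝ), (0 : ℝ), (l : ℝ) * 15) =
      (x + k * S.n, lam, y + l * 15) := by
    simp
  rw [← Kf_shift hOk hS (cf M Mv) t k l, e0] at h0
  rw [← fderiv_shift hOk hS (cf M Mv) t k l, e0]
  set x' := x + k * S.n with hx'
  set y' := y + l * 15 with hy'
  by_contra hno
  obtain ⟨ζ, hζ, hco⟩ := PolF_943.exists_conormal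
    (fderiv ℝ (Kf S (cf M Mv) t) (x', lam, y') : ℝ × ℝ × ℝ →L[ℝ] ℂ).toLinearMap hno
  have hcf : ∀ s, 0 < cf M Mv s := by
    intro s
    rcases Fin.eq_zero_or_eq_succ s with rfl | ⟨s', rfl⟩
    · simp [cf]
    · induction s' using Fin.lastCases with
      | last => simpa [cf] using hMv
      | cast i => simpa only [cf, Fin.cons_succ, Fin.snoc_castSucc] using hM i
  set T : Fin (m + 2) → ℝ := fun s => cf M Mv s * Real.exp (S.j s * lam) with hT
  have hTp : ∀ s, 0 < T s := fun s => mul_pos (hcf s) (Real.exp_pos _)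
  set Sg : ℝ := ∑ s, T s with hSg
  have hle : ∀ s, T s ≤ Sg := fun s =>
    Finset.single_le_sum (f := T) (fun s _ => (hTp s).le) (Finset.mem_univ s)
  have hS0 : 0 < Sg := (hTp 0).trans_le (hle 0)
  have hSc : (Sg : ℂ) ≠ 0 := by exact_mod_cast hS0.ne'
  obtain ⟨s, s', h1, h2, h3⟩ := H (t, x', y') ⟨ht, hk, hl⟩ (fun s => T s / Sg)
    (fun s => (div_pos (hTp s) hS0).le) (by rw [← Finset.sum_div, div_self hS0.ne']) ζ hζ (by
      refine ⟨?_, ?_, fun d => ?_⟩
      · have e1 : ∑ s, ((T s / Sg : ℝ) : ℂ) * e (S.pha s (t, x', y')) =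
            ((Sg : ℂ))⁻¹ * ∑ s, ((T s : ℝ) : ℂ) * e (S.pha s (t, x', y')) := by
          rw [Finset.mul_sum]
          refine Finset.sum_congr rfl fun s _ => ?_
          push_cast
          field_simp
        have e2 : ∑ s, ((T s : ℝ) : ℂ) * e (S.pha s (t, x', y')) = 0 := h0
        rw [e1, e2, mul_zero]
      · have h := hco (0, 1, 0)
        simp only [ContinuousLinearMap.coe_coe] at h
        rw [fd_rad hOk hS] at h
        have e1 : ∑ s, (((S.j s : ℝ) * (T s / Sg) : ℝ) : ℂ) * e (S.pha s (t, x', y')) =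
            ((Sg⁻¹ : ℝ) : ℂ) * ∑ s, (((S.j s : ℝ) * T s : ℝ) : ℂ) * e (S.pha s (t, x', y')) := by
          rw [Finset.mul_sum]
          refine Finset.sum_congr rfl fun s _ => ?_
          push_cast
          field_simp
        rw [e1, mul_left_comm, Complex.re_ofReal_mul]
        exact mul_eq_zero_of_right _ h
      · have h := hco ((if d then ((1 : ℝ), (0 : ℝ)) else (0, 1)).1, 0,
          (if d then ((1 : ℝ), (0 : ℝ)) else (0, 1)).2)
        simp only [ContinuousLinearMap.coe_coe] at h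
        rw [fd_ang hOk hS] at h
        have e1 : ∑ s, (((2 * π * fderiv ℝ (S.pha s) (t, x', y')
            (0, if d then ((1 : ℝ), (0 : ℝ)) else (0, 1))) * (T s / Sg) : ℝ) : ℂ) *
            (Complex.I * e (S.pha s (t, x', y'))) =
            ((Sg⁻¹ : ℝ) : ℂ) * ∑ s, (((2 * π * fderiv ℝ (S.pha s) (t, x', y')
            (0, if d then ((1 : ℝ), (0 : ℝ)) else (0, 1))) * T s : ℝ) : ℂ) *
            (Complex.I * e (S.pha s (t, x', y'))) := by
          rw [Finset.mul_sum]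
          refine Finset.sum_congr rfl fun s _ => ?_
          push_cast
          field_simp
        rw [e1, mul_left_comm, Complex.re_ofReal_mul]
        exact mul_eq_zero_of_right _ h)
  obtain ⟨s0, hs0⟩ := hSep lam
  have hmax : max (T s0.castSucc) (T s0.succ) ≤ Sg := max_le (hle _) (hle _)
  have hsmall : ∀ s1 : Fin (m + 2), s1 ≠ s0.castSucc → s1 ≠ s0.succ → T s1 / Sg ≤ c / 2 := by
    intro s1 g1 g2
    rw [div_le_iff₀ hS0]
    exact (hs0 s1 g1 g2).trans (mul_le_mul_of_nonneg_left hmax (by positivity))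
  have hone : ∀ s1 : Fin (m + 2), T s1 / Sg ≤ 1 := fun s1 => (div_le_one hS0).2 (hle s1)
  have hnn : ∀ s1 : Fin (m + 2), 0 ≤ T s1 / Sg := fun s1 => (div_pos (hTp s1) hS0).le
  have hcase : T s / Sg ≤ c / 2 ∨ T s' / Sg ≤ c / 2 := by
    by_contra hcon
    push Not at hcon
    have g1 : s = s0.castSucc ∨ s = s0.succ := by
      by_contra hg
      push Not at hg
      exact absurd (hsmall s hg.1 hg.2) (not_le.2 hcon.1)
    have g2 : s' = s0.castSucc ∨ s' = s0.succ := by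
      by_contra hg
      push Not at hg
      exact absurd (hsmall s' hg.1 hg.2) (not_le.2 hcon.2)
    have hcov : s0.castSucc ⋖ s0.succ := by
      refine ⟨Fin.castSucc_lt_succ, fun w hw1 hw2 => ?_⟩
      rw [Fin.lt_def, Fin.val_castSucc] at hw1
      rw [Fin.lt_def, Fin.val_succ] at hw2
      omega
    rcases g1 with g1 | g1 <;> rcases g2 with g2 | g2
    · rw [g1, g2] at h1; exact lt_irrefl _ h1
    · rw [g1, g2] at h2; exact h2 hcov
    · rw [g1, g2] at h1; exact lt_asymm h1 Fin.castSucc_lt_succ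
    · rw [g1, g2] at h1; exact lt_irrefl _ h1
  have : T s / Sg * (T s' / Sg) ≤ c / 2 := by
    rcases hcase with g | g
    · calc T s / Sg * (T s' / Sg) ≤ c / 2 * 1 :=
          mul_le_mul g (hone s') (hnn s') (by positivity)
        _ = c / 2 := mul_one _
    · calc T s / Sg * (T s' / Sg) ≤ 1 * (c / 2) :=
          mul_le_mul (hone s) g (hnn s') zero_le_one
        _ = c / 2 := one_mul _
  have h3' : c ≤ T s / Sg * (T s' / Sg) := h3
  linarith

end Crest.Agent.R267.ZoneN_951
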