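import Crest.Agent.R267.NSDefs_966
import Mathlib
import Crest.Agent.R267.ZoneN_951
import Crest.Agent.R267.NSOk_966
import Crest.Agent.R267.NSL_855
import Crest.Agent.R267.NSSplice_966_Mg
import Crest.Agent.R267.NSArm_780
import Crest.Agent.R267.PlSign_543
import Crest.Agent.R267.NSLift_966

-- ▼ part R267/NSPair_399
section

/-!
# Row 267, N2 (helper399): LEAF PAIR, `pairProp : PairProp`

Calculus of the bilinear staircases of `NSDefs_966` (self-contained):

* `Sp_eq`, `Gp_eq`, `contDiff_Sp`, `contDiff_Gp`, `Sp_add_int`, `Gp_add_int`;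
* `bil_eq` : polynomial form of the bilinear interpolation on a closed unit square;
* `contDiff_bilSp`, `contDiff_bilGp`; `hasDerivAt_bx`, `hasDerivAt_by` : partial derivatives;
* `crit_int` : the critical values of a monotone bilinear staircase are integers;
* `hat`, `fl`, `kl` : smoothness, periodicity, bounds.
-/

set_option autoImplicit false
set_option linter.unusedSectionVars false

noncomputable section

open Set Filter Topology
open scoped ContDiff
open Crest.Agent.R267.NSDefs_966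
open Crest.Agent.R267.T3aDefs_957 (st)
open Crest.Agent.R267.Calc_957

namespace Crest.Agent.R267.NSPair_399

/-! ### the profiles -/

/-- the profile near the cell `k`. -/
theorem Sp_eq {k : ℤ} {x : ℝ} (h : (k : ℝ) - 1 / 2 ≤ x) (h' : x ≤ k + 1) :
    Sp x = k + st (2 * (x - k)) := by
  unfold Sp
  rcases lt_or_ge x k with h1 | h1
  · have hf : ⌊x⌋ = k - 1 := by
      rw [Int.floor_eq_iff]
      push_cast
      constructor <;> linarith
    have hfr : Int.fract x = x - k + 1 := by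
      rw [Int.fract, hf]; push_cast; ring
    rw [hf, hfr, st_of_ge (by linarith), st_of_le (by linarith)]
    push_cast; ring
  · rcases lt_or_eq_of_le h' with h2 | h2
    · have hf : ⌊x⌋ = k := by
        rw [Int.floor_eq_iff]
        exact ⟨h1, h2⟩
      rw [Int.fract, hf]
    · have hf : ⌊x⌋ = k + 1 := by
        rw [Int.floor_eq_iff]
        push_cast
        constructor <;> linarith
      have hfr : Int.fract x = 0 := by
        rw [Int.fract, hf, h2]; push_cast; ring
      rw [hf, hfr, h2, st_of_le (by norm_num), st_of_ge (by linarith)]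
      push_cast; ring




theorem exists_cell (x : ℝ) : ∃ k : ℤ, (k : ℝ) - 1 / 2 < x ∧ x < k + 1 :=
  ⟨⌊x⌋, by linarith [Int.floor_le x], Int.lt_floor_add_one x⟩



/-! ### bilinear interpolation -/

/-- polynomial form. -/
def pol (N : ℤ → ℤ → ℝ) (k l : ℤ) (U V : ℝ) : ℝ :=
  (1 - U) * (1 - V) * N k l + U * (1 - V) * N (k + 1) l + (1 - U) * V * N k (l + 1) +
    U * V * N (k + 1) (l + 1)

theorem bil_eq (N : ℤ → ℤ → ℝ) (k l : ℤ) {U V : ℝ} (hU : 0 ≤ U) (hU1 : U ≤ 1) (hV : 0 ≤ V)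
    (hV1 : V ≤ 1) : bil N (k + U) (l + V) = pol N k l U V := by
  have key : ∀ (k : ℤ) {U : ℝ}, 0 ≤ U → U ≤ 1 →
      (⌊(k : ℝ) + U⌋ = k ∧ Int.fract ((k : ℝ) + U) = U) ∨
      (U = 1 ∧ ⌊(k : ℝ) + U⌋ = k + 1 ∧ Int.fract ((k : ℝ) + U) = 0) := by
    intro k U h0 h1
    rcases lt_or_eq_of_le h1 with h | h
    · left
      have hf : ⌊(k : ℝ) + U⌋ = k := by
        rw [Int.floor_eq_iff]
        constructor <;> linarith
      exact ⟨hf, by rw [Int.fract, hf]; ring⟩
    · right
      have hf : ⌊(k : ℝ) + U⌋ = k + 1 := by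
        rw [Int.floor_eq_iff, h]
        push_cast
        constructor <;> linarith
      exact ⟨h, hf, by rw [Int.fract, hf, h]; push_cast; ring⟩
  unfold bil pol
  rcases key k hU hU1 with ⟨a1, a2⟩ | ⟨a0, a1, a2⟩ <;>
    rcases key l hV hV1 with ⟨b1, b2⟩ | ⟨b0, b1, b2⟩ <;> rw [a1, a2, b1, b2]
  · rw [b0]; ring
  · rw [a0]; ring
  · rw [a0, b0]; ring



theorem bil_sub (N N' : ℤ → ℤ → ℝ) (X Y : ℝ) :
    bil (fun k l => N k l - N' k l) X Y = bil N X Y - bil N' X Y := by
  unfold bil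
  ring

/-- bilinear staircase. -/
def bs (N : ℤ → ℤ → ℝ) (x y : ℝ) : ℝ := bil N (Sp x) (Sp y)

theorem bs_eq (N : ℤ → ℤ → ℝ) {k l : ℤ} {x y : ℝ} (h1 : (k : ℝ) - 1 / 2 ≤ x) (h2 : x ≤ k + 1)
    (h3 : (l : ℝ) - 1 / 2 ≤ y) (h4 : y ≤ l + 1) :
    bs N x y = pol N k l (st (2 * (x - k))) (st (2 * (y - l))) := by
  unfold bs
  rw [Sp_eq h1 h2, Sp_eq h3 h4]
  exact bil_eq N k l (st_nonneg _) (st_le_one _) (st_nonneg _) (st_le_one _)






/-! ### derivatives -/

/-- derivative in `x`, up to the factor `Sp'`. -/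
def dX (N : ℤ → ℤ → ℝ) (k l : ℤ) (V : ℝ) : ℝ :=
  (1 - V) * (N (k + 1) l - N k l) + V * (N (k + 1) (l + 1) - N k (l + 1))

/-- derivative in `y`, up to the factor `Sp'`. -/
def dY (N : ℤ → ℤ → ℝ) (k l : ℤ) (U : ℝ) : ℝ :=
  (1 - U) * (N k (l + 1) - N k l) + U * (N (k + 1) (l + 1) - N (k + 1) l)

theorem hasDerivAt_bx (N : ℤ → ℤ → ℝ) {k l : ℤ} {x y : ℝ} (h1 : (k : ℝ) - 1 / 2 < x)
    (h2 : x < k + 1) (h3 : (l : ℝ) - 1 / 2 < y) (h4 : y < l + 1) :
    HasDerivAt (fun x => bs N x y) (2 * std (2 * (x - k)) * dX N k l (st (2 * (y - l)))) x := by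
  have hU : HasDerivAt (fun x : ℝ => st (2 * (x - k))) (std (2 * (x - k)) * 2) x := by
    have h0 : HasDerivAt (fun x : ℝ => 2 * (x - (k : ℝ))) (2 * 1) x :=
      ((hasDerivAt_id x).sub_const (k : ℝ)).const_mul 2
    have h : HasDerivAt (fun x : ℝ => st (2 * (x - k))) (std (2 * (x - k)) * (2 * 1)) x :=
      HasDerivAt.comp (h₂ := st) x (hasDerivAt_st (2 * (x - k))) h0
    rwa [mul_one] at h
  have hp : HasDerivAt (fun x => pol N k l (st (2 * (x - k))) (st (2 * (y - l))))
      (2 * std (2 * (x - k)) * dX N k l (st (2 * (y - l)))) x := by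
    have e : (fun x => pol N k l (st (2 * (x - k))) (st (2 * (y - l)))) =
        fun x => ((1 - st (2 * (y - l))) * N k l + st (2 * (y - l)) * N k (l + 1)) +
          dX N k l (st (2 * (y - l))) * st (2 * (x - k)) := by
      funext x
      unfold pol dX
      ring
    rw [e]
    have h := (hU.const_mul (dX N k l (st (2 * (y - l))))).const_add
      ((1 - st (2 * (y - l))) * N k l + st (2 * (y - l)) * N k (l + 1))
    refine h.congr_deriv ?_
    ring
  refine hp.congr_of_eventuallyEq ?_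
  filter_upwards [Ioo_mem_nhds h1 h2] with z hz
  exact bs_eq N hz.1.le hz.2.le h3.le h4.le

theorem hasDerivAt_by (N : ℤ → ℤ → ℝ) {k l : ℤ} {x y : ℝ} (h1 : (k : ℝ) - 1 / 2 < x)
    (h2 : x < k + 1) (h3 : (l : ℝ) - 1 / 2 < y) (h4 : y < l + 1) :
    HasDerivAt (fun y => bs N x y) (2 * std (2 * (y - l)) * dY N k l (st (2 * (x - k)))) y := by
  have hV : HasDerivAt (fun y : ℝ => st (2 * (y - l))) (std (2 * (y - l)) * 2) y := by
    have h0 : HasDerivAt (fun y : ℝ => 2 * (y - (l : ℝ))) (2 * 1) y :=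
      ((hasDerivAt_id y).sub_const (l : ℝ)).const_mul 2
    have h : HasDerivAt (fun y : ℝ => st (2 * (y - l))) (std (2 * (y - l)) * (2 * 1)) y :=
      HasDerivAt.comp (h₂ := st) y (hasDerivAt_st (2 * (y - l))) h0
    rwa [mul_one] at h
  have hp : HasDerivAt (fun y => pol N k l (st (2 * (x - k))) (st (2 * (y - l))))
      (2 * std (2 * (y - l)) * dY N k l (st (2 * (x - k)))) y := by
    have e : (fun y => pol N k l (st (2 * (x - k))) (st (2 * (y - l)))) =
        fun y => ((1 - st (2 * (x - k))) * N k l + st (2 * (x - k)) * N (k + 1) l) +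
          dY N k l (st (2 * (x - k))) * st (2 * (y - l)) := by
      funext y
      unfold pol dY
      ring
    rw [e]
    have h := (hV.const_mul (dY N k l (st (2 * (x - k))))).const_add
      ((1 - st (2 * (x - k))) * N k l + st (2 * (x - k)) * N (k + 1) l)
    refine h.congr_deriv ?_
    ring
  refine hp.congr_of_eventuallyEq ?_
  filter_upwards [Ioo_mem_nhds h3 h4] with z hz
  exact bs_eq N h1.le h2.le hz.1.le hz.2.le

/-- a sum of two numbers of the same sign with positive weights. -/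
theorem two_zero {a b U σ : ℝ} (hσ : σ ≠ 0) (ha : σ * a ≤ 0) (hb : σ * b ≤ 0) (hU : 0 < U)
    (hU1 : U < 1) (h : (1 - U) * a + U * b = 0) : a = 0 ∧ b = 0 := by
  have h1 : (1 - U) * (σ * a) + U * (σ * b) = 0 := by
    have : (1 - U) * (σ * a) + U * (σ * b) = σ * ((1 - U) * a + U * b) := by ring
    rw [this, h, mul_zero]
  have h2 : (1 - U) * (σ * a) ≤ 0 := mul_nonpos_of_nonneg_of_nonpos (by linarith) ha
  have h3 : U * (σ * b) ≤ 0 := mul_nonpos_of_nonneg_of_nonpos hU.le hb
  have h4 : (1 - U) * (σ * a) = 0 := by linarith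
  have h5 : U * (σ * b) = 0 := by linarith
  constructor
  · rcases mul_eq_zero.1 h4 with h | h
    · linarith
    · exact (mul_eq_zero.1 h).resolve_left hσ
  · rcases mul_eq_zero.1 h5 with h | h
    · linarith
    · exact (mul_eq_zero.1 h).resolve_left hσ

theorem st_cases (x : ℝ) : st x = 0 ∨ st x = 1 ∨ (0 < st x ∧ st x < 1 ∧ 0 < std x) := by
  rcases le_or_gt x 0 with h | h
  · exact Or.inl (st_of_le h)
  · rcases le_or_gt 1 x with h1 | h1
    · exact Or.inr (Or.inl (st_of_ge h1))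
    · exact Or.inr (Or.inr ⟨st_pos h, st_lt_one h1, std_pos h h1⟩)

/-- **critical values are integers.** -/
theorem crit_int {D : ℤ → ℤ → ℤ} {k l : ℤ} {σ : ℝ} (hσ : σ ≠ 0) {x y : ℝ}
    (h1 : (k : ℝ) - 1 / 2 < x) (h2 : x < k + 1) (h3 : (l : ℝ) - 1 / 2 < y) (h4 : y < l + 1)
    (hk0 : σ * ((D (k + 1) l : ℝ) - D k l) ≤ 0)
    (hk1 : σ * ((D (k + 1) (l + 1) : ℝ) - D k (l + 1)) ≤ 0)
    (hl0 : (D k l : ℝ) ≤ D k (l + 1)) (hl1 : (D (k + 1) l : ℝ) ≤ D (k + 1) (l + 1))
    (hx : deriv (fun x => bs (fun k l => (D k l : ℝ)) x y) x = 0)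
    (hy : deriv (fun y => bs (fun k l => (D k l : ℝ)) x y) y = 0) :
    ∃ m : ℤ, bs (fun k l => (D k l : ℝ)) x y = m := by
  rw [(hasDerivAt_bx _ h1 h2 h3 h4).deriv] at hx
  rw [(hasDerivAt_by _ h1 h2 h3 h4).deriv] at hy
  rw [bs_eq _ h1.le h2.le h3.le h4.le]
  unfold dX at hx
  unfold dY at hy
  unfold pol
  simp only at hx hy ⊢
  have s1 : (-1 : ℝ) ≠ 0 := by norm_num
  have hl0' : (-1 : ℝ) * ((D k (l + 1) : ℝ) - D k l) ≤ 0 := by linarith
  have hl1' : (-1 : ℝ) * ((D (k + 1) (l + 1) : ℝ) - D (k + 1) l) ≤ 0 := by linarith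
  rcases st_cases (2 * (x - k)) with hu | hu | ⟨hu0, hu1, hud⟩
  · rw [hu] at hy ⊢
    rcases st_cases (2 * (y - l)) with hv | hv | ⟨hv0, hv1, hvd⟩
    · rw [hv]; exact ⟨D k l, by ring⟩
    · rw [hv]; exact ⟨D k (l + 1), by ring⟩
    · rcases mul_eq_zero.1 hy with h | h
      · exact absurd h (by positivity)
      · refine ⟨D k l, ?_⟩
        linear_combination (st (2 * (y - l))) * h
  · rw [hu] at hy ⊢
    rcases st_cases (2 * (y - l)) with hv | hv | ⟨hv0, hv1, hvd⟩
    · rw [hv]; exact ⟨D (k + 1) l, by ring⟩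
    · rw [hv]; exact ⟨D (k + 1) (l + 1), by ring⟩
    · rcases mul_eq_zero.1 hy with h | h
      · exact absurd h (by positivity)
      · refine ⟨D (k + 1) l, ?_⟩
        linear_combination (st (2 * (y - l))) * h
  · rcases mul_eq_zero.1 hx with h | hx'
    · exact absurd h (by positivity)
    rcases st_cases (2 * (y - l)) with hv | hv | ⟨hv0, hv1, hvd⟩
    · rw [hv] at hx' ⊢
      refine ⟨D k l, ?_⟩
      linear_combination (st (2 * (x - k))) * hx'
    · rw [hv] at hx' ⊢
      refine ⟨D k (l + 1), ?_⟩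
      linear_combination (st (2 * (x - k))) * hx'
    · rcases mul_eq_zero.1 hy with h | hy'
      · exact absurd h (by positivity)
      obtain ⟨a1, a2⟩ := two_zero hσ hk0 hk1 hv0 hv1 hx'
      obtain ⟨b1, b2⟩ := two_zero s1 hl0' hl1' hu0 hu1 hy'
      refine ⟨D k l, ?_⟩
      linear_combination (st (2 * (x - k))) * a1 + (st (2 * (y - l))) * b1 +
        (st (2 * (x - k))) * (st (2 * (y - l))) * (a2 - a1)

/-- monotone in `y`. -/
theorem deriv_by_nonneg (N : ℤ → ℤ → ℝ) (h : ∀ k l, N k l ≤ N k (l + 1)) (x y : ℝ) :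
    0 ≤ deriv (fun y => bs N x y) y := by
  obtain ⟨k, h1, h2⟩ := exists_cell x
  obtain ⟨l, h3, h4⟩ := exists_cell y
  rw [(hasDerivAt_by _ h1 h2 h3 h4).deriv]
  unfold dY
  have a := st_nonneg (2 * (x - k))
  have b := st_le_one (2 * (x - k))
  have c := h k l
  have d := h (k + 1) l
  exact mul_nonneg (mul_nonneg zero_le_two (std_nonneg _))
    (add_nonneg (mul_nonneg (by linarith) (by linarith)) (mul_nonneg a (by linarith)))


/-! ### nested systems -/

section NS

variable {m : ℕ} (S : NS m)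

theorem hat_bs (s : Fin (m + 2)) (x y : ℝ) :
    S.hat s x y = bs (fun k l => (S.N s k l : ℝ)) x y := rfl


variable {S}



/-- difference of two consecutive terms. -/
def DD (S : NS m) (s : Fin (m + 1)) (k l : ℤ) : ℤ := S.N s.castSucc k l - S.N s.succ k l

theorem hat_sub (s : Fin (m + 1)) (x y : ℝ) :
    S.hat s.castSucc x y - S.hat s.succ x y = bs (fun k l => (DD S s k l : ℝ)) x y := by
  rw [hat_bs, hat_bs]
  unfold bs DD
  rw [← bil_sub]
  congr 1
  funext k l
  push_cast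
  rfl

theorem DD_l (h : S.Ok) (s : Fin (m + 1)) (k l : ℤ) : (DD S s k l : ℝ) ≤ DD S s k (l + 1) := by
  have := h.nestl s k l
  exact_mod_cast this

theorem DD_k (h : S.Ok) (s : Fin (m + 1)) (k l : ℤ) :
    (S.sg k : ℝ) * ((DD S s (k + 1) l : ℝ) - DD S s k l) ≤ 0 := by
  have h1 := h.nestk s k l
  have h2 : S.sg k * (DD S s (k + 1) l - DD S s k l) ≤ 0 := by
    unfold DD
    rw [mul_sub]
    linarith
  exact_mod_cast h2

/-- the difference of consecutive phases increases in `y`. -/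
theorem deriv_hat_sub_nonneg (h : S.Ok) (s : Fin (m + 1)) (x y : ℝ) :
    0 ≤ deriv (fun y => S.hat s.castSucc x y - S.hat s.succ x y) y := by
  have e : (fun y => S.hat s.castSucc x y - S.hat s.succ x y) =
      fun y => bs (fun k l => (DD S s k l : ℝ)) x y := funext fun y => hat_sub s x y
  rw [e]
  exact deriv_by_nonneg _ (DD_l h s) x y

/-- **critical values of the difference of consecutive phases are integers.** -/
theorem hat_crit (h : S.Ok) (s : Fin (m + 1)) (x y : ℝ)
    (hx : deriv (fun x => S.hat s.castSucc x y - S.hat s.succ x y) x = 0)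
    (hy : deriv (fun y => S.hat s.castSucc x y - S.hat s.succ x y) y = 0) :
    ∃ n : ℤ, S.hat s.castSucc x y - S.hat s.succ x y = n := by
  have e1 : (fun y => S.hat s.castSucc x y - S.hat s.succ x y) =
      fun y => bs (fun k l => (DD S s k l : ℝ)) x y := funext fun y => hat_sub s x y
  have e2 : (fun x => S.hat s.castSucc x y - S.hat s.succ x y) =
      fun x => bs (fun k l => (DD S s k l : ℝ)) x y := funext fun x => hat_sub s x y
  rw [e1] at hy
  rw [e2] at hx
  rw [hat_sub]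
  obtain ⟨k, h1, h2⟩ := exists_cell x
  obtain ⟨l, h3, h4⟩ := exists_cell y
  have hσ : (S.sg k : ℝ) ≠ 0 := by
    rcases h.sg1 k with h | h <;> rw [h] <;> norm_num
  exact crit_int hσ h1 h2 h3 h4 (DD_k h s k l) (DD_k h s k (l + 1)) (DD_l h s k l)
    (DD_l h s (k + 1) l) hx hy


/-! ### LEAF PAIR -/

theorem deriv_pha_x (h : S.Ok) (s : Fin (m + 1)) (t x y : ℝ) :
    HasDerivAt (fun x' => S.pha s.castSucc (t, x', y) - S.pha s.succ (t, x', y))
      ((1 - t) * (((S.i s.castSucc : ℝ) - S.i s.succ) / S.n) +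
        t * deriv (fun x => S.hat s.castSucc x y - S.hat s.succ x y) x) x := by
  have hd : DifferentiableAt ℝ (fun x => S.hat s.castSucc x y - S.hat s.succ x y) x := by
    have e : (fun x => S.hat s.castSucc x y - S.hat s.succ x y) =
        fun x => bs (fun k l => (DD S s k l : ℝ)) x y := funext fun x => hat_sub s x y
    rw [e]
    obtain ⟨k, h1, h2⟩ := exists_cell x
    obtain ⟨l, h3, h4⟩ := exists_cell y
    exact (hasDerivAt_bx _ h1 h2 h3 h4).differentiableAt
  have e : (fun x' => S.pha s.castSucc (t, x', y) - S.pha s.succ (t, x', y)) =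
      fun x' => ((1 - t) * (((S.i s.castSucc : ℝ) - S.i s.succ) / S.n) * x' +
        t * (S.hat s.castSucc x' y - S.hat s.succ x' y)) +
        (1 - t) * (((S.j s.castSucc : ℝ) - S.j s.succ) * y / 15) := by
    funext x'
    unfold NS.pha
    ring
  rw [e]
  have a := (((hasDerivAt_id' x).const_mul
    ((1 - t) * (((S.i s.castSucc : ℝ) - S.i s.succ) / S.n))).add
      (hd.hasDerivAt.const_mul t)).add_const
        ((1 - t) * (((S.j s.castSucc : ℝ) - S.j s.succ) * y / 15))
  refine a.congr_deriv ?_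
  ring

theorem deriv_pha_y (h : S.Ok) (s : Fin (m + 1)) (t x y : ℝ) :
    HasDerivAt (fun y' => S.pha s.castSucc (t, x, y') - S.pha s.succ (t, x, y'))
      ((1 - t) * (((S.j s.castSucc : ℝ) - S.j s.succ) / 15) +
        t * deriv (fun y => S.hat s.castSucc x y - S.hat s.succ x y) y) y := by
  have hd : DifferentiableAt ℝ (fun y => S.hat s.castSucc x y - S.hat s.succ x y) y := by
    have e : (fun y => S.hat s.castSucc x y - S.hat s.succ x y) =
        fun y => bs (fun k l => (DD S s k l : ℝ)) x y := funext fun y => hat_sub s x y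
    rw [e]
    obtain ⟨k, h1, h2⟩ := exists_cell x
    obtain ⟨l, h3, h4⟩ := exists_cell y
    exact (hasDerivAt_by _ h1 h2 h3 h4).differentiableAt
  have e : (fun y' => S.pha s.castSucc (t, x, y') - S.pha s.succ (t, x, y')) =
      fun y' => ((1 - t) * (((S.j s.castSucc : ℝ) - S.j s.succ) / 15) * y' +
        t * (S.hat s.castSucc x y' - S.hat s.succ x y')) +
        (1 - t) * (((S.i s.castSucc : ℝ) - S.i s.succ) * x / S.n) := by
    funext y'
    unfold NS.pha
    ring
  rw [e]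
  have a := (((hasDerivAt_id' y).const_mul
    ((1 - t) * (((S.j s.castSucc : ℝ) - S.j s.succ) / 15))).add
      (hd.hasDerivAt.const_mul t)).add_const
        ((1 - t) * (((S.i s.castSucc : ℝ) - S.i s.succ) * x / S.n))
  refine a.congr_deriv ?_
  ring

end NS

/-- **LEAF PAIR.** -/
theorem pairProp : PairProp := by
  intro m S h t ht s x y hk
  by_contra hn
  push Not at hn
  obtain ⟨hx, hy⟩ := hn
  rw [(deriv_pha_x h s t x y).deriv] at hx
  rw [(deriv_pha_y h s t x y).deriv] at hy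
  have hj : (S.j s.succ : ℝ) < S.j s.castSucc := by
    exact_mod_cast h.hj (Fin.castSucc_lt_succ (i := s))
  have hnn := deriv_hat_sub_nonneg h s x y
  have h1 : 0 ≤ (1 - t) * (((S.j s.castSucc : ℝ) - S.j s.succ) / 15) :=
    mul_nonneg (by linarith [ht.2]) (by linarith)
  have h2 : 0 ≤ t * deriv (fun y => S.hat s.castSucc x y - S.hat s.succ x y) y :=
    mul_nonneg ht.1 hnn
  have h3 : (1 - t) * (((S.j s.castSucc : ℝ) - S.j s.succ) / 15) = 0 := by linarith
  have ht1 : t = 1 := by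
    rcases mul_eq_zero.1 h3 with h' | h'
    · linarith
    · exfalso; linarith
  subst ht1
  rw [sub_self, zero_mul, zero_add, one_mul] at hx hy
  obtain ⟨n, hn⟩ := hat_crit h s x y hx hy
  obtain ⟨k, hk⟩ := hk
  unfold NS.pha at hk
  simp only [sub_self, zero_mul, zero_add, one_mul] at hk
  have e : (n : ℝ) = (k : ℝ) + 1 / 2 := by linarith
  have e2 : ((2 * n - 2 * k : ℤ) : ℝ) = ((1 : ℤ) : ℝ) := by push_cast; linarith
  have e3 : 2 * n - 2 * k = 1 := by exact_mod_cast e2
  omega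

end Crest.Agent.R267.NSPair_399
end
end

-- ▼ part R267/ZoneF_951
section

/-!
# N2, LEAF ZONE, unconditional (helper951; with 966's `ok_prop`, 399's `pairProp`)
-/

set_option autoImplicit false

namespace Crest.Agent.R267.ZoneF_951

theorem zoneProp : NSDefs_966.ZoneProp :=
  ZoneN_951.zoneProp_of NSOk_966.ok_prop NSPair_399.pairProp

end Crest.Agent.R267.ZoneF_951
end

-- ▼ part R267/NSRegC_855
section

/-!
# Row 267 (helper855): C1, LEAF REGC

`regC : NSDefs_966.RegCProp`: path C (two lobed words minus real deletions) is regular.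
-/

set_option autoImplicit false
set_option linter.unusedSectionVars false

noncomputable section

open Set Filter Topology
open scoped Real
open Crest.Agent.R267.T3aDefs_957 (st)
open Crest.Agent.R267.Calc_957
open Crest.Agent.R267.NSDefs_966 Crest.Agent.R267.NSHat_966 Crest.Agent.R267.NSOk_966
open Crest.Agent.R267.NSL_855

namespace Crest.Agent.R267.NSRegC_855

theorem e_eq (x : ℝ) : NSDefs_966.e x = ee x := by
  unfold NSDefs_966.e ee Ang_739.cis
  congr 1; push_cast; ring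

/-! ### profiles -/

/-- the derivative of `Sp` is not zero exactly inside the rising parts. -/
theorem rise_iff {x : ℝ} {k : ℤ} (_h1 : (k : ℝ) - 1 / 2 < x) (_h2 : x < k + 1)
    (h : std (2 * (x - k)) ≠ 0) : (k : ℝ) < x ∧ x < k + 1 / 2 := by
  constructor
  · by_contra h3
    push Not at h3
    exact h (std_of_le (by linarith))
  · by_contra h3
    push Not at h3
    exact h (std_of_ge (by linarith))

theorem rise_Sp {x : ℝ} (h : deriv Sp x ≠ 0) : ∃ k : ℤ, (k : ℝ) < x ∧ x < k + 1 / 2 := by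
  obtain ⟨k, h1, h2⟩ := exists_cell x
  refine ⟨k, rise_iff h1 h2 fun h3 => h ?_⟩
  rw [(hasDerivAt_Sp k h1 h2).deriv, h3, mul_zero]

theorem st_flat {u : ℝ} (h : std u = 0) : st u = 0 ∨ st u = 1 := by
  rcases le_or_gt u 0 with h1 | h1
  · exact Or.inl (st_of_le h1)
  · rcases le_or_gt 1 u with h2 | h2
    · exact Or.inr (st_of_ge h2)
    · exact absurd h (std_pos h1 h2).ne'

theorem stc_Sp : Stc Sp := by
  refine ⟨contDiff_Sp, fun x h => ?_, fun x h m hm => ?_⟩
  · obtain ⟨k, h1, h2⟩ := exists_cell x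
    rw [(hasDerivAt_Sp k h1 h2).deriv] at h
    rw [Sp_eq k h1.le h2.le]
    rcases st_flat (by linarith : std (2 * (x - k)) = 0) with h3 | h3
    · exact ⟨k, by rw [h3, add_zero]⟩
    · exact ⟨k + 1, by rw [h3]; push_cast; ring⟩
  · obtain ⟨k, h1, h2⟩ := rise_Sp h
    rw [Sp_eq k (by linarith) (by linarith)] at hm
    have h3 := st_pos (x := 2 * (x - k)) (by linarith)
    have h4 := st_lt_one (x := 2 * (x - k)) (by linarith)
    have h5 : k < m := by
      have : (k : ℝ) < m := by linarith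
      exact_mod_cast this
    have h6 : m < k + 1 := by
      have : (m : ℝ) < k + 1 := by linarith
      exact_mod_cast this
    omega

section own

variable {m : ℕ} {S : NS m}

/-- the own word of `v`. -/
def hl (S : NS m) (x : ℝ) : ℝ := S.hat (Fin.last (m + 1)) x 0

theorem hl_eq (hS : S.Ok) (k : ℤ) {x : ℝ} (h1 : (k : ℝ) - 1 / 2 ≤ x) (h2 : x ≤ k + 1) :
    hl S x = S.N (Fin.last (m + 1)) k 0 + S.sg k * st (2 * (x - k)) := by
  unfold hl NS.hat
  have e := bilS_eq (fun k l => (S.N (Fin.last (m + 1)) k l : ℝ)) k 0 (y := 0) h1 h2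
    (by norm_num) (by norm_num)
  rw [e]
  have e2 : st (2 * (0 - ((0 : ℤ) : ℝ))) = 0 := st_of_le (by norm_num)
  rw [e2]
  have e3 : (S.N (Fin.last (m + 1)) (k + 1) 0 : ℝ) = S.N (Fin.last (m + 1)) k 0 + S.sg k := by
    rw [hS.N1s]; push_cast; ring
  unfold bf
  rw [e3]; ring

theorem hl_deriv (hS : S.Ok) (k : ℤ) {x : ℝ} (h1 : (k : ℝ) - 1 / 2 < x) (h2 : x < k + 1) :
    HasDerivAt (hl S) (S.sg k * (2 * std (2 * (x - k)))) x := by
  have h : HasDerivAt (fun x : ℝ => (S.N (Fin.last (m + 1)) k 0 : ℝ) +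
      S.sg k * st (2 * (x - k))) (S.sg k * (2 * std (2 * (x - k)))) x := by
    have h0 : HasDerivAt (fun x : ℝ => 2 * (x - k)) 2 x := by
      have := ((hasDerivAt_id x).sub_const (k : ℝ)).const_mul 2
      simpa using this
    have h3 := (((hasDerivAt_st (2 * (x - k))).comp x h0).const_mul (S.sg k : ℝ)).const_add
      (S.N (Fin.last (m + 1)) k 0 : ℝ)
    have e : (S.sg k : ℝ) * (2 * std (2 * (x - k))) = S.sg k * (std (2 * (x - k)) * 2) := by ring
    rw [e]
    exact h3
  refine h.congr_of_eventuallyEq ?_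
  filter_upwards [(isOpen_cell k).mem_nhds ⟨h1, h2⟩] with y hy
  exact hl_eq hS k hy.1.le hy.2.le

theorem rise_hl (hS : S.Ok) {x : ℝ} (h : deriv (hl S) x ≠ 0) :
    ∃ k : ℤ, (k : ℝ) < x ∧ x < k + 1 / 2 := by
  obtain ⟨k, h1, h2⟩ := exists_cell x
  refine ⟨k, rise_iff h1 h2 fun h3 => h ?_⟩
  rw [(hl_deriv hS k h1 h2).deriv, h3]; ring

theorem contDiff_hl : ContDiff ℝ 2 (hl S) := by
  have h := (contDiff_hat (S := S) (Fin.last (m + 1))).comp
    (f := fun x : ℝ => ((x, 0) : ℝ × ℝ)) (by fun_prop)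
  exact h

theorem stc_hl (hS : S.Ok) : Stc (hl S) := by
  have hsg : ∀ k, (S.sg k : ℝ) = 1 ∨ (S.sg k : ℝ) = -1 := fun k => by
    rcases hS.sg1 k with h | h
    · left; rw [h]; norm_num
    · right; rw [h]; norm_num
  refine ⟨contDiff_hl, fun x h => ?_, fun x h m' hm => ?_⟩
  · obtain ⟨k, h1, h2⟩ := exists_cell x
    rw [(hl_deriv hS k h1 h2).deriv] at h
    rw [hl_eq hS k h1.le h2.le]
    have h3 : std (2 * (x - k)) = 0 := by
      rcases hsg k with h4 | h4 <;> rw [h4] at h <;> linarith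
    rcases st_flat h3 with h4 | h4
    · exact ⟨S.N (Fin.last (m + 1)) k 0, by rw [h4]; ring⟩
    · exact ⟨S.N (Fin.last (m + 1)) k 0 + S.sg k, by rw [h4]; push_cast; ring⟩
  · obtain ⟨k, h1, h2⟩ := rise_hl hS h
    rw [hl_eq hS k (by linarith) (by linarith)] at hm
    have h3 := st_pos (x := 2 * (x - k)) (by linarith)
    have h4 := st_lt_one (x := 2 * (x - k)) (by linarith)
    set N := S.N (Fin.last (m + 1)) k 0 with hN
    rcases hsg k with h5 | h5
    · rw [h5] at hm
      have h6 : N < m' := by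
        have : (N : ℝ) < m' := by linarith
        exact_mod_cast this
      have h7 : m' < N + 1 := by
        have : (m' : ℝ) < N + 1 := by linarith
        exact_mod_cast this
      omega
    · rw [h5] at hm
      have h6 : m' < N := by
        have : (m' : ℝ) < N := by linarith
        exact_mod_cast this
      have h7 : N - 1 < m' := by
        have : (N : ℝ) - 1 < m' := by linarith
        exact_mod_cast this
      omega

/-- windows of `NS` are windows. -/
theorem win_bil (hS : S.Ok) (N : ℤ → ℤ → ℝ) (h0 : ∀ k l, 0 ≤ N k l) :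
    Win (hl S) Sp fun p => bil N (Gp p.1) (Gp p.2) := by
  have hd : Differentiable ℝ fun p : ℝ × ℝ => bil N (Gp p.1) (Gp p.2) :=
    (contDiff_bilG N).differentiable (by norm_num)
  have hG : ∀ {k : ℤ} {x x' : ℝ}, (k : ℝ) < x → x < k + 1 / 2 → (k : ℝ) < x' → x' < k + 1 / 2 →
      Gp x' = Gp x := by
    intro k x x' h1 h2 h3 h4
    rw [Gp_eq k h3.le (by linarith), Gp_eq k h1.le (by linarith), st_of_le (by linarith),
      st_of_le (by linarith)]
  refine ⟨contDiff_bilG N, fun p => ?_, fun x y h => ?_, fun x y h => ?_⟩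
  · have h1 := Int.fract_nonneg (Gp p.1)
    have h2 := (Int.fract_lt_one (Gp p.1)).le
    have h3 := Int.fract_nonneg (Gp p.2)
    have h4 := (Int.fract_lt_one (Gp p.2)).le
    unfold bil
    have h5 : 0 ≤ 1 - Int.fract (Gp p.1) := by linarith
    have h6 : 0 ≤ 1 - Int.fract (Gp p.2) := by linarith
    have h7 := h0 ⌊Gp p.1⌋ ⌊Gp p.2⌋
    have h8 := h0 (⌊Gp p.1⌋ + 1) ⌊Gp p.2⌋
    have h9 := h0 ⌊Gp p.1⌋ (⌊Gp p.2⌋ + 1)
    have h10 := h0 (⌊Gp p.1⌋ + 1) (⌊Gp p.2⌋ + 1)
    positivity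
  · obtain ⟨k, h1, h2⟩ := rise_hl hS h
    have h3 : HasDerivAt (fun s : ℝ => bil N (Gp s) (Gp y)) 0 x := by
      refine (hasDerivAt_const x (bil N (Gp x) (Gp y))).congr_of_eventuallyEq ?_
      filter_upwards [Ioo_mem_nhds h1 h2] with s hs
      rw [hG h1 h2 hs.1 hs.2]
    have h4 := (hd (x, y)).hasFDerivAt.comp_hasDerivAt x
      ((hasDerivAt_id x).prodMk (hasDerivAt_const x y))
    exact h4.unique h3
  · obtain ⟨k, h1, h2⟩ := rise_Sp h
    have h3 : HasDerivAt (fun s : ℝ => bil N (Gp x) (Gp s)) 0 y := by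
      refine (hasDerivAt_const y (bil N (Gp x) (Gp y))).congr_of_eventuallyEq ?_
      filter_upwards [Ioo_mem_nhds h1 h2] with s hs
      rw [hG h1 h2 hs.1 hs.2]
    have h4 := (hd (x, y)).hasFDerivAt.comp_hasDerivAt y
      ((hasDerivAt_const y x).prodMk (hasDerivAt_id y))
    exact h4.unique h3

/-! ### change of coordinates -/

/-- `(x, lam, y) ↦ (θ, u, ω)`. -/
def Phi (n : ℕ) (z : ℝ × ℝ × ℝ) : ℝ × ℝ × ℝ := (z.1 / kk n, Real.exp z.2.1, z.2.2 / kk 15)

theorem surj_of_comp {n : ℕ} (hn : 0 < n) {f : ℝ × ℝ × ℝ → ℂ} {z : ℝ × ℝ × ℝ}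
    (hf : DifferentiableAt ℝ f (Phi n z)) (h : ∀ c : ℂ, ∃ v, fderiv ℝ f (Phi n z) v = c) :
    Function.Surjective (fderiv ℝ (fun z => f (Phi n z)) z) := by
  have hk := kk_pos hn
  have hk' := kk_pos (n := 15) (by norm_num)
  have hPd : Differentiable ℝ (Phi n) := by
    unfold Phi
    fun_prop
  intro c
  obtain ⟨v, hv⟩ := h c
  refine ⟨(kk n * v.1, Real.exp (-z.2.1) * v.2.1, kk 15 * v.2.2), ?_⟩
  have h1 : HasFDerivAt (fun z => f (Phi n z))
      ((fderiv ℝ f (Phi n z)).comp (fderiv ℝ (Phi n) z)) z :=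
    hf.hasFDerivAt.comp z (hPd z).hasFDerivAt
  rw [h1.fderiv, ContinuousLinearMap.comp_apply]
  have h2 : fderiv ℝ (Phi n) z (kk n * v.1, Real.exp (-z.2.1) * v.2.1, kk 15 * v.2.2) = v := by
    have a1 : HasFDerivAt (fun z : ℝ × ℝ × ℝ => z.1 / kk n)
        ((kk n)⁻¹ • ContinuousLinearMap.fst ℝ ℝ (ℝ × ℝ)) z := by
      have := (hasFDerivAt_fst (𝕜 := ℝ) (p := z)).const_mul (kk n)⁻¹
      refine this.congr_of_eventuallyEq (Eventually.of_forall fun y => ?_)
      simp only [div_eq_inv_mul]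
    have a2 : HasFDerivAt (fun z : ℝ × ℝ × ℝ => Real.exp z.2.1)
        (Real.exp z.2.1 • (ContinuousLinearMap.fst ℝ ℝ ℝ).comp
          (ContinuousLinearMap.snd ℝ ℝ (ℝ × ℝ))) z := by
      have b1 : HasFDerivAt (fun z : ℝ × ℝ × ℝ => z.2.1)
          ((ContinuousLinearMap.fst ℝ ℝ ℝ).comp (ContinuousLinearMap.snd ℝ ℝ (ℝ × ℝ))) z :=
        hasFDerivAt_fst.comp z hasFDerivAt_snd
      exact b1.exp
    have a3 : HasFDerivAt (fun z : ℝ × ℝ × ℝ => z.2.2 / kk 15)
        ((kk 15)⁻¹ • (ContinuousLinearMap.snd ℝ ℝ ℝ).comp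
          (ContinuousLinearMap.snd ℝ ℝ (ℝ × ℝ))) z := by
      have b1 : HasFDerivAt (fun z : ℝ × ℝ × ℝ => z.2.2)
          ((ContinuousLinearMap.snd ℝ ℝ ℝ).comp (ContinuousLinearMap.snd ℝ ℝ (ℝ × ℝ))) z :=
        hasFDerivAt_snd.comp z hasFDerivAt_snd
      have := b1.const_mul (kk 15)⁻¹
      refine this.congr_of_eventuallyEq (Eventually.of_forall fun y => ?_)
      simp only [div_eq_inv_mul]
    have a4 := a1.prodMk (a2.prodMk a3)
    have a5 : HasFDerivAt (Phi n) _ z := a4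
    rw [a5.fderiv]
    refine Prod.ext ?_ (Prod.ext ?_ ?_)
    · show (kk n)⁻¹ * (kk n * v.1) = v.1
      field_simp
    · show Real.exp z.2.1 * (Real.exp (-z.2.1) * v.2.1) = v.2.1
      rw [← mul_assoc, ← Real.exp_add, add_neg_cancel, Real.exp_zero, one_mul]
    · show (kk 15)⁻¹ * (kk 15 * v.2.2) = v.2.2
      field_simp
  rw [h2, hv]

/-! ### path C -/

/-- coefficients of the deletions. -/
def cc (M : Fin m → ℝ) (h1 h2 : ℝ) (σ : Option (Fin m)) : ℝ :=
  Option.elim σ h1 fun s => M s * h2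

/-- exponents of the deletions. -/
def jj (S : NS m) (σ : Option (Fin m)) : ℝ := Option.elim σ (15 / 2) fun s => (S.j (NS.ix s) : ℝ)

/-- windows of the deletions. -/
def ww (S : NS m) (σ : Option (Fin m)) (p : ℝ × ℝ) : ℝ :=
  Option.elim σ (S.kl p.1 p.2) fun s => S.fl (NS.ix s) p.1 p.2

theorem K_eq (S : NS m) (hn : 0 < S.n) (M : Fin m → ℝ) (cv h1 h2 : ℝ → ℝ) (t : ℝ)
    (z : ℝ × ℝ × ℝ) : (S.pathC M cv h1 h2).K t z =
      kL S.n (hl S) Sp (cv t) (cc M (h1 t) (h2 t)) (jj S) (ww S) (Phi S.n z) := by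
  have hk := kk_pos hn
  have hk' := kk_pos (n := 15) (by norm_num)
  have e1 : kk S.n * (z.1 / kk S.n) = z.1 := by field_simp
  have e2 : kk 15 * (z.2.2 / kk 15) = z.2.2 := by field_simp
  have e3 : Real.exp z.2.1 ^ 15 = Real.exp (15 * z.2.1) := by
    rw [← Real.exp_nat_mul]; norm_num
  have e4 : ∀ a : ℝ, Real.exp z.2.1 ^ a = Real.exp (a * z.2.1) := fun a => by
    rw [← Real.exp_mul, mul_comm]
  unfold PD.K PD.mid kL dL Phi
  simp only [e1, e2, e3, e4, NS.pathC, e_eq]
  have e5 : ∀ x : ℂ, x * ee (1 / 2) = -x := fun x => by rw [ee_half]; ring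
  simp only [e5, Finset.sum_neg_distrib]
  rw [← sub_eq_add_neg]
  congr 1
  push_cast
  refine Finset.sum_congr rfl fun σ _ => ?_
  cases σ with
  | none => simp only [cc, jj, ww, Option.elim]; push_cast; ring
  | some s => simp only [cc, jj, ww, Option.elim]; push_cast; ring

/-- **LEAF REGC.** -/
theorem regC : RegCProp := by
  intro m S hS M cv h1 h2 hM hcv hh hneg t ht z hz
  have hn := hS.hn
  have hsg : ∀ k, S.sg k ≠ 0 := fun k => by rcases hS.sg1 k with h | h <;> rw [h] <;> norm_num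
  have hw : ∀ σ, Win (hl S) Sp (ww S σ) := by
    intro σ
    cases σ with
    | none =>
      exact win_bil hS (fun k l => if S.kill k l then (1 : ℝ) else 0)
        (fun k l => by split_ifs <;> norm_num)
    | some s =>
      exact win_bil hS (fun k l => if S.flat (NS.ix s) k l then (1 : ℝ) else 0)
        (fun k l => by split_ifs <;> norm_num)
  have hc0 : ∀ σ, 0 ≤ cc M (h1 t) (h2 t) σ := by
    intro σ
    cases σ with
    | none => exact (hh t ht).1
    | some s => exact mul_nonneg (hM s).le (hh t ht).2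
  have hj : ∀ σ, 0 ≤ jj S σ ∧ jj S σ ≤ 15 := by
    intro σ
    cases σ with
    | none => show (0 : ℝ) ≤ 15 / 2 ∧ (15 / 2 : ℝ) ≤ 15; norm_num
    | some s =>
      have h3 := j_lt hS s
      show (0 : ℝ) ≤ (S.j (NS.ix s) : ℝ) ∧ (S.j (NS.ix s) : ℝ) ≤ 15
      refine ⟨Nat.cast_nonneg _, ?_⟩
      have : (S.j (NS.ix s) : ℝ) ≤ 14 := by exact_mod_cast h3.2
      linarith
  have hP : 0 < (Phi S.n z).2.1 := Real.exp_pos _
  have hfun : (S.pathC M cv h1 h2).K t = fun z =>
      kL S.n (hl S) Sp (cv t) (cc M (h1 t) (h2 t)) (jj S) (ww S) (Phi S.n z) :=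
    funext fun z => K_eq S hn M cv h1 h2 t z
  rw [hfun]
  refine surj_of_comp hn ((contDiffAt_kL (stc_hl hS) stc_Sp hw hP).differentiableAt
    (by norm_num)) fun c => ?_
  have h0 : kL S.n (hl S) Sp (cv t) (cc M (h1 t) (h2 t)) (jj S) (ww S) (Phi S.n z) = 0 := by
    rw [← K_eq S hn]; exact hz
  refine kL_reg hn (stc_hl hS) stc_Sp hw (hcv t) hc0 hj ?_ (θ := (Phi S.n z).1)
    (u := (Phi S.n z).2.1) (ω := (Phi S.n z).2.2) hP h0 c
  -- killed cells
  intro x y hx hy
  obtain ⟨k, k1, k2⟩ := rise_hl hS hx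
  obtain ⟨l, l1, l2⟩ := rise_Sp hy
  have hkl : S.kl x y = if S.kill k l then 1 else 0 :=
    bilG_lobe _ k l k1.le k2.le l1.le l2.le
  have hfl : ∀ s, S.fl s x y = if S.flat s k l then 1 else 0 := fun s =>
    bilG_lobe _ k l k1.le k2.le l1.le l2.le
  by_cases hkill : S.kill k l
  swap
  · left
    intro σ
    cases σ with
    | none =>
      show h1 t * S.kl x y = 0
      rw [hkl, if_neg hkill, mul_zero]
    | some s =>
      show M s * h2 t * S.fl (NS.ix s) x y = 0
      rw [hfl, if_neg (fun h => hkill ⟨_, h⟩), mul_zero]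
  right
  -- some coupling is flat
  obtain ⟨s0, hs0⟩ := id hkill
  have hs0' : ∃ s : Fin m, NS.ix s = s0 := by
    have a1 : s0 ≠ 0 := by
      rintro rfl
      have := hs0.2.1
      rw [hS.N0, hS.N0] at this
      omega
    have a2 : s0 ≠ Fin.last (m + 1) := by
      rintro rfl
      have := hs0.1
      rw [hS.N1s] at this
      have h3 := hsg k
      omega
    have a3 : (s0 : ℕ) ≠ 0 := fun h => a1 (Fin.ext h)
    have a4 : (s0 : ℕ) ≠ m + 1 := fun h => a2 (Fin.ext h)
    have a5 := s0.isLt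
    refine ⟨⟨s0 - 1, by omega⟩, Fin.ext ?_⟩
    simp only [NS.ix, Fin.val_succ, Fin.val_castSucc]
    omega
  obtain ⟨s, rfl⟩ := hs0'
  have hpos : ∀ (u : ℝ), 0 < u → ∀ σ, 0 ≤ cc M (h1 t) (h2 t) σ * u ^ jj S σ * ww S σ (x, y) :=
    fun u hu σ => mul_nonneg (mul_nonneg (hc0 σ) (Real.rpow_nonneg hu.le _)) ((hw σ).nn _)
  rcases hneg t ht with h3 | ⟨h3, h4⟩
  · -- `h1` large: `u^{15/2} = √cv`
    set q : ℝ := √(cv t) with hq
    have hq0 : 0 < q := Real.sqrt_pos.2 (hcv t)
    have hqq : q * q = cv t := Real.mul_self_sqrt (hcv t).le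
    refine ⟨q ^ ((2 : ℝ) / 15), Real.rpow_pos_of_pos hq0 _, ?_⟩
    have b1 : (q ^ ((2 : ℝ) / 15)) ^ 15 = q * q := by
      rw [← Real.rpow_natCast, ← Real.rpow_mul hq0.le, ← pow_two, ← Real.rpow_natCast q 2]
      congr 1; norm_num
    have b2 : (q ^ ((2 : ℝ) / 15)) ^ ((15 : ℝ) / 2) = q := by
      rw [← Real.rpow_mul hq0.le]
      norm_num
    have b3 := Finset.single_le_sum (f := fun σ => cc M (h1 t) (h2 t) σ *
      (q ^ ((2 : ℝ) / 15)) ^ jj S σ * ww S σ (x, y))
      (fun σ _ => hpos _ (Real.rpow_pos_of_pos hq0 _) σ) (Finset.mem_univ none)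
    have b4 : cc M (h1 t) (h2 t) none * (q ^ ((2 : ℝ) / 15)) ^ jj S none * ww S none (x, y) =
        h1 t * q := by
      show h1 t * (q ^ ((2 : ℝ) / 15)) ^ ((15 : ℝ) / 2) * S.kl x y = _
      rw [b2, hkl, if_pos hkill, mul_one]
    beta_reduce at b3
    rw [b4] at b3
    rw [b1, ← hqq]
    have : 2 * q * q < h1 t * q := mul_lt_mul_of_pos_right h3 hq0
    linarith
  · obtain ⟨lam, h5⟩ := h4 s
    refine ⟨Real.exp lam, Real.exp_pos _, ?_⟩
    have b1 : Real.exp lam ^ 15 = Real.exp (15 * lam) := by rw [← Real.exp_nat_mul]; norm_num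
    have b3 := Finset.single_le_sum (f := fun σ => cc M (h1 t) (h2 t) σ *
      Real.exp lam ^ jj S σ * ww S σ (x, y))
      (fun σ _ => hpos _ (Real.exp_pos _) σ) (Finset.mem_univ (some s))
    have b4 : cc M (h1 t) (h2 t) (some s) * Real.exp lam ^ jj S (some s) * ww S (some s) (x, y) =
        M s * Real.exp (S.j (NS.ix s) * lam) := by
      show M s * h2 t * Real.exp lam ^ (S.j (NS.ix s) : ℝ) * S.fl (NS.ix s) x y = _
      rw [hfl, if_pos hs0, h3, ← Real.exp_mul, mul_comm lam]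
      ring
    beta_reduce at b3
    rw [b4] at b3
    have b5 : 0 ≤ ∑ s' ∈ Finset.univ.erase s, M s' * Real.exp (S.j (NS.ix s') * lam) :=
      Finset.sum_nonneg fun s' _ => mul_nonneg (hM s').le (Real.exp_pos _).le
    rw [b1]
    linarith

end own

end Crest.Agent.R267.NSRegC_855
end
end

-- ▼ part R267/NAsm_407
section

/-!
# Row 267, C1 (helper407): assembly of the planar arms

`armsP_of` : `ArmsP b D` (helper284) from the two leaves `SepProp`, `RegBProp` (helper966) and the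
exit `ExitP b D v` of the three arms.
-/

set_option autoImplicit false
set_option linter.unusedSectionVars false

noncomputable section

open Set
open scoped Real
open Crest.Agent.R267.NdR_484 Crest.Agent.R267.NdS_484 Crest.Agent.R267.NdY_484
open Crest.Agent.R267.PolArm_484 Crest.Agent.R267.NSDefs_966
open Crest.Agent.R267.NStep_88 Crest.Agent.R267.NEnt_407 Crest.Agent.R267.NSArm_780

namespace Crest.Agent.R267.NAsm_407

/-- the exponents of the official arms. -/
abbrev TT (b : Bool) : Fin 3 → Finset (ℕ × ℕ) := bif b then EntD_370.Tf else EntD_370.Tg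

theorem armDat (b : Bool) (v : Fin 3) : ArmDat (aw b v) (TT b v) (fun _ => 1) := by
  cases b
  · exact EntD_370.datg v
  · exact EntD_370.datf v

theorem sn_cvx (b : Bool) (v : Fin 3) : (sn b v).S.Cvx (aw b v) := by
  cases b <;> fin_cases v
  all_goals
    refine ⟨?_, ?_, ?_⟩
    · decide +kernel
    · decide +kernel
    · decide +kernel

set_option maxRecDepth 100000 in
theorem sn_dat (b : Bool) (v : Fin 3) : PlStart_484.Dat (aw b v) (TT b v) (sn b v).S.i (sn b v).S.j
    (xN (sn b v).S (aw b v)) 0 (Fin.last (mm v + 1)) := by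
  cases b <;> fin_cases v
  all_goals
    refine ⟨?_, ?_, ?_, ?_, fun _ => rfl, ?_, ?_, ?_, ?_⟩
    all_goals decide +kernel

/-- **exit** of one arm. -/
def ExitP (b : Bool) (D : T3aNDefs_88.SD 4) (v : Fin 3) : Prop :=
  ∃ a0 : ℝ, 0 < a0 ∧ ∃ b0 : ℝ, ∀ a c : ℝ, 0 < a → a ≤ a0 → b0 ≤ c → a ≤ c →
    ∃ A : ℂ × ℂ → ℂ, AEq b v (((sn b v).S.fin.tri 0).arm b v a c) A ∧ HubDefs_284.Tgt b D v A

theorem Ab_eq (b : Bool) (W r : ℝ) (v : Fin 3) :
    Asm406_808.Ab b W r v = Ac (aw b v) (TT b v) (fun _ => 1) W r := by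
  cases b <;> rfl

/-- **C1** from the leaves. -/
theorem armsP_of (hSep : SepProp) (hB : RegBProp) (b : Bool) (D : T3aNDefs_88.SD 4)
    (hE : ∀ v, ExitP b D v) : HubAsm_284.ArmsP b D := by
  choose r0 hr0 H using fun v => NSSplice_966.chain_of ZoneF_951.zoneProp hSep hB
    NSRegC_855.regC (sn_ok b v) (sn_cvx b v) b v
  choose r1 hr1 W0 hW0 b0 hb0 K using fun v => entry_tri (sn_ok b v) (sn_dat b v) (armDat b v)
  obtain ⟨v0, hv0⟩ := Finite.exists_min r0
  obtain ⟨v1, hv1⟩ := Finite.exists_min r1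
  refine ⟨min (r0 v0) (r1 v1), lt_min (hr0 v0) (hr1 v1), fun r hr hrr => ?_⟩
  obtain ⟨v2, hv2⟩ := Finite.exists_max W0
  refine ⟨W0 v2, fun W hW => ?_⟩
  have key : ∀ v, ∃ A : ℂ × ℂ → ℂ, AEq b v (Asm406_808.Ab b W r v) A ∧
      HubDefs_284.Tgt b D v A := by
    intro v
    obtain ⟨a1, ha1, c1, H1⟩ := H v r hr ((hrr.trans (min_le_left _ _)).trans (hv0 v))
    obtain ⟨a2, ha2, H2⟩ := K v r hr ((hrr.trans (min_le_right _ _)).trans (hv1 v))
    obtain ⟨a3, ha3, c3, H3⟩ := hE v
    have hm : 0 < min a1 (min a2 a3) := lt_min ha1 (lt_min ha2 ha3)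
    obtain ⟨c, h1, h2, h3, h4⟩ : ∃ c : ℝ, c1 ≤ c ∧ b0 v ≤ c ∧ c3 ≤ c ∧ min a1 (min a2 a3) ≤ c :=
      ⟨max (max c1 (b0 v)) (max c3 (min a1 (min a2 a3))),
        (le_max_left _ _).trans (le_max_left _ _), (le_max_right _ _).trans (le_max_left _ _),
        (le_max_left _ _).trans (le_max_right _ _), (le_max_right _ _).trans (le_max_right _ _)⟩
    have e2 := H2 _ hm ((min_le_right _ _).trans (min_le_left _ _)) c h2 h4 W ((hv2 v).trans hW)
    have e1 := H1 _ c hm (min_le_left _ _) h1 h4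
    obtain ⟨A, e3, hA⟩ := H3 _ c hm ((min_le_right _ _).trans (min_le_right _ _)) h3 h4
    refine ⟨A, ?_, hA⟩
    rw [Ab_eq]
    exact (e2.aeq.trans e1).trans e3
  choose A hA using key
  exact ⟨A, fun v => (hA v).1, fun v => (hA v).2⟩

end Crest.Agent.R267.NAsm_407
end
end

-- ▼ part R267/SepN_667
section

/-!
# Row 267, C1 (966's `NSDefs_966`): LEAF SEP (helper667)

`sep_prop : SepProp`: the coefficients `r ^ (a i + j - 15)` of 484's arms are separated (`Sep`) and
every coupling dominates somewhere (`Neg`), for small `r`.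
-/

set_option autoImplicit false

noncomputable section

open Set Finset
open Crest.Agent.R267.NSDefs_966

namespace Crest.Agent.R267.SepN_667

/-- strict concavity with a gap, only through `min`. -/
def Conc {m : ℕ} (f : Fin (m + 2) → ℝ) (G : ℝ) : Prop :=
  ∀ s s' s'' : Fin (m + 2), s < s' → s' < s'' → min (f s) (f s'') + G ≤ f s'

theorem pair_of_conc {m : ℕ} {f : Fin (m + 2) → ℝ} {G : ℝ} (hG : 0 < G) (hf : Conc f G) :
    ∃ s : Fin (m + 1), ∀ s' : Fin (m + 2), s' ≠ s.castSucc → s' ≠ s.succ →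
      f s' + G ≤ max (f s.castSucc) (f s.succ) := by
  obtain ⟨s, -, hs⟩ := Finset.exists_max_image (Finset.univ : Finset (Fin (m + 1)))
    (fun s => f s.castSucc + f s.succ) ⟨0, Finset.mem_univ _⟩
  have hs' : ∀ u : Fin (m + 1), f u.castSucc + f u.succ ≤ f s.castSucc + f s.succ :=
    fun u => hs u (Finset.mem_univ _)
  refine ⟨s, fun s' h1 h2 => ?_⟩
  have v1 : (s' : ℕ) ≠ s := fun h => h1 (Fin.ext (by simpa using h))
  have v2 : (s' : ℕ) ≠ s + 1 := fun h => h2 (Fin.ext (by simpa using h))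
  have hsc : (s.castSucc : ℕ) = s := rfl
  have hss : (s.succ : ℕ) = s + 1 := rfl
  rcases lt_or_gt_of_ne v1 with hlt | hgt
  · -- `s' < s`
    have hs0 : 0 < (s : ℕ) := by omega
    obtain ⟨u, hu⟩ : ∃ u : Fin (m + 1), (u : ℕ) = s - 1 := ⟨⟨s - 1, by omega⟩, rfl⟩
    have huc : (u.castSucc : ℕ) = u := rfl
    have e1 : u.succ = s.castSucc := Fin.ext (by simp only [Fin.val_succ, Fin.val_castSucc]; omega)
    have h3 := hs' u
    rw [e1] at h3
    have h4 : f u.castSucc ≤ f s.succ := by linarith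
    have h5 := hf u.castSucc s.castSucc s.succ (Fin.lt_def.2 (by omega)) (Fin.lt_def.2 (by omega))
    rw [min_eq_left h4] at h5
    by_cases h6 : s' = u.castSucc
    · rw [h6]; exact h5.trans (le_max_left _ _)
    · have v3 : (s' : ℕ) ≠ u := fun h => h6 (Fin.ext (by simpa using h))
      have h7 := hf s' u.castSucc s.castSucc (Fin.lt_def.2 (by omega)) (Fin.lt_def.2 (by omega))
      rcases le_total (f s') (f s.castSucc) with h8 | h8
      · rw [min_eq_left h8] at h7
        refine le_trans ?_ (le_max_left _ _)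
        linarith
      · rw [min_eq_right h8] at h7
        exfalso; linarith
  · -- `s' > s + 1`
    have hlt2 : (s : ℕ) + 1 < s' := by omega
    have hb := s'.2
    obtain ⟨u, hu⟩ : ∃ u : Fin (m + 1), (u : ℕ) = s + 1 := ⟨⟨s + 1, by omega⟩, rfl⟩
    have huc : (u.succ : ℕ) = u + 1 := rfl
    have e1 : u.castSucc = s.succ := Fin.ext (by simp only [Fin.val_succ, Fin.val_castSucc]; omega)
    have h3 := hs' u
    rw [e1] at h3
    have h4 : f u.succ ≤ f s.castSucc := by linarith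
    have h5 := hf s.castSucc s.succ u.succ (Fin.lt_def.2 (by omega)) (Fin.lt_def.2 (by omega))
    rw [min_eq_right h4] at h5
    by_cases h6 : s' = u.succ
    · rw [h6]; exact h5.trans (le_max_right _ _)
    · have v3 : (s' : ℕ) ≠ u + 1 := fun h => h6 (Fin.ext (by simpa using h))
      have h7 := hf s.succ u.succ s' (Fin.lt_def.2 (by omega)) (Fin.lt_def.2 (by omega))
      rcases le_total (f s.succ) (f s') with h8 | h8
      · rw [min_eq_left h8] at h7
        exfalso; linarith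
      · rw [min_eq_right h8] at h7
        refine le_trans ?_ (le_max_right _ _)
        linarith

theorem mid_of_conc {m : ℕ} {f : Fin (m + 2) → ℝ} {G : ℝ} (hG : 0 < G) (hf : Conc f G)
    {p c q : Fin (m + 2)} (hp : (p : ℕ) + 1 = c) (hq : (c : ℕ) + 1 = q) (he : f p = f q)
    (s' : Fin (m + 2)) (h : s' ≠ c) : f s' + G ≤ f c := by
  have h1 := hf p c q (by rw [Fin.lt_def]; omega) (by rw [Fin.lt_def]; omega)
  rw [he, min_self] at h1
  have v1 : (s' : ℕ) ≠ c := fun h' => h (Fin.ext h')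
  by_cases h2 : s' = p
  · rw [h2, he]; exact h1
  by_cases h3 : s' = q
  · rw [h3]; exact h1
  have v2 : (s' : ℕ) ≠ p := fun h' => h2 (Fin.ext h')
  have v3 : (s' : ℕ) ≠ q := fun h' => h3 (Fin.ext h')
  rcases lt_or_gt_of_ne v1 with hlt | hgt
  · have h7 := hf s' p c (by rw [Fin.lt_def]; omega) (by rw [Fin.lt_def]; omega)
    rcases le_total (f s') (f c) with h8 | h8
    · rw [min_eq_left h8] at h7; linarith
    · rw [min_eq_right h8] at h7; exfalso; linarith
  · have h7 := hf c q s' (by rw [Fin.lt_def]; omega) (by rw [Fin.lt_def]; omega)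
    rcases le_total (f c) (f s') with h8 | h8
    · rw [min_eq_left h8] at h7; exfalso; linarith
    · rw [min_eq_right h8] at h7; linarith

section

variable {m : ℕ} (S : NS m) (a : ℕ)

/-- the logarithm of the term `s` at the radius `lam`. -/
def LL (r lam : ℝ) (s : Fin (m + 2)) : ℝ :=
  ((a * S.i s + S.j s : ℕ) - 15 : ℝ) * Real.log r + S.j s * lam

theorem conc_LL (hS : S.Ok) (hC : S.Cvx a) {r : ℝ} (h0 : 0 < r) (h1 : r ≤ 1) (lam : ℝ) :
    Conc (LL S a r lam) (-(Real.log r) / 15) := by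
  intro s s' s'' h h'
  have hl : Real.log r ≤ 0 := Real.log_nonpos h0.le h1
  have c := hC.2.2 s s' s'' h h'
  have j1 : S.j s' < S.j s := hS.hj h
  have j2 : S.j s'' < S.j s' := hS.hj h'
  have j3 : S.j s ≤ 15 := by
    rw [← hS.j0]; exact hS.hj.antitone (Fin.zero_le _)
  have j1' : (S.j s' : ℝ) < S.j s := by exact_mod_cast j1
  have j2' : (S.j s'' : ℝ) < S.j s' := by exact_mod_cast j2
  have j3' : (S.j s : ℝ) ≤ 15 := by exact_mod_cast j3
  have j4' : (0 : ℝ) ≤ S.j s'' := Nat.cast_nonneg _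
  have c' : (((a * S.i s' + S.j s' : ℕ) : ℤ) * ((S.j s : ℤ) - S.j s'') + 1 : ℤ) ≤
      ((a * S.i s + S.j s : ℕ) : ℤ) * ((S.j s' : ℤ) - S.j s'') +
        ((a * S.i s'' + S.j s'' : ℕ) : ℤ) * ((S.j s : ℤ) - S.j s') := by omega
  have c'' : (((a * S.i s' + S.j s' : ℕ) : ℝ) * ((S.j s : ℝ) - S.j s'') + 1 : ℝ) ≤
      ((a * S.i s + S.j s : ℕ) : ℝ) * ((S.j s' : ℝ) - S.j s'') +
        ((a * S.i s'' + S.j s'' : ℕ) : ℝ) * ((S.j s : ℝ) - S.j s') := by exact_mod_cast c'
  set A := ((a * S.i s + S.j s : ℕ) : ℝ) with hA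
  set A' := ((a * S.i s' + S.j s' : ℕ) : ℝ) with hA'
  set A'' := ((a * S.i s'' + S.j s'' : ℕ) : ℝ) with hA''
  set l := Real.log r with hlr
  have key : ((S.j s : ℝ) - S.j s'') * LL S a r lam s' ≥
      ((S.j s' : ℝ) - S.j s'') * LL S a r lam s + ((S.j s : ℝ) - S.j s') * LL S a r lam s'' - l := by
    simp only [LL, ← hA, ← hA', ← hA'', ← hlr]
    nlinarith [mul_nonneg_of_nonpos_of_nonpos hl (sub_nonpos.2 c'')]
  have hm1 : min (LL S a r lam s) (LL S a r lam s'') ≤ LL S a r lam s := min_le_left _ _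
  have hm2 : min (LL S a r lam s) (LL S a r lam s'') ≤ LL S a r lam s'' := min_le_right _ _
  have k1 := mul_le_mul_of_nonneg_left hm1 (sub_nonneg.2 j2'.le)
  have k2 := mul_le_mul_of_nonneg_left hm2 (sub_nonneg.2 j1'.le)
  have hpos : 0 < (S.j s : ℝ) - S.j s'' := by linarith
  have hle : ((S.j s : ℝ) - S.j s'') ≤ 15 := by linarith
  have k3 : ((S.j s : ℝ) - S.j s'') * (-l / 15) ≤ -l := by nlinarith
  have k4 : ((S.j s : ℝ) - S.j s'') * (min (LL S a r lam s) (LL S a r lam s'') + -l / 15) ≤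
      ((S.j s : ℝ) - S.j s'') * LL S a r lam s' := by
    rw [mul_add]; nlinarith
  exact le_of_mul_le_mul_left k4 hpos

theorem term_eq (hS : S.Ok) (hC : S.Cvx a) {r : ℝ} (h0 : 0 < r) (lam : ℝ) (s : Fin (m + 2)) :
    cf (S.Mr a r) (NS.Mvr a r) s * Real.exp (S.j s * lam) = Real.exp (LL S a r lam s) := by
  have hcf : cf (S.Mr a r) (NS.Mvr a r) s = r ^ (a * S.i s + S.j s - 15) := by
    induction s using Fin.cases with
    | zero => simp [cf, hS.i0, hS.j0]
    | succ s =>
      induction s using Fin.lastCases with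
      | last =>
        have e : (Fin.last m).succ = Fin.last (m + 1) := rfl
        simp only [cf, Fin.cons_succ, Fin.snoc_last]
        rw [e, hS.i1, hS.j1]
        simp [NS.Mvr, mul_comm]
      | cast s =>
        simp only [cf, Fin.cons_succ, Fin.snoc_castSucc]
        rfl
  have h15 := hC.1 s
  rw [hcf, LL, Real.exp_add, ← Real.exp_log (pow_pos h0 (a * S.i s + S.j s - 15)), Real.log_pow]
  congr 2
  rw [Nat.cast_sub h15]
  norm_num

end

/-- **LEAF SEP.** -/
theorem sep_prop : SepProp := by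
  intro m S a hS hC δ hδ
  set ε : ℝ := min (min δ (1 / (m + 2))) (1 / 2) with hε
  have hm : (0 : ℝ) < m + 2 := by positivity
  have ε0 : 0 < ε := by positivity
  have ε1 : ε < 1 := lt_of_le_of_lt (min_le_right _ _) (by norm_num)
  have εδ : ε ≤ δ := (min_le_left _ _).trans (min_le_left _ _)
  have εm : ε ≤ 1 / (m + 2) := (min_le_left _ _).trans (min_le_right _ _)
  refine ⟨ε ^ 15, pow_pos ε0 _, fun r h0 hr => ?_⟩
  have hr1 : r < 1 := lt_of_le_of_lt hr (pow_lt_one₀ ε0.le ε1 (by norm_num))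
  have hG : 0 < -(Real.log r) / 15 := by
    have := Real.log_neg h0 hr1
    linarith
  have hGe : Real.exp (-(-(Real.log r) / 15)) ≤ ε := by
    rw [← Real.le_log_iff_exp_le ε0]
    have := Real.log_le_log h0 hr
    rw [Real.log_pow] at this
    push_cast at this
    linarith
  have hcv := fun lam => conc_LL S a hS hC h0 hr1.le lam
  constructor
  · intro lam
    obtain ⟨s, hs⟩ := pair_of_conc hG (hcv lam)
    refine ⟨s, fun s' h1 h2 => ?_⟩
    rw [term_eq S a hS hC h0, term_eq S a hS hC h0, term_eq S a hS hC h0,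
      ← Real.exp_monotone.map_max]
    have h3 := hs s' h1 h2
    have h4 : LL S a r lam s' ≤ -(-(Real.log r) / 15) +
        max (LL S a r lam s.castSucc) (LL S a r lam s.succ) := by linarith
    calc Real.exp (LL S a r lam s') ≤ Real.exp (-(-(Real.log r) / 15) +
        max (LL S a r lam s.castSucc) (LL S a r lam s.succ)) := Real.exp_le_exp.2 h4
      _ = Real.exp (-(-(Real.log r) / 15)) *
          Real.exp (max (LL S a r lam s.castSucc) (LL S a r lam s.succ)) := Real.exp_add _ _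
      _ ≤ δ * _ := mul_le_mul_of_nonneg_right (hGe.trans εδ) (Real.exp_nonneg _)
  · intro s
    set p : Fin (m + 2) := s.castSucc.castSucc with hp
    set c : Fin (m + 2) := NS.ix s with hc
    set q : Fin (m + 2) := s.succ.succ with hq
    have hpc : (p : ℕ) + 1 = c := by simp [hp, hc, NS.ix]
    have hcq : (c : ℕ) + 1 = q := by simp [hq, hc, NS.ix]
    have hj : (S.j q : ℝ) < S.j p := by
      have : S.j q < S.j p := hS.hj (by rw [Fin.lt_def]; omega)
      exact_mod_cast this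
    set X : Fin (m + 2) → ℝ := fun s => ((a * S.i s + S.j s : ℕ) - 15 : ℝ) with hX
    set lam : ℝ := (X q - X p) * Real.log r / (S.j p - S.j q) with hlam
    have he : LL S a r lam p = LL S a r lam q := by
      have hne : (S.j p : ℝ) - S.j q ≠ 0 := by linarith
      have h5 : lam * (S.j p - S.j q) = (X q - X p) * Real.log r := by
        rw [hlam]; field_simp
      have h6 : LL S a r lam p = X p * Real.log r + S.j p * lam := rfl
      have h7 : LL S a r lam q = X q * Real.log r + S.j q * lam := rfl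
      rw [h6, h7]; linarith
    have hmid := mid_of_conc hG (hcv lam) hpc hcq he
    refine ⟨lam, ?_⟩
    have t0 : Real.exp (15 * lam) = Real.exp (LL S a r lam 0) := by
      rw [← term_eq S a hS hC h0]
      simp [cf, hS.j0]
    have t1 : NS.Mvr a r = Real.exp (LL S a r lam (Fin.last (m + 1))) := by
      rw [← term_eq S a hS hC h0, hS.j1]
      have e : (Fin.last (m + 1)) = (Fin.last m).succ := rfl
      rw [e]
      simp [cf]
    have t2 : ∀ s' : Fin m, S.Mr a r s' * Real.exp (S.j (NS.ix s') * lam) =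
        Real.exp (LL S a r lam (NS.ix s')) := by
      intro s'
      rw [← term_eq S a hS hC h0]
      simp [cf, NS.ix]
    have bd : ∀ s' : Fin (m + 2), s' ≠ c → Real.exp (LL S a r lam s') ≤
        ε * Real.exp (LL S a r lam c) := by
      intro s' h
      have h8 := hmid s' h
      calc Real.exp (LL S a r lam s') ≤ Real.exp (-(-(Real.log r) / 15) + LL S a r lam c) :=
            Real.exp_le_exp.2 (by linarith)
        _ = Real.exp (-(-(Real.log r) / 15)) * Real.exp (LL S a r lam c) := Real.exp_add _ _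
        _ ≤ _ := mul_le_mul_of_nonneg_right hGe (Real.exp_nonneg _)
    have b0 := bd 0 (fun h => by
      have := congrArg Fin.val h
      simp [hc, NS.ix] at this)
    have b1 := bd (Fin.last (m + 1)) (fun h => by
      have := congrArg Fin.val h
      have hs := s.2
      simp [hc, NS.ix] at this
      omega)
    have b2 : ∑ s' ∈ Finset.univ.erase s, S.Mr a r s' * Real.exp (S.j (NS.ix s') * lam) ≤
        ((m : ℝ) - 1) * (ε * Real.exp (LL S a r lam c)) := by
      have hcard : ((Finset.univ.erase s).card : ℝ) = (m : ℝ) - 1 := by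
        rw [Finset.card_erase_of_mem (Finset.mem_univ _), Finset.card_univ, Fintype.card_fin,
          Nat.cast_sub (by have := s.2; omega)]
        simp
      rw [← hcard, ← nsmul_eq_mul]
      refine Finset.sum_le_card_nsmul _ _ _ fun s' hs' => ?_
      rw [t2]
      refine bd _ fun h => ?_
      have := congrArg Fin.val h
      simp [hc, NS.ix] at this
      exact (Finset.mem_erase.1 hs').1 (Fin.ext this)
    rw [t0, t1, t2]
    have hE : 0 < Real.exp (LL S a r lam c) := Real.exp_pos _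
    have b3 : ((m : ℝ) + 1) * ε < 1 := by
      have : (m + 2 : ℝ) * ε ≤ 1 := by
        calc (m + 2 : ℝ) * ε ≤ (m + 2 : ℝ) * (1 / (m + 2)) :=
              mul_le_mul_of_nonneg_left εm hm.le
          _ = 1 := by field_simp
      nlinarith
    have b4 : ((m : ℝ) + 1) * ε * Real.exp (LL S a r lam c) < 1 * Real.exp (LL S a r lam c) :=
      mul_lt_mul_of_pos_right b3 hE
    nlinarith

end Crest.Agent.R267.SepN_667
end
end

-- ▼ part R267/NSKept_796
section

/-!
# Row 267, N2 (helper796): regularity of the cubes of bilinear staircases, coefficient level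
(helper966 #3428 (2))

`κ = Tq e(ν) + TX e(X) + Tp e(μ)`, `e(u) = exp(2 π i u)`, `X = μ ν` or `μ + ν - μ ν` (kept) or `0`
(killed). `(a, b)` is a covector, `Cc a b u = Re (ξ̄ e(u))`, `Sc a b u = Re (ξ̄ i e(u))`.
-/

set_option autoImplicit false

noncomputable section

open Real

namespace Crest.Agent.R267.NSKept_796

/-- component of `e(u)` -/
def Cc (a b u : ℝ) : ℝ := a * cos (2 * π * u) + b * sin (2 * π * u)

/-- component of `i e(u)` -/
def Sc (a b u : ℝ) : ℝ := -a * sin (2 * π * u) + b * cos (2 * π * u)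

theorem sq_add (a b u : ℝ) : Cc a b u ^ 2 + Sc a b u ^ 2 = a ^ 2 + b ^ 2 := by
  unfold Cc Sc
  have h := sin_sq_add_cos_sq (2 * π * u)
  linear_combination (a ^ 2 + b ^ 2) * h

theorem zero_of {a b u : ℝ} (h1 : Cc a b u = 0) (h2 : Sc a b u = 0) : a = 0 ∧ b = 0 := by
  have h := sq_add a b u
  rw [h1, h2] at h
  constructor <;> nlinarith [sq_nonneg a, sq_nonneg b]

theorem Cc_add (a b u v : ℝ) : Cc a b v = Cc a b u * cos (2 * π * (v - u)) +
    Sc a b u * sin (2 * π * (v - u)) := by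
  have h : 2 * π * v = 2 * π * u + 2 * π * (v - u) := by ring
  unfold Cc Sc
  rw [h, cos_add, sin_add]
  ring

theorem Sc_add (a b u v : ℝ) : Sc a b v = -Cc a b u * sin (2 * π * (v - u)) +
    Sc a b u * cos (2 * π * (v - u)) := by
  have h : 2 * π * v = 2 * π * u + 2 * π * (v - u) := by ring
  unfold Cc Sc
  rw [h, cos_add, sin_add]
  ring

/-- `sin (2 π u) = 0` with `0 < |u| < 1` means `|u| = 1 / 2` -/
theorem half_of_sin {u : ℝ} (h0 : u ≠ 0) (h1 : |u| < 1) (h : sin (2 * π * u) = 0) :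
    |u| = 1 / 2 := by
  obtain ⟨n, hn⟩ := sin_eq_zero_iff.1 h
  have hpi := pi_pos
  have h2 : (n : ℝ) = 2 * u := by
    have : (n : ℝ) * π = (2 * u) * π := by rw [hn]; ring
    exact mul_right_cancel₀ hpi.ne' this
  rw [abs_lt] at h1
  have h3 : (-2 : ℝ) < n := by rw [h2]; linarith
  have h4 : (n : ℝ) < 2 := by rw [h2]; linarith
  have h5 : (-2 : ℤ) < n := by exact_mod_cast h3
  have h6 : n < (2 : ℤ) := by exact_mod_cast h4
  have h7 : n = -1 ∨ n = 0 ∨ n = 1 := by omega
  rcases h7 with h7 | h7 | h7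
  · rw [h7] at h2
    have : u = -(1 / 2) := by push_cast at h2; linarith
    rw [this, abs_neg, abs_of_pos (by norm_num)]
  · rw [h7] at h2
    exact absurd (by push_cast at h2; linarith) h0
  · rw [h7] at h2
    have : u = 1 / 2 := by push_cast at h2; linarith
    rw [this, abs_of_pos (by norm_num)]

/-- `cos (2 π t) < 0`, `0 ≤ t` implies `1 / 4 < t` -/
theorem quarter_of_cos {t : ℝ} (h0 : 0 ≤ t) (h : cos (2 * π * t) < 0) : 1 / 4 < t := by
  by_contra hcon
  have hpi := pi_pos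
  refine absurd (cos_nonneg_of_neg_pi_div_two_le_of_le ?_ ?_) (not_le.2 h)
  · nlinarith
  · nlinarith [not_lt.1 hcon]

theorem fin_aux {T M c : ℝ} (hT : 0 < T) (hM : 0 < M) (h1 : -1 ≤ c) (h2 : c ≤ 1)
    (h : T + M * c ≤ 0) : c < 0 ∧ 0 ≤ T * c + M := by
  have hc : c < 0 := by
    by_contra hcon
    have := mul_nonneg hM.le (not_lt.1 hcon)
    linarith
  refine ⟨hc, ?_⟩
  have h3 : 0 ≤ (-(M * c) - T) * (-c) := mul_nonneg (by linarith) (by linarith)
  have h4 : 0 ≤ M * ((1 - c) * (1 + c)) :=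
    mul_nonneg hM.le (mul_nonneg (by linarith) (by linarith))
  nlinarith

/-- **core of the kept cubes**: `m + n = 1`, angles `t₁, t₂`. -/
theorem core {Tq TX Tp A B m n c s t₁ t₂ : ℝ} (hq : 0 < Tq) (hp : 0 < Tp) (hX : 0 < TX)
    (hA : 0 < A) (hB : 0 < B) (hm : 0 < m) (hn : 0 < n) (hcs : c ≠ 0 ∨ s ≠ 0)
    (hre : Tq * cos t₁ + TX + Tp * cos t₂ = 0) (him : Tq * sin t₁ + Tp * sin t₂ = 0)
    (hmn : m + n = 1)
    (hy : Tq * (-c * sin t₁ + s * cos t₁) + TX * m * s = 0)
    (hl : A * (Tq * (c * cos t₁ + s * sin t₁)) = B * (Tp * (c * cos t₂ + s * sin t₂)))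
    (hD : Tq * cos t₁ + m * TX ≠ 0 ∨ sin t₁ ≠ 0) :
    cos t₁ < 0 ∧ cos t₂ < 0 := by
  -- `D = Dr + i Di`
  set Dr := Tq * cos t₁ + m * TX with hDr
  set Di := Tq * sin t₁ with hDi
  have h1 : s * Dr = c * Di := by rw [hDr, hDi]; linarith
  have h2 : Dr = -(Tp * cos t₂ + n * TX) := by
    rw [hDr]; have : n = 1 - m := by linarith
    rw [this]; linarith
  have h3 : Di = -(Tp * sin t₂) := by rw [hDi]; linarith
  -- scalar
  obtain ⟨t, ht0, htc, hts⟩ : ∃ t : ℝ, t ≠ 0 ∧ c = t * Dr ∧ s = t * Di := by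
    by_cases hr : Dr = 0
    · have hi : Di ≠ 0 := by
        rcases hD with hD | hD
        · exact absurd hr hD
        · exact mul_ne_zero hq.ne' hD
      have hc : c = 0 := by
        rw [hr, mul_zero] at h1
        exact (mul_eq_zero.1 h1.symm).resolve_right hi
      have hs : s ≠ 0 := by
        rcases hcs with h | h
        · exact absurd hc h
        · exact h
      refine ⟨s / Di, div_ne_zero hs hi, ?_, ?_⟩
      · rw [hr, mul_zero, hc]
      · field_simp
    · refine ⟨c / Dr, ?_, ?_, ?_⟩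
      · intro h
        have hc : c = 0 := by
          rcases div_eq_zero_iff.1 h with h | h
          · exact h
          · exact absurd h hr
        rw [hc, zero_mul] at h1
        have hs : s = 0 := (mul_eq_zero.1 h1).resolve_right hr
        rcases hcs with h | h
        · exact h hc
        · exact h hs
      · field_simp
      · have : s = c * Di / Dr := by rw [← h1]; field_simp
        rw [this]; ring
  have hp1 := sin_sq_add_cos_sq t₁
  have hp2 := sin_sq_add_cos_sq t₂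
  have h4 : Dr * cos t₁ + Di * sin t₁ = Tq + m * TX * cos t₁ := by
    rw [hDr, hDi]; linear_combination Tq * hp1
  have h5 : Dr * cos t₂ + Di * sin t₂ = -(Tp + n * TX * cos t₂) := by
    rw [h2, h3]; linear_combination -Tp * hp2
  have h6 : A * (Tq * (Tq + m * TX * cos t₁)) + B * (Tp * (Tp + n * TX * cos t₂)) = 0 := by
    have h7 : c * cos t₁ + s * sin t₁ = t * (Tq + m * TX * cos t₁) := by
      rw [← h4, htc, hts]; ring
    have h8 : c * cos t₂ + s * sin t₂ = -(t * (Tp + n * TX * cos t₂)) := by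
      rw [htc, hts]; linear_combination t * h5
    rw [h7, h8] at hl
    have h9 : t * (A * (Tq * (Tq + m * TX * cos t₁)) + B * (Tp * (Tp + n * TX * cos t₂))) = 0 := by
      linarith
    exact (mul_eq_zero.1 h9).resolve_left ht0
  have hc1 := neg_one_le_cos t₁
  have hc1' := cos_le_one t₁
  have hc2 := neg_one_le_cos t₂
  have hc2' := cos_le_one t₂
  have hAq := mul_pos hA hq
  have hBp := mul_pos hB hp
  have hmX := mul_pos hm hX
  have hnX := mul_pos hn hX
  -- one of the two is `≤ 0`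
  rcases le_or_gt (Tq + m * TX * cos t₁) 0 with h7 | h7
  · obtain ⟨h8, h9⟩ := fin_aux hq hmX hc1 hc1' h7
    refine ⟨h8, ?_⟩
    have h10 : 0 ≤ Dr := h9
    rw [h2] at h10
    by_contra hcon
    have := mul_nonneg hp.le (not_lt.1 hcon)
    linarith
  · have h8 : Tp + n * TX * cos t₂ ≤ 0 := by
      by_contra hcon
      have h9 : 0 < A * (Tq * (Tq + m * TX * cos t₁)) := mul_pos hA (mul_pos hq h7)
      have h10 : 0 < B * (Tp * (Tp + n * TX * cos t₂)) :=
        mul_pos hB (mul_pos hp (not_le.1 hcon))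
      linarith
    obtain ⟨h9, h10⟩ := fin_aux hp hnX hc2 hc2' h8
    refine ⟨?_, h9⟩
    have h11 : Dr ≤ 0 := by rw [h2]; linarith
    by_contra hcon
    have := mul_nonneg hq.le (not_lt.1 hcon)
    rw [hDr] at h11
    linarith

theorem half_half {μ ν : ℝ} (hμ : 0 < μ) (hν : 0 < ν) (h : μ + ν = 1) (h1 : 1 / 4 < μ * μ)
    (h2 : 1 / 4 < ν * ν) : False := by
  have k8 : 1 / 2 < ν := by
    by_contra hcon
    nlinarith [not_lt.1 hcon]
  have k9 : 1 / 2 < μ := by
    by_contra hcon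
    nlinarith [not_lt.1 hcon]
  linarith

/-- data of a group: the three equations of a degenerate zero; `m = ∂X/∂ν`, `n = ∂X/∂μ`. -/
theorem kept_aux {μ ν X m n Tq TX Tp q x p a b : ℝ} (hμ : 0 < μ) (hμ' : μ < 1) (hν : 0 < ν)
    (hν' : ν < 1) (hm : 0 < m) (hn : 0 < n) (hmn : m + n = 1 → μ + ν = 1)
    (hX : (|ν - X| = ν * (1 - μ) ∧ |μ - X| = μ * (1 - ν)) ∨
      (|ν - X| = μ * (1 - ν) ∧ |μ - X| = ν * (1 - μ)))
    (hq : 0 < Tq) (hp : 0 < Tp) (hTX : 0 ≤ TX) (hqx : x < q) (hxp : p < x)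
    (K1 : Tq * cos (2 * π * ν) + TX * cos (2 * π * X) + Tp * cos (2 * π * μ) = 0)
    (K2 : Tq * sin (2 * π * ν) + TX * sin (2 * π * X) + Tp * sin (2 * π * μ) = 0)
    (hy : Tq * Sc a b ν + m * TX * Sc a b X = 0) (hx : Tp * Sc a b μ + n * TX * Sc a b X = 0)
    (hl : q * Tq * Cc a b ν + x * TX * Cc a b X + p * Tp * Cc a b μ = 0) : a = 0 ∧ b = 0 := by
  have E1 : Tq * Cc a b ν + TX * Cc a b X + Tp * Cc a b μ = 0 := by
    unfold Cc; linear_combination a * K1 + b * K2
  have E2 : Tq * Sc a b ν + TX * Sc a b X + Tp * Sc a b μ = 0 := by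
    unfold Sc; linear_combination -a * K2 + b * K1
  -- the two distances are not both `1 / 2`
  have hno : ¬ (sin (2 * π * (ν - X)) = 0 ∧ sin (2 * π * (μ - X)) = 0) := by
    rintro ⟨h1, h2⟩
    have b1 : 0 < ν * (1 - μ) := mul_pos hν (by linarith)
    have b2 : ν * (1 - μ) < 1 := by nlinarith
    have b3 : 0 < μ * (1 - ν) := mul_pos hμ (by linarith)
    have b4 : μ * (1 - ν) < 1 := by nlinarith
    have h3 : 0 < |ν - X| ∧ |ν - X| < 1 ∧ 0 < |μ - X| ∧ |μ - X| < 1 := by
      rcases hX with ⟨h, h'⟩ | ⟨h, h'⟩ <;> rw [h, h'] <;> exact ⟨by assumption, by assumption,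
        by assumption, by assumption⟩
    obtain ⟨h3, h4, h5, h6⟩ := h3
    have h7 := half_of_sin (abs_pos.1 h3) h4 h1
    have h8 := half_of_sin (abs_pos.1 h5) h6 h2
    have h9 : ν * (1 - μ) = 1 / 2 ∧ μ * (1 - ν) = 1 / 2 := by
      rcases hX with ⟨h, h'⟩ | ⟨h, h'⟩ <;> rw [h] at h7 <;> rw [h'] at h8
      · exact ⟨h7, h8⟩
      · exact ⟨h8, h7⟩
    obtain ⟨h9, h10⟩ := h9
    have h11 : μ = ν := by linarith
    rw [h11] at h9
    nlinarith [sq_nonneg (ν - 1 / 2)]
  by_contra hab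
  have hcs : Cc a b X ≠ 0 ∨ Sc a b X ≠ 0 := by
    by_contra h
    push Not at h
    exact hab (zero_of h.1 h.2)
  have hsum : TX * Sc a b X * (1 - (m + n)) = 0 := by linear_combination E2 - hy - hx
  rcases hTX.eq_or_lt with h0 | h0
  · -- no group `X`
    rw [← h0] at hy hx hl E1
    simp only [mul_zero, zero_mul, add_zero] at hy hx hl E1
    have h1 : Sc a b ν = 0 := (mul_eq_zero.1 hy).resolve_left hq.ne'
    have h2 : (q - p) * (Tq * Cc a b ν) = 0 := by linear_combination hl - p * E1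
    have h3 : Cc a b ν = 0 := by
      rcases mul_eq_zero.1 h2 with h | h
      · linarith
      · exact (mul_eq_zero.1 h).resolve_left hq.ne'
    exact hab (zero_of h3 h1)
  by_cases hs : Sc a b X = 0
  · have hc : Cc a b X ≠ 0 := hcs.resolve_right (not_not.2 hs)
    have h1 : Sc a b ν = 0 := by
      rw [hs, mul_zero, add_zero] at hy
      exact (mul_eq_zero.1 hy).resolve_left hq.ne'
    have h2 : Sc a b μ = 0 := by
      rw [hs, mul_zero, add_zero] at hx
      exact (mul_eq_zero.1 hx).resolve_left hp.ne'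
    rw [Sc_add a b X, hs, zero_mul, add_zero] at h1 h2
    exact hno ⟨(mul_eq_zero.1 h1).resolve_left (neg_ne_zero.2 hc),
      (mul_eq_zero.1 h2).resolve_left (neg_ne_zero.2 hc)⟩
  · have h1 : m + n = 1 := by
      rcases mul_eq_zero.1 hsum with h | h
      · exact absurd h (mul_ne_zero h0.ne' hs)
      · linarith
    have h2 := hmn h1
    have eC : ∀ u : ℝ, cos (2 * π * (u - X)) = cos (2 * π * u) * cos (2 * π * X) +
        sin (2 * π * u) * sin (2 * π * X) := fun u => by rw [mul_sub, cos_sub]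
    have eS : ∀ u : ℝ, sin (2 * π * (u - X)) = sin (2 * π * u) * cos (2 * π * X) -
        cos (2 * π * u) * sin (2 * π * X) := fun u => by rw [mul_sub, sin_sub]
    have hp1 := sin_sq_add_cos_sq (2 * π * X)
    have him : Tq * sin (2 * π * (ν - X)) + Tp * sin (2 * π * (μ - X)) = 0 := by
      rw [eS, eS]; linear_combination cos (2 * π * X) * K2 - sin (2 * π * X) * K1
    have hre : Tq * cos (2 * π * (ν - X)) + TX + Tp * cos (2 * π * (μ - X)) = 0 := by
      rw [eC, eC]; linear_combination cos (2 * π * X) * K1 + sin (2 * π * X) * K2 - TX * hp1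
    have key := core (A := q - x) (B := x - p) (c := Cc a b X) (s := Sc a b X) hq hp h0
      (by linarith) (by linarith) hm hn hcs hre him h1
      (by rw [Sc_add a b X ν] at hy; linear_combination hy)
      (by
        rw [← Cc_add a b X ν, ← Cc_add a b X μ]
        linear_combination hl - x * E1)
      (by
        right
        intro h3
        refine hno ⟨h3, ?_⟩
        rw [h3, mul_zero, zero_add] at him
        exact (mul_eq_zero.1 him).resolve_left hp.ne')
    obtain ⟨k1, k2⟩ := key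
    have ea : ∀ u : ℝ, cos (2 * π * |u|) = cos (2 * π * u) := by
      intro u
      rcases abs_choice u with h | h <;> rw [h]
      rw [mul_neg, cos_neg]
    rw [← ea] at k1 k2
    have k3 := quarter_of_cos (abs_nonneg _) k1
    have k4 := quarter_of_cos (abs_nonneg _) k2
    have k5 : 1 / 4 < ν * (1 - μ) ∧ 1 / 4 < μ * (1 - ν) := by
      rcases hX with ⟨h, h'⟩ | ⟨h, h'⟩ <;> rw [h] at k3 <;> rw [h'] at k4
      · exact ⟨k3, k4⟩
      · exact ⟨k4, k3⟩
    have k6 : 1 - μ = ν := by linarith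
    have k7 : 1 - ν = μ := by linarith
    rw [k6, k7] at k5
    exact half_half hμ hν h2 k5.2 k5.1

/-- **kept cubes, type `min`**: `X = μ ν`. -/
theorem kept_min {μ ν Tq TX Tp q x p a b : ℝ} (hμ : 0 < μ) (hμ' : μ < 1) (hν : 0 < ν)
    (hν' : ν < 1) (hq : 0 < Tq) (hp : 0 < Tp) (hTX : 0 ≤ TX) (hqx : x < q) (hxp : p < x)
    (K1 : Tq * cos (2 * π * ν) + TX * cos (2 * π * (μ * ν)) + Tp * cos (2 * π * μ) = 0)
    (K2 : Tq * sin (2 * π * ν) + TX * sin (2 * π * (μ * ν)) + Tp * sin (2 * π * μ) = 0)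
    (hy : Tq * Sc a b ν + μ * TX * Sc a b (μ * ν) = 0)
    (hx : Tp * Sc a b μ + ν * TX * Sc a b (μ * ν) = 0)
    (hl : q * Tq * Cc a b ν + x * TX * Cc a b (μ * ν) + p * Tp * Cc a b μ = 0) :
    a = 0 ∧ b = 0 := by
  refine kept_aux hμ hμ' hν hν' hμ hν (fun h => h) (Or.inl ⟨?_, ?_⟩) hq hp hTX hqx hxp K1 K2 hy
    hx hl
  · rw [show ν - μ * ν = ν * (1 - μ) by ring, abs_of_pos (mul_pos hν (by linarith))]
  · rw [show μ - μ * ν = μ * (1 - ν) by ring, abs_of_pos (mul_pos hμ (by linarith))]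

/-- **kept cubes, type `max`**: `X = μ + ν - μ ν`. -/
theorem kept_max {μ ν Tq TX Tp q x p a b : ℝ} (hμ : 0 < μ) (hμ' : μ < 1) (hν : 0 < ν)
    (hν' : ν < 1) (hq : 0 < Tq) (hp : 0 < Tp) (hTX : 0 ≤ TX) (hqx : x < q) (hxp : p < x)
    (K1 : Tq * cos (2 * π * ν) + TX * cos (2 * π * (μ + ν - μ * ν)) + Tp * cos (2 * π * μ) = 0)
    (K2 : Tq * sin (2 * π * ν) + TX * sin (2 * π * (μ + ν - μ * ν)) + Tp * sin (2 * π * μ) = 0)
    (hy : Tq * Sc a b ν + (1 - μ) * TX * Sc a b (μ + ν - μ * ν) = 0)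
    (hx : Tp * Sc a b μ + (1 - ν) * TX * Sc a b (μ + ν - μ * ν) = 0)
    (hl : q * Tq * Cc a b ν + x * TX * Cc a b (μ + ν - μ * ν) + p * Tp * Cc a b μ = 0) :
    a = 0 ∧ b = 0 := by
  refine kept_aux hμ hμ' hν hν' (by linarith) (by linarith) (fun h => by linarith)
    (Or.inr ⟨?_, ?_⟩) hq hp hTX hqx hxp K1 K2 hy hx hl
  · rw [show ν - (μ + ν - μ * ν) = -(μ * (1 - ν)) by ring, abs_neg,
      abs_of_pos (mul_pos hμ (by linarith))]
  · rw [show μ - (μ + ν - μ * ν) = -(ν * (1 - μ)) by ring, abs_neg,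
      abs_of_pos (mul_pos hν (by linarith))]

/-- **killed cubes**: `X = 0`; a degenerate zero has `μ = ν = 1 / 2` and `h = Tq + Tp - TX` has a
double zero. -/
theorem killed {μ ν Tq TX Tp q x p a b : ℝ} (hμ : 0 < μ) (hμ' : μ < 1) (hν : 0 < ν)
    (hν' : ν < 1) (hq : 0 < Tq) (hp : 0 < Tp) (hTX : 0 ≤ TX) (hqx : x < q) (hxp : p < x)
    (K1 : Tq * cos (2 * π * ν) + TX + Tp * cos (2 * π * μ) = 0)
    (K2 : Tq * sin (2 * π * ν) + Tp * sin (2 * π * μ) = 0)
    (hy : Tq * Sc a b ν = 0) (hx : Tp * Sc a b μ = 0)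
    (hl : q * Tq * Cc a b ν + x * TX * Cc a b 0 + p * Tp * Cc a b μ = 0) :
    (a = 0 ∧ b = 0) ∨ (μ = 1 / 2 ∧ ν = 1 / 2 ∧ Tq + Tp = TX ∧ q * Tq + p * Tp = x * TX) := by
  by_contra hcon
  push Not at hcon
  obtain ⟨hab, hcon⟩ := hcon
  have hab' : ¬ (a = 0 ∧ b = 0) := fun h => hab h.1 h.2
  have hy' : Sc a b ν = 0 := (mul_eq_zero.1 hy).resolve_left hq.ne'
  have hx' : Sc a b μ = 0 := (mul_eq_zero.1 hx).resolve_left hp.ne'
  have C0 : Cc a b 0 = a := by unfold Cc; simp
  have S0 : Sc a b 0 = b := by unfold Sc; simp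
  have E1 : Tq * Cc a b ν + TX * a + Tp * Cc a b μ = 0 := by
    unfold Cc; linear_combination a * K1 + b * K2
  have E2 : Tq * Sc a b ν + TX * b + Tp * Sc a b μ = 0 := by
    unfold Sc; linear_combination -a * K2 + b * K1
  rw [C0] at hl
  rcases hTX.eq_or_lt with h0 | h0
  · rw [← h0] at hl E1
    have h2 : (q - p) * (Tq * Cc a b ν) = 0 := by linear_combination hl - p * E1
    have h3 : Cc a b ν = 0 := by
      rcases mul_eq_zero.1 h2 with h | h
      · linarith
      · exact (mul_eq_zero.1 h).resolve_left hq.ne'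
    exact hab' (zero_of h3 hy')
  · have hb : b = 0 := by
      rw [hy', hx', mul_zero, mul_zero, zero_add, add_zero] at E2
      exact (mul_eq_zero.1 E2).resolve_left h0.ne'
    have ha : a ≠ 0 := fun h => hab' ⟨h, hb⟩
    have hs : ∀ u : ℝ, Sc a b u = 0 → sin (2 * π * u) = 0 := by
      intro u hu
      unfold Sc at hu
      rw [hb, zero_mul, add_zero] at hu
      exact (mul_eq_zero.1 hu).resolve_left (neg_ne_zero.2 ha)
    have hhalf : ∀ u : ℝ, 0 < u → u < 1 → Sc a b u = 0 → u = 1 / 2 := by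
      intro u h1 h2 h3
      have := half_of_sin h1.ne' (by rwa [abs_of_pos h1]) (hs u h3)
      rwa [abs_of_pos h1] at this
    have h1 := hhalf μ hμ hμ' hx'
    have h2 := hhalf ν hν hν' hy'
    have ec : cos (2 * π * (1 / 2)) = -1 := by
      rw [show 2 * π * (1 / 2) = π by ring, cos_pi]
    have hCc : Cc a b (1 / 2) = -a := by
      unfold Cc; rw [ec, hb]; ring
    rw [h1, h2] at hl
    rw [hCc] at hl
    rw [h1, h2, ec] at K1
    refine hcon h1 h2 (by linarith) ?_
    have : a * (q * Tq + p * Tp - x * TX) = 0 := by linear_combination -hl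
    have := (mul_eq_zero.1 this).resolve_left ha
    linarith

/-- **gaps**: `T e(μ) + T' = 0` with different exponents is always regular. -/
theorem gap {μ T T' q p a b : ℝ} (hT : 0 < T) (hqp : q ≠ p)
    (K1 : T * cos (2 * π * μ) + T' = 0) (K2 : T * sin (2 * π * μ) = 0)
    (hx : T * Sc a b μ = 0) (hl : q * T * Cc a b μ + p * T' * Cc a b 0 = 0) :
    a = 0 ∧ b = 0 := by
  have C0 : Cc a b 0 = a := by unfold Cc; simp
  have E1 : T * Cc a b μ + T' * a = 0 := by
    unfold Cc; linear_combination a * K1 + b * K2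
  rw [C0] at hl
  have h1 : (q - p) * (T * Cc a b μ) = 0 := by linear_combination hl - p * E1
  have h2 : Cc a b μ = 0 := by
    rcases mul_eq_zero.1 h1 with h | h
    · exact absurd (by linarith) hqp
    · exact (mul_eq_zero.1 h).resolve_left hT.ne'
  exact zero_of h2 ((mul_eq_zero.1 hx).resolve_left hT.ne')

end Crest.Agent.R267.NSKept_796
end
end

-- ▼ part R267/NSCell_796
section

/-!
# Row 267, N2 (helper796): one cell of a nested system, pointwise algebra (RegB, RegC)

`Cell a b c` : increments of the terms `s` over a cell (`a` along the `v`-side, `b` along the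
`w`-side, `c` diagonal). `core_cell`: both variables active; `core_gap`: one variable active.
-/

set_option autoImplicit false

noncomputable section

open Finset Real

namespace Crest.Agent.R267.NSCell_796

open Crest.Agent.R267.NSKept_796

/-- increments of the terms of a nested system over a cell. -/
structure Cell {m : ℕ} (a b c : Fin (m + 2) → ℤ) : Prop where
  ha : ∀ s, a s = 0 ∨ a s = 1
  hb : ∀ s, b s = 0 ∨ b s = 1
  hca : ∀ s, c s - a s = 0 ∨ c s - a s = 1
  hcb : ∀ s, c s - b s = 0 ∨ c s - b s = 1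
  hc : ∀ s, c s ≤ 1
  ma : Monotone a
  mb : Antitone b
  mca : Antitone fun s => c s - a s
  mcb : Monotone fun s => c s - b s
  a0 : a 0 = 0
  b0 : b 0 = 1
  a1 : a (Fin.last _) = 1
  b1 : b (Fin.last _) = 0

/-! ### weighted means -/

theorem exists_pos {ι : Type*} {A : Finset ι} {w : ι → ℝ} (hA : 0 < ∑ s ∈ A, w s) :
    ∃ s ∈ A, 0 < w s := by
  by_contra h
  push Not at h
  exact absurd hA (not_lt.2 (Finset.sum_nonpos h))

theorem mean_lt {ι : Type*} {A B : Finset ι} {w E : ι → ℝ} (hw : ∀ s, 0 ≤ w s)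
    (hA : 0 < ∑ s ∈ A, w s) (hB : 0 < ∑ s ∈ B, w s)
    (h : ∀ s ∈ A, ∀ s' ∈ B, E s' < E s) :
    (∑ s ∈ B, E s * w s) / ∑ s ∈ B, w s < (∑ s ∈ A, E s * w s) / ∑ s ∈ A, w s := by
  rw [div_lt_div_iff₀ hB hA, ← sub_pos]
  have e1 : (∑ s ∈ A, E s * w s) * ∑ s ∈ B, w s - (∑ s ∈ B, E s * w s) * ∑ s ∈ A, w s =
      ∑ s ∈ A, ∑ s' ∈ B, (E s - E s') * (w s * w s') := by
    rw [mul_comm (∑ s ∈ B, E s * w s), Finset.sum_mul_sum, Finset.sum_mul_sum,
      ← Finset.sum_sub_distrib]
    refine Finset.sum_congr rfl fun s _ => ?_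
    rw [← Finset.sum_sub_distrib]
    exact Finset.sum_congr rfl fun s' _ => by ring
  rw [e1]
  obtain ⟨s, hs, h1⟩ := exists_pos hA
  obtain ⟨s', hs', h2⟩ := exists_pos hB
  have nn : ∀ s ∈ A, ∀ s' ∈ B, 0 ≤ (E s - E s') * (w s * w s') := fun s hs s' hs' =>
    mul_nonneg (sub_nonneg.2 (h s hs s' hs').le) (mul_nonneg (hw s) (hw s'))
  refine Finset.sum_pos' (fun s hs => Finset.sum_nonneg (nn s hs)) ⟨s, hs, ?_⟩
  exact Finset.sum_pos' (nn s hs) ⟨s', hs', mul_pos (sub_pos.2 (h s hs s' hs')) (mul_pos h1 h2)⟩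

/-! ### the groups of a cell -/

section groups

variable {m : ℕ} {a b c : Fin (m + 2) → ℤ}

/-- bilinear form of the phase in a cell. -/
def Hb (a b c : ℤ) (μ ν : ℝ) : ℝ := a * μ + b * ν + (c - a - b) * (μ * ν)

/-- the three groups. -/
def Qg (a b : Fin (m + 2) → ℤ) : Finset (Fin (m + 2)) := univ.filter fun s => a s < b s
def Xg (a b : Fin (m + 2) → ℤ) : Finset (Fin (m + 2)) := univ.filter fun s => a s = b s
def Pg (a b : Fin (m + 2) → ℤ) : Finset (Fin (m + 2)) := univ.filter fun s => b s < a s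

theorem sum3 (a b : Fin (m + 2) → ℤ) (f : Fin (m + 2) → ℝ) :
    ∑ s, f s = ∑ s ∈ Qg a b, f s + ∑ s ∈ Xg a b, f s + ∑ s ∈ Pg a b, f s := by
  rw [Qg, Xg, Pg, Finset.sum_filter, Finset.sum_filter, Finset.sum_filter,
    ← Finset.sum_add_distrib, ← Finset.sum_add_distrib]
  refine Finset.sum_congr rfl fun s _ => ?_
  rcases lt_trichotomy (a s) (b s) with h | h | h
  · rw [if_pos h, if_neg h.ne, if_neg h.not_gt]; ring
  · rw [if_neg h.not_lt, if_pos h, if_neg h.not_gt]; ring
  · rw [if_neg h.not_gt, if_neg h.ne', if_pos h]; ring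

variable (h : Cell a b c)
include h

theorem Cell.q {s : Fin (m + 2)} (hs : s ∈ Qg a b) : a s = 0 ∧ b s = 1 ∧ c s = 1 := by
  have h1 := (Finset.mem_filter.1 hs).2
  have h2 := h.ha s
  have h3 := h.hb s
  have h4 := h.hcb s
  have h5 := h.hc s
  omega

theorem Cell.p {s : Fin (m + 2)} (hs : s ∈ Pg a b) : a s = 1 ∧ b s = 0 ∧ c s = 1 := by
  have h1 := (Finset.mem_filter.1 hs).2
  have h2 := h.ha s
  have h3 := h.hb s
  have h4 := h.hca s
  have h5 := h.hc s
  omega

theorem Cell.x {s : Fin (m + 2)} (hs : s ∈ Xg a b) :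
    (a s = 0 ∧ b s = 0 ∧ c s = 0) ∨ (a s = 0 ∧ b s = 0 ∧ c s = 1) ∨
      (a s = 1 ∧ b s = 1 ∧ c s = 1) := by
  have h1 := (Finset.mem_filter.1 hs).2
  have h2 := h.ha s
  have h3 := h.hb s
  have h4 := h.hca s
  have h5 := h.hc s
  omega

theorem Cell.x_eq {s s' : Fin (m + 2)} (hs : s ∈ Xg a b) (hs' : s' ∈ Xg a b) :
    a s = a s' ∧ b s = b s' ∧ c s = c s' := by
  have h1 : a s = b s := (Finset.mem_filter.1 hs).2
  have h2 : a s' = b s' := (Finset.mem_filter.1 hs').2
  rcases le_total s s' with h3 | h3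
  · have e1 := h.ma h3
    have e2 := h.mb h3
    have e3 : c s' - a s' ≤ c s - a s := h.mca h3
    have e4 : c s - b s ≤ c s' - b s' := h.mcb h3
    omega
  · have e1 := h.ma h3
    have e2 := h.mb h3
    have e3 : c s - a s ≤ c s' - a s' := h.mca h3
    have e4 : c s' - b s' ≤ c s - b s := h.mcb h3
    omega

theorem Cell.qx {s s' : Fin (m + 2)} (hs : s ∈ Qg a b) (hs' : s' ∈ Xg a b) : s < s' := by
  by_contra hcon
  have h3 := not_lt.1 hcon
  have e1 := h.ma h3
  have e3 : c s - a s ≤ c s' - a s' := h.mca h3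
  have e4 : c s' - b s' ≤ c s - b s := h.mcb h3
  have h5 := h.q hs
  have h6 := h.x hs'
  omega

theorem Cell.xp {s s' : Fin (m + 2)} (hs : s ∈ Xg a b) (hs' : s' ∈ Pg a b) : s < s' := by
  by_contra hcon
  have h3 := not_lt.1 hcon
  have e1 := h.ma h3
  have e2 := h.mb h3
  have h5 := h.p hs'
  have h6 := h.x hs
  omega

theorem Cell.qp {s s' : Fin (m + 2)} (hs : s ∈ Qg a b) (hs' : s' ∈ Pg a b) : s < s' := by
  by_contra hcon
  have h3 := not_lt.1 hcon
  have e1 := h.ma h3
  have h5 := h.p hs'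
  have h6 := h.q hs
  omega

theorem Cell.q0 : (0 : Fin (m + 2)) ∈ Qg a b :=
  Finset.mem_filter.2 ⟨Finset.mem_univ _, by rw [h.a0, h.b0]; norm_num⟩

theorem Cell.p1 : Fin.last (m + 1) ∈ Pg a b :=
  Finset.mem_filter.2 ⟨Finset.mem_univ _, by rw [h.a1, h.b1]; norm_num⟩

end groups

/-! ### the core lemma of a cell -/

section core

variable {m : ℕ} {a b c : Fin (m + 2) → ℤ} {w E : Fin (m + 2) → ℝ}

/-- splitting a weighted sum over the groups. -/
theorem Cell.split (h : Cell a b c) {ca cb cc : ℤ}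
    (hX : ∀ s ∈ Xg a b, a s = ca ∧ b s = cb ∧ c s = cc) (v : Fin (m + 2) → ℝ)
    (f : ℤ → ℤ → ℤ → ℝ) :
    ∑ s, v s * f (a s) (b s) (c s) = (∑ s ∈ Qg a b, v s) * f 0 1 1 +
      (∑ s ∈ Xg a b, v s) * f ca cb cc + (∑ s ∈ Pg a b, v s) * f 1 0 1 := by
  rw [sum3 a b, Finset.sum_mul, Finset.sum_mul, Finset.sum_mul]
  congr 1
  · congr 1
    · refine Finset.sum_congr rfl fun s hs => ?_
      obtain ⟨h1, h2, h3⟩ := h.q hs
      rw [h1, h2, h3]
    · refine Finset.sum_congr rfl fun s hs => ?_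
      obtain ⟨h1, h2, h3⟩ := hX s hs
      rw [h1, h2, h3]
  · refine Finset.sum_congr rfl fun s hs => ?_
    obtain ⟨h1, h2, h3⟩ := h.p hs
    rw [h1, h2, h3]

/-- **both variables active** -/
theorem core_cell (h : Cell a b c) (hE : StrictAnti E) (hw : ∀ s, 0 ≤ w s) (h0 : 0 < w 0)
    (h1 : 0 < w (Fin.last (m + 1))) {μ ν A B : ℝ} (hμ : 0 < μ) (hμ' : μ < 1) (hν : 0 < ν)
    (hν' : ν < 1)
    (K1 : ∑ s, w s * cos (2 * π * Hb (a s) (b s) (c s) μ ν) = 0)
    (K2 : ∑ s, w s * sin (2 * π * Hb (a s) (b s) (c s) μ ν) = 0)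
    (hx : ∑ s, w s * ((a s + (c s - a s - b s) * ν) * Sc A B (Hb (a s) (b s) (c s) μ ν)) = 0)
    (hy : ∑ s, w s * ((b s + (c s - a s - b s) * μ) * Sc A B (Hb (a s) (b s) (c s) μ ν)) = 0)
    (hl : ∑ s, E s * w s * Cc A B (Hb (a s) (b s) (c s) μ ν) = 0)
    (hk : (∃ s, c s = 0) → ¬ (∑ s ∈ Qg a b, w s + ∑ s ∈ Pg a b, w s = ∑ s ∈ Xg a b, w s ∧
      ∑ s ∈ Qg a b, E s * w s + ∑ s ∈ Pg a b, E s * w s = ∑ s ∈ Xg a b, E s * w s)) :
    A = 0 ∧ B = 0 := by
  set Tq := ∑ s ∈ Qg a b, w s with hTq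
  set TX := ∑ s ∈ Xg a b, w s with hTX
  set Tp := ∑ s ∈ Pg a b, w s with hTp
  set Uq := ∑ s ∈ Qg a b, E s * w s with hUq
  set UX := ∑ s ∈ Xg a b, E s * w s with hUX
  set Up := ∑ s ∈ Pg a b, E s * w s with hUp
  have q1 : 0 < Tq := Finset.sum_pos' (fun s _ => hw s) ⟨0, h.q0, h0⟩
  have p1 : 0 < Tp := Finset.sum_pos' (fun s _ => hw s) ⟨Fin.last _, h.p1, h1⟩
  have X0 : 0 ≤ TX := Finset.sum_nonneg fun s _ => hw s
  -- means
  have hqp : Up / Tp < Uq / Tq := mean_lt hw q1 p1 fun s hs s' hs' => hE (h.qp hs hs')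
  obtain ⟨x, hxq, hpx, hxX⟩ : ∃ x : ℝ, x < Uq / Tq ∧ Up / Tp < x ∧ UX = x * TX := by
    rcases X0.eq_or_lt with h2 | h2
    · refine ⟨(Uq / Tq + Up / Tp) / 2, by linarith, by linarith, ?_⟩
      rw [← h2, mul_zero]
      refine Finset.sum_eq_zero fun s hs => ?_
      have : w s = 0 := (Finset.sum_eq_zero_iff_of_nonneg fun s _ => hw s).1 h2.symm s hs
      rw [this, mul_zero]
    · exact ⟨UX / TX, mean_lt hw q1 h2 fun s hs s' hs' => hE (h.qx hs hs'),
        mean_lt hw h2 p1 fun s hs s' hs' => hE (h.xp hs hs'), by field_simp⟩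
  have eq' : Uq = Uq / Tq * Tq := by field_simp
  have ep' : Up = Up / Tp * Tp := by field_simp
  have e011 : Hb 0 1 1 μ ν = ν := by unfold Hb; push_cast; ring
  have e101 : Hb 1 0 1 μ ν = μ := by unfold Hb; push_cast; ring
  -- types of the group `X`
  have hcase : (∀ s ∈ Xg a b, a s = 0 ∧ b s = 0 ∧ c s = 1) ∨
      (∀ s ∈ Xg a b, a s = 1 ∧ b s = 1 ∧ c s = 1) ∨
      ((∃ s, c s = 0) ∧ ∀ s ∈ Xg a b, a s = 0 ∧ b s = 0 ∧ c s = 0) := by
    rcases (Xg a b).eq_empty_or_nonempty with h2 | ⟨s₀, h2⟩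
    · left
      rw [h2]
      simp
    · rcases h.x h2 with h3 | h3 | h3
      · right; right
        refine ⟨⟨s₀, h3.2.2⟩, fun s hs => ?_⟩
        obtain ⟨e1, e2, e3⟩ := h.x_eq hs h2
        rw [e1, e2, e3]
        exact h3
      · left
        intro s hs
        obtain ⟨e1, e2, e3⟩ := h.x_eq hs h2
        rw [e1, e2, e3]
        exact h3
      · right; left
        intro s hs
        obtain ⟨e1, e2, e3⟩ := h.x_eq hs h2
        rw [e1, e2, e3]
        exact h3
  rcases hcase with hX | hX | ⟨hex, hX⟩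
  · -- min
    have e001 : Hb 0 0 1 μ ν = μ * ν := by unfold Hb; push_cast; ring
    rw [h.split hX w (fun x y z => cos (2 * π * Hb x y z μ ν)), e011, e101, e001] at K1
    rw [h.split hX w (fun x y z => sin (2 * π * Hb x y z μ ν)), e011, e101, e001] at K2
    rw [h.split hX w (fun x y z => (x + (z - x - y) * ν) * Sc A B (Hb x y z μ ν)), e011, e101,
      e001] at hx
    rw [h.split hX w (fun x y z => (y + (z - x - y) * μ) * Sc A B (Hb x y z μ ν)), e011, e101,
      e001] at hy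
    rw [h.split hX (fun s => E s * w s) (fun x y z => Cc A B (Hb x y z μ ν)), e011, e101,
      e001] at hl
    push_cast at hx hy
    refine kept_min hμ hμ' hν hν' q1 p1 X0 hxq hpx K1 K2 ?_ ?_ ?_
    · linear_combination hy
    · linear_combination hx
    · rw [← eq', ← ep', ← hxX]
      linear_combination hl
  · -- max
    have e111 : Hb 1 1 1 μ ν = μ + ν - μ * ν := by unfold Hb; push_cast; ring
    rw [h.split hX w (fun x y z => cos (2 * π * Hb x y z μ ν)), e011, e101, e111] at K1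
    rw [h.split hX w (fun x y z => sin (2 * π * Hb x y z μ ν)), e011, e101, e111] at K2
    rw [h.split hX w (fun x y z => (x + (z - x - y) * ν) * Sc A B (Hb x y z μ ν)), e011, e101,
      e111] at hx
    rw [h.split hX w (fun x y z => (y + (z - x - y) * μ) * Sc A B (Hb x y z μ ν)), e011, e101,
      e111] at hy
    rw [h.split hX (fun s => E s * w s) (fun x y z => Cc A B (Hb x y z μ ν)), e011, e101,
      e111] at hl
    push_cast at hx hy
    refine kept_max hμ hμ' hν hν' q1 p1 X0 hxq hpx K1 K2 ?_ ?_ ?_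
    · linear_combination hy
    · linear_combination hx
    · rw [← eq', ← ep', ← hxX]
      linear_combination hl
  · -- killed
    have e000 : Hb 0 0 0 μ ν = 0 := by unfold Hb; push_cast; ring
    rw [h.split hX w (fun x y z => cos (2 * π * Hb x y z μ ν)), e011, e101, e000] at K1
    rw [h.split hX w (fun x y z => sin (2 * π * Hb x y z μ ν)), e011, e101, e000] at K2
    rw [h.split hX w (fun x y z => (x + (z - x - y) * ν) * Sc A B (Hb x y z μ ν)), e011, e101,
      e000] at hx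
    rw [h.split hX w (fun x y z => (y + (z - x - y) * μ) * Sc A B (Hb x y z μ ν)), e011, e101,
      e000] at hy
    rw [h.split hX (fun s => E s * w s) (fun x y z => Cc A B (Hb x y z μ ν)), e011, e101,
      e000] at hl
    push_cast at hx hy
    rw [mul_zero, cos_zero] at K1
    rw [mul_zero, sin_zero] at K2
    have key := killed (a := A) (b := B) hμ hμ' hν hν' q1 p1 X0 hxq hpx (by linear_combination K1)
      (by linear_combination K2) (by linear_combination hy) (by linear_combination hx)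
      (by rw [← eq', ← ep', ← hxX]; linear_combination hl)
    rcases key with key | ⟨-, -, k1, k2⟩
    · exact key
    · refine absurd ⟨k1, ?_⟩ (hk hex)
      rw [← eq', ← ep', ← hxX] at k2
      exact k2

/-- **one variable active** -/
theorem core_gap {α : Fin (m + 2) → ℤ} (hα : ∀ s, α s = 0 ∨ α s = 1)
    (hE : (∀ s s', α s = 0 → α s' = 1 → E s' < E s) ∨ (∀ s s', α s = 0 → α s' = 1 → E s < E s'))
    (hw : ∀ s, 0 ≤ w s) {s₀ s₁ : Fin (m + 2)} (h0 : 0 < w s₀) (hs₀ : α s₀ = 0) (h1 : 0 < w s₁)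
    (hs₁ : α s₁ = 1) {μ A B : ℝ}
    (K1 : ∑ s, w s * cos (2 * π * (α s * μ)) = 0)
    (K2 : ∑ s, w s * sin (2 * π * (α s * μ)) = 0)
    (hx : ∑ s, w s * (α s * Sc A B (α s * μ)) = 0)
    (hl : ∑ s, E s * w s * Cc A B (α s * μ) = 0) : A = 0 ∧ B = 0 := by
  have hsplit : ∀ (v : Fin (m + 2) → ℝ) (f : ℤ → ℝ), ∑ s, v s * f (α s) =
      (∑ s ∈ univ.filter (fun s => α s = 1), v s) * f 1 +
        (∑ s ∈ univ.filter (fun s => ¬ α s = 1), v s) * f 0 := by
    intro v f
    rw [← Finset.sum_filter_add_sum_filter_not univ (fun s => α s = 1), Finset.sum_mul,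
      Finset.sum_mul]
    congr 1
    · refine Finset.sum_congr rfl fun s hs => ?_
      rw [(Finset.mem_filter.1 hs).2]
    · refine Finset.sum_congr rfl fun s hs => ?_
      rw [(hα s).resolve_right (Finset.mem_filter.1 hs).2]
  set T := ∑ s ∈ univ.filter (fun s => α s = 1), w s with hT
  set T' := ∑ s ∈ univ.filter (fun s => ¬ α s = 1), w s with hT'
  have T1 : 0 < T := Finset.sum_pos' (fun s _ => hw s)
    ⟨s₁, Finset.mem_filter.2 ⟨Finset.mem_univ _, hs₁⟩, h1⟩
  have T0 : 0 < T' := Finset.sum_pos' (fun s _ => hw s)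
    ⟨s₀, Finset.mem_filter.2 ⟨Finset.mem_univ _, by rw [hs₀]; norm_num⟩, h0⟩
  set U := ∑ s ∈ univ.filter (fun s => α s = 1), E s * w s with hU
  set U' := ∑ s ∈ univ.filter (fun s => ¬ α s = 1), E s * w s with hU'
  have hne : U / T ≠ U' / T' := by
    rcases hE with hE | hE
    · refine (mean_lt hw T0 T1 fun s hs s' hs' => ?_).ne
      exact hE s s' ((hα s).resolve_right (Finset.mem_filter.1 hs).2) (Finset.mem_filter.1 hs').2
    · refine (mean_lt hw T1 T0 fun s hs s' hs' => ?_).ne'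
      exact hE s' s ((hα s').resolve_right (Finset.mem_filter.1 hs').2) (Finset.mem_filter.1 hs).2
  rw [hsplit w (fun x => cos (2 * π * (x * μ)))] at K1
  rw [hsplit w (fun x => sin (2 * π * (x * μ)))] at K2
  rw [hsplit w (fun x => x * Sc A B (x * μ))] at hx
  rw [hsplit (fun s => E s * w s) (fun x => Cc A B (x * μ))] at hl
  push_cast at K1 K2 hx hl
  simp only [one_mul, zero_mul, mul_zero, cos_zero, sin_zero, mul_one, add_zero] at K1 K2 hx hl
  refine gap (μ := μ) (T := T) (T' := T') (q := U / T) (p := U' / T') T1 hne K1 K2 hx ?_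
  rw [div_mul_cancel₀ U T1.ne', div_mul_cancel₀ U' T0.ne']
  exact hl

end core

end Crest.Agent.R267.NSCell_796
end
end

-- ▼ part R267/NSRegB_796

/-!
# Row 267, N2 (helper796): `RegBProp`

`0` is a regular value of path B of every nested system.
-/

set_option autoImplicit false
set_option linter.unusedSectionVars false

noncomputable section

open Finset Real Set Filter Topology
open Crest.Agent.R267.T3aDefs_957 (st)
open Crest.Agent.R267.Calc_957 (std st_of_le st_of_ge st_nonneg st_le_one std_pos hasDerivAt_st)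
open Crest.Agent.R267.NSDefs_966 Crest.Agent.R267.NSHat_966 Crest.Agent.R267.NSOk_966
open Crest.Agent.R267.NSKept_796 Crest.Agent.R267.NSCell_796

namespace Crest.Agent.R267.NSRegB_796

/-! ### periodicity and derivatives of the components -/

theorem Cc_int (A B u : ℝ) (n : ℤ) : Cc A B (n + u) = Cc A B u := by
  unfold Cc
  rw [show 2 * π * ((n : ℝ) + u) = 2 * π * u + n * (2 * π) by ring, cos_add_int_mul_two_pi,
    sin_add_int_mul_two_pi]

theorem Sc_int (A B u : ℝ) (n : ℤ) : Sc A B (n + u) = Sc A B u := by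
  unfold Sc
  rw [show 2 * π * ((n : ℝ) + u) = 2 * π * u + n * (2 * π) by ring, cos_add_int_mul_two_pi,
    sin_add_int_mul_two_pi]

theorem cos_int (u : ℝ) (n : ℤ) : cos (2 * π * (n + u)) = cos (2 * π * u) := by
  rw [show 2 * π * ((n : ℝ) + u) = 2 * π * u + n * (2 * π) by ring, cos_add_int_mul_two_pi]

theorem sin_int (u : ℝ) (n : ℤ) : sin (2 * π * (n + u)) = sin (2 * π * u) := by
  rw [show 2 * π * ((n : ℝ) + u) = 2 * π * u + n * (2 * π) by ring, sin_add_int_mul_two_pi]

theorem hasDerivAt_Cc (A B u : ℝ) : HasDerivAt (Cc A B) (2 * π * Sc A B u) u := by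
  have h0 : HasDerivAt (fun u : ℝ => 2 * π * u) (2 * π) u := by
    simpa using (hasDerivAt_id u).const_mul (2 * π)
  have h1 : HasDerivAt (fun u : ℝ => A * cos (2 * π * u)) (A * (-sin (2 * π * u) * (2 * π))) u :=
    ((hasDerivAt_cos (2 * π * u)).comp u h0).const_mul A
  have h2 : HasDerivAt (fun u : ℝ => B * sin (2 * π * u)) (B * (cos (2 * π * u) * (2 * π))) u :=
    ((hasDerivAt_sin (2 * π * u)).comp u h0).const_mul B
  have h3 := h1.add h2
  have e : 2 * π * Sc A B u = A * (-sin (2 * π * u) * (2 * π)) + B * (cos (2 * π * u) * (2 * π)) := by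
    unfold Sc; ring
  rw [e]
  exact h3

theorem e_re (u : ℝ) : (e u).re = cos (2 * π * u) := by
  unfold e
  rw [Complex.exp_re]
  simp

theorem e_im (u : ℝ) : (e u).im = sin (2 * π * u) := by
  unfold e
  rw [Complex.exp_im]
  simp

theorem e_half (u : ℝ) : e (u + 1 / 2) = -e u := by
  apply Complex.ext
  · rw [Complex.neg_re, e_re, e_re, show 2 * π * (u + 1 / 2) = 2 * π * u + π by ring, cos_add_pi]
  · rw [Complex.neg_im, e_im, e_im, show 2 * π * (u + 1 / 2) = 2 * π * u + π by ring, sin_add_pi]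

/-- onto from covectors -/
theorem surj_of (D : (ℝ × ℝ × ℝ) →L[ℝ] ℂ)
    (h : ∀ A B : ℝ, (∀ v, A * (D v).re + B * (D v).im = 0) → A = 0 ∧ B = 0) :
    Function.Surjective D := by
  by_contra hns
  have hlt : LinearMap.range (D : (ℝ × ℝ × ℝ) →ₗ[ℝ] ℂ) < ⊤ := by
    rw [lt_top_iff_ne_top]
    intro htop
    exact hns (LinearMap.range_eq_top.1 htop)
  obtain ⟨f, hf, hle⟩ := Submodule.exists_le_ker_of_lt_top _ hlt
  have hfz : ∀ z : ℂ, f z = f 1 * z.re + f Complex.I * z.im := by
    intro z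
    have : z = z.re • (1 : ℂ) + z.im • Complex.I := by
      apply Complex.ext <;> simp
    conv_lhs => rw [this]
    rw [map_add, map_smul, map_smul, smul_eq_mul, smul_eq_mul]
    ring
  have h1 := h (f 1) (f Complex.I) fun v => by
    rw [← hfz]
    exact hle (LinearMap.mem_range_self _ v)
  apply hf
  ext z
  rw [hfz, h1.1, h1.2]
  simp

/-! ### the cell of a nested system -/

section cell

variable {m : ℕ} (S : NS m)

/-- base column, other column. -/
def kb (k : ℤ) : ℤ := if S.sg k = 1 then k else k + 1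
def ko (k : ℤ) : ℤ := if S.sg k = 1 then k + 1 else k

/-- increments. -/
def aa (k l : ℤ) (s : Fin (m + 2)) : ℤ := S.N s (ko S k) l - S.N s (kb S k) l
def bb (k l : ℤ) (s : Fin (m + 2)) : ℤ := S.N s (kb S k) (l + 1) - S.N s (kb S k) l
def cc (k l : ℤ) (s : Fin (m + 2)) : ℤ := S.N s (ko S k) (l + 1) - S.N s (kb S k) l

/-- mirror coordinate. -/
def mt (k : ℤ) (μ : ℝ) : ℝ := if S.sg k = 1 then μ else 1 - μ

/-- sign -/
def sn (k : ℤ) : ℝ := if S.sg k = 1 then 1 else -1

theorem sn_ne (k : ℤ) : sn S k ≠ 0 := by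
  unfold sn; split_ifs <;> norm_num

theorem hasDerivAt_mt (k : ℤ) (μ : ℝ) : HasDerivAt (mt S k) (sn S k) μ := by
  unfold mt sn
  split_ifs
  · exact hasDerivAt_id μ
  · simpa using (hasDerivAt_id μ).const_sub 1

theorem bf_eq (k l : ℤ) (s : Fin (m + 2)) (μ ν : ℝ) :
    bf (S.N s k l) (S.N s (k + 1) l) (S.N s k (l + 1)) (S.N s (k + 1) (l + 1)) μ ν =
      (S.N s (kb S k) l : ℝ) + Hb (aa S k l s) (bb S k l s) (cc S k l s) (mt S k μ) ν := by
  unfold bf Hb aa bb cc mt kb ko
  split_ifs <;> push_cast <;> ring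

variable {S} (hS : S.Ok)
include hS

theorem cell_ok (k l : ℤ) : Cell (aa S k l) (bb S k l) (cc S k l) := by
  rcases hS.sg1 k with hk | hk
  · have e1 : kb S k = k := if_pos hk
    have e2 : ko S k = k + 1 := if_pos hk
    have st1 : ∀ s l, S.N s (k + 1) l - S.N s k l = 0 ∨ S.N s (k + 1) l - S.N s k l = 1 := by
      intro s l
      have := hS.stepk s k l
      rw [hk, one_mul] at this
      exact this
    have nk : ∀ (s : Fin (m + 1)) l, S.N s.castSucc (k + 1) l - S.N s.succ (k + 1) l ≤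
        S.N s.castSucc k l - S.N s.succ k l := by
      intro s l
      have := hS.nestk s k l
      rw [hk, one_mul, one_mul] at this
      exact this
    refine ⟨fun s => ?_, fun s => ?_, fun s => ?_, fun s => ?_, fun s => ?_, ?_, ?_, ?_, ?_,
      ?_, ?_, ?_, ?_⟩
    · unfold aa; rw [e1, e2]; exact st1 s l
    · unfold bb; rw [e1]; exact hS.stepl s k l
    · unfold cc aa; rw [e1, e2]
      have := hS.stepl s (k + 1) l
      omega
    · unfold cc bb; rw [e1, e2]
      have := st1 s (l + 1)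
      omega
    · unfold cc; rw [e1, e2]
      have := hS.diagp s k l hk
      omega
    · refine Fin.monotone_iff_le_succ.2 fun s => ?_
      unfold aa; rw [e1, e2]
      have := nk s l
      omega
    · refine Fin.antitone_iff_succ_le.2 fun s => ?_
      unfold bb; rw [e1]
      have := hS.nestl s k l
      omega
    · refine Fin.antitone_iff_succ_le.2 fun s => ?_
      simp only [cc, aa]; rw [e1, e2]
      have := hS.nestl s (k + 1) l
      omega
    · refine Fin.monotone_iff_le_succ.2 fun s => ?_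
      simp only [cc, bb]; rw [e1, e2]
      have := nk s (l + 1)
      omega
    · unfold aa; rw [e1, e2, hS.N0, hS.N0]; ring
    · unfold bb; rw [e1, hS.N0, hS.N0]; ring
    · unfold aa; rw [e1, e2, hS.N1s, hk]; ring
    · unfold bb; rw [e1, hS.N1 k (l + 1) l]; ring
  · have hk' : ¬ S.sg k = 1 := by rw [hk]; norm_num
    have e1 : kb S k = k + 1 := if_neg hk'
    have e2 : ko S k = k := if_neg hk'
    have st1 : ∀ s l, S.N s k l - S.N s (k + 1) l = 0 ∨ S.N s k l - S.N s (k + 1) l = 1 := by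
      intro s l
      have := hS.stepk s k l
      rw [hk] at this
      omega
    have nk : ∀ (s : Fin (m + 1)) l, S.N s.castSucc k l - S.N s.succ k l ≤
        S.N s.castSucc (k + 1) l - S.N s.succ (k + 1) l := by
      intro s l
      have := hS.nestk s k l
      rw [hk] at this
      linarith
    refine ⟨fun s => ?_, fun s => ?_, fun s => ?_, fun s => ?_, fun s => ?_, ?_, ?_, ?_, ?_,
      ?_, ?_, ?_, ?_⟩
    · unfold aa; rw [e1, e2]; exact st1 s l
    · unfold bb; rw [e1]; exact hS.stepl s (k + 1) l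
    · unfold cc aa; rw [e1, e2]
      have := hS.stepl s k l
      omega
    · unfold cc bb; rw [e1, e2]
      have := st1 s (l + 1)
      omega
    · unfold cc; rw [e1, e2]
      have := hS.diagn s k l hk
      omega
    · refine Fin.monotone_iff_le_succ.2 fun s => ?_
      unfold aa; rw [e1, e2]
      have := nk s l
      omega
    · refine Fin.antitone_iff_succ_le.2 fun s => ?_
      unfold bb; rw [e1]
      have := hS.nestl s (k + 1) l
      omega
    · refine Fin.antitone_iff_succ_le.2 fun s => ?_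
      simp only [cc, aa]; rw [e1, e2]
      have := hS.nestl s k l
      omega
    · refine Fin.monotone_iff_le_succ.2 fun s => ?_
      simp only [cc, bb]; rw [e1, e2]
      have := nk s (l + 1)
      omega
    · unfold aa; rw [e1, e2, hS.N0, hS.N0]; ring
    · unfold bb; rw [e1, hS.N0, hS.N0]; ring
    · unfold aa; rw [e1, e2, hS.N1s, hk]; ring
    · unfold bb; rw [e1, hS.N1 (k + 1) (l + 1) l]; ring

theorem flat_iff (k l : ℤ) (s : Fin (m + 2)) : S.flat s k l ↔ cc S k l s = 0 := by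
  have h := cell_ok hS k l
  have h1 := h.ha s
  have h2 := h.hb s
  have h3 := h.hca s
  have h4 := h.hcb s
  unfold NS.flat
  unfold aa at h1 h3
  unfold bb at h2 h4
  unfold cc at h3 h4 ⊢
  rcases hS.sg1 k with hk | hk
  · have e1 : kb S k = k := if_pos hk
    have e2 : ko S k = k + 1 := if_pos hk
    simp only [e1, e2] at *
    omega
  · have hk' : ¬ S.sg k = 1 := by rw [hk]; norm_num
    have e1 : kb S k = k + 1 := if_neg hk'
    have e2 : ko S k = k := if_neg hk'
    simp only [e1, e2] at *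
    omega

end cell

/-! ### the function as one sum -/

section fn

variable {m : ℕ} (S : NS m) (M : Fin m → ℝ) (Mv : ℝ)

/-- multiplier -/
def mul (t : ℝ) (s : Fin (m + 2)) (x y : ℝ) : ℝ :=
  if s = 0 ∨ s = Fin.last (m + 1) then 1 else 1 - t + t * S.fl s x y

/-- weight of a term -/
def wt (t : ℝ) (s : Fin (m + 2)) (z : ℝ × ℝ × ℝ) : ℝ :=
  cf M Mv s * mul S t s z.1 z.2.2 * exp (S.j s * z.2.1)

theorem cf_zero : cf M Mv 0 = 1 := rfl

theorem cf_last : cf M Mv (Fin.last (m + 1)) = Mv := by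
  unfold cf
  rw [← Fin.succ_last, Fin.cons_succ, Fin.snoc_last]

theorem cf_ix (σ : Fin m) : cf M Mv (NS.ix σ) = M σ := by
  unfold cf NS.ix
  rw [Fin.cons_succ, Fin.snoc_castSucc]

theorem ix_ne_zero (σ : Fin m) : NS.ix σ ≠ 0 := Fin.succ_ne_zero _

theorem ix_ne_last (σ : Fin m) : NS.ix σ ≠ Fin.last (m + 1) := by
  unfold NS.ix
  rw [← Fin.succ_last]
  intro h
  exact (Fin.castSucc_lt_last σ).ne (Fin.succ_injective _ h)

theorem exists_ix {s : Fin (m + 2)} (h0 : s ≠ 0) (h1 : s ≠ Fin.last (m + 1)) :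
    ∃ σ : Fin m, s = NS.ix σ := by
  obtain ⟨s', rfl⟩ := Fin.exists_succ_eq.2 h0
  have h2 : s' ≠ Fin.last m := fun h => h1 (by rw [h, Fin.succ_last])
  obtain ⟨σ, rfl⟩ := Fin.exists_castSucc_eq.2 h2
  exact ⟨σ, rfl⟩

theorem ix_inj {σ σ' : Fin m} (h : NS.ix σ = NS.ix σ') : σ = σ' :=
  Fin.castSucc_injective _ (Fin.succ_injective _ h)

theorem sum_fin {V : Type*} [AddCommMonoid V] (f : Fin (m + 2) → V) :
    ∑ s, f s = f 0 + (∑ σ : Fin m, f (NS.ix σ) + f (Fin.last (m + 1))) := by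
  rw [Fin.sum_univ_succ, Fin.sum_univ_castSucc]
  rfl

theorem cf_pos (hM : ∀ s, 0 < M s) (hMv : 0 < Mv) (s : Fin (m + 2)) : 0 < cf M Mv s := by
  by_cases h0 : s = 0
  · rw [h0, cf_zero]; exact one_pos
  · by_cases h1 : s = Fin.last (m + 1)
    · rw [h1, cf_last]; exact hMv
    · obtain ⟨σ, rfl⟩ := exists_ix h0 h1
      rw [cf_ix]; exact hM σ

variable {S} (hS : S.Ok)
include hS

theorem K_eq (t : ℝ) (z : ℝ × ℝ × ℝ) : (S.pathB M Mv).K t z =
    -∑ s, (wt S M Mv t s z : ℂ) * e (S.hat s z.1 z.2.2) := by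
  rw [sum_fin]
  have h0 : (wt S M Mv t 0 z : ℂ) * e (S.hat 0 z.1 z.2.2) =
      ((exp (15 * z.2.1) : ℝ) : ℂ) * e (Sp z.2.2) := by
    unfold wt mul
    rw [hat_zero hS, cf_zero, if_pos (Or.inl rfl), hS.j0]
    norm_num
  have h1 : (wt S M Mv t (Fin.last (m + 1)) z : ℂ) * e (S.hat (Fin.last (m + 1)) z.1 z.2.2) =
      (Mv : ℂ) * e (S.hat (Fin.last (m + 1)) z.1 0) := by
    unfold wt mul
    rw [hat_last hS, cf_last, if_pos (Or.inr rfl), hS.j1]
    norm_num
  rw [h0, h1]
  unfold PD.K PD.mid NS.pathB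
  simp only [e_half]
  have h2 : ∀ σ : Fin m, (wt S M Mv t (NS.ix σ) z : ℂ) * e (S.hat (NS.ix σ) z.1 z.2.2) =
      ((M σ * (1 - t + t * S.fl (NS.ix σ) z.1 z.2.2) * exp (S.j (NS.ix σ) * z.2.1) : ℝ) : ℂ) *
        e (S.hat (NS.ix σ) z.1 z.2.2) := by
    intro σ
    unfold wt mul
    rw [cf_ix, if_neg]
    rintro (h | h)
    · exact ix_ne_zero σ h
    · exact ix_ne_last σ h
  simp only [h2, mul_neg, Finset.sum_neg_distrib]
  ring

/-- the component of the function along a covector. -/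
theorem comp_eq (A B t : ℝ) (z : ℝ × ℝ × ℝ) :
    A * ((S.pathB M Mv).K t z).re + B * ((S.pathB M Mv).K t z).im =
      -∑ s, wt S M Mv t s z * Cc A B (S.hat s z.1 z.2.2) := by
  rw [K_eq M Mv hS, Complex.neg_re, Complex.neg_im, Complex.re_sum, Complex.im_sum,
    mul_neg, mul_neg, ← neg_add, Finset.mul_sum, Finset.mul_sum, ← Finset.sum_add_distrib]
  congr 1
  refine Finset.sum_congr rfl fun s _ => ?_
  rw [Complex.re_ofReal_mul, Complex.im_ofReal_mul, e_re, e_im]
  unfold Cc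
  ring

end fn

/-! ### windows -/

section win

variable {m : ℕ} {S : NS m}

theorem bil_nonneg {N : ℤ → ℤ → ℝ} (hN : ∀ k l, 0 ≤ N k l) (X Y : ℝ) : 0 ≤ bil N X Y := by
  unfold bil
  have h1 := Int.fract_nonneg X
  have h2 := (Int.fract_lt_one X).le
  have h3 := Int.fract_nonneg Y
  have h4 := (Int.fract_lt_one Y).le
  have h5 := mul_nonneg (mul_nonneg (sub_nonneg.2 h2) (sub_nonneg.2 h4)) (hN ⌊X⌋ ⌊Y⌋)
  have h6 := mul_nonneg (mul_nonneg h1 (sub_nonneg.2 h4)) (hN (⌊X⌋ + 1) ⌊Y⌋)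
  have h7 := mul_nonneg (mul_nonneg (sub_nonneg.2 h2) h3) (hN ⌊X⌋ (⌊Y⌋ + 1))
  have h8 := mul_nonneg (mul_nonneg h1 h3) (hN (⌊X⌋ + 1) (⌊Y⌋ + 1))
  linarith

theorem fl_nonneg (s : Fin (m + 2)) (x y : ℝ) : 0 ≤ S.fl s x y :=
  bil_nonneg (fun k l => by split_ifs <;> norm_num) _ _

theorem mul_nonneg' {t : ℝ} (ht : t ∈ Icc (0 : ℝ) 1) (s : Fin (m + 2)) (x y : ℝ) :
    0 ≤ mul S t s x y := by
  unfold mul
  split_ifs
  · exact zero_le_one
  · have := mul_nonneg ht.1 (fl_nonneg (S := S) s x y)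
    linarith [ht.2]

theorem wt_nonneg {M : Fin m → ℝ} {Mv : ℝ} (hM : ∀ s, 0 < M s) (hMv : 0 < Mv) {t : ℝ}
    (ht : t ∈ Icc (0 : ℝ) 1) (s : Fin (m + 2)) (z : ℝ × ℝ × ℝ) : 0 ≤ wt S M Mv t s z :=
  mul_nonneg (mul_nonneg (cf_pos M Mv hM hMv s).le (mul_nonneg' ht s _ _)) (exp_pos _).le

theorem wt_zero {M : Fin m → ℝ} {Mv t : ℝ} (z : ℝ × ℝ × ℝ) : 0 < wt S M Mv t 0 z := by
  unfold wt mul
  rw [cf_zero, if_pos (Or.inl rfl)]
  positivity

theorem wt_last {M : Fin m → ℝ} {Mv t : ℝ} (hMv : 0 < Mv) (z : ℝ × ℝ × ℝ) :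
    0 < wt S M Mv t (Fin.last (m + 1)) z := by
  unfold wt mul
  rw [cf_last, if_pos (Or.inr rfl)]
  positivity

/-- in the open rise the gap profile is locally constant. -/
theorem Gp_loc {k : ℤ} {x : ℝ} (h0 : (k : ℝ) < x) (h1 : x < k + 1 / 2) :
    ∀ᶠ x' in 𝓝 x, Gp x' = Gp x := by
  have h2 : Ioo (k : ℝ) (k + 1 / 2) ∈ 𝓝 x := Ioo_mem_nhds h0 h1
  have h3 : ∀ x' : ℝ, (k : ℝ) < x' → x' < k + 1 / 2 → Gp x' = k := by
    intro x' h h'
    rw [Gp_eq k h.le (by linarith), st_of_le (by linarith), add_zero]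
  filter_upwards [h2] with x' hx'
  rw [h3 x' hx'.1 hx'.2, h3 x h0 h1]

end win

/-! ### the equations of a degenerate zero -/

section eqs

variable {m : ℕ} {S : NS m} (hS : S.Ok) {M : Fin m → ℝ} {Mv : ℝ} (hMv : 0 < Mv) {A B t : ℝ}
include hS hMv

theorem diffK : Differentiable ℝ ((S.pathB M Mv).K t) := by
  have h := NSLift_966.smK (ok_B hS M Mv hMv)
  have h1 : ContDiff ℝ 2 fun z : ℝ × ℝ × ℝ => (S.pathB M Mv).K t z :=
    h.comp (g := fun q : ℝ × ℝ × ℝ × ℝ => (S.pathB M Mv).K q.1 q.2)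
      (f := fun z : ℝ × ℝ × ℝ => (t, z)) (contDiff_const.prodMk contDiff_id)
  exact h1.differentiable (by norm_num)

theorem comp_deriv {z : ℝ × ℝ × ℝ}
    (hcov : ∀ v, A * (fderiv ℝ ((S.pathB M Mv).K t) z v).re +
      B * (fderiv ℝ ((S.pathB M Mv).K t) z v).im = 0) {γ : ℝ → ℝ × ℝ × ℝ} {v : ℝ × ℝ × ℝ} {r : ℝ}
    (hγ : HasDerivAt γ v r) (hz : γ r = z) :
    HasDerivAt (fun r => -∑ s, wt S M Mv t s (γ r) * Cc A B (S.hat s (γ r).1 (γ r).2.2)) 0 r := by
  have h1 : HasFDerivAt ((S.pathB M Mv).K t) (fderiv ℝ ((S.pathB M Mv).K t) z) (γ r) := by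
    rw [hz]
    exact (diffK hS hMv z).hasFDerivAt
  have h2 := h1.comp_hasDerivAt r hγ
  have h3 : HasDerivAt (fun r => A * ((S.pathB M Mv).K t (γ r)).re +
      B * ((S.pathB M Mv).K t (γ r)).im) 0 r := by
    have h4 := (Complex.reCLM.hasFDerivAt.comp_hasDerivAt r h2).const_mul A
    have h5 := (Complex.imCLM.hasFDerivAt.comp_hasDerivAt r h2).const_mul B
    have h6 := h4.add h5
    rw [← hcov v]
    exact h6
  refine h3.congr_of_eventuallyEq (Filter.Eventually.of_forall fun r => ?_)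
  exact (comp_eq M Mv hS A B t (γ r)).symm

theorem eqL {x lam y : ℝ}
    (hcov : ∀ v, A * (fderiv ℝ ((S.pathB M Mv).K t) (x, lam, y) v).re +
      B * (fderiv ℝ ((S.pathB M Mv).K t) (x, lam, y) v).im = 0) :
    ∑ s, (S.j s : ℝ) * wt S M Mv t s (x, lam, y) * Cc A B (S.hat s x y) = 0 := by
  have h1 := comp_deriv hS hMv hcov (γ := fun r => (x, r, y)) (v := (0, 1, 0)) (r := lam)
    ((hasDerivAt_const _ _).prodMk ((hasDerivAt_id _).prodMk (hasDerivAt_const _ _))) rfl
  have h2 : HasDerivAt (fun r => -∑ s, wt S M Mv t s (x, r, y) * Cc A B (S.hat s x y))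
      (-∑ s, ((S.j s : ℝ) * wt S M Mv t s (x, lam, y)) * Cc A B (S.hat s x y)) lam := by
    refine HasDerivAt.neg (HasDerivAt.fun_sum fun s _ => HasDerivAt.mul_const ?_ _)
    unfold wt
    have h3 : HasDerivAt (fun r : ℝ => exp (S.j s * r)) (exp (S.j s * lam) * S.j s) lam := by
      have : HasDerivAt (fun r : ℝ => (S.j s : ℝ) * r) (S.j s) lam := by
        simpa using (hasDerivAt_id lam).const_mul (S.j s : ℝ)
      exact this.exp
    have h4 := h3.const_mul (cf M Mv s * mul S t s x y)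
    have e : (S.j s : ℝ) * (cf M Mv s * mul S t s x y * exp (S.j s * lam)) =
        cf M Mv s * mul S t s x y * (exp (S.j s * lam) * S.j s) := by ring
    rw [e]
    exact h4
  have h5 := h1.unique h2
  linarith

theorem hat_cell {k l : ℤ} {x y : ℝ} (h1 : (k : ℝ) - 1 / 2 ≤ x) (h2 : x ≤ k + 1)
    (h3 : (l : ℝ) - 1 / 2 ≤ y) (h4 : y ≤ l + 1) (s : Fin (m + 2)) :
    S.hat s x y = (S.N s (kb S k) l : ℝ) + Hb (aa S k l s) (bb S k l s) (cc S k l s)
      (mt S k (st (2 * (x - k)))) (st (2 * (y - l))) := by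
  rw [← bf_eq]
  exact bilS_eq _ k l h1 h2 h3 h4

theorem eqX {x lam y : ℝ} {k l : ℤ} (hk : (k : ℝ) < x) (hk' : x < k + 1 / 2) (hl : (l : ℝ) ≤ y)
    (hl' : y ≤ l + 1)
    (hcov : ∀ v, A * (fderiv ℝ ((S.pathB M Mv).K t) (x, lam, y) v).re +
      B * (fderiv ℝ ((S.pathB M Mv).K t) (x, lam, y) v).im = 0) :
    ∑ s, wt S M Mv t s (x, lam, y) * ((aa S k l s + ((cc S k l s : ℝ) - aa S k l s - bb S k l s) *
      st (2 * (y - l))) * Sc A B (S.hat s x y)) = 0 := by
  set ν := st (2 * (y - l)) with hν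
  have h1 := comp_deriv hS hMv hcov (γ := fun r => (r, lam, y)) (v := (1, 0, 0)) (r := x)
    ((hasDerivAt_id _).prodMk ((hasDerivAt_const _ _).prodMk (hasDerivAt_const _ _))) rfl
  -- local form
  have hG := Gp_loc hk hk'
  have hcell : Ioo ((k : ℝ) - 1 / 2) (k + 1) ∈ 𝓝 x := Ioo_mem_nhds (by linarith) (by linarith)
  have h2 : HasDerivAt (fun r => -∑ s, wt S M Mv t s (r, lam, y) * Cc A B (S.hat s r y))
      (-∑ s, wt S M Mv t s (x, lam, y) * (2 * π * Sc A B (S.hat s x y) *
        ((aa S k l s + ((cc S k l s : ℝ) - aa S k l s - bb S k l s) * ν) *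
          (sn S k * (std (2 * (x - k)) * 2))))) x := by
    have h3 : ∀ᶠ r in 𝓝 x, (-∑ s, wt S M Mv t s (r, lam, y) * Cc A B (S.hat s r y)) =
        -∑ s, wt S M Mv t s (x, lam, y) * Cc A B ((S.N s (kb S k) l : ℝ) +
          Hb (aa S k l s) (bb S k l s) (cc S k l s) (mt S k (st (2 * (r - k)))) ν) := by
      filter_upwards [hG, hcell] with r hr hr'
      congr 1
      refine Finset.sum_congr rfl fun s _ => ?_
      rw [hat_cell hS hMv hr'.1.le hr'.2.le (by linarith) hl' s]
      congr 1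
      unfold wt mul NS.fl
      simp only [hr]
    refine HasDerivAt.congr_of_eventuallyEq ?_ h3
    refine HasDerivAt.neg (HasDerivAt.fun_sum fun s _ => HasDerivAt.const_mul _ ?_)
    rw [hat_cell hS hMv (by linarith : (k : ℝ) - 1 / 2 ≤ x) (by linarith) (by linarith) hl' s]
    refine (hasDerivAt_Cc A B _).comp x ?_
    refine HasDerivAt.const_add _ ?_
    have h4 : HasDerivAt (fun r : ℝ => 2 * (r - k)) 2 x := by
      simpa using ((hasDerivAt_id x).sub_const (k : ℝ)).const_mul 2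
    have h5 : HasDerivAt (fun r : ℝ => mt S k (st (2 * (r - k))))
        (sn S k * (std (2 * (x - k)) * 2)) x :=
      (hasDerivAt_mt S k _).comp x ((hasDerivAt_st _).comp x h4)
    have h6 : HasDerivAt (fun μ : ℝ => Hb (aa S k l s) (bb S k l s) (cc S k l s) μ ν)
        (aa S k l s + ((cc S k l s : ℝ) - aa S k l s - bb S k l s) * ν)
        (mt S k (st (2 * (x - k)))) := by
      unfold Hb
      have h7 : HasDerivAt (fun μ : ℝ => (aa S k l s : ℝ) * μ + bb S k l s * ν +
          ((cc S k l s : ℝ) - aa S k l s - bb S k l s) * (μ * ν))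
          ((aa S k l s : ℝ) * 1 + ((cc S k l s : ℝ) - aa S k l s - bb S k l s) * (1 * ν))
          (mt S k (st (2 * (x - k)))) :=
        (((hasDerivAt_id _).const_mul _).add_const _).add
          (((hasDerivAt_id _).mul_const ν).const_mul _)
      simpa using h7
    exact h6.comp x h5
  have h5 := h1.unique h2
  have h6 : 2 * π * (sn S k * (std (2 * (x - k)) * 2)) ≠ 0 := by
    have := (std_pos (x := 2 * (x - k)) (by linarith) (by linarith)).ne'
    have := sn_ne S k
    positivity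
  refine (mul_eq_zero.1 (?_ : (2 * π * (sn S k * (std (2 * (x - k)) * 2))) * _ = 0)).resolve_left h6
  rw [Finset.mul_sum]
  have h7 : ∑ s, wt S M Mv t s (x, lam, y) * (2 * π * Sc A B (S.hat s x y) *
        ((aa S k l s + ((cc S k l s : ℝ) - aa S k l s - bb S k l s) * ν) *
          (sn S k * (std (2 * (x - k)) * 2)))) = 0 := by linarith
  rw [← h7]
  exact Finset.sum_congr rfl fun s _ => by ring

theorem eqY {x lam y : ℝ} {k l : ℤ} (hk : (k : ℝ) ≤ x) (hk' : x ≤ k + 1) (hl : (l : ℝ) < y)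
    (hl' : y < l + 1 / 2)
    (hcov : ∀ v, A * (fderiv ℝ ((S.pathB M Mv).K t) (x, lam, y) v).re +
      B * (fderiv ℝ ((S.pathB M Mv).K t) (x, lam, y) v).im = 0) :
    ∑ s, wt S M Mv t s (x, lam, y) * ((bb S k l s + ((cc S k l s : ℝ) - aa S k l s - bb S k l s) *
      mt S k (st (2 * (x - k)))) * Sc A B (S.hat s x y)) = 0 := by
  set μ := mt S k (st (2 * (x - k))) with hμ
  have h1 := comp_deriv hS hMv hcov (γ := fun r => (x, lam, r)) (v := (0, 0, 1)) (r := y)
    ((hasDerivAt_const _ _).prodMk ((hasDerivAt_const _ _).prodMk (hasDerivAt_id _))) rfl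
  have hG := Gp_loc hl hl'
  have hcell : Ioo ((l : ℝ) - 1 / 2) (l + 1) ∈ 𝓝 y := Ioo_mem_nhds (by linarith) (by linarith)
  have h2 : HasDerivAt (fun r => -∑ s, wt S M Mv t s (x, lam, r) * Cc A B (S.hat s x r))
      (-∑ s, wt S M Mv t s (x, lam, y) * (2 * π * Sc A B (S.hat s x y) *
        ((bb S k l s + ((cc S k l s : ℝ) - aa S k l s - bb S k l s) * μ) *
          (std (2 * (y - l)) * 2)))) y := by
    have h3 : ∀ᶠ r in 𝓝 y, (-∑ s, wt S M Mv t s (x, lam, r) * Cc A B (S.hat s x r)) =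
        -∑ s, wt S M Mv t s (x, lam, y) * Cc A B ((S.N s (kb S k) l : ℝ) +
          Hb (aa S k l s) (bb S k l s) (cc S k l s) μ (st (2 * (r - l)))) := by
      filter_upwards [hG, hcell] with r hr hr'
      congr 1
      refine Finset.sum_congr rfl fun s _ => ?_
      rw [hat_cell hS hMv (by linarith : (k : ℝ) - 1 / 2 ≤ x) hk' hr'.1.le hr'.2.le s]
      congr 1
      unfold wt mul NS.fl
      simp only [hr]
    refine HasDerivAt.congr_of_eventuallyEq ?_ h3
    refine HasDerivAt.neg (HasDerivAt.fun_sum fun s _ => HasDerivAt.const_mul _ ?_)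
    rw [hat_cell hS hMv (by linarith : (k : ℝ) - 1 / 2 ≤ x) hk'
      (by linarith : (l : ℝ) - 1 / 2 ≤ y) (by linarith : y ≤ l + 1) s]
    refine (hasDerivAt_Cc A B _).comp y ?_
    refine HasDerivAt.const_add _ ?_
    have h4 : HasDerivAt (fun r : ℝ => 2 * (r - l)) 2 y := by
      simpa using ((hasDerivAt_id y).sub_const (l : ℝ)).const_mul 2
    have h5 : HasDerivAt (fun r : ℝ => st (2 * (r - l))) (std (2 * (y - l)) * 2) y :=
      (hasDerivAt_st _).comp y h4
    have h6 : HasDerivAt (fun ν : ℝ => Hb (aa S k l s) (bb S k l s) (cc S k l s) μ ν)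
        (bb S k l s + ((cc S k l s : ℝ) - aa S k l s - bb S k l s) * μ)
        (st (2 * (y - l))) := by
      unfold Hb
      have h7 : HasDerivAt (fun ν : ℝ => (aa S k l s : ℝ) * μ + bb S k l s * ν +
          ((cc S k l s : ℝ) - aa S k l s - bb S k l s) * (μ * ν))
          ((bb S k l s : ℝ) * 1 + ((cc S k l s : ℝ) - aa S k l s - bb S k l s) * (μ * 1))
          (st (2 * (y - l))) :=
        (((hasDerivAt_id _).const_mul _).const_add _).add
          (((hasDerivAt_id _).const_mul μ).const_mul _)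
      simpa using h7
    exact h6.comp y h5
  have h5 := h1.unique h2
  have h6 : 2 * π * (std (2 * (y - l)) * 2) ≠ 0 := by
    have := (std_pos (x := 2 * (y - l)) (by linarith) (by linarith)).ne'
    positivity
  refine (mul_eq_zero.1 (?_ : (2 * π * (std (2 * (y - l)) * 2)) * _ = 0)).resolve_left h6
  rw [Finset.mul_sum]
  have h7 : ∑ s, wt S M Mv t s (x, lam, y) * (2 * π * Sc A B (S.hat s x y) *
        ((bb S k l s + ((cc S k l s : ℝ) - aa S k l s - bb S k l s) * μ) *
          (std (2 * (y - l)) * 2))) = 0 := by linarith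
  rw [← h7]
  exact Finset.sum_congr rfl fun s _ => by ring

end eqs

/-! ### the main theorem -/

section main

variable {m : ℕ} {S : NS m} (hS : S.Ok) {M : Fin m → ℝ} {Mv : ℝ} (hM : ∀ s, 0 < M s)
  (hMv : 0 < Mv) {A B t : ℝ} (ht : t ∈ Icc (0 : ℝ) 1)
include hS

theorem K1_eq {x lam y : ℝ} (hK : (S.pathB M Mv).K t (x, lam, y) = 0) :
    ∑ s, wt S M Mv t s (x, lam, y) * cos (2 * π * S.hat s x y) = 0 := by
  have h := comp_eq M Mv hS 1 0 t (x, lam, y)
  rw [hK] at h
  simp only [Complex.zero_re, Complex.zero_im, mul_zero, add_zero] at h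
  have h1 : ∑ s, wt S M Mv t s (x, lam, y) * Cc 1 0 (S.hat s x y) = 0 := by linarith
  rw [← h1]
  refine Finset.sum_congr rfl fun s _ => ?_
  unfold Cc
  ring

theorem K2_eq {x lam y : ℝ} (hK : (S.pathB M Mv).K t (x, lam, y) = 0) :
    ∑ s, wt S M Mv t s (x, lam, y) * sin (2 * π * S.hat s x y) = 0 := by
  have h := comp_eq M Mv hS 0 1 t (x, lam, y)
  rw [hK] at h
  simp only [Complex.zero_re, Complex.zero_im, mul_zero, add_zero] at h
  have h1 : ∑ s, wt S M Mv t s (x, lam, y) * Cc 0 1 (S.hat s x y) = 0 := by linarith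
  rw [← h1]
  refine Finset.sum_congr rfl fun s _ => ?_
  unfold Cc
  ring

include hM hMv ht

/-- one variable active. -/
theorem gap_case {x lam y : ℝ} {α n : Fin (m + 2) → ℤ} {μ : ℝ}
    (hh : ∀ s, S.hat s x y = (n s : ℝ) + α s * μ) (hα : ∀ s, α s = 0 ∨ α s = 1)
    (hE : (Monotone α ∧ α 0 = 0 ∧ α (Fin.last (m + 1)) = 1) ∨
      (Antitone α ∧ α 0 = 1 ∧ α (Fin.last (m + 1)) = 0))
    (hK : (S.pathB M Mv).K t (x, lam, y) = 0)
    (hx : ∑ s, wt S M Mv t s (x, lam, y) * (α s * Sc A B (S.hat s x y)) = 0)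
    (hl : ∑ s, (S.j s : ℝ) * wt S M Mv t s (x, lam, y) * Cc A B (S.hat s x y) = 0) :
    A = 0 ∧ B = 0 := by
  have K1 := K1_eq hS hK
  have K2 := K2_eq hS hK
  simp only [hh, cos_int, sin_int, Sc_int, Cc_int] at K1 K2 hx hl
  have hj : ∀ s s' : Fin (m + 2), s < s' → (S.j s' : ℝ) < S.j s := fun s s' h => by
    exact_mod_cast hS.hj h
  rcases hE with ⟨hm, e0, e1⟩ | ⟨hm, e0, e1⟩
  · refine core_gap (E := fun s => (S.j s : ℝ)) (w := fun s => wt S M Mv t s (x, lam, y)) hα
      (Or.inl fun s s' h h' => hj s s' ?_) (fun s => wt_nonneg hM hMv ht s _)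
      (s₀ := 0) (s₁ := Fin.last (m + 1)) (wt_zero _) e0 (wt_last hMv _) e1 K1 K2 hx hl
    by_contra hcon
    have := hm (not_lt.1 hcon)
    omega
  · refine core_gap (E := fun s => (S.j s : ℝ)) (w := fun s => wt S M Mv t s (x, lam, y)) hα
      (Or.inr fun s s' h h' => hj s' s ?_) (fun s => wt_nonneg hM hMv ht s _)
      (s₀ := Fin.last (m + 1)) (s₁ := 0) (wt_last hMv _) e1 (wt_zero _) e0 K1 K2 hx hl
    by_contra hcon
    have := hm (not_lt.1 hcon)
    omega

/-- a flat coupling cannot be a double zero: domination. -/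
theorem no_flat {k l : ℤ} {x lam y : ℝ} (hN : S.Neg M Mv) (hk : (k : ℝ) < x) (hk' : x < k + 1 / 2)
    (hl : (l : ℝ) < y) (hl' : y < l + 1 / 2) (hc : ∃ s, cc S k l s = 0) :
    ¬ (∑ s ∈ Qg (aa S k l) (bb S k l), wt S M Mv t s (x, lam, y) +
        ∑ s ∈ Pg (aa S k l) (bb S k l), wt S M Mv t s (x, lam, y) =
          ∑ s ∈ Xg (aa S k l) (bb S k l), wt S M Mv t s (x, lam, y) ∧
      ∑ s ∈ Qg (aa S k l) (bb S k l), (S.j s : ℝ) * wt S M Mv t s (x, lam, y) +
        ∑ s ∈ Pg (aa S k l) (bb S k l), (S.j s : ℝ) * wt S M Mv t s (x, lam, y) =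
          ∑ s ∈ Xg (aa S k l) (bb S k l), (S.j s : ℝ) * wt S M Mv t s (x, lam, y)) := by
  rintro ⟨h1, h2⟩
  have hC := cell_ok hS k l
  set a := aa S k l with ha
  set b := bb S k l with hb
  obtain ⟨s0, hs0⟩ := hc
  have hjj : ∀ s s' : Fin (m + 2), s < s' → (S.j s' : ℝ) < S.j s := fun s s' h => by
    exact_mod_cast hS.hj h
  -- the flat term is in the middle group
  have hs0X : s0 ∈ Xg a b := by
    have e1 := hC.ha s0
    have e2 := hC.hb s0
    have e3 := hC.hca s0
    have e4 := hC.hcb s0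
    refine Finset.mem_filter.2 ⟨Finset.mem_univ _, ?_⟩
    show a s0 = b s0
    omega
  have hXflat : ∀ s ∈ Xg a b, S.flat s k l := by
    intro s hs
    rw [flat_iff hS, (hC.x_eq hs hs0X).2.2, hs0]
  have h00 : s0 ≠ 0 := by
    rintro rfl
    exact absurd (hC.qx hC.q0 hs0X) (lt_irrefl _)
  have h01 : s0 ≠ Fin.last (m + 1) := by
    rintro rfl
    exact absurd (hC.xp hs0X hC.p1) (lt_irrefl _)
  obtain ⟨σ, hσ⟩ := exists_ix h00 h01
  -- windows
  have hfl : ∀ s, S.fl s x y = if S.flat s k l then 1 else 0 := by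
    intro s
    unfold NS.fl
    rw [bilG_lobe _ k l hk.le hk'.le hl.le hl'.le]
  have hmX : ∀ s ∈ Xg a b, mul S t s x y = 1 := by
    intro s hs
    unfold mul
    rw [hfl, if_pos (hXflat s hs)]
    split_ifs <;> ring
  have hm1 : ∀ s, mul S t s x y ≤ 1 := by
    intro s
    unfold mul
    rw [hfl]
    have := ht.1
    split_ifs <;> linarith
  obtain ⟨lam0, hlam⟩ := hN σ
  -- thresholds
  obtain ⟨p0, hp0, hp0m⟩ := (Pg a b).exists_min_image (fun s => s) ⟨_, hC.p1⟩
  obtain ⟨q0, hq0, hq0m⟩ := (Qg a b).exists_max_image (fun s => s) ⟨_, hC.q0⟩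
  let ε : Fin (m + 2) → ℝ := fun s => if s ∈ Xg a b then -1 else 1
  have hsum : ∀ f : Fin (m + 2) → ℝ, ∑ s, ε s * f s =
      ∑ s ∈ Qg a b, f s + ∑ s ∈ Pg a b, f s - ∑ s ∈ Xg a b, f s := by
    intro f
    rw [sum3 a b]
    have e1 : ∑ s ∈ Qg a b, ε s * f s = ∑ s ∈ Qg a b, f s := by
      refine Finset.sum_congr rfl fun s hs => ?_
      have : s ∉ Xg a b := fun h => absurd (hC.qx hs h) (lt_irrefl _)
      simp only [ε, if_neg this, one_mul]
    have e2 : ∑ s ∈ Xg a b, ε s * f s = -∑ s ∈ Xg a b, f s := by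
      rw [← Finset.sum_neg_distrib]
      refine Finset.sum_congr rfl fun s hs => ?_
      simp only [ε, if_pos hs, neg_mul, one_mul]
    have e3 : ∑ s ∈ Pg a b, ε s * f s = ∑ s ∈ Pg a b, f s := by
      refine Finset.sum_congr rfl fun s hs => ?_
      have : s ∉ Xg a b := fun h => absurd (hC.xp h hs) (lt_irrefl _)
      simp only [ε, if_neg this, one_mul]
    rw [e1, e2, e3]
    ring
  have key := PlSign_543.two_change (s := (Finset.univ : Finset (Fin (m + 2))))
    (e := fun s => ε s * wt S M Mv t s (x, lam, y)) (l := fun s => (S.j s : ℝ))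
    (a := (S.j p0 : ℝ)) (b := (S.j q0 : ℝ)) (hjj _ _ (hC.qp hq0 hp0))
    (by
      intro s _
      have hw : 0 ≤ wt S M Mv t s (x, lam, y) := wt_nonneg hM hMv ht s (x, lam, y)
      rcases lt_trichotomy (a s) (b s) with h | h | h
      · left
        have hq : s ∈ Qg a b := Finset.mem_filter.2 ⟨Finset.mem_univ _, h⟩
        have : s ∉ Xg a b := fun h' => absurd (hC.qx hq h') (lt_irrefl _)
        refine ⟨by simp only [ε, if_neg this, one_mul]; exact hw, Or.inr ?_⟩
        have := hq0m s hq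
        rcases this.eq_or_lt with e | e
        · rw [e]
        · exact (hjj _ _ e).le
      · right
        have hx : s ∈ Xg a b := Finset.mem_filter.2 ⟨Finset.mem_univ _, h⟩
        refine ⟨by simp only [ε, if_pos hx]; linarith, (hjj _ _ (hC.xp hx hp0)).le,
          (hjj _ _ (hC.qx hq0 hx)).le⟩
      · left
        have hp : s ∈ Pg a b := Finset.mem_filter.2 ⟨Finset.mem_univ _, h⟩
        have : s ∉ Xg a b := fun h' => absurd (hC.xp h' hp) (lt_irrefl _)
        refine ⟨by simp only [ε, if_neg this, one_mul]; exact hw, Or.inl ?_⟩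
        have := hp0m s hp
        rcases this.eq_or_lt with e | e
        · rw [e]
        · exact (hjj _ _ e).le)
    (by rw [hsum]; linarith)
    (by
      have e : ∀ s, (S.j s : ℝ) * (ε s * wt S M Mv t s (x, lam, y)) =
          ε s * ((S.j s : ℝ) * wt S M Mv t s (x, lam, y)) := fun s => by ring
      simp only [e]
      rw [hsum]; linarith) (lam0 - lam)
  -- upper bound of the value at `lam0`
  have hup : ∀ s, ε s * wt S M Mv t s (x, lam, y) * exp ((S.j s : ℝ) * (lam0 - lam)) ≤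
      (if s = s0 then -1 else 1) * (cf M Mv s * exp (S.j s * lam0)) := by
    intro s
    have hc := cf_pos M Mv hM hMv s
    have he := exp_pos ((S.j s : ℝ) * lam0)
    have e1 : wt S M Mv t s (x, lam, y) * exp ((S.j s : ℝ) * (lam0 - lam)) =
        cf M Mv s * mul S t s x y * exp (S.j s * lam0) := by
      unfold wt
      rw [mul_assoc, ← exp_add]
      congr 2
      ring
    rw [mul_assoc, e1]
    by_cases hs : s = s0
    · rw [if_pos hs]
      have hX : s ∈ Xg a b := hs ▸ hs0X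
      rw [hmX s hX]
      simp only [ε, if_pos hX]
      linarith
    · rw [if_neg hs]
      have h3 : ε s * (cf M Mv s * mul S t s x y * exp (S.j s * lam0)) ≤
          1 * (cf M Mv s * mul S t s x y * exp (S.j s * lam0)) := by
        have h4 : 0 ≤ cf M Mv s * mul S t s x y * exp (S.j s * lam0) :=
          mul_nonneg (mul_nonneg hc.le (mul_nonneg' ht s x y)) he.le
        refine mul_le_mul_of_nonneg_right ?_ h4
        simp only [ε]
        split_ifs <;> norm_num
      refine h3.trans ?_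
      rw [one_mul, one_mul]
      have h5 : cf M Mv s * mul S t s x y ≤ cf M Mv s * 1 :=
        mul_le_mul_of_nonneg_left (hm1 s) hc.le
      rw [mul_one] at h5
      exact mul_le_mul_of_nonneg_right h5 he.le
  have h6 := key.trans (Finset.sum_le_sum fun s _ => hup s)
  rw [sum_fin] at h6
  have e0 : (0 : Fin (m + 2)) ≠ s0 := Ne.symm h00
  have e1 : Fin.last (m + 1) ≠ s0 := Ne.symm h01
  rw [if_neg e0, if_neg e1, cf_zero, cf_last, hS.j0, hS.j1] at h6
  have e2 : ∀ σ' : Fin m, ((if NS.ix σ' = s0 then -1 else 1 : ℝ)) *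
      (cf M Mv (NS.ix σ') * exp (S.j (NS.ix σ') * lam0)) =
      (if σ' = σ then -1 else 1) * (M σ' * exp (S.j (NS.ix σ') * lam0)) := by
    intro σ'
    rw [cf_ix]
    by_cases h : σ' = σ
    · rw [if_pos h, if_pos (by rw [h, hσ])]
    · rw [if_neg h, if_neg (fun h' => h (ix_inj (h'.trans hσ)))]
  simp only [e2] at h6
  rw [← Finset.add_sum_erase _ _ (Finset.mem_univ σ), if_pos rfl] at h6
  have e3 : ∑ x ∈ univ.erase σ, (if x = σ then -1 else 1 : ℝ) *
      (M x * exp (S.j (NS.ix x) * lam0)) =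
      ∑ x ∈ univ.erase σ, M x * exp (S.j (NS.ix x) * lam0) := by
    refine Finset.sum_congr rfl fun s hs => ?_
    rw [if_neg (Finset.ne_of_mem_erase hs), one_mul]
  rw [e3] at h6
  simp only [one_mul, neg_mul, Nat.cast_ofNat, Nat.cast_zero, zero_mul, exp_zero, mul_one] at h6
  linarith

end main

/-- **RegBProp.** -/
theorem regB : RegBProp := by
  intro m S hS M Mv hM hMv hN t ht z hK
  obtain ⟨x, lam, y⟩ := z
  refine surj_of _ fun A B hcov => ?_
  have hL := eqL hS hMv hcov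
  have hk1 := Int.floor_le x
  have hk2 := Int.lt_floor_add_one x
  have hl1 := Int.floor_le y
  have hl2 := Int.lt_floor_add_one y
  set k := ⌊x⌋ with hkdef
  set l := ⌊y⌋ with hldef
  have hC := cell_ok hS k l
  have hat := fun s => hat_cell hS hMv (by linarith : (k : ℝ) - 1 / 2 ≤ x) hk2.le
    (by linarith : (l : ℝ) - 1 / 2 ≤ y) hl2.le s
  set μ := mt S k (st (2 * (x - k))) with hμ
  set ν := st (2 * (y - l)) with hν
  have hc0 : cc S k l 0 = 1 := by
    have h1 := hC.hcb 0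
    have h2 := hC.b0
    have h3 := hC.hc 0
    omega
  have hc1 : cc S k l (Fin.last (m + 1)) = 1 := by
    have h1 := hC.hca (Fin.last (m + 1))
    have h2 := hC.a1
    have h3 := hC.hc (Fin.last (m + 1))
    omega
  -- the values of the inactive variables
  have hμi : (k : ℝ) = x ∨ k + 1 / 2 ≤ x → μ = 0 ∨ μ = 1 := by
    intro h
    have : st (2 * (x - k)) = 0 ∨ st (2 * (x - k)) = 1 := by
      rcases h with h | h
      · left; exact st_of_le (by linarith)
      · right; exact st_of_ge (by linarith)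
    rw [hμ]
    unfold mt
    rcases this with h | h <;> rw [h] <;> split_ifs <;> norm_num
  have hνi : (l : ℝ) = y ∨ l + 1 / 2 ≤ y → ν = 0 ∨ ν = 1 := by
    intro h
    rcases h with h | h
    · left; exact st_of_le (by linarith)
    · right; exact st_of_ge (by linarith)
  by_cases hx : (k : ℝ) < x ∧ x < k + 1 / 2
  · have hX := eqX hS hMv hx.1 hx.2 hl1 hl2.le hcov
    by_cases hy : (l : ℝ) < y ∧ y < l + 1 / 2
    · have hY := eqY hS hMv hk1 hk2.le hy.1 hy.2 hcov
      rw [← hν] at hX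
      rw [← hμ] at hY
      have K1 := K1_eq hS hK
      have K2 := K2_eq hS hK
      simp only [hat, cos_int, sin_int, Sc_int, Cc_int] at K1 K2 hX hY hL
      have hm0 : 0 < st (2 * (x - k)) := Calc_957.st_pos (by linarith [hx.1])
      have hm1 : st (2 * (x - k)) < 1 := Calc_957.st_lt_one (by linarith [hx.2])
      have hμ0 : 0 < μ := by
        rw [hμ]; unfold mt; split_ifs <;> linarith
      have hμ1 : μ < 1 := by
        rw [hμ]; unfold mt; split_ifs <;> linarith
      have hν0 : 0 < ν := Calc_957.st_pos (by linarith [hy.1])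
      have hν1 : ν < 1 := Calc_957.st_lt_one (by linarith [hy.2])
      refine core_cell hC (E := fun s => (S.j s : ℝ)) (w := fun s => wt S M Mv t s (x, lam, y))
        (fun s s' h => ?_) (fun s => wt_nonneg hM hMv ht s _) (wt_zero _) (wt_last hMv _)
        hμ0 hμ1 hν0 hν1 K1 K2 hX hY hL ?_
      · show (S.j s' : ℝ) < S.j s
        exact_mod_cast hS.hj h
      · exact no_flat hS hM hMv ht hN hx.1 hx.2 hy.1 hy.2
    · have hy' : (l : ℝ) = y ∨ l + 1 / 2 ≤ y := by
        rcases hl1.eq_or_lt with h | h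
        · exact Or.inl h
        · exact Or.inr (not_lt.1 fun h' => hy ⟨h, h'⟩)
      rw [← hν] at hX
      rcases hνi hy' with h | h
      · refine gap_case hS hM hMv ht (α := aa S k l) (n := fun s => S.N s (kb S k) l) (μ := μ)
          (fun s => ?_) hC.ha (Or.inl ⟨hC.ma, hC.a0, hC.a1⟩) hK ?_ hL
        · rw [hat, h]; unfold Hb; ring
        · rw [← hX]
          refine Finset.sum_congr rfl fun s _ => ?_
          rw [h]; ring
      · refine gap_case hS hM hMv ht (α := fun s => cc S k l s - bb S k l s)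
          (n := fun s => S.N s (kb S k) l + bb S k l s) (μ := μ)
          (fun s => ?_) hC.hcb (Or.inl ⟨hC.mcb, ?_, ?_⟩) hK ?_ hL
        · rw [hat, h]; unfold Hb; push_cast; ring
        · simp only [hc0, hC.b0]; norm_num
        · simp only [hc1, hC.b1]; norm_num
        · rw [← hX]
          refine Finset.sum_congr rfl fun s _ => ?_
          rw [h]; push_cast; ring
  · have hx' : (k : ℝ) = x ∨ k + 1 / 2 ≤ x := by
      rcases hk1.eq_or_lt with h | h
      · exact Or.inl h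
      · exact Or.inr (not_lt.1 fun h' => hx ⟨h, h'⟩)
    by_cases hy : (l : ℝ) < y ∧ y < l + 1 / 2
    · have hY := eqY hS hMv hk1 hk2.le hy.1 hy.2 hcov
      rw [← hμ] at hY
      rcases hμi hx' with h | h
      · refine gap_case hS hM hMv ht (α := bb S k l) (n := fun s => S.N s (kb S k) l) (μ := ν)
          (fun s => ?_) hC.hb (Or.inr ⟨hC.mb, hC.b0, hC.b1⟩) hK ?_ hL
        · rw [hat, h]; unfold Hb; ring
        · rw [← hY]
          refine Finset.sum_congr rfl fun s _ => ?_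
          rw [h]; ring
      · refine gap_case hS hM hMv ht (α := fun s => cc S k l s - aa S k l s)
          (n := fun s => S.N s (kb S k) l + aa S k l s) (μ := ν)
          (fun s => ?_) hC.hca (Or.inr ⟨hC.mca, ?_, ?_⟩) hK ?_ hL
        · rw [hat, h]; unfold Hb; push_cast; ring
        · simp only [hc0, hC.a0]; norm_num
        · simp only [hc1, hC.a1]; norm_num
        · rw [← hY]
          refine Finset.sum_congr rfl fun s _ => ?_
          rw [h]; push_cast; ring
    · exfalso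
      have hy' : (l : ℝ) = y ∨ l + 1 / 2 ≤ y := by
        rcases hl1.eq_or_lt with h | h
        · exact Or.inl h
        · exact Or.inr (not_lt.1 fun h' => hy ⟨h, h'⟩)
      have K1 := K1_eq hS hK
      have hone : ∀ s, cos (2 * π * S.hat s x y) = 1 := by
        intro s
        have : ∃ n : ℤ, S.hat s x y = n := by
          rcases hμi hx' with h | h <;> rcases hνi hy' with h' | h'
          · exact ⟨S.N s (kb S k) l, by rw [hat, h, h']; unfold Hb; ring⟩
          · exact ⟨S.N s (kb S k) l + bb S k l s, by rw [hat, h, h']; unfold Hb; push_cast; ring⟩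
          · exact ⟨S.N s (kb S k) l + aa S k l s, by rw [hat, h, h']; unfold Hb; push_cast; ring⟩
          · exact ⟨S.N s (kb S k) l + cc S k l s, by rw [hat, h, h']; unfold Hb; push_cast; ring⟩
        obtain ⟨n, hn⟩ := this
        have := cos_int 0 n
        rw [add_zero] at this
        rw [hn, this, mul_zero, cos_zero]
      simp only [hone, mul_one] at K1
      have h0 := wt_zero (S := S) (M := M) (Mv := Mv) (t := t) (x, lam, y)
      have h1 := Finset.single_le_sum (f := fun s => wt S M Mv t s (x, lam, y))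
        (fun s _ => wt_nonneg hM hMv ht s _) (Finset.mem_univ (0 : Fin (m + 2)))
      linarith

end Crest.Agent.R267.NSRegB_796

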