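import Crest.Agent.R267.StairPh_739

/-!
# Row 267 (helper222): rounding to integer positions (robust real patterns of the hub step)

At a bad point with almost real conormal `u` every own phase is close to a multiple of `π`, and the
smooth staircase phases are close to `π` times the integer tables of `StairPh_739`.
-/

set_option autoImplicit false

noncomputable section

open Crest.Agent.R267.Ang_739 Crest.Agent.R267.StairFn_739 Crest.Agent.R267.StairPh_739
open Crest.Agent.R267.LemL_951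

namespace Crest.Agent.R267.RndP_222

/-! ## phases near the integer tables -/

theorem mix_near {m n : ℕ} {d : ℝ} (hd : 0 < d) (hn : 0 < n) (hmn : m ≤ n)
    {A B : (Fin 3 → ℝ) → ℝ} {u : Fin 3 → ℝ} {a b : ℤ} {e : ℝ}
    (hA : |A u - Real.pi * a| ≤ e) (hB : |B u - Real.pi * b| ≤ e) :
    |mix (Hs hd m n) A B u - Real.pi * (a + hZ m n (b - a) : ℤ)| ≤ d + e := by
  have h := mix_lip (ι := Fin 3) (Gs_ml hn hmn) (Hs_dist hd hn hmn)
    (A := fun _ => A u) (B := fun _ => B u) (A' := fun _ => Real.pi * a) (B' := fun _ => Real.pi * b)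
    (e := e) (fun _ => hA) (fun _ => hB) u
  have h2 : mix (Gs m n) (fun _ : Fin 3 → ℝ => Real.pi * a) (fun _ => Real.pi * b) u
      = Real.pi * (a + hZ m n (b - a) : ℤ) := mix_pi hn rfl rfl
  rw [h2] at h
  exact h

variable {d : ℝ} (hd : 0 < d) {u : Fin 3 → ℝ} {P Q R : ℤ} {e : ℝ}

/-- the point `u` is close to the integer position `(P, Q, R)`. -/
structure Near (u : Fin 3 → ℝ) (P Q R : ℤ) (e : ℝ) : Prop where
  x : |u 0 - Real.pi * P| ≤ e
  y : |u 1 - Real.pi * Q| ≤ e
  z : |u 2 - Real.pi * R| ≤ e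

theorem near_gBe (h : Near u P Q R e) : |gBe (Hs hd) u - Real.pi * gBeZ P Q R| ≤ 2 * d + e := by
  have h1 : |gTy (Hs hd) u - Real.pi * gTyZ P Q| ≤ d + e :=
    mix_near hd (by norm_num) (by norm_num) h.y h.x
  have h2 : |gTz (Hs hd) u - Real.pi * gTyZ P R| ≤ d + e :=
    mix_near hd (by norm_num) (by norm_num) h.z h.x
  have := mix_near hd (m := 2) (n := 4) (by norm_num) (by norm_num) h1 h2
  exact this.trans (by linarith)

theorem near_gAl (h : Near u P Q R e) : |gAl (Hs hd) u - Real.pi * gAlZ P Q R| ≤ 3 * d + e := by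
  have h1 := near_gBe hd h
  have h2 : |co (0 : Fin 3) u - Real.pi * P| ≤ 2 * d + e := h.x.trans (by linarith)
  have := mix_near hd (m := 1) (n := 2) (by norm_num) (by norm_num) h1 h2
  exact this.trans (by linarith)

theorem near_cn {u : Fin 3 → ℝ} {e : ℝ} (he : 0 ≤ e) :
    |cn (Fin 3) (-1) u - Real.pi * ((-1 : ℤ) : ℝ)| ≤ e := by
  have : cn (Fin 3) (-1) u = Real.pi * ((-1 : ℤ) : ℝ) := by
    simp only [cn]; push_cast; ring
  rw [this, sub_self, abs_zero]
  exact he

theorem near_fQ (he : 0 ≤ e) (h : |u 1 - Real.pi * Q| ≤ e) :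
    |fQ (Hs hd) u - Real.pi * fQZ Q| ≤ d + e := by
  have := mix_near hd (m := 6) (n := 10) (by norm_num) (by norm_num) (near_cn (u := u) he)
    (B := co 1) h
  rw [sub_neg_eq_add] at this
  exact this

theorem near_fR (he : 0 ≤ e) (h : |u 2 - Real.pi * R| ≤ e) :
    |fR (Hs hd) u - Real.pi * fQZ R| ≤ d + e := by
  have := mix_near hd (m := 6) (n := 10) (by norm_num) (by norm_num) (near_cn (u := u) he)
    (B := co 2) h
  rw [sub_neg_eq_add] at this
  exact this

theorem near_fGa (he : 0 ≤ e) (h : Near u P Q R e) :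
    |fGa (Hs hd) u - Real.pi * fGaZ Q R| ≤ 2 * d + e := by
  have := mix_near hd (m := 3) (n := 6) (by norm_num) (by norm_num) (near_fQ hd he h.y)
    (near_fR hd he h.z)
  exact this.trans (by linarith)

theorem near_fAl (he : 0 ≤ e) (h : Near u P Q R e) :
    |fAl (Hs hd) u - Real.pi * fAlZ P Q R| ≤ 3 * d + e := by
  have h1 := near_fGa hd he h
  have h2 : |co (0 : Fin 3) u - Real.pi * P| ≤ 2 * d + e := h.x.trans (by linarith)
  have := mix_near hd (m := 2) (n := 3) (by norm_num) (by norm_num) h1 h2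
  exact this.trans (by linarith)

theorem near_fBe (hy : |u 1 - Real.pi * Q| ≤ e) (hz : |u 2 - Real.pi * R| ≤ e) :
    |fBe (Hs hd) u - Real.pi * fBeZ Q R| ≤ d + e :=
  mix_near hd (m := 5) (n := 10) (by norm_num) (by norm_num) hy hz

/-! ## rounding -/

/-- the sign of `cos (π n)`. -/
def eps (n : ℤ) : ℝ := if n % 2 = 0 then 1 else -1

theorem eps_pm (n : ℤ) : eps n = 1 ∨ eps n = -1 := by
  unfold eps; split_ifs <;> simp


theorem eps_even {n : ℤ} (h : n % 2 = 0) : eps n = 1 := if_pos h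

theorem eps_odd {n : ℤ} (h : n % 2 = 1) : eps n = -1 := if_neg (by omega)

theorem cis_pi_mul (n : ℤ) : cis (Real.pi * n) = (eps n : ℂ) := by
  have h1 := Int.emod_add_mul_ediv n 2
  rcases Int.emod_two_eq_zero_or_one n with h | h
  · rw [eps_even h]
    rw [h] at h1
    have : Real.pi * n = 0 + 2 * Real.pi * (n / 2 : ℤ) := by
      have : (n : ℝ) = 2 * (n / 2 : ℤ) := by exact_mod_cast (by omega : n = 2 * (n / 2))
      rw [this]; ring
    rw [this, cis_per, cis_zero]
    norm_num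
  · rw [eps_odd h]
    rw [h] at h1
    have : Real.pi * n = Real.pi + 2 * Real.pi * (n / 2 : ℤ) := by
      have : (n : ℝ) = 1 + 2 * (n / 2 : ℤ) := by exact_mod_cast (by omega : n = 1 + 2 * (n / 2))
      rw [this]; ring
    rw [this, cis_per, cis_pi]
    norm_num

theorem cis_re (x : ℝ) : (cis x).re = Real.cos x := by
  rw [cis, Complex.exp_ofReal_mul_I_re]

theorem cis_im (x : ℝ) : (cis x).im = Real.sin x := by
  rw [cis, Complex.exp_ofReal_mul_I_im]

theorem re_bd {v : ℂ} (hv : ‖v‖ = 1) (h0 : 0 ≤ v.re) {t : ℝ} (ht : |v.im| ≤ t) :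
    1 - t ≤ v.re ∧ v.re ≤ 1 := by
  have h1 := sq_of_norm hv
  have h2 : v.im ^ 2 ≤ t ^ 2 := by
    rw [← sq_abs v.im]
    exact pow_le_pow_left₀ (abs_nonneg _) ht 2
  have h3 : 0 ≤ t := (abs_nonneg _).trans ht
  constructor
  · by_contra hcon
    push Not at hcon
    nlinarith [mul_pos (by linarith : 0 < 1 - t - v.re) (by linarith : 0 < 1 - t)]
  · nlinarith [sq_nonneg v.im]

/-- **rounding**: own phases are close to multiples of `π`. -/
theorem rnd {ζ : ℂ} (hζ : ‖ζ‖ = 1) {t : ℝ} (him : |ζ.im| ≤ t) {p : ℝ}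
    (hp : |jf ζ (cis p)| ≤ t) : ∃ n : ℤ, |p - Real.pi * n| ≤ 4 * t := by
  have hpi := Real.pi_pos
  -- `|sin p| ≤ 2 t`
  have hs : |Real.sin p| ≤ 2 * t := by
    have h1 := im_eq hζ (cis p)
    rw [cis_im] at h1
    have h2 : |rf ζ (cis p)| ≤ 1 := by
      have := Stair_739.abs_rf_le hζ (cis p)
      rwa [norm_cis] at this
    have h3 : |ζ.re| ≤ 1 := by
      have := Complex.abs_re_le_norm ζ
      rwa [hζ] at this
    have e1 : |ζ.re * jf ζ (cis p)| ≤ t := by
      rw [abs_mul]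
      have := mul_le_mul h3 hp (abs_nonneg _) zero_le_one
      linarith
    have e2 : |ζ.im * rf ζ (cis p)| ≤ t := by
      rw [abs_mul]
      have := mul_le_mul him h2 (abs_nonneg _) ((abs_nonneg _).trans him)
      linarith
    rw [h1]
    refine (abs_add_le _ _).trans ?_
    have e3 : |rf ζ (cis p) * ζ.im| ≤ t := by rwa [mul_comm]
    have e4 : |jf ζ (cis p) * ζ.re| ≤ t := by rwa [mul_comm]
    linarith
  refine ⟨round (p / Real.pi), ?_⟩
  set n := round (p / Real.pi) with hn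
  have h1 : |p / Real.pi - n| ≤ 1 / 2 := abs_sub_round _
  set q := p - Real.pi * n with hq
  have h2 : |q| ≤ Real.pi / 2 := by
    have : q = Real.pi * (p / Real.pi - n) := by rw [hq]; field_simp
    rw [this, abs_mul, abs_of_pos hpi]
    nlinarith
  have h3 : |Real.sin q| = |Real.sin p| := by
    have hcis : cis q * cis (Real.pi * n) = cis p := by
      rw [← cis_add]; congr 1; rw [hq]; ring
    rw [cis_pi_mul] at hcis
    have := congrArg Complex.im hcis
    rw [cis_im, Complex.mul_im, Complex.ofReal_re, Complex.ofReal_im, cis_im] at this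
    rw [← this]
    rcases eps_pm n with h | h <;> rw [h] <;> simp
  have h4 : 2 / Real.pi * |q| ≤ |Real.sin q| := by
    rcases le_total 0 q with h0 | h0
    · have hq' : q ≤ Real.pi / 2 := (le_abs_self q).trans h2
      have := Real.mul_le_sin h0 hq'
      rw [abs_of_nonneg h0]
      exact this.trans (le_abs_self _)
    · have hq' : -q ≤ Real.pi / 2 := (neg_le_abs q).trans h2
      have := Real.mul_le_sin (by linarith : 0 ≤ -q) hq'
      rw [abs_of_nonpos h0]
      rw [Real.sin_neg] at this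
      exact this.trans (neg_le_abs _)
  have h5 : 2 / Real.pi * |q| ≤ 2 * t := by rw [h3] at h4; linarith
  have h6 : |q| ≤ Real.pi * t := by
    have := mul_le_mul_of_nonneg_left h5 (by positivity : 0 ≤ Real.pi / 2)
    have e : Real.pi / 2 * (2 / Real.pi * |q|) = |q| := by field_simp
    rw [e] at this
    linarith
  have h7 : Real.pi ≤ 4 := Real.pi_le_four
  have h8 : 0 ≤ t := (abs_nonneg _).trans him
  nlinarith

/-- the sign of a term whose phase is close to `π n`. -/
theorem rf_near {ζ : ℂ} (hζ : ‖ζ‖ = 1) (h0 : 0 ≤ ζ.re) {t : ℝ} (him : |ζ.im| ≤ t) {p e : ℝ}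
    {n : ℤ} (hp : |p - Real.pi * n| ≤ e) :
    1 - (t + e) ≤ eps n * rf ζ (cis p) ∧ eps n * rf ζ (cis p) ≤ 1 := by
  have h1 := (re_bd hζ h0 him).1
  have h2 : rf ζ (cis (Real.pi * n)) = eps n * ζ.re := by
    rw [cis_pi_mul, rf_ofReal]; ring
  have h3 : |rf ζ (cis p) - rf ζ (cis (Real.pi * n))| ≤ e := by
    refine Stair_739.rf_close hζ ((cis_lip _ _).trans hp)
  have h4 : |rf ζ (cis p)| ≤ 1 := by
    have := Stair_739.abs_rf_le hζ (cis p)
    rwa [norm_cis] at this
  rw [h2, abs_le] at h3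
  rw [abs_le] at h4
  rcases eps_pm n with h | h <;> rw [h] at h3 ⊢ <;> constructor <;> linarith [h3.1, h3.2, h4.1, h4.2]


/-- a unit vector `κ` almost parallel to the conormal has a sign. -/
theorem rf_abs {ζ κ : ℂ} (hζ : ‖ζ‖ = 1) (hκ : ‖κ‖ = 1) {t : ℝ} (h : |jf ζ κ| ≤ t) :
    1 - t ≤ |rf ζ κ| ∧ |rf ζ κ| ≤ 1 := by
  have h1 : rf ζ κ ^ 2 + jf ζ κ ^ 2 = 1 := by
    have h2 := sq_of_norm hζ
    have h3 := sq_of_norm hκ
    simp only [rf, jf]
    nlinarith
  have h2 : jf ζ κ ^ 2 ≤ t ^ 2 := by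
    rw [← sq_abs (jf ζ κ)]
    exact pow_le_pow_left₀ (abs_nonneg _) h 2
  have h3 : 0 ≤ t := (abs_nonneg _).trans h
  have h4 := abs_nonneg (rf ζ κ)
  rw [← sq_abs (rf ζ κ)] at h1
  constructor
  · by_contra hcon
    push Not at hcon
    nlinarith [mul_pos (by linarith : 0 < 1 - t - |rf ζ κ|) (by linarith : 0 < 1 - t)]
  · nlinarith [sq_nonneg (jf ζ κ)]

/-- signs of two almost equal unit vectors agree. -/
theorem sgn_close {ζ κ τ : ℂ} (hζ : ‖ζ‖ = 1) {t : ℝ} (h : ‖τ - κ‖ ≤ t)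
    (hκ : 2 * t < |rf ζ κ|) : (0 < rf ζ κ ↔ 0 < rf ζ τ) ∧ t < |rf ζ τ| := by
  have h1 := Stair_739.rf_close hζ h
  have h3 : 0 ≤ t := (norm_nonneg _).trans h
  rw [abs_le] at h1
  rcases le_total 0 (rf ζ κ) with h2 | h2
  · rw [abs_of_nonneg h2] at hκ
    have : 0 < rf ζ τ := by linarith [h1.1]
    refine ⟨⟨fun _ => this, fun _ => by linarith⟩, ?_⟩
    rw [abs_of_pos this]; linarith [h1.1]
  · rw [abs_of_nonpos h2] at hκ
    have : rf ζ τ < 0 := by linarith [h1.2]
    refine ⟨⟨fun h => by linarith, fun h => by linarith⟩, ?_⟩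
    rw [abs_of_neg this]; linarith [h1.2]

end Crest.Agent.R267.RndP_222
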