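import Mathlib

/-!
# Row 267, T3N hub step (helper568): integer tables of the staircase phases of `f`

Phases in half turns: even = gap (own sign `-`, or a lobe of the arm word, where the phase used by
the couplings is constant), odd = positive ray.  `st k m` is the corner staircase of period `2k`,
slope `1` on the first `m` of `k` strips.

* `aF P Q R`, `bF Q R` : the two coupling phases of `f`;
* a state of the variable `i` is a number `s ≤ per i`: `s < per i` is the position in the hub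
  (sign `+` iff odd), `s = per i` is a lobe of the arm word (position `0`, sign `+`);
* `box c i` : the window of the box `c` in the variable `i`; `full` : the window is `1`,
  `poss` : the window may be non zero.
* `tab` : the four facts `Pm, Pp, Qm, Qp` needed by `PatF_568.patF`, for all states.
-/

set_option autoImplicit false

namespace Crest.Agent.R267.StTab_568

/-- corner staircase in half turns. -/
def st (k m t : ℤ) : ℤ := 2 * m * (t / (2 * k)) + min (t % (2 * k)) (2 * m)

/-- the lobes `6, …, 9` of `y` and `z` removed. -/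
def bar (t : ℤ) : ℤ := st 10 6 t

def bp (Q R : ℤ) : ℤ := bar Q + st 6 3 (bar R - bar Q)

/-- phase of `x² y z`. -/
def aF (P Q R : ℤ) : ℤ := bp Q R + st 3 2 (P - bp Q R)

/-- phase of `(y z)⁵`. -/
def bF (Q R : ℤ) : ℤ := Q + st 10 5 (R - Q)

theorem st_add (k m t : ℤ) (hk : k ≠ 0) : st k m (t + 2 * k) = st k m t + 2 * m := by
  unfold st
  have h2 : (2 * k : ℤ) ≠ 0 := mul_ne_zero two_ne_zero hk
  rw [Int.add_ediv_of_dvd_right (dvd_refl _), Int.ediv_self h2, Int.add_emod_right]
  ring

theorem st_sub (k m t : ℤ) (hk : k ≠ 0) : st k m (t - 2 * k) = st k m t - 2 * m := by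
  have := st_add k m (t - 2 * k) hk
  rw [sub_add_cancel] at this
  linarith

theorem bar_add (t : ℤ) : bar (t + 20) = bar t + 12 := by
  simpa [bar] using st_add 10 6 t (by norm_num)

theorem aF_x (P Q R : ℤ) : aF (P + 6) Q R = aF P Q R + 4 := by
  unfold aF
  rw [show P + 6 - bp Q R = (P - bp Q R) + 2 * 3 by ring, st_add 3 2 _ (by norm_num)]
  ring

theorem bp_y (Q R : ℤ) : bp (Q + 20) R = bp Q R + 6 := by
  unfold bp
  rw [bar_add, show bar R - (bar Q + 12) = (bar R - bar Q) - 2 * 6 by ring,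
    st_sub 6 3 _ (by norm_num)]
  ring

theorem bp_z (Q R : ℤ) : bp Q (R + 20) = bp Q R + 6 := by
  unfold bp
  rw [bar_add, show bar R + 12 - bar Q = (bar R - bar Q) + 2 * 6 by ring,
    st_add 6 3 _ (by norm_num)]
  ring

theorem aF_y (P Q R : ℤ) : aF P (Q + 20) R = aF P Q R + 2 := by
  unfold aF
  rw [bp_y, show P - (bp Q R + 6) = (P - bp Q R) - 2 * 3 by ring, st_sub 3 2 _ (by norm_num)]
  ring

theorem aF_z (P Q R : ℤ) : aF P Q (R + 20) = aF P Q R + 2 := by
  unfold aF
  rw [bp_z, show P - (bp Q R + 6) = (P - bp Q R) - 2 * 3 by ring, st_sub 3 2 _ (by norm_num)]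
  ring

theorem bF_y (Q R : ℤ) : bF (Q + 20) R = bF Q R + 10 := by
  unfold bF
  rw [show R - (Q + 20) = (R - Q) - 2 * 10 by ring, st_sub 10 5 _ (by norm_num)]
  ring

theorem bF_z (Q R : ℤ) : bF Q (R + 20) = bF Q R + 10 := by
  unfold bF
  rw [show R + 20 - Q = (R - Q) + 2 * 10 by ring, st_add 10 5 _ (by norm_num)]
  ring

/-! ### boxes -/

/-- window in one variable. -/
inductive Win
  /-- the variable is not in the support. -/
  | no
  /-- the lobes of the arm word. -/
  | arm
  /-- the hub lobes `lo ≤ l < hi`. -/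
  | hub (lo hi : ℕ)
  deriving DecidableEq

/-- number of half turns of the hub. -/
def per : Fin 3 → ℕ := ![6, 20, 20]

/-- position in the hub of a state. -/
def pos (i : Fin 3) (s : ℕ) : ℕ := if s = per i then 0 else s

/-- the own sign of a state is `+`. -/
def plus (i : Fin 3) (s : ℕ) : Bool := s == per i || s % 2 == 1

/-- hub ray. -/
def ray (i : Fin 3) (s : ℕ) : Bool := s != per i && s % 2 == 1

/-- the window is `1` (and the variable is on a ray), or there is no window. -/
def Win.full (i : Fin 3) (s : ℕ) : Win → Bool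
  | .no => true
  | .arm => s == per i
  | .hub lo hi => ray i s && decide (2 * lo ≤ s) && decide (s < 2 * hi)

/-- the window may be different from `0`. -/
def Win.poss (i : Fin 3) (s : ℕ) : Win → Bool
  | .no => true
  | .arm => s == per i || s == 0
  | .hub lo hi => (s != per i && decide (2 * lo ≤ s) && decide (s ≤ 2 * hi)) ||
      (s == 0 && 2 * hi == per i)

/-- the boxes of `f` inside `x, y, z`. -/
def boxF : Fin 13 → Fin 3 → Win :=
  ![![.arm, .hub 1 3, .no], ![.arm, .hub 4 10, .no], ![.arm, .no, .hub 1 3],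
    ![.arm, .no, .hub 4 10], ![.hub 2 3, .hub 3 10, .hub 6 10], ![.hub 2 3, .hub 6 10, .hub 3 10],
    ![.no, .arm, .hub 5 10], ![.no, .hub 5 10, .arm], ![.hub 2 3, .arm, .hub 3 5],
    ![.hub 2 3, .hub 3 5, .arm], ![.arm, .arm, .no], ![.arm, .no, .arm], ![.no, .arm, .arm]]

/-- box fully on. -/
def full (c : Fin 13) (s : Fin 3 → ℕ) : Bool := decide (∀ i, (boxF c i).full i (s i) = true)

/-- box possibly on. -/
def poss (c : Fin 13) (s : Fin 3 → ℕ) : Bool := decide (∀ i, (boxF c i).poss i (s i) = true)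

/-- sign of the coupling `x² y z` is `+`. -/
def sa (s : Fin 3 → ℕ) : Bool := aF (pos 0 (s 0)) (pos 1 (s 1)) (pos 2 (s 2)) % 2 == 1

/-- sign of the coupling `(y z)⁵` is `+`. -/
def sb (s : Fin 3 → ℕ) : Bool := bF (pos 1 (s 1)) (pos 2 (s 2)) % 2 == 1

/-- the four facts. -/
def Ok (s : Fin 3 → ℕ) : Prop :=
  (sa s = false → (∀ i, plus i (s i) = true) → ∃ c, full c s = true) ∧
  (sa s = true → ∃ i, ray i (s i) = true ∧ ∀ c, boxF c i ≠ .no → poss c s = false) ∧
  (sb s = false → plus 1 (s 1) = true → plus 2 (s 2) = true →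
    ∃ c, boxF c 0 = .no ∧ full c s = true) ∧
  (sb s = true → ∃ i, i ≠ 0 ∧ ray i (s i) = true ∧
    ∀ c, boxF c i ≠ .no → poss c s = false ∨ boxF c 0 ≠ .no)

instance (s : Fin 3 → ℕ) : Decidable (Ok s) := by unfold Ok; infer_instance

theorem tabRow0 : ∀ y z : Fin 21, Ok ![(0 : ℕ), y, z] := by decide +kernel

theorem tabRow1 : ∀ y z : Fin 21, Ok ![(1 : ℕ), y, z] := by decide +kernel

theorem tabRow2 : ∀ y z : Fin 21, Ok ![(2 : ℕ), y, z] := by decide +kernel

theorem tabRow3 : ∀ y z : Fin 21, Ok ![(3 : ℕ), y, z] := by decide +kernel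

theorem tabRow4 : ∀ y z : Fin 21, Ok ![(4 : ℕ), y, z] := by decide +kernel

theorem tabRow5 : ∀ y z : Fin 21, Ok ![(5 : ℕ), y, z] := by decide +kernel

theorem tabRow6 : ∀ y z : Fin 21, Ok ![(6 : ℕ), y, z] := by decide +kernel

theorem tab : ∀ x : Fin 7, ∀ y z : Fin 21, Ok ![(x : ℕ), y, z]
  | ⟨0, _⟩ => tabRow0
  | ⟨1, _⟩ => tabRow1
  | ⟨2, _⟩ => tabRow2
  | ⟨3, _⟩ => tabRow3
  | ⟨4, _⟩ => tabRow4
  | ⟨5, _⟩ => tabRow5
  | ⟨6, _⟩ => tabRow6

end Crest.Agent.R267.StTab_568
private theorem rz_db776dbf9b : type_of% @_root_.Crest.Agent.R267.StTab_568.Win.full.eq_1 := @_root_.Crest.Agent.R267.StTab_568.Win.full.eq_1 -- L112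
private theorem rz_8b86fbed6f : type_of% @_root_.Crest.Agent.R267.StTab_568.Win.poss.eq_1 := @_root_.Crest.Agent.R267.StTab_568.Win.poss.eq_1 -- L118
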