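import Crest.Agent.R267.StairPh_739
import Crest.Agent.R267.StTab_568

/-!
# Row 267, T3N hub step (helper222): integer tables of the staircase phases of `g`

Letters of `StTab_568`: a state of a hub variable is a number `s ≤ 10`; `s < 10` is a position in the
hub (odd = positive ray of the lobe `s / 2`, even = gap, `0` = gap of the word sector), `s = 10` is a
lobe of the word sector with own sign `+` (position `0`).  The phase seen by the couplings is
`π (s - 1)` (`- π` if `s = 10`), modulo `10 π`.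

`tab` : the facts needed by `PatGR_222.patG`, for all states.
-/

set_option autoImplicit false

namespace Crest.Agent.R267.StTabG_222

open Crest.Agent.R267.StairPh_739
open Crest.Agent.R267.StTab_568 (Win)

/-- position in the hub of a state, in half turns (even = centre of a lobe). -/
def pos (s : ℕ) : ℤ := if s = 10 then -1 else (s : ℤ) - 1

/-- the own sign of a state is `+`. -/
def plus (s : ℕ) : Bool := s == 10 || s % 2 == 1

/-- hub ray. -/
def ray (s : ℕ) : Bool := s != 10 && s % 2 == 1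

/-- the window is `1` (and the variable is on a ray), or there is no window. -/
def full (s : ℕ) : Win → Bool
  | .no => true
  | .arm => s == 10
  | .hub lo hi => ray s && decide (2 * lo ≤ s) && decide (s < 2 * hi)

/-- the window may be different from `0`. -/
def poss (s : ℕ) : Win → Bool
  | .no => true
  | .arm => s == 10 || s == 0
  | .hub lo hi => (s != 10 && decide (2 * lo ≤ s) && decide (s ≤ 2 * hi)) ||
      (s == 0 && 2 * hi == 10)

/-- the boxes of `g` inside `x, y, z`. -/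
def boxG : Fin 11 → Fin 3 → Win :=
  ![![.arm, .hub 1 2, .no], ![.arm, .hub 3 5, .no], ![.arm, .arm, .no],
    ![.arm, .no, .hub 1 2], ![.arm, .no, .hub 3 5], ![.arm, .no, .arm],
    ![.no, .arm, .hub 3 5], ![.no, .hub 3 5, .arm], ![.no, .arm, .arm],
    ![.hub 3 5, .arm, .hub 2 3], ![.hub 3 5, .hub 2 3, .arm]]

/-- box fully on. -/
def fullB (c : Fin 11) (s : Fin 3 → ℕ) : Bool :=
  full (s 0) (boxG c 0) && full (s 1) (boxG c 1) && full (s 2) (boxG c 2)

/-- box possibly on. -/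
def possB (c : Fin 11) (s : Fin 3 → ℕ) : Bool :=
  poss (s 0) (boxG c 0) && poss (s 1) (boxG c 1) && poss (s 2) (boxG c 2)

/-- sign of the coupling `x³ y z` is `+`. -/
def sa (s : Fin 3 → ℕ) : Bool := gAlZ (pos (s 0)) (pos (s 1)) (pos (s 2)) % 2 == 0

/-- sign of the coupling `x y² z²` is `+`. -/
def sb (s : Fin 3 → ℕ) : Bool := gBeZ (pos (s 0)) (pos (s 1)) (pos (s 2)) % 2 == 0

/-- table, signs `(-, -)`. -/
def OkMM (s : Fin 3 → ℕ) : Prop :=
  sa s = false → sb s = false → (∀ i, plus (s i) = true) → ∃ c, fullB c s = true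

/-- table, signs `(+, +)`. -/
def OkPP (s : Fin 3 → ℕ) : Prop :=
  sa s = true → sb s = true → ∃ i, ray (s i) = true ∧ ∀ c, boxG c i ≠ .no → possB c s = false

/-- table, signs `(+, -)`. -/
def OkPM (s : Fin 3 → ℕ) : Prop :=
  sa s = true → sb s = false → ray (s 0) = true ∧
    (∀ c, boxG c 0 ≠ .no → possB c s = false ∨ (boxG c 1 ≠ .no ∧ boxG c 2 ≠ .no)) ∧
    (plus (s 1) = true → plus (s 2) = true → ∃ c, fullB c s = true)

/-- table, signs `(-, +)`, own sign of `x` `-`. -/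
def OkMPm (s : Fin 3 → ℕ) : Prop :=
  sa s = false → sb s = true → plus (s 0) = false → ∃ i, i ≠ 0 ∧ ray (s i) = true ∧
    ∀ c, boxG c i ≠ .no → possB c s = false ∨ boxG c 0 ≠ .no

/-- table, signs `(-, +)`, own sign of `x` `+`. -/
def OkMPp (s : Fin 3 → ℕ) : Prop :=
  sa s = false → sb s = true → plus (s 0) = true → s 0 = 10 ∧ ∃ i, i ≠ 0 ∧
    ray (s i) = true ∧ ∃ c, fullB c s = true ∧ boxG c 0 ≠ .no ∧ boxG c i ≠ .no ∧
      (∀ j, j ≠ 0 → j ≠ i → boxG c j = .no) ∧
      ∀ c', boxG c' i ≠ .no → c' = c ∨ possB c' s = false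

instance (s : Fin 3 → ℕ) : Decidable (OkMM s) := by unfold OkMM; infer_instance
instance (s : Fin 3 → ℕ) : Decidable (OkPP s) := by unfold OkPP; infer_instance
instance (s : Fin 3 → ℕ) : Decidable (OkPM s) := by unfold OkPM; infer_instance
instance (s : Fin 3 → ℕ) : Decidable (OkMPm s) := by unfold OkMPm; infer_instance
instance (s : Fin 3 → ℕ) : Decidable (OkMPp s) := by unfold OkMPp; infer_instance

/-- the facts. -/
def Ok (s : Fin 3 → ℕ) : Prop := OkMM s ∧ OkPP s ∧ OkPM s ∧ OkMPm s ∧ OkMPp s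

instance (s : Fin 3 → ℕ) : Decidable (Ok s) := by unfold Ok; infer_instance

theorem tab_fin : ∀ x y z : Fin 11, Ok ![(x : ℕ), y, z] := by decide +kernel

theorem tab (s : Fin 3 → ℕ) (hs : ∀ i, s i ≤ 10) : Ok s := by
  have h := tab_fin ⟨s 0, by have := hs 0; omega⟩ ⟨s 1, by have := hs 1; omega⟩
    ⟨s 2, by have := hs 2; omega⟩
  have e : (![((⟨s 0, by have := hs 0; omega⟩ : Fin 11) : ℕ),
      ((⟨s 1, by have := hs 1; omega⟩ : Fin 11) : ℕ),
      ((⟨s 2, by have := hs 2; omega⟩ : Fin 11) : ℕ)] : Fin 3 → ℕ) = s := by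
    funext i
    fin_cases i <;> rfl
  rwa [e] at h

/-! ### periodicity -/

theorem hZ15_add (t k : ℤ) : hZ 1 5 (t + 10 * k) = hZ 1 5 t + 2 * k := by
  unfold hZ; push_cast; omega

theorem hZ24_add (t k : ℤ) : hZ 2 4 (t + 8 * k) = hZ 2 4 t + 4 * k := by
  unfold hZ; push_cast; omega

theorem hZ12_add (t k : ℤ) : hZ 1 2 (t + 4 * k) = hZ 1 2 t + 2 * k := by
  unfold hZ; push_cast; omega

theorem gTyZ_add (P Q k l : ℤ) : gTyZ (P + 10 * k) (Q + 10 * l) = gTyZ P Q + 2 * k + 8 * l := by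
  unfold gTyZ
  rw [show P + 10 * k - (Q + 10 * l) = (P - Q) + 10 * (k - l) by ring, hZ15_add]; ring

theorem gBeZ_add (P Q R k l m : ℤ) :
    gBeZ (P + 10 * k) (Q + 10 * l) (R + 10 * m) = gBeZ P Q R + 2 * k + 4 * l + 4 * m := by
  unfold gBeZ
  rw [gTyZ_add, gTyZ_add, show gTyZ P R + 2 * k + 8 * m - (gTyZ P Q + 2 * k + 8 * l)
    = (gTyZ P R - gTyZ P Q) + 8 * (m - l) by ring, hZ24_add]; ring

theorem gAlZ_add (P Q R k l m : ℤ) :
    gAlZ (P + 10 * k) (Q + 10 * l) (R + 10 * m) = gAlZ P Q R + 6 * k + 2 * l + 2 * m := by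
  unfold gAlZ
  rw [gBeZ_add, show P + 10 * k - (gBeZ P Q R + 2 * k + 4 * l + 4 * m)
    = (P - gBeZ P Q R) + 4 * (2 * k - l - m) by ring, hZ12_add]; ring

theorem sa_eq {s : Fin 3 → ℕ} {n : Fin 3 → ℤ} (h : ∀ i, ∃ k : ℤ, n i = pos (s i) + 10 * k) :
    sa s = true ↔ gAlZ (n 0) (n 1) (n 2) % 2 = 0 := by
  obtain ⟨k, hk⟩ := h 0
  obtain ⟨l, hl⟩ := h 1
  obtain ⟨m, hm⟩ := h 2
  rw [hk, hl, hm, gAlZ_add]
  unfold sa
  rw [beq_iff_eq]
  omega

theorem sb_eq {s : Fin 3 → ℕ} {n : Fin 3 → ℤ} (h : ∀ i, ∃ k : ℤ, n i = pos (s i) + 10 * k) :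
    sb s = true ↔ gBeZ (n 0) (n 1) (n 2) % 2 = 0 := by
  obtain ⟨k, hk⟩ := h 0
  obtain ⟨l, hl⟩ := h 1
  obtain ⟨m, hm⟩ := h 2
  rw [hk, hl, hm, gBeZ_add]
  unfold sb
  rw [beq_iff_eq]
  omega

end Crest.Agent.R267.StTabG_222
private theorem rz_7b9a097638 : type_of% @_root_.Crest.Agent.R267.StTabG_222.full.eq_1 := @_root_.Crest.Agent.R267.StTabG_222.full.eq_1 -- L32
private theorem rz_dd4dd02baa : type_of% @_root_.Crest.Agent.R267.StTabG_222.poss.eq_1 := @_root_.Crest.Agent.R267.StTabG_222.poss.eq_1 -- L38
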