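import Crest.Agent.R267.StTab_568
import Crest.Agent.R267.SFLDc_330
import Crest.Agent.R267.StairPh_739
import Crest.Agent.R267.RndP_222

/-!
# Row 267, C7-f (helper440): from states and windows to the hypotheses of `PatFR_440.patFR`

* `eps_al`, `eps_be`: signs of 739's integer phases `fAlZ`, `fBeZ` = 568's tables `sa`, `sb`.
* `VS i s W`: the variable `i` is in the state `s`, `W lo hi` = value of its windows (numbering of
  `SFLDc_330.DfL`: `W lo hi` is `1` on the arcs `lo < i ≤ hi`).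
* `laF nz W e` = window of the box `e` of `DfL`; `Hyp` : the situation at a real point;
  `Hyp.la01`, `Hyp.Pm`, `Hyp.Pp`, `Hyp.Qm`, `Hyp.Qp`.
-/

set_option autoImplicit false

noncomputable section

namespace Crest.Agent.R267.TabF_440

open Finset
open Crest.Agent.R267.StTab_568 Crest.Agent.R267.StairPh_739
open Crest.Agent.R267.SFLDc_330 Crest.Agent.R267.SFLDb_330 Crest.Agent.R267.T3aNDefs_88
open Crest.Agent.R267.RndP_222 (eps eps_even eps_odd)

/-! ### the signs of the couplings -/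

theorem hZ_st (m n : ℕ) (k : ℤ) : hZ m n k = st n m k := rfl

theorem fQZ_eq (Q : ℤ) : fQZ (Q - 1) = bar Q - 1 := by
  unfold fQZ bar
  rw [hZ_st, sub_add_cancel]
  push_cast
  ring

theorem fGaZ_eq (Q R : ℤ) : fGaZ (Q - 1) (R - 1) = bp Q R - 1 := by
  unfold fGaZ bp
  rw [fQZ_eq, fQZ_eq, hZ_st]
  push_cast
  rw [show bar R - 1 - (bar Q - 1) = bar R - bar Q by ring]
  ring

theorem fAlZ_eq (P Q R : ℤ) : fAlZ (P - 1) (Q - 1) (R - 1) = aF P Q R - 1 := by
  unfold fAlZ aF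
  rw [fGaZ_eq, hZ_st]
  push_cast
  rw [show P - 1 - (bp Q R - 1) = P - bp Q R by ring]
  ring

theorem fBeZ_eq (Q R : ℤ) : fBeZ (Q - 1) (R - 1) = bF Q R - 1 := by
  unfold fBeZ bF
  rw [hZ_st]
  push_cast
  rw [show R - 1 - (Q - 1) = R - Q by ring]
  ring

theorem aF_xk (P Q R k : ℤ) : aF (P + 6 * k) Q R = aF P Q R + 4 * k := by
  induction k using Int.induction_on with
  | zero => simp
  | succ i ih => rw [show P + 6 * ((i : ℤ) + 1) = P + 6 * i + 6 by ring, aF_x, ih]; ring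
  | pred i ih =>
    have := aF_x (P + 6 * (-(i : ℤ) - 1)) Q R
    rw [show P + 6 * (-(i : ℤ) - 1) + 6 = P + 6 * -(i : ℤ) by ring, ih] at this
    linarith

theorem aF_yk (P Q R k : ℤ) : aF P (Q + 20 * k) R = aF P Q R + 2 * k := by
  induction k using Int.induction_on with
  | zero => simp
  | succ i ih => rw [show Q + 20 * ((i : ℤ) + 1) = Q + 20 * i + 20 by ring, aF_y, ih]; ring
  | pred i ih =>
    have := aF_y P (Q + 20 * (-(i : ℤ) - 1)) R
    rw [show Q + 20 * (-(i : ℤ) - 1) + 20 = Q + 20 * -(i : ℤ) by ring, ih] at this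
    linarith

theorem aF_zk (P Q R k : ℤ) : aF P Q (R + 20 * k) = aF P Q R + 2 * k := by
  induction k using Int.induction_on with
  | zero => simp
  | succ i ih => rw [show R + 20 * ((i : ℤ) + 1) = R + 20 * i + 20 by ring, aF_z, ih]; ring
  | pred i ih =>
    have := aF_z P Q (R + 20 * (-(i : ℤ) - 1))
    rw [show R + 20 * (-(i : ℤ) - 1) + 20 = R + 20 * -(i : ℤ) by ring, ih] at this
    linarith

theorem bF_yk (Q R k : ℤ) : bF (Q + 20 * k) R = bF Q R + 10 * k := by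
  induction k using Int.induction_on with
  | zero => simp
  | succ i ih => rw [show Q + 20 * ((i : ℤ) + 1) = Q + 20 * i + 20 by ring, bF_y, ih]; ring
  | pred i ih =>
    have := bF_y (Q + 20 * (-(i : ℤ) - 1)) R
    rw [show Q + 20 * (-(i : ℤ) - 1) + 20 = Q + 20 * -(i : ℤ) by ring, ih] at this
    linarith

theorem bF_zk (Q R k : ℤ) : bF Q (R + 20 * k) = bF Q R + 10 * k := by
  induction k using Int.induction_on with
  | zero => simp
  | succ i ih => rw [show R + 20 * ((i : ℤ) + 1) = R + 20 * i + 20 by ring, bF_z, ih]; ring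
  | pred i ih =>
    have := bF_z Q (R + 20 * (-(i : ℤ) - 1))
    rw [show R + 20 * (-(i : ℤ) - 1) + 20 = R + 20 * -(i : ℤ) by ring, ih] at this
    linarith

/-- integer position of the state `s` of the variable `i` in the turn `k`
(`0` = centre of the plate, unit `π`). -/
def ipos (i : Fin 3) (s : ℕ) (k : ℤ) : ℤ := (pos i s : ℤ) + per i * k - 1

theorem eps_al (s : Fin 3 → ℕ) (k : Fin 3 → ℤ) :
    eps (fAlZ (ipos 0 (s 0) (k 0)) (ipos 1 (s 1) (k 1)) (ipos 2 (s 2) (k 2))) =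
      if sa s then 1 else -1 := by
  unfold ipos
  rw [fAlZ_eq]
  have h0 : ((per 0 : ℕ) : ℤ) = 6 := rfl
  have h1 : ((per 1 : ℕ) : ℤ) = 20 := rfl
  have h2 : ((per 2 : ℕ) : ℤ) = 20 := rfl
  rw [h0, h1, h2, aF_xk, aF_yk, aF_zk]
  unfold sa
  by_cases h : aF (pos 0 (s 0)) (pos 1 (s 1)) (pos 2 (s 2)) % 2 = 1
  · rw [eps_even (by omega)]
    simp [h]
  · rw [eps_odd (by omega)]
    simp [h]

theorem eps_be (s : Fin 3 → ℕ) (k : Fin 3 → ℤ) :
    eps (fBeZ (ipos 1 (s 1) (k 1)) (ipos 2 (s 2) (k 2))) = if sb s then 1 else -1 := by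
  unfold ipos
  rw [fBeZ_eq]
  have h1 : ((per 1 : ℕ) : ℤ) = 20 := rfl
  have h2 : ((per 2 : ℕ) : ℤ) = 20 := rfl
  rw [h1, h2, bF_yk, bF_zk]
  unfold sb
  by_cases h : bF (pos 1 (s 1)) (pos 2 (s 2)) % 2 = 1
  · rw [eps_even (by omega)]
    simp [h]
  · rw [eps_odd (by omega)]
    simp [h]

/-! ### windows -/

/-- interval of a window of `StTab_568` in the numbering of `DfL`. -/
def ivW (i : Fin 3) : Win → Option (ℕ × ℕ)
  | .no => none
  | .arm => some (per i / 2 - 1, ![18, 24, 14] i)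
  | .hub lo hi => some (lo - 1, hi - 1)

/-- the variable `i` is in the state `s`; `W lo hi` = values of the windows. -/
structure VS (i : Fin 3) (s : ℕ) (W : ℕ → ℕ → ℝ) : Prop where
  le : s ≤ per i
  armF : s = per i → W (per i / 2 - 1) (![18, 24, 14] i) = 1
  armP : 0 < s → s < per i → W (per i / 2 - 1) (![18, 24, 14] i) = 0
  hubF : ∀ lo hi, 1 ≤ lo → lo < hi → 2 * hi ≤ per i → s < per i → s % 2 = 1 → 2 * lo ≤ s →
    s < 2 * hi → W (lo - 1) (hi - 1) = 1
  hubP : ∀ lo hi, 1 ≤ lo → lo < hi → 2 * hi ≤ per i →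
    ¬ ((s ≠ per i ∧ 2 * lo ≤ s ∧ s ≤ 2 * hi) ∨ (s = 0 ∧ 2 * hi = per i)) → W (lo - 1) (hi - 1) = 0
  one : s = per i ∨ s % 2 = 1 → ∀ lo hi, lo ≤ hi → hi ≤ ![18, 24, 14] i → W lo hi = 0 ∨ W lo hi = 1
  wb : s < per i → s % 2 = 1 → ∀ l, per i / 2 ≤ l + 1 → l + 1 ≤ ![18, 24, 14] i → W l (l + 1) = 0

/-- the windows of the list `boxF` are admissible. -/
def okW (i : Fin 3) : Win → Bool
  | .no => true
  | .arm => true
  | .hub lo hi => decide (1 ≤ lo) && decide (lo < hi) && decide (2 * hi ≤ per i)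

theorem boxF_ok : ∀ c : Fin 13, ∀ i, okW i (boxF c i) = true := by decide

theorem VS.full {i : Fin 3} {s : ℕ} {W : ℕ → ℕ → ℝ} (h : VS i s W) {w : Win} {lo hi : ℕ}
    (hok : okW i w = true) (hw : ivW i w = some (lo, hi)) (hf : w.full i s = true) :
    W lo hi = 1 := by
  cases w with
  | no => simp [ivW] at hw
  | arm =>
    simp only [ivW, Option.some.injEq, Prod.mk.injEq] at hw
    simp only [Win.full, beq_iff_eq] at hf
    rw [← hw.1, ← hw.2]
    exact h.armF hf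
  | hub a b =>
    simp only [ivW, Option.some.injEq, Prod.mk.injEq] at hw
    simp only [Win.full, ray, Bool.and_eq_true, bne_iff_ne, beq_iff_eq, decide_eq_true_eq,
      ne_eq] at hf
    simp only [okW, Bool.and_eq_true, decide_eq_true_eq] at hok
    rw [← hw.1, ← hw.2]
    exact h.hubF a b hok.1.1 hok.1.2 hok.2 (lt_of_le_of_ne h.le hf.1.1.1) hf.1.1.2 hf.1.2 hf.2

theorem VS.poss {i : Fin 3} {s : ℕ} {W : ℕ → ℕ → ℝ} (h : VS i s W) {w : Win} {lo hi : ℕ}
    (hok : okW i w = true) (hw : ivW i w = some (lo, hi)) (hf : w.poss i s = false) :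
    W lo hi = 0 := by
  cases w with
  | no => simp [ivW] at hw
  | arm =>
    simp only [ivW, Option.some.injEq, Prod.mk.injEq] at hw
    simp only [Win.poss, Bool.or_eq_false_iff, beq_eq_false_iff_ne, ne_eq] at hf
    rw [← hw.1, ← hw.2]
    exact h.armP (Nat.pos_of_ne_zero hf.2) (lt_of_le_of_ne h.le hf.1)
  | hub a b =>
    simp only [ivW, Option.some.injEq, Prod.mk.injEq] at hw
    simp only [okW, Bool.and_eq_true, decide_eq_true_eq] at hok
    rw [← hw.1, ← hw.2]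
    refine h.hubP a b hok.1.1 hok.1.2 hok.2 ?_
    intro hcon
    have : Win.poss i s (.hub a b) = true := by
      simp only [Win.poss, Bool.or_eq_true, Bool.and_eq_true, bne_iff_ne, beq_iff_eq,
        decide_eq_true_eq, ne_eq]
      rcases hcon with h1 | h1
      · exact Or.inl ⟨⟨h1.1, h1.2.1⟩, h1.2.2⟩
      · exact Or.inr h1
    rw [this] at hf
    exact absurd hf (by decide)

/-! ### the boxes of `DfL` -/

/-- box `c` of `boxF` is the box `b` of the list. -/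
def isC (b : B4) (c : Fin 13) : Prop :=
  iv b 0 = ivW 0 (boxF c 0) ∧ iv b 1 = ivW 1 (boxF c 1) ∧ iv b 2 = ivW 2 (boxF c 2) ∧
    iv b 3 = none

instance (b : B4) (c : Fin 13) : Decidable (isC b c) := by unfold isC; infer_instance

/-- window over a `J`-lobe of `x` or `y`. -/
def isW (b : B4) : Prop :=
  ((∃ l < 18, 3 ≤ l + 1 ∧ iv b 0 = some (l, l + 1)) ∧ iv b 1 = none ∧ iv b 2 = none ∨
    iv b 0 = none ∧ (∃ l < 24, 10 ≤ l + 1 ∧ iv b 1 = some (l, l + 1)) ∧ iv b 2 = none) ∧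
    ∃ a < 14, iv b 3 = some (a, 14)

instance (b : B4) : Decidable (isW b) := by unfold isW; infer_instance

theorem boxes1 : ∀ c : Fin 13, ∃ e : Fin DfL.nb, isC (bxFL.get e) c := by
  change ∀ c : Fin 13, ∃ e : Fin bxFL.length, isC (bxFL.get e) c
  decide +kernel

theorem boxes2 : ∀ e : Fin DfL.nb, (∃ c : Fin 13, isC (bxFL.get e) c) ∨ isW (bxFL.get e) := by
  change ∀ e : Fin bxFL.length, (∃ c : Fin 13, isC (bxFL.get e) c) ∨ isW (bxFL.get e)
  decide +kernel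

theorem S_iff (e : Fin DfL.nb) (j : Fin 4) : j ∈ (DfL.bx e).S ↔ (iv (bxFL.get e) j).isSome := by
  change j ∈ (mkB (bxFL.get e)).S ↔ _
  simp [mkB]

theorem lo_hi {e : Fin DfL.nb} {j : Fin 4} {lo hi : ℕ} (h : iv (bxFL.get e) j = some (lo, hi)) :
    (DfL.bx e).lo j = lo ∧ (DfL.bx e).hi j = hi := by
  change ((iv (bxFL.get e) j).getD (0, 0)).1 = lo ∧ ((iv (bxFL.get e) j).getD (0, 0)).2 = hi
  rw [h]
  exact ⟨rfl, rfl⟩

/-- all windows of the list. -/
theorem iv_ok : ∀ e : Fin DfL.nb, ∀ j : Fin 4, ∀ p ∈ iv (bxFL.get e) j,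
    p.1 ≤ p.2 ∧ p.2 ≤ ![18, 24, 14, 14] j := by
  change ∀ e : Fin bxFL.length, ∀ j : Fin 4, ∀ p ∈ iv (bxFL.get e) j,
    p.1 ≤ p.2 ∧ p.2 ≤ ![18, 24, 14, 14] j
  decide +kernel

open Classical in
/-- window of the box `e`; `nz j`: the variable `j` is not zero. -/
def laF (nz : Fin 4 → Prop) (W : Fin 4 → ℕ → ℕ → ℝ) (e : Fin DfL.nb) : ℝ :=
  if ∀ j ∈ (DfL.bx e).S, nz j then
    ∏ j ∈ (DfL.bx e).S, W j ((DfL.bx e).lo j) ((DfL.bx e).hi j) else 0

/-- the situation at a real point. -/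
structure Hyp (nz : Fin 4 → Prop) (W : Fin 4 → ℕ → ℕ → ℝ) (s : Fin 3 → ℕ) (e : Fin 4 → ℝ) :
    Prop where
  v0 : nz 0 → VS 0 (s 0) (W 0)
  v1 : nz 1 → VS 1 (s 1) (W 1)
  v2 : nz 2 → VS 2 (s 2) (W 2)
  z0 : ¬ nz 0 → s 0 = 0
  z1 : ¬ nz 1 → s 1 = 0
  z2 : ¬ nz 2 → s 2 = 0
  e0 : e 0 = if plus 0 (s 0) then 1 else -1
  e1 : e 1 = if plus 1 (s 1) then 1 else -1
  e2 : e 2 = if plus 2 (s 2) then 1 else -1
  w3 : e 3 = 1 → nz 3 → ∀ lo hi, lo ≤ hi → hi ≤ 14 → W 3 lo hi = 0 ∨ W 3 lo hi = 1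

variable {nz : Fin 4 → Prop} {W : Fin 4 → ℕ → ℕ → ℝ} {s : Fin 3 → ℕ} {e : Fin 4 → ℝ}

theorem plus_of {i : Fin 3} {t : ℕ} {x : ℝ} (h : x = if plus i t then 1 else -1) (hx : x = 1) :
    plus i t = true := by
  by_contra hcon
  rw [if_neg hcon] at h
  linarith

theorem one_of {i : Fin 3} {t : ℕ} {x : ℝ} (h : x = if plus i t then 1 else -1)
    (hx : plus i t = true) : x = 1 := by rw [h, if_pos hx]

theorem plus_iff {i : Fin 3} {t : ℕ} : plus i t = true ↔ t = per i ∨ t % 2 = 1 := by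
  simp [plus]

theorem ray_iff {i : Fin 3} {t : ℕ} : ray i t = true ↔ t ≠ per i ∧ t % 2 = 1 := by
  simp [ray]

theorem Hyp.nz_of_plus (h : Hyp nz W s e) :
    (plus 0 (s 0) = true → nz 0) ∧ (plus 1 (s 1) = true → nz 1) ∧ (plus 2 (s 2) = true → nz 2) := by
  refine ⟨fun h1 => ?_, fun h1 => ?_, fun h1 => ?_⟩ <;> by_contra h2
  · rw [h.z0 h2] at h1; exact absurd h1 (by decide)
  · rw [h.z1 h2] at h1; exact absurd h1 (by decide)
  · rw [h.z2 h2] at h1; exact absurd h1 (by decide)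

theorem Hyp.le (h : Hyp nz W s e) : s 0 ≤ 6 ∧ s 1 ≤ 20 ∧ s 2 ≤ 20 := by
  refine ⟨?_, ?_, ?_⟩
  · by_cases hn : nz 0
    · exact (h.v0 hn).le
    · rw [h.z0 hn]; omega
  · by_cases hn : nz 1
    · exact (h.v1 hn).le
    · rw [h.z1 hn]; omega
  · by_cases hn : nz 2
    · exact (h.v2 hn).le
    · rw [h.z2 hn]; omega

/-- the four facts of `StTab_568`. -/
theorem Hyp.ok (h : Hyp nz W s e) : Ok s := by
  obtain ⟨h0, h1, h2⟩ := h.le
  have := tab ⟨s 0, by omega⟩ ⟨s 1, by omega⟩ ⟨s 2, by omega⟩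
  have e : ![(s 0 : ℕ), s 1, s 2] = s := by
    ext i; fin_cases i <;> rfl
  simpa [e] using this

theorem Hyp.la01 (h : Hyp nz W s e) (c : Fin DfL.nb) (hc : ∀ i ∈ (DfL.bx c).S, e i = 1) :
    laF nz W c = 0 ∨ laF nz W c = 1 := by
  unfold laF
  split_ifs with hnz
  · have key : ∀ j ∈ (DfL.bx c).S, W j ((DfL.bx c).lo j) ((DfL.bx c).hi j) = 0 ∨
        W j ((DfL.bx c).lo j) ((DfL.bx c).hi j) = 1 := by
      intro j hj
      have hj' := (S_iff c j).1 hj
      obtain ⟨p, hp⟩ := Option.isSome_iff_exists.1 hj'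
      have hlh := lo_hi (e := c) (j := j) (lo := p.1) (hi := p.2) hp
      have hok := iv_ok c j p hp
      rw [hlh.1, hlh.2]
      have hcj := hc j hj
      have hn := hnz j hj
      fin_cases j
      · exact (h.v0 hn).one (plus_iff.1 (plus_of h.e0 hcj)) _ _ hok.1 hok.2
      · exact (h.v1 hn).one (plus_iff.1 (plus_of h.e1 hcj)) _ _ hok.1 hok.2
      · exact (h.v2 hn).one (plus_iff.1 (plus_of h.e2 hcj)) _ _ hok.1 hok.2
      · exact h.w3 hcj hn _ _ hok.1 hok.2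
    by_cases hz : ∃ j ∈ (DfL.bx c).S, W j ((DfL.bx c).lo j) ((DfL.bx c).hi j) = 0
    · obtain ⟨j, hj, hj0⟩ := hz
      exact Or.inl (Finset.prod_eq_zero hj hj0)
    · push Not at hz
      exact Or.inr (Finset.prod_eq_one fun j hj => (key j hj).resolve_left (hz j hj))
  · exact Or.inl rfl

/-- a box which is fully on. -/
theorem Hyp.full (h : Hyp nz W s e) {c : Fin 13} (hc : StTab_568.full c s = true) :
    ∃ b : Fin DfL.nb, isC (bxFL.get b) c ∧ laF nz W b = 1 := by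
  obtain ⟨b, hb⟩ := boxes1 c
  refine ⟨b, hb, ?_⟩
  have hf : ∀ i, (boxF c i).full i (s i) = true := by simpa [StTab_568.full] using hc
  have hplus : ∀ i, boxF c i ≠ .no → plus i (s i) = true := by
    intro i hi
    have := hf i
    cases hw : boxF c i with
    | no => exact absurd hw hi
    | arm =>
      rw [hw] at this
      simp only [Win.full, beq_iff_eq] at this
      exact plus_iff.2 (Or.inl this)
    | hub a b =>
      rw [hw] at this
      simp only [Win.full, Bool.and_eq_true] at this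
      exact plus_iff.2 (Or.inr (ray_iff.1 this.1.1).2)
  have hno : ∀ i : Fin 3, (ivW i (boxF c i)).isSome → boxF c i ≠ .no := by
    intro i hi h2
    rw [h2] at hi
    simp [ivW] at hi
  have hnz : ∀ j ∈ (DfL.bx b).S, nz j := by
    intro j hj
    have hj' := (S_iff b j).1 hj
    fin_cases j
    · exact h.nz_of_plus.1 (hplus 0 (hno 0 (by rw [← hb.1]; exact hj')))
    · exact h.nz_of_plus.2.1 (hplus 1 (hno 1 (by rw [← hb.2.1]; exact hj')))
    · exact h.nz_of_plus.2.2 (hplus 2 (hno 2 (by rw [← hb.2.2.1]; exact hj')))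
    · exfalso
      have h3 : (iv (bxFL.get b) 3).isSome := hj'
      rw [hb.2.2.2] at h3
      simp at h3
  unfold laF
  rw [if_pos hnz]
  refine Finset.prod_eq_one fun j hj => ?_
  have hj' := (S_iff b j).1 hj
  obtain ⟨p, hp⟩ := Option.isSome_iff_exists.1 hj'
  have hlh := lo_hi (e := b) (j := j) (lo := p.1) (hi := p.2) hp
  rw [hlh.1, hlh.2]
  have hn := hnz j hj
  fin_cases j
  · exact (h.v0 hn).full (boxF_ok c 0) (hb.1 ▸ hp) (hf 0)
  · exact (h.v1 hn).full (boxF_ok c 1) (hb.2.1 ▸ hp) (hf 1)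
  · exact (h.v2 hn).full (boxF_ok c 2) (hb.2.2.1 ▸ hp) (hf 2)
  · exfalso
    have h3 : (iv (bxFL.get b) 3).isSome := hj'
    rw [hb.2.2.2] at h3
    simp at h3

/-- a box which is possibly on. -/
theorem Hyp.poss (h : Hyp nz W s e) {c : Fin 13} {b : Fin DfL.nb} (hb : isC (bxFL.get b) c)
    (hc : StTab_568.poss c s = false) : laF nz W b = 0 := by
  have hf : ∃ i, (boxF c i).poss i (s i) = false := by
    simpa [StTab_568.poss] using hc
  obtain ⟨i, hi⟩ := hf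
  have hno : boxF c i ≠ .no := by
    intro h2
    rw [h2] at hi
    simp [Win.poss] at hi
  have hsome : ∃ p, ivW i (boxF c i) = some p := by
    cases hw : boxF c i with
    | no => exact absurd hw hno
    | arm => exact ⟨_, rfl⟩
    | hub a b => exact ⟨_, rfl⟩
  obtain ⟨p, hp⟩ := hsome
  unfold laF
  split_ifs with hnz
  · fin_cases i
    · have hp' : iv (bxFL.get b) 0 = some (p.1, p.2) := hb.1.trans hp
      have hj : (0 : Fin 4) ∈ (DfL.bx b).S := (S_iff b 0).2 (by rw [hp']; rfl)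
      refine Finset.prod_eq_zero hj ?_
      rw [(lo_hi hp').1, (lo_hi hp').2]
      exact (h.v0 (hnz 0 hj)).poss (boxF_ok c 0) hp hi
    · have hp' : iv (bxFL.get b) 1 = some (p.1, p.2) := hb.2.1.trans hp
      have hj : (1 : Fin 4) ∈ (DfL.bx b).S := (S_iff b 1).2 (by rw [hp']; rfl)
      refine Finset.prod_eq_zero hj ?_
      rw [(lo_hi hp').1, (lo_hi hp').2]
      exact (h.v1 (hnz 1 hj)).poss (boxF_ok c 1) hp hi
    · have hp' : iv (bxFL.get b) 2 = some (p.1, p.2) := hb.2.2.1.trans hp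
      have hj : (2 : Fin 4) ∈ (DfL.bx b).S := (S_iff b 2).2 (by rw [hp']; rfl)
      refine Finset.prod_eq_zero hj ?_
      rw [(lo_hi hp').1, (lo_hi hp').2]
      exact (h.v2 (hnz 2 hj)).poss (boxF_ok c 2) hp hi
  · rfl

/-- `w`-boxes vanish at the hub rays of their variable. -/
theorem Hyp.wbox (h : Hyp nz W s e) {b : Fin DfL.nb} (hb : isW (bxFL.get b)) {i : Fin 3}
    (hr : ray i (s i) = true) (hi : i.castSucc ∈ (DfL.bx b).S) : laF nz W b = 0 := by
  have hr' := ray_iff.1 hr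
  have hS := (S_iff b i.castSucc).1 hi
  unfold laF
  split_ifs with hnz
  · have hn := hnz _ hi
    refine Finset.prod_eq_zero hi ?_
    fin_cases i
    · have hS' : (iv (bxFL.get b) 0).isSome := hS
      rcases hb.1 with ⟨⟨l, hl, hl1, hl2⟩, -, -⟩ | ⟨h1, -, -⟩
      · have h1 := lo_hi hl2
        have h2 := (h.v0 hn).wb (lt_of_le_of_ne (h.v0 hn).le hr'.1) hr'.2 l hl1 hl
        have h3 : W 0 ((DfL.bx b).lo 0) ((DfL.bx b).hi 0) = 0 := by rw [h1.1, h1.2]; exact h2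
        exact h3
      · rw [h1] at hS'; simp at hS'
    · have hS' : (iv (bxFL.get b) 1).isSome := hS
      rcases hb.1 with ⟨-, h1, -⟩ | ⟨-, ⟨l, hl, hl1, hl2⟩, -⟩
      · rw [h1] at hS'; simp at hS'
      · have h1 := lo_hi hl2
        have h2 := (h.v1 hn).wb (lt_of_le_of_ne (h.v1 hn).le hr'.1) hr'.2 l hl1 hl
        have h3 : W 1 ((DfL.bx b).lo 1) ((DfL.bx b).hi 1) = 0 := by rw [h1.1, h1.2]; exact h2
        exact h3
    · have hS' : (iv (bxFL.get b) 2).isSome := hS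
      rcases hb.1 with ⟨-, -, h1⟩ | ⟨-, -, h1⟩ <;> · rw [h1] at hS'; simp at hS'
  · rfl

theorem mem_S_of_isC {b : Fin DfL.nb} {c : Fin 13} (hb : isC (bxFL.get b) c) (i : Fin 3) :
    i.castSucc ∈ (DfL.bx b).S ↔ boxF c i ≠ .no := by
  rw [S_iff]
  have h1 : iv (bxFL.get b) i.castSucc = ivW i (boxF c i) := by
    fin_cases i
    · exact hb.1
    · exact hb.2.1
    · exact hb.2.2.1
  rw [h1]
  cases boxF c i <;> simp [ivW]

theorem S_sub {b : Fin DfL.nb} {c : Fin 13} (hb : isC (bxFL.get b) c) :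
    (DfL.bx b).S ⊆ {0, 1, 2} := by
  intro j hj
  have hj' := (S_iff b j).1 hj
  fin_cases j
  · simp
  · simp
  · simp
  · exfalso
    have h3 : (iv (bxFL.get b) 3).isSome := hj'
    rw [hb.2.2.2] at h3
    simp at h3

/-- **the table `Pm`**. -/
theorem Hyp.Pm (h : Hyp nz W s e) (hs : sa s = false) (h0 : e 0 = 1) (h1 : e 1 = 1) (h2 : e 2 = 1) :
    ∃ c : Fin DfL.nb, (DfL.bx c).S ⊆ {0, 1, 2} ∧ laF nz W c = 1 := by
  obtain ⟨c, hc⟩ := h.ok.1 hs fun i => by
    fin_cases i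
    · exact plus_of h.e0 h0
    · exact plus_of h.e1 h1
    · exact plus_of h.e2 h2
  obtain ⟨b, hb, hl⟩ := h.full hc
  exact ⟨b, S_sub hb, hl⟩

/-- **the table `Pp`**. -/
theorem Hyp.Pp (h : Hyp nz W s e) (hs : sa s = true) :
    ∃ i ∈ ({0, 1, 2} : Finset (Fin 4)), e i = 1 ∧
      ∀ c : Fin DfL.nb, i ∈ (DfL.bx c).S → laF nz W c = 0 := by
  obtain ⟨i, hr, hi⟩ := h.ok.2.1 hs
  have hplus : plus i (s i) = true := plus_iff.2 (Or.inr (ray_iff.1 hr).2)
  refine ⟨i.castSucc, by fin_cases i <;> simp, ?_, fun b hb => ?_⟩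
  · fin_cases i
    · exact one_of h.e0 hplus
    · exact one_of h.e1 hplus
    · exact one_of h.e2 hplus
  · rcases boxes2 b with ⟨c, hc⟩ | hw
    · exact h.poss hc (hi c ((mem_S_of_isC hc i).1 hb))
    · exact h.wbox hw hr hb

/-- **the table `Qm`**. -/
theorem Hyp.Qm (h : Hyp nz W s e) (hs : sb s = false) (h1 : e 1 = 1) (h2 : e 2 = 1) :
    ∃ c : Fin DfL.nb, (DfL.bx c).S ⊆ {1, 2} ∧ laF nz W c = 1 := by
  obtain ⟨c, hc0, hc⟩ := h.ok.2.2.1 hs (plus_of h.e1 h1) (plus_of h.e2 h2)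
  obtain ⟨b, hb, hl⟩ := h.full hc
  refine ⟨b, fun j hj => ?_, hl⟩
  have h3 := S_sub hb hj
  have h4 : j ≠ 0 := by
    rintro rfl
    exact (mem_S_of_isC hb 0).1 hj hc0
  fin_cases j
  · exact absurd rfl h4
  · simp
  · simp
  · simp at h3

/-- **the table `Qp`**. -/
theorem Hyp.Qp (h : Hyp nz W s e) (hs : sb s = true) :
    ∃ i ∈ ({1, 2} : Finset (Fin 4)), e i = 1 ∧
      ∀ c : Fin DfL.nb, i ∈ (DfL.bx c).S → laF nz W c = 0 ∨ 0 ∈ (DfL.bx c).S := by
  obtain ⟨i, hi0, hr, hi⟩ := h.ok.2.2.2 hs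
  have hplus : plus i (s i) = true := plus_iff.2 (Or.inr (ray_iff.1 hr).2)
  refine ⟨i.castSucc, by fin_cases i <;> simp_all, ?_, fun b hb => ?_⟩
  · fin_cases i
    · exact one_of h.e0 hplus
    · exact one_of h.e1 hplus
    · exact one_of h.e2 hplus
  · rcases boxes2 b with ⟨c, hc⟩ | hw
    · rcases hi c ((mem_S_of_isC hc i).1 hb) with h1 | h1
      · exact Or.inl (h.poss hc h1)
      · exact Or.inr ((mem_S_of_isC hc 0).2 h1)
    · exact Or.inl (h.wbox hw hr hb)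

end Crest.Agent.R267.TabF_440
end
private theorem rz_58fa1b5ece : type_of% @_root_.Crest.Agent.R267.TabF_440.ivW.eq_1 := @_root_.Crest.Agent.R267.TabF_440.ivW.eq_1 -- L140
private theorem rz_7255e0e68d : type_of% @_root_.Crest.Agent.R267.TabF_440.okW.eq_1 := @_root_.Crest.Agent.R267.TabF_440.okW.eq_1 -- L158
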