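import Crest.Agent.R267.HubFacts_370
import Crest.Agent.R267.RndP_222
import Crest.Agent.R267.TabF_440
import Crest.Agent.R267.StTabG_222
import Crest.Agent.R267.PatF_568

-- ▼ part R267/StPos_370
section

/-!
# Row 267 (helper370): integer positions (states) of the literal words, flat lifts and windows

A state of a variable is a number `s ≤ 2 n` (`n` = number of hub lobes): `s = 2 i + 1` = hub lobe `i`
on its positive ray, `s = 2 i` (`0 < i < n`) = hub gap `i - 1` (before the lobe `i`), `s = 0` = gaps of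
the word sector (and the two gaps next to it), `s = 2 n` = a lobe of the word sector with own sign `+`.
(Letters of `StTab_568`, `StTabG_222`.)

* `Stt n M w p q s k` : what a state says; `state` : every point where the own phase is near a
  multiple of `π` has a state; `state_lit` for the literal `pp`, `hh`, `ww`.
-/

set_option autoImplicit false

noncomputable section

open Finset Set Filter Topology
open Crest.Agent.R267.T3aNDefs_88 Crest.Agent.R267.Ang_739
open Crest.Agent.R267.GlNDefs_9 Crest.Agent.R267.HubDefs_284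
open Crest.Agent.R267.WordPh_9 Crest.Agent.R267.WordPh2_9 Crest.Agent.R267.HubInst_370
open Crest.Agent.R267.HubFacts_370

namespace Crest.Agent.R267.StPos_370

/-- position of a state in half turns -/
def ps0 (n s : ℕ) : ℤ := if s = 2 * n then -1 else (s : ℤ) - 1

/-- own sign `+` -/
def Plus (n s : ℕ) : Prop := s = 2 * n ∨ s % 2 = 1

/-- the state `s` of a point with own phase `p`, flat phase `q`, windows `w lo hi` (`1` on the arcs
`lo < i ≤ hi`). -/
structure Stt (n M : ℕ) (w : ℕ → ℕ → ℝ) (p q : ℝ) (τ : ℝ) (s : ℕ) (k : ℤ) : Prop where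
  le : s ≤ 2 * n
  near : |q - Real.pi * ((ps0 n s + 2 * n * k : ℤ) : ℝ)| ≤ τ
  sgn : 0 < Real.cos p ↔ Plus n s
  w01 : ∀ lo hi, lo ≤ hi → hi ≤ M → Plus n s → w lo hi = 0 ∨ w lo hi = 1
  /-- hub lobe `s / 2` -/
  wray : ∀ lo hi, lo ≤ hi → hi ≤ M → s ≠ 2 * n → s % 2 = 1 →
    w lo hi = if lo < s / 2 ∧ s / 2 ≤ hi then 1 else 0
  /-- hub gap `s / 2 - 1` -/
  wgap : ∀ lo hi, lo ≤ hi → hi ≤ M → s ≠ 2 * n → s ≠ 0 → s % 2 = 0 →
    (s / 2 ≤ lo ∨ hi + 1 < s / 2) → w lo hi = 0
  /-- gaps of the word sector -/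
  wzero : ∀ lo hi, lo ≤ hi → hi ≤ M → s = 0 → hi + 1 < n → w lo hi = 0
  /-- lobes of the word sector -/
  wJ0 : ∀ lo hi, lo ≤ hi → hi ≤ M → s = 2 * n → hi < n → w lo hi = 0
  wJ1 : ∀ lo hi, lo ≤ hi → hi = M → s = 2 * n → lo < n → w lo hi = 1

variable {M : ℕ} {α β : ℕ → ℝ} {e : ℕ → ℝ}

theorem cos_near_even {x τ : ℝ} (hτ : τ ≤ 1 / 4) {m : ℤ}
    (h : |x - Real.pi * ((2 * m : ℤ) : ℝ)| ≤ τ) : 0 < Real.cos x := by
  have hpi := Real.pi_gt_three
  have e1 : Real.cos x = Real.cos (x - Real.pi * ((2 * m : ℤ) : ℝ)) := by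
    rw [show x - Real.pi * ((2 * m : ℤ) : ℝ) = x - m * (2 * Real.pi) by push_cast; ring,
      Real.cos_sub_int_mul_two_pi]
  rw [e1]
  rw [abs_le] at h
  exact Real.cos_pos_of_mem_Ioo ⟨by linarith [h.1], by linarith [h.2]⟩

theorem cos_near_odd {x τ : ℝ} (hτ : τ ≤ 1 / 4) {m : ℤ}
    (h : |x - Real.pi * ((2 * m + 1 : ℤ) : ℝ)| ≤ τ) : Real.cos x < 0 := by
  have h1 : |(x - Real.pi) - Real.pi * ((2 * m : ℤ) : ℝ)| ≤ τ := by
    rw [show (x - Real.pi) - Real.pi * ((2 * m : ℤ) : ℝ) = x - Real.pi * ((2 * m + 1 : ℤ) : ℝ) by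
      push_cast; ring]
    exact h
  have h2 := cos_near_even hτ h1
  rw [Real.cos_sub_pi] at h2
  linarith

/-- values of the flat lift on the last piece -/
theorem lift_flat (h : Arcs M α β) {n : ℕ} (hn : 1 ≤ n) (hnM : n ≤ M + 1) {y : ℝ}
    (h1 : β (n - 1) ≤ y) (h2 : y ≤ α 0 + 2 * Real.pi) :
    wph (fun _ => 1) (n - 1) (al' α n) β y = Real.pi * (2 * n - 1) := by
  have h' := arcs' h hn hnM
  rw [wph_flat h' (i := n - 1) le_rfl h1 (by unfold al'; rw [if_neg (by omega)]; exact h2),
    cen_one, se_one]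
  have : ((n - 1 : ℕ) : ℝ) = n - 1 := by push_cast [Nat.cast_sub hn]; ring
  rw [this]; ring

/-- the state of a point of the fundamental domain -/
theorem state_dom (h : Arcs M α β) (he : ∀ l, e l = 1 ∨ e l = -1) {n : ℕ} (hn : 1 ≤ n)
    (hnM : n ≤ M + 1) (hs : ∀ i < n, se e i = 1) {τ : ℝ} (hτ : τ ≤ 1 / 4) {y : ℝ} (hy1 : α 0 ≤ y)
    (hy2 : y < α 0 + 2 * Real.pi) (hp : ∃ m : ℤ, |wph e M α β y - Real.pi * m| ≤ τ) :
    ∃ (s : ℕ) (k : ℤ), Stt n M (fun lo hi => wn α β lo hi y) (wph e M α β y)
      (wph (fun _ => 1) (n - 1) (al' α n) β y) τ s k := by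
  have hpi := Real.pi_gt_three
  have h' := arcs' h hn hnM
  obtain ⟨m, hm⟩ := hp
  have hτ0 : 0 ≤ τ := (abs_nonneg _).trans hm
  obtain ⟨i, hi, h1, h2⟩ := exists_piece h hy1 hy2
  -- windows in lobes
  have wl : y ≤ β i → ∀ lo hi', lo ≤ hi' → hi' ≤ M →
      wn α β lo hi' y = if lo < i ∧ i ≤ hi' then 1 else 0 :=
    fun h3 lo hi' a b => wn_lobe h a b hi h1 h3
  have wg : β i ≤ y → ∀ lo hi', lo ≤ hi' → hi' ≤ M → (i < lo ∨ hi' < i) →
      wn α β lo hi' y = 0 :=
    fun h3 lo hi' a b c => wn_supp h a b hi c h3 h2.le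
  by_cases hin : i < n
  · rcases le_or_gt y (β i) with h4 | h4
    · -- hub lobe
      have hwl := wl h4
      have hq := val_hub h hn hnM hs hin h1 h4
      have hv := wph_val h (e := e) hi h1 h2.le
      rw [cen_hub hs hin, hs i hin] at hv
      set u := T3aDefs_957.st ((y - α i) / (β i - α i)) with hu
      have hu0 : 0 ≤ u := Calc_957.st_nonneg _
      have hu1 : u ≤ 1 := Calc_957.st_le_one _
      have hb1 : wph e M α β y ≤ Real.pi * (2 * i + 1) := by rw [hv]; nlinarith
      have hb2 : Real.pi * (2 * i - 1) ≤ wph e M α β y := by rw [hv]; nlinarith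
      rw [abs_le] at hm
      -- `m ∈ {2i-1, 2i, 2i+1}`
      have m1 : m ≤ 2 * i + 1 := by
        by_contra hc
        have : (2 * i + 2 : ℝ) ≤ m := by exact_mod_cast (by omega : (2 * i + 2 : ℤ) ≤ m)
        nlinarith [hm.1]
      have m2 : 2 * (i : ℤ) - 1 ≤ m := by
        by_contra hc
        have : (m : ℝ) ≤ 2 * i - 2 := by exact_mod_cast (by omega : m ≤ 2 * (i : ℤ) - 2)
        nlinarith [hm.2]
      have hm' : |wph e M α β y - Real.pi * m| ≤ τ := abs_le.2 hm
      rcases (by omega : m = 2 * i - 1 ∨ m = 2 * i ∨ m = 2 * i + 1) with rfl | rfl | rfl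
      · -- left end: state `2 i`
        have hneg : Real.cos (wph e M α β y) < 0 := by
          refine cos_near_odd hτ (m := i - 1) ?_
          rw [show (2 * ((i : ℤ) - 1) + 1 : ℤ) = 2 * i - 1 by ring]; exact hm'
        refine ⟨2 * i, 0, ⟨by omega, ?_, ?_, ?_, ?_, ?_, ?_, ?_, ?_⟩⟩
        · rw [← hq]
          unfold ps0
          rw [if_neg (by omega)]
          push_cast at hm' ⊢
          simpa using hm'
        · refine ⟨fun h5 => absurd h5 (not_lt.2 hneg.le), ?_⟩
          rintro (h5 | h5) <;> omega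
        · rintro lo hi' - - (h5 | h5) <;> omega
        · intro lo hi' _ _ _ h5; omega
        · intro lo hi' a b _ _ _ h5
          show wn α β lo hi' y = 0
          rw [hwl lo hi' a b, if_neg (by omega)]
        · intro lo hi' a b h5 h6
          show wn α β lo hi' y = 0
          rw [hwl lo hi' a b, if_neg (by omega)]
        · intro lo hi' a b h5 h6; omega
        · intro lo hi' a b h5 h6; omega
      · -- centre: state `2 i + 1`
        have hpos : 0 < Real.cos (wph e M α β y) := cos_near_even hτ (m := i) hm'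
        refine ⟨2 * i + 1, 0, ⟨by omega, ?_, ?_, ?_, ?_, ?_, ?_, ?_, ?_⟩⟩
        · rw [← hq]
          unfold ps0
          rw [if_neg (by omega)]
          push_cast at hm' ⊢
          simpa using hm'
        · exact ⟨fun _ => Or.inr (by omega), fun _ => hpos⟩
        · intro lo hi' a b _
          show wn α β lo hi' y = 0 ∨ wn α β lo hi' y = 1
          rw [hwl lo hi' a b]
          split_ifs
          · exact Or.inr rfl
          · exact Or.inl rfl
        · intro lo hi' a b _ _
          show wn α β lo hi' y = _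
          rw [hwl lo hi' a b, show (2 * i + 1) / 2 = i by omega]
        · intro lo hi' a b _ _ h5; omega
        · intro lo hi' a b h5 h6; omega
        · intro lo hi' a b h5 h6; omega
        · intro lo hi' a b h5 h6; omega
      · -- right end
        have hneg : Real.cos (wph e M α β y) < 0 := cos_near_odd hτ (m := i) hm'
        by_cases hin' : i + 1 < n
        · refine ⟨2 * i + 2, 0, ⟨by omega, ?_, ?_, ?_, ?_, ?_, ?_, ?_, ?_⟩⟩
          · rw [← hq]
            unfold ps0
            rw [if_neg (by omega)]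
            push_cast at hm' ⊢
            have e1 : Real.pi * (2 * (i : ℝ) + 2 - 1 + 2 * n * 0) = Real.pi * (2 * i + 1) := by ring
            rw [e1]; exact hm'
          · refine ⟨fun h5 => absurd h5 (not_lt.2 hneg.le), ?_⟩
            rintro (h5 | h5) <;> omega
          · rintro lo hi' - - (h5 | h5) <;> omega
          · intro lo hi' _ _ _ h5; omega
          · intro lo hi' a b _ _ _ h5
            show wn α β lo hi' y = 0
            rw [hwl lo hi' a b, if_neg (by omega)]
          · intro lo hi' a b h5 h6; omega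
          · intro lo hi' a b h5 h6; omega
          · intro lo hi' a b h5 h6; omega
        · have hie : i = n - 1 := by omega
          refine ⟨0, 1, ⟨by omega, ?_, ?_, ?_, ?_, ?_, ?_, ?_, ?_⟩⟩
          · rw [← hq]
            unfold ps0
            rw [if_neg (by omega)]
            have hn' : (n : ℝ) = i + 1 := by
              have : n = i + 1 := by omega
              rw [this]; push_cast; ring
            push_cast at hm' ⊢
            rw [hn']
            have e1 : Real.pi * (-1 + 2 * ((i : ℝ) + 1) * 1) = Real.pi * (2 * i + 1) := by ring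
            rw [e1]; exact hm'
          · refine ⟨fun h5 => absurd h5 (not_lt.2 hneg.le), ?_⟩
            rintro (h5 | h5) <;> omega
          · rintro lo hi' - - (h5 | h5) <;> omega
          · intro lo hi' _ _ _ h5; omega
          · intro lo hi' a b _ h5; omega
          · intro lo hi' a b h5 h6
            show wn α β lo hi' y = 0
            rw [hwl lo hi' a b, if_neg (by omega)]
          · intro lo hi' a b h5 h6; omega
          · intro lo hi' a b h5 h6; omega
    · -- hub gap
      have hwg := wg h4.le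
      have hpv : wph e M α β y = Real.pi * (2 * i + 1) := by
        rw [wph_flat h hi h4.le h2.le, cen_hub hs hin, hs i hin]; ring
      have hneg : Real.cos (wph e M α β y) < 0 := by
        refine cos_near_odd (m := i) (τ := 1 / 4) le_rfl ?_
        rw [hpv]; push_cast; norm_num
      by_cases hin' : i + 1 < n
      · have hqv : wph (fun _ => 1) (n - 1) (al' α n) β y = Real.pi * (2 * i + 1) := by
          rw [wph_flat h' (i := i) (by omega) h4.le (by
            unfold al'; rw [if_pos hin']; exact h2.le), cen_one, se_one]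
          ring
        refine ⟨2 * i + 2, 0, ⟨by omega, ?_, ?_, ?_, ?_, ?_, ?_, ?_, ?_⟩⟩
        · rw [hqv]
          unfold ps0
          rw [if_neg (by omega)]
          push_cast
          rw [show Real.pi * (2 * (i : ℝ) + 1) - Real.pi * (2 * (i : ℝ) + 2 - 1 + 2 * n * 0) = 0 by
            ring, abs_zero]
          exact hτ0
        · refine ⟨fun h5 => absurd h5 (not_lt.2 hneg.le), ?_⟩
          rintro (h5 | h5) <;> omega
        · rintro lo hi' - - (h5 | h5) <;> omega
        · intro lo hi' _ _ _ h5; omega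
        · intro lo hi' a b _ _ _ h5
          exact hwg lo hi' a b (by omega)
        · intro lo hi' a b h5 h6; omega
        · intro lo hi' a b h5 h6; omega
        · intro lo hi' a b h5 h6; omega
      · have hie : i = n - 1 := by omega
        have hqv := lift_flat h hn hnM (y := y) (by rw [← hie]; exact h4.le) hy2.le
        refine ⟨0, 1, ⟨by omega, ?_, ?_, ?_, ?_, ?_, ?_, ?_, ?_⟩⟩
        · rw [hqv]
          unfold ps0
          rw [if_neg (by omega)]
          push_cast
          rw [show Real.pi * (2 * (n : ℝ) - 1) - Real.pi * (-1 + 2 * (n : ℝ) * 1) = 0 by ring,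
            abs_zero]
          exact hτ0
        · refine ⟨fun h5 => absurd h5 (not_lt.2 hneg.le), ?_⟩
          rintro (h5 | h5) <;> omega
        · rintro lo hi' - - (h5 | h5) <;> omega
        · intro lo hi' _ _ _ h5; omega
        · intro lo hi' a b _ h5; omega
        · intro lo hi' a b h5 h6
          exact hwg lo hi' a b (by omega)
        · intro lo hi' a b h5 h6; omega
        · intro lo hi' a b h5 h6; omega
  · -- word sector
    have h3 : β (n - 1) ≤ y := (beta_le h (show n - 1 < i by omega) (by omega)).trans h1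
    have hqv := lift_flat h hn hnM h3 hy2.le
    by_cases hc : 0 < Real.cos (wph e M α β y)
    · -- lobe of own sign `+`
      have h4 : y ≤ β i := by
        by_contra h4
        push Not at h4
        have h5 : wph e M α β y = cen e i + Real.pi * se e i := wph_flat h hi h4.le h2.le
        obtain ⟨c, hcc⟩ := exists_cen he i
        rw [h5, hcc] at hc
        rcases se_sq he i with h6 | h6
        · have := cos_near_odd (x := 2 * Real.pi * c + Real.pi * se e i) (m := c) (τ := 1 / 4)
            le_rfl (by rw [h6]; push_cast; rw [show 2 * Real.pi * (c : ℝ) + Real.pi * 1 -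
              Real.pi * (2 * c + 1) = 0 by ring, abs_zero]; norm_num)
          linarith
        · have := cos_near_odd (x := 2 * Real.pi * c + Real.pi * se e i) (m := c - 1) (τ := 1 / 4)
            le_rfl (by rw [h6]; push_cast; rw [show 2 * Real.pi * (c : ℝ) + Real.pi * -1 -
              Real.pi * (2 * (c - 1) + 1) = 0 by ring, abs_zero]; norm_num)
          linarith
      have hwl := wl h4
      refine ⟨2 * n, 1, ⟨le_rfl, ?_, ?_, ?_, ?_, ?_, ?_, ?_, ?_⟩⟩
      · rw [hqv]
        unfold ps0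
        rw [if_pos rfl]
        push_cast
        rw [show Real.pi * (2 * (n : ℝ) - 1) - Real.pi * (-1 + 2 * (n : ℝ) * 1) = 0 by ring,
          abs_zero]
        exact hτ0
      · exact ⟨fun _ => Or.inl rfl, fun _ => hc⟩
      · intro lo hi' a b _
        show wn α β lo hi' y = 0 ∨ wn α β lo hi' y = 1
        rw [hwl lo hi' a b]
        split_ifs
        · exact Or.inr rfl
        · exact Or.inl rfl
      · intro lo hi' a b h5; exact absurd rfl h5
      · intro lo hi' a b h5; exact absurd rfl h5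
      · intro lo hi' a b h5 h6; omega
      · intro lo hi' a b h5 h6
        show wn α β lo hi' y = 0
        rw [hwl lo hi' a b, if_neg (by omega)]
      · intro lo hi' a b h5 h6
        show wn α β lo hi' y = 1
        rw [hwl lo hi' a b.le, if_pos (by omega)]
    · refine ⟨0, 1, ⟨by omega, ?_, ?_, ?_, ?_, ?_, ?_, ?_, ?_⟩⟩
      · rw [hqv]
        unfold ps0
        rw [if_neg (by omega)]
        push_cast
        rw [show Real.pi * (2 * (n : ℝ) - 1) - Real.pi * (-1 + 2 * (n : ℝ) * 1) = 0 by ring,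
          abs_zero]
        exact hτ0
      · refine ⟨fun h5 => absurd h5 hc, ?_⟩
        rintro (h5 | h5) <;> omega
      · rintro lo hi' - - (h5 | h5) <;> omega
      · intro lo hi' _ _ _ h5; omega
      · intro lo hi' a b _ h5; omega
      · intro lo hi' a b h5 h6
        show wn α β lo hi' y = 0
        rcases le_or_gt y (β i) with h4 | h4
        · rw [wl h4 lo hi' a b, if_neg (by omega)]
        · exact wg h4.le lo hi' a b (by omega)
      · intro lo hi' a b h5 h6; omega
      · intro lo hi' a b h5 h6; omega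

/-- **every point where the own phase is near a multiple of `π` has a state** -/
theorem state (h : Arcs M α β) (he : ∀ l, e l = 1 ∨ e l = -1) {n : ℕ} (hn : 1 ≤ n)
    (hnM : n ≤ M + 1) (hs : ∀ i < n, se e i = 1) {τ : ℝ} (hτ : τ ≤ 1 / 4) {x : ℝ}
    (hp : ∃ m : ℤ, |wph e M α β x - Real.pi * m| ≤ τ) :
    ∃ (s : ℕ) (k : ℤ), Stt n M (fun lo hi => wn α β lo hi x) (wph e M α β x)
      (wph (fun _ => 1) (n - 1) (al' α n) β x) τ s k := by
  obtain ⟨K, y, hy1, hy2, rfl⟩ := exists_dom (α 0) x
  obtain ⟨m0, hm0⟩ := exists_tot he M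
  have hpe : wph e M α β (y + 2 * Real.pi * K) =
      wph e M α β y + Real.pi * ((2 * (K * m0) : ℤ) : ℝ) := by
    rw [wph_add_int, hm0]; push_cast; ring
  have hqe : wph (fun _ => 1) (n - 1) (al' α n) β (y + 2 * Real.pi * K) =
      wph (fun _ => 1) (n - 1) (al' α n) β y + Real.pi * ((2 * n * K : ℤ) : ℝ) := by
    rw [wph_add_int, tot_one n hn]; push_cast; ring
  have hcos : Real.cos (wph e M α β (y + 2 * Real.pi * K)) = Real.cos (wph e M α β y) := by
    rw [hpe, show wph e M α β y + Real.pi * ((2 * (K * m0) : ℤ) : ℝ) =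
      wph e M α β y + ((K * m0 : ℤ) : ℝ) * (2 * Real.pi) by push_cast; ring,
      Real.cos_add_int_mul_two_pi]
  obtain ⟨m, hm⟩ := hp
  obtain ⟨s, k, S⟩ := state_dom h he hn hnM hs hτ hy1 hy2 ⟨m - 2 * (K * m0), by
    rw [hpe] at hm
    push_cast at hm ⊢
    rw [show wph e M α β y - Real.pi * ((m : ℝ) - 2 * (K * m0)) =
      wph e M α β y + Real.pi * (2 * (K * m0)) - Real.pi * m by ring]
    exact hm⟩
  refine ⟨s, k + K, ⟨S.le, ?_, ?_, ?_, ?_, ?_, ?_, ?_, ?_⟩⟩
  · have h1 := S.near
    rw [hqe]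
    push_cast at h1 ⊢
    rw [show wph (fun _ => 1) (n - 1) (al' α n) β y + Real.pi * (2 * (n : ℝ) * K) -
      Real.pi * ((ps0 n s : ℝ) + 2 * n * (k + K)) =
      wph (fun _ => 1) (n - 1) (al' α n) β y - Real.pi * ((ps0 n s : ℝ) + 2 * n * k) by ring]
    exact h1
  · rw [hcos]; exact S.sgn
  · intro lo hi a b c
    have := S.w01 lo hi a b c
    simpa only [wn_add_int] using this
  · intro lo hi a b c d
    have := S.wray lo hi a b c d
    simpa only [wn_add_int] using this
  · intro lo hi a b c d e' f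
    have := S.wgap lo hi a b c d e' f
    simpa only [wn_add_int] using this
  · intro lo hi a b c d
    have := S.wzero lo hi a b c d
    simpa only [wn_add_int] using this
  · intro lo hi a b c d
    have := S.wJ0 lo hi a b c d
    simpa only [wn_add_int] using this
  · intro lo hi a b c d
    have := S.wJ1 lo hi a b c d
    simpa only [wn_add_int] using this

variable {b : Bool} {D : SD 4}

/-- **states of the literal words, flat lifts and windows** -/
theorem state_lit (N : Num b D) (j : Fin 4) {τ : ℝ} (hτ : τ ≤ 1 / 4) {x : ℝ}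
    (hp : ∃ m : ℤ, |pp D j x - Real.pi * m| ≤ τ) :
    ∃ (s : ℕ) (k : ℤ), Stt (nh b j) (D.M j) (fun lo hi => wn (aE (D.M j)) (bE (D.M j)) lo hi x)
      (pp D j x) (hh b D j x) τ s k :=
  state (arcsE (D.M j)) (sn_pm (D := D) j) (nh_pos b j) (N.nM j) (N.hs j) hτ hp

end Crest.Agent.R267.StPos_370
end
end

-- ▼ part R267/StF_370
section

/-!
# Row 267 (helper370): states in the letters of 440 (`f`, `TabF_440.VS`) and of 222 (`g`,
`StTabG_222`)
-/

set_option autoImplicit false

noncomputable section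

open Finset Set
open Crest.Agent.R267.T3aNDefs_88 Crest.Agent.R267.Ang_739
open Crest.Agent.R267.GlNDefs_9 Crest.Agent.R267.HubDefs_284
open Crest.Agent.R267.WordPh_9 Crest.Agent.R267.WordPh2_9 Crest.Agent.R267.HubInst_370
open Crest.Agent.R267.HubFacts_370 Crest.Agent.R267.StPos_370
open Crest.Agent.R267.SFLDc_330 Crest.Agent.R267.SFLDb_330
open Crest.Agent.R267.RndP_222 (eps eps_even eps_odd)
open Crest.Agent.R267.StTab_568 (Win)

namespace Crest.Agent.R267.StF_370

theorem eps_cos {p t : ℝ} {m : ℤ} (ht : t ≤ 1 / 4) (h : |p - Real.pi * m| ≤ t) :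
    0 < Real.cos p ↔ eps m = 1 := by
  rcases Int.emod_two_eq_zero_or_one m with h1 | h1
  · obtain ⟨c, hc⟩ : ∃ c, m = 2 * c := ⟨m / 2, by omega⟩
    rw [eps_even h1]
    refine ⟨fun _ => rfl, fun _ => cos_near_even ht (m := c) ?_⟩
    rw [← hc]; exact h
  · obtain ⟨c, hc⟩ : ∃ c, m = 2 * c + 1 := ⟨m / 2, by omega⟩
    rw [eps_odd h1]
    have h2 : Real.cos p < 0 := cos_near_odd ht (m := c) (by rw [← hc]; exact h)
    constructor
    · intro h3; linarith
    · intro h3; norm_num at h3


/-- **StG** (222) -/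
theorem stG : ∀ i : Fin 3, ∀ x : ℝ, ∀ t ≤ (1 / 4 : ℝ),
    (∃ m : ℤ, |pp DgL i.castSucc x - Real.pi * m| ≤ t) → ∃ s : ℕ, ∃ k : ℤ, s ≤ 10 ∧
      |hh false DgL i.castSucc x - Real.pi * ((StTabG_222.pos s + 10 * k : ℤ) : ℝ)| ≤ t ∧
      (0 < Real.cos (pp DgL i.castSucc x) ↔ StTabG_222.plus s = true) ∧
      (∀ lo hi, lo ≤ hi → hi ≤ DgL.M i.castSucc → StTabG_222.plus s = true →
        wn (aE (DgL.M i.castSucc)) (bE (DgL.M i.castSucc)) lo hi x = 0 ∨
        wn (aE (DgL.M i.castSucc)) (bE (DgL.M i.castSucc)) lo hi x = 1) ∧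
      (∀ (W : Win) (lo hi : ℕ), (W = .arm ∧ lo = 4 ∧ hi = DgL.M i.castSucc) ∨
          (W = .hub (lo + 1) (hi + 1) ∧ lo < hi ∧ hi ≤ 4) →
        (StTabG_222.poss s W = false →
          wn (aE (DgL.M i.castSucc)) (bE (DgL.M i.castSucc)) lo hi x = 0) ∧
        (StTabG_222.full s W = true →
          wn (aE (DgL.M i.castSucc)) (bE (DgL.M i.castSucc)) lo hi x = 1)) ∧
      -- windows inside the word sector vanish on the hub rays
      (StTabG_222.ray s = true → ∀ lo hi, 4 ≤ lo → lo ≤ hi → hi ≤ DgL.M i.castSucc →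
        wn (aE (DgL.M i.castSucc)) (bE (DgL.M i.castSucc)) lo hi x = 0) := by
  intro i x t ht hm
  have hn : nh false i.castSucc = 5 := by fin_cases i <;> rfl
  have hM : 10 ≤ DgL.M i.castSucc := by
    have h1 : ∀ i : Fin 3, 10 ≤ MM i.castSucc := by decide
    exact h1 i
  obtain ⟨s, k, S⟩ := state_lit num_g i.castSucc (τ := t) ht hm
  rw [hn] at S
  set M := DgL.M i.castSucc with hMd
  have hplus : StTabG_222.plus s = true ↔ Plus 5 s := by
    unfold StTabG_222.plus Plus
    simp
  have hray : StTabG_222.ray s = true ↔ s ≠ 10 ∧ s % 2 = 1 := by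
    unfold StTabG_222.ray
    simp
  refine ⟨s, k, S.le, ?_, ?_, ?_, ?_, ?_⟩
  · have h1 := S.near
    have h2 : (StTabG_222.pos s + 10 * k : ℤ) = ps0 5 s + 2 * ((5 : ℕ) : ℤ) * k := by
      unfold StTabG_222.pos ps0
      split_ifs <;> push_cast <;> ring
    rw [h2]
    exact h1
  · rw [hplus]; exact S.sgn
  · intro lo hi h1 h2 h3
    exact S.w01 lo hi h1 h2 (hplus.1 h3)
  · rintro W lo hi (⟨rfl, rfl, rfl⟩ | ⟨rfl, h1, h2⟩)
    · constructor
      · intro h3
        simp only [StTabG_222.poss, Bool.or_eq_false_iff, beq_eq_false_iff_ne, ne_eq] at h3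
        rcases Nat.mod_two_eq_zero_or_one s with h4 | h4
        · have hle := S.le
          exact S.wgap _ _ (by omega) le_rfl (by omega) h3.2 h4 (by omega)
        · have hle := S.le
          rw [S.wray _ _ (by omega) le_rfl (by omega) h4, if_neg (by omega)]
      · intro h3
        simp only [StTabG_222.full, beq_iff_eq] at h3
        exact S.wJ1 _ _ (by omega) rfl (by omega) (by omega)
    · constructor
      · intro h3
        simp only [StTabG_222.poss, Bool.or_eq_false_iff, Bool.and_eq_false_iff,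
          decide_eq_false_iff_not, bne_eq_false_iff_eq, beq_eq_false_iff_ne, ne_eq] at h3
        by_cases h5 : s = 10
        · exact S.wJ0 _ _ (by omega) (by omega) h5 (by omega)
        · by_cases h6 : s = 0
          · exact S.wzero _ _ (by omega) (by omega) h6 (by omega)
          · rcases Nat.mod_two_eq_zero_or_one s with h7 | h7
            · exact S.wgap _ _ (by omega) (by omega) h5 h6 h7 (by omega)
            · rw [S.wray _ _ (by omega) (by omega) h5 h7, if_neg (by omega)]
      · intro h3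
        simp only [StTabG_222.full, Bool.and_eq_true, decide_eq_true_eq] at h3
        have h4 := hray.1 h3.1.1
        rw [S.wray _ _ (by omega) (by omega) h4.1 h4.2, if_pos (by omega)]
  · intro h1 lo hi h2 h3 h4
    have h5 := hray.1 h1
    have hle := S.le
    rw [S.wray _ _ h3 h4 h5.1 h5.2, if_neg (by omega)]

end Crest.Agent.R267.StF_370
end
end

-- ▼ part R267/PatGR_222

/-!
# Row 267, T3N hub step for `g` (helper222): real sign patterns, robust form

Same letters as `PatF_568`: variables `0, 1, 2, 3 = x, y, z, w`, own magnitudes `R i`, own signs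
`e i = ± 1`, couplings `a` (`x³ y z`) and `b` (`x y² z²`), signs `sa, sb = ± 1`, boxes `c`.

Radial equations (equal shares):
`e 0 R 0 + (3 sa a + sb b) / 5 = N 0`, `e i R i + (sa a + 2 sb b) / 5 = N i` (`i = 1, 2`),
`e 3 R 3 = N 3`.  The monomial identities are used one-sidedly with a factor `k`:
`b R0 A² ≤ k B a²`, `a R1 R2 B³ ≤ k A b³`.  The tables are needed only for `0 < a`, `0 < b`.
-/

set_option autoImplicit false

namespace Crest.Agent.R267.PatGR_222

open Finset
open Crest.Agent.R267.PatF_568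

variable {κ : Type} [Fintype κ] {R e : Fin 4 → ℝ} {S : κ → Finset (Fin 4)}
  {th : κ → Fin 4 → ℝ} {la de : κ → ℝ}


/-- **real sign patterns of `g`**, with the table signs of both couplings (also when one of them
vanishes). -/
theorem patG2 (h : Bx R e S th la de) {A B a b sa sb k : ℝ}
    (hA : 0 ≤ A) (hB : 0 ≤ B) (hk : 0 ≤ k) (ha : 0 ≤ a) (hb : 0 ≤ b)
    (hI1 : b * R 0 * A ^ 2 ≤ k * B * a ^ 2) (hI2 : a * (R 1 * R 2) * B ^ 3 ≤ k * A * b ^ 3)
    (hsa : sa = 1 ∨ sa = -1) (hsb : sb = 1 ∨ sb = -1)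
    (hx : e 0 * R 0 + (3 * (sa * a) + sb * b) / 5 = ∑ c, th c 0 * de c)
    (hy : e 1 * R 1 + (sa * a + 2 * (sb * b)) / 5 = ∑ c, th c 1 * de c)
    (hz : e 2 * R 2 + (sa * a + 2 * (sb * b)) / 5 = ∑ c, th c 2 * de c)
    (hw : e 3 * R 3 = ∑ c, th c 3 * de c)
    -- everything below is needed only if one of the couplings is active
    (T : 0 < a ∨ 0 < b → 0 < R 0 ∧ 0 < R 1 ∧ 0 < R 2 ∧
      (sa = -1 → sb = -1 → e 0 = 1 → e 1 = 1 → e 2 = 1 → ∃ c, S c ⊆ {0, 1, 2} ∧ la c = 1) ∧
      (sa = 1 → sb = 1 → ∃ i ∈ ({0, 1, 2} : Finset (Fin 4)), e i = 1 ∧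
        ∀ c, i ∈ S c → la c = 0) ∧
      (sa = 1 → sb = -1 → e 0 = 1 ∧
        ∀ c, 0 ∈ S c → la c = 0 ∨ (th c 0 ≤ th c 1 ∧ th c 0 ≤ th c 2)) ∧
      (sa = 1 → sb = -1 → e 0 = 1 → e 1 = 1 → e 2 = 1 → ∃ c, S c ⊆ {0, 1, 2} ∧ la c = 1) ∧
      (sa = 1 → sb = -1 → 0 < a → 27 * k * A < B ^ 3) ∧
      (sa = -1 → sb = 1 → e 0 = -1 → ∃ i ∈ ({1, 2} : Finset (Fin 4)), e i = 1 ∧
        ∀ c, i ∈ S c → la c = 0 ∨ th c i ≤ th c 0) ∧
      (sa = -1 → sb = 1 → e 0 = 1 → (∃ i ∈ ({1, 2} : Finset (Fin 4)), e i = 1 ∧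
        ∃ c, S c = {0, i} ∧ la c = 1 ∧ th c i ≤ th c 0 ∧
          ∀ c', i ∈ S c' → c' = c ∨ la c' = 0) ∧ (0 < b → 4 * k * B < A ^ 2)))
    (i : Fin 4) : R i = 0 := by
  have R0 := h.R0
  have N0 := h.N_nonneg
  have e1 := h.e1
  have own : a = 0 → b = 0 → ∀ i, R i = 0 := by
    intro h1 h2
    refine h.own fun i => ?_
    rw [h1, h2] at hx hy hz
    simp only [mul_zero, add_zero, zero_div] at hx hy hz
    fin_cases i
    · simpa using hx
    · simpa using hy
    · simpa using hz
    · simpa using hw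
  have esg : ∀ i, 0 < e i * R i → e i = 1 := fun i h1 =>
    (e1 i).resolve_right fun h2 => by
      rw [h2] at h1
      have := R0 i
      linarith
  by_cases hab : 0 < a ∨ 0 < b
  swap
  · push Not at hab
    exact own (le_antisymm hab.1 ha) (le_antisymm hab.2 hb) i
  exfalso
  obtain ⟨hR0, hR1, hR2, Tmm, Tpp, Tpm0, Tpm1, Tpm2, Tmp0, Tmp1⟩ := T hab
  have key : (∑ c, th c 0 * de c ≤ R 0) → (∑ c, th c 1 * de c ≤ R 1) →
      (∑ c, th c 2 * de c ≤ R 2) → (∃ c, S c ⊆ {0, 1, 2} ∧ la c = 1) → False := by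
    intro h0 h1 h2 ⟨c, hc, hl⟩
    refine h.no_box hl fun i hi => ?_
    rcases (by simpa using hc hi : i = 0 ∨ i = 1 ∨ i = 2) with rfl | rfl | rfl
    · exact ⟨h0, hR0⟩
    · exact ⟨h1, hR1⟩
    · exact ⟨h2, hR2⟩
  have hsum : 0 < a + b := by
    rcases hab with h1 | h1 <;> linarith
  rcases hsa with h1 | h1 <;> rcases hsb with h2 | h2
  · rw [h1, h2] at hx hy hz
    obtain ⟨i, hi, hei, hbx⟩ := Tpp h1 h2
    have hN : ∑ c, th c i * de c = 0 := h.N_zero fun c hc => h.off c (hbx c hc)
    have h5 := R0 i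
    rcases (by simpa using hi : i = 0 ∨ i = 1 ∨ i = 2) with rfl | rfl | rfl
    · rw [hei, hN] at hx; linarith
    · rw [hei, hN] at hy; linarith
    · rw [hei, hN] at hz; linarith
  · -- `(+, -)`
    rw [h1, h2] at hx hy hz
    obtain ⟨he0, hT⟩ := Tpm0 h1 h2
    rw [he0] at hx
    have hN01 : ∑ c, th c 0 * de c ≤ ∑ c, th c 1 * de c := by
      refine Finset.sum_le_sum fun c _ => ?_
      by_cases hc : (0 : Fin 4) ∈ S c
      · rcases hT c hc with h3 | h3
        · rw [h.off c h3, mul_zero, mul_zero]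
        · exact mul_le_mul_of_nonneg_right h3.1 (h.de0 c)
      · rw [h.ths c 0 hc, zero_mul]
        exact mul_nonneg (h.th0 c 1) (h.de0 c)
    have hN02 : ∑ c, th c 0 * de c ≤ ∑ c, th c 2 * de c := by
      refine Finset.sum_le_sum fun c _ => ?_
      by_cases hc : (0 : Fin 4) ∈ S c
      · rcases hT c hc with h3 | h3
        · rw [h.off c h3, mul_zero, mul_zero]
        · exact mul_le_mul_of_nonneg_right h3.2 (h.de0 c)
      · rw [h.ths c 0 hc, zero_mul]
        exact mul_nonneg (h.th0 c 2) (h.de0 c)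
    have hN0 := N0 0
    have he1 : e 1 = 1 := by
      refine (e1 1).resolve_right fun h3 => ?_
      rw [h3] at hy
      linarith
    have he2 : e 2 = 1 := by
      refine (e1 2).resolve_right fun h3 => ?_
      rw [h3] at hz
      linarith
    rw [he1] at hy
    rw [he2] at hz
    rcases lt_or_ge (3 * a) b with h3 | h3
    · exact key (by linarith) (by linarith) (by linarith) (Tpm1 h1 h2 he0 he1 he2)
    · have ha0 : 0 < a := by linarith
      have hAB := Tpm2 h1 h2 ha0
      have b1 : b ≤ 3 * R 1 := by linarith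
      have b2 : b ≤ 3 * R 2 := by linarith
      have b3 : b ^ 3 ≤ 27 * (a * (R 1 * R 2)) := by
        calc b ^ 3 = b * (b * b) := by ring
          _ ≤ (3 * a) * ((3 * R 1) * (3 * R 2)) :=
            mul_le_mul h3 (mul_le_mul b1 b2 hb (by linarith)) (by positivity) (by linarith)
          _ = 27 * (a * (R 1 * R 2)) := by ring
      have hpos : 0 < a * (R 1 * R 2) := by positivity
      have b5 : a * (R 1 * R 2) * (27 * k * A) < a * (R 1 * R 2) * B ^ 3 :=
        mul_lt_mul_of_pos_left hAB hpos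
      have b6 : k * A * b ^ 3 ≤ k * A * (27 * (a * (R 1 * R 2))) :=
        mul_le_mul_of_nonneg_left b3 (mul_nonneg hk hA)
      linarith
  · -- `(-, +)`
    rw [h1, h2] at hx hy hz
    rcases e1 0 with he0 | he0
    · obtain ⟨⟨i, hi, hei, c, hSc, hlc, hth, hoth⟩, hAB⟩ := Tmp1 h1 h2 he0
      rw [he0] at hx
      have hNi : ∑ c, th c i * de c = th c i * de c := by
        refine Finset.sum_eq_single c (fun c' _ hne => ?_) fun hc => absurd (mem_univ c) hc
        by_cases hic : i ∈ S c'
        · rcases hoth c' hic with h3 | h3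
          · exact absurd h3 hne
          · rw [h.off c' h3, mul_zero]
        · rw [h.ths c' i hic, zero_mul]
      have hle : ∑ c, th c i * de c ≤ ∑ c, th c 0 * de c := by
        rw [hNi]
        exact (mul_le_mul_of_nonneg_right hth (h.de0 c)).trans (h.le_N c 0)
      have hRi : 0 < R i := by
        rcases (by simpa using hi : i = 1 ∨ i = 2) with rfl | rfl
        · exact hR1
        · exact hR2
      have hi' : R i + (-1 * a + 2 * (1 * b)) / 5 = ∑ c, th c i * de c := by
        rcases (by simpa using hi : i = 1 ∨ i = 2) with rfl | rfl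
        · rw [hei] at hy; linarith
        · rw [hei] at hz; linarith
      rcases le_or_gt (2 * b) a with h3 | h3
      · refine h.no_box hlc fun j hj => ?_
        rw [hSc, mem_insert, mem_singleton] at hj
        rcases hj with rfl | rfl
        · exact ⟨by linarith, hR0⟩
        · exact ⟨by linarith, hRi⟩
      · have hb0 : 0 < b := by linarith
        have b1 : a / 2 ≤ R 0 := by linarith
        have b2 : a / 2 * (a / 2) ≤ b * R 0 := mul_le_mul (by linarith) b1 (by linarith) hb
        have b4 : 0 < b * R 0 := mul_pos hb0 hR0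
        have b5 : b * R 0 * (4 * k * B) < b * R 0 * A ^ 2 := mul_lt_mul_of_pos_left (hAB hb0) b4
        have b6 : k * B * (a / 2 * (a / 2)) ≤ k * B * (b * R 0) :=
          mul_le_mul_of_nonneg_left b2 (mul_nonneg hk hB)
        linarith
    · obtain ⟨i, hi, hei, hbx⟩ := Tmp0 h1 h2 he0
      rw [he0] at hx
      have hle : ∑ c, th c i * de c ≤ ∑ c, th c 0 * de c := by
        refine Finset.sum_le_sum fun c _ => ?_
        by_cases hc : i ∈ S c
        · rcases hbx c hc with h3 | h3
          · rw [h.off c h3, mul_zero, mul_zero]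
          · exact mul_le_mul_of_nonneg_right h3 (h.de0 c)
        · rw [h.ths c i hc, zero_mul]
          exact mul_nonneg (h.th0 c 0) (h.de0 c)
      have hN0 := N0 0
      rcases (by simpa using hi : i = 1 ∨ i = 2) with rfl | rfl
      · rw [hei] at hy; linarith
      · rw [hei] at hz; linarith
  · rw [h1, h2] at hx hy hz
    have hN0 := N0 0
    have hN1 := N0 1
    have hN2 := N0 2
    have he0 : e 0 = 1 := esg 0 (by linarith)
    have he1 : e 1 = 1 := esg 1 (by linarith)
    have he2 : e 2 = 1 := esg 2 (by linarith)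
    rw [he0] at hx
    rw [he1] at hy
    rw [he2] at hz
    exact key (by linarith) (by linarith) (by linarith) (Tmm h1 h2 he0 he1 he2)

/-- **non real conormal, `g`** (all boxes and flat couplings vanish). -/
theorem patG_im {R e : Fin 4 → ℝ} (R0 : ∀ i, 0 ≤ R i) (e1 : ∀ i, e i = 1 ∨ e i = -1)
    {a b sa sb : ℝ} (ha : 0 ≤ a) (hb : 0 ≤ b)
    (hapos : 0 < a → 0 < R 0 ∧ 0 < R 1 ∧ 0 < R 2) (hbpos : 0 < b → 0 < R 0 ∧ 0 < R 1 ∧ 0 < R 2)
    (hx : e 0 * R 0 + (3 * (sa * a) + sb * b) / 5 = 0)
    (hy : e 1 * R 1 + (sa * a + 2 * (sb * b)) / 5 = 0)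
    (hz : e 2 * R 2 + (sa * a + 2 * (sb * b)) / 5 = 0) (hw : e 3 * R 3 = 0)
    (Tb : 0 < b → sb = e 0 ∨ sb = e 1 ∨ sb = e 2)
    (Ta : 0 < a → sa = e 0 ∨ sa = e 1 ∨ sa = e 2)
    (Tab : 0 < a → 0 < b → sa = e 0 ∨ sa = sb)
    (i : Fin 4) : R i = 0 := by
  have zero : ∀ i, e i * R i = 0 → R i = 0 := fun i h => by
    rcases e1 i with h2 | h2 <;> rw [h2] at h <;> linarith
  have key : a = 0 ∧ b = 0 := by
    by_contra hcon
    have hab : 0 < a ∨ 0 < b := by
      by_contra h1
      push Not at h1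
      exact hcon ⟨le_antisymm h1.1 ha, le_antisymm h1.2 hb⟩
    obtain ⟨hR0, hR1, hR2⟩ : 0 < R 0 ∧ 0 < R 1 ∧ 0 < R 2 := by
      rcases hab with hab | hab
      · exact hapos hab
      · exact hbpos hab
    have h12 : e 1 = e 2 := by
      rcases e1 1 with h | h <;> rcases e1 2 with h' | h' <;> rw [h, h'] <;>
        rw [h] at hy <;> rw [h'] at hz <;> exfalso <;> linarith
    rcases ha.eq_or_lt with ha0 | ha0
    · have hb0 : 0 < b := hab.resolve_left (by rw [← ha0]; exact lt_irrefl 0)
      rw [← ha0] at hx hy hz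
      rcases Tb hb0 with h | h | h <;> rw [h] at hx hy hz <;>
        rcases e1 0 with h0 | h0 <;> rcases e1 1 with h1 | h1 <;> rcases e1 2 with h2 | h2 <;>
        simp only [h0, h1, h2] at hx hy hz <;> linarith
    rcases hb.eq_or_lt with hb0 | hb0
    · rw [← hb0] at hx hy hz
      rcases Ta ha0 with h | h | h <;> rw [h] at hx hy hz <;>
        rcases e1 0 with h0 | h0 <;> rcases e1 1 with h1 | h1 <;> rcases e1 2 with h2 | h2 <;>
        simp only [h0, h1, h2] at hx hy hz <;> linarith
    rcases Tab ha0 hb0 with h | h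
    · -- `sa = e 0`
      rcases Tb hb0 with h' | h' | h' <;> rw [h, h'] at hx hy hz <;>
        rcases e1 0 with h0 | h0 <;> rcases e1 1 with h1 | h1 <;> rcases e1 2 with h2 | h2 <;>
        simp only [h0, h1, h2] at hx hy hz <;> linarith
    · rcases Tb hb0 with h' | h' | h' <;> rw [h, h'] at hx hy hz <;>
        rcases e1 0 with h0 | h0 <;> rcases e1 1 with h1 | h1 <;> rcases e1 2 with h2 | h2 <;>
        simp only [h0, h1, h2] at hx hy hz <;> linarith
  rw [key.1, key.2] at hx hy hz
  simp only [mul_zero, add_zero, zero_div] at hx hy hz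
  apply zero
  fin_cases i
  · simpa using hx
  · simpa using hy
  · simpa using hz
  · simpa using hw

end Crest.Agent.R267.PatGR_222
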