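import Crest.Agent.R267.PatF_568
import Crest.Agent.R267.HubBx_370
import Crest.Agent.R267.TabF_440
import Crest.Agent.R267.HubFacts_370
import Crest.Agent.R267.StTabG_222

-- ▼ part R267/PatFR_440
section

/-!
# Row 267, C7-f (helper440): robust real sign patterns of `f`

`PatF_568.patF` with
* arbitrary positive shares `wy`, `wz` of the couplings in the `y`- and `z`-equations
  (`a`: `(4/5, wy, wz)`, `b`: `(0, 5 wy, 5 wz)`);
* one-sided relations between the magnitudes (`hkey`), so that it applies to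
  `R' = |c| R`, `a' = |c_a| a`, `b' = |c_b| b` with `|c| ∈ [0.95, 1]`.
-/

set_option autoImplicit false

namespace Crest.Agent.R267.PatFR_440

open Finset
open Crest.Agent.R267.PatF_568

section

variable {κ : Type} [Fintype κ] {R e : Fin 4 → ℝ} {S : κ → Finset (Fin 4)}
  {th : κ → Fin 4 → ℝ} {la de : κ → ℝ}

/-- **robust real sign patterns of `f`**. -/
theorem patFR (h : Bx R e S th la de) {a b sa sb wy wz : ℝ} (hwy : 0 < wy) (hwz : 0 < wz)
    (ha : 0 ≤ a) (hb : 0 ≤ b)
    (hapos : 0 < a → 0 < R 0 ∧ 0 < R 1 ∧ 0 < R 2)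
    (hbpos : 0 < b → 0 < R 1 ∧ 0 < R 2)
    (hx0 : a = 0 → 0 < b → R 0 = 0)
    (hkey : 0 < a → 0 < b → 4 / 5 * a ≤ R 0 → 5 * b ≤ a)
    (hsa : sa = 1 ∨ sa = -1) (hsb : sb = 1 ∨ sb = -1)
    (hx : e 0 * R 0 + 4 / 5 * (sa * a) = ∑ c, th c 0 * de c)
    (hy : e 1 * R 1 + wy * (sa * a + 5 * (sb * b)) = ∑ c, th c 1 * de c)
    (hz : e 2 * R 2 + wz * (sa * a + 5 * (sb * b)) = ∑ c, th c 2 * de c)
    (hw : e 3 * R 3 = ∑ c, th c 3 * de c)
    -- the tables
    (Pm : sa = -1 → e 0 = 1 → e 1 = 1 → e 2 = 1 → ∃ c, S c ⊆ {0, 1, 2} ∧ la c = 1)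
    (Pp : sa = 1 → 0 < a → ∃ i ∈ ({0, 1, 2} : Finset (Fin 4)), e i = 1 ∧ ∀ c, i ∈ S c → la c = 0)
    (Qm : sb = -1 → e 1 = 1 → e 2 = 1 → ∃ c, S c ⊆ {1, 2} ∧ la c = 1)
    (Qp : sb = 1 → 0 < b → ∃ i ∈ ({1, 2} : Finset (Fin 4)), e i = 1 ∧
      ∀ c, i ∈ S c → la c = 0 ∨ 0 ∈ S c) (i : Fin 4) : R i = 0 := by
  have R0 := h.R0
  have N0 := h.N_nonneg
  have e1 := h.e1
  have esg : ∀ i, 0 < R i → 0 ≤ e i * R i → e i = 1 := fun i hi h1 =>
    (e1 i).resolve_right fun h2 => by rw [h2] at h1; linarith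
  have own : a = 0 → b = 0 → ∀ i, R i = 0 := by
    intro h1 h2
    refine h.own fun i => ?_
    rw [h1, h2] at hy hz
    rw [h1] at hx
    fin_cases i
    · simpa using hx
    · simpa using hy
    · simpa using hz
    · simpa using hw
  have bonly : a = 0 → 0 < b → sb = 1 → False := by
    intro h1 h2 h3
    have hR0 : R 0 = 0 := hx0 h1 h2
    obtain ⟨i, hi, hei, hbx⟩ := Qp h3 h2
    have hN : ∑ c, th c i * de c = 0 := h.N_zero fun c hc => by
      rcases hbx c hc with h4 | h4
      · exact h.off c h4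
      · exact h.zero c 0 h4 hR0
    have h5 := R0 i
    rw [h1, h3] at hy hz
    have py : 0 < wy * b := mul_pos hwy h2
    have pz : 0 < wz * b := mul_pos hwz h2
    rcases (by simpa using hi : i = 1 ∨ i = 2) with rfl | rfl
    · rw [hei, hN] at hy; nlinarith
    · rw [hei, hN] at hz; nlinarith
  have bneg : sb = -1 → 0 < b → sa * a ≤ 5 * b → False := by
    intro h3 h2 h4
    obtain ⟨hR1, hR2⟩ := hbpos h2
    rw [h3] at hy hz
    have hN1 := N0 1
    have hN2 := N0 2
    have q1 : wy * (sa * a + 5 * (-1 * b)) ≤ 0 :=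
      mul_nonpos_of_nonneg_of_nonpos hwy.le (by linarith)
    have q2 : wz * (sa * a + 5 * (-1 * b)) ≤ 0 :=
      mul_nonpos_of_nonneg_of_nonpos hwz.le (by linarith)
    have he1 : e 1 = 1 := esg 1 hR1 (by linarith)
    have he2 : e 2 = 1 := esg 2 hR2 (by linarith)
    obtain ⟨c, hc, hl⟩ := Qm h3 he1 he2
    refine h.no_box hl fun i hi => ?_
    rcases (by simpa using hc hi : i = 1 ∨ i = 2) with rfl | rfl
    · rw [he1] at hy; exact ⟨by linarith, hR1⟩
    · rw [he2] at hz; exact ⟨by linarith, hR2⟩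
  have aneg : sa = -1 → 0 < a → 5 * (sb * b) ≤ a → False := by
    intro h3 h2 h4
    obtain ⟨hR0, hR1, hR2⟩ := hapos h2
    rw [h3] at hx hy hz
    have hN0 := N0 0
    have hN1 := N0 1
    have hN2 := N0 2
    have q1 : wy * (-1 * a + 5 * (sb * b)) ≤ 0 :=
      mul_nonpos_of_nonneg_of_nonpos hwy.le (by linarith)
    have q2 : wz * (-1 * a + 5 * (sb * b)) ≤ 0 :=
      mul_nonpos_of_nonneg_of_nonpos hwz.le (by linarith)
    have he0 : e 0 = 1 := esg 0 hR0 (by linarith)
    have he1 : e 1 = 1 := esg 1 hR1 (by linarith)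
    have he2 : e 2 = 1 := esg 2 hR2 (by linarith)
    obtain ⟨c, hc, hl⟩ := Pm h3 he0 he1 he2
    refine h.no_box hl fun i hi => ?_
    rcases (by simpa using hc hi : i = 0 ∨ i = 1 ∨ i = 2) with rfl | rfl | rfl
    · rw [he0] at hx; exact ⟨by linarith, hR0⟩
    · rw [he1] at hy; exact ⟨by linarith, hR1⟩
    · rw [he2] at hz; exact ⟨by linarith, hR2⟩
  have apos : sa = 1 → 0 < a → 0 < a + 5 * (sb * b) → False := by
    intro h3 h2 h4
    obtain ⟨i, hi, hei, hbx⟩ := Pp h3 h2
    have hN : ∑ c, th c i * de c = 0 := h.N_zero fun c hc => h.off c (hbx c hc)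
    have h5 := R0 i
    rw [h3] at hx hy hz
    have q1 : 0 < wy * (1 * a + 5 * (sb * b)) := mul_pos hwy (by linarith)
    have q2 : 0 < wz * (1 * a + 5 * (sb * b)) := mul_pos hwz (by linarith)
    rcases (by simpa using hi : i = 0 ∨ i = 1 ∨ i = 2) with rfl | rfl | rfl
    · rw [hei, hN] at hx; linarith
    · rw [hei, hN] at hy; linarith
    · rw [hei, hN] at hz; linarith
  rcases ha.eq_or_lt with ha0 | ha0 <;> rcases hb.eq_or_lt with hb0 | hb0
  · exact own ha0.symm hb0.symm i
  · exfalso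
    rcases hsb with h1 | h1
    · exact bonly ha0.symm hb0 h1
    · exact bneg h1 hb0 (by rw [← ha0]; linarith)
  · exfalso
    rcases hsa with h1 | h1
    · exact apos h1 ha0 (by rw [← hb0]; linarith)
    · exact aneg h1 ha0 (by rw [← hb0]; linarith)
  · exfalso
    rcases hsa with h1 | h1 <;> rcases hsb with h2 | h2
    · exact apos h1 ha0 (by rw [h2]; linarith)
    · by_cases h3 : a ≤ 5 * b
      · exact bneg h2 hb0 (by rw [h1]; linarith)
      · exact apos h1 ha0 (by rw [h2]; linarith)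
    · by_cases h3 : 5 * b ≤ a
      · exact aneg h1 ha0 (by rw [h2]; linarith)
      · obtain ⟨hR0, hR1, hR2⟩ := hapos ha0
        rw [h1] at hx
        have hN0 := N0 0
        have he0 : e 0 = 1 := esg 0 hR0 (by linarith)
        rw [he0] at hx
        exact h3 (hkey ha0 hb0 (by linarith))
    · exact bneg h2 hb0 (by rw [h1]; linarith)

end

/-- **non real conormal, `f`** (all boxes and flat couplings vanish). -/
theorem patFR_im {R e : Fin 4 → ℝ} (R0 : ∀ i, 0 ≤ R i) (e1 : ∀ i, e i = 1 ∨ e i = -1)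
    {a b sa sb wy wz : ℝ} (hwy : 0 < wy) (hwz : 0 < wz) (ha : 0 ≤ a) (hb : 0 ≤ b)
    (hbpos : 0 < b → 0 < R 1 ∧ 0 < R 2)
    (hx : e 0 * R 0 + 4 / 5 * (sa * a) = 0)
    (hy : e 1 * R 1 + wy * (sa * a + 5 * (sb * b)) = 0)
    (hz : e 2 * R 2 + wz * (sa * a + 5 * (sb * b)) = 0) (hw : e 3 * R 3 = 0)
    (Ta : 0 < a → sa = e 0 ∨ sa = e 1 ∨ sa = e 2) (Tb : 0 < b → sb = e 1 ∨ sb = e 2)
    (i : Fin 4) : R i = 0 := by
  have zero : ∀ i, e i * R i = 0 → R i = 0 := fun i h => by
    rcases e1 i with h2 | h2 <;> rw [h2] at h <;> linarith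
  have hR0 := R0 0
  have hR1 := R0 1
  have hR2 := R0 2
  have key : a = 0 ∧ b = 0 := by
    rcases hb.eq_or_lt with hb0 | hb0
    · refine ⟨?_, hb0.symm⟩
      rw [← hb0] at hy hz
      by_contra hne
      have ha0 := lt_of_le_of_ne ha (Ne.symm hne)
      have p1 := mul_pos hwy ha0
      have p2 := mul_pos hwz ha0
      rcases Ta ha0 with h | h | h <;> rw [h] at hx hy hz <;>
        rcases e1 0 with h0 | h0 <;> rcases e1 1 with h1 | h1 <;> rcases e1 2 with h2 | h2 <;>
        rw [h0] at hx <;> rw [h1] at hy <;> rw [h2] at hz <;>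
        (simp only [h0, h1, h2] at hx hy hz; nlinarith)
    · exfalso
      obtain ⟨h1, h2⟩ := hbpos hb0
      -- `e 1 = e 2`
      have h12 : e 1 = e 2 := by
        rcases e1 1 with h | h <;> rcases e1 2 with h' | h' <;> rw [h, h'] <;>
          rw [h] at hy <;> rw [h'] at hz <;> exfalso
        · have q1 : wy * (sa * a + 5 * (sb * b)) < 0 := by linarith
          have q2 : 0 < wz * (sa * a + 5 * (sb * b)) := by linarith
          have q3 := neg_of_mul_neg_right q1 hwy.le
          have q4 := pos_of_mul_pos_right q2 hwz.le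
          linarith
        · have q1 : 0 < wy * (sa * a + 5 * (sb * b)) := by linarith
          have q2 : wz * (sa * a + 5 * (sb * b)) < 0 := by linarith
          have q3 := neg_of_mul_neg_right q2 hwz.le
          have q4 := pos_of_mul_pos_right q1 hwy.le
          linarith
      have hsb : sb = e 1 := by
        rcases Tb hb0 with h | h
        · exact h
        · rw [h, h12]
      rw [hsb] at hy hz
      have pb := mul_pos hwy hb0
      have ha0 : 0 < a := by
        by_contra hne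
        have : a = 0 := le_antisymm (not_lt.1 hne) ha
        rw [this] at hy
        rcases e1 1 with h | h <;> rw [h] at hy <;> nlinarith
      have pa := mul_pos hwy ha0
      rcases Ta ha0 with h | h | h
      · rw [h] at hx
        rcases e1 0 with h' | h' <;> rw [h'] at hx <;> linarith
      · rw [h] at hy
        rcases e1 1 with h' | h' <;> rw [h'] at hy <;> nlinarith
      · rw [h, ← h12] at hy
        rcases e1 1 with h' | h' <;> rw [h'] at hy <;> nlinarith
  rw [key.1, key.2] at hy hz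
  rw [key.1] at hx
  apply zero
  fin_cases i
  · simpa using hx
  · simpa using hy
  · simpa using hz
  · simpa using hw

/-! ### the magnitudes -/


end Crest.Agent.R267.PatFR_440
end

-- ▼ part R267/HubF_440
section

/-!
# Row 267, C7-f (helper440): the hub path of `f`

`StF` : positions (states) of the three variables of the literal words of `DfL`.
`noOut` : for `B = 0` or `0 < A`, `16 B ≤ A⁵` the literal hub function has no critical zero.
`path1`, `path2` : `Path1P true DfL`, `Path2P true DfL`, from `StF`.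
-/

set_option autoImplicit false

noncomputable section

open Finset Set
open Crest.Agent.R267.T3aNDefs_88 Crest.Agent.R267.Ang_739 Crest.Agent.R267.StairFn_739
open Crest.Agent.R267.GlNDefs_9 Crest.Agent.R267.HubDefs_284 Crest.Agent.R267.HubEng_370
open Crest.Agent.R267.WordPh_9 Crest.Agent.R267.WordPh2_9 Crest.Agent.R267.HubInst_370
open Crest.Agent.R267.PolF_943 Crest.Agent.R267.LemL_951 Crest.Agent.R267.RndP_222
open Crest.Agent.R267.StairPh_739 Crest.Agent.R267.HubBx_370 Crest.Agent.R267.SFLDc_330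
open Crest.Agent.R267.PatFR_440
open Crest.Agent.R267.TabF_440 (VS ipos laF Hyp eps_al eps_be)

namespace Crest.Agent.R267.HubF_440

/-- windows of the variable `j` at the angle `x`. -/
def Wd (j : Fin 4) (x : ℝ) (lo hi : ℕ) : ℝ :=
  wn (aE (DfL.M j)) (bE (DfL.M j)) lo hi x

/-- **positions**: a variable whose own phase is close to a multiple of `π` is in a state. -/
def StF : Prop := ∀ i : Fin 3, ∀ x : ℝ, ∀ m : ℤ, ∀ t ≤ 1 / 10,
  |pp DfL i.castSucc x - Real.pi * m| ≤ t → ∃ s : ℕ, ∃ k : ℤ,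
    VS i s (Wd i.castSucc x) ∧
    |hh true DfL i.castSucc x - Real.pi * (ipos i s k : ℤ)| ≤ t ∧
    (StTab_568.plus i s = true ↔ eps m = 1)

/-! ### magnitudes -/

/-- one-sided consequences of `B a⁵ = A⁵ x⁴ b` for perturbed magnitudes. -/
theorem key2 {A B a b x a' b' x' : ℝ} (hA : 0 < A) (hB : 0 < B) (hBA : 16 * B ≤ A ^ 5)
    (hid : B * a ^ 5 = A ^ 5 * (x ^ 4 * b)) (ha : 0 ≤ a) (hb : 0 ≤ b) (hx : 0 ≤ x)
    (h1 : 19 / 20 * a ≤ a') (h2 : b' ≤ b) (h3 : x' ≤ x) (h3' : 0 ≤ x') :
    (a' = 0 → 0 < b' → x' = 0) ∧ (0 < a' → a' ≤ a → 4 / 5 * a' ≤ x' → 5 * b' ≤ a') := by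
  constructor
  · intro h4 h5
    have h6 : a = 0 := le_antisymm (by linarith) ha
    rw [h6] at hid
    have h7 : A ^ 5 * (x ^ 4 * b) = 0 := by rw [← hid]; ring
    have h8 : x ^ 4 * b = 0 := (mul_eq_zero.1 h7).resolve_left (by positivity)
    have h9 : x ^ 4 = 0 := (mul_eq_zero.1 h8).resolve_right (by linarith)
    have h10 : x = 0 := by
      by_contra h11
      exact pow_ne_zero 4 h11 h9
    exact le_antisymm (by linarith) h3'
  · intro h4 h4' h5
    have h6 : 0 < a := lt_of_lt_of_le h4 h4'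
    have h7 : 19 / 25 * a ≤ x := by linarith
    have h8 : (19 / 25 * a) ^ 4 ≤ x ^ 4 := pow_le_pow_left₀ (by positivity) h7 4
    have h9 : A ^ 5 * ((19 / 25 * a) ^ 4 * b) ≤ B * a ^ 5 := by
      rw [hid]; gcongr
    have h10 : (19 / 25) ^ 4 * A ^ 5 * b ≤ B * a := by
      have h11 : 0 < a ^ 4 := pow_pos h6 4
      refine le_of_mul_le_mul_left ?_ h11
      calc a ^ 4 * ((19 / 25) ^ 4 * A ^ 5 * b) = A ^ 5 * ((19 / 25 * a) ^ 4 * b) := by ring
        _ ≤ B * a ^ 5 := h9
        _ = a ^ 4 * (B * a) := by ring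
    have h11 : (19 / 25) ^ 4 * (16 * B) * b ≤ B * a := by
      refine le_trans ?_ h10
      gcongr
    have h12 : (19 / 25) ^ 4 * 16 * b ≤ a := by
      refine le_of_mul_le_mul_left ?_ hB
      calc B * ((19 / 25) ^ 4 * 16 * b) = (19 / 25) ^ 4 * (16 * B) * b := by ring
        _ ≤ B * a := h11
    nlinarith

/-! ### the boxes with the window `0` over vanishing variables -/

theorem bx_mono {κ : Type} [Fintype κ] {R e : Fin 4 → ℝ} {S : κ → Finset (Fin 4)}
    {th : κ → Fin 4 → ℝ} {la la' de : κ → ℝ} (h : PatF_568.Bx R e S th la de)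
    (h01 : ∀ c, (∀ i ∈ S c, e i = 1) → la' c = 0 ∨ la' c = 1)
    (hla : ∀ c, la' c = la c ∨ (la' c = 0 ∧ ∃ i ∈ S c, R i = 0)) :
    PatF_568.Bx R e S th la' de where
  R0 := h.R0
  e1 := h.e1
  th0 := h.th0
  ths := h.ths
  de0 := h.de0
  la01 := h01
  off := fun c hc => by
    rcases hla c with h1 | ⟨-, i, hi, h2⟩
    · exact h.off c (h1 ▸ hc)
    · exact h.zero c i hi h2
  amgm := fun c hc => by
    rcases hla c with h1 | ⟨h1, -⟩
    · exact h.amgm c (h1 ▸ hc)
    · rw [h1] at hc; norm_num at hc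
  zero := h.zero
  pos := fun c hc => by
    rcases hla c with h1 | ⟨h1, -⟩
    · exact h.pos c (h1 ▸ hc)
    · rw [h1] at hc; norm_num at hc

variable {A B : ℝ → ℝ → ℝ} {t : ℝ} {z : Fin 4 → ℂ} {ζ : ℂ}

theorem e4 : 4 * (15 * dd) ≤ 1 / 10 := by rw [edd]; norm_num

/-- the states at a real point. -/
theorem exists_hyp (hSt : StF) (F : Facts true DfL) (hs : Sched true DfL A B)
    (o : (HH true DfL A B).Out (15 * dd) t z ζ) (hr : |ζ.im| ≤ 15 * dd) :
    ∃ (s : Fin 3 → ℕ) (k : Fin 3 → ℤ),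
      Hyp (fun j => z j ≠ 0) (fun j => Wd j (ag z j)) s ((HH true DfL A B).es z ζ) ∧
      ∀ i : Fin 3, z i.castSucc ≠ 0 →
        |hh true DfL i.castSucc (ag z i.castSucc) - Real.pi * (ipos i (s i) (k i) : ℤ)| ≤
          4 * (15 * dd) := by
  have h : (HH true DfL A B).Ok univ (15 * dd) := ok dd_pos F hs
  have he5 : 5 * (15 * dd) < 1 := by rw [edd]; norm_num
  have hex : ∀ i : Fin 3, ∃ (s : ℕ) (k : ℤ), (z i.castSucc ≠ 0 →
      VS i s (Wd i.castSucc (ag z i.castSucc)) ∧
      |hh true DfL i.castSucc (ag z i.castSucc) - Real.pi * (ipos i s k : ℤ)| ≤ 4 * (15 * dd)) ∧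
      (z i.castSucc = 0 → s = 0) ∧
      (HH true DfL A B).es z ζ i.castSucc = if StTab_568.plus i s then 1 else -1 := by
    intro i
    by_cases hz : z i.castSucc = 0
    · refine ⟨0, 0, fun h1 => absurd hz h1, fun _ => rfl, ?_⟩
      rw [Hub.es_zero hz (h.D0 _).ne']
      fin_cases i <;> rfl
    · obtain ⟨n, hn, hen⟩ := Hub.Out.pos_own h he5 o hr ((h.R_pos_iff z i.castSucc).2 hz)
      obtain ⟨s, k, hv, hk, hp⟩ := hSt i (ag z i.castSucc) n (4 * (15 * dd)) e4 hn
      refine ⟨s, k, fun _ => ⟨hv, hk⟩, fun h1 => absurd h1 hz, ?_⟩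
      rw [hen]
      by_cases h1 : StTab_568.plus i s = true
      · rw [if_pos h1]; exact hp.1 h1
      · rw [if_neg h1]
        rcases eps_pm n with h2 | h2
        · exact absurd (hp.2 h2) h1
        · exact h2
  choose s k h1 h2 h3 using hex
  refine ⟨s, k, ⟨fun hz => (h1 0 hz).1, fun hz => (h1 1 hz).1, fun hz => (h1 2 hz).1,
    fun hz => h2 0 (not_not.1 hz), fun hz => h2 1 (not_not.1 hz), fun hz => h2 2 (not_not.1 hz),
    h3 0, h3 1, h3 2, ?_⟩, fun i hz => (h1 i hz).2⟩
  intro he _ lo hi hlo hhi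
  exact wn01 (arcsE (DfL.M 3)) hlo hhi (Hub.Out.es_one h o he)

/-- **no critical zero of the literal hub function of `f`**. -/
theorem noOut (hSt : StF) (F : Facts true DfL) (hs : Sched true DfL A B)
    (ht : t ∈ Icc (0 : ℝ) 1) (hz : z ≠ 0)
    (hAB : B t (ag z 0) = 0 ∨
      (0 < A t (ag z 0) ∧ 0 < B t (ag z 0) ∧ 16 * B t (ag z 0) ≤ A t (ag z 0) ^ 5)) :
    ¬ (HH true DfL A B).Out (15 * dd) t z ζ := by
  intro o
  have h : (HH true DfL A B).Ok univ (15 * dd) := ok dd_pos F hs
  have he1 : 15 * dd < 1 := by rw [edd]; norm_num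
  -- all primed magnitudes vanish: contradiction
  have hfin : ¬ ∀ i, (HH true DfL A B).Rp z ζ i = 0 := by
    intro hall
    apply hz
    funext i
    by_contra hne
    exact ((Hub.Out.Rp_pos_iff h he1 o i).2 hne).ne' (hall i)
  have R0 := fun i => Hub.Rp_nonneg (H := HH true DfL A B) (z := z) (ζ := ζ) i
  have a0 := h.rp_nonneg ht (z := z) (ζ := ζ) 0
  have b0 := h.rp_nonneg ht (z := z) (ζ := ζ) 1
  have rbd := fun v => Hub.Out.rp_bd h ht o v
  have rpos : ∀ v, 0 < (HH true DfL A B).rp t z ζ v → 0 < (HH true DfL A B).r t z v :=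
    fun v hv => lt_of_lt_of_le hv (rbd v).2
  have hpos : ∀ v i, 0 < (HH true DfL A B).rp t z ζ v → vc true v i ≠ 0 →
      0 < (HH true DfL A B).Rp z ζ i := fun v i hv hi =>
    (Hub.Out.Rp_pos_iff h he1 o i).2 (r_pos_var (rpos v hv) hi)
  have hapos : 0 < (HH true DfL A B).rp t z ζ 0 → 0 < (HH true DfL A B).Rp z ζ 0 ∧
      0 < (HH true DfL A B).Rp z ζ 1 ∧ 0 < (HH true DfL A B).Rp z ζ 2 := fun hv =>
    ⟨hpos 0 0 hv (by decide), hpos 0 1 hv (by decide), hpos 0 2 hv (by decide)⟩
  have hbpos : 0 < (HH true DfL A B).rp t z ζ 1 → 0 < (HH true DfL A B).Rp z ζ 1 ∧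
      0 < (HH true DfL A B).Rp z ζ 2 := fun hv =>
    ⟨hpos 1 1 hv (by decide), hpos 1 2 hv (by decide)⟩
  obtain ⟨q0, q1, q2, q3⟩ := eq_f F o
  rcases le_or_gt |ζ.im| (15 * dd) with hr | hr
  · -- real conormal
    obtain ⟨s, k, hyp, hk⟩ := exists_hyp hSt F hs o hr
    have hu : (fun i : Fin 3 => lft (HH true DfL A B).ph (ag z) i.castSucc) =
        fun i : Fin 3 => hh true DfL i.castSucc (ag z i.castSucc) := rfl
    -- signs of the couplings
    have hsA : 0 < (HH true DfL A B).rp t z ζ 0 →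
        (HH true DfL A B).sv z ζ 0 = if StTab_568.sa s then 1 else -1 := by
      intro hv
      have hz0 : z 0 ≠ 0 := r_pos_var (rpos 0 hv) (by decide)
      have hz1 : z 1 ≠ 0 := r_pos_var (rpos 0 hv) (by decide)
      have hz2 : z 2 ≠ 0 := r_pos_var (rpos 0 hv) (by decide)
      have hN : Near (fun i : Fin 3 => hh true DfL i.castSucc (ag z i.castSucc))
          (ipos 0 (s 0) (k 0)) (ipos 1 (s 1) (k 1)) (ipos 2 (s 2) (k 2)) (4 * (15 * dd)) :=
        ⟨hk 0 hz0, hk 1 hz1, hk 2 hz2⟩
      have h1 := near_fAl dd_pos (by rw [edd]; norm_num) hN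
      have h2 : (HH true DfL A B).Φ 0 (lft (HH true DfL A B).ph (ag z)) =
          fAl (Hs dd_pos) (fun i : Fin 3 => hh true DfL i.castSucc (ag z i.castSucc)) := rfl
      rw [← h2] at h1
      rw [← eps_al s k]
      exact Hub.Out.sv_eq o hr h1 (by unfold dd; norm_num)
    have hsB : 0 < (HH true DfL A B).rp t z ζ 1 →
        (HH true DfL A B).sv z ζ 1 = if StTab_568.sb s then 1 else -1 := by
      intro hv
      have hz1 : z 1 ≠ 0 := r_pos_var (rpos 1 hv) (by decide)
      have hz2 : z 2 ≠ 0 := r_pos_var (rpos 1 hv) (by decide)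
      have h1 := near_fBe dd_pos (u := fun i : Fin 3 => hh true DfL i.castSucc (ag z i.castSucc))
        (hk 1 hz1) (hk 2 hz2)
      have h2 : (HH true DfL A B).Φ 1 (lft (HH true DfL A B).ph (ag z)) =
          fBe (Hs dd_pos) (fun i : Fin 3 => hh true DfL i.castSucc (ag z i.castSucc)) := rfl
      rw [← h2] at h1
      rw [← eps_be s k]
      exact Hub.Out.sv_eq o hr h1 (by unfold dd; norm_num)
    have eA : (HH true DfL A B).sv z ζ 0 * (HH true DfL A B).rp t z ζ 0 =
        (if StTab_568.sa s then 1 else -1) * (HH true DfL A B).rp t z ζ 0 := by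
      rcases a0.eq_or_lt with h0 | h0
      · rw [← h0]; simp
      · rw [hsA h0]
    have eB : (HH true DfL A B).sv z ζ 1 * (HH true DfL A B).rp t z ζ 1 =
        (if StTab_568.sb s then 1 else -1) * (HH true DfL A B).rp t z ζ 1 := by
      rcases b0.eq_or_lt with h0 | h0
      · rw [← h0]; simp
      · rw [hsB h0]
    rw [eA] at q0
    rw [eA, eB] at q1 q2
    -- the boxes
    have hbx := bx F hs o
    have hbx' : PatF_568.Bx ((HH true DfL A B).Rp z ζ) ((HH true DfL A B).es z ζ)
        (fun c => (DfL.bx c).S) (HubBx_370.sb DfL)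
        (laF (fun j => z j ≠ 0) fun j => Wd j (ag z j)) ((HH true DfL A B).Bp z ζ) := by
      refine bx_mono hbx hyp.la01 fun c => ?_
      by_cases hall : ∀ j ∈ (DfL.bx c).S, z j ≠ 0
      · left
        show laF _ _ c = (HH true DfL A B).La c (ag z)
        rw [La_eq]
        unfold laF
        rw [if_pos hall]
        rfl
      · right
        refine ⟨by unfold laF; rw [if_neg hall], ?_⟩
        push Not at hall
        obtain ⟨j, hj, hj0⟩ := hall
        refine ⟨j, hj, ?_⟩
        by_contra hne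
        exact (Hub.Out.Rp_pos_iff h he1 o j).1 (lt_of_le_of_ne (R0 j) (Ne.symm hne)) hj0
    -- the magnitudes
    have hmag : ((HH true DfL A B).rp t z ζ 0 = 0 → 0 < (HH true DfL A B).rp t z ζ 1 →
          (HH true DfL A B).Rp z ζ 0 = 0) ∧
        (0 < (HH true DfL A B).rp t z ζ 0 → 0 < (HH true DfL A B).rp t z ζ 1 →
          4 / 5 * (HH true DfL A B).rp t z ζ 0 ≤ (HH true DfL A B).Rp z ζ 0 →
          5 * (HH true DfL A B).rp t z ζ 1 ≤ (HH true DfL A B).rp t z ζ 0) := by
      rcases hAB with hB | ⟨hA, hB, hAB⟩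
      · have hr1 : (HH true DfL A B).r t z 1 = 0 := by
          rw [r_eq, if_neg (by decide), hB, zero_mul]
        have hp1 : ¬ 0 < (HH true DfL A B).rp t z ζ 1 := fun h1 => (rpos 1 h1).ne' hr1
        exact ⟨fun _ h1 => absurd h1 hp1, fun _ h1 => absurd h1 hp1⟩
      · have h19 : 19 / 20 * (HH true DfL A B).r t z 0 ≤ (HH true DfL A B).rp t z ζ 0 := by
          refine le_trans ?_ (rbd 0).1
          refine mul_le_mul_of_nonneg_right ?_ (h.r_nonneg ht z 0)
          rw [edd]; norm_num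
        have key := key2 hA hB hAB (rel_f (D := DfL) (A := A) (B := B) (t := t) (z := z))
          (h.r_nonneg ht z 0) (h.r_nonneg ht z 1) (Hub.R_nonneg z 0) h19 (rbd 1).2
          (Hub.Out.Rp_bd h o 0).2 (R0 0)
        exact ⟨key.1, fun h1 _ h2 => key.2 h1 (rbd 0).2 h2⟩
    refine hfin fun i => ?_
    refine patFR hbx' (wy := 1 / 10) (wz := 1 / 10) (by norm_num) (by norm_num) a0 b0 hapos hbpos
      hmag.1 hmag.2 ?_ ?_ q0 q1 q2 q3 ?_ ?_ ?_ ?_ i
    · split_ifs
      · exact Or.inl rfl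
      · exact Or.inr rfl
    · split_ifs
      · exact Or.inl rfl
      · exact Or.inr rfl
    · intro h1 h2 h3 h4
      refine hyp.Pm ?_ h2 h3 h4
      by_contra h5
      rw [if_pos (by simpa using h5)] at h1
      norm_num at h1
    · intro h1 _
      refine hyp.Pp ?_
      by_contra h5
      rw [if_neg h5] at h1
      norm_num at h1
    · intro h1 h3 h4
      refine hyp.Qm ?_ h3 h4
      by_contra h5
      rw [if_pos (by simpa using h5)] at h1
      norm_num at h1
    · intro h1 _
      refine hyp.Qp ?_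
      by_contra h5
      rw [if_neg h5] at h1
      norm_num at h1
  · -- non real conormal
    have hB0 : ∀ c, (HH true DfL A B).Bp z ζ c = 0 := fun c => Hub.Out.Bp_im o hr c
    have hsum : ∀ i, ∑ c, HubBx_370.sb DfL c i * (HH true DfL A B).Bp z ζ c = 0 := fun i =>
      Finset.sum_eq_zero fun c _ => by rw [hB0 c, mul_zero]
    rw [hsum] at q0 q1 q2 q3
    have he3 : 3 * (15 * dd) < 1 := by rw [edd]; norm_num
    have hv0 : ∀ i : Fin 4, (HH true DfL A B).sh 0 i ≠ 0 → i = 0 ∨ i = 1 ∨ i = 2 := by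
      intro i hi
      fin_cases i
      · exact Or.inl rfl
      · exact Or.inr (Or.inl rfl)
      · exact Or.inr (Or.inr rfl)
      · exfalso
        apply hi
        show 3 * ((vc true 0 3 : ℕ) : ℝ) = 0
        simp [vc]
    have hv1 : ∀ i : Fin 4, (HH true DfL A B).sh 1 i ≠ 0 → i = 1 ∨ i = 2 := by
      intro i hi
      fin_cases i
      · exfalso
        apply hi
        show 3 * ((vc true 1 0 : ℕ) : ℝ) = 0
        simp [vc]
      · exact Or.inl rfl
      · exact Or.inr rfl
      · exfalso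
        apply hi
        show 3 * ((vc true 1 3 : ℕ) : ℝ) = 0
        simp [vc]
    refine hfin fun i => ?_
    refine patFR_im R0 (fun i => Hub.es_pm i) (wy := 1 / 10) (wz := 1 / 10) (by norm_num)
      (by norm_num) a0 b0 hbpos q0 q1 q2 q3 ?_ ?_ i
    · intro hv
      obtain ⟨i, -, -, h1, h2⟩ := Hub.Out.sv_im h he3 o hr (rpos 0 hv)
      rcases hv0 i h1 with rfl | rfl | rfl
      · exact Or.inl h2
      · exact Or.inr (Or.inl h2)
      · exact Or.inr (Or.inr h2)
    · intro hv
      obtain ⟨i, -, -, h1, h2⟩ := Hub.Out.sv_im h he3 o hr (rpos 1 hv)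
      rcases hv1 i h1 with rfl | rfl
      · exact Or.inl h2
      · exact Or.inr h2

theorem chi_one (x : ℝ) : chi true DfL x = 1 := rfl

/-- **C7-f, first half**. -/
theorem path1 (hSt : StF) (F : Facts true DfL) : Path1P true DfL := by
  refine path1P F (M0 := 2) fun M hM hM0 t ht z hz ζ => ?_
  refine noOut hSt F (sched1 F hM0) ht hz ?_
  simp only [chi_one]
  rcases ht.2.lt_or_eq with h1 | h1
  · right
    have h2 : 0 < M := by linarith
    have h3 : (2 : ℝ) ^ 4 ≤ M ^ 4 := pow_le_pow_left₀ (by norm_num) hM 4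
    have h4 : 0 < 1 - t := by linarith
    refine ⟨by nlinarith, by nlinarith, ?_⟩
    have h5 : M * (1 - t * (1 - 1)) = M := by ring
    rw [h5]
    have h6 : M * (1 - t * 1) ≤ M := by nlinarith [ht.1]
    calc 16 * (M * (1 - t * 1)) ≤ 16 * M := by linarith
      _ ≤ M ^ 4 * M := by nlinarith
      _ = M ^ 5 := by ring
  · left
    rw [h1]; ring

/-- **C7-f, second half**. -/
theorem path2 (hSt : StF) (F : Facts true DfL) : Path2P true DfL := by
  refine path2P F (M0 := 2) fun M hM hM0 t ht z hz ζ => ?_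
  refine noOut hSt F (sched2 F hM0) ht hz ?_
  left
  simp only [chi_one]
  ring

end Crest.Agent.R267.HubF_440
end
end

-- ▼ part R267/StaW_568
section

/-!
# Row 267, C7 (helper568): positions of a word near the multiples of `π`

`Sta h τ x s`: the position `s ≤ 2 n` of `x` (word with `M + 1` arcs, the first `n` arcs = hub):
`s = 2 i + 1 < 2 n`: centre of the hub arc `i`; `s = 2 i`: gap before the arc `i` (`0`: everything
off-lobe in the word sector); `s = 2 n`: a lobe of the word sector with own sign `+`.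
-/

set_option autoImplicit false

noncomputable section

open Finset Set
open Crest.Agent.R267.Ang_739 (cis)
open Crest.Agent.R267.GlNDefs_9 Crest.Agent.R267.WordPh_9 Crest.Agent.R267.WordPh2_9
open Crest.Agent.R267.HubFacts_370
open Crest.Agent.R267.T3aDefs_957 (st)
open Crest.Agent.R267.Calc_957

namespace Crest.Agent.R267.StaW_568

variable {M n : ℕ} {α β : ℕ → ℝ} {e : ℕ → ℝ}

/-- the phase of a state in units of `π`. -/
def posz (n s : ℕ) : ℤ := if s = 2 * n then -1 else (s : ℤ) - 1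

/-- **state** of a point. -/
structure Sta (M n : ℕ) (α β : ℕ → ℝ) (e : ℕ → ℝ) (τ x : ℝ) (s : ℕ) : Prop where
  le : s ≤ 2 * n
  ph : ∃ k : ℤ, |wph (fun _ => 1) (n - 1) (al' α n) β x -
    Real.pi * ((posz n s + 2 * n * k : ℤ) : ℝ)| ≤ τ
  own : 0 < Real.cos (wph e M α β x) ↔ (s = 2 * n ∨ s % 2 = 1)
  hub1 : ∀ lo hi, lo ≤ hi → hi + 1 ≤ n → s ≠ 2 * n → s % 2 = 1 → lo < s / 2 → s / 2 ≤ hi →
    wn α β lo hi x = 1
  hub0 : ∀ lo hi, lo ≤ hi → hi + 1 ≤ n → wn α β lo hi x ≠ 0 →
    (s ≠ 2 * n ∧ 2 * (lo + 1) ≤ s ∧ s ≤ 2 * (hi + 1)) ∨ (s = 0 ∧ hi + 1 = n)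
  arm1 : s = 2 * n → wn α β (n - 1) M x = 1
  arm0 : ∀ lo hi, n ≤ lo + 1 → lo ≤ hi → hi ≤ M → wn α β lo hi x ≠ 0 → s = 2 * n ∨ s = 0


theorem cos_neg_one {x : ℝ} (h : cis x = -1) : Real.cos x = -1 := by
  have := congrArg Complex.re h
  rw [Crest.Agent.R267.RndP_222.cis_re] at this
  simpa using this

theorem cos_near {v τ : ℝ} {m : ℤ} (h : |v - Real.pi * m| ≤ τ) (hτ : τ ≤ 1) :
    0 < Real.cos v ↔ m % 2 = 0 := by
  have hpi := Real.pi_gt_three
  have h1 : 0 < Real.cos (v - Real.pi * m) := by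
    rw [abs_le] at h
    exact Real.cos_pos_of_mem_Ioo ⟨by linarith [h.1], by linarith [h.2]⟩
  rcases Int.emod_two_eq_zero_or_one m with hm | hm
  · obtain ⟨k, rfl⟩ : ∃ k, m = 2 * k := ⟨m / 2, by omega⟩
    have e1 : v - Real.pi * ((2 * k : ℤ) : ℝ) = v - k * (2 * Real.pi) := by push_cast; ring
    rw [e1, Real.cos_sub_int_mul_two_pi] at h1
    exact ⟨fun _ => hm, fun _ => h1⟩
  · obtain ⟨k, rfl⟩ : ∃ k, m = 2 * k + 1 := ⟨m / 2, by omega⟩
    have e1 : v - Real.pi * ((2 * k + 1 : ℤ) : ℝ) = (v - Real.pi) - k * (2 * Real.pi) := by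
      push_cast; ring
    rw [e1, Real.cos_sub_int_mul_two_pi, Real.cos_sub_pi] at h1
    constructor
    · intro h2; linarith
    · intro h2; omega

/-- windows are `0` or `1` where the own term is not `-1` -/
theorem win01 (h : Arcs M α β) (he : ∀ l, e l = 1 ∨ e l = -1) {lo hi : ℕ} (hlo : lo ≤ hi)
    (hhi : hi ≤ M) {x : ℝ} (hx : 0 < Real.cos (wph e M α β x)) :
    wn α β lo hi x = 0 ∨ wn α β lo hi x = 1 := by
  obtain ⟨k, y, hy1, hy2, rfl⟩ := exists_dom (α 0) x
  obtain ⟨i, hi', h1, h2⟩ := exists_piece h hy1 hy2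
  rw [wn_add_int]
  rcases lt_or_ge y (β i) with h4 | h4
  · rw [wn_lobe h hlo hhi hi' h1 h4.le]
    split_ifs
    · exact Or.inr rfl
    · exact Or.inl rfl
  · have := cos_neg_one (cis_wph_gap h he hi' h4 h2.le k)
    rw [this] at hx
    norm_num at hx

/-- **every point with almost real own phase has a state** -/
theorem exists_sta (h : Arcs M α β) (he : ∀ l, e l = 1 ∨ e l = -1) (hn : 1 ≤ n)
    (hnM : n ≤ M + 1) (hs : ∀ i < n, se e i = 1) {τ x : ℝ} (hτ0 : 0 ≤ τ) (hτ : τ ≤ 1)
    (hx : ∃ m : ℤ, |wph e M α β x - Real.pi * m| ≤ τ) : ∃ s, Sta M n α β e τ x s := by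
  have h' := arcs' h hn hnM
  have hpi := Real.pi_gt_three
  obtain ⟨k, y, hy1, hy2, rfl⟩ := exists_dom (α 0) x
  obtain ⟨i, hi, h1, h2⟩ := exists_piece h hy1 hy2
  obtain ⟨m, hm⟩ := hx
  obtain ⟨T, hT⟩ := exists_tot he M
  -- the flat value
  have flat : ∀ j < n, β j ≤ y → y ≤ al' α n (j + 1) →
      wph (fun _ => 1) (n - 1) (al' α n) β (y + 2 * Real.pi * k) =
        Real.pi * ((2 * j + 1 + 2 * n * k : ℤ) : ℝ) := by
    intro j hj h3 h4
    rw [wph_add_int, tot_one n hn, wph_flat h' (by omega) h3 h4, cen_one, se_one]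
    push_cast
    ring
  have hcast : ∀ a b : ℤ, a = b → ((a : ℤ) : ℝ) = b := fun a b h => by rw [h]
  by_cases hin : i < n
  · rcases lt_or_ge y (β i) with h4 | h4
    · -- hub lobe `i`
      have ha : al' α n i = α i := if_pos hin
      have hb' := h'.ba i (by omega)
      have hab := h.ab i hi
      set u := (y - α i) / (β i - α i) with hu
      have hv : wph e M α β y = 2 * Real.pi * i + 2 * Real.pi * (st u - 1 / 2) := by
        rw [wph_val h hi h1 h2.le, cen_hub hs hin, hs i hin, mul_one]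
      have hhv : wph (fun _ => 1) (n - 1) (al' α n) β y = wph e M α β y :=
        (val_hub h hn hnM hs hin h1 h4.le).symm
      have hu0 := st_nonneg u
      have hu1 := st_le_one u
      have hm2 : |wph e M α β y - Real.pi * ((m - 2 * k * T : ℤ) : ℝ)| ≤ τ := by
        rw [wph_add_int, hT] at hm
        have e1 : wph e M α β y - Real.pi * ((m - 2 * k * T : ℤ) : ℝ) =
            wph e M α β y + k * (2 * Real.pi * T) - Real.pi * m := by push_cast; ring
        rw [e1]; exact hm
      obtain ⟨m', hm'⟩ : ∃ m' : ℤ, m - 2 * k * T = m' := ⟨_, rfl⟩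
      rw [hm'] at hm2
      have hcos : 0 < Real.cos (wph e M α β (y + 2 * Real.pi * k)) ↔ m' % 2 = 0 := by
        rw [← cos_near hm2 hτ, wph_add_int, hT]
        have : wph e M α β y + k * (2 * Real.pi * T) =
            wph e M α β y + ((k * T : ℤ) : ℝ) * (2 * Real.pi) := by push_cast; ring
        rw [this, Real.cos_add_int_mul_two_pi]
      -- `m' ∈ {2 i - 1, 2 i, 2 i + 1}`
      have hb := abs_le.1 hm2
      have hm3 : (2 * i : ℤ) - 1 ≤ m' := by
        by_contra hc
        have : (m' : ℝ) ≤ (2 * i : ℤ) - 2 := by exact_mod_cast (by omega : m' ≤ (2 * i : ℤ) - 2)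
        push_cast at this
        nlinarith [hb.1, hb.2]
      have hm4 : m' ≤ (2 * i : ℤ) + 1 := by
        by_contra hc
        have : ((2 * i : ℤ) : ℝ) + 2 ≤ m' := by exact_mod_cast (by omega : (2 * i : ℤ) + 2 ≤ m')
        push_cast at this
        nlinarith [hb.1, hb.2]
      have hph : |wph (fun _ => 1) (n - 1) (al' α n) β (y + 2 * Real.pi * k) -
          Real.pi * ((m' + 2 * n * k : ℤ) : ℝ)| ≤ τ := by
        rw [wph_add_int, tot_one n hn, hhv]
        have e1 : wph e M α β y + k * (2 * Real.pi * n) - Real.pi * ((m' + 2 * n * k : ℤ) : ℝ) =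
            wph e M α β y - Real.pi * m' := by push_cast; ring
        rw [e1]; exact hm2
      have hw : ∀ lo hi', lo ≤ hi' → hi' ≤ M → wn α β lo hi' (y + 2 * Real.pi * k) =
          if lo < i ∧ i ≤ hi' then 1 else 0 := fun lo hi' h5 h6 => by
        rw [wn_add_int, wn_lobe h h5 h6 hi h1 h4.le]
      have hne : ∀ lo hi', lo ≤ hi' → hi' ≤ M → wn α β lo hi' (y + 2 * Real.pi * k) ≠ 0 →
          lo < i ∧ i ≤ hi' := fun lo hi' h5 h6 h7 => by
        rw [hw lo hi' h5 h6] at h7
        by_contra hc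
        exact h7 (if_neg hc)
      rcases (by omega : m' = 2 * i - 1 ∨ m' = 2 * i ∨ m' = 2 * i + 1) with h7 | h7 | h7
      · refine ⟨2 * i, by omega, ⟨k, ?_⟩, ?_, ?_, ?_, ?_, ?_⟩
        · rw [show (posz n (2 * i) + 2 * n * k : ℤ) = m' + 2 * n * k by
            unfold posz; rw [if_neg (by omega)]; push_cast; omega]
          exact hph
        · rw [hcos]; omega
        · intro lo hi' _ _ _ h8; omega
        · intro lo hi' h5 h6 h8
          have := hne lo hi' h5 (by omega) h8
          left; omega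
        · intro h8; omega
        · intro lo hi' h5 h6 h8 h9
          have := hne lo hi' h6 h8 h9
          omega
      · refine ⟨2 * i + 1, by omega, ⟨k, ?_⟩, ?_, ?_, ?_, ?_, ?_⟩
        · rw [show (posz n (2 * i + 1) + 2 * n * k : ℤ) = m' + 2 * n * k by
            unfold posz; rw [if_neg (by omega)]; push_cast; omega]
          exact hph
        · rw [hcos]; omega
        · intro lo hi' h5 h6 _ _ h8 h9
          rw [hw lo hi' h5 (by omega), if_pos (by omega)]
        · intro lo hi' h5 h6 h8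
          have := hne lo hi' h5 (by omega) h8
          left; omega
        · intro h8; omega
        · intro lo hi' h5 h6 h8 h9
          have := hne lo hi' h6 h8 h9
          omega
      · by_cases hlast : i + 1 = n
        · refine ⟨0, by omega, ⟨k + 1, ?_⟩, ?_, ?_, ?_, ?_, ?_⟩
          · rw [show (posz n 0 + 2 * n * (k + 1) : ℤ) = m' + 2 * n * k by
              unfold posz; rw [if_neg (by omega), ← hlast, h7]; push_cast; ring]
            exact hph
          · rw [hcos]; omega
          · intro lo hi' _ _ _ h8; omega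
          · intro lo hi' h5 h6 h8
            have := hne lo hi' h5 (by omega) h8
            right; omega
          · intro h8; omega
          · intro lo hi' h5 h6 h8 h9
            exact Or.inr rfl
        · refine ⟨2 * i + 2, by omega, ⟨k, ?_⟩, ?_, ?_, ?_, ?_, ?_⟩
          · rw [show (posz n (2 * i + 2) + 2 * n * k : ℤ) = m' + 2 * n * k by
              unfold posz; rw [if_neg (by omega)]; push_cast; omega]
            exact hph
          · rw [hcos]; omega
          · intro lo hi' _ _ _ h8; omega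
          · intro lo hi' h5 h6 h8
            have := hne lo hi' h5 (by omega) h8
            left; omega
          · intro h8; omega
          · intro lo hi' h5 h6 h8 h9
            have := hne lo hi' h6 h8 h9
            omega
    · -- hub gap `i`
      have hc := cos_neg_one (cis_wph_gap h he hi h4 h2.le k)
      have h5 : y ≤ al' α n (i + 1) := by
        unfold al'
        split_ifs
        · exact h2.le
        · exact hy2.le
      have hfl := flat i hin h4 h5
      have hne : ∀ lo hi', lo ≤ hi' → hi' ≤ M → wn α β lo hi' (y + 2 * Real.pi * k) ≠ 0 →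
          lo ≤ i ∧ i ≤ hi' := fun lo hi' h5 h6 h7 => by
        rw [wn_add_int] at h7
        by_contra hc
        exact h7 (wn_supp h h5 h6 hi (by omega) h4 h2.le)
      by_cases hlast : i + 1 = n
      · refine ⟨0, by omega, ⟨k + 1, ?_⟩, ?_, ?_, ?_, ?_, ?_⟩
        · rw [hfl, show (posz n 0 + 2 * n * (k + 1) : ℤ) = 2 * i + 1 + 2 * n * k by
            unfold posz; rw [if_neg (by omega), ← hlast]; push_cast; ring, sub_self, abs_zero]
          exact hτ0
        · rw [hc]
          constructor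
          · intro h6; norm_num at h6
          · intro h6; omega
        · intro lo hi' _ _ _ h8; omega
        · intro lo hi' h5 h6 h8
          have := hne lo hi' h5 (by omega) h8
          right; omega
        · intro h8; omega
        · intro lo hi' h5 h6 h8 h9
          exact Or.inr rfl
      · refine ⟨2 * i + 2, by omega, ⟨k, ?_⟩, ?_, ?_, ?_, ?_, ?_⟩
        · rw [hfl, show (posz n (2 * i + 2) + 2 * n * k : ℤ) = 2 * i + 1 + 2 * n * k by
            unfold posz; rw [if_neg (by omega)]; push_cast; ring, sub_self, abs_zero]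
          exact hτ0
        · rw [hc]
          constructor
          · intro h6; norm_num at h6
          · intro h6; omega
        · intro lo hi' _ _ _ h8; omega
        · intro lo hi' h5 h6 h8
          have := hne lo hi' h5 (by omega) h8
          left; omega
        · intro h8; omega
        · intro lo hi' h5 h6 h8 h9
          have := hne lo hi' h6 h8 h9
          omega
  · -- word sector
    have h3 : β (n - 1) ≤ y := (beta_le h (show n - 1 < i by omega) (by omega)).trans h1
    have h4 : y ≤ al' α n (n - 1 + 1) := by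
      unfold al'
      rw [if_neg (by omega)]
      exact hy2.le
    have hfl := flat (n - 1) (by omega) h3 h4
    have hn1 : ((n - 1 : ℕ) : ℤ) = n - 1 := by omega
    rw [hn1] at hfl
    have hw0 : ∀ lo hi', lo ≤ hi' → hi' + 1 ≤ n → wn α β lo hi' (y + 2 * Real.pi * k) = 0 := by
      intro lo hi' h5 h6
      rw [wn_add_int]
      rcases lt_or_ge y (β i) with h7 | h7
      · rw [wn_lobe h h5 (by omega) hi h1 h7.le, if_neg (by omega)]
      · exact wn_supp h h5 (by omega) hi (by omega) h7 h2.le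
    by_cases hc : 0 < Real.cos (wph e M α β (y + 2 * Real.pi * k))
    · have h7 : y < β i := by
        by_contra hcc
        have := cos_neg_one (cis_wph_gap h he hi (not_lt.1 hcc) h2.le k)
        rw [this] at hc
        norm_num at hc
      refine ⟨2 * n, le_rfl, ⟨k + 1, ?_⟩, ?_, ?_, ?_, ?_, ?_⟩
      · rw [hfl, show (posz n (2 * n) + 2 * n * (k + 1) : ℤ) = 2 * ((n : ℤ) - 1) + 1 + 2 * n * k by
          unfold posz; rw [if_pos rfl]; ring, sub_self, abs_zero]
        exact hτ0
      · exact ⟨fun _ => Or.inl rfl, fun _ => hc⟩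
      · intro lo hi' _ _ h8; omega
      · intro lo hi' h5 h6 h8
        exact absurd (hw0 lo hi' h5 h6) h8
      · intro _
        rw [wn_add_int, wn_lobe h (by omega) le_rfl hi h1 h7.le, if_pos (by omega)]
      · intro lo hi' _ _ _ _
        exact Or.inl rfl
    · refine ⟨0, by omega, ⟨k + 1, ?_⟩, ?_, ?_, ?_, ?_, ?_⟩
      · rw [hfl, show (posz n 0 + 2 * n * (k + 1) : ℤ) = 2 * ((n : ℤ) - 1) + 1 + 2 * n * k by
          unfold posz; rw [if_neg (by omega)]; push_cast; ring, sub_self, abs_zero]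
        exact hτ0
      · constructor
        · intro h6; exact absurd h6 hc
        · intro h6; omega
      · intro lo hi' _ _ _ h8; omega
      · intro lo hi' h5 h6 h8
        exact absurd (hw0 lo hi' h5 h6) h8
      · intro h8; omega
      · intro lo hi' _ _ _ _
        exact Or.inr rfl

end Crest.Agent.R267.StaW_568
end
end

-- ▼ part R267/StFG_568

/-!
# Row 267, C7 (helper568): the literal state facts `StF` (helper440) and `StG` (helper222)
-/

set_option autoImplicit false

noncomputable section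

open Finset Set
open Crest.Agent.R267.GlNDefs_9 Crest.Agent.R267.WordPh_9 Crest.Agent.R267.WordPh2_9
open Crest.Agent.R267.HubDefs_284 Crest.Agent.R267.HubInst_370 Crest.Agent.R267.HubFacts_370
open Crest.Agent.R267.T3aNDefs_88 Crest.Agent.R267.SFLDc_330
open Crest.Agent.R267.RndP_222 Crest.Agent.R267.StaW_568

namespace Crest.Agent.R267.StFG_568

variable {b : Bool} {D : SD 4}

/-- **states of the literal words**. -/
theorem sta (N : Num b D) (j : Fin 4) {τ x : ℝ} (hτ0 : 0 ≤ τ) (hτ : τ ≤ 1)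
    (hx : ∃ m : ℤ, |pp D j x - Real.pi * m| ≤ τ) :
    ∃ s, Sta (D.M j) (nh b j) (aE (D.M j)) (bE (D.M j)) (D.sn j) τ x s :=
  exists_sta (arcsE (D.M j)) (sn_pm j) (nh_pos b j) (N.nM j) (N.hs j) hτ0 hτ hx

theorem win01 (D : SD 4) (j : Fin 4) {lo hi : ℕ} (hlo : lo ≤ hi) (hhi : hi ≤ D.M j) {x : ℝ}
    (hx : 0 < Real.cos (pp D j x)) :
    wn (aE (D.M j)) (bE (D.M j)) lo hi x = 0 ∨ wn (aE (D.M j)) (bE (D.M j)) lo hi x = 1 :=
  StaW_568.win01 (arcsE (D.M j)) (sn_pm j) hlo hhi hx

theorem eps_one (m : ℤ) : eps m = 1 ↔ m % 2 = 0 := by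
  unfold eps
  split_ifs with h
  · exact ⟨fun _ => h, fun _ => rfl⟩
  · exact ⟨fun h1 => by norm_num at h1, fun h1 => absurd h1 h⟩

/-! ### `f` -/

theorem nhf (i : Fin 3) : 2 * nh true i.castSucc = StTab_568.per i := by fin_cases i <;> rfl

theorem Mf (i : Fin 3) : DfL.M i.castSucc = (![18, 24, 14] : Fin 3 → ℕ) i := by
  fin_cases i <;> rfl

/-- **`StF`** (helper440). -/
theorem stF (i : Fin 3) (x : ℝ) (m : ℤ) (t : ℝ) (ht : t ≤ 1 / 10)
    (hx : |pp DfL i.castSucc x - Real.pi * m| ≤ t) :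
    ∃ (s : ℕ) (k : ℤ), TabF_440.VS i s
        (fun lo hi => wn (aE (DfL.M i.castSucc)) (bE (DfL.M i.castSucc)) lo hi x) ∧
      |hh true DfL i.castSucc x - Real.pi * (TabF_440.ipos i s k : ℤ)| ≤ t ∧
      (StTab_568.plus i s = true ↔ eps m = 1) := by
  have ht0 : 0 ≤ t := (abs_nonneg _).trans hx
  obtain ⟨s, h⟩ := sta num_f i.castSucc ht0 (by linarith) ⟨m, hx⟩
  have hn := nhf i
  have hM := Mf i
  have hnM := num_f.nM i.castSucc
  have h1n := nh_pos true i.castSucc
  have hper : StTab_568.per i / 2 = nh true i.castSucc := by omega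
  obtain ⟨k, hk⟩ := h.ph
  refine ⟨s, k, ?_, ?_, ?_⟩
  · refine ⟨by rw [← hn]; exact h.le, ?_, ?_, ?_, ?_, ?_, ?_⟩
    · intro hs
      rw [hper, ← hM]
      exact h.arm1 (by omega)
    · intro h1 h2
      rw [hper, ← hM]
      by_contra hc
      have := h.arm0 _ _ (by omega) (by omega) le_rfl hc
      omega
    · intro lo hi h1 h2 h3 h4 h5 h6 h7
      exact h.hub1 _ _ (by omega) (by omega) (by omega) h5 (by omega) (by omega)
    · intro lo hi h1 h2 h3 h4
      by_contra hc
      have := h.hub0 _ _ (by omega) (by omega) hc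
      apply h4
      rcases this with h5 | h5
      · left; omega
      · right; omega
    · intro hs lo hi h1 h2
      rw [← hM] at h2
      exact win01 DfL i.castSucc h1 h2 (h.own.2 (by omega))
    · intro h1 h2 l h3 h4
      rw [← hM] at h4
      by_contra hc
      have := h.arm0 _ _ (by omega) (by omega) h4 hc
      omega
  · have e1 : TabF_440.ipos i s k = posz (nh true i.castSucc) s + 2 * (nh true i.castSucc : ℕ) * k := by
      unfold TabF_440.ipos posz StTab_568.pos
      rw [← hn]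
      split_ifs <;> push_cast <;> ring
    rw [e1]
    exact hk
  · have h2 : StTab_568.plus i s = true ↔ (s = 2 * nh true i.castSucc ∨ s % 2 = 1) := by
      unfold StTab_568.plus
      rw [Bool.or_eq_true, beq_iff_eq, beq_iff_eq, hn]
    rw [h2, ← h.own, eps_one, ← cos_near hx (by linarith)]
    rfl

/-! ### `g` -/



end Crest.Agent.R267.StFG_568
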