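import Crest.Agent.R267.StartP_143
import Crest.Agent.R267.SFLDc_330
import Crest.Agent.R267.StFG_568_Mg
import Crest.Agent.R267.NSRegB_796_Mg
import Crest.Agent.R267.BoxLit_896_Mg
import Crest.Agent.R267.NSSplice_966_Mg
import Crest.Agent.R267.HubFacts_370
import Crest.Agent.R267.StTabG_222
import Crest.Agent.R267.HubBx_370
import Crest.Agent.R267.PatGR_222_Mg
import Crest.Agent.R267.NSLift_966
import Crest.Agent.R267.ArmExC_649
import Mathlib
import Crest.Agent.R267.PolArm_484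
import Crest.Agent.R267.Ang_739
import Crest.Agent.R267.HubDefs_284
import Crest.Agent.R267.NSDefs_966
import Crest.Agent.R267.NSArmM_780

-- ▼ part R267/StartPL_143
section

/-!
# Row 267 (S0406), arrow C4 (helper143): `StartP` for 330's data `DfL`, `DgL`
-/

set_option autoImplicit false

namespace Crest.Agent.R267.StartPL_143

open Crest.Agent.R267.HubDefs_284 Crest.Agent.R267.SFLDc_330 Crest.Agent.R267.HubInst_370

/-- **C4 for `f`** -/
theorem startP_f (F : Facts true DfL) : StartP true DfL := StartP_143.startP F (by decide)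

/-- **C4 for `g`** -/
theorem startP_g (F : Facts false DgL) : StartP false DgL := StartP_143.startP F (by decide)

end Crest.Agent.R267.StartPL_143
end

-- ▼ part R267/PathF_440
section

/-!
# Row 267, C7-f (helper440): the two halves of the hub path of `f`, unconditional
-/

set_option autoImplicit false

namespace Crest.Agent.R267.PathF_440

open Crest.Agent.R267.HubDefs_284 Crest.Agent.R267.SFLDc_330

theorem stF : HubF_440.StF := fun i x m t ht hx => StFG_568.stF i x m t ht hx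

/-- **C7-f, first half**: `(M, M) → (M, 0)`. -/
theorem path1P_f : Path1P true DfL := HubF_440.path1 stF HubFacts_370.facts_f

/-- **C7-f, second half**: `(M, 0) → (0, 0)`. -/
theorem path2P_f : Path2P true DfL := HubF_440.path2 stF HubFacts_370.facts_f

end Crest.Agent.R267.PathF_440
end

-- ▼ part R267/NAsmF_407
section

/-!
# Row 267, C1 (helper407): the planar arms from the exit alone
-/

set_option autoImplicit false

namespace Crest.Agent.R267.NAsmF_407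

/-- **C1** from the exit. -/
theorem armsP (b : Bool) (D : T3aNDefs_88.SD 4) (hE : ∀ v, NAsm_407.ExitP b D v) :
    HubAsm_284.ArmsP b D :=
  NAsm_407.armsP_of SepN_667.sep_prop NSRegB_796.regB b D hE

end Crest.Agent.R267.NAsmF_407
end

-- ▼ part R267/HubTop4_808
section

/-!
# Row 267 (helper808): S0406 from the exits of the arms and C7 for `g`
-/

set_option autoImplicit false

noncomputable section

namespace Crest.Agent.R267.HubTop4_808

open Crest.Agent.R267.SFLDc_330 Crest.Agent.R267.HubDefs_284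

/-- **S0406** from the exits of the six arms and the hub path of `g`. -/
theorem lit_last (hEf : ∀ v, NAsm_407.ExitP true DfL v) (hEg : ∀ v, NAsm_407.ExitP false DgL v)
    (h1 : Path1P false DgL) (h2 : Path2P false DgL) : NdZ_484.Lit :=
  HubTop3_808.lit_two
    (HubAsm_284.hubProp (NAsmF_407.armsP true DfL hEf) (GamP_920.gamP true DfL)
      (PowP_920.powP true DfL) BoxLit_896.boxP_f (StartPL_143.startP_f HubFacts_370.facts_f)
      PathF_440.path1P_f PathF_440.path2P_f HubOk_808.xx_f)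
    (HubAsm_284.hubProp (NAsmF_407.armsP false DgL hEg) (GamP_920.gamP false DgL)
      (PowP_920.powP false DgL) BoxLit_896.boxP_g (StartPL_143.startP_g HubFacts_370.facts_g)
      h1 h2 HubOk_808.xx_g)

end Crest.Agent.R267.HubTop4_808
end
end

-- ▼ part R267/BoxMapG_769
section

/-!
# Row 267 (helper769): the literal boxes of `DgL` (SFLDc_330) against the table boxes
`StTabG_222.boxG`
-/

set_option autoImplicit false

namespace Crest.Agent.R267.BoxMapG_769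

open Finset
open Crest.Agent.R267.T3aNDefs_88 Crest.Agent.R267.SFLDb_330 Crest.Agent.R267.SFLDc_330
open Crest.Agent.R267.StTabG_222
open Crest.Agent.R267.StTab_568 (Win)


/-- the box of `DgL` with number `c` -/
def bx (c : Fin 11) : Fin DgL.nb := ⟨c, lt_of_lt_of_le c.2 (by decide)⟩

theorem bx_inj : Function.Injective bx := fun c c' h => by
  have := congrArg Fin.val h
  exact Fin.ext this

/-- the window `W` of the variable `j` is the one of the box `B` -/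
def okW (W : Win) (j : Fin 4) (B : Box 4) (M : ℕ) : Bool :=
  match W with
  | .no => decide (j ∉ B.S)
  | .arm => decide (j ∈ B.S ∧ B.lo j = 4 ∧ B.hi j = M)
  | .hub lo hi => decide (j ∈ B.S ∧ B.lo j + 1 = lo ∧ B.hi j + 1 = hi ∧ hi ≤ 5)

theorem ok_all : ∀ c : Fin 11, ∀ i : Fin 3,
    okW (boxG c i) i.castSucc (DgL.bx (bx c)) (DgL.M i.castSucc) = true := by
  decide +kernel

theorem w_notMem : ∀ c : Fin 11, (3 : Fin 4) ∉ (DgL.bx (bx c)).S := by
  decide +kernel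

/-- the variable is not in the box -/
theorem of_no {c : Fin 11} {i : Fin 3} (h : boxG c i = .no) :
    i.castSucc ∉ (DgL.bx (bx c)).S := by
  have h1 := ok_all c i
  rw [h] at h1
  exact of_decide_eq_true h1

theorem of_arm {c : Fin 11} {i : Fin 3} (h : boxG c i = .arm) :
    i.castSucc ∈ (DgL.bx (bx c)).S ∧ (DgL.bx (bx c)).lo i.castSucc = 4 ∧
      (DgL.bx (bx c)).hi i.castSucc = DgL.M i.castSucc := by
  have h1 := ok_all c i
  rw [h] at h1
  exact of_decide_eq_true h1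

theorem of_hub {c : Fin 11} {i : Fin 3} {lo hi : ℕ} (h : boxG c i = .hub lo hi) :
    i.castSucc ∈ (DgL.bx (bx c)).S ∧ (DgL.bx (bx c)).lo i.castSucc + 1 = lo ∧
      (DgL.bx (bx c)).hi i.castSucc + 1 = hi ∧ hi ≤ 5 := by
  have h1 := ok_all c i
  rw [h] at h1
  exact of_decide_eq_true h1

theorem mem_iff (c : Fin 11) (i : Fin 3) :
    i.castSucc ∈ (DgL.bx (bx c)).S ↔ boxG c i ≠ .no := by
  constructor
  · intro h h'
    exact of_no h' h
  · intro h
    cases h' : boxG c i with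
    | no => exact absurd h' h
    | arm => exact (of_arm h').1
    | hub lo hi => exact (of_hub h').1


/-- **the other boxes**: `{v, w}` with the `v`-window in `J_v`. -/
theorem other (e : Fin DgL.nb) (he : ∀ c, bx c ≠ e) : ∃ v : Fin 3,
    (DgL.bx e).S = {v.castSucc, 3} ∧ 4 ≤ (DgL.bx e).lo v.castSucc ∧
      (DgL.bx e).lo v.castSucc < (DgL.bx e).hi v.castSucc ∧
      (DgL.bx e).hi v.castSucc ≤ DgL.M v.castSucc := by
  have key : ∀ e : Fin 36, 11 ≤ (e : ℕ) → ∃ v : Fin 3,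
      (DgL.bx e).S = {v.castSucc, 3} ∧ 4 ≤ (DgL.bx e).lo v.castSucc ∧
      (DgL.bx e).lo v.castSucc < (DgL.bx e).hi v.castSucc ∧
      (DgL.bx e).hi v.castSucc ≤ DgL.M v.castSucc := by
    decide +kernel
  refine key e ?_
  by_contra hlt
  push Not at hlt
  exact he ⟨e, hlt⟩ (Fin.ext rfl)

/-- windows of all boxes are non empty -/
theorem lohi : ∀ e : Fin 36, ∀ j ∈ (DgL.bx e).S, (DgL.bx e).lo j < (DgL.bx e).hi j := by
  decide +kernel

end Crest.Agent.R267.BoxMapG_769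
end

-- ▼ part R267/HubG_222
section

/-!
# Row 267, S0406, hub step C7 for `g` (helper222)

`no_out` : pointwise exclusion of 370's `Out` for the literal `HH false DgL A B`;
`path1`, `path2` : `Path1P false DgL`, `Path2P false DgL`.
-/

set_option autoImplicit false

noncomputable section

open Finset Set
open Crest.Agent.R267.T3aNDefs_88 Crest.Agent.R267.Ang_739
open Crest.Agent.R267.GlNDefs_9 Crest.Agent.R267.StairFn_739 Crest.Agent.R267.HubDefs_284
open Crest.Agent.R267.StairPh_739 Crest.Agent.R267.PolF_943 Crest.Agent.R267.HubEng_370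
open Crest.Agent.R267.LemL_951 Crest.Agent.R267.WordPh_9 Crest.Agent.R267.WordPh2_9
open Crest.Agent.R267.HubInst_370 Crest.Agent.R267.RndP_222
open Crest.Agent.R267.StTabG_222 (pos plus ray full poss boxG fullB possB)
open Crest.Agent.R267.SFLDc_330 Crest.Agent.R267.HubFacts_370
open Crest.Agent.R267.HubBx_370 (HH edd La_eq)
open Crest.Agent.R267.BoxMapG_769 (bx bx_inj w_notMem of_no of_arm of_hub other lohi)
open Crest.Agent.R267.StTab_568 (Win)

namespace Crest.Agent.R267.HubG_222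

theorem mem_bx (c : Fin 11) (i : Fin 3) :
    i.castSucc ∈ (DgL.bx (bx c)).S ↔ boxG c i ≠ .no := BoxMapG_769.mem_iff c i

/-- the literal window of the variable `i` -/
def wi (i : Fin 3) (lo hi : ℕ) : ℝ → ℝ :=
  wn (aE (DgL.M i.castSucc)) (bE (DgL.M i.castSucc)) lo hi

/-- what is known at a state `s` of the variable `i` -/
structure St (t : ℝ) (i : Fin 3) (x : ℝ) (s : ℕ) : Prop where
  le : s ≤ 10
  near : ∃ k : ℤ, |hh false DgL i.castSucc x - Real.pi * ((pos s + 10 * k : ℤ) : ℝ)| ≤ t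
  sgn : 0 < Real.cos (pp DgL i.castSucc x) ↔ plus s = true
  hub0 : ∀ lo hi, lo < hi → hi ≤ 4 → poss s (.hub (lo + 1) (hi + 1)) = false →
    wi i lo hi x = 0
  hub1 : ∀ lo hi, lo < hi → hi ≤ 4 → full s (.hub (lo + 1) (hi + 1)) = true →
    wi i lo hi x = 1
  arm0 : poss s .arm = false → wi i 4 (DgL.M i.castSucc) x = 0
  arm1 : full s .arm = true → wi i 4 (DgL.M i.castSucc) x = 1
  ray0 : ray s = true → ∀ lo hi, 4 ≤ lo → lo ≤ hi → hi ≤ DgL.M i.castSucc → wi i lo hi x = 0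

theorem exists_st (i : Fin 3) (x : ℝ) {t : ℝ} (ht : t ≤ 1 / 4)
    (h : ∃ m : ℤ, |pp DgL i.castSucc x - Real.pi * m| ≤ t) : ∃ s, St t i x s := by
  obtain ⟨s, k, h1, h2, h3, -, h5, h6⟩ := StF_370.stG i x t ht h
  exact ⟨s, h1, ⟨k, h2⟩, h3, fun lo hi a b c => (h5 _ lo hi (Or.inr ⟨rfl, a, b⟩)).1 c,
    fun lo hi a b c => (h5 _ lo hi (Or.inr ⟨rfl, a, b⟩)).2 c,
    fun c => (h5 _ 4 _ (Or.inl ⟨rfl, rfl, rfl⟩)).1 c,
    fun c => (h5 _ 4 _ (Or.inl ⟨rfl, rfl, rfl⟩)).2 c, h6⟩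

variable {A B : ℝ → ℝ → ℝ} {τ : ℝ}

/-! ### windows at states -/

theorem La_zero (e : Fin DgL.nb) {θ : Fin 4 → ℝ} {j : Fin 4} (hj : j ∈ (DgL.bx e).S)
    (h : HubDefs_284.ww DgL e j (θ j) = 0) : (HH false DgL A B).La e θ = 0 := by
  rw [La_eq]
  exact Finset.prod_eq_zero hj h

theorem La_full {θ : Fin 4 → ℝ} {s : Fin 3 → ℕ} (h : ∀ i, St τ i (θ i.castSucc) (s i))
    {c : Fin 11} (hc : fullB c s = true) : (HH false DgL A B).La (bx c) θ = 1 := by
  have hW : ∀ i, full (s i) (boxG c i) = true := by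
    unfold fullB at hc
    simp only [Bool.and_eq_true] at hc
    intro i
    fin_cases i
    · exact hc.1.1
    · exact hc.1.2
    · exact hc.2
  rw [La_eq]
  refine Finset.prod_eq_one fun j hj => ?_
  induction j using Fin.lastCases with
  | last => exact absurd hj (w_notMem c)
  | cast i =>
    have h2 := hW i
    cases hb : boxG c i with
    | no => exact absurd hj (of_no hb)
    | arm =>
      rw [hb] at h2
      have h1 := of_arm hb
      have := (h i).arm1 h2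
      unfold HubDefs_284.ww
      rw [h1.2.1, h1.2.2]
      exact this
    | hub lo hi =>
      rw [hb] at h2
      obtain ⟨h5, h3, h4, h6⟩ := of_hub hb
      have h7 := lohi (bx c) _ h5
      subst h3 h4
      exact (h i).hub1 _ _ h7 (by omega) h2

theorem La_poss {θ : Fin 4 → ℝ} {s : Fin 3 → ℕ} (h : ∀ i, St τ i (θ i.castSucc) (s i))
    {c : Fin 11} (hc : possB c s = false) : (HH false DgL A B).La (bx c) θ = 0 := by
  have hW : ∃ i, poss (s i) (boxG c i) = false := by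
    unfold possB at hc
    simp only [Bool.and_eq_false_iff] at hc
    rcases hc with (h1 | h1) | h1
    · exact ⟨0, h1⟩
    · exact ⟨1, h1⟩
    · exact ⟨2, h1⟩
  obtain ⟨i, hi⟩ := hW
  cases hb : boxG c i with
  | no => rw [hb] at hi; exact absurd hi (by simp [poss])
  | arm =>
    rw [hb] at hi
    have h1 := of_arm hb
    refine La_zero _ h1.1 ?_
    have := (h i).arm0 hi
    unfold HubDefs_284.ww
    rw [h1.2.1, h1.2.2]
    exact this
  | hub lo hi' =>
    rw [hb] at hi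
    obtain ⟨h5, h3, h4, h6⟩ := of_hub hb
    have h7 := lohi (bx c) _ h5
    subst h3 h4
    exact La_zero _ h5 ((h i).hub0 _ _ h7 (by omega) hi)

theorem ray_plus {s : ℕ} (h : ray s = true) : plus s = true := by
  unfold ray at h
  simp only [Bool.and_eq_true, bne_iff_ne, ne_eq, beq_iff_eq] at h
  simp only [plus, Bool.or_eq_true, beq_iff_eq]
  exact Or.inr h.2

/-- every box is a table box or vanishes on the hub rays of its variables -/
theorem box_cases {θ : Fin 4 → ℝ} {s : Fin 3 → ℕ} (h : ∀ i, St τ i (θ i.castSucc) (s i))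
    (e : Fin DgL.nb) {i : Fin 3} (hi : i.castSucc ∈ (DgL.bx e).S) (hs : ray (s i) = true) :
    (∃ c, e = bx c ∧ boxG c i ≠ .no) ∨ (HH false DgL A B).La e θ = 0 := by
  by_cases he : ∃ c, bx c = e
  · obtain ⟨c, rfl⟩ := he
    exact Or.inl ⟨c, rfl, (mem_bx c i).1 hi⟩
  · push Not at he
    obtain ⟨v, h1, h2, h3, h4⟩ := other e he
    right
    have hv : i = v := by
      rw [h1, Finset.mem_insert, Finset.mem_singleton] at hi
      rcases hi with hi | hi
      · exact Fin.castSucc_injective 3 hi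
      · exact absurd hi (Fin.castSucc_lt_last i).ne
    subst hv
    exact La_zero _ hi ((h i).ray0 hs _ _ h2 h3.le h4)

/-! ### signs -/

theorem eps_iff (n : ℤ) : eps n = 1 ↔ n % 2 = 0 := by
  unfold eps
  split_ifs with h
  · exact ⟨fun _ => h, fun _ => rfl⟩
  · exact ⟨fun h1 => by norm_num at h1, fun h1 => absurd h1 h⟩


section mono

variable {ι ε β : Type} [Fintype ι] [DecidableEq ι] [Fintype ε] [Fintype β]
  {H : Hub ι ε β} {T : Set ℝ} {e e' t : ℝ} {z : ι → ℂ} {ζ : ℂ}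

theorem ok_mono (h : H.Ok T e) (he : e ≤ e') : H.Ok T e' :=
  { h with
    e0 := h.e0.trans he
    Φp := fun v => (h.Φp v).mono he }

theorem out_mono (h : H.Out e t z ζ) (he : e ≤ e') : H.Out e' t z ζ :=
  { h with
    own := fun i a b => (h.own i a b).trans he
    cpl := fun v a => (h.cpl v a).trans (by linarith)
    alt := by
      by_cases h1 : |ζ.im| ≤ e'
      · exact Or.inl h1
      · push Not at h1
        rcases h.alt with h2 | h2
        · exact absurd h1 (by linarith)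
        · refine Or.inr ⟨h1, h2.2.1, fun v hv => ?_, h2.2.2.2⟩
          obtain ⟨i, a, b, c, d⟩ := h2.2.2.1 v hv
          exact ⟨i, a, b, c, d.trans he⟩ }

end mono


/-! ### the real case -/

variable {t : ℝ} {z : Fin 4 → ℂ} {ζ : ℂ}



/-- states and table signs at a critical zero with almost real conormal -/
theorem states (hs : Sched false DgL A B) (o : (HH false DgL A B).Out (15 * dd) t z ζ)
    (hr : |ζ.im| ≤ 1 / 100) (hz : ∀ i : Fin 3, z i.castSucc ≠ 0) :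
    ∃ s : Fin 3 → ℕ, (∀ i, St (1 / 25) i (ag z i.castSucc) (s i)) ∧
      (∀ i : Fin 3, (HH false DgL A B).es z ζ i.castSucc = 1 ↔ plus (s i) = true) ∧
      ((HH false DgL A B).sv z ζ 0 = 1 ↔ StTabG_222.sa s = true) ∧
      ((HH false DgL A B).sv z ζ 1 = 1 ↔ StTabG_222.sb s = true) := by
  have he : 15 * dd ≤ 1 / 100 := by rw [edd]; norm_num
  have h : (HH false DgL A B).Ok univ (1 / 100) := ok_mono (ok dd_pos facts_g hs) he
  have o' : (HH false DgL A B).Out (1 / 100) t z ζ := out_mono o he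
  have own := fun i : Fin 3 => Hub.Out.pos_own h (by norm_num) o' hr
    (i := i.castSucc) ((h.R_pos_iff z _).2 (hz i))
  choose n hn using own
  have hn' : ∀ i : Fin 3, |pp DgL i.castSucc (ag z i.castSucc) - Real.pi * n i| ≤ 1 / 25 :=
    fun i => (hn i).1.trans (by norm_num)
  have ex := fun i : Fin 3 => exists_st i (ag z i.castSucc) (t := 1 / 25) (by norm_num)
    ⟨n i, hn' i⟩
  choose s S using ex
  have hk := fun i => (S i).near
  choose k hk using hk
  have nr : Near (fun i : Fin 3 => lft (HH false DgL A B).ph (ag z) i.castSucc)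
      (pos (s 0) + 10 * k 0) (pos (s 1) + 10 * k 1) (pos (s 2) + 10 * k 2) (1 / 25) :=
    ⟨hk 0, hk 1, hk 2⟩
  have hd4 : dd = 1 / 10000 := rfl
  have hN : ∀ i : Fin 3, ∃ l : ℤ, (pos (s i) + 10 * k i) = pos (s i) + 10 * l :=
    fun i => ⟨k i, rfl⟩
  refine ⟨s, S, fun i => ?_, ?_, ?_⟩
  · rw [(hn i).2, ← StF_370.eps_cos (by norm_num) (hn' i)]
    exact (S i).sgn
  · rw [Hub.Out.sv_eq o' hr (v := 0) (e' := 3 * dd + 1 / 25) (near_gAl dd_pos nr)
      (by rw [hd4]; norm_num), eps_iff]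
    exact (StTabG_222.sa_eq hN).symm
  · rw [Hub.Out.sv_eq o' hr (v := 1) (e' := 2 * dd + 1 / 25) (near_gBe dd_pos nr)
      (by rw [hd4]; norm_num), eps_iff]
    exact (StTabG_222.sb_eq hN).symm

theorem neg_of {x : ℝ} {b : Bool} (h : x = 1 ↔ b = true) (hx : x = -1) : b = false := by
  cases b
  · rfl
  · have := h.2 rfl
    rw [hx] at this
    norm_num at this

theorem sub3 (c : Fin 11) : (DgL.bx (bx c)).S ⊆ {0, 1, 2} := by
  intro j hj
  have h3 := w_notMem c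
  fin_cases j
  · decide
  · decide
  · decide
  · exact absurd hj h3

theorem sb_mem {e : Fin DgL.nb} {j : Fin 4} (h : j ∈ (DgL.bx e).S) :
    HubBx_370.sb DgL e j = 1 / cd DgL e := by
  unfold HubBx_370.sb
  rw [if_pos h]

theorem S_pair {c : Fin 11} {i : Fin 3} (h0 : boxG c 0 ≠ .no) (hi : boxG c i ≠ .no)
    (h : ∀ j, j ≠ 0 → j ≠ i → boxG c j = .no) :
    (DgL.bx (bx c)).S = {(0 : Fin 3).castSucc, i.castSucc} := by
  ext j
  rw [Finset.mem_insert, Finset.mem_singleton]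
  induction j using Fin.lastCases with
  | last =>
    refine ⟨fun hj => absurd hj (w_notMem c), fun hj => ?_⟩
    rcases hj with hj | hj
    · exact absurd hj.symm (Fin.castSucc_lt_last _).ne
    · exact absurd hj.symm (Fin.castSucc_lt_last _).ne
  | cast l =>
    rw [mem_bx]
    constructor
    · intro hl
      by_contra hcon
      push Not at hcon
      exact hl (h l (fun h5 => hcon.1 (by rw [h5])) fun h5 => hcon.2 (by rw [h5]))
    · rintro (hl | hl)
      · rw [Fin.castSucc_injective 3 hl]; exact h0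
      · rw [Fin.castSucc_injective 3 hl]; exact hi

/-- **the real case** -/
theorem real_case (hs : Sched false DgL A B) (ht : t ∈ Icc (0 : ℝ) 1)
    (o : (HH false DgL A B).Out (15 * dd) t z ζ) (hr : |ζ.im| ≤ 1 / 100)
    (h1 : wi 0 4 (DgL.M 0) (ag z 0) = 1 →
      B t (ag z 0) = 0 ∨ 4 * (51 / 50) * B t (ag z 0) < A t (ag z 0) ^ 2)
    (h0 : wi 0 4 (DgL.M 0) (ag z 0) = 0 →
      A t (ag z 0) = 0 ∨ 27 * (51 / 50) * A t (ag z 0) < B t (ag z 0) ^ 3) (i : Fin 4) :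
    (HH false DgL A B).Rp z ζ i = 0 := by
  have hok : (HH false DgL A B).Ok univ (15 * dd) := ok dd_pos facts_g hs
  have he1 : 15 * dd < 1 := by rw [edd]; norm_num
  obtain ⟨q0, q1, q2, q3⟩ := HubBx_370.eq_g facts_g o
  refine PatGR_222.patG2 (HubBx_370.bx facts_g hs o) (hs.A0 t ht (ag z 0)) (hs.B0 t ht (ag z 0))
    (by norm_num : (0 : ℝ) ≤ 51 / 50) (hok.rp_nonneg ht 0) (hok.rp_nonneg ht 1)
    (HubBx_370.rel_g1 facts_g hs ht o) (HubBx_370.rel_g2 facts_g hs ht o) (Hub.sv_pm 0)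
    (Hub.sv_pm 1) q0 q1 q2 q3 (fun hab => ?_) i
  have hz : ∀ i : Fin 3, z i.castSucc ≠ 0 := by
    intro i
    rcases hab with hv | hv
    · refine HubBx_370.r_pos_var (k := 0) (hv.trans_le (Hub.Out.rp_bd hok ht o 0).2) ?_
      fin_cases i <;> decide
    · refine HubBx_370.r_pos_var (k := 1) (hv.trans_le (Hub.Out.rp_bd hok ht o 1).2) ?_
      fin_cases i <;> decide
  obtain ⟨s, S, he, hsa, hsb⟩ := states hs o hr hz
  obtain ⟨T1, T2, T3, T4, T5⟩ := StTabG_222.tab s fun i => (S i).le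
  have hpos : ∀ i : Fin 3, 0 < (HH false DgL A B).Rp z ζ i.castSucc := fun i =>
    (Hub.Out.Rp_pos_iff hok he1 o _).2 (hz i)
  refine ⟨hpos 0, hpos 1, hpos 2, ?_, ?_, ?_, ?_, ?_, ?_, ?_⟩
  · -- `(-, -)`
    intro a1 a2 e0 e1 e2
    obtain ⟨c, hc⟩ := T1 (neg_of hsa a1) (neg_of hsb a2) fun i => (he i).1 (by
      fin_cases i
      · exact e0
      · exact e1
      · exact e2)
    exact ⟨bx c, sub3 c, La_full S hc⟩
  · -- `(+, +)`
    intro a1 a2
    obtain ⟨i, hi, hc⟩ := T2 (hsa.1 a1) (hsb.1 a2)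
    refine ⟨i.castSucc, by fin_cases i <;> decide, (he i).2 (ray_plus hi), fun e hie => ?_⟩
    rcases box_cases S e hie hi with ⟨c, rfl, hb⟩ | h
    · exact La_poss S (hc c hb)
    · exact h
  · -- `(+, -)`, `x`
    intro a1 a2
    obtain ⟨hi, hc, -⟩ := T3 (hsa.1 a1) (neg_of hsb a2)
    refine ⟨(he 0).2 (ray_plus hi), fun e hie => ?_⟩
    rcases box_cases (i := 0) S e hie hi with ⟨c, rfl, hb⟩ | h
    · rcases hc c hb with h | ⟨h, h'⟩
      · exact Or.inl (La_poss S h)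
      · right
        have m1 : (1 : Fin 4) ∈ (DgL.bx (bx c)).S := (mem_bx c 1).2 h
        have m2 : (2 : Fin 4) ∈ (DgL.bx (bx c)).S := (mem_bx c 2).2 h'
        rw [sb_mem hie, sb_mem m1, sb_mem m2]
        exact ⟨le_rfl, le_rfl⟩
    · exact Or.inl h
  · -- `(+, -)`, box
    intro a1 a2 e0 e1 e2
    obtain ⟨-, -, hc⟩ := T3 (hsa.1 a1) (neg_of hsb a2)
    obtain ⟨c, hc⟩ := hc ((he 1).1 e1) ((he 2).1 e2)
    exact ⟨bx c, sub3 c, La_full S hc⟩
  · -- `(+, -)`, coefficients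
    intro a1 a2 ha
    obtain ⟨hi, -, -⟩ := T3 (hsa.1 a1) (neg_of hsb a2)
    have hχ : wi 0 4 (DgL.M 0) (ag z 0) = 0 := (S 0).ray0 hi 4 _ le_rfl
      (by have := lohi (bx 0) 0 (by decide); have := DgL.hhi (bx 0) 0 (by decide); decide) le_rfl
    rcases h0 hχ with h | h
    · exfalso
      have : (HH false DgL A B).rp t z ζ 0 = 0 := by
        unfold Hub.rp
        rw [HubBx_370.r_eq, if_pos rfl, h]
        ring
      rw [this] at ha
      exact lt_irrefl _ ha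
    · exact h
  · -- `(-, +)`, own sign of `x` negative
    intro a1 a2 e0
    obtain ⟨i, hi0, hi, hc⟩ := T4 (neg_of hsa a1) (hsb.1 a2) (neg_of (he 0) e0)
    refine ⟨i.castSucc, ?_, (he i).2 (ray_plus hi), fun e hie => ?_⟩
    · fin_cases i
      · exact absurd rfl hi0
      · decide
      · decide
    rcases box_cases S e hie hi with ⟨c, rfl, hb⟩ | h
    · rcases hc c hb with h | h
      · exact Or.inl (La_poss S h)
      · right
        have m0 : (0 : Fin 4) ∈ (DgL.bx (bx c)).S := (mem_bx c 0).2 h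
        rw [sb_mem hie, sb_mem m0]
    · exact Or.inl h
  · -- `(-, +)`, own sign of `x` positive
    intro a1 a2 e0
    obtain ⟨hs0, i, hi0, hi, c, hf, hb0, hbi, hbo, hun⟩ :=
      T5 (neg_of hsa a1) (hsb.1 a2) ((he 0).1 e0)
    have m0 : (0 : Fin 4) ∈ (DgL.bx (bx c)).S := (mem_bx c 0).2 hb0
    have mi : i.castSucc ∈ (DgL.bx (bx c)).S := (mem_bx c i).2 hbi
    refine ⟨⟨i.castSucc, ?_, (he i).2 (ray_plus hi), bx c, S_pair hb0 hbi hbo, La_full S hf, ?_,
      fun e hie => ?_⟩, fun hb => ?_⟩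
    · fin_cases i
      · exact absurd rfl hi0
      · decide
      · decide
    · rw [sb_mem mi, sb_mem m0]
    · rcases box_cases S e hie hi with ⟨c', rfl, hb'⟩ | h
      · rcases hun c' hb' with h | h
        · exact Or.inl (by rw [h])
        · exact Or.inr (La_poss S h)
      · exact Or.inr h
    · have hχ : wi 0 4 (DgL.M 0) (ag z 0) = 1 := (S 0).arm1 (by rw [hs0]; rfl)
      rcases h1 hχ with h | h
      · exfalso
        have : (HH false DgL A B).rp t z ζ 1 = 0 := by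
          unfold Hub.rp
          rw [HubBx_370.r_eq, if_neg (by decide), h]
          ring
        rw [this] at hb
        exact lt_irrefl _ hb
      · exact h


/-! ### the non real case -/

theorem im_sum (o : (HH false DgL A B).Out (15 * dd) t z ζ) (hr : 15 * dd < |ζ.im|)
    (i : Fin 4) : ∑ c, HubBx_370.sb DgL c i * (HH false DgL A B).Bp z ζ c = 0 :=
  Finset.sum_eq_zero fun c _ => by rw [Hub.Out.Bp_im o hr c, mul_zero]

/-- the sign of a coupling is one of the own signs -/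
theorem sv_own (hs : Sched false DgL A B) (ht : t ∈ Icc (0 : ℝ) 1)
    (o : (HH false DgL A B).Out (15 * dd) t z ζ) (hr : 15 * dd < |ζ.im|) (k : Fin 2)
    (hk : 0 < (HH false DgL A B).rp t z ζ k) :
    (HH false DgL A B).sv z ζ k = (HH false DgL A B).es z ζ 0 ∨
      (HH false DgL A B).sv z ζ k = (HH false DgL A B).es z ζ 1 ∨
      (HH false DgL A B).sv z ζ k = (HH false DgL A B).es z ζ 2 := by
  have hok : (HH false DgL A B).Ok univ (15 * dd) := ok dd_pos facts_g hs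
  have he1 : 3 * (15 * dd) < 1 := by rw [edd]; norm_num
  obtain ⟨i, -, -, hi, h⟩ := Hub.Out.sv_im hok he1 o hr
    (hk.trans_le (Hub.Out.rp_bd hok ht o k).2)
  fin_cases i
  · exact Or.inl h
  · exact Or.inr (Or.inl h)
  · exact Or.inr (Or.inr h)
  · exfalso
    refine hi ?_
    show 3 * (vc false k 3 : ℝ) = 0
    fin_cases k <;> simp [vc]

/-- the coupling `α` follows `x` or `β` -/
theorem sv_ab (hs : Sched false DgL A B) (ht : t ∈ Icc (0 : ℝ) 1)
    (o : (HH false DgL A B).Out (15 * dd) t z ζ) (hr : 1 / 100 < |ζ.im|)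
    (ha : 0 < (HH false DgL A B).rp t z ζ 0) (hb : 0 < (HH false DgL A B).rp t z ζ 1) :
    (HH false DgL A B).sv z ζ 0 = (HH false DgL A B).es z ζ 0 ∨
      (HH false DgL A B).sv z ζ 0 = (HH false DgL A B).sv z ζ 1 := by
  have hok : (HH false DgL A B).Ok univ (15 * dd) := ok dd_pos facts_g hs
  have hd4 : dd = 1 / 10000 := rfl
  have ha' := ha.trans_le (Hub.Out.rp_bd hok ht o 0).2
  have hb' := hb.trans_le (Hub.Out.rp_bd hok ht o 1).2
  have hz0 : z 0 ≠ 0 := HubBx_370.r_pos_var (k := 0) ha' (by decide)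
  have hR0 : 0 < (HH false DgL A B).R z 0 := (hok.R_pos_iff z 0).2 hz0
  have sl := Hs_sl dd_pos (m := 1) (n := 2) (by norm_num) (by norm_num)
  set u : Fin 3 → ℝ := fun i => lft (HH false DgL A B).ph (ag z) i.castSucc with hu
  have hα : (HH false DgL A B).ta z 0 = cis (gAl (Hs dd_pos) u) := rfl
  have hβ : (HH false DgL A B).ta z 1 = cis (gBe (Hs dd_pos) u) := rfl
  have hmix : gAl (Hs dd_pos) u = gBe (Hs dd_pos) u +
      Hs dd_pos 1 2 (u 0 - gBe (Hs dd_pos) u) := rfl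
  have hu0 : cis (u 0) = cis (gBe (Hs dd_pos) u) * cis (u 0 - gBe (Hs dd_pos) u) := by
    rw [← cis_add]; congr 1; ring
  rcases lt_or_ge 0 (deriv (Hs dd_pos 1 2) (u 0 - gBe (Hs dd_pos) u)) with h1 | h1
  · left
    have h2 := sl.one _ h1
    have h3 : ‖(HH false DgL A B).ta z 0 - cis (u 0)‖ ≤ 5 * dd := by
      rw [hα, hmix, cis_add, hu0, ← mul_sub, norm_mul, norm_cis, one_mul]
      exact h2
    have hst := hok.st 0 (ag z 0)
    have hcase : cis (u 0) = (HH false DgL A B).ka z 0 ∨ cis (u 0) = -1 := by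
      rcases hst with h | h | h
      · exact Or.inl h.2.2
      · exact Or.inr h.2.2
      · exact Or.inr h.2.2.2
    rcases hcase with h4 | h4
    · rw [h4] at h3
      have h5 := rf_abs o.norm (norm_cis _) (Hub.Out.jf_own hok o hR0)
      have h6 := sgn_close o.norm h3 (by
        have : |rf ζ (cis ((HH false DgL A B).p 0 (ag z 0)))| =
          |rf ζ ((HH false DgL A B).ka z 0)| := rfl
        rw [this, edd] at h5
        have := h5.1
        rw [hd4]
        linarith)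
      unfold Hub.sv Hub.es
      by_cases h7 : 0 < rf ζ ((HH false DgL A B).ka z 0)
      · rw [if_pos (h6.1.1 h7), if_pos ⟨hR0, h7⟩]
      · rw [if_neg (fun h8 => h7 (h6.1.2 h8)), if_neg (fun h8 => h7 h8.2)]
    · exfalso
      rw [h4] at h3
      have h5 := Stair_739.jf_close o.norm h3
      have h6 := o.cpl 0 ha'
      have h7 : jf ζ (-1) = ζ.im := by simp [jf]
      rw [h7] at h5
      rw [edd] at h6
      rw [hd4] at h5
      have h8 := abs_le.1 h5
      have h9 := abs_le.1 h6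
      rcases abs_cases ζ.im with h10 | h10 <;> linarith [h10.1, h8.1, h8.2, h9.1, h9.2]
  · right
    have h2 := sl.zero _ (lt_of_le_of_lt h1 one_pos)
    have h3 : ‖(HH false DgL A B).ta z 0 - (HH false DgL A B).ta z 1‖ ≤ 5 * dd := by
      rw [hα, hβ, hmix, cis_add]
      have : cis (gBe (Hs dd_pos) u) * cis (Hs dd_pos 1 2 (u 0 - gBe (Hs dd_pos) u)) -
          cis (gBe (Hs dd_pos) u) = cis (gBe (Hs dd_pos) u) *
            (cis (Hs dd_pos 1 2 (u 0 - gBe (Hs dd_pos) u)) - 1) := by ring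
      rw [this, norm_mul, norm_cis, one_mul]
      exact h2
    have h5 := rf_abs o.norm (norm_cis _) (o.cpl 1 hb')
    have h6 := sgn_close o.norm h3 (by
      have : |rf ζ (cis ((HH false DgL A B).Φ 1 (lft (HH false DgL A B).ph (ag z))))| =
        |rf ζ ((HH false DgL A B).ta z 1)| := rfl
      rw [this, edd] at h5
      have := h5.1
      rw [hd4]
      linarith)
    unfold Hub.sv
    by_cases h7 : 0 < rf ζ ((HH false DgL A B).ta z 1)
    · rw [if_pos (h6.1.1 h7), if_pos h7]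
    · rw [if_neg (fun h8 => h7 (h6.1.2 h8)), if_neg h7]

/-- **the non real case** -/
theorem im_case (hs : Sched false DgL A B) (ht : t ∈ Icc (0 : ℝ) 1)
    (o : (HH false DgL A B).Out (15 * dd) t z ζ) (hr : 1 / 100 < |ζ.im|) (i : Fin 4) :
    (HH false DgL A B).Rp z ζ i = 0 := by
  have hok : (HH false DgL A B).Ok univ (15 * dd) := ok dd_pos facts_g hs
  have he1 : 15 * dd < 1 := by rw [edd]; norm_num
  have hr' : 15 * dd < |ζ.im| := by rw [edd]; linarith
  obtain ⟨q0, q1, q2, q3⟩ := HubBx_370.eq_g facts_g o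
  rw [im_sum o hr'] at q0 q1 q2 q3
  have hpos : ∀ k : Fin 2, 0 < (HH false DgL A B).rp t z ζ k →
      0 < (HH false DgL A B).Rp z ζ 0 ∧ 0 < (HH false DgL A B).Rp z ζ 1 ∧
        0 < (HH false DgL A B).Rp z ζ 2 := by
    intro k hk
    have hk' := hk.trans_le (Hub.Out.rp_bd hok ht o k).2
    refine ⟨?_, ?_, ?_⟩
    · exact (Hub.Out.Rp_pos_iff hok he1 o _).2
        (HubBx_370.r_pos_var hk' (by fin_cases k <;> decide))
    · exact (Hub.Out.Rp_pos_iff hok he1 o _).2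
        (HubBx_370.r_pos_var hk' (by fin_cases k <;> decide))
    · exact (Hub.Out.Rp_pos_iff hok he1 o _).2
        (HubBx_370.r_pos_var hk' (by fin_cases k <;> decide))
  exact PatGR_222.patG_im (fun i => Hub.Rp_nonneg i) (fun i => Hub.es_pm i)
    (hok.rp_nonneg ht 0) (hok.rp_nonneg ht 1) (hpos 0) (hpos 1) q0 q1 q2 q3
    (sv_own hs ht o hr' 1) (sv_own hs ht o hr' 0) (sv_ab hs ht o hr) i

/-! ### the paths -/

/-- **no critical zero of the hub function of `g`** -/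
theorem no_out (hs : Sched false DgL A B) (ht : t ∈ Icc (0 : ℝ) 1) (hz : z ≠ 0)
    (h1 : ∀ x, chi false DgL x = 1 → B t x = 0 ∨ 4 * (51 / 50) * B t x < A t x ^ 2)
    (h0 : ∀ x, chi false DgL x = 0 → A t x = 0 ∨ 27 * (51 / 50) * A t x < B t x ^ 3) :
    ¬ (HH false DgL A B).Out (15 * dd) t z ζ := by
  intro o
  have hok : (HH false DgL A B).Ok univ (15 * dd) := ok dd_pos facts_g hs
  have he1 : 15 * dd < 1 := by rw [edd]; norm_num
  have key : ∀ i, (HH false DgL A B).Rp z ζ i = 0 := by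
    rcases le_or_gt |ζ.im| (1 / 100) with hr | hr
    · exact real_case hs ht o hr (h1 _) (h0 _)
    · exact im_case hs ht o hr
  refine hz (funext fun i => ?_)
  by_contra hne
  exact ((Hub.Out.Rp_pos_iff hok he1 o i).2 hne).ne' (key i)

/-- **C7, `g`, first half** -/
theorem path1 : Path1P false DgL := by
  refine path1P facts_g (M0 := 6) fun M hM hM0 t ht z hz ζ => ?_
  refine no_out (sched1 facts_g hM0) ht hz (fun x hx => Or.inr ?_) fun x hx => Or.inr ?_
  · rw [hx]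
    nlinarith [ht.1, ht.2, mul_nonneg hM0 ht.1]
  · rw [hx]
    have h2 : (36 : ℝ) * M ≤ M ^ 3 := by
      have : (36 : ℝ) ≤ M ^ 2 := by nlinarith
      nlinarith
    have h3 : (M * (1 - t * 0)) ^ 3 = M ^ 3 := by ring
    rw [h3]
    nlinarith [ht.1, ht.2, mul_nonneg hM0 ht.1]

/-- **C7, `g`, second half** -/
theorem path2 : Path2P false DgL := by
  refine path2P facts_g (M0 := 0) fun M _ hM0 t ht z hz ζ => ?_
  refine no_out (sched2 facts_g hM0) ht hz (fun x hx => Or.inl ?_) fun x hx => Or.inl ?_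
  · rw [hx]; ring
  · rw [hx]; ring

end Crest.Agent.R267.HubG_222
end
end

-- ▼ part R267/NSBridge_966
section

/-!
# Row 267, T3N, C1: the literal `LiftPD` and the bridge to the cut-offs of `NCut_88` (helper966)

* `gcut α β F P Q` : the cut function with general weights `α` (inner) and `β` (outer);
* `UPath.gstep` : a `UPath` and a path of weights give an `AStep`;
* `gcut_cut` : `NCut_88.cut` is a `gcut`; `h_gcut` : `PD.h` is a `gcut` for `u ≥ 0`;
* `liftPD : LiftPD`; `bridge` : the arm of `D.tri t` is joined to `PA (D.h a b t)`.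
-/

set_option autoImplicit false
set_option linter.unusedSectionVars false

noncomputable section

open Set Filter Topology Finset
open Crest.Agent.R267.NdR_484 Crest.Agent.R267.NdY_484 Crest.Agent.R267.PolArm_484
open Crest.Agent.R267.NCut_88 Crest.Agent.R267.NStep_88 Crest.Agent.R267.NSDefs_966
open Crest.Agent.R267.NSLift_966

namespace Crest.Agent.R267.NSBridge_966

/-- the cut function with general weights. -/
def gcut (α β : ℝ → ℝ) (F : ℝ × ℝ × ℝ → ℂ) (P : ℝ → ℂ) (Q : ℝ → ℝ → ℝ) (q : ℝ × ℝ × ℝ) : ℂ :=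
  ((1 - α q.2.1 : ℝ) : ℂ) * P q.1 +
    ((β q.2.1 : ℝ) : ℂ) * (((α q.2.1 : ℝ) : ℂ) * F q -
      ((q.2.1 ^ 15 : ℝ) : ℂ) * cis (Q q.1 q.2.2)) +
    ((q.2.1 ^ 15 : ℝ) : ℂ) * cis (β q.2.1 * Q q.1 q.2.2 + (1 - β q.2.1) * (15 * q.2.2))

/-- a pair of weights for the window `[a, b]`. -/
structure Wt (a b : ℝ) (α β : ℝ → ℝ) : Prop where
  α0 : ∀ u, u ≤ a / 2 → α u = 0
  α1 : ∀ u, a ≤ u → α u = 1
  αn : ∀ u, 0 ≤ α u
  αl : ∀ u, α u ≤ 1
  β1 : ∀ u, u ≤ b → β u = 1
  β0 : ∀ u, 2 * b ≤ u → β u = 0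
  βn : ∀ u, 0 ≤ β u
  βl : ∀ u, β u ≤ 1

theorem gcut_cut (a b : ℝ) (F : ℝ × ℝ × ℝ → ℂ) (P : ℝ → ℂ) (Q : ℝ → ℝ → ℝ) :
    cut a b F P Q = gcut (lo a) (fun u => 1 - hi b u) F P Q := by
  funext q
  unfold cut gcut Qu
  rw [sub_sub_cancel]

section

variable {a b : ℝ} {α β : ℝ → ℝ} {F : ℝ × ℝ × ℝ → ℂ} {P : ℝ → ℂ} {Q : ℝ → ℝ → ℝ}

theorem gcut_low (h : Wt a b α β) {q : ℝ × ℝ × ℝ} (hq : q.2.1 ≤ b) :
    gcut α β F P Q q = P q.1 + ((α q.2.1 : ℝ) : ℂ) * (F q - P q.1) := by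
  unfold gcut
  rw [h.β1 _ hq]
  simp only [sub_self, one_mul, zero_mul, add_zero, Complex.ofReal_one]
  push_cast
  ring

theorem gcut_high (h : Wt a b α β) {q : ℝ × ℝ × ℝ} (hq : a ≤ q.2.1) :
    gcut α β F P Q q = ((β q.2.1 : ℝ) : ℂ) * (F q - ((q.2.1 ^ 15 : ℝ) : ℂ) * cis (Q q.1 q.2.2)) +
      ((q.2.1 ^ 15 : ℝ) : ℂ) * cis (β q.2.1 * Q q.1 q.2.2 + (1 - β q.2.1) * (15 * q.2.2)) := by
  unfold gcut
  rw [h.α1 _ hq]
  simp

theorem gcut_mid (h : Wt a b α β) {q : ℝ × ℝ × ℝ} (hq : a ≤ q.2.1) (hq' : q.2.1 ≤ b) :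
    gcut α β F P Q q = F q := by
  rw [gcut_low h hq', h.α1 _ hq]
  simp

theorem gcut_inner (h : Wt a b α β) (hab : a / 2 ≤ b) {q : ℝ × ℝ × ℝ} (hq : q.2.1 ≤ a / 2) :
    gcut α β F P Q q = P q.1 := by
  rw [gcut_low h (hq.trans hab), h.α0 _ hq]
  simp

theorem gcut_outer (h : Wt a b α β) (hab : a ≤ 2 * b) {q : ℝ × ℝ × ℝ} (hq : 2 * b ≤ q.2.1) :
    gcut α β F P Q q = ((q.2.1 ^ 15 : ℝ) : ℂ) * cis (15 * q.2.2) := by
  rw [gcut_high h (hab.trans hq), h.β0 _ hq]
  simp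

theorem gcut_ne_low (h : Wt a b α β) (hab : a ≤ b) {q : ℝ × ℝ × ℝ} (hq : q.2.1 ≤ a)
    (hF : ‖F q - P q.1‖ < ‖P q.1‖) : gcut α β F P Q q ≠ 0 := by
  rw [gcut_low h (hq.trans hab)]
  intro h0
  have h1 : P q.1 = -(((α q.2.1 : ℝ) : ℂ) * (F q - P q.1)) := eq_neg_of_add_eq_zero_left h0
  have h2 : ‖P q.1‖ ≤ ‖F q - P q.1‖ := by
    calc ‖P q.1‖ = ‖-(((α q.2.1 : ℝ) : ℂ) * (F q - P q.1))‖ := congrArg _ h1
      _ = α q.2.1 * ‖F q - P q.1‖ := by
          rw [norm_neg, norm_mul, Complex.norm_real, Real.norm_of_nonneg (h.αn _)]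
      _ ≤ 1 * ‖F q - P q.1‖ := mul_le_mul_of_nonneg_right (h.αl _) (norm_nonneg _)
      _ = _ := one_mul _
  linarith

theorem gcut_ne_high (h : Wt a b α β) (ha : 0 < a) (hab : a ≤ b) {q : ℝ × ℝ × ℝ}
    (hq : b ≤ q.2.1) (hF : ‖F q - ((q.2.1 ^ 15 : ℝ) : ℂ) * cis (Q q.1 q.2.2)‖ < q.2.1 ^ 15) :
    gcut α β F P Q q ≠ 0 := by
  rw [gcut_high h (hab.trans hq)]
  intro h0
  have hb := ha.trans_le hab
  have hq0 : 0 ≤ q.2.1 ^ 15 := pow_nonneg (hb.le.trans hq) _
  set X := F q - ((q.2.1 ^ 15 : ℝ) : ℂ) * cis (Q q.1 q.2.2) with hX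
  have h1 : ((q.2.1 ^ 15 : ℝ) : ℂ) *
      cis (β q.2.1 * Q q.1 q.2.2 + (1 - β q.2.1) * (15 * q.2.2)) =
      -(((β q.2.1 : ℝ) : ℂ) * X) := eq_neg_of_add_eq_zero_right h0
  have h2 : q.2.1 ^ 15 ≤ ‖X‖ := by
    calc q.2.1 ^ 15 = ‖((q.2.1 ^ 15 : ℝ) : ℂ) *
          cis (β q.2.1 * Q q.1 q.2.2 + (1 - β q.2.1) * (15 * q.2.2))‖ := by
          rw [norm_mul, norm_cis, mul_one, Complex.norm_real, Real.norm_of_nonneg hq0]
      _ = ‖-(((β q.2.1 : ℝ) : ℂ) * X)‖ := congrArg _ h1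
      _ = β q.2.1 * ‖X‖ := by
          rw [norm_neg, norm_mul, Complex.norm_real, Real.norm_of_nonneg (h.βn _)]
      _ ≤ 1 * ‖X‖ := mul_le_mul_of_nonneg_right (h.βl _) (norm_nonneg _)
      _ = _ := one_mul _
  linarith

theorem gcut_nhds (h : Wt a b α β) {q : ℝ × ℝ × ℝ} (hq : a < q.2.1) (hq' : q.2.1 < b) :
    gcut α β F P Q =ᶠ[nhds q] F := by
  have h1 : ∀ᶠ r : ℝ × ℝ × ℝ in nhds q, a < r.2.1 :=
    (continuous_snd.fst).continuousAt.eventually (lt_mem_nhds hq)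
  have h2 : ∀ᶠ r : ℝ × ℝ × ℝ in nhds q, r.2.1 < b :=
    (continuous_snd.fst).continuousAt.eventually (gt_mem_nhds hq')
  filter_upwards [h1, h2] with r hr hr'
  exact gcut_mid h hr.le hr'.le

theorem gcut_reg (h : Wt a b α β) (ha : 0 < a) (hab : a ≤ b)
    (hlow : ∀ θ u ω : ℝ, 0 < u → u ≤ a → ‖F (θ, u, ω) - P θ‖ < ‖P θ‖)
    (hhigh : ∀ θ u ω : ℝ, b ≤ u → ‖F (θ, u, ω) - ((u ^ 15 : ℝ) : ℂ) * cis (Q θ ω)‖ < u ^ 15)
    (hreg : ∀ θ u ω : ℝ, 0 < u → F (θ, u, ω) = 0 →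
      ∀ c : ℂ, ∃ y : ℝ × ℝ × ℝ, fderiv ℝ F (θ, u, ω) y = c)
    (θ u ω : ℝ) (hu : 0 < u) (h0 : gcut α β F P Q (θ, u, ω) = 0) (c : ℂ) :
    ∃ y : ℝ × ℝ × ℝ, fderiv ℝ (gcut α β F P Q) (θ, u, ω) y = c := by
  rcases le_or_gt u a with h1 | h1
  · exact absurd h0 (gcut_ne_low h hab (q := (θ, u, ω)) h1 (hlow θ u ω hu h1))
  · rcases le_or_gt b u with h2 | h2
    · exact absurd h0 (gcut_ne_high h ha hab (q := (θ, u, ω)) h2 (hhigh θ u ω h2))
    · have h3 := gcut_nhds (F := F) (P := P) (Q := Q) h (q := (θ, u, ω)) h1 h2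
      rw [h3.eq_of_nhds] at h0
      rw [h3.fderiv_eq]
      exact hreg θ u ω hu h0 c

end

/-- joint smoothness. -/
theorem gcut_smooth {I : Set ℝ} {α β : ℝ → ℝ → ℝ} {F : ℝ → ℝ × ℝ × ℝ → ℂ} {P : ℝ → ℝ → ℂ}
    {Q : ℝ → ℝ → ℝ → ℝ}
    (hα : ContDiff ℝ 2 (fun q : ℝ × ℝ => α q.1 q.2)) (hβ : ContDiff ℝ 2 (fun q : ℝ × ℝ => β q.1 q.2))
    (hF : ContDiffOn ℝ 2 (fun q : ℝ × ℝ × ℝ × ℝ => F q.1 q.2) (I ×ˢ {p | 0 < p.2.1}))
    (hP : ContDiffOn ℝ 2 (fun q : ℝ × ℝ => P q.1 q.2) (I ×ˢ univ))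
    (hQ : ContDiffOn ℝ 2 (fun q : ℝ × ℝ × ℝ => Q q.1 q.2.1 q.2.2) (I ×ˢ univ)) :
    ContDiffOn ℝ 2 (fun q : ℝ × ℝ × ℝ × ℝ => gcut (α q.1) (β q.1) (F q.1) (P q.1) (Q q.1) q.2)
      (I ×ˢ {p | 0 < p.2.1}) := by
  have hu : ContDiff ℝ 2 fun q : ℝ × ℝ × ℝ × ℝ => q.2.2.1 :=
    contDiff_fst.comp (contDiff_snd.comp contDiff_snd)
  have hlo : ContDiff ℝ 2 fun q : ℝ × ℝ × ℝ × ℝ => α q.1 q.2.2.1 :=
    hα.comp (contDiff_fst.prodMk hu)
  have hhi : ContDiff ℝ 2 fun q : ℝ × ℝ × ℝ × ℝ => β q.1 q.2.2.1 :=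
    hβ.comp (contDiff_fst.prodMk hu)
  have hP' : ContDiffOn ℝ 2 (fun q : ℝ × ℝ × ℝ × ℝ => P q.1 q.2.1) (I ×ˢ {p | 0 < p.2.1}) :=
    hP.comp (f := fun q : ℝ × ℝ × ℝ × ℝ => (q.1, q.2.1))
      (contDiff_fst.prodMk (contDiff_fst.comp contDiff_snd)).contDiffOn
      fun q hq => ⟨hq.1, mem_univ _⟩
  have hQ' : ContDiffOn ℝ 2 (fun q : ℝ × ℝ × ℝ × ℝ => Q q.1 q.2.1 q.2.2.2)
      (I ×ˢ {p | 0 < p.2.1}) :=
    hQ.comp (f := fun q : ℝ × ℝ × ℝ × ℝ => (q.1, q.2.1, q.2.2.2))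
      (contDiff_fst.prodMk ((contDiff_fst.comp contDiff_snd).prodMk
        (contDiff_snd.comp (contDiff_snd.comp contDiff_snd)))).contDiffOn
      fun q hq => ⟨hq.1, mem_univ _⟩
  have hω : ContDiff ℝ 2 fun q : ℝ × ℝ × ℝ × ℝ => q.2.2.2 :=
    contDiff_snd.comp (contDiff_snd.comp contDiff_snd)
  have hr : ∀ {f : ℝ × ℝ × ℝ × ℝ → ℝ} {s : Set (ℝ × ℝ × ℝ × ℝ)}, ContDiffOn ℝ 2 f s →
      ContDiffOn ℝ 2 (fun q => ((f q : ℝ) : ℂ)) s := fun {f s} hf =>
    Complex.ofRealCLM.contDiff.comp_contDiffOn hf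
  have hQu : ContDiffOn ℝ 2 (fun q : ℝ × ℝ × ℝ × ℝ => β q.1 q.2.2.1 * Q q.1 q.2.1 q.2.2.2 +
      (1 - β q.1 q.2.2.1) * (15 * q.2.2.2)) (I ×ˢ {p | 0 < p.2.1}) :=
    (hhi.contDiffOn.mul hQ').add
      ((contDiffOn_const.sub hhi.contDiffOn).mul (contDiffOn_const.mul hω.contDiffOn))
  unfold gcut
  exact ((hr (contDiffOn_const.sub hlo.contDiffOn)).mul hP').add
    ((hr hhi.contDiffOn).mul (((hr hlo.contDiffOn).mul hF).sub
      ((hr (hu.pow 15).contDiffOn).mul (contDiff_cis.comp_contDiffOn hQ')))) |>.add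
    ((hr (hu.pow 15).contDiffOn).mul (contDiff_cis.comp_contDiffOn hQu))

/-- **a path of uncut functions and a path of weights give a homotopy of arms.** -/
theorem gstep {F : ℝ → ℝ × ℝ × ℝ → ℂ} {P : ℝ → ℝ → ℂ} {Q : ℝ → ℝ → ℝ → ℝ}
    (h : UPath F P Q) : ∃ a0 : ℝ, 0 < a0 ∧ ∃ b0 : ℝ, ∀ a b : ℝ, 0 < a → a ≤ a0 → b0 ≤ b → a ≤ b →
      ∀ (α β : ℝ → ℝ → ℝ), ContDiff ℝ 2 (fun q : ℝ × ℝ => α q.1 q.2) →
        ContDiff ℝ 2 (fun q : ℝ × ℝ => β q.1 q.2) →
        (∀ t ∈ Icc (0 : ℝ) 1, Wt a b (α t) (β t)) → ∀ (bo : Bool) (v : Fin 3),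
      AStep bo v (PA bo v (gcut (α 0) (β 0) (F 0) (P 0) (Q 0)))
        (PA bo v (gcut (α 1) (β 1) (F 1) (P 1) (Q 1))) := by
  obtain ⟨a0, ha0, hlow⟩ := h.low
  obtain ⟨b0, hhigh⟩ := h.high
  refine ⟨a0, ha0, b0, fun a b ha haa hbb hab α β hα hβ hW bo v => ?_⟩
  have hb := ha.trans_le hab
  refine astep_PA (h := fun t => gcut (α t) (β t) (F t) (P t) (Q t)) ?_ ?_ ?_ ?_ ?_ ?_
  · exact gcut_smooth hα hβ h.smF h.smP h.smQ
  · intro t ht θ u ω hu
    show gcut (α t) (β t) (F t) (P t) (Q t) (θ + 2 * Real.pi, u, ω) =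
      gcut (α t) (β t) (F t) (P t) (Q t) (θ, u, ω)
    unfold gcut
    simp only [h.perF1 t ht θ u ω hu, h.perP t ht θ, h.perQ1 t ht θ ω]
  · intro t ht θ u ω hu
    show gcut (α t) (β t) (F t) (P t) (Q t) (θ, u, ω + 2 * Real.pi) =
      gcut (α t) (β t) (F t) (P t) (Q t) (θ, u, ω)
    unfold gcut
    simp only [h.perF2 t ht θ u ω hu, h.perQ2 t ht θ ω]
    have e1 : cis (Q t θ ω + 15 * (2 * Real.pi)) = cis (Q t θ ω) := by
      have := cis_add_two_pi_mul (Q t θ ω) 15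
      push_cast at this
      exact this
    have e2 : cis (β t u * (Q t θ ω + 15 * (2 * Real.pi)) +
        (1 - β t u) * (15 * (ω + 2 * Real.pi))) =
        cis (β t u * Q t θ ω + (1 - β t u) * (15 * ω)) := by
      have := cis_add_two_pi_mul (β t u * Q t θ ω + (1 - β t u) * (15 * ω)) 15
      push_cast at this
      rw [← this]
      congr 1
      ring
    rw [e1, e2]
  · refine ⟨a / 2, half_pos ha, fun t ht θ u ω _ hu => ?_⟩
    show gcut (α t) (β t) (F t) (P t) (Q t) (θ, u, ω) =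
      gcut (α t) (β t) (F t) (P t) (Q t) (θ, a / 2, 0)
    rw [gcut_inner (hW t ht) (by linarith) (q := (θ, u, ω)) hu,
      gcut_inner (hW t ht) (by linarith) (q := (θ, a / 2, 0)) (le_refl _)]
  · refine ⟨2 * b, fun t ht θ u ω hu => ?_⟩
    show gcut (α t) (β t) (F t) (P t) (Q t) (θ, u, ω) = _
    rw [gcut_outer (hW t ht) (by linarith) (q := (θ, u, ω)) hu, cis_pow]
  · intro t ht θ u ω hu h0 c
    exact gcut_reg (hW t ht) ha hab (fun θ u ω hu hua => hlow t ht θ u ω hu (hua.trans haa))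
      (fun θ u ω hbu => hhigh t ht θ u ω (hbb.trans hbu)) (h.reg t ht) θ u ω hu h0 c

/-! ### the weights -/

theorem wt_lo_hi {a b : ℝ} (ha : 0 < a) (hb : 0 < b) : Wt a b (lo a) (fun u => 1 - hi b u) where
  α0 := fun u h => lo_of_le ha h
  α1 := fun u h => lo_of_ge ha h
  αn := fun u => lo_nonneg a u
  αl := fun u => lo_le_one a u
  β1 := fun u h => by simp only [hi_of_le hb h, sub_zero]
  β0 := fun u h => by simp only [hi_of_ge hb h, sub_self]
  βn := fun u => sub_nonneg.2 (hi_le_one b u)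
  βl := fun u => by have := hi_nonneg b u; linarith

theorem wt_ca_cb {a b : ℝ} (ha : 0 < a) (hb : 0 < b) : Wt a b (ca a) (cb b) where
  α0 := fun u h => Calc_957.st_of_le (by
    have : 2 * u / a ≤ 1 := by rw [div_le_one ha]; linarith
    linarith)
  α1 := fun u h => Calc_957.st_of_ge (by
    have : 2 ≤ 2 * u / a := by rw [le_div_iff₀ ha]; linarith
    linarith)
  αn := fun u => Calc_957.st_nonneg _
  αl := fun u => Calc_957.st_le_one _
  β1 := fun u h => by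
    unfold cb
    rw [Calc_957.st_of_le (by
      have : u / b ≤ 1 := by rw [div_le_one hb]; exact h
      linarith), sub_zero]
  β0 := fun u h => by
    unfold cb
    rw [Calc_957.st_of_ge (by
      have : 2 ≤ u / b := by rw [le_div_iff₀ hb]; exact h
      linarith), sub_self]
  βn := fun u => by
    unfold cb
    have := Calc_957.st_le_one (u / b - 1)
    linarith
  βl := fun u => by
    unfold cb
    have := Calc_957.st_nonneg (u / b - 1)
    linarith

theorem contDiff_ca (a : ℝ) : ContDiff ℝ 2 (ca a) :=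
  Calc_957.contDiff_st.comp (by fun_prop : ContDiff ℝ 2 fun u : ℝ => 2 * u / a - 1)

theorem contDiff_cb (b : ℝ) : ContDiff ℝ 2 (cb b) :=
  contDiff_const.sub (Calc_957.contDiff_st.comp (by fun_prop : ContDiff ℝ 2 fun u : ℝ => u / b - 1))

/-- convex combinations of weights. -/
theorem wt_comb {a b : ℝ} {α β α' β' : ℝ → ℝ} (h : Wt a b α β) (h' : Wt a b α' β') {t : ℝ}
    (ht : t ∈ Icc (0 : ℝ) 1) : Wt a b (fun u => (1 - t) * α u + t * α' u)
      (fun u => (1 - t) * β u + t * β' u) where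
  α0 := fun u hu => by simp only [h.α0 u hu, h'.α0 u hu]; ring
  α1 := fun u hu => by simp only [h.α1 u hu, h'.α1 u hu]; ring
  αn := fun u => by
    have := h.αn u; have := h'.αn u; have := ht.1; have h1 : 0 ≤ 1 - t := by linarith [ht.2]
    positivity
  αl := fun u => by
    have h1 : 0 ≤ 1 - t := by linarith [ht.2]
    have := mul_le_mul_of_nonneg_left (h.αl u) h1
    have := mul_le_mul_of_nonneg_left (h'.αl u) ht.1
    linarith
  β1 := fun u hu => by simp only [h.β1 u hu, h'.β1 u hu]; ring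
  β0 := fun u hu => by simp only [h.β0 u hu, h'.β0 u hu]; ring
  βn := fun u => by
    have := h.βn u; have := h'.βn u; have := ht.1; have h1 : 0 ≤ 1 - t := by linarith [ht.2]
    positivity
  βl := fun u => by
    have h1 : 0 ≤ 1 - t := by linarith [ht.2]
    have := mul_le_mul_of_nonneg_left (h.βl u) h1
    have := mul_le_mul_of_nonneg_left (h'.βl u) ht.1
    linarith

/-! ### `PD.h` is a `gcut` -/

variable {ι : Type} [Fintype ι] {D : PD ι}

theorem h_gcut {a b : ℝ} (ha : 0 < a) (hab : a ≤ b) (t : ℝ) (z : ℝ × ℝ × ℝ) (hz : 0 ≤ z.2.1) :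
    D.h a b t z = gcut (ca a) (cb b) (D.F t) (D.P t) (D.Qr t) z := by
  have hb := ha.trans_le hab
  have hW := wt_ca_cb ha hb
  obtain ⟨θ, u, ω⟩ := z
  simp only at hz
  have hph : ∀ x y : ℝ, cis (x * (2 * Real.pi * D.q (t, 15 * ω / (2 * Real.pi))) +
      y * (15 * ω)) = e (x * D.q (t, 15 * ω / (2 * Real.pi)) + y * (15 * ω / (2 * Real.pi))) := by
    intro x y
    rw [e_eq]
    congr 1
    field_simp
  rcases eq_or_lt_of_le hz with h0 | h0
  · subst h0
    rw [gcut_inner hW (by linarith) (q := (θ, 0, ω)) (by simp only; linarith)]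
    unfold PD.h PD.P
    simp only [hW.α0 0 (by linarith), hW.β1 0 hb.le]
    simp
  · unfold PD.h gcut
    simp only
    rw [F_eq t h0]
    have e1 : D.Qr t θ ω = 2 * Real.pi * D.q (t, 15 * ω / (2 * Real.pi)) := rfl
    rw [e1, hph]
    have e2 : ca a u = 1 ∨ cb b u = 1 := by
      rcases le_total a u with h | h
      · exact Or.inl (hW.α1 u h)
      · exact Or.inr (hW.β1 u (h.trans hab))
    have e3 : cis (2 * Real.pi * D.q (t, 15 * ω / (2 * Real.pi))) =
        e (D.q (t, 15 * ω / (2 * Real.pi))) := (e_eq _).symm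
    rw [e3]
    have eP : ((D.cv t : ℝ) : ℂ) * e (D.p (t, D.n * θ / (2 * Real.pi))) = D.P t θ := rfl
    rw [eP]
    rcases e2 with h | h
    · rw [h]
      push_cast
      ring
    · rw [h]
      simp only [one_mul, sub_self, zero_mul, add_zero]
      push_cast
      ring

theorem PA_h {a b : ℝ} (ha : 0 < a) (hab : a ≤ b) (t : ℝ) (bo : Bool) (v : Fin 3) :
    PA bo v (D.h a b t) = PA bo v (gcut (ca a) (cb b) (D.F t) (D.P t) (D.Qr t)) := by
  unfold PA
  congr 1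
  funext q
  exact h_gcut ha hab t _ (norm_nonneg _)

/-- **the literal LEAF LIFT.** -/
theorem liftPD : LiftPD := by
  intro ι _ D hD hR
  obtain ⟨a0, ha0, b0, H⟩ := gstep (upath hD hR)
  refine ⟨min a0 1, lt_min ha0 one_pos, max b0 1, (min_le_right _ _).trans (le_max_right _ _),
    fun u0 W h0 h1 h2 bo v => ?_⟩
  have hab : u0 ≤ W := h1.trans ((min_le_right _ _).trans ((le_max_right _ _).trans h2))
  rw [PA_h h0 hab, PA_h h0 hab]
  exact H u0 W h0 (h1.trans (min_le_left _ _)) ((le_max_left _ _).trans h2) hab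
    (fun _ => ca u0) (fun _ => cb W) ((contDiff_ca u0).comp contDiff_snd)
    ((contDiff_cb W).comp contDiff_snd) (fun t _ => wt_ca_cb h0 (h0.trans_le hab)) bo v

/-- the family frozen at the time `t0`. -/
def fz (D : PD ι) (t0 : ℝ) : PD ι where
  n := D.n
  q := fun z => D.q (t0, z.2)
  cv := fun _ => D.cv t0
  p := fun z => D.p (t0, z.2)
  E := D.E
  c := fun σ z => D.c σ (t0, z.2)
  ψ := fun σ z => D.ψ σ (t0, z.2)

theorem fz_ok (hD : D.Ok) {t0 : ℝ} (ht : t0 ∈ Icc (0 : ℝ) 1) : (fz D t0).Ok where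
  hn := hD.hn
  cq := hD.cq.comp (by fun_prop)
  ccv := contDiff_const
  cp := hD.cp.comp (by fun_prop)
  cc := fun σ => (hD.cc σ).comp (by fun_prop)
  cψ := fun σ => (hD.cψ σ).comp (by fun_prop)
  pq := fun _ y => hD.pq t0 y
  pp := fun _ x => hD.pp t0 x
  hcv := fun _ _ => hD.hcv t0 ht
  hE := hD.hE
  pcx := fun σ _ x y => hD.pcx σ t0 x y
  pcy := fun σ _ x y => hD.pcy σ t0 x y
  pψx := fun σ => by obtain ⟨i, hi⟩ := hD.pψx σ; exact ⟨i, fun _ x y => hi t0 x y⟩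
  pψy := fun σ => by obtain ⟨i, hi⟩ := hD.pψy σ; exact ⟨i, fun _ x y => hi t0 x y⟩

theorem fz_K (t0 t : ℝ) : (fz D t0).K t = D.K t0 := rfl

theorem fz_reg {t0 : ℝ} (hR : ∀ z : ℝ × ℝ × ℝ, D.K t0 z = 0 →
    Function.Surjective (fderiv ℝ (D.K t0) z)) : (fz D t0).Reg := by
  intro t _ z hz
  rw [fz_K] at hz ⊢
  exact hR z hz

/-- **BRIDGE**: the two cut-offs of one function give the same arm. -/
theorem bridge (hD : D.Ok) {t0 : ℝ} (ht : t0 ∈ Icc (0 : ℝ) 1)
    (hR : ∀ z : ℝ × ℝ × ℝ, D.K t0 z = 0 → Function.Surjective (fderiv ℝ (D.K t0) z)) :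
    ∃ a0 : ℝ, 0 < a0 ∧ ∃ b0 : ℝ, ∀ a b : ℝ, 0 < a → a ≤ a0 → b0 ≤ b → a ≤ b →
      ∀ (bo : Bool) (v : Fin 3),
        AStep bo v ((D.tri t0).arm bo v a b) (PA bo v (D.h a b t0)) := by
  obtain ⟨a0, ha0, b0, H⟩ := gstep (upath (fz_ok hD ht) (fz_reg hR))
  refine ⟨a0, ha0, b0, fun a b h1 h2 h3 h4 bo v => ?_⟩
  have hb := h1.trans_le h4
  have := H a b h1 h2 h3 h4 (fun t u => (1 - t) * lo a u + t * ca a u)
    (fun t u => (1 - t) * (1 - hi b u) + t * cb b u) ?_ ?_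
    (fun t ht => wt_comb (wt_lo_hi h1 hb) (wt_ca_cb h1 hb) ht) bo v
  · rw [PA_h h1 h4]
    unfold Tri.arm
    rw [gcut_cut]
    simp only [sub_zero, one_mul, zero_mul, add_zero, sub_self, zero_add] at this
    exact this
  · exact ((contDiff_const.sub contDiff_fst).mul ((contDiff_lo a).comp contDiff_snd)).add
      (contDiff_fst.mul ((contDiff_ca a).comp contDiff_snd))
  · exact ((contDiff_const.sub contDiff_fst).mul
      (contDiff_const.sub ((contDiff_hi b).comp contDiff_snd))).add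
      (contDiff_fst.mul ((contDiff_cb b).comp contDiff_snd))

end Crest.Agent.R267.NSBridge_966
end
end

-- ▼ part R267/ArmExD_649
section

/-!
# Row 267, N2 EXIT, part D (helper649): `ExitP` from `Match` and the second half of the exit

`exitP_of` : `DOk D`, `Match (sn b v).S D v` and the second half (helper502) give
`NAsm_407.ExitP b D v`.
-/

set_option autoImplicit false

noncomputable section

open Set Filter Topology Finset
open Crest.Agent.R267.T3aNDefs_88 (SD)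
open Crest.Agent.R267.NSDefs_966
open Crest.Agent.R267.NdY_484 Crest.Agent.R267.PolArm_484
open Crest.Agent.R267.NSArm_780
open Crest.Agent.R267.ArmExB_649 Crest.Agent.R267.ArmExC_649

namespace Crest.Agent.R267.ArmExD_649

variable {m : ℕ} {S : NS m} {D : SD 4} {v : Fin 3}

theorem fin_K : S.fin.K 0 = (famR S).K 0 := by
  funext z
  obtain ⟨x, l, y⟩ := z
  unfold famR
  rw [uni_K]
  unfold PD.K PD.mid NS.fin
  simp only [hat_eq, kl_eq]
  simp

theorem fin_tri : S.fin.tri 0 = (famR S).tri 0 := by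
  unfold PD.tri
  congr 1
  · funext z
    unfold PD.F
    rw [fin_K]
    rfl
  · funext θ
    unfold PD.P famR uni NS.fin
    simp only [hat_eq]
    simp
  · funext θ ω
    unfold PD.Qr famR uni NS.fin
    simp

/-- **EXIT, first half**, from the official end of the chain. -/
theorem exitB (hS : S.Ok) (hD : DOk D) (hM : Match S D v) (b : Bool) :
    ∃ u1 : ℝ, 0 < u1 ∧ ∃ W1 : ℝ, ∀ u0 W : ℝ, 0 < u0 → u0 ≤ u1 → W1 ≤ W → u0 ≤ W →
      AEq b v ((S.fin.tri 0).arm b v u0 W) (PA b v (HE D v u0 W)) := by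
  obtain ⟨u1, h1, W1, -, H1⟩ := exitA NSBridge_966.liftPD hS hD hM b
  obtain ⟨u2, h2, W2, H2⟩ := NSBridge_966.bridge (D := famR S) (t0 := 0) (okR hS hM)
    (left_mem_Icc.2 zero_le_one) (regR hS hD hM 0 (left_mem_Icc.2 zero_le_one))
  refine ⟨min u1 u2, lt_min h1 h2, max W1 W2, fun u0 W hu0 hu hW huW => ?_⟩
  have a2 := H2 u0 W hu0 (hu.trans (min_le_right _ _)) ((le_max_right _ _).trans hW) huW b v
  have a1 := H1 u0 W hu0 (hu.trans (min_le_left _ _)) ((le_max_left _ _).trans hW)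
  rw [← splice0, ← fin_tri] at a2
  exact a2.aeq.trans a1

/-- the second half (helper502) -/
def Exit3 (b : Bool) (D : SD 4) (v : Fin 3) : Prop :=
  ∃ u1 : ℝ, 0 < u1 ∧ ∃ W1 : ℝ, ∀ u0 W : ℝ, 0 < u0 → u0 ≤ u1 → W1 ≤ W →
    ∃ A : ℂ × ℂ → ℂ, AEq b v (PA b v (HE D v u0 W)) A ∧ HubDefs_284.Tgt b D v A

/-- **EXIT.** -/
theorem exitP_of {b : Bool} (hD : DOk D) (hM : Match (sn b v).S D v) (h3 : Exit3 b D v) :
    NAsm_407.ExitP b D v := by
  obtain ⟨u1, h1, W1, H1⟩ := exitB (sn_ok b v) hD hM b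
  obtain ⟨u2, h2, W2, H2⟩ := h3
  refine ⟨min u1 u2, lt_min h1 h2, max W1 W2, fun a c ha ha' hc hac => ?_⟩
  obtain ⟨A, hA, hT⟩ := H2 a c ha (ha'.trans (min_le_right _ _)) ((le_max_right _ _).trans hc)
  exact ⟨A, (H1 a c ha (ha'.trans (min_le_left _ _)) ((le_max_left _ _).trans hc) hac).trans hA,
    hT⟩


end Crest.Agent.R267.ArmExD_649
end
end

-- ▼ part R267/ArmExitA_502
section

/-!
# S0406, N2-EXIT (helper502): planar functions "own words minus a real deletion"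

`FF Q p B (θ, u, ω) = cin u * u^15 * cis (Q (θ, u, ω)) + cout u * (cis (p θ) - cin u * B (θ, u, ω))`,
`cin = 0` for `u ≤ 1/10`, `1` for `u ≥ 2/10`; `cout = 1` for `u ≤ 10`, `0` for `u ≥ 11`.

* `pw_exit`: pointwise regularity of `u^15 cis Q + cis p - B`;
* `astep_FF`: families `FF (Q t) (p t) (B t)` are homotopies of arms (only the regularity for
  `3/10 < u < 9` has to be checked).
-/

set_option autoImplicit false
set_option linter.unusedVariables false

noncomputable section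

open Set Filter Topology
open scoped Real
open Crest.Agent.R267.NdR_484 Crest.Agent.R267.NdY_484 Crest.Agent.R267.PolArm_484
open Crest.Agent.R267.Ang_739 (cis norm_cis contDiff_cis hasDerivAt_cis)

namespace Crest.Agent.R267.ArmExitA_502

/-! ### pointwise algebra -/

theorem sq_le_one' {C S : ℝ} (h : C ^ 2 + S ^ 2 = 1) : C ≤ 1 := by
  nlinarith [sq_nonneg S, sq_nonneg (C - 1)]

theorem rad {a b C S : ℝ} (hCS : C ^ 2 + S ^ 2 = 1) (h : b * C - a * S = 0)
    (hab : a ≠ 0 ∨ b ≠ 0) :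
    ∃ ρ : ℝ, ρ ≠ 0 ∧ a = ρ * C ∧ b = ρ * S := by
  have ha : a = (a * C + b * S) * C := by linear_combination (-a) * hCS - S * h
  have hb : b = (a * C + b * S) * S := by linear_combination (-b) * hCS + C * h
  refine ⟨a * C + b * S, fun h0 => ?_, ha, hb⟩
  rw [h0, zero_mul] at ha hb
  rcases hab with h | h
  · exact h ha
  · exact h hb

theorem pw1 {y By B C S c s a b : ℝ} (hCS : C ^ 2 + S ^ 2 = 1)
    (hcs : c ^ 2 + s ^ 2 = 1) (hF1 : y * C + c = B) (hF2 : y * S + s = 0) (hy : 0 < y)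
    (hBy : y * By ≤ B) (hC : 0 ≤ C) (hc : 0 ≤ c) (hvw : By = 1 → B - y ≠ 1)
    (hab : a ≠ 0 ∨ b ≠ 0) (h1 : b * C - a * S = 0) (h2 : b * c - a * s = 0)
    (e1 : a * C + b * S - By * a = 0) : False := by
  obtain ⟨ρ, hρ, rfl, rfl⟩ := rad hCS h1 hab
  have h2' : By * C = 1 := by
    have : ρ * (1 - By * C) = 0 := by linear_combination e1 - ρ * hCS
    rcases mul_eq_zero.1 this with h | h
    · exact absurd h hρ
    · linarith
  have h4 : S * c = C * s := by
    have : ρ * (S * c - C * s) = 0 := by linear_combination h2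
    rcases mul_eq_zero.1 this with h | h
    · exact absurd h hρ
    · linarith
  have h5 : S * B = 0 := by
    rw [← hF1]
    linear_combination h4 + C * hF2
  rcases mul_eq_zero.1 h5 with h | h
  · subst h
    have hs : s = 0 := by linarith
    subst hs
    have hC1 : C = 1 := by
      have : (C - 1) * (C + 1) = 0 := by linear_combination hCS
      rcases mul_eq_zero.1 this with h | h <;> linarith
    have hc1 : c = 1 := by
      have : (c - 1) * (c + 1) = 0 := by linear_combination hcs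
      rcases mul_eq_zero.1 this with h | h <;> linarith
    subst hC1
    subst hc1
    exact hvw (by linarith) (by linarith)
  · rw [h] at hBy
    have h6 : By ≤ 0 := by
      by_contra h7
      have := mul_pos hy (not_le.1 h7)
      linarith
    have h7 : By * C ≤ 0 := mul_nonpos_of_nonpos_of_nonneg h6 hC
    linarith

theorem pw2 {y By B C S c a b : ℝ} (hCS : C ^ 2 + S ^ 2 = 1)
    (hF1 : y * C + c = B) (hy : 0 < y) (hBy : y * By ≤ B) (hC : 0 ≤ C) (hc : c < 0)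
    (hab : a ≠ 0 ∨ b ≠ 0) (h1 : b * C - a * S = 0)
    (e1 : a * C + b * S - By * a = 0) : False := by
  obtain ⟨ρ, hρ, rfl, rfl⟩ := rad hCS h1 hab
  have h2 : By * C = 1 := by
    have : ρ * (1 - By * C) = 0 := by linear_combination e1 - ρ * hCS
    rcases mul_eq_zero.1 this with h | h
    · exact absurd h hρ
    · linarith
  have hC1 : C ≤ 1 := sq_le_one' hCS
  have h7 : By < C := by
    by_contra h8
    have := mul_le_mul_of_nonneg_left (not_lt.1 h8) hy.le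
    linarith
  have h9 : C ≠ 0 := by
    intro h
    rw [h] at h2
    linarith
  have h10 : 0 < C := lt_of_le_of_ne hC (Ne.symm h9)
  have h11 : By * C < C * C := mul_lt_mul_of_pos_right h7 h10
  have h12 : C * C ≤ 1 := by
    have := mul_le_mul_of_nonneg_right hC1 h10.le
    linarith
  linarith

theorem pw3 {y By B C S c s a b : ℝ} (hcs : c ^ 2 + s ^ 2 = 1) (hF1 : y * C + c = B)
    (hF2 : y * S + s = 0) (hy : 0 < y) (hB : 0 ≤ B) (hBy0 : 0 ≤ By) (hC : C < 0)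
    (hc : 0 ≤ c) (hab : a ≠ 0 ∨ b ≠ 0) (h1 : b * c - a * s = 0)
    (e1 : a * C + b * S - By * a = 0) : False := by
  obtain ⟨ρ, hρ, rfl, rfl⟩ := rad hcs h1 hab
  have h4 : c * C + s * S = By * c := by
    have : ρ * (c * C + s * S - By * c) = 0 := by linear_combination e1
    rcases mul_eq_zero.1 this with h | h
    · exact absurd h hρ
    · linarith
  have h5 : (B - y * By) * c = 1 := by
    linear_combination (-c) * hF1 - s * hF2 + y * h4 + hcs
  have hyC : y * C < 0 := mul_neg_of_pos_of_neg hy hC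
  have hcB : B < c := by linarith
  have hc1 : c ≤ 1 := sq_le_one' hcs
  have hcpos : 0 < c := lt_of_le_of_lt hB hcB
  have h8 : (B - y * By) * c ≤ B * c := by
    apply mul_le_mul_of_nonneg_right _ hc
    have : 0 ≤ y * By := mul_nonneg hy.le hBy0
    linarith
  have h9 : B * c < c * c := mul_lt_mul_of_pos_right hcB hcpos
  have h10 : c * c ≤ 1 := by
    have := mul_le_mul_of_nonneg_right hc1 hcpos.le
    linarith
  linarith

/-- pointwise regularity: own words minus a deletion. `(C, S)` = own phase of `w`, `(c, s)` = own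
phase of `v`, `(a, b)` = conormal. -/
theorem pw_exit {y p' q' B By Bt Bo C S c s a b : ℝ} (hy : 0 < y) (hCS : C ^ 2 + S ^ 2 = 1)
    (hcs : c ^ 2 + s ^ 2 = 1) (hF1 : y * C + c = B) (hF2 : y * S + s = 0) (hB : 0 ≤ B)
    (hBy0 : 0 ≤ By) (hBy : y * By ≤ B) (hv : 0 ≤ c → p' ≠ 0 ∧ Bt = 0)
    (hw : 0 ≤ C → q' ≠ 0 ∧ Bo = 0) (hvw : 0 ≤ c → 0 ≤ C → By = 1 → B - y ≠ 1)
    (hab : a ≠ 0 ∨ b ≠ 0) (e1 : a * C + b * S - By * a = 0)
    (e2 : q' * y * (b * C - a * S) - Bo * a = 0) (e3 : p' * (b * c - a * s) - Bt * a = 0) :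
    False := by
  have k1 : 0 ≤ C → b * C - a * S = 0 := by
    intro hC
    obtain ⟨hq, hBo⟩ := hw hC
    rw [hBo, zero_mul, sub_zero] at e2
    rcases mul_eq_zero.1 e2 with h | h
    · rcases mul_eq_zero.1 h with h | h
      · exact absurd h hq
      · exact absurd h hy.ne'
    · exact h
  have k2 : 0 ≤ c → b * c - a * s = 0 := by
    intro hc
    obtain ⟨hp, hBt⟩ := hv hc
    rw [hBt, zero_mul, sub_zero] at e3
    exact (mul_eq_zero.1 e3).resolve_left hp
  rcases le_or_gt 0 C with hC | hC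
  · rcases le_or_gt 0 c with hc | hc
    · exact pw1 hCS hcs hF1 hF2 hy hBy hC hc (hvw hc hC) hab (k1 hC) (k2 hc) e1
    · exact pw2 hCS hF1 hy hBy hC hc hab (k1 hC) e1
  · rcases le_or_gt 0 c with hc | hc
    · exact pw3 hcs hF1 hF2 hy hB hBy0 hC hc hab (k2 hc) e1
    · have : y * C < 0 := mul_neg_of_pos_of_neg hy hC
      linarith

/-- surjectivity by conormals -/
theorem onto_of_conormal {E : Type*} [AddCommGroup E] [Module ℝ E] (L : E →ₗ[ℝ] ℂ)
    (h : ∀ a b : ℝ, (∀ y, a * (L y).re + b * (L y).im = 0) → ¬ (a ≠ 0 ∨ b ≠ 0)) (c : ℂ) :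
    ∃ y, L y = c := by
  by_contra hc
  have hlt : LinearMap.range L < ⊤ := by
    refine lt_top_iff_ne_top.2 fun ht => hc ?_
    have : c ∈ LinearMap.range L := ht ▸ Submodule.mem_top
    exact this
  obtain ⟨f, hf, hle⟩ := Submodule.exists_le_ker_of_lt_top _ hlt
  have hfe : ∀ z : ℂ, f z = f 1 * z.re + f Complex.I * z.im := by
    intro z
    have hz : z = (z.re : ℝ) • (1 : ℂ) + (z.im : ℝ) • Complex.I := by
      apply Complex.ext <;> simp
    conv_lhs => rw [hz]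
    rw [map_add, map_smul, map_smul, smul_eq_mul, smul_eq_mul]
    ring
  refine h (f 1) (f Complex.I) (fun y => ?_) ?_
  · rw [← hfe]
    exact hle ⟨y, rfl⟩
  · by_contra hn
    push Not at hn
    apply hf
    ext z
    rw [hfe, hn.1, hn.2]
    simp

/-! ### the functions -/

/-- `(θ, u, ω)` -/
abbrev P3 : Type := ℝ × ℝ × ℝ




















end Crest.Agent.R267.ArmExitA_502
end
end

-- ▼ part R267/ArmExitB_502
section

/-!
# S0406, N2-EXIT (3) (helper502): change of the radial profile, removal of the inner cut-off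

`XD ι`: own phases `p`, `q`, windows `lam e`, `mu e`. `hE ci co`: own words minus
`5 u^{15/2} ∑ lam mu`, with two radial cut-offs (class `CO`). `kk t`: the path to the
harmonic profile `5 u^15 / (1 + u^15)` without inner cut-off.
-/

set_option autoImplicit false
set_option linter.unusedVariables false
set_option linter.unusedSectionVars false

noncomputable section

open Set Filter Topology Finset
open scoped Real
open Crest.Agent.R267.NdR_484 Crest.Agent.R267.NdY_484 Crest.Agent.R267.PolArm_484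
open Crest.Agent.R267.Ang_739
open Crest.Agent.R267.NSDefs_966 (ca cb)
open Crest.Agent.R267.T3aDefs_957 (st)
open Crest.Agent.R267.Calc_957
open Crest.Agent.R267.ArmExitA_502 (P3 pw_exit onto_of_conormal)

namespace Crest.Agent.R267.ArmExitB_502

/-! ### the profile -/

/-- the profile as a function of `y = u^15` -/
def bt (t y : ℝ) : ℝ := (1 - t) * (5 * √y) + t * (5 * (y / (1 + y)))

/-- its derivative -/
def btd (t y : ℝ) : ℝ := (1 - t) * (5 * (1 / (2 * √y))) + t * (5 * (1 / (1 + y) ^ 2))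

theorem hasDerivAt_bt {t y : ℝ} (hy : 0 < y) : HasDerivAt (bt t) (btd t y) y := by
  unfold bt btd
  have h1 := (Real.hasDerivAt_sqrt hy.ne').const_mul 5 |>.const_mul (1 - t)
  have h2 : HasDerivAt (fun y : ℝ => y / (1 + y)) (1 / (1 + y) ^ 2) y := by
    have h3 := (hasDerivAt_id y).div ((hasDerivAt_id y).const_add 1)
      (show (1 : ℝ) + id y ≠ 0 by simp only [id]; linarith)
    refine h3.congr_deriv ?_
    simp only [id]
    congr 1
    ring
  exact h1.add ((h2.const_mul 5).const_mul t)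

theorem bt_nonneg {t y : ℝ} (h0 : 0 ≤ t) (h1 : t ≤ 1) (hy : 0 ≤ y) : 0 ≤ bt t y := by
  unfold bt
  have := Real.sqrt_nonneg y
  have h3 : 0 ≤ y / (1 + y) := by positivity
  have h4 : 0 ≤ 1 - t := by linarith
  positivity

theorem btd_nonneg {t y : ℝ} (h0 : 0 ≤ t) (h1 : t ≤ 1) (hy : 0 ≤ y) : 0 ≤ btd t y := by
  unfold btd
  have h4 : 0 ≤ 1 - t := by linarith
  positivity

theorem mul_btd_le {t y : ℝ} (h0 : 0 ≤ t) (h1 : t ≤ 1) (hy : 0 < y) : y * btd t y ≤ bt t y := by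
  unfold bt btd
  have hs := Real.sqrt_pos.2 hy
  have hs2 := Real.sq_sqrt hy.le
  have e1 : y * (1 / (2 * √y)) = √y / 2 := by
    field_simp
    nlinarith
  have e2 : y * (1 / (1 + y) ^ 2) ≤ y / (1 + y) := by
    rw [mul_one_div]
    refine div_le_div_of_nonneg_left hy.le (by linarith) ?_
    nlinarith
  have e3 : y * ((1 - t) * (5 * (1 / (2 * √y))) + t * (5 * (1 / (1 + y) ^ 2))) =
      (1 - t) * (5 * (y * (1 / (2 * √y)))) + t * (5 * (y * (1 / (1 + y) ^ 2))) := by ring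
  rw [e3, e1]
  have h4 : 0 ≤ 1 - t := by linarith
  have h5 : (1 - t) * (5 * (√y / 2)) ≤ (1 - t) * (5 * √y) :=
    mul_le_mul_of_nonneg_left (by linarith) h4
  have h6 : t * (5 * (y * (1 / (1 + y) ^ 2))) ≤ t * (5 * (y / (1 + y))) :=
    mul_le_mul_of_nonneg_left (by linarith) h0
  linarith

/-- the tangent at `y` is larger than `2` at `1` -/
theorem bt_tangent {t y : ℝ} (h0 : 0 ≤ t) (h1 : t ≤ 1) (hy : 0 < y) :
    5 / 2 ≤ bt t y + btd t y * (1 - y) := by
  unfold bt btd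
  have hs := Real.sqrt_pos.2 hy
  have hs2 := Real.sq_sqrt hy.le
  have e1 : 1 ≤ √y + 1 / (2 * √y) * (1 - y) := by
    have : √y + 1 / (2 * √y) * (1 - y) = (1 + y) / (2 * √y) := by
      field_simp
      nlinarith
    rw [this, le_div_iff₀ (by linarith)]
    nlinarith [sq_nonneg (√y - 1)]
  have e2 : 1 / 2 ≤ y / (1 + y) + 1 / (1 + y) ^ 2 * (1 - y) := by
    have : y / (1 + y) + 1 / (1 + y) ^ 2 * (1 - y) = (1 + y ^ 2) / (1 + y) ^ 2 := by
      have : (1 : ℝ) + y ≠ 0 := by linarith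
      field_simp
      ring
    rw [this, le_div_iff₀ (by positivity)]
    nlinarith [sq_nonneg (y - 1)]
  have e3 : (1 - t) * (5 * √y) + t * (5 * (y / (1 + y))) +
      ((1 - t) * (5 * (1 / (2 * √y))) + t * (5 * (1 / (1 + y) ^ 2))) * (1 - y) =
      (1 - t) * (5 * (√y + 1 / (2 * √y) * (1 - y))) +
        t * (5 * (y / (1 + y) + 1 / (1 + y) ^ 2 * (1 - y))) := by ring
  rw [e3]
  have h4 : 0 ≤ 1 - t := by linarith
  have h5 : (1 - t) * (5 * 1) ≤ (1 - t) * (5 * (√y + 1 / (2 * √y) * (1 - y))) :=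
    mul_le_mul_of_nonneg_left (by linarith) h4
  have h6 : t * (5 * (1 / 2)) ≤ t * (5 * (y / (1 + y) + 1 / (1 + y) ^ 2 * (1 - y))) :=
    mul_le_mul_of_nonneg_left (by linarith) h0
  linarith


/-! ### the pointwise criterion with coordinate derivatives -/

theorem cis_re (x : ℝ) : (cis x).re = Real.cos x := Complex.exp_ofReal_mul_I_re x

theorem cis_im (x : ℝ) : (cis x).im = Real.sin x := Complex.exp_ofReal_mul_I_im x

theorem fd1 {F : P3 → ℂ} {θ u ω : ℝ} (hF : DifferentiableAt ℝ F (θ, u, ω)) {a : ℂ}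
    (h : HasDerivAt (fun s => F (s, u, ω)) a θ) : fderiv ℝ F (θ, u, ω) (1, 0, 0) = a := by
  have h1 : HasDerivAt (fun s : ℝ => ((s, u, ω) : P3)) (1, 0, 0) θ :=
    (hasDerivAt_id θ).prodMk (hasDerivAt_const θ ((u, ω) : ℝ × ℝ))
  exact (hF.hasFDerivAt.comp_hasDerivAt θ h1).unique h

theorem fd2 {F : P3 → ℂ} {θ u ω : ℝ} (hF : DifferentiableAt ℝ F (θ, u, ω)) {a : ℂ}
    (h : HasDerivAt (fun s => F (θ, s, ω)) a u) : fderiv ℝ F (θ, u, ω) (0, 1, 0) = a := by
  have h1 : HasDerivAt (fun s : ℝ => ((θ, s, ω) : P3)) (0, 1, 0) u :=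
    (hasDerivAt_const u θ).prodMk ((hasDerivAt_id u).prodMk (hasDerivAt_const u ω))
  exact (hF.hasFDerivAt.comp_hasDerivAt u h1).unique h

theorem fd3 {F : P3 → ℂ} {θ u ω : ℝ} (hF : DifferentiableAt ℝ F (θ, u, ω)) {a : ℂ}
    (h : HasDerivAt (fun s => F (θ, u, s)) a ω) : fderiv ℝ F (θ, u, ω) (0, 0, 1) = a := by
  have h1 : HasDerivAt (fun s : ℝ => ((θ, u, s) : P3)) (0, 0, 1) ω :=
    (hasDerivAt_const ω θ).prodMk ((hasDerivAt_const ω u).prodMk (hasDerivAt_id ω))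
  exact (hF.hasFDerivAt.comp_hasDerivAt ω h1).unique h

/-- **pointwise regularity in coordinates** -/
theorem md_onto {F : P3 → ℂ} {θ u ω : ℝ} (hF : DifferentiableAt ℝ F (θ, u, ω))
    {Q p p' q' B By Bt Bo : ℝ} (hu : 0 < u)
    (h0 : ((u ^ 15 : ℝ) : ℂ) * cis Q + (cis p - (B : ℂ)) = 0)
    (h1 : HasDerivAt (fun s => F (s, u, ω)) (Complex.I * cis p * (p' : ℂ) - (Bt : ℂ)) θ)
    (h2 : HasDerivAt (fun s => F (θ, s, ω)) (((15 * u ^ 14 : ℝ) : ℂ) * (cis Q - (By : ℂ))) u)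
    (h3 : HasDerivAt (fun s => F (θ, u, s))
      (((u ^ 15 : ℝ) : ℂ) * (Complex.I * cis Q * (q' : ℂ)) - (Bo : ℂ)) ω)
    (hB : 0 ≤ B) (hBy0 : 0 ≤ By) (hBy : u ^ 15 * By ≤ B)
    (hv : 0 ≤ Real.cos p → p' ≠ 0 ∧ Bt = 0) (hw : 0 ≤ Real.cos Q → q' ≠ 0 ∧ Bo = 0)
    (hvw : 0 ≤ Real.cos p → 0 ≤ Real.cos Q → By = 1 → B - u ^ 15 ≠ 1) (c : ℂ) :
    ∃ y, fderiv ℝ F (θ, u, ω) y = c := by
  refine onto_of_conormal (fderiv ℝ F (θ, u, ω)).toLinearMap (fun a b hab hn => ?_) c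
  have k1 := hab (1, 0, 0)
  have k2 := hab (0, 1, 0)
  have k3 := hab (0, 0, 1)
  simp only [ContinuousLinearMap.coe_coe] at k1 k2 k3
  rw [fd1 hF h1] at k1
  rw [fd2 hF h2] at k2
  rw [fd3 hF h3] at k3
  have hre := congrArg Complex.re h0
  have him := congrArg Complex.im h0
  simp only [Complex.add_re, Complex.sub_re, Complex.mul_re, Complex.add_im, Complex.sub_im,
    Complex.mul_im, Complex.ofReal_re, Complex.ofReal_im, Complex.I_re, Complex.I_im,
    Complex.zero_re, Complex.zero_im, cis_re, cis_im] at k1 k2 k3 hre him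
  have hu15 : 0 < u ^ 15 := pow_pos hu 15
  have hu14 : 0 < 15 * u ^ 14 := by positivity
  have e1 : a * Real.cos Q + b * Real.sin Q - By * a = 0 := by
    have : 15 * u ^ 14 * (a * Real.cos Q + b * Real.sin Q - By * a) = 0 := by
      linear_combination k2
    exact (mul_eq_zero.1 this).resolve_left hu14.ne'
  exact pw_exit (y := u ^ 15) (p' := p') (q' := q') (B := B) (By := By) (Bt := Bt) (Bo := Bo)
    (C := Real.cos Q) (S := Real.sin Q) (c := Real.cos p) (s := Real.sin p) (a := a) (b := b)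
    hu15 (by rw [add_comm]; exact Real.sin_sq_add_cos_sq Q)
    (by rw [add_comm]; exact Real.sin_sq_add_cos_sq p) (by linarith) (by linarith) hB hBy0 hBy
    hv hw hvw hn e1 (by linear_combination k3) (by linear_combination k1)

/-! ### data -/

/-- own phases and windows -/
structure XD (ι : Type) where
  p : ℝ → ℝ
  q : ℝ → ℝ
  lam : ι → ℝ → ℝ
  mu : ι → ℝ → ℝ

variable {ι : Type} [Fintype ι]

/-- admissible data -/
structure XD.Ok (X : XD ι) : Prop where
  cp : ContDiff ℝ 2 X.p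
  cq : ContDiff ℝ 2 X.q
  cl : ∀ e, ContDiff ℝ 2 (X.lam e)
  cm : ∀ e, ContDiff ℝ 2 (X.mu e)
  pp : ∀ x, cis (X.p (x + 2 * π)) = cis (X.p x)
  pq : ∀ x, X.q (x + 2 * π) = X.q x + 15 * (2 * π)
  pl : ∀ e, Per (X.lam e)
  pm : ∀ e, Per (X.mu e)
  near : ∀ x, |X.q x - 15 * x| ≤ π / 2
  l0 : ∀ e x, 0 ≤ X.lam e x
  l1 : ∀ e x, X.lam e x ≤ 1
  m0 : ∀ e x, 0 ≤ X.mu e x
  m1 : ∀ e x, X.mu e x ≤ 1
  V : ∀ θ, 0 ≤ Real.cos (X.p θ) → deriv X.p θ ≠ 0 ∧ ∀ e, deriv (X.lam e) θ = 0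
  W : ∀ ω, 0 ≤ Real.cos (X.q ω) → deriv X.q ω ≠ 0 ∧ ∀ e, deriv (X.mu e) ω = 0
  VW : ∀ θ ω, 0 ≤ Real.cos (X.p θ) → 0 ≤ Real.cos (X.q ω) →
    ∑ e, X.lam e θ * X.mu e ω = 0 ∨ 1 ≤ ∑ e, X.lam e θ * X.mu e ω

/-- the window of the deletion -/
def XD.WW (X : XD ι) (θ ω : ℝ) : ℝ := ∑ e, X.lam e θ * X.mu e ω

/-- radial cut-offs: `ci` inner, `co` outer -/
structure CO (u0 W : ℝ) (ci co : ℝ → ℝ) : Prop where
  hu : 0 < u0
  hW : u0 ≤ W
  si : ContDiff ℝ 2 ci
  so : ContDiff ℝ 2 co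
  i0 : ∀ u, u ≤ u0 / 2 → ci u = 0
  i1 : ∀ u, u0 ≤ u → ci u = 1
  in0 : ∀ u, 0 ≤ ci u
  in1 : ∀ u, ci u ≤ 1
  o0 : ∀ u, 2 * W ≤ u → co u = 0
  o1 : ∀ u, u ≤ W → co u = 1
  on0 : ∀ u, 0 ≤ co u
  on1 : ∀ u, co u ≤ 1

/-- **input of step (3)** -/
def XD.hE (X : XD ι) (ci co : ℝ → ℝ) (x : P3) : ℂ :=
  ((ci x.2.1 * x.2.1 ^ 15 : ℝ) : ℂ) *
      cis (co x.2.1 * X.q x.2.2 + (1 - co x.2.1) * (15 * x.2.2)) +
    (co x.2.1 : ℂ) * (cis (X.p x.1) -
      ((ci x.2.1 * (5 * x.2.1 ^ (15 / 2 : ℝ) * X.WW x.1 x.2.2) : ℝ) : ℂ))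

/-- own term of `w` with the phase interpolated to `15 ω` -/
def XD.GG (X : XD ι) (co : ℝ → ℝ) (w : ℂ) : ℂ :=
  ((‖w‖ ^ 15 : ℝ) : ℂ) *
    cis (co ‖w‖ * X.q (Complex.arg w) + (1 - co ‖w‖) * (15 * Complex.arg w))

/-- the deletion along the path -/
def XD.BB (X : XD ι) (ci : ℝ → ℝ) (t θ : ℝ) (w : ℂ) : ℝ :=
  ∑ e, X.lam e θ * ((1 - t) * (ci ‖w‖ * (5 * pol (15 / 2) (X.mu e) w)) +
    t * (5 * (pol 15 (X.mu e) w * (1 / (1 + ‖w‖ ^ 15)))))

/-- **the path** -/
def XD.kk (X : XD ι) (ci co : ℝ → ℝ) (t : ℝ) (x : ℝ × ℂ) : ℂ :=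
  (((1 - t) * ci ‖x.2‖ + t : ℝ) : ℂ) * X.GG co x.2 +
    (co ‖x.2‖ : ℂ) * (cis (X.p x.1) - (X.BB ci t x.1 x.2 : ℂ))

end Crest.Agent.R267.ArmExitB_502
end
end

-- ▼ part R267/ArmExitC_502
section

/-!
# S0406, N2-EXIT (3) (helper502): the path `kk` is a homotopy of arms
-/

set_option autoImplicit false
set_option linter.unusedVariables false
set_option linter.unusedSectionVars false

noncomputable section

open Set Filter Topology Finset
open scoped Real
open Crest.Agent.R267.NdR_484 Crest.Agent.R267.NdY_484 Crest.Agent.R267.PolArm_484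
open Crest.Agent.R267.Ang_739
open Crest.Agent.R267.ArmExitA_502 (P3)
open Crest.Agent.R267.ArmExitB_502

namespace Crest.Agent.R267.ArmExitC_502

/-! ### smoothness -/

/-- radial functions which are constant near `0` -/
theorem contDiff_radial {g : ℝ → ℝ} (hg : ContDiff ℝ 2 g) {r0 c : ℝ} (hr : 0 < r0)
    (hc : ∀ u, u ≤ r0 → g u = c) : ContDiff ℝ 2 fun w : ℂ => g ‖w‖ := by
  rw [contDiff_iff_contDiffAt]
  intro w
  by_cases hw : w = 0
  · subst hw
    have h1 : (fun w : ℂ => g ‖w‖) =ᶠ[𝓝 0] fun _ => c := by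
      have h2 : ∀ᶠ w : ℂ in 𝓝 0, ‖w‖ < r0 := by
        have : ContinuousAt (fun w : ℂ => ‖w‖) 0 := by fun_prop
        exact this.eventually_lt_const (by simpa using hr)
      filter_upwards [h2] with w hw
      exact hc _ hw.le
    exact contDiffAt_const.congr_of_eventuallyEq h1
  · exact hg.contDiffAt.comp w (contDiffAt_norm ℝ hw)

variable {ι : Type} [Fintype ι] {X : XD ι} {u0 W : ℝ} {ci co : ℝ → ℝ}

theorem norm15 (w : ℂ) : ‖w‖ ^ (15 : ℝ) = ‖w‖ ^ 15 := by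
  exact_mod_cast Real.rpow_natCast ‖w‖ 15

theorem contDiff_norm15 : ContDiff ℝ 2 fun w : ℂ => ‖w‖ ^ 15 := by
  have h := LobeKit_407.contDiff_pol (D := 15) (by norm_num) (q := fun _ : ℝ => (1 : ℝ))
    (fun _ => rfl) contDiff_const
  have e : pol 15 (fun _ : ℝ => (1 : ℝ)) = fun w : ℂ => ‖w‖ ^ 15 := by
    funext w
    unfold pol
    rw [norm15, smul_eq_mul, mul_one]
  rwa [e] at h

theorem cis_add_int (x : ℝ) (k : ℤ) : cis (x + k * (2 * π)) = cis x := by
  rw [mul_comm]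
  exact cis_per x k

theorem cis_add_15 (x : ℝ) : cis (x + 15 * (2 * π)) = cis x := by
  have := cis_add_int x 15
  push_cast at this
  exact this

theorem contDiff_GG (h : X.Ok) (hc : CO u0 W ci co) : ContDiff ℝ 2 (X.GG co) := by
  have hW : 0 < W := hc.hu.trans_le hc.hW
  rw [contDiff_iff_contDiffAt]
  intro w
  by_cases hw : w = 0
  · subst hw
    have h1 : X.GG co =ᶠ[𝓝 0] pol 15 fun x => cis (X.q x) := by
      have h2 : ∀ᶠ w : ℂ in 𝓝 0, ‖w‖ < W := by
        have : ContinuousAt (fun w : ℂ => ‖w‖) 0 := by fun_prop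
        exact this.eventually_lt_const (by simpa using hW)
      filter_upwards [h2] with w hw
      unfold XD.GG pol
      rw [hc.o1 _ hw.le, norm15]
      simp
    have h2 : ContDiff ℝ 2 (pol 15 fun x => cis (X.q x)) :=
      LobeKit_407.contDiff_pol (by norm_num) (fun x => by rw [h.pq, cis_add_15])
        (contDiff_cis.comp h.cq)
    exact h2.contDiffAt.congr_of_eventuallyEq h1
  · have hsm : ContDiff ℝ 2 (fun z : ℝ × ℝ => cis (z.1 * X.q z.2 + (1 - z.1) * (15 * z.2))) := by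
      have := h.cq
      exact contDiff_cis.comp (by fun_prop)
    have h1 : ContDiffAt ℝ 2 (fun z : ℝ × ℂ =>
        (fun z : ℝ × ℝ => cis (z.1 * X.q z.2 + (1 - z.1) * (15 * z.2))) (z.1, Complex.arg z.2))
        (co ‖w‖, w) := by
      refine contDiffAt_ang2 (q := fun z : ℝ × ℝ => cis (z.1 * X.q z.2 + (1 - z.1) * (15 * z.2)))
        (fun t x => ?_) hw hsm.contDiffAt
      show cis (t * X.q (x + 2 * π) + (1 - t) * (15 * (x + 2 * π))) =
        cis (t * X.q x + (1 - t) * (15 * x))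
      rw [h.pq, ← cis_add_15 (t * X.q x + (1 - t) * (15 * x))]
      congr 1
      ring
    have h2 : ContDiffAt ℝ 2 (fun w : ℂ => (co ‖w‖, w)) w :=
      (contDiff_radial hc.so hW hc.o1).contDiffAt.prodMk contDiffAt_id
    have h3 := ContDiffAt.comp (f := fun w : ℂ => ((co ‖w‖, w) : ℝ × ℂ)) w h1 h2
    exact (Complex.ofRealCLM.contDiff.comp contDiff_norm15).contDiffAt.mul h3

theorem contDiff_BB (h : X.Ok) (hc : CO u0 W ci co) :
    ContDiff ℝ 2 fun q : ℝ × (ℝ × ℂ) => X.BB ci q.1 q.2.1 q.2.2 := by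
  have hi : ContDiff ℝ 2 fun w : ℂ => ci ‖w‖ := contDiff_radial hc.si (half_pos hc.hu) hc.i0
  have hd : ContDiff ℝ 2 fun w : ℂ => 1 / (1 + ‖w‖ ^ 15) :=
    contDiff_const.div (contDiff_const.add contDiff_norm15) fun w => by positivity
  unfold XD.BB
  refine ContDiff.sum fun e _ => ?_
  have h1 := LobeKit_407.contDiff_pol (D := 15 / 2) (by norm_num) (h.pm e) (h.cm e)
  have h2 := LobeKit_407.contDiff_pol (D := 15) (by norm_num) (h.pm e) (h.cm e)
  have hw : ContDiff ℝ 2 fun q : ℝ × (ℝ × ℂ) => q.2.2 := by fun_prop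
  have ht : ContDiff ℝ 2 fun q : ℝ × (ℝ × ℂ) => q.1 := by fun_prop
  have hθ : ContDiff ℝ 2 fun q : ℝ × (ℝ × ℂ) => X.lam e q.2.1 :=
    (h.cl e).comp (by fun_prop)
  have k1 : ContDiff ℝ 2 fun q : ℝ × (ℝ × ℂ) => ci ‖q.2.2‖ := hi.comp hw
  have k2 : ContDiff ℝ 2 fun q : ℝ × (ℝ × ℂ) => pol (15 / 2) (X.mu e) q.2.2 := h1.comp hw
  have k3 : ContDiff ℝ 2 fun q : ℝ × (ℝ × ℂ) => pol 15 (X.mu e) q.2.2 := h2.comp hw
  have k4 : ContDiff ℝ 2 fun q : ℝ × (ℝ × ℂ) => 1 / (1 + ‖q.2.2‖ ^ 15) := hd.comp hw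
  exact hθ.mul (((contDiff_const.sub ht).mul (k1.mul (contDiff_const.mul k2))).add
    (ht.mul (contDiff_const.mul (k3.mul k4))))

theorem contDiff_kk (h : X.Ok) (hc : CO u0 W ci co) :
    ContDiff ℝ 2 fun q : ℝ × (ℝ × ℂ) => X.kk ci co q.1 q.2 := by
  have hW : 0 < W := hc.hu.trans_le hc.hW
  have hofR : ContDiff ℝ 2 ((↑) : ℝ → ℂ) := Complex.ofRealCLM.contDiff
  have hi : ContDiff ℝ 2 fun w : ℂ => ci ‖w‖ := contDiff_radial hc.si (half_pos hc.hu) hc.i0
  have ho : ContDiff ℝ 2 fun w : ℂ => co ‖w‖ := contDiff_radial hc.so hW hc.o1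
  have hw : ContDiff ℝ 2 fun q : ℝ × (ℝ × ℂ) => q.2.2 := by fun_prop
  have ht : ContDiff ℝ 2 fun q : ℝ × (ℝ × ℂ) => q.1 := by fun_prop
  have hθ : ContDiff ℝ 2 fun q : ℝ × (ℝ × ℂ) => q.2.1 := by fun_prop
  unfold XD.kk
  refine ((hofR.comp (((contDiff_const.sub ht).mul (hi.comp hw)).add ht)).mul
    ((contDiff_GG h hc).comp hw)).add ((hofR.comp (ho.comp hw)).mul
      ((contDiff_cis.comp (h.cp.comp hθ)).sub (hofR.comp (contDiff_BB h hc))))

/-! ### values -/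

/-- the deletion in polar coordinates -/
theorem BB_eq (hc : CO u0 W ci co) {t θ : ℝ} {w : ℂ} (hw : u0 ≤ ‖w‖) :
    X.BB ci t θ w = bt t (‖w‖ ^ 15) * X.WW θ (Complex.arg w) := by
  unfold XD.BB XD.WW bt pol
  rw [Finset.mul_sum]
  refine Finset.sum_congr rfl fun e _ => ?_
  have e1 : ‖w‖ ^ (15 / 2 : ℝ) = √(‖w‖ ^ 15) := by
    rw [Real.sqrt_eq_rpow, ← Real.rpow_natCast ‖w‖ 15, ← Real.rpow_mul (norm_nonneg w)]
    norm_num
  rw [hc.i1 _ hw, e1, norm15, smul_eq_mul, smul_eq_mul]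
  ring

theorem WW_nonneg (h : X.Ok) (θ ω : ℝ) : 0 ≤ X.WW θ ω :=
  Finset.sum_nonneg fun e _ => mul_nonneg (h.l0 e θ) (h.m0 e ω)


theorem BB_nonneg (h : X.Ok) (hc : CO u0 W ci co) {t : ℝ} (ht : t ∈ Icc (0 : ℝ) 1) (θ : ℝ)
    (w : ℂ) : 0 ≤ X.BB ci t θ w := by
  unfold XD.BB pol
  refine Finset.sum_nonneg fun e _ => mul_nonneg (h.l0 e θ) ?_
  have h1 := h.m0 e (Complex.arg w)
  have h2 : 0 ≤ 1 - t := by linarith [ht.2]
  have h3 := ht.1
  have h4 := hc.in0 ‖w‖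
  have h5 : 0 ≤ ‖w‖ ^ (15 / 2 : ℝ) := Real.rpow_nonneg (norm_nonneg w) _
  have h6 : 0 ≤ ‖w‖ ^ (15 : ℝ) := Real.rpow_nonneg (norm_nonneg w) _
  simp only [smul_eq_mul]
  positivity

/-- bound of the deletion -/
theorem BB_le (h : X.Ok) (hc : CO u0 W ci co) {t : ℝ} (ht : t ∈ Icc (0 : ℝ) 1) (θ : ℝ)
    (w : ℂ) : X.BB ci t θ w ≤ 5 * Fintype.card ι * √(‖w‖ ^ 15) := by
  have e1 : ‖w‖ ^ (15 / 2 : ℝ) = √(‖w‖ ^ 15) := by
    rw [Real.sqrt_eq_rpow, ← Real.rpow_natCast ‖w‖ 15, ← Real.rpow_mul (norm_nonneg w)]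
    norm_num
  have hy : 0 ≤ ‖w‖ ^ 15 := pow_nonneg (norm_nonneg w) 15
  set y := ‖w‖ ^ 15 with hydef
  have hs := Real.sqrt_nonneg y
  unfold XD.BB pol
  have key : ∀ e : ι, X.lam e θ * ((1 - t) * (ci ‖w‖ * (5 * (‖w‖ ^ (15 / 2 : ℝ) *
      X.mu e (Complex.arg w)))) + t * (5 * (‖w‖ ^ (15 : ℝ) * X.mu e (Complex.arg w) *
        (1 / (1 + y))))) ≤ 5 * √y := by
    intro e
    rw [e1, norm15, ← hydef]
    have h1 := h.m0 e (Complex.arg w)
    have h1' := h.m1 e (Complex.arg w)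
    have h2 : 0 ≤ 1 - t := by linarith [ht.2]
    have h3 := ht.1
    have h4 := hc.in0 ‖w‖
    have h4' := hc.in1 ‖w‖
    have h5 := h.l0 e θ
    have h5' := h.l1 e θ
    have e2 : y / (1 + y) ≤ √y := by
      have hs2 := Real.sq_sqrt hy
      rw [div_le_iff₀ (by linarith)]
      nlinarith [sq_nonneg (√y - 1), mul_nonneg hs (sq_nonneg (√y - 1))]
    have a1 : ci ‖w‖ * (5 * (√y * X.mu e (Complex.arg w))) ≤ 5 * √y := by
      have a2 : √y * X.mu e (Complex.arg w) ≤ √y * 1 := mul_le_mul_of_nonneg_left h1' hs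
      have a3 : 0 ≤ √y * X.mu e (Complex.arg w) := mul_nonneg hs h1
      have a8 : 0 ≤ 5 * (√y * X.mu e (Complex.arg w)) := by positivity
      have a9 := mul_le_mul_of_nonneg_right h4' a8
      linarith
    have a4 : 5 * (y * X.mu e (Complex.arg w) * (1 / (1 + y))) ≤ 5 * √y := by
      have a5 : y * X.mu e (Complex.arg w) * (1 / (1 + y)) ≤ y / (1 + y) := by
        have a8 : (0 : ℝ) ≤ 1 / (1 + y) := by positivity
        have a9 := mul_le_mul_of_nonneg_left h1' hy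
        have a10 := mul_le_mul_of_nonneg_right a9 a8
        calc _ ≤ y * 1 * (1 / (1 + y)) := a10
          _ = y / (1 + y) := by ring
      linarith
    have a6 : (1 - t) * (ci ‖w‖ * (5 * (√y * X.mu e (Complex.arg w)))) +
        t * (5 * (y * X.mu e (Complex.arg w) * (1 / (1 + y)))) ≤ 5 * √y := by
      have b1 := mul_le_mul_of_nonneg_left a1 h2
      have b2 := mul_le_mul_of_nonneg_left a4 h3
      linarith
    have a7 : 0 ≤ (1 - t) * (ci ‖w‖ * (5 * (√y * X.mu e (Complex.arg w)))) +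
        t * (5 * (y * X.mu e (Complex.arg w) * (1 / (1 + y)))) := by positivity
    have a8 := mul_le_mul_of_nonneg_right h5' a7
    linarith
  simp only [smul_eq_mul]
  calc _ ≤ ∑ _e : ι, 5 * √y := Finset.sum_le_sum fun e _ => key e
    _ = 5 * Fintype.card ι * √y := by
      rw [Finset.sum_const, nsmul_eq_mul, Finset.card_univ]
      ring

end Crest.Agent.R267.ArmExitC_502
end
end

-- ▼ part R267/ArmExitD_502
section

/-!
# S0406, N2-EXIT (3) (helper502): regularity of the path `kk`; `astep_kk`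
-/

set_option autoImplicit false
set_option linter.unusedVariables false
set_option linter.unusedSectionVars false

noncomputable section

open Set Filter Topology Finset
open scoped Real
open Crest.Agent.R267.NdR_484 Crest.Agent.R267.NdY_484 Crest.Agent.R267.PolArm_484
open Crest.Agent.R267.Ang_739
open Crest.Agent.R267.ArmExitA_502 (P3)
open Crest.Agent.R267.ArmExitB_502 Crest.Agent.R267.ArmExitC_502

namespace Crest.Agent.R267.ArmExitD_502

variable {ι : Type} [Fintype ι] {X : XD ι} {u0 W : ℝ} {ci co : ℝ → ℝ}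

/-- smallness of `u0` and largeness of `W` -/
structure SL (ι : Type) [Fintype ι] (u0 W : ℝ) : Prop where
  s : ∀ u, 0 ≤ u → u ≤ u0 → u ^ 15 + 5 * Fintype.card ι * √(u ^ 15) < 1
  l : ∀ u, W ≤ u → 1 + 5 * Fintype.card ι * √(u ^ 15) < u ^ 15 / 2

/-- bounds for `SL` -/
theorem exists_SL (ι : Type) [Fintype ι] : ∃ u1 : ℝ, 0 < u1 ∧ ∃ W1 : ℝ, 1 ≤ W1 ∧ u1 ≤ W1 ∧
    ∀ u0 W, u0 ≤ u1 → W1 ≤ W → SL ι u0 W := by
  set K : ℝ := 5 * Fintype.card ι with hK
  have hK0 : 0 ≤ K := by positivity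
  refine ⟨1 / (K + 2), by positivity, 2 * K + 4, by linarith, ?_, fun u0 W h0 hW => ⟨?_, ?_⟩⟩
  · have : 1 / (K + 2) ≤ 1 := by
      rw [div_le_one (by linarith)]
      linarith
    linarith
  · intro u hu hu0
    have h1 : u ≤ 1 / (K + 2) := hu0.trans h0
    have h2 : 1 / (K + 2) ≤ 1 / 2 := one_div_le_one_div_of_le (by norm_num) (by linarith)
    have hu1 : u ≤ 1 := by linarith
    have h3 : u ^ 15 ≤ u ^ 2 := pow_le_pow_of_le_one hu hu1 (by norm_num)
    have h4 : √(u ^ 15) ≤ u := by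
      calc √(u ^ 15) ≤ √(u ^ 2) := Real.sqrt_le_sqrt h3
        _ = u := Real.sqrt_sq hu
    have h5 : u ^ 15 ≤ u := pow_le_of_le_one hu hu1 (by norm_num)
    rw [← hK]
    have h6 : K * √(u ^ 15) ≤ K * u := mul_le_mul_of_nonneg_left h4 hK0
    have h7 : (K + 1) * u ≤ (K + 1) * (1 / (K + 2)) := mul_le_mul_of_nonneg_left h1 (by linarith)
    have h8 : (K + 1) * (1 / (K + 2)) < 1 := by
      rw [mul_one_div, div_lt_one (by linarith)]
      linarith
    linarith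
  · intro u hu
    rw [← hK]
    have h1 : 2 * K + 4 ≤ u := hW.trans hu
    have hu1 : 1 ≤ u := by linarith
    set s := √(u ^ 15) with hs
    have hy : 0 ≤ u ^ 15 := by positivity
    have hs2 : s ^ 2 = u ^ 15 := Real.sq_sqrt hy
    have hus : u ≤ s := by
      rw [hs]
      apply Real.le_sqrt_of_sq_le
      exact pow_le_pow_right₀ hu1 (by norm_num)
    rw [← hs2]
    nlinarith

/-! ### no zeros for small and large `‖w‖` -/

theorem norm_GG (w : ℂ) : ‖X.GG co w‖ = ‖w‖ ^ 15 := by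
  unfold XD.GG
  rw [norm_mul, norm_cis, mul_one, Complex.norm_real, Real.norm_of_nonneg (by positivity)]

theorem kk_ne_in (h : X.Ok) (hc : CO u0 W ci co) (hs : SL ι u0 W) {t : ℝ}
    (ht : t ∈ Icc (0 : ℝ) 1) {x : ℝ × ℂ} (hx : ‖x.2‖ ≤ u0) : X.kk ci co t x ≠ 0 := by
  intro h0
  unfold XD.kk at h0
  rw [hc.o1 _ (hx.trans hc.hW)] at h0
  have h1 := hs.s _ (norm_nonneg x.2) hx
  have hb0 := BB_nonneg h hc ht x.1 x.2
  have hb1 := BB_le h hc ht x.1 x.2
  have hc1 : 0 ≤ (1 - t) * ci ‖x.2‖ + t := by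
    have := mul_nonneg (sub_nonneg.2 ht.2) (hc.in0 ‖x.2‖)
    linarith [ht.1]
  have hc2 : (1 - t) * ci ‖x.2‖ + t ≤ 1 := by
    have := mul_le_mul_of_nonneg_left (hc.in1 ‖x.2‖) (sub_nonneg.2 ht.2)
    linarith
  have h3 : cis (X.p x.1) = -((((1 - t) * ci ‖x.2‖ + t : ℝ) : ℂ) * X.GG co x.2 -
      (X.BB ci t x.1 x.2 : ℂ)) := by
    push_cast at h0 ⊢
    linear_combination h0
  have h4 := norm_cis (X.p x.1)
  rw [h3, norm_neg] at h4
  have h5 := norm_sub_le ((((1 - t) * ci ‖x.2‖ + t : ℝ) : ℂ) * X.GG co x.2)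
    (X.BB ci t x.1 x.2 : ℂ)
  rw [norm_mul, norm_GG, Complex.norm_real, Complex.norm_real, Real.norm_of_nonneg hc1,
    Real.norm_of_nonneg hb0] at h5
  have h6 : ((1 - t) * ci ‖x.2‖ + t) * ‖x.2‖ ^ 15 ≤ 1 * ‖x.2‖ ^ 15 :=
    mul_le_mul_of_nonneg_right hc2 (by positivity)
  linarith

theorem kk_ne_out (h : X.Ok) (hc : CO u0 W ci co) (hs : SL ι u0 W) {t : ℝ}
    (ht : t ∈ Icc (0 : ℝ) 1) {x : ℝ × ℂ} (hx : W ≤ ‖x.2‖) : X.kk ci co t x ≠ 0 := by
  intro h0
  unfold XD.kk at h0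
  rw [hc.i1 _ (hc.hW.trans hx)] at h0
  have h1 := hs.l _ hx
  have hb0 := BB_nonneg h hc ht x.1 x.2
  have hb1 := BB_le h hc ht x.1 x.2
  have hy : 0 ≤ ‖x.2‖ ^ 15 := by positivity
  have h3 : X.GG co x.2 = -((co ‖x.2‖ : ℂ) * (cis (X.p x.1) - (X.BB ci t x.1 x.2 : ℂ))) := by
    push_cast at h0
    linear_combination h0
  have h4 := norm_GG (X := X) (co := co) x.2
  rw [h3, norm_neg, norm_mul, Complex.norm_real, Real.norm_of_nonneg (hc.on0 _)] at h4
  have h5 := norm_sub_le (cis (X.p x.1)) (X.BB ci t x.1 x.2 : ℂ)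
  rw [norm_cis, Complex.norm_real, Real.norm_of_nonneg hb0] at h5
  have h6 : co ‖x.2‖ * ‖cis (X.p x.1) - (X.BB ci t x.1 x.2 : ℂ)‖ ≤
      1 * ‖cis (X.p x.1) - (X.BB ci t x.1 x.2 : ℂ)‖ :=
    mul_le_mul_of_nonneg_right (hc.on1 _) (norm_nonneg _)
  linarith

/-! ### the middle region -/

/-- the function for `u0 ≤ u ≤ W` in polar coordinates -/
def MM (X : XD ι) (t : ℝ) (x : P3) : ℂ :=
  ((x.2.1 ^ 15 : ℝ) : ℂ) * cis (X.q x.2.2) +
    (cis (X.p x.1) - ((bt t (x.2.1 ^ 15) * X.WW x.1 x.2.2 : ℝ) : ℂ))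

theorem WW_per (h : X.Ok) (θ : ℝ) : Per fun ω => X.WW θ ω := fun ω => by
  unfold XD.WW
  exact Finset.sum_congr rfl fun e _ => by rw [h.pm e ω]


theorem kk_polar (h : X.Ok) (hc : CO u0 W ci co) {t : ℝ} {x : P3} (h1 : u0 ≤ x.2.1)
    (h2 : x.2.1 ≤ W) :
    X.kk ci co t (x.1, (x.2.1 : ℂ) * Complex.exp (x.2.2 * Complex.I)) = MM X t x := by
  have hu : 0 < x.2.1 := hc.hu.trans_le h1
  have hn : ‖(x.2.1 : ℂ) * Complex.exp (x.2.2 * Complex.I)‖ = x.2.1 := by
    rw [norm_mul, Complex.norm_exp_ofReal_mul_I, mul_one, Complex.norm_real,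
      Real.norm_of_nonneg hu.le]
  unfold XD.kk MM
  simp only
  rw [BB_eq hc (by rw [hn]; exact h1)]
  have e1 : X.GG co ((x.2.1 : ℂ) * Complex.exp (x.2.2 * Complex.I)) =
      ((x.2.1 ^ 15 : ℝ) : ℂ) * cis (X.q x.2.2) := by
    unfold XD.GG
    rw [hn, hc.o1 _ h2]
    congr 1
    have := ang_polar (q := fun y => cis (X.q y))
      (fun y => by show cis (X.q (y + 2 * π)) = cis (X.q y); rw [h.pq, cis_add_15]) hu x.2.2
    simpa using this
  have e2 : X.WW x.1 (Complex.arg ((x.2.1 : ℂ) * Complex.exp (x.2.2 * Complex.I))) =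
      X.WW x.1 x.2.2 := ang_polar (WW_per h x.1) hu x.2.2
  rw [e1, e2, hn, hc.i1 _ h1, hc.o1 _ h2]
  push_cast
  ring

theorem hasDerivAt_WW1 (h : X.Ok) (θ ω : ℝ) :
    HasDerivAt (fun s => X.WW s ω) (∑ e, deriv (X.lam e) θ * X.mu e ω) θ := by
  unfold XD.WW
  exact HasDerivAt.fun_sum fun e _ =>
    (((h.cl e).differentiable (by norm_num)) θ).hasDerivAt.mul_const _

theorem hasDerivAt_WW2 (h : X.Ok) (θ ω : ℝ) :
    HasDerivAt (fun s => X.WW θ s) (∑ e, X.lam e θ * deriv (X.mu e) ω) ω := by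
  unfold XD.WW
  exact HasDerivAt.fun_sum fun e _ =>
    (((h.cm e).differentiable (by norm_num)) ω).hasDerivAt.const_mul _

theorem differentiableAt_MM (h : X.Ok) {t θ u ω : ℝ} (hu : 0 < u) :
    DifferentiableAt ℝ (MM X t) (θ, u, ω) := by
  unfold MM
  have hp : Differentiable ℝ X.p := h.cp.differentiable (by norm_num)
  have hq : Differentiable ℝ X.q := h.cq.differentiable (by norm_num)
  have hcis : Differentiable ℝ cis := (contDiff_cis (n := 1)).differentiable (by norm_num)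
  have hW : Differentiable ℝ fun x : P3 => X.WW x.1 x.2.2 := by
    unfold XD.WW
    refine Differentiable.fun_sum fun e _ => ?_
    have h1 : Differentiable ℝ (X.lam e) := (h.cl e).differentiable (by norm_num)
    have h2 : Differentiable ℝ (X.mu e) := (h.cm e).differentiable (by norm_num)
    exact (h1.comp (by fun_prop : Differentiable ℝ fun x : P3 => x.1)).mul
      (h2.comp (by fun_prop : Differentiable ℝ fun x : P3 => x.2.2))
  have hofR : Differentiable ℝ ((↑) : ℝ → ℂ) := Complex.ofRealCLM.differentiable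
  have hb : DifferentiableAt ℝ (fun x : P3 => bt t (x.2.1 ^ 15)) (θ, u, ω) := by
    have h1 : DifferentiableAt ℝ (bt t) (u ^ 15) := (hasDerivAt_bt (pow_pos hu 15)).differentiableAt
    exact DifferentiableAt.comp (θ, u, ω) (g := bt t) (f := fun x : P3 => x.2.1 ^ 15) h1
      (by fun_prop)
  have h3 : DifferentiableAt ℝ (fun x : P3 => ((bt t (x.2.1 ^ 15) * X.WW x.1 x.2.2 : ℝ) : ℂ))
      (θ, u, ω) := (hofR _).comp _ (hb.mul (hW _))
  have h4 : Differentiable ℝ fun x : P3 => cis (X.p x.1) := hcis.comp (hp.comp (by fun_prop))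
  have h5 : Differentiable ℝ fun x : P3 => cis (X.q x.2.2) := hcis.comp (hq.comp (by fun_prop))
  have h6 : Differentiable ℝ fun x : P3 => ((x.2.1 ^ 15 : ℝ) : ℂ) := hofR.comp (by fun_prop)
  exact ((h6 _).mul (h5 _)).add ((h4 _).sub h3)

/-- **regularity of the middle function** -/
theorem MM_onto (h : X.Ok) {t : ℝ} (ht : t ∈ Icc (0 : ℝ) 1) {θ u ω : ℝ} (hu : 0 < u)
    (h0 : MM X t (θ, u, ω) = 0) (c : ℂ) : ∃ y, fderiv ℝ (MM X t) (θ, u, ω) y = c := by
  have hy : 0 < u ^ 15 := pow_pos hu 15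
  have hofR : ∀ {f : ℝ → ℝ} {f' x : ℝ}, HasDerivAt f f' x →
      HasDerivAt (fun s => ((f s : ℝ) : ℂ)) (f' : ℂ) x := fun hf => hf.ofReal_comp
  have hp : HasDerivAt X.p (deriv X.p θ) θ := ((h.cp.differentiable (by norm_num)) θ).hasDerivAt
  have hq : HasDerivAt X.q (deriv X.q ω) ω := ((h.cq.differentiable (by norm_num)) ω).hasDerivAt
  have hcp : HasDerivAt (fun s => cis (X.p s)) (Complex.I * cis (X.p θ) * ((deriv X.p θ : ℝ) : ℂ)) θ := by
    have := (hasDerivAt_cis (X.p θ)).scomp θ hp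
    refine this.congr_deriv ?_
    rw [Complex.real_smul]
    ring
  have hcq : HasDerivAt (fun s => cis (X.q s)) (Complex.I * cis (X.q ω) * ((deriv X.q ω : ℝ) : ℂ)) ω := by
    have := (hasDerivAt_cis (X.q ω)).scomp ω hq
    refine this.congr_deriv ?_
    rw [Complex.real_smul]
    ring
  have hWn := WW_nonneg h θ ω
  have hbn := bt_nonneg ht.1 ht.2 hy.le
  have hbdn := btd_nonneg ht.1 ht.2 hy.le
  refine md_onto (Q := X.q ω) (p := X.p θ) (p' := deriv X.p θ) (q' := deriv X.q ω)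
    (B := bt t (u ^ 15) * X.WW θ ω) (By := btd t (u ^ 15) * X.WW θ ω)
    (Bt := bt t (u ^ 15) * ∑ e, deriv (X.lam e) θ * X.mu e ω)
    (Bo := bt t (u ^ 15) * ∑ e, X.lam e θ * deriv (X.mu e) ω)
    (differentiableAt_MM h hu) hu h0 ?_ ?_ ?_ (mul_nonneg hbn hWn) (mul_nonneg hbdn hWn) ?_ ?_ ?_
    ?_ c
  · show HasDerivAt (fun s => ((u ^ 15 : ℝ) : ℂ) * cis (X.q ω) +
      (cis (X.p s) - ((bt t (u ^ 15) * X.WW s ω : ℝ) : ℂ))) _ θ
    exact (hcp.sub (hofR ((hasDerivAt_WW1 h θ ω).const_mul (bt t (u ^ 15))))).const_add _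
  · show HasDerivAt (fun s => ((s ^ 15 : ℝ) : ℂ) * cis (X.q ω) +
      (cis (X.p θ) - ((bt t (s ^ 15) * X.WW θ ω : ℝ) : ℂ))) _ u
    have h1 : HasDerivAt (fun s : ℝ => s ^ 15) (15 * u ^ 14) u := by
      have := hasDerivAt_pow 15 u
      simpa using this
    have h2 : HasDerivAt (fun s : ℝ => bt t (s ^ 15)) (btd t (u ^ 15) * (15 * u ^ 14)) u :=
      HasDerivAt.comp (h₂ := bt t) (h := fun s : ℝ => s ^ 15) u (hasDerivAt_bt hy) h1
    have h3 := ((hofR h1).mul_const (cis (X.q ω))).add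
      ((hofR (h2.mul_const (X.WW θ ω))).const_sub (cis (X.p θ)))
    refine h3.congr_deriv ?_
    push_cast
    ring
  · show HasDerivAt (fun s => ((u ^ 15 : ℝ) : ℂ) * cis (X.q s) +
      (cis (X.p θ) - ((bt t (u ^ 15) * X.WW θ s : ℝ) : ℂ))) _ ω
    have h3 := (hcq.const_mul ((u ^ 15 : ℝ) : ℂ)).add
      ((hofR ((hasDerivAt_WW2 h θ ω).const_mul (bt t (u ^ 15)))).const_sub (cis (X.p θ)))
    refine h3.congr_deriv ?_
    ring
  · rw [← mul_assoc]
    exact mul_le_mul_of_nonneg_right (mul_btd_le ht.1 ht.2 hy) hWn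
  · intro hcos
    obtain ⟨h1, h2⟩ := h.V θ hcos
    refine ⟨h1, ?_⟩
    rw [Finset.sum_eq_zero fun e _ => by rw [h2 e, zero_mul], mul_zero]
  · intro hcos
    obtain ⟨h1, h2⟩ := h.W ω hcos
    refine ⟨h1, ?_⟩
    rw [Finset.sum_eq_zero fun e _ => by rw [h2 e, mul_zero], mul_zero]
  · intro hc1 hc2 h1 h2
    have h3 := bt_tangent ht.1 ht.2 hy
    rcases h.VW θ ω hc1 hc2 with hw | hw
    · have : X.WW θ ω = 0 := hw
      rw [this, mul_zero] at h1
      exact zero_ne_one h1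
    · have hw1 : 1 ≤ X.WW θ ω := hw
      have h4 : 5 / 2 * 1 ≤ (bt t (u ^ 15) + btd t (u ^ 15) * (1 - u ^ 15)) * X.WW θ ω :=
        mul_le_mul h3 hw1 zero_le_one (by linarith)
      have h5 : (bt t (u ^ 15) + btd t (u ^ 15) * (1 - u ^ 15)) * X.WW θ ω =
          bt t (u ^ 15) * X.WW θ ω + btd t (u ^ 15) * X.WW θ ω * (1 - u ^ 15) := by ring
      rw [h5, h1] at h4
      linarith

/-! ### the step -/

theorem kk_reg (h : X.Ok) (hc : CO u0 W ci co) (hs : SL ι u0 W) {t : ℝ}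
    (ht : t ∈ Icc (0 : ℝ) 1) (x : ℝ × ℂ) (h0 : X.kk ci co t x = 0) (c : ℂ) :
    ∃ y, fderiv ℝ (X.kk ci co t) x y = c := by
  obtain ⟨θ, w⟩ := x
  rcases le_or_gt ‖w‖ u0 with h1 | h1
  · exact absurd h0 (kk_ne_in h hc hs ht h1)
  rcases le_or_gt W ‖w‖ with h2 | h2
  · exact absurd h0 (kk_ne_out h hc hs ht h2)
  have hwn : 0 < ‖w‖ := hc.hu.trans h1
  let Φ : P3 → ℝ × ℂ := fun x => (x.1, (x.2.1 : ℂ) * Complex.exp (x.2.2 * Complex.I))
  have hΦ : Differentiable ℝ Φ := by fun_prop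
  set p0 : P3 := (θ, ‖w‖, Complex.arg w) with hp0
  have hΦ0 : Φ p0 = (θ, w) := by
    show (θ, (‖w‖ : ℂ) * Complex.exp (Complex.arg w * Complex.I)) = (θ, w)
    rw [Complex.norm_mul_exp_arg_mul_I]
  have hev : MM X t =ᶠ[𝓝 p0] fun x => X.kk ci co t (Φ x) := by
    have hcu : ContinuousAt (fun x : P3 => x.2.1) p0 := by fun_prop
    filter_upwards [hcu.eventually_const_lt (show u0 < p0.2.1 from h1),
      hcu.eventually_lt_const (show p0.2.1 < W from h2)] with x hx1 hx2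
    exact (kk_polar h hc hx1.le hx2.le).symm
  have hz : MM X t p0 = 0 := by
    rw [hev.self_of_nhds]
    show X.kk ci co t (Φ p0) = 0
    rw [hΦ0]
    exact h0
  obtain ⟨y, hy⟩ := MM_onto h ht hwn hz c
  have hk : DifferentiableAt ℝ (X.kk ci co t) (θ, w) := by
    have h3 := contDiff_kk h hc
    have h4 : ContDiff ℝ 2 fun x : ℝ × ℂ => X.kk ci co t x :=
      h3.comp (f := fun x : ℝ × ℂ => ((t, x) : ℝ × (ℝ × ℂ))) (by fun_prop)
    exact (h4.differentiable (by norm_num)) _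
  have h5 : HasFDerivAt (fun x => X.kk ci co t (Φ x))
      ((fderiv ℝ (X.kk ci co t) (θ, w)).comp (fderiv ℝ Φ p0)) p0 := by
    have h6 : HasFDerivAt (X.kk ci co t) (fderiv ℝ (X.kk ci co t) (θ, w)) (Φ p0) := by
      rw [hΦ0]; exact hk.hasFDerivAt
    exact h6.comp p0 (hΦ p0).hasFDerivAt
  refine ⟨fderiv ℝ Φ p0 y, ?_⟩
  have h7 := (h5.congr_of_eventuallyEq hev).fderiv
  have h8 : fderiv ℝ (X.kk ci co t) (θ, w) (fderiv ℝ Φ p0 y) =
      ((fderiv ℝ (X.kk ci co t) (θ, w)).comp (fderiv ℝ Φ p0)) y := rfl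
  rw [h8, ← h7]
  exact hy

theorem kk_per (h : X.Ok) (t θ : ℝ) (w : ℂ) :
    X.kk ci co t (θ + 2 * π, w) = X.kk ci co t (θ, w) := by
  have h1 : X.BB ci t (θ + 2 * π) w = X.BB ci t θ w := by
    unfold XD.BB
    exact Finset.sum_congr rfl fun e _ => by rw [h.pl e θ]
  unfold XD.kk
  simp only
  rw [h.pp, h1]

theorem kk_out (hc : CO u0 W ci co) {t θ : ℝ} {w : ℂ} (hw : 2 * W ≤ ‖w‖) :
    X.kk ci co t (θ, w) = w ^ 15 := by
  have hW : 0 < W := hc.hu.trans_le hc.hW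
  have h2 : u0 ≤ ‖w‖ := by linarith [hc.hW]
  unfold XD.kk XD.GG
  simp only
  rw [hc.i1 _ h2, hc.o0 _ hw]
  have e : w ^ 15 = ((‖w‖ ^ 15 : ℝ) : ℂ) * cis (15 * Complex.arg w) := by
    conv_lhs => rw [← Complex.norm_mul_exp_arg_mul_I w]
    rw [mul_pow, ← Complex.exp_nat_mul]
    unfold cis
    push_cast
    congr 2
    ring
  rw [e]
  push_cast
  have e2 : cis (0 * X.q (Complex.arg w) + (1 - 0) * (15 * Complex.arg w)) =
      cis (15 * Complex.arg w) := by
    congr 1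
    ring
  rw [e2]
  ring

/-- **the step from the profile `u^{15/2}` with inner cut-off to the harmonic profile** -/
theorem astep_kk (h : X.Ok) (hc : CO u0 W ci co) (hs : SL ι u0 W) (bo : Bool) (v : Fin 3) :
    AStep bo v (LA bo v (X.kk ci co 0)) (LA bo v (X.kk ci co 1)) := by
  refine astep_LA (k := fun t => X.kk ci co t) (contDiff_kk h hc).contDiffOn
    (fun t _ θ w => kk_per h t θ w) ⟨2 * W, fun t _ θ w hw => kk_out hc hw⟩
    fun t ht p h0 c => kk_reg h hc hs ht p h0 c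

theorem kk_zero (h : X.Ok) (hc : CO u0 W ci co) (x : ℝ × ℂ) :
    X.kk ci co 0 x = X.hE ci co (x.1, ‖x.2‖, Complex.arg x.2) := by
  unfold XD.kk XD.hE XD.GG XD.BB XD.WW pol
  simp only [sub_zero, one_mul, zero_mul, add_zero, smul_eq_mul]
  have e1 : ∑ e, X.lam e x.1 * (ci ‖x.2‖ * (5 * (‖x.2‖ ^ (15 / 2 : ℝ) *
      X.mu e (Complex.arg x.2)))) = ci ‖x.2‖ * (5 * ‖x.2‖ ^ (15 / 2 : ℝ) *
        ∑ e, X.lam e x.1 * X.mu e (Complex.arg x.2)) := by
    rw [Finset.mul_sum, Finset.mul_sum]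
    exact Finset.sum_congr rfl fun e _ => by ring
  rw [e1]
  push_cast
  ring

/-- **step (3)** -/
theorem aeq_hE (h : X.Ok) (hc : CO u0 W ci co) (hs : SL ι u0 W) (bo : Bool) (v : Fin 3) :
    AEq bo v (PA bo v (X.hE ci co)) (LA bo v (X.kk ci co 1)) := by
  have e : PA bo v (X.hE ci co) = LA bo v (X.kk ci co 0) := by
    unfold PA
    congr 1
    funext x
    exact (kk_zero h hc x).symm
  rw [e]
  exact (astep_kk h hc hs bo v).aeq

end Crest.Agent.R267.ArmExitD_502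
end
end

-- ▼ part R267/ArmExitE_502
section

/-!
# S0406, N2-EXIT (3) (helper502): the literal data `XV D v`; `Tgt`
-/

set_option autoImplicit false
set_option linter.unusedVariables false
set_option linter.unusedSectionVars false

noncomputable section

open Set Filter Topology Finset
open scoped Real
open Crest.Agent.R267.NdR_484 Crest.Agent.R267.NdY_484 Crest.Agent.R267.PolArm_484
open Crest.Agent.R267.Ang_739
open Crest.Agent.R267.T3aNDefs_88 (SD Hm)
open Crest.Agent.R267.GlNDefs_9 Crest.Agent.R267.WordPh_9 Crest.Agent.R267.WordPh2_9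
open Crest.Agent.R267.HubDefs_284
open Crest.Agent.R267.HarmBox_920 (HB rr)
open Crest.Agent.R267.ArmExitB_502 Crest.Agent.R267.ArmExitC_502 Crest.Agent.R267.ArmExitD_502

namespace Crest.Agent.R267.ArmExitE_502

/-! ### the literal data -/

/-- the pair boxes of `v` and `w` -/
abbrev Bv (D : SD 4) (v : Fin 3) : Type := {e : Fin D.nb // (D.bx e).S = {v.castSucc, 3}}

/-- the literal data of the arm `v` -/
def XV (D : SD 4) (v : Fin 3) : XD (Bv D v) where
  p := pp D v.castSucc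
  q := pp D 3
  lam := fun e => ww D e v.castSucc
  mu := fun e => ww D e 3

theorem sn_pm (D : SD 4) (j : Fin 4) (l : ℕ) : D.sn j l = 1 ∨ D.sn j l = -1 := by
  unfold SD.sn
  split
  · exact Or.inr rfl
  · exact Or.inl rfl

theorem mem_v {D : SD 4} {v : Fin 3} (e : Bv D v) : v.castSucc ∈ (D.bx e).S := by
  rw [e.2]; exact Finset.mem_insert_self _ _

theorem mem_3 {D : SD 4} {v : Fin 3} (e : Bv D v) : (3 : Fin 4) ∈ (D.bx e).S := by
  rw [e.2]; exact Finset.mem_insert_of_mem (Finset.mem_singleton_self _)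

section

variable {D : SD 4} (hlo : ∀ e, ∀ j ∈ (D.bx e).S, (D.bx e).lo j ≤ (D.bx e).hi j)

include hlo

theorem winA_ww {e : Fin D.nb} {j : Fin 4} (hj : j ∈ (D.bx e).S) :
    WinA (D.M j) (aE (D.M j)) (bE (D.M j)) ((D.bx e).lo j) ((D.bx e).hi j) (ww D e j) :=
  winA (arcsE (D.M j)) (hlo e j hj) (D.hhi e j hj)

/-- in-lobe points -/
theorem in_lobe (j : Fin 4) {x : ℝ} (hx : 0 ≤ Real.cos (pp D j x)) :
    deriv (pp D j) x ≠ 0 ∧ (∀ e, j ∈ (D.bx e).S → deriv (ww D e j) x = 0) ∧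
      ∃ i ≤ D.M j, ∀ e, j ∈ (D.bx e).S →
        ww D e j x = if (D.bx e).lo j < i ∧ i ≤ (D.bx e).hi j then 1 else 0 := by
  have hn : cis (pp D j x) ≠ -1 := by
    intro hc
    have := congrArg Complex.re hc
    rw [cis_re] at this
    rw [this] at hx
    norm_num at hx
  have harc := arcsE (D.M j)
  refine ⟨fun hd => hn (cis_of_deriv_zero harc (sn_pm D j) hd), fun e he => ?_, ?_⟩
  · by_contra hne
    exact hn (flat_of_wn harc (sn_pm D j) (hlo e j he) (D.hhi e j he) hne).2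
  · obtain ⟨k, y, hy1, hy2, hxy⟩ := exists_dom (aE (D.M j) 0) x
    obtain ⟨i, hi, h1, h2⟩ := exists_piece harc hy1 hy2
    refine ⟨i, hi, fun e he => ?_⟩
    rcases le_or_gt y (bE (D.M j) i) with h3 | h3
    · have h4 : ww D e j x = ww D e j y := by
        rw [hxy]
        exact wn_add_int _ _ _ _ y k
      rw [h4]
      exact wn_lobe harc (hlo e j he) (D.hhi e j he) hi h1 h3
    · exfalso
      apply hn
      rw [hxy]
      exact cis_wph_gap harc (sn_pm D j) hi h3.le h2.le k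

theorem XV_ok (hM3 : D.M 3 = 14) (hs3 : ∀ l, D.neg 3 l = false) (v : Fin 3) : (XV D v).Ok where
  cp := contDiff_wph (arcsE _)
  cq := contDiff_wph (arcsE _)
  cl := fun e => (winA_ww hlo (mem_v e)).smooth
  cm := fun e => (winA_ww hlo (mem_3 e)).smooth
  pp := fun x => by
    obtain ⟨n, hn⟩ := exists_tot (sn_pm D v.castSucc) (D.M v.castSucc)
    show cis (wph _ _ _ _ (x + 2 * π)) = cis (wph _ _ _ _ x)
    rw [wph_add, hn]
    exact cis_per _ n
  pq := fun x => by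
    show wph _ _ _ _ (x + 2 * π) = wph _ _ _ _ x + _
    rw [wph_add, hM3, tot_eq]
    have h1 : ∀ k, se (D.sn 3) k = 1 := by
      intro k
      unfold se
      split
      · rfl
      · unfold SD.sn
        rw [hs3]
        rfl
    simp only [h1, Finset.sum_const, Finset.card_range, nsmul_eq_mul, mul_one]
    push_cast
    ring
  pl := fun e => (winA_ww hlo (mem_v e)).per
  pm := fun e => (winA_ww hlo (mem_3 e)).per
  near := fun x => by
    have h1 : D.sn 3 = fun _ => 1 := by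
      funext l
      unfold SD.sn
      rw [hs3]
      rfl
    have h2 := wph_near 14 x
    show |wph (D.sn 3) (D.M 3) (aE (D.M 3)) (bE (D.M 3)) x - 15 * x| ≤ π / 2
    rw [h1, hM3]
    norm_num at h2 ⊢
    exact h2
  l0 := fun e => (winA_ww hlo (mem_v e)).nn
  l1 := fun e => (winA_ww hlo (mem_v e)).le
  m0 := fun e => (winA_ww hlo (mem_3 e)).nn
  m1 := fun e => (winA_ww hlo (mem_3 e)).le
  V := fun θ h => ⟨(in_lobe hlo _ h).1, fun e => (in_lobe hlo _ h).2.1 e (mem_v e)⟩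
  W := fun ω h => ⟨(in_lobe hlo _ h).1, fun e => (in_lobe hlo _ h).2.1 e (mem_3 e)⟩
  VW := fun θ ω h h' => by
    obtain ⟨i, -, hi⟩ := (in_lobe hlo _ h).2.2
    obtain ⟨k, -, hk⟩ := (in_lobe hlo _ h').2.2
    have h1 : ∀ e : Bv D v, (XV D v).lam e θ * (XV D v).mu e ω = 0 ∨
        (XV D v).lam e θ * (XV D v).mu e ω = 1 := by
      intro e
      show ww D e v.castSucc θ * ww D e 3 ω = 0 ∨ ww D e v.castSucc θ * ww D e 3 ω = 1
      rw [hi e (mem_v e), hk e (mem_3 e)]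
      split_ifs <;> simp
    by_cases h2 : ∃ e : Bv D v, (XV D v).lam e θ * (XV D v).mu e ω = 1
    · right
      obtain ⟨e, he⟩ := h2
      calc (1 : ℝ) = (XV D v).lam e θ * (XV D v).mu e ω := he.symm
        _ ≤ _ := Finset.single_le_sum
          (f := fun e : Bv D v => (XV D v).lam e θ * (XV D v).mu e ω)
          (fun e _ => by
            rcases h1 e with h | h
            · rw [h]
            · rw [h]; norm_num) (Finset.mem_univ e)
    · left
      push Not at h2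
      exact Finset.sum_eq_zero fun e _ => (h1 e).resolve_right (h2 e)

end

/-! ### the target in polar form -/

/-- `K` on `|v| = 1` -/
def kr {ι : Type} [Fintype ι] (X : XD ι) (x : ℝ × ℂ) : ℂ :=
  ((‖x.2‖ ^ 15 : ℝ) : ℂ) * cis (X.q (Complex.arg x.2)) +
    (cis (X.p x.1) - ((5 * (‖x.2‖ ^ 15 / (1 + ‖x.2‖ ^ 15)) * X.WW x.1 (Complex.arg x.2) : ℝ) : ℂ))

theorem BB_one {ι : Type} [Fintype ι] (X : XD ι) (ci : ℝ → ℝ) (θ : ℝ) (w : ℂ) :
    X.BB ci 1 θ w = 5 * (‖w‖ ^ 15 / (1 + ‖w‖ ^ 15)) * X.WW θ (Complex.arg w) := by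
  unfold XD.BB XD.WW pol
  rw [Finset.mul_sum]
  refine Finset.sum_congr rfl fun e _ => ?_
  rw [norm15, smul_eq_mul, smul_eq_mul]
  ring

theorem kk_one_eq {ι : Type} [Fintype ι] {X : XD ι} {u0 W : ℝ} {ci co : ℝ → ℝ}
    (hc : CO u0 W ci co) {x : ℝ × ℂ} (hx : ‖x.2‖ ≤ W) : X.kk ci co 1 x = kr X x := by
  unfold XD.kk kr XD.GG
  rw [BB_one, hc.o1 _ hx]
  push_cast
  have e1 : cis (1 * X.q (Complex.arg x.2) + (1 - 1) * (15 * Complex.arg x.2)) =
      cis (X.q (Complex.arg x.2)) := by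
    congr 1
    ring
  rw [e1]
  ring

/-- two directions with an angle `≤ π / 2` -/
theorem norm_seg {α β t : ℝ} (ht : t ∈ Icc (0 : ℝ) 1) (h : |α - β| ≤ π / 2) :
    1 / 2 ≤ ‖((1 - t : ℝ) : ℂ) * cis α + (t : ℂ) * cis β‖ := by
  have h1 : ‖((1 - t : ℝ) : ℂ) * cis α + (t : ℂ) * cis β‖ ^ 2 =
      (1 - t) ^ 2 + t ^ 2 + 2 * (1 - t) * t * Real.cos (α - β) := by
    rw [← Complex.normSq_eq_norm_sq, Complex.normSq_apply]
    simp only [Complex.add_re, Complex.add_im, Complex.mul_re, Complex.mul_im, Complex.ofReal_re,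
      Complex.ofReal_im, cis_re, cis_im, zero_mul, sub_zero, add_zero]
    rw [Real.cos_sub]
    have e1 := Real.sin_sq_add_cos_sq α
    have e2 := Real.sin_sq_add_cos_sq β
    linear_combination (1 - t) ^ 2 * e1 + t ^ 2 * e2
  have h2 : 0 ≤ Real.cos (α - β) := by
    rw [abs_le] at h
    exact Real.cos_nonneg_of_neg_pi_div_two_le_of_le h.1 h.2
  have h3 : 0 ≤ 2 * (1 - t) * t * Real.cos (α - β) :=
    mul_nonneg (mul_nonneg (by linarith [ht.2]) ht.1) h2
  have h4 : (1 / 2 : ℝ) ^ 2 ≤ ‖((1 - t : ℝ) : ℂ) * cis α + (t : ℂ) * cis β‖ ^ 2 := by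
    rw [h1]
    nlinarith [sq_nonneg (1 - 2 * t)]
  exact (pow_le_pow_iff_left₀ (by norm_num) (norm_nonneg _) (by norm_num)).1 h4

/-- the segment from `kk 1` to `kr` for large `‖w‖` -/
theorem seg_ne {ι : Type} [Fintype ι] {X : XD ι} (h : X.Ok) {u0 W : ℝ} {ci co : ℝ → ℝ}
    (hc : CO u0 W ci co) (hs : SL ι u0 W) {x : ℝ × ℂ} (hx : W ≤ ‖x.2‖) {t : ℝ}
    (ht : t ∈ Icc (0 : ℝ) 1) :
    ((1 - t : ℝ) : ℂ) * X.kk ci co 1 x + (t : ℂ) * kr X x ≠ 0 := by
  intro h0
  have hW : 0 < W := hc.hu.trans_le hc.hW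
  set y := ‖x.2‖ ^ 15 with hy
  have hypos : 0 < y := pow_pos (hW.trans_le hx) 15
  set s := co ‖x.2‖ with hsdef
  have hs0 : 0 ≤ s := hc.on0 _
  have hs1 : s ≤ 1 := hc.on1 _
  set al := s * X.q (Complex.arg x.2) + (1 - s) * (15 * Complex.arg x.2) with hal
  set Z : ℂ := cis (X.p x.1) - (X.BB ci 1 x.1 x.2 : ℂ) with hZ
  have e1 : X.kk ci co 1 x = ((y : ℝ) : ℂ) * cis al + (s : ℂ) * Z := by
    unfold XD.kk XD.GG
    rw [← hsdef, ← hal, ← hy, ← hZ]
    push_cast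
    ring
  have e2 : kr X x = ((y : ℝ) : ℂ) * cis (X.q (Complex.arg x.2)) + Z := by
    unfold kr
    rw [hZ, BB_one]
  rw [e1, e2] at h0
  have e3 : ((y : ℝ) : ℂ) * (((1 - t : ℝ) : ℂ) * cis al + (t : ℂ) * cis (X.q (Complex.arg x.2))) =
      -((((1 - t) * s + t : ℝ) : ℂ) * Z) := by
    push_cast at h0 ⊢
    linear_combination h0
  have hang : |al - X.q (Complex.arg x.2)| ≤ π / 2 := by
    have : al - X.q (Complex.arg x.2) =
        -((1 - s) * (X.q (Complex.arg x.2) - 15 * Complex.arg x.2)) := by rw [hal]; ring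
    rw [this, abs_neg, abs_mul, abs_of_nonneg (by linarith : (0 : ℝ) ≤ 1 - s)]
    have h2 := h.near (Complex.arg x.2)
    have h3 : (1 - s) * |X.q (Complex.arg x.2) - 15 * Complex.arg x.2| ≤
        1 * |X.q (Complex.arg x.2) - 15 * Complex.arg x.2| :=
      mul_le_mul_of_nonneg_right (by linarith) (abs_nonneg _)
    linarith
  have h1 := norm_seg ht hang
  have h2 := congrArg norm e3
  rw [norm_mul, norm_neg, norm_mul, Complex.norm_real, Complex.norm_real,
    Real.norm_of_nonneg hypos.le,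
    Real.norm_of_nonneg (by nlinarith [ht.1, ht.2] : (0 : ℝ) ≤ (1 - t) * s + t)] at h2
  have h1t : (1 : ℝ) ∈ Icc (0 : ℝ) 1 := ⟨zero_le_one, le_rfl⟩
  have hb0 := BB_nonneg h hc h1t x.1 x.2
  have hb1 := BB_le h hc h1t x.1 x.2
  rw [← hy] at hb1
  have hZn : ‖Z‖ ≤ 1 + X.BB ci 1 x.1 x.2 := by
    have := norm_sub_le (cis (X.p x.1)) (X.BB ci 1 x.1 x.2 : ℂ)
    rwa [norm_cis, Complex.norm_real, Real.norm_of_nonneg hb0] at this
  have hl := hs.l _ hx
  rw [← hy] at hl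
  have h3 : ((1 - t) * s + t) * ‖Z‖ ≤ 1 * ‖Z‖ := by
    refine mul_le_mul_of_nonneg_right ?_ (norm_nonneg _)
    nlinarith [ht.1, ht.2]
  have h4 : y * (1 / 2) ≤ y * ‖((1 - t : ℝ) : ℂ) * cis al +
      (t : ℂ) * cis (X.q (Complex.arg x.2))‖ := mul_le_mul_of_nonneg_left h1 hypos.le
  linarith

end Crest.Agent.R267.ArmExitE_502
end
end

-- ▼ part R267/ArmExitF_502
section

/-!
# S0406, N2-EXIT (3) (helper502): `Tgt` of the end of the path
-/

set_option autoImplicit false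
set_option linter.unusedVariables false
set_option linter.unusedSectionVars false

noncomputable section

open Set Filter Topology Finset
open scoped Real
open Crest.Agent.R267.NdR_484 Crest.Agent.R267.NdY_484 Crest.Agent.R267.PolArm_484
open Crest.Agent.R267.Ang_739
open Crest.Agent.R267.T3aNDefs_88 (SD Hm)
open Crest.Agent.R267.GlNDefs_9 Crest.Agent.R267.WordPh_9 Crest.Agent.R267.WordPh2_9
open Crest.Agent.R267.HubDefs_284
open Crest.Agent.R267.HarmBox_920 (HB rr HB_zero Hm_zero)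
open Crest.Agent.R267.ArmExitB_502 Crest.Agent.R267.ArmExitC_502 Crest.Agent.R267.ArmExitD_502
open Crest.Agent.R267.ArmExitE_502

namespace Crest.Agent.R267.ArmExitF_502

variable {D : SD 4} {v : Fin 3}

theorem v_ne (v : Fin 3) : v.castSucc ≠ (3 : Fin 4) := by
  fin_cases v <;> decide

theorem D0_v (b : Bool) (v : Fin 3) : D0 b v.castSucc = 15 / (aw b v : ℝ) := by
  cases b <;> fin_cases v <;> norm_num [D0, aw]

theorem D0_3 (b : Bool) : D0 b 3 = 15 := by
  cases b <;> rfl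

theorem D0_ne (b : Bool) (j : Fin 4) : D0 b j ≠ 0 := by
  cases b <;> fin_cases j <;> norm_num [D0]

theorem pt_v (v : Fin 3) (q : ℂ × ℂ) : pt v q v.castSucc = q.1 := by
  unfold pt
  rw [Function.update_of_ne (v_ne v), Function.update_self]

theorem pt_3 (v : Fin 3) (q : ℂ × ℂ) : pt v q 3 = q.2 := by
  unfold pt
  rw [Function.update_self]

theorem pt_0 {v : Fin 3} (q : ℂ × ℂ) {j : Fin 4} (h1 : j ≠ v.castSucc) (h2 : j ≠ 3) :
    pt v q j = 0 := by
  unfold pt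
  rw [Function.update_of_ne h2, Function.update_of_ne h1]
  rfl

theorem pc_apply (d : ℝ) (φ : ℝ → ℝ) (z : ℂ) :
    pc d 1 φ z = ((‖z‖ ^ d : ℝ) : ℂ) * cis (φ (Complex.arg z)) := by
  unfold pc pol
  rw [Complex.real_smul]
  push_cast
  ring

theorem pc_zero {d : ℝ} (hd : d ≠ 0) (φ : ℝ → ℝ) : pc d 1 φ 0 = 0 := pol_zero hd _

theorem own_pt (b : Bool) (D : SD 4) (v : Fin 3) (q : ℂ × ℂ) :
    own D (D0 b) (pt v q) =
      ((‖q.1‖ ^ (15 / (aw b v : ℝ)) : ℝ) : ℂ) * cis (pp D v.castSucc (Complex.arg q.1)) +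
        ((‖q.2‖ ^ 15 : ℝ) : ℂ) * cis (pp D 3 (Complex.arg q.2)) := by
  unfold own
  rw [Fintype.sum_eq_add v.castSucc 3 (v_ne v)]
  · rw [pt_v, pt_3, D0_v, D0_3, pc_apply, pc_apply, norm15]
  · rintro j ⟨h1, h2⟩
    rw [pt_0 q h1 h2, pc_zero (D0_ne b j)]

/-- the harmonic profile -/
theorem Hm_pair {R : Fin 4 → ℝ} {i j : Fin 4} (hij : i ≠ j) (hi : 0 ≤ R i) (hj : 0 ≤ R j) :
    Hm {i, j} R = R i * R j / (R i + R j) := by
  rcases hi.lt_or_eq with h1 | h1
  · rcases hj.lt_or_eq with h2 | h2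
    · unfold Hm
      rw [if_pos, Finset.sum_pair hij]
      · field_simp
        ring
      · intro k hk
        rcases Finset.mem_insert.1 hk with rfl | hk
        · exact h1
        · rw [Finset.mem_singleton.1 hk]
          exact h2
    · rw [Hm_zero (j := j) (by simp) h2.symm.le, ← h2]
      simp
  · rw [Hm_zero (j := i) (by simp) h1.symm.le, ← h1]
    simp

theorem boxH_pt (b : Bool) (D : SD 4) (v : Fin 3) (q : ℂ × ℂ) :
    boxH D (D0 b) (pt v q) =
      5 * (‖q.1‖ ^ (15 / (aw b v : ℝ)) * ‖q.2‖ ^ 15 /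
        (‖q.1‖ ^ (15 / (aw b v : ℝ)) + ‖q.2‖ ^ 15)) *
        (XV D v).WW (Complex.arg q.1) (Complex.arg q.2) := by
  unfold boxH
  have h1 : ∀ e : Fin D.nb, (D.bx e).S ≠ {v.castSucc, 3} →
      cd D e * cc D e * HB (D.bx e).S (D0 b) (ww D e) (pt v q) = 0 := by
    intro e he
    obtain ⟨j, hj, hj1, hj2⟩ : ∃ j ∈ (D.bx e).S, j ≠ v.castSucc ∧ j ≠ 3 := by
      by_contra hcon
      push Not at hcon
      apply he
      have hsub : (D.bx e).S ⊆ {v.castSucc, 3} := by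
        intro j hj
        by_cases h : j = v.castSucc
        · simp [h]
        · simp [hcon j hj h]
      refine Finset.eq_of_subset_of_card_le hsub ?_
      rw [Finset.card_pair (v_ne v)]
      exact D.h2 e
    rw [HB_zero (ww D e) hj (D0_ne b j) (pt_0 q hj1 hj2), mul_zero]
  have h2 : ∑ e, cd D e * cc D e * HB (D.bx e).S (D0 b) (ww D e) (pt v q) =
      ∑ e ∈ univ.filter (fun e => (D.bx e).S = {v.castSucc, 3}),
        cd D e * cc D e * HB (D.bx e).S (D0 b) (ww D e) (pt v q) := by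
    rw [Finset.sum_filter]
    refine Finset.sum_congr rfl fun e _ => ?_
    split_ifs with h
    · rfl
    · exact h1 e h
  rw [h2]
  have h3 : (XV D v).WW (Complex.arg q.1) (Complex.arg q.2) =
      ∑ e ∈ univ.filter (fun e => (D.bx e).S = {v.castSucc, 3}),
        ww D e v.castSucc (Complex.arg q.1) * ww D e 3 (Complex.arg q.2) := by
    rw [← Finset.sum_subtype_eq_sum_filter]
    unfold XD.WW XV
    simp
  rw [h3, Finset.mul_sum]
  refine Finset.sum_congr rfl fun e he => ?_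
  have he' : (D.bx e).S = {v.castSucc, 3} := (Finset.mem_filter.1 he).2
  have hcard : (D.bx e).S.card = 2 := by rw [he', Finset.card_pair (v_ne v)]
  have hcd : cd D e = 2 := by unfold cd; rw [hcard]; norm_num
  have hcc : cc D e = 5 / 2 := by unfold cc; rw [if_pos hcard]
  unfold HarmBox_920.HB
  rw [he', hcd, hcc, Finset.prod_pair (v_ne v), Hm_pair (v_ne v)
    (HarmBox_920.rr_nonneg _ _ _) (HarmBox_920.rr_nonneg _ _ _)]
  unfold HarmBox_920.rr
  rw [pt_v, pt_3, D0_v, D0_3, norm15]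
  ring

/-- **`kX` in polar form** -/
theorem kX_eq (b : Bool) (D : SD 4) (v : Fin 3) (q : ℂ × ℂ) : kX b D v q =
    ((‖q.1‖ ^ (15 / (aw b v : ℝ)) : ℝ) : ℂ) * cis (pp D v.castSucc (Complex.arg q.1)) +
        ((‖q.2‖ ^ 15 : ℝ) : ℂ) * cis (pp D 3 (Complex.arg q.2)) -
      ((5 * (‖q.1‖ ^ (15 / (aw b v : ℝ)) * ‖q.2‖ ^ 15 /
        (‖q.1‖ ^ (15 / (aw b v : ℝ)) + ‖q.2‖ ^ 15)) *
        (XV D v).WW (Complex.arg q.1) (Complex.arg q.2) : ℝ) : ℂ) := by
  unfold kX EX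
  rw [own_pt, boxH_pt]

/-- **scaling of `kX`** -/
theorem kX_scale (b : Bool) (D : SD 4) (v : Fin 3) {u : ℂ} (w : ℂ) (hu : u ≠ 0) :
    kX b D v (u, w) = ((‖u‖ ^ (15 / (aw b v : ℝ)) : ℝ) : ℂ) *
      kr (XV D v) (Complex.arg u, ((‖u‖ ^ (-(1 / (aw b v : ℝ))) : ℝ) : ℂ) * w) := by
  have ha := aw_pos b v
  have hun : 0 < ‖u‖ := norm_pos_iff.2 hu
  have ep : (XV D v).p = pp D v.castSucc := rfl
  have eq : (XV D v).q = pp D 3 := rfl
  rw [kX_eq]
  unfold kr
  simp only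
  rw [ep, eq]
  set R : ℝ := ‖u‖ ^ (15 / (aw b v : ℝ)) with hR
  set ρ : ℝ := ‖u‖ ^ (-(1 / (aw b v : ℝ))) with hρ
  have hRp : 0 < R := Real.rpow_pos_of_pos hun _
  have hρp : 0 < ρ := Real.rpow_pos_of_pos hun _
  have hRρ : R * ρ ^ 15 = 1 := by
    rw [hR, hρ, ← Real.rpow_natCast (‖u‖ ^ (-(1 / (aw b v : ℝ)))) 15, ← Real.rpow_mul hun.le,
      ← Real.rpow_add hun]
    have : 15 / (aw b v : ℝ) + -(1 / (aw b v : ℝ)) * ((15 : ℕ) : ℝ) = 0 := by push_cast; ring
    rw [this, Real.rpow_zero]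
  have harg : Complex.arg ((ρ : ℂ) * w) = Complex.arg w := Complex.arg_real_mul w hρp
  have hn : ‖(ρ : ℂ) * w‖ = ρ * ‖w‖ := by
    rw [norm_mul, Complex.norm_real, Real.norm_of_nonneg hρp.le]
  rw [harg, hn, mul_pow]
  set y := ‖w‖ ^ 15 with hy
  have hy0 : 0 ≤ y := by positivity
  set r := ρ ^ 15 with hr
  have hrp : 0 < r := pow_pos hρp 15
  have e1 : R * y / (R + y) = R * (r * y / (1 + r * y)) := by
    have hR1 : R = 1 / r := by
      rw [eq_div_iff hrp.ne']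
      exact hRρ
    rw [hR1]
    have h3 : 1 / r + y ≠ 0 := by positivity
    have h4 : 1 + r * y ≠ 0 := by positivity
    field_simp
  have e2 : y = R * (r * y) := by
    rw [← mul_assoc, hRρ, one_mul]
  rw [e1]
  have e3 : ((y : ℝ) : ℂ) = (R : ℂ) * ((r * y : ℝ) : ℂ) := by
    rw [← Complex.ofReal_mul]
    congr 1
  rw [e3]
  push_cast
  ring

theorem LA_scale (b : Bool) (v : Fin 3) (k : ℝ × ℂ → ℂ) {u : ℂ} (w : ℂ) (hu : u ≠ 0) :
    w ^ 15 + LA b v k (u, w) = ((‖u‖ ^ (15 / (aw b v : ℝ)) : ℝ) : ℂ) *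
      k (Complex.arg u, ((‖u‖ ^ (-(1 / (aw b v : ℝ))) : ℝ) : ℂ) * w) := by
  unfold LA
  rw [if_neg hu]
  ring

/-- comparison of `‖w‖ ^ a` with `W ^ a ‖u‖` -/
theorem le_iff (b : Bool) (v : Fin 3) {W : ℝ} (hW : 0 < W) {u : ℂ} (w : ℂ) (hu : u ≠ 0) :
    ‖w‖ ^ aw b v ≤ W ^ aw b v * ‖u‖ ↔
      ‖((‖u‖ ^ (-(1 / (aw b v : ℝ))) : ℝ) : ℂ) * w‖ ≤ W := by
  have ha := aw_pos b v
  have hun : 0 < ‖u‖ := norm_pos_iff.2 hu
  set ρ : ℝ := ‖u‖ ^ (-(1 / (aw b v : ℝ))) with hρ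
  have hρp : 0 < ρ := Real.rpow_pos_of_pos hun _
  have ha' : aw b v ≠ 0 := by
    intro h
    rw [h] at ha
    simp at ha
  have hρa : ρ ^ aw b v * ‖u‖ = 1 := by
    rw [hρ, ← Real.rpow_natCast (‖u‖ ^ (-(1 / (aw b v : ℝ)))) (aw b v), ← Real.rpow_mul hun.le]
    have : -(1 / (aw b v : ℝ)) * (aw b v : ℝ) = -1 := by field_simp
    rw [this, Real.rpow_neg_one, inv_mul_cancel₀ hun.ne']
  have hn : ‖(ρ : ℂ) * w‖ = ρ * ‖w‖ := by
    rw [norm_mul, Complex.norm_real, Real.norm_of_nonneg hρp.le]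
  rw [hn]
  have h1 : ρ * ‖w‖ ≤ W ↔ (ρ * ‖w‖) ^ aw b v ≤ W ^ aw b v :=
    (pow_le_pow_iff_left₀ (by positivity) hW.le ha').symm
  rw [h1, mul_pow]
  have hra : 0 < ρ ^ aw b v := pow_pos hρp _
  constructor
  · intro h
    calc ρ ^ aw b v * ‖w‖ ^ aw b v ≤ ρ ^ aw b v * (W ^ aw b v * ‖u‖) :=
          mul_le_mul_of_nonneg_left h hra.le
      _ = W ^ aw b v * (ρ ^ aw b v * ‖u‖) := by ring
      _ = W ^ aw b v := by rw [hρa, mul_one]
  · intro h
    have h2 := mul_le_mul_of_nonneg_right h hun.le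
    calc ‖w‖ ^ aw b v = ρ ^ aw b v * ‖u‖ * ‖w‖ ^ aw b v := by rw [hρa, one_mul]
      _ = ρ ^ aw b v * ‖w‖ ^ aw b v * ‖u‖ := by ring
      _ ≤ _ := h2

/-- **the target** -/
theorem tgt (hX : (XV D v).Ok) {u0 W : ℝ} {ci co : ℝ → ℝ} (hc : CO u0 W ci co)
    (hs : SL (Bv D v) u0 W) (b : Bool) : Tgt b D v (LA b v ((XV D v).kk ci co 1)) := by
  have hW : 0 < W := hc.hu.trans_le hc.hW
  have ha := aw_pos b v
  have ha' : aw b v ≠ 0 := by
    intro h
    rw [h] at ha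
    simp at ha
  refine ⟨W ^ aw b v, pow_pos hW _, fun u w h => ?_, fun u w h t ht => ?_⟩
  · by_cases hu : u = 0
    · subst hu
      have hw : w = 0 := by
        rw [norm_zero, mul_zero] at h
        have h1 : ‖w‖ ^ aw b v = 0 := le_antisymm h (by positivity)
        exact norm_eq_zero.1 (pow_eq_zero_iff ha' |>.1 h1)
      subst hw
      rw [kX_eq]
      unfold LA
      have h15 : (15 / (aw b v : ℝ)) ≠ 0 := by positivity
      simp [Real.zero_rpow h15]
    · rw [LA_scale b v _ w hu, kX_scale b D v w hu]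
      congr 1
      exact kk_one_eq hc ((le_iff b v hW w hu).1 h)
  · rw [Complex.real_smul, Complex.real_smul]
    by_cases hu : u = 0
    · subst hu
      intro h0
      have hw : 0 < ‖w‖ := by
        rw [norm_zero, mul_zero] at h
        by_contra hcon
        have h1 : ‖w‖ = 0 := le_antisymm (not_lt.1 hcon) (norm_nonneg _)
        rw [h1, zero_pow ha'] at h
        exact lt_irrefl _ h
      have h15 : (15 / (aw b v : ℝ)) ≠ 0 := by positivity
      rw [kX_eq] at h0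
      unfold LA at h0
      simp only [norm_zero, Real.zero_rpow h15, if_pos, add_zero, zero_mul, zero_add, zero_div,
        mul_zero, Complex.ofReal_zero, sub_zero] at h0
      have e : w ^ 15 = ((‖w‖ ^ 15 : ℝ) : ℂ) * cis (15 * Complex.arg w) := by
        conv_lhs => rw [← Complex.norm_mul_exp_arg_mul_I w]
        rw [mul_pow, ← Complex.exp_nat_mul]
        unfold cis
        push_cast
        congr 2
        ring
      rw [e] at h0
      have h1 : ((‖w‖ ^ 15 : ℝ) : ℂ) * (((1 - t : ℝ) : ℂ) * cis (15 * Complex.arg w) +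
          (t : ℂ) * cis (pp D 3 (Complex.arg w))) = 0 := by
        linear_combination h0
      have h2 : |15 * Complex.arg w - pp D 3 (Complex.arg w)| ≤ π / 2 := by
        rw [abs_sub_comm]
        exact hX.near _
      have h3 := norm_seg ht h2
      rcases mul_eq_zero.1 h1 with h4 | h4
      · have : ‖w‖ ^ 15 = 0 := by exact_mod_cast h4
        exact absurd this (pow_pos hw 15).ne'
      · rw [h4, norm_zero] at h3
        linarith
    · rw [LA_scale b v _ w hu, kX_scale b D v w hu]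
      intro h0
      have hun : 0 < ‖u‖ := norm_pos_iff.2 hu
      have hRp : 0 < ‖u‖ ^ (15 / (aw b v : ℝ)) := Real.rpow_pos_of_pos hun _
      have h1 : W ≤ ‖((‖u‖ ^ (-(1 / (aw b v : ℝ))) : ℝ) : ℂ) * w‖ := by
        by_contra hcon
        exact absurd ((le_iff b v hW w hu).2 (not_le.1 hcon).le) (not_le.2 h)
      refine seg_ne hX hc hs (x := (Complex.arg u,
        ((‖u‖ ^ (-(1 / (aw b v : ℝ))) : ℝ) : ℂ) * w)) h1 ht ?_
      have h2 : ((‖u‖ ^ (15 / (aw b v : ℝ)) : ℝ) : ℂ) ≠ 0 := by exact_mod_cast hRp.ne'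
      refine (mul_eq_zero.1 (?_ : ((‖u‖ ^ (15 / (aw b v : ℝ)) : ℝ) : ℂ) * _ = 0)).resolve_left h2
      linear_combination h0

/-- **EXIT, second half.** -/
theorem exit3 (hlo : ∀ e, ∀ j ∈ (D.bx e).S, (D.bx e).lo j ≤ (D.bx e).hi j) (hM3 : D.M 3 = 14)
    (hs3 : ∀ l, D.neg 3 l = false) (v : Fin 3) :
    ∃ u1 : ℝ, 0 < u1 ∧ ∃ W1 : ℝ, 1 ≤ W1 ∧ ∀ (u0 W : ℝ) (ci co : ℝ → ℝ), u0 ≤ u1 → W1 ≤ W →
      CO u0 W ci co → ∀ b : Bool,
        ∃ A, AEq b v (PA b v ((XV D v).hE ci co)) A ∧ Tgt b D v A := by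
  obtain ⟨u1, h1, W1, h2, h3, H⟩ := exists_SL (Bv D v)
  refine ⟨u1, h1, W1, h2, fun u0 W ci co hu hW hc b => ?_⟩
  have hX := XV_ok hlo hM3 hs3 v
  have hs := H u0 W hu hW
  exact ⟨_, aeq_hE hX hc hs b v, tgt hX hc hs b⟩

end Crest.Agent.R267.ArmExitF_502
end
end

-- ▼ part R267/HubTop5_808

/-!
# Row 267 (helper808): S0406

The exits of the six arms (helper649, helper502, helper780) and the hub path of `g` (helper222) are
inserted: `lit : NdZ_484.Lit`.
-/

set_option autoImplicit false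

noncomputable section

namespace Crest.Agent.R267.HubTop5_808

open Finset
open Crest.Agent.R267.T3aNDefs_88 Crest.Agent.R267.SFLDc_330 Crest.Agent.R267.HubDefs_284
open Crest.Agent.R267.NSDefs_966 Crest.Agent.R267.NSArm_780 Crest.Agent.R267.NSArmM_780
open Crest.Agent.R267.ArmExC_649 Crest.Agent.R267.ArmExD_649
open Crest.Agent.R267.ArmExitB_502 Crest.Agent.R267.ArmExitE_502

theorem ww_eq (D : SD 4) (v : Fin 3) (θ ω : ℝ) : (XV D v).WW θ ω = WW D v θ ω := by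
  unfold XD.WW WW
  exact (Finset.sum_subtype (univ.filter fun e => (D.bx e).S = {v.castSucc, 3})
    (fun x => by simp) fun e => ww D e v.castSucc θ * ww D e 3 ω).symm

theorem he_eq (D : SD 4) (v : Fin 3) (u0 W : ℝ) : (XV D v).hE (ca u0) (cb W) = HE D v u0 W := by
  funext z
  unfold XD.hE HE
  rw [ww_eq]
  rfl

theorem co {u0 W : ℝ} (h : 0 < u0) (hW : u0 ≤ W) : CO u0 W (ca u0) (cb W) := by
  have w := NSBridge_966.wt_ca_cb h (h.trans_le hW)
  exact ⟨h, hW, NSBridge_966.contDiff_ca u0, NSBridge_966.contDiff_cb W, w.α0, w.α1, w.αn, w.αl,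
    w.β0, w.β1, w.βn, w.βl⟩

theorem exit3 {D : SD 4} (hD : DOk D) (b : Bool) (v : Fin 3) : Exit3 b D v := by
  obtain ⟨u1, h1, W1, hW1, H⟩ := ArmExitF_502.exit3 hD.hlo hD.hM3 hD.hs3 v
  refine ⟨u1, h1, max W1 u1, fun u0 W hu0 hu hW => ?_⟩
  obtain ⟨A, hA, hT⟩ := H u0 W (ca u0) (cb W) hu ((le_max_left _ _).trans hW)
    (co hu0 (hu.trans ((le_max_right _ _).trans hW))) b
  rw [he_eq] at hA
  exact ⟨A, hA, hT⟩

theorem mtch (b : Bool) (v : Fin 3) : Match (sn b v).S (DL b) v where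
  n := n_eq b v
  sg := fun i hi => sg_eq b v i hi
  kill := fun i l hi hl => by
    rw [kill_box b v i l hi hl]
    unfold Kl
    refine exists_congr fun e => ?_
    tauto

theorem dok (b : Bool) : DOk (DL b) := by
  cases b
  · exact ⟨BoxLit_896.lo_gL, rfl, fun l => rfl⟩
  · exact ⟨BoxLit_896.lo_fL, rfl, fun l => rfl⟩

theorem exitP (b : Bool) (v : Fin 3) : NAsm_407.ExitP b (DL b) v :=
  exitP_of (dok b) (mtch b v) (exit3 (dok b) b v)

/-- **the literal S0406.** -/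
theorem lit : NdZ_484.Lit :=
  HubTop4_808.lit_last (exitP true) (exitP false) HubG_222.path1 HubG_222.path2

end Crest.Agent.R267.HubTop5_808
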