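import Crest.Agent.R267.LemL_951

/-!
# Row 267 (helper951): LEMMA L of #2295 (helper855), function version

`PH D P`: `P (r z) = r ^ D P z` for `0 < r` (`D` real).
`lobB P B z = ∑ i, P i (z i) - B z` (`lobB_reg`), `B = prodB src tgt g h`:
`B z = ∑ e, g e (z (src e)) * h e (z (tgt e))` (`lobF_reg`), chains (`chain_reg`, `nc_of_unit`).
-/

set_option autoImplicit false
set_option linter.unusedSectionVars false

noncomputable section

open Finset

namespace Crest.Agent.R267.LemL_951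

/-! ### planar homogeneous functions -/

/-- homogeneous of degree `D` -/
def PH {F : Type*} [AddCommGroup F] [Module ℝ F] (D : ℝ) (P : ℂ → F) : Prop :=
  ∀ r : ℝ, 0 < r → ∀ z : ℂ, P ((r : ℂ) * z) = (r ^ D) • P z

section

variable {F : Type*} [NormedAddCommGroup F] [NormedSpace ℝ F] {D : ℝ} {P : ℂ → F}

theorem PH.zero (h : PH D P) (hD : 0 < D) : P 0 = 0 := by
  have h1 := h 2 two_pos 0
  rw [mul_zero] at h1
  have h2 : (((2 : ℝ) ^ D) - 1) • P 0 = 0 := by rw [sub_smul, one_smul, ← h1, sub_self]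
  refine (smul_eq_zero.1 h2).resolve_left ?_
  have := Real.one_lt_rpow (x := 2) (by norm_num) hD
  linarith

/-- Euler -/
theorem PH.euler (h : PH D P) {z : ℂ} (hd : DifferentiableAt ℝ P z) :
    fderiv ℝ P z z = D • P z := by
  have h1 : HasFDerivAt P (fderiv ℝ P z) (((1 : ℝ) : ℂ) * z) := by
    rw [Complex.ofReal_one, one_mul]; exact hd.hasFDerivAt
  have h2 : HasDerivAt (fun r : ℝ => (r : ℂ) * z) z 1 := by
    have h3 : HasDerivAt (fun r : ℝ => (r : ℂ)) 1 1 := Complex.ofRealCLM.hasDerivAt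
    simpa using h3.mul_const z
  have h3 := h1.comp_hasDerivAt (1 : ℝ) h2
  have h4 : HasDerivAt (fun r : ℝ => (r ^ D) • P z) (D • P z) 1 := by
    have h5 := (Real.hasDerivAt_rpow_const (x := 1) (p := D) (Or.inl one_ne_zero)).smul_const (P z)
    rwa [Real.one_rpow, mul_one] at h5
  have h5 : (P ∘ fun r : ℝ => (r : ℂ) * z) =ᶠ[nhds 1] fun r : ℝ => (r ^ D) • P z := by
    filter_upwards [lt_mem_nhds one_pos] with r hr
    exact h r hr z
  exact h3.unique (h4.congr_of_eventuallyEq h5)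

end

/-! ### chains: the last coupling -/

theorem chain_last {n : ℕ} {D : Fin (n + 1) → ℝ} (hD : ∀ i, 0 < D i) {p m : Fin n → ℝ}
    (hp : ∀ e, 0 ≤ p e) (hm : ∀ e, 0 ≤ m e) {q : Fin (n + 1) → ℝ} {B : Fin n → ℝ} (hB : ∀ e, 0 ≤ B e)
    (hq : ∀ i, D i * q i =
      ∑ e, ((if e.castSucc = i then p e else 0) + if e.succ = i then m e else 0) * B e)
    (hne : ∃ i, q i ≠ 0) :
    ∃ e, 0 < B e ∧ D e.succ * q e.succ = m e * B e ∧ p e * B e ≤ D e.castSucc * q e.castSucc := by
  classical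
  have hex : ∃ e, B e ≠ 0 := by
    by_contra h
    push Not at h
    obtain ⟨i, hi⟩ := hne
    have h1 := hq i
    simp only [h, mul_zero, sum_const_zero] at h1
    exact hi ((mul_eq_zero.1 h1).resolve_left (hD i).ne')
  obtain ⟨e, he, hmax⟩ : ∃ e, B e ≠ 0 ∧ ∀ f, e < f → B f = 0 := by
    have hne' : (univ.filter fun e => B e ≠ 0).Nonempty := by
      obtain ⟨e, he⟩ := hex
      exact ⟨e, by simp [he]⟩
    refine ⟨(univ.filter fun e => B e ≠ 0).max' hne', ?_, fun f hf => ?_⟩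
    · have := Finset.max'_mem _ hne'
      simpa using this
    · by_contra h
      have : f ≤ (univ.filter fun e => B e ≠ 0).max' hne' :=
        Finset.le_max' _ _ (by simp [h])
      exact absurd hf (not_lt.2 this)
  refine ⟨e, lt_of_le_of_ne (hB e) (Ne.symm he), ?_, ?_⟩
  · rw [hq]
    rw [Finset.sum_eq_single e]
    · have h1 : e.castSucc ≠ e.succ := Fin.castSucc_lt_succ.ne
      rw [if_neg h1, if_pos rfl, zero_add]
    · intro f _ hf
      by_cases h1 : f.castSucc = e.succ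
      · have h2 : e < f := by
          rw [← Fin.castSucc_lt_castSucc_iff, h1]
          exact Fin.castSucc_lt_succ
        rw [hmax f h2, mul_zero]
      · have h2 : f.succ ≠ e.succ := fun h => hf (Fin.succ_injective _ h)
        rw [if_neg h1, if_neg h2, add_zero, zero_mul]
    · intro h; exact absurd (mem_univ e) h
  · rw [hq]
    have h1 : p e * B e = ((if e.castSucc = e.castSucc then p e else 0) +
        if e.succ = e.castSucc then m e else 0) * B e := by
      have h2 : e.succ ≠ e.castSucc := Fin.castSucc_lt_succ.ne'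
      rw [if_pos rfl, if_neg h2, add_zero]
    rw [h1]
    refine Finset.single_le_sum (f := fun f => ((if f.castSucc = e.castSucc then p f else 0) +
        if f.succ = e.castSucc then m f else 0) * B f) (fun f _ => ?_) (mem_univ e)
    by_cases h2 : f = e
    · subst h2
      have h3 : f.succ ≠ f.castSucc := Fin.castSucc_lt_succ.ne'
      rw [if_pos rfl, if_neg h3, add_zero]
      exact mul_nonneg (hp f) (hB f)
    · have h3 : f.castSucc ≠ e.castSucc := fun h => h2 (Fin.castSucc_injective _ h)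
      rw [if_neg h3, zero_add]
      split_ifs
      · exact mul_nonneg (hm f) (hB f)
      · rw [zero_mul]

/-! ### the numerical condition -/


/-! ### the function version -/

/-- the condition on the angular derivative `a` of a term `Q` -/
def Good2 (a Q : ℂ) : Prop := Good a Q ∧ (a.re = 0 → Q.im = 0)

theorem good2_of_rot {Q : ℂ} {ψ : ℝ} (hψ : ψ ≠ 0) : Good2 ((ψ : ℂ) * (Complex.I * Q)) Q := by
  refine ⟨good_of_rot hψ, fun h => ?_⟩
  rw [Complex.re_ofReal_mul, Complex.I_mul_re] at h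
  rcases mul_eq_zero.1 h with h | h
  · exact absurd h hψ
  · linarith


section Fun

variable {ι ε : Type*} [Fintype ι] [DecidableEq ι] [Fintype ε]

/-- sum of planar functions minus a real coupling -/
def lobB (P : ι → ℂ → ℂ) (B : (ι → ℂ) → ℝ) (z : ι → ℂ) : ℂ := ∑ i, P i (z i) - (B z : ℂ)

theorem hasFDerivAt_lobB {P : ι → ℂ → ℂ} {B : (ι → ℂ) → ℝ} {z : ι → ℂ}
    (hP : ∀ i, DifferentiableAt ℝ (P i) (z i)) (hB : DifferentiableAt ℝ B z) :
    HasFDerivAt (lobB P B)
      (∑ i, (fderiv ℝ (P i) (z i)).comp (ContinuousLinearMap.proj (R := ℝ) (φ := fun _ => ℂ) i) -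
        Complex.ofRealCLM.comp (fderiv ℝ B z)) z := by
  have hpr : ∀ i : ι, HasFDerivAt (fun z : ι → ℂ => z i)
      (ContinuousLinearMap.proj (R := ℝ) (φ := fun _ => ℂ) i) z := fun i => hasFDerivAt_apply i z
  have h1 : HasFDerivAt (fun z : ι → ℂ => ∑ i, P i (z i))
      (∑ i, (fderiv ℝ (P i) (z i)).comp (ContinuousLinearMap.proj (R := ℝ) (φ := fun _ => ℂ) i))
      z := HasFDerivAt.fun_sum fun i _ => (hP i).hasFDerivAt.comp z (hpr i)
  exact h1.sub (Complex.ofRealCLM.hasFDerivAt.comp z hB.hasFDerivAt)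

theorem fderiv_lobB_single {P : ι → ℂ → ℂ} {B : (ι → ℂ) → ℝ} {z : ι → ℂ}
    (hP : ∀ i, DifferentiableAt ℝ (P i) (z i)) (hB : DifferentiableAt ℝ B z) (i : ι) (v : ℂ) :
    fderiv ℝ (lobB P B) z (Pi.single i v) = fderiv ℝ (P i) (z i) v -
      ((fderiv ℝ B z (Pi.single i v) : ℝ) : ℂ) := by
  rw [(hasFDerivAt_lobB hP hB).fderiv]
  simp only [_root_.sub_apply, _root_.sum_apply,
    ContinuousLinearMap.comp_apply, ContinuousLinearMap.proj_apply, Complex.ofRealCLM_apply]
  congr 1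
  rw [Finset.sum_eq_single i]
  · rw [Pi.single_eq_same]
  · intro j _ hj
    rw [Pi.single_eq_of_ne hj, map_zero]
  · intro h; exact absurd (mem_univ i) h

/-- the condition on one variable (at the point `z`): (a) the coupling does not see `z i` and `P i`
is a submersion, (b) `Re < 0`, (c) there is a direction along which the coupling is constant and
`P i` turns. -/
def CondB (P : ι → ℂ → ℂ) (B : (ι → ℂ) → ℝ) (z : ι → ℂ) (i : ι) : Prop :=
  (Function.Surjective (fderiv ℝ (P i) (z i)) ∧ ∀ v, fderiv ℝ B z (Pi.single i v) = 0) ∨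
  (P i (z i) ≠ 0 ∧ ((P i (z i)).re < 0 ∨
    ∃ v, fderiv ℝ B z (Pi.single i v) = 0 ∧ Good2 (fderiv ℝ (P i) (z i) v) (P i (z i))))

/-- **LEMMA L, general coupling.** -/
theorem lobB_reg {P : ι → ℂ → ℂ} {B : (ι → ℂ) → ℝ} {D : ι → ℝ} (hD : ∀ i, 0 < D i)
    (hPH : ∀ i, PH (D i) (P i)) {z : ι → ℂ} (hPd : ∀ i, DifferentiableAt ℝ (P i) (z i))
    (hBd : DifferentiableAt ℝ B z) (hb : ∀ i, 0 ≤ fderiv ℝ B z (Pi.single i (z i)))
    (hE : ∑ i, fderiv ℝ B z (Pi.single i (z i)) / D i = B z)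
    (hcase : ∀ i, z i ≠ 0 → CondB P B z i) (hz : z ≠ 0)
    (hNC : (∀ i, D i * (P i (z i)).re = fderiv ℝ B z (Pi.single i (z i))) →
      (∀ i, z i ≠ 0 → 0 < (P i (z i)).re ∧ (P i (z i)).im = 0) → False)
    (hre : 0 ≤ (lobB P B z).re) : Function.Surjective (fderiv ℝ (lobB P B) z) := by
  have hL := fderiv_lobB_single hPd hBd
  by_cases hall : ∀ i, z i ≠ 0 → (P i (z i) ≠ 0 ∧ ((P i (z i)).re < 0 ∨
    ∃ v, fderiv ℝ B z (Pi.single i v) = 0 ∧ Good2 (fderiv ℝ (P i) (z i) v) (P i (z i))))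
  swap
  · push Not at hall
    obtain ⟨i, hi, hi2⟩ := hall
    rcases hcase i hi with ⟨hs, h1⟩ | h1
    · intro b
      obtain ⟨v, hv⟩ := hs b
      refine ⟨Pi.single i v, ?_⟩
      rw [hL, hv, h1]; simp
    · exact absurd h1 fun h => by
        rcases h with ⟨ha, hb | ⟨v, hb2, hb3⟩⟩
        · exact absurd hb (not_lt.2 (hi2 ha).1)
        · exact (hi2 ha).2 v hb2 hb3
  have h0Q : ∀ i, z i = 0 → P i (z i) = 0 := fun i hi => by rw [hi, (hPH i).zero (hD i)]
  have hang : ∀ i, ∃ α : ι → ℂ, (z i ≠ 0 → ¬ (P i (z i)).re < 0 →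
      Good2 (fderiv ℝ (lobB P B) z α) (P i (z i))) := by
    intro i
    by_cases hi : z i ≠ 0 ∧ ¬ (P i (z i)).re < 0
    · obtain ⟨-, h1⟩ := hall i hi.1
      rcases h1 with h1 | ⟨v, h1, h2⟩
      · exact absurd h1 hi.2
      · refine ⟨Pi.single i v, fun _ _ => ?_⟩
        rw [hL, h1]
        simpa using h2
    · exact ⟨0, fun h1 h2 => absurd ⟨h1, h2⟩ hi⟩
  choose α hα using hang
  refine lemG (fderiv ℝ (lobB P B) z : (ι → ℂ) →ₗ[ℝ] ℂ)
    (fun i => Pi.single i (z i)) α D hD (fun i => P i (z i))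
    (fun i => fderiv ℝ B z (Pi.single i (z i))) hb (fun i => ?_) (fun i => ?_) ?_
    (fun h1 h2 h3 => ?_) ?_
  · show fderiv ℝ (lobB P B) z (Pi.single i (z i)) = _
    rw [hL, (hPH i).euler (hPd i), Complex.real_smul]
  · by_cases hi : z i = 0
    · exact Or.inl (h0Q i hi)
    · right
      by_cases hneg : (P i (z i)).re < 0
      · exact good_of_neg hneg
      · exact (hα i hi hneg).1
  · obtain ⟨i, hi⟩ : ∃ i, z i ≠ 0 := by
      by_contra h
      push Not at h
      exact hz (funext h)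
    exact ⟨i, (hall i hi).1⟩
  · refine hNC h1 fun i hi => ?_
    have him : (P i (z i)).im = 0 := (hα i hi (h3 i)).2 (h2 i)
    refine ⟨lt_of_le_of_ne (not_lt.1 (h3 i)) fun h5 => (hall i hi).1 ?_, him⟩
    exact Complex.ext h5.symm him
  · have : (lobB P B z).re =
        ∑ i, (P i (z i)).re - ∑ i, fderiv ℝ B z (Pi.single i (z i)) / D i := by
      unfold lobB
      rw [Complex.sub_re, Complex.re_sum, Complex.ofReal_re, hE]
    rw [← this]
    exact hre

/-! ### product couplings -/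

/-- product couplings -/
def prodB (src tgt : ε → ι) (g h : ε → ℂ → ℝ) (z : ι → ℂ) : ℝ :=
  ∑ e, g e (z (src e)) * h e (z (tgt e))

/-- degrees of the couplings -/
def dg (src tgt : ε → ι) (p m : ε → ℝ) (e : ε) (i : ι) : ℝ :=
  (if src e = i then p e else 0) + if tgt e = i then m e else 0

theorem sum_dg_div {src tgt : ε → ι} {p m : ε → ℝ} (D : ι → ℝ) (e : ε) :
    ∑ i, dg src tgt p m e i / D i = p e / D (src e) + m e / D (tgt e) := by
  simp only [dg, add_div, sum_add_distrib, ite_div, zero_div, sum_ite_eq, mem_univ, if_true]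

theorem hasFDerivAt_prodB {src tgt : ε → ι} {g h : ε → ℂ → ℝ} {z : ι → ℂ}
    (hg : ∀ e, DifferentiableAt ℝ (g e) (z (src e)))
    (hh : ∀ e, DifferentiableAt ℝ (h e) (z (tgt e))) :
    HasFDerivAt (prodB src tgt g h)
      (∑ e, (g e (z (src e)) • (fderiv ℝ (h e) (z (tgt e))).comp
            (ContinuousLinearMap.proj (R := ℝ) (φ := fun _ => ℂ) (tgt e)) +
          h e (z (tgt e)) • (fderiv ℝ (g e) (z (src e))).comp
            (ContinuousLinearMap.proj (R := ℝ) (φ := fun _ => ℂ) (src e)))) z := by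
  have hpr : ∀ i : ι, HasFDerivAt (fun z : ι → ℂ => z i)
      (ContinuousLinearMap.proj (R := ℝ) (φ := fun _ => ℂ) i) z := fun i => hasFDerivAt_apply i z
  exact HasFDerivAt.fun_sum fun e _ => ((hg e).hasFDerivAt.comp z (hpr (src e))).fun_mul
      ((hh e).hasFDerivAt.comp z (hpr (tgt e)))

theorem fderiv_prodB_single {src tgt : ε → ι} {g h : ε → ℂ → ℝ} {z : ι → ℂ}
    (hg : ∀ e, DifferentiableAt ℝ (g e) (z (src e)))
    (hh : ∀ e, DifferentiableAt ℝ (h e) (z (tgt e))) (i : ι) (v : ℂ) :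
    fderiv ℝ (prodB src tgt g h) z (Pi.single i v) =
      ∑ e, (g e (z (src e)) * (if tgt e = i then fderiv ℝ (h e) (z i) v else 0) +
        h e (z (tgt e)) * (if src e = i then fderiv ℝ (g e) (z i) v else 0)) := by
  rw [(hasFDerivAt_prodB hg hh).fderiv]
  simp only [_root_.sum_apply, ContinuousLinearMap.comp_apply, _root_.add_apply,
    _root_.smul_apply, ContinuousLinearMap.proj_apply, smul_eq_mul]
  refine sum_congr rfl fun e _ => ?_
  have h1 : ∀ (j : ι) (T : ℂ →L[ℝ] ℝ), T (Pi.single (M := fun _ => ℂ) i v j) =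
      if j = i then T v else 0 := by
    intro j T
    by_cases hj : j = i
    · subst hj; rw [if_pos rfl, Pi.single_eq_same]
    · rw [if_neg hj, Pi.single_eq_of_ne hj, map_zero]
  rw [h1, h1]
  by_cases h2 : tgt e = i
  · by_cases h3 : src e = i
    · simp only [h2, h3, if_true]
    · simp only [h2, h3, if_true, if_false]
  · by_cases h3 : src e = i
    · simp only [h2, h3, if_true, if_false]
    · simp only [h2, h3, if_false]

/-- the condition on one variable, product couplings -/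
def Cond (src tgt : ε → ι) (P : ι → ℂ → ℂ) (g h : ε → ℂ → ℝ) (i : ι) (x : ℂ) : Prop :=
  (Function.Surjective (fderiv ℝ (P i) x) ∧
    (∀ e, src e = i → g e x = 0 ∧ fderiv ℝ (g e) x = 0) ∧
    ∀ e, tgt e = i → h e x = 0 ∧ fderiv ℝ (h e) x = 0) ∨
  (P i x ≠ 0 ∧ ((P i x).re < 0 ∨
    ∃ v, (∀ e, src e = i → fderiv ℝ (g e) x v = 0) ∧
     (∀ e, tgt e = i → fderiv ℝ (h e) x v = 0) ∧
     Good2 (fderiv ℝ (P i) x v) (P i x)))

theorem fderiv_prodB_rad {src tgt : ε → ι} {g h : ε → ℂ → ℝ} {p m : ε → ℝ}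
    (hgH : ∀ e, PH (p e) (g e)) (hhH : ∀ e, PH (m e) (h e)) {z : ι → ℂ}
    (hg : ∀ e, DifferentiableAt ℝ (g e) (z (src e)))
    (hh : ∀ e, DifferentiableAt ℝ (h e) (z (tgt e))) (i : ι) :
    fderiv ℝ (prodB src tgt g h) z (Pi.single i (z i)) =
      ∑ e, dg src tgt p m e i * (g e (z (src e)) * h e (z (tgt e))) := by
  rw [fderiv_prodB_single hg hh]
  refine sum_congr rfl fun e _ => ?_
  unfold dg
  by_cases h3 : tgt e = i
  · have h5 : fderiv ℝ (h e) (z i) (z i) = m e * h e (z i) := by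
      have := (hhH e).euler (hh e)
      rwa [smul_eq_mul, h3] at this
    by_cases h4 : src e = i
    · have h6 : fderiv ℝ (g e) (z i) (z i) = p e * g e (z i) := by
        have := (hgH e).euler (hg e)
        rwa [smul_eq_mul, h4] at this
      rw [if_pos h3, if_pos h4, if_pos h3, if_pos h4, h5, h6, h3, h4]; ring
    · rw [if_pos h3, if_neg h4, if_pos h3, if_neg h4, h5, h3]; ring
  · by_cases h4 : src e = i
    · have h6 : fderiv ℝ (g e) (z i) (z i) = p e * g e (z i) := by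
        have := (hgH e).euler (hg e)
        rwa [smul_eq_mul, h4] at this
      rw [if_neg h3, if_pos h4, if_neg h3, if_pos h4, h6, h4]; ring
    · rw [if_neg h3, if_neg h4, if_neg h3, if_neg h4]; ring

/-- **LEMMA L, product couplings.** -/
theorem lobF_reg {src tgt : ε → ι} {P : ι → ℂ → ℂ} {g h : ε → ℂ → ℝ} {D : ι → ℝ} {p m : ε → ℝ}
    (hD : ∀ i, 0 < D i) (hp : ∀ e, 0 ≤ p e) (hm : ∀ e, 0 ≤ m e)
    (hsum : ∀ e, p e / D (src e) + m e / D (tgt e) = 1)
    (hPH : ∀ i, PH (D i) (P i)) (hgH : ∀ e, PH (p e) (g e)) (hhH : ∀ e, PH (m e) (h e))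
    {z : ι → ℂ}
    (hPd : ∀ i, DifferentiableAt ℝ (P i) (z i)) (hgd : ∀ e, DifferentiableAt ℝ (g e) (z (src e)))
    (hhd : ∀ e, DifferentiableAt ℝ (h e) (z (tgt e))) (hg0 : ∀ e x, 0 ≤ g e x)
    (hh0 : ∀ e x, 0 ≤ h e x)
    (hcase : ∀ i, z i ≠ 0 → Cond src tgt P g h i (z i)) (hz : z ≠ 0)
    (hNC : (∀ i, D i * (P i (z i)).re =
        ∑ e, dg src tgt p m e i * (g e (z (src e)) * h e (z (tgt e)))) →
      (∀ i, z i ≠ 0 → 0 < (P i (z i)).re ∧ (P i (z i)).im = 0) → False)
    (hre : 0 ≤ (lobB P (prodB src tgt g h) z).re) :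
    Function.Surjective (fderiv ℝ (lobB P (prodB src tgt g h)) z) := by
  have hrad := fderiv_prodB_rad (src := src) (tgt := tgt) hgH hhH (z := z) hgd hhd
  have hdg : ∀ e i, 0 ≤ dg src tgt p m e i := by
    intro e i
    unfold dg
    refine add_nonneg ?_ ?_
    · split_ifs
      · exact hp e
      · exact le_rfl
    · split_ifs
      · exact hm e
      · exact le_rfl
  refine lobB_reg hD hPH hPd (hasFDerivAt_prodB hgd hhd).differentiableAt (fun i => ?_) ?_
    (fun i hi => ?_) hz (fun h1 h2 => ?_) hre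
  · rw [hrad]
    exact sum_nonneg fun e _ => mul_nonneg (hdg e i) (mul_nonneg (hg0 _ _) (hh0 _ _))
  · calc ∑ i, fderiv ℝ (prodB src tgt g h) z (Pi.single i (z i)) / D i
        = ∑ i, ∑ e, dg src tgt p m e i / D i * (g e (z (src e)) * h e (z (tgt e))) := by
          refine sum_congr rfl fun i _ => ?_
          rw [hrad, sum_div]
          exact sum_congr rfl fun e _ => by ring
      _ = ∑ e, (∑ i, dg src tgt p m e i / D i) * (g e (z (src e)) * h e (z (tgt e))) := by
          rw [sum_comm]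
          exact sum_congr rfl fun e _ => by rw [sum_mul]
      _ = prodB src tgt g h z := by simp only [sum_dg_div, hsum, one_mul]; rfl
  · rcases hcase i hi with ⟨h1, h2, h3⟩ | ⟨h1, h2 | ⟨v, h2, h3, h4⟩⟩
    · refine Or.inl ⟨h1, fun v => ?_⟩
      rw [fderiv_prodB_single hgd hhd]
      refine sum_eq_zero fun e _ => ?_
      by_cases h5 : tgt e = i
      · by_cases h6 : src e = i
        · rw [if_pos h5, if_pos h6, (h3 e h5).2, (h2 e h6).2]; simp
        · rw [if_pos h5, if_neg h6, (h3 e h5).2]; simp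
      · by_cases h6 : src e = i
        · rw [if_neg h5, if_pos h6, (h2 e h6).2]; simp
        · rw [if_neg h5, if_neg h6]; simp
    · exact Or.inr ⟨h1, Or.inl h2⟩
    · refine Or.inr ⟨h1, Or.inr ⟨v, ?_, h4⟩⟩
      rw [fderiv_prodB_single hgd hhd]
      refine sum_eq_zero fun e _ => ?_
      by_cases h5 : tgt e = i
      · by_cases h6 : src e = i
        · rw [if_pos h5, if_pos h6, h3 e h5, h2 e h6]; simp
        · rw [if_pos h5, if_neg h6, h3 e h5]; simp
      · by_cases h6 : src e = i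
        · rw [if_neg h5, if_pos h6, h2 e h6]; simp
        · rw [if_neg h5, if_neg h6]; simp
  · exact hNC (fun i => by rw [h1, hrad]) h2

end Fun

/-- **LEMMA L for chains with product couplings.** -/
theorem chain_reg {n : ℕ} {P : Fin (n + 1) → ℂ → ℂ} {g h : Fin n → ℂ → ℝ}
    {D : Fin (n + 1) → ℝ} {p m : Fin n → ℝ}
    (hD : ∀ i, 0 < D i) (hp : ∀ e, 0 < p e) (hm : ∀ e, 0 < m e)
    (hsum : ∀ e, p e / D e.castSucc + m e / D e.succ = 1)
    (hPH : ∀ i, PH (D i) (P i)) (hgH : ∀ e, PH (p e) (g e)) (hhH : ∀ e, PH (m e) (h e))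
    {z : Fin (n + 1) → ℂ}
    (hPd : ∀ i, DifferentiableAt ℝ (P i) (z i))
    (hgd : ∀ e : Fin n, DifferentiableAt ℝ (g e) (z e.castSucc))
    (hhd : ∀ e : Fin n, DifferentiableAt ℝ (h e) (z e.succ))
    (hg0 : ∀ e x, 0 ≤ g e x) (hh0 : ∀ e x, 0 ≤ h e x)
    (hcase : ∀ i, z i ≠ 0 → Cond Fin.castSucc Fin.succ P g h i (z i)) (hz : z ≠ 0)
    (hNC : ∀ e : Fin n, z e.castSucc ≠ 0 → z e.succ ≠ 0 →
      0 < g e (z e.castSucc) * h e (z e.succ) →
      p e * (g e (z e.castSucc) * h e (z e.succ)) ≤ D e.castSucc * (P e.castSucc (z e.castSucc)).re →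
      D e.succ * (P e.succ (z e.succ)).re = m e * (g e (z e.castSucc) * h e (z e.succ)) →
      0 < (P e.castSucc (z e.castSucc)).re → (P e.castSucc (z e.castSucc)).im = 0 →
      0 < (P e.succ (z e.succ)).re → (P e.succ (z e.succ)).im = 0 → False)
    (hre : 0 ≤ (lobB P (prodB Fin.castSucc Fin.succ g h) z).re) :
    Function.Surjective (fderiv ℝ (lobB P (prodB Fin.castSucc Fin.succ g h)) z) := by
  refine lobF_reg hD (fun e => (hp e).le) (fun e => (hm e).le) hsum hPH hgH hhH hPd hgd hhd hg0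
    hh0 hcase hz (fun h1 h2 => ?_) hre
  have hB : ∀ e : Fin n, 0 ≤ g e (z e.castSucc) * h e (z e.succ) := fun e =>
    mul_nonneg (hg0 _ _) (hh0 _ _)
  have hne : ∃ i, (P i (z i)).re ≠ 0 := by
    obtain ⟨i, hi⟩ : ∃ i, z i ≠ 0 := by
      by_contra h
      push Not at h
      exact hz (funext h)
    exact ⟨i, (h2 i hi).1.ne'⟩
  obtain ⟨e, he, h3, h4⟩ := chain_last hD (fun e => (hp e).le) (fun e => (hm e).le) hB
    (q := fun i => (P i (z i)).re) (fun i => h1 i) hne
  have hz1 : z e.castSucc ≠ 0 := by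
    intro h0
    rw [h0, (hgH e).zero (hp e), zero_mul] at he
    exact lt_irrefl _ he
  have hz2 : z e.succ ≠ 0 := by
    intro h0
    rw [h0, (hhH e).zero (hm e), mul_zero] at he
    exact lt_irrefl _ he
  exact hNC e hz1 hz2 he h4 h3 (h2 _ hz1).1 (h2 _ hz1).2 (h2 _ hz2).1 (h2 _ hz2).2

end Crest.Agent.R267.LemL_951
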