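import Crest.Agent.R267.NLb_330

-- ▼ part R267/LightA_667
section

/-!
# Light certificate, part A: block algebra (row 267, P3.4)

In the order `(O, S, V)` the nested-level matrices are
`blk D C = [[D, LX, 0], [-LX, 0, 0], [C, 0, LV]]`, and the isometry is
`U = [[1, 0, 0], [ρ, 1, σ], [h, 0, θ]]` with `σ = -LX⁻¹ hᵀ LV θ`, `θ = 1 + N M (LV N)ᵀ`.
-/

set_option autoImplicit false

namespace Crest.Agent.R267.LightA_667

open Matrix

section Alg

variable {x v r : Type} [Fintype x] [DecidableEq x] [Fintype v] [DecidableEq v]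
  [Fintype r] [DecidableEq r]

/-- block form. -/
def blk (LX : Matrix x x ℤ) (LV : Matrix v v ℤ) (D : Matrix x x ℤ) (C : Matrix v x ℤ) :
    Matrix ((x ⊕ x) ⊕ v) ((x ⊕ x) ⊕ v) ℤ :=
  fromBlocks (fromBlocks D LX (-LX) 0) 0 (fromCols C 0) LV

/-- the isometry. -/
def Um (ρ : Matrix x x ℤ) (σ : Matrix x v ℤ) (h : Matrix v x ℤ) (θ : Matrix v v ℤ) :
    Matrix ((x ⊕ x) ⊕ v) ((x ⊕ x) ⊕ v) ℤ :=
  fromBlocks (fromBlocks 1 0 ρ 1) (fromRows 0 σ) (fromCols h 0) θ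

omit [DecidableEq v] in
theorem block (LX : Matrix x x ℤ) (LV : Matrix v v ℤ) (Df Dg : Matrix x x ℤ)
    (Cf Cg : Matrix v x ℤ) (ρ : Matrix x x ℤ) (σ : Matrix x v ℤ) (h : Matrix v x ℤ)
    (θ : Matrix v v ℤ)
    (ha : θᵀ * LV * θ = LV)
    (hb : LX * σ + hᵀ * LV * θ = 0)
    (hc : θᵀ * (Cg + LV * h) - σᵀ * LX = Cf)
    (hd : Dg + LX * ρ - ρᵀ * LX + hᵀ * (Cg + LV * h) = Df) :
    (Um ρ σ h θ)ᵀ * blk LX LV Dg Cg * Um ρ σ h θ = blk LX LV Df Cf := by
  have h1 : blk LX LV Dg Cg * Um ρ σ h θ =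
      fromBlocks (fromBlocks (Dg + LX * ρ) LX (-LX) 0) (fromRows (LX * σ) 0)
        (fromCols (Cg + LV * h) 0) (LV * θ) := by
    unfold blk Um
    rw [fromBlocks_multiply, fromBlocks_multiply, fromBlocks_mul_fromRows,
      fromCols_mul_fromBlocks, fromCols_mul_fromRows]
    simp only [Matrix.mul_one, Matrix.zero_mul, Matrix.mul_zero, add_zero, zero_add,
      Matrix.mul_fromCols]
    congr 1
    ext i (j | j) <;> simp
  rw [Matrix.mul_assoc, h1]
  unfold Um blk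
  rw [fromBlocks_transpose, fromBlocks_multiply, fromBlocks_transpose, transpose_fromCols,
    transpose_fromRows, fromBlocks_multiply, fromBlocks_mul_fromRows, fromCols_mul_fromBlocks,
    fromCols_mul_fromRows, fromRows_mul_fromCols, fromRows_mul, ← hd, ← hc]
  have e1 : -(ρᵀ * LX) = ρᵀ * (-LX) := by rw [Matrix.mul_neg]
  congr 1
  · ext (i | i) (j | j)
    · simp [Matrix.add_apply, Matrix.sub_apply]
      ring
    · simp
    · simp
    · simp
  · ext (i | i) j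
    · have := congrFun (congrFun hb i) j
      simpa [Matrix.mul_assoc] using this
    · simp
  · ext i (j | j)
    · simp [Matrix.sub_apply, Matrix.add_apply]
      ring
    · simp
  · simpa [Matrix.mul_assoc] using ha

omit [DecidableEq r] in
/-- three (or `r`) invariant vectors: `θ = 1 + N M (LV N)ᵀ` is an isometry. -/
theorem isom (LV : Matrix v v ℤ) (N : Matrix v r ℤ) (M : Matrix r r ℤ)
    (hN : LVᵀ * N = LV * N) (hM : M + Mᵀ + Mᵀ * (Nᵀ * (LV * N)) * M = 0) :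
    (1 + N * M * (LV * N)ᵀ)ᵀ * LV * (1 + N * M * (LV * N)ᵀ) = LV := by
  obtain ⟨Nh, hNh⟩ : ∃ Nh, Nh = LV * N := ⟨_, rfl⟩
  rw [← hNh] at hN hM ⊢
  have hl : Nᵀ * LV = Nhᵀ := by
    rw [← hN, Matrix.transpose_mul, Matrix.transpose_transpose]
  have h1 : (1 + N * M * Nhᵀ)ᵀ = 1 + Nh * (Mᵀ * Nᵀ) := by
    rw [Matrix.transpose_add, Matrix.transpose_one, Matrix.transpose_mul, Matrix.transpose_mul,
      Matrix.transpose_transpose]
  have h2 : LV * (1 + N * M * Nhᵀ) = LV + Nh * (M * Nhᵀ) := by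
    rw [Matrix.mul_add, Matrix.mul_one, Matrix.mul_assoc N, ← Matrix.mul_assoc LV, ← hNh]
  have h3 : Nh * (Mᵀ * Nᵀ) * LV = Nh * (Mᵀ * Nhᵀ) := by
    rw [Matrix.mul_assoc Nh, Matrix.mul_assoc Mᵀ, hl]
  have h4 : Nh * (Mᵀ * Nᵀ) * (Nh * (M * Nhᵀ)) = Nh * ((Mᵀ * (Nᵀ * Nh) * M) * Nhᵀ) := by
    simp only [Matrix.mul_assoc]
  rw [h1, Matrix.mul_assoc, h2, Matrix.add_mul, Matrix.one_mul, Matrix.mul_add, h3, h4]
  have h5 : Nh * (M * Nhᵀ) + (Nh * (Mᵀ * Nhᵀ) + Nh * ((Mᵀ * (Nᵀ * Nh) * M) * Nhᵀ)) =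
      Nh * ((M + Mᵀ + Mᵀ * (Nᵀ * Nh) * M) * Nhᵀ) := by
    rw [← Matrix.mul_add, ← Matrix.mul_add, ← Matrix.add_mul, ← Matrix.add_mul, add_assoc]
  rw [add_assoc, h5, hM, Matrix.zero_mul, Matrix.mul_zero, add_zero]

omit [DecidableEq r] in
/-- the certificate with `σ` eliminated. -/
theorem light (LX LXi : Matrix x x ℤ) (LV : Matrix v v ℤ) (Df Dg : Matrix x x ℤ)
    (Cf Cg : Matrix v x ℤ) (ρ : Matrix x x ℤ) (h : Matrix v x ℤ)
    (N : Matrix v r ℤ) (M : Matrix r r ℤ) (hX : LX * LXi = 1)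
    (hN : LVᵀ * N = LV * N) (hM : M + Mᵀ + Mᵀ * (Nᵀ * (LV * N)) * M = 0)
    (hc : (1 + N * M * (LV * N)ᵀ)ᵀ * (Cg + LV * h + LVᵀ * (h * (LXiᵀ * LX))) = Cf)
    (hd : Dg + LX * ρ - ρᵀ * LX + hᵀ * (Cg + LV * h) = Df) :
    ∃ U : Matrix ((x ⊕ x) ⊕ v) ((x ⊕ x) ⊕ v) ℤ,
      Uᵀ * blk LX LV Dg Cg * U = blk LX LV Df Cf := by
  set θ := 1 + N * M * (LV * N)ᵀ with hθ
  have ha : θᵀ * LV * θ = LV := isom LV N M hN hM
  refine ⟨Um ρ (-(LXi * (hᵀ * LV * θ))) h θ, block LX LV Df Dg Cf Cg ρ _ h θ ha ?_ ?_ hd⟩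
  · rw [Matrix.mul_neg, ← Matrix.mul_assoc, hX, Matrix.one_mul, neg_add_cancel]
  · rw [← hc, Matrix.transpose_neg, Matrix.neg_mul, sub_neg_eq_add]
    simp only [Matrix.transpose_mul, Matrix.transpose_transpose, Matrix.mul_add, Matrix.mul_assoc]

end Alg

end Crest.Agent.R267.LightA_667
end

-- ▼ part R267/LightB_667

/-!
# Light certificate, part B: the concrete blocks and the reindexing (row 267, P3.4)

`X = Fin 6 × Fin 14` (letter of the hub, level - 2), `V = Fin 13 × Fin 14 × Fin 14`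
(component, level - 2, letter - 1; for `g` and the components `0..6` the last two are
exchanged), padded: only the cells with `Msk` belong to the index set.
-/

set_option autoImplicit false

namespace Crest.Agent.R267.LightB_667

open Matrix NL_330 LightA_667

abbrev X := Fin 6 × Fin 14

abbrev V := Fin 13 × Fin 14 × Fin 14

def ra : List ℕ := [14, 14, 14, 6, 6, 6, 2, 2, 2, 2, 1, 0, 0, 0]

def rb : List ℕ := [11, 9, 9, 9, 9, 9, 9, 9, 9, 7, 4, 4, 4, 4]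

/-- widths of the rows. -/
def wid (c k : ℕ) : ℕ := if c = 0 then ra.getD k 0 else if c < 7 then rb.getD k 0 else 14

/-- the cell belongs to the index set. -/
def Msk (u : V) : Prop := u.2.2.val < wid u.1.val u.2.1.val

instance : DecidablePred Msk := fun u => by unfold Msk; infer_instance

/-- letter of the hub of a component. -/
def cl (c : Fin 13) : Fin 6 := ⟨(c.val + 5) % 6, Nat.mod_lt _ (by norm_num)⟩

def Lam (c d : Fin 13) : ℤ :=
  if c.val = 0 ∨ d.val = 0 then (if c = d then 1 else 0)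
  else if (c.val < 7 ↔ d.val < 7) then LP (cl c) (cl d) else 0

def LXm : Matrix X X ℤ := fun p q => if p.2 ≤ q.2 then LP p.1 q.1 else 0

/-- inverse of `LXm`. -/
def LXi : Matrix X X ℤ := fun p q =>
  if p.2 = q.2 then LPi p.1 q.1 else if p.2.val + 1 = q.2.val then - LPi p.1 q.1 else 0

def LVm : Matrix V V ℤ := fun u w =>
  if Msk u ∧ Msk w ∧ u.2.1 ≤ w.2.1 ∧ u.2.2 ≤ w.2.2 then Lam u.1 w.1 else 0

def Dm (C : Core) : Matrix X X ℤ := fun p q => if p.2 ≤ q.2 then C.D p.1 q.1 else 0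

def Gam (C : Core) (c : Fin 13) (b : Fin 6) : ℤ :=
  if c.val = 0 then ∑ e, LP b e * C.g e else LP (cl c) b

def Cfm : Matrix V X ℤ := fun u p => if Msk u ∧ u.2.1 ≤ p.2 then - Gam coreF u.1 p.1 else 0

def Cgm : Matrix V X ℤ := fun u p =>
  if Msk u ∧ (if u.1.val < 7 then u.2.2 else u.2.1) ≤ p.2 then - Gam coreG u.1 p.1 else 0

/-- padded matrices. -/
def Bf : Matrix ((X ⊕ X) ⊕ V) ((X ⊕ X) ⊕ V) ℤ := blk LXm LVm (Dm coreF) Cfm

def Bg : Matrix ((X ⊕ X) ⊕ V) ((X ⊕ X) ⊕ V) ℤ := blk LXm LVm (Dm coreG) Cgm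

/-! ### restriction -/

theorem restrict {I J Z W : Type} [Fintype I] [Fintype J] [Fintype Z] [Fintype W]
    (A : Matrix Z Z ℤ) (B : Matrix W W ℤ) (U : Matrix Z W ℤ) (jg : I → Z) (jf : J → W)
    (hj : Function.Injective jg)
    (hs : ∀ z, z ∉ Set.range jg → ∀ z', A z z' = 0 ∧ A z' z = 0)
    (h : Uᵀ * A * U = B) :
    (U.submatrix jg jf)ᵀ * A.submatrix jg jg * U.submatrix jg jf = B.submatrix jf jf := by
  ext s t
  rw [← h]
  simp only [Matrix.submatrix_apply, Matrix.mul_apply, Matrix.transpose_apply]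
  refine Fintype.sum_of_injective jg hj _ _ ?_ ?_
  · intro z hz
    have : ∑ z', U z' (jf s) * A z' z = 0 := by
      refine Finset.sum_eq_zero fun z' _ => ?_
      rw [(hs z hz z').2, mul_zero]
    rw [this, zero_mul]
  · intro i
    congr 1
    refine Fintype.sum_of_injective jg hj _ _ ?_ ?_
    · intro z hz
      rw [(hs z hz _).1, mul_zero]
    · intro i'
      rfl

/-! ### the embeddings -/

def lv (k : ℕ) : Fin 14 := Fin.ofNat 14 (k - 2)

def li (i : ℕ) : Fin 14 := Fin.ofNat 14 (i - 1)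

/-- embedding of the letters of `f`. -/
def jf : ℕ × Lt → (X ⊕ X) ⊕ V
  | (k, .S a) => .inl (.inr (a, lv k))
  | (k, .O a) => .inl (.inl (a, lv k))
  | (k, .X i) => .inr (0, lv k, li i)
  | (k, .Y a i) => .inr (⟨a.val + 1, by omega⟩, lv k, li i)
  | (k, .Z a i) => .inr (⟨a.val + 7, by omega⟩, lv k, li i)

/-- embedding of the letters of `g`. -/
def jg : ℕ × Lt → (X ⊕ X) ⊕ V
  | (k, .S a) => .inl (.inr (a, lv k))
  | (k, .O a) => .inl (.inl (a, lv k))
  | (k, .X i) => .inr (0, li i, lv k)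
  | (k, .Y a i) => .inr (⟨a.val + 1, by omega⟩, li i, lv k)
  | (k, .Z a i) => .inr (⟨a.val + 7, by omega⟩, lv k, li i)

theorem lv_val {k : ℕ} (h1 : 2 ≤ k) (h2 : k ≤ 15) : (lv k).val = k - 2 := by
  simp only [lv, Fin.ofNat]
  exact Nat.mod_eq_of_lt (by omega)

theorem li_val {i : ℕ} (h1 : 1 ≤ i) (h2 : i ≤ 14) : (li i).val = i - 1 := by
  simp only [li, Fin.ofNat]
  exact Nat.mod_eq_of_lt (by omega)

/-! ### staircases -/

theorem stF0 : ∀ k : Fin 14, wid 0 k.val + 1 = max 1 (at1 NLb_330.rowsF.p (k.val + 2)) := by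
  decide

theorem stF1 : ∀ k : Fin 14, wid 1 k.val + 1 = at1 NLb_330.rowsF.q (k.val + 2) := by decide


theorem stG0 : ∀ k i : Fin 14, i.val < wid 0 k.val ↔ k.val + 1 < at1 NLb_330.rowsG.p (i.val + 2) := by
  decide

theorem stG1 : ∀ k i : Fin 14, i.val < wid 1 k.val ↔ k.val + 1 < at1 NLb_330.rowsG.q (i.val + 2) := by
  decide


end Crest.Agent.R267.LightB_667
private theorem rz_9f07ce213b : type_of% @_root_.Crest.Agent.R267.LightB_667.jf.eq_1 := @_root_.Crest.Agent.R267.LightB_667.jf.eq_1 -- L96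
private theorem rz_e59ccd5b85 : type_of% @_root_.Crest.Agent.R267.LightB_667.jg.eq_1 := @_root_.Crest.Agent.R267.LightB_667.jg.eq_1 -- L104
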