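import Crest.Agent.R267.LightB_667

/-!
# Light certificate, part K: kernel functions on `ℕ` and their meaning in `ZMod m`
-/

set_option autoImplicit false

namespace Crest.Agent.R267.LightK_667

/-! ### functions by explicit recursors -/

/-- lookup with default. -/
noncomputable def nth {α : Type} (d : α) (l : List α) (i : ℕ) : α :=
  List.rec (motive := fun _ => ℕ → α) (fun _ => d)
    (fun a _ ih n => Nat.rec (motive := fun _ => α) a (fun m _ => ih m) n) l i

noncomputable def len {α : Type} (l : List α) : ℕ :=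
  List.rec (motive := fun _ => ℕ) 0 (fun _ _ ih => Nat.succ ih) l

noncomputable def allB (n : ℕ) (f : ℕ → Bool) : Bool :=
  Nat.rec (motive := fun _ => Bool) true (fun n ih => Bool.rec false ih (f n)) n

noncomputable def sumN (n : ℕ) (f : ℕ → ℕ) : ℕ :=
  Nat.rec (motive := fun _ => ℕ) 0 (fun n ih => Nat.add (f n) ih) n

/-- digits of base 128 against a list. -/
noncomputable def dd (l : List ℕ) (r : ℕ) : ℕ :=
  List.rec (motive := fun _ => ℕ → ℕ) (fun _ => 0)
    (fun b _ ih r => Nat.add (Nat.mul (Nat.mod r 128) b) (ih (Nat.div r 128))) l r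

theorem nth_nil {α : Type} (d : α) (i : ℕ) : nth d [] i = d := rfl

theorem nth_cons_zero {α : Type} (d a : α) (l : List α) : nth d (a :: l) 0 = a := rfl

theorem nth_cons_succ {α : Type} (d a : α) (l : List α) (i : ℕ) :
    nth d (a :: l) (i + 1) = nth d l i := rfl

theorem nth_of_len_le {α : Type} (d : α) (l : List α) (i : ℕ) (h : len l ≤ i) :
    nth d l i = d := by
  induction l generalizing i with
  | nil => rfl
  | cons a l ih =>
    have h1 : len (a :: l) = len l + 1 := rfl
    rw [h1] at h
    obtain ⟨j, rfl⟩ : ∃ j, i = j + 1 := ⟨i - 1, by omega⟩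
    rw [nth_cons_succ]
    exact ih j (by omega)

theorem allB_iff (n : ℕ) (f : ℕ → Bool) : allB n f = true ↔ ∀ i < n, f i = true := by
  induction n with
  | zero => simp [allB]
  | succ n ih =>
    have h : allB (n + 1) f = Bool.rec false (allB n f) (f n) := rfl
    rw [h]
    constructor
    · intro h2 i hi
      cases hf : f n with
      | false => rw [hf] at h2; exact absurd h2 (by simp)
      | true =>
        rw [hf] at h2
        rcases Nat.lt_succ_iff_lt_or_eq.1 hi with h3 | rfl
        · exact (ih.1 h2) i h3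
        · exact hf
    · intro h2
      rw [h2 n (Nat.lt_succ_self n)]
      exact ih.2 fun i hi => h2 i (Nat.lt_succ_of_lt hi)

theorem sumN_eq (n : ℕ) (f : ℕ → ℕ) : sumN n f = ∑ i ∈ Finset.range n, f i := by
  induction n with
  | zero => rfl
  | succ n ih =>
    have h : sumN (n + 1) f = f n + sumN n f := rfl
    rw [h, ih, Finset.sum_range_succ, add_comm]


/-- congruence check. -/
noncomputable def eqm (m a b : ℕ) : Bool := Nat.beq (Nat.mod a m) (Nat.mod b m)

theorem eqm_cast {m a b : ℕ} (h : eqm m a b = true) : (a : ZMod m) = (b : ZMod m) := by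
  have h1 : a % m = b % m := Nat.eq_of_beq_eq_true h
  exact (ZMod.natCast_eq_natCast_iff a b m).2 h1

/-! ### nested lists -/

noncomputable def val (y : List (List (List ℕ))) (c k i : ℕ) : ℕ :=
  nth 0 (nth [] (nth [] y c) k) i

/-- widths, as a nested list. -/
def widL : List (List ℕ) :=
  [[14, 14, 14, 6, 6, 6, 2, 2, 2, 2, 1, 0, 0, 0],
   [11, 9, 9, 9, 9, 9, 9, 9, 9, 7, 4, 4, 4, 4], [11, 9, 9, 9, 9, 9, 9, 9, 9, 7, 4, 4, 4, 4],
   [11, 9, 9, 9, 9, 9, 9, 9, 9, 7, 4, 4, 4, 4], [11, 9, 9, 9, 9, 9, 9, 9, 9, 7, 4, 4, 4, 4],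
   [11, 9, 9, 9, 9, 9, 9, 9, 9, 7, 4, 4, 4, 4], [11, 9, 9, 9, 9, 9, 9, 9, 9, 7, 4, 4, 4, 4],
   [14, 14, 14, 14, 14, 14, 14, 14, 14, 14, 14, 14, 14, 14],
   [14, 14, 14, 14, 14, 14, 14, 14, 14, 14, 14, 14, 14, 14],
   [14, 14, 14, 14, 14, 14, 14, 14, 14, 14, 14, 14, 14, 14],
   [14, 14, 14, 14, 14, 14, 14, 14, 14, 14, 14, 14, 14, 14],
   [14, 14, 14, 14, 14, 14, 14, 14, 14, 14, 14, 14, 14, 14],
   [14, 14, 14, 14, 14, 14, 14, 14, 14, 14, 14, 14, 14, 14]]

/-- width, kernel version. -/
noncomputable def wd (c k : ℕ) : ℕ := nth 0 (nth [] widL c) k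

theorem wd_eq : ∀ c < 13, ∀ k < 14, wd c k = LightB_667.wid c k := by decide +kernel

theorem wd_14 : ∀ c < 13, wd c 14 = 0 := by decide +kernel

theorem wd_le : ∀ c < 13, ∀ k < 14, wd c k ≤ 14 := by decide +kernel

theorem wd_anti : ∀ c < 13, ∀ k < 14, wd c (k + 1) ≤ wd c k := by decide +kernel

/-- shape of a nested list. -/
noncomputable def shp (y : List (List (List ℕ))) : Bool :=
  allB 13 fun c => allB 15 fun k => Nat.beq (len (nth [] (nth [] y c) k)) (wd c k)

theorem val_eq_zero {y : List (List (List ℕ))} (h : shp y = true) {c k i : ℕ} (hc : c < 13)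
    (hk : k < 15) (hi : wd c k ≤ i) : val y c k i = 0 := by
  have h1 := (allB_iff _ _).1 ((allB_iff _ _).1 h c hc) k hk
  have h2 : len (nth [] (nth [] y c) k) = wd c k := Nat.eq_of_beq_eq_true h1
  exact nth_of_len_le _ _ _ (by rw [h2]; exact hi)

/-! ### telescoping -/

section Tele

variable {R : Type} [CommRing R]

theorem tele_ge (f : ℕ → R) (n i : ℕ) (hi : i ≤ n) :
    ∑ j ∈ Finset.range n, (if i ≤ j then f j - f (j + 1) else 0) = f i - f n := by
  induction n with
  | zero =>
    obtain rfl : i = 0 := by omega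
    simp
  | succ n ih =>
    rw [Finset.sum_range_succ]
    rcases Nat.lt_or_ge n i with h | h
    · obtain rfl : i = n + 1 := by omega
      rw [if_neg (by omega), add_zero, sub_self]
      refine Finset.sum_eq_zero fun j hj => if_neg ?_
      have := Finset.mem_range.1 hj
      omega
    · rw [ih h, if_pos h]
      ring

theorem tele_le (f : ℕ → R) (n i : ℕ) (hi : i < n) :
    ∑ j ∈ Finset.range n, (if j ≤ i then f (j + 1) - f j else 0) = f (i + 1) - f 0 := by
  induction n with
  | zero => omega
  | succ n ih =>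
    rw [Finset.sum_range_succ]
    rcases Nat.lt_or_ge i n with h | h
    · rw [ih h, if_neg (by omega), add_zero]
    · obtain rfl : i = n := by omega
      rw [if_pos le_rfl]
      have h1 : ∀ m, m ≤ i → ∑ j ∈ Finset.range m, (if j ≤ i then f (j + 1) - f j else 0) =
          f m - f 0 := by
        intro m hm
        induction m with
        | zero => simp
        | succ m ihm =>
          rw [Finset.sum_range_succ, ihm (by omega), if_pos (by omega)]
          ring
      rw [h1 i le_rfl]
      ring

/-- two-dimensional suffix sums by differences. -/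
theorem tele2_ge (z d : ℕ → ℕ → R) (n : ℕ) (h1 : ∀ i, z n i = 0) (h2 : ∀ k ≤ n, z k n = 0)
    (h : ∀ k < n, ∀ i < n, d k i = z k i - z (k + 1) i - (z k (i + 1) - z (k + 1) (i + 1)))
    (k i : ℕ) (hk : k < n) (hi : i < n) :
    ∑ k' ∈ Finset.range n, ∑ i' ∈ Finset.range n, (if k ≤ k' ∧ i ≤ i' then d k' i' else 0) =
      z k i := by
  have h3 : ∀ k' ∈ Finset.range n,
      ∑ i' ∈ Finset.range n, (if k ≤ k' ∧ i ≤ i' then d k' i' else 0) =
        if k ≤ k' then z k' i - z (k' + 1) i else 0 := by
    intro k' hk'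
    have hk2 := Finset.mem_range.1 hk'
    by_cases hc : k ≤ k'
    · rw [if_pos hc]
      have h4 := tele_ge (fun i' => z k' i' - z (k' + 1) i') n i hi.le
      simp only [h2 k' (by omega), h2 (k' + 1) (by omega), sub_zero] at h4
      rw [← h4]
      refine Finset.sum_congr rfl fun i' hi' => ?_
      have hi2 := Finset.mem_range.1 hi'
      by_cases hc2 : i ≤ i'
      · rw [if_pos ⟨hc, hc2⟩, if_pos hc2, h k' hk2 i' hi2]
      · rw [if_neg (fun h => hc2 h.2), if_neg hc2]
    · rw [if_neg hc]
      exact Finset.sum_eq_zero fun i' _ => if_neg fun h => hc h.1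
  rw [Finset.sum_congr rfl h3, tele_ge (fun k' => z k' i) n k hk.le, h1, sub_zero]

/-- two-dimensional prefix sums by differences; `w` is shifted. -/
theorem tele2_le (w d : ℕ → ℕ → R) (n : ℕ) (h1 : ∀ i, w 0 i = 0) (h2 : ∀ k, w k 0 = 0)
    (k i : ℕ) (hk : k < n) (hi : i < n)
    (h : ∀ k' ≤ k, ∀ i' ≤ i,
      d k' i' = w (k' + 1) (i' + 1) - w k' (i' + 1) - (w (k' + 1) i' - w k' i')) :
    ∑ k' ∈ Finset.range n, ∑ i' ∈ Finset.range n, (if k' ≤ k ∧ i' ≤ i then d k' i' else 0) =
      w (k + 1) (i + 1) := by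
  have h3 : ∀ k' ∈ Finset.range n,
      ∑ i' ∈ Finset.range n, (if k' ≤ k ∧ i' ≤ i then d k' i' else 0) =
        if k' ≤ k then w (k' + 1) (i + 1) - w k' (i + 1) else 0 := by
    intro k' hk'
    by_cases hc : k' ≤ k
    · rw [if_pos hc]
      have h4 := tele_le (fun i' => w (k' + 1) i' - w k' i') n i hi
      simp only [h2, sub_zero] at h4
      rw [← h4]
      refine Finset.sum_congr rfl fun i' hi' => ?_
      by_cases hc2 : i' ≤ i
      · rw [if_pos ⟨hc, hc2⟩, if_pos hc2, h k' hc i' hc2]
      · rw [if_neg (fun h => hc2 h.2), if_neg hc2]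
    · rw [if_neg hc]
      exact Finset.sum_eq_zero fun i' _ => if_neg fun h => hc h.1
  rw [Finset.sum_congr rfl h3, tele_le (fun k' => w k' (i + 1)) n k hk, h1, sub_zero]

open LightB_667 Matrix

/-- a function of `(c, k, i)` as a vector on the padded index set. -/
def sv (y : ℕ → ℕ → ℕ → R) : V → R := fun u => if Msk u then y u.1 u.2.1 u.2.2 else 0

theorem msk_iff (c : Fin 13) (k i : Fin 14) : Msk (c, k, i) ↔ i.val < wd c.val k.val := by
  unfold Msk
  rw [wd_eq c.val c.isLt k.val k.isLt]

theorem lam_wd : ∀ c d : Fin 13, Lam c d ≠ 0 → ∀ k : Fin 14, wd d.val k.val = wd c.val k.val := by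
  decide +kernel

theorem lv_mulVec (y z : ℕ → ℕ → ℕ → R)
    (hz : ∀ c < 13, ∀ k < 15, ∀ i, wd c k ≤ i → z c k i = 0)
    (hrel : ∀ c : Fin 13, ∀ k < 14, ∀ i < wd c.val k,
      z c k i + z c (k + 1) (i + 1) =
        ∑ d : Fin 13, ((Lam c d : ℤ) : R) * y d k i + z c (k + 1) i + z c k (i + 1)) :
    (LVm.map (Int.castRingHom R)) *ᵥ sv y = sv z := by
  ext ⟨c, k, i⟩
  by_cases hm : Msk (c, k, i)
  swap
  · rw [sv, if_neg hm, Matrix.mulVec, dotProduct]
    refine Finset.sum_eq_zero fun w _ => ?_
    simp only [Matrix.map_apply, LVm]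
    rw [if_neg (fun h => hm h.1), map_zero, zero_mul]
  · have hm' := (msk_iff c k i).1 hm
    rw [sv, if_pos hm]
    have key := tele2_ge (z c) (fun k' i' => if i' < wd c.val k' then
        ∑ d : Fin 13, ((Lam c d : ℤ) : R) * y d k' i' else 0) 14
      (fun i' => hz c c.isLt 14 (by norm_num) i' (by rw [wd_14 c c.isLt]; omega))
      (fun k' hk' => by
        rcases Nat.lt_or_ge k' 14 with h | h
        · exact hz c c.isLt k' (by omega) 14 (wd_le c c.isLt k' h)
        · obtain rfl : k' = 14 := by omega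
          exact hz c c.isLt 14 (by norm_num) _ (by rw [wd_14 c c.isLt]; omega))
      (by
        intro k' hk' i' _
        by_cases hi' : i' < wd c.val k'
        · simp only [if_pos hi']
          have := hrel c k' hk' i' hi'
          linear_combination -this
        · simp only [if_neg hi']
          have h0 := wd_anti c c.isLt k' hk'
          rw [hz c c.isLt k' (by omega) i' (by omega), hz c c.isLt (k' + 1) (by omega) i' (by omega),
            hz c c.isLt k' (by omega) (i' + 1) (by omega),
            hz c c.isLt (k' + 1) (by omega) (i' + 1) (by omega)]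
          ring) k i k.isLt i.isLt
    rw [← key]
    simp only [Matrix.mulVec, dotProduct, Matrix.map_apply, Fintype.sum_prod_type]
    rw [Finset.sum_comm]
    rw [Finset.sum_range]
    refine Finset.sum_congr rfl fun k' _ => ?_
    rw [Finset.sum_comm]
    rw [Finset.sum_range]
    refine Finset.sum_congr rfl fun i' _ => ?_
    by_cases hc : k.val ≤ k'.val ∧ i.val ≤ i'.val
    · rw [if_pos hc]
      by_cases hi' : i'.val < wd c.val k'.val
      · rw [if_pos hi']
        refine Finset.sum_congr rfl fun d _ => ?_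
        by_cases hL : Lam c d = 0
        · have h0 : LVm (c, k, i) (d, k', i') = 0 := by
            simp only [LVm]; split_ifs <;> simp [hL]
          rw [h0, hL]; simp
        · have hw := lam_wd c d hL k'
          have hmd : Msk (d, k', i') := (msk_iff _ _ _).2 (by rw [hw]; exact hi')
          have h0 : LVm (c, k, i) (d, k', i') = Lam c d := by
            simp only [LVm]; exact if_pos ⟨hm, hmd, hc.1, hc.2⟩
          rw [h0, sv, if_pos hmd]
          rfl
      · rw [if_neg hi']
        refine Finset.sum_eq_zero fun d _ => ?_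
        by_cases hL : Lam c d = 0
        · have h0 : LVm (c, k, i) (d, k', i') = 0 := by
            simp only [LVm]; split_ifs <;> simp [hL]
          rw [h0]; simp
        · have hw := lam_wd c d hL k'
          have hmd : ¬ Msk (d, k', i') := fun h => hi' (by rw [← hw]; exact (msk_iff _ _ _).1 h)
          rw [sv, if_neg hmd, mul_zero]
    · rw [if_neg hc]
      refine Finset.sum_eq_zero fun d _ => ?_
      have h0 : LVm (c, k, i) (d, k', i') = 0 := by
        simp only [LVm]
        exact if_neg fun h => hc ⟨h.2.2.1, h.2.2.2⟩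
      rw [h0]; simp

/-- shift by one in both variables. -/
def shf (z : ℕ → ℕ → R) : ℕ → ℕ → R
  | 0, _ => 0
  | _ + 1, 0 => 0
  | k + 1, i + 1 => z k i

theorem wd_anti' (c : ℕ) (hc : c < 13) (k k' : ℕ) (h : k' ≤ k) (hk : k < 15) :
    wd c k ≤ wd c k' := by
  induction k with
  | zero =>
    obtain rfl : k' = 0 := by omega
    exact le_rfl
  | succ k ih =>
    rcases Nat.lt_or_ge k k' with h1 | h1
    · obtain rfl : k' = k + 1 := by omega
      exact le_rfl
    · exact (wd_anti c hc k (by omega)).trans (ih h1 (by omega))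

theorem lvT_mulVec (y z : ℕ → ℕ → ℕ → R)
    (hrel : ∀ c : Fin 13, ∀ k < 14, ∀ i < wd c.val k,
      z c k i + shf (z c) k i =
        ∑ d : Fin 13, ((Lam d c : ℤ) : R) * y d k i + shf (z c) k (i + 1) + shf (z c) (k + 1) i) :
    (LVmᵀ.map (Int.castRingHom R)) *ᵥ sv y = sv z := by
  ext ⟨c, k, i⟩
  by_cases hm : Msk (c, k, i)
  swap
  · rw [sv, if_neg hm, Matrix.mulVec, dotProduct]
    refine Finset.sum_eq_zero fun w _ => ?_
    simp only [Matrix.map_apply, Matrix.transpose_apply, LVm]
    rw [if_neg (fun h => hm h.2.1), map_zero, zero_mul]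
  · have hm' := (msk_iff c k i).1 hm
    rw [sv, if_pos hm]
    have hsh0 : ∀ i', shf (z c) 0 i' = 0 := fun i' => by rfl
    have hsh1 : ∀ k', shf (z c) k' 0 = 0 := fun k' => by cases k' <;> rfl
    have key := tele2_le (shf (z c)) (fun k' i' =>
        ∑ d : Fin 13, ((Lam d c : ℤ) : R) * y d k' i') 14 hsh0 hsh1 k i k.isLt i.isLt
      (by
        intro k' hk' i' hi'
        have h1 : i' < wd c.val k' :=
          lt_of_lt_of_le (by omega) (wd_anti' c c.isLt k k' hk' (by omega))
        have := hrel c k' (by omega) i' h1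
        have h2 : shf (z c) (k' + 1) (i' + 1) = z c k' i' := rfl
        rw [h2]
        linear_combination -this)
    have h2 : shf (z c) (k.val + 1) (i.val + 1) = z c k i := rfl
    rw [← h2, ← key]
    simp only [Matrix.mulVec, dotProduct, Matrix.map_apply, Fintype.sum_prod_type]
    rw [Finset.sum_comm]
    rw [Finset.sum_range]
    refine Finset.sum_congr rfl fun k' _ => ?_
    rw [Finset.sum_comm]
    rw [Finset.sum_range]
    refine Finset.sum_congr rfl fun i' _ => ?_
    by_cases hc : k'.val ≤ k.val ∧ i'.val ≤ i.val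
    · rw [if_pos hc]
      have hi' : i'.val < wd c.val k'.val :=
        lt_of_lt_of_le (by omega) (wd_anti' c c.isLt k k' hc.1 (by omega))
      refine Finset.sum_congr rfl fun d _ => ?_
      by_cases hL : Lam d c = 0
      · have h0 : LVm (d, k', i') (c, k, i) = 0 := by
          simp only [LVm]; split_ifs <;> simp [hL]
        rw [Matrix.transpose_apply, h0, hL]; simp
      · have hw := lam_wd d c hL k'
        have hmd : Msk (d, k', i') := (msk_iff _ _ _).2 (by rw [← hw]; exact hi')
        have h0 : LVm (d, k', i') (c, k, i) = Lam d c := by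
          simp only [LVm]; exact if_pos ⟨hmd, hm, hc.1, hc.2⟩
        rw [Matrix.transpose_apply, h0, sv, if_pos hmd]
        rfl
    · rw [if_neg hc]
      refine Finset.sum_eq_zero fun d _ => ?_
      have h0 : LVm (d, k', i') (c, k, i) = 0 := by
        simp only [LVm]
        exact if_neg fun h => hc ⟨h.2.2.1, h.2.2.2⟩
      rw [Matrix.transpose_apply, h0]; simp

end Tele

end Crest.Agent.R267.LightK_667
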