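import Crest.Agent.R267.FlowG_951
import Crest.Agent.R267.Reg_808

-- ▼ part R267/Mneg_951
section

/-!
# Row 267 (helper951): the class `M⁻` (post 1700 (1)), task 275

`Neg = {Re z < 0}` (the class `Hm` of #1973).  A path in `M⁻` is `H : ℝ × E → ℂ` (`t ∈ [0,1]`), differentiable with
locally Lipschitz derivative (this is what is stable under sums: a positively homogeneous function
which is `C²` off `0` is only `C^{1,1}` at `0`), positively homogeneous of degree `2` in `x`, such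
that for `x ≠ 0` either `d_x H (t, x)` is onto or `H (t, x) ∈ Neg`.

* `MP.isotopy`: homogeneous isotopy `Φ_t` of `E` with `H (t, Φ_t x) = H (s, Φ_s x)` as soon as
  `H (s, Φ_s x) ∉ Neg`;
* `MP.exists_homeo`, `MP.exists_level_homeo`: zero sets and pages correspond;
* `MP.sum`: sums (both summands moving);
* `MP.of_contDiffOn`: `C²` off `0`.
-/

set_option autoImplicit false
set_option linter.unusedSectionVars false

noncomputable section

open Set Filter Topology Metric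
open scoped NNReal ContDiff
open Crest.Agent.R267.Reg_808 Crest.Agent.R267.FlowG_951

namespace Crest.Agent.R267.Mneg_951

/-- the left half plane -/
def Neg : Set ℂ := {z | z.re < 0}

theorem isOpen_Neg : IsOpen Neg :=
  isOpen_lt Complex.continuous_re continuous_const

theorem Neg_add {z w : ℂ} (hz : z ∈ Neg) (hw : w ∈ Neg) : z + w ∈ Neg := by
  simp only [Neg, mem_ofPred_eq, Complex.add_re] at *
  linarith

theorem Neg_smul {z : ℂ} {r : ℝ} (hr : 0 < r) : r • z ∈ Neg ↔ z ∈ Neg := by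
  simp only [Neg, mem_ofPred_eq, Complex.smul_re, smul_eq_mul]
  constructor
  · intro h
    by_contra h1
    push Not at h1
    have := mul_nonneg hr.le h1
    linarith
  · intro h
    exact mul_neg_of_pos_of_neg hr h

theorem zero_notMem_Neg : (0 : ℂ) ∉ Neg := by simp [Neg]


variable {E : Type*} [NormedAddCommGroup E] [NormedSpace ℝ E]
variable {E' : Type*} [NormedAddCommGroup E'] [NormedSpace ℝ E']

/-- paths in the class `M⁻` -/
structure MP (H : ℝ × E → ℂ) : Prop where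
  diff : ∀ t ∈ Icc (0 : ℝ) 1, ∀ x, DifferentiableAt ℝ H (t, x)
  lip : LocallyLipschitzOn (Icc (0 : ℝ) 1 ×ˢ univ) (fderiv ℝ H)
  hom : ∀ t ∈ Icc (0 : ℝ) 1, ∀ r : ℝ, 0 < r → ∀ x, H (t, r • x) = (r ^ 2) • H (t, x)
  reg : ∀ t ∈ Icc (0 : ℝ) 1, ∀ x, x ≠ 0 →
    (∀ b : ℂ, ∃ y : E, fderiv ℝ H (t, x) (0, y) = b) ∨ H (t, x) ∈ Neg

namespace MP

variable {H : ℝ × E → ℂ}

theorem zero (hH : MP H) {t : ℝ} (ht : t ∈ Icc (0 : ℝ) 1) : H (t, 0) = 0 := by
  have h1 := hH.hom t ht 2 two_pos 0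
  rw [smul_zero] at h1
  have h2 : (3 : ℝ) • H (t, 0) = 0 := by
    have h3 : (3 : ℝ) • H (t, 0) = ((2 : ℝ) ^ 2) • H (t, 0) - H (t, 0) := by
      have : (3 : ℝ) = 2 ^ 2 - 1 := by norm_num
      rw [this, sub_smul, one_smul]
    rw [h3, ← h1, sub_self]
  exact (smul_eq_zero.1 h2).resolve_left (by norm_num)

/-- homogeneity of the derivative -/
theorem fderiv_hom (hH : MP H) {t : ℝ} (ht : t ∈ Icc (0 : ℝ) 1) {r : ℝ} (hr : 0 < r) (x : E)
    (s : ℝ) (v : E) : fderiv ℝ H (t, r • x) (s, r • v) = (r ^ 2) • fderiv ℝ H (t, x) (s, v) := by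
  let L : ℝ × E →L[ℝ] ℝ × E := (ContinuousLinearMap.fst ℝ ℝ E).prod
    (r • ContinuousLinearMap.snd ℝ ℝ E)
  have hL : ∀ p : ℝ × E, L p = (p.1, r • p.2) := fun p => rfl
  have h1 : HasFDerivWithinAt (fun p : ℝ × E => H (L p)) ((fderiv ℝ H (t, r • x)).comp L)
      (Icc (0 : ℝ) 1 ×ˢ univ) (t, x) := by
    have h2 : HasFDerivAt H (fderiv ℝ H (t, r • x)) (L (t, x)) := (hH.diff t ht (r • x)).hasFDerivAt
    exact (h2.comp (t, x) L.hasFDerivAt).hasFDerivWithinAt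
  have h2 : HasFDerivWithinAt (fun p : ℝ × E => H (L p)) ((r ^ 2) • fderiv ℝ H (t, x))
      (Icc (0 : ℝ) 1 ×ˢ univ) (t, x) := by
    have h3 : HasFDerivWithinAt (fun p : ℝ × E => (r ^ 2) • H p) ((r ^ 2) • fderiv ℝ H (t, x))
        (Icc (0 : ℝ) 1 ×ˢ univ) (t, x) :=
      ((hH.diff t ht x).hasFDerivAt.fun_const_smul (r ^ 2)).hasFDerivWithinAt
    refine h3.congr (fun p hp => ?_) ?_
    · rw [hL]
      exact hH.hom p.1 hp.1 r hr p.2
    · rw [hL]
      exact hH.hom t ht r hr x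
  have hud : UniqueDiffWithinAt ℝ (Icc (0 : ℝ) 1 ×ˢ (univ : Set E)) (t, x) :=
    (uniqueDiffOn_Icc zero_lt_one).prod uniqueDiffOn_univ (t, x) ⟨ht, mem_univ _⟩
  have h3 := hud.eq h1 h2
  exact congrArg (fun A : ℝ × E →L[ℝ] ℂ => A (s, v)) h3

end MP

theorem const_of {F : Type*} [NormedAddCommGroup F] [NormedSpace ℝ F] {u : ℝ → F} {t₀ : ℝ}
    (ht₀ : t₀ ∈ Icc (0 : ℝ) 1)
    (hu : ∀ t ∈ Icc (0 : ℝ) 1, ContinuousAt u t)
    (hu' : ∀ t ∈ Icc (0 : ℝ) 1, u t = u t₀ →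
      ∀ᶠ r in 𝓝 t, r ∈ Icc (0 : ℝ) 1 → HasDerivAt u 0 r) :
    ∀ t ∈ Icc (0 : ℝ) 1, u t = u t₀ := by
  have hclopen : IsClopen {t : Icc (0 : ℝ) 1 | u t = u t₀} := by
    have hcont : Continuous fun t : Icc (0 : ℝ) 1 => u t := by
      rw [continuous_iff_continuousAt]
      intro t
      exact ContinuousAt.comp (g := u) (hu t t.2) continuous_subtype_val.continuousAt
    refine ⟨isClosed_eq hcont continuous_const, ?_⟩
    rw [isOpen_iff_mem_nhds]
    intro t ht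
    have ht' : u t = u t₀ := ht
    obtain ⟨ε, hε, hball⟩ := Metric.eventually_nhds_iff_ball.1 (hu' t t.2 ht')
    have h2 : ∀ᶠ r : Icc (0 : ℝ) 1 in 𝓝 t, (r : ℝ) ∈ Metric.ball (t : ℝ) ε :=
      continuous_subtype_val.continuousAt.eventually (Metric.ball_mem_nhds _ hε)
    filter_upwards [h2] with r hr
    show u r = u t₀
    rw [← ht']
    refine Iso_808.eq_of_hasDerivAt_zero fun q hq => ?_
    have hq1 : q ∈ Icc (0 : ℝ) 1 := (convex_Icc (0 : ℝ) 1).ordConnected.uIcc_subset t.2 r.2 hq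
    refine hball q ?_ hq1
    rw [Metric.mem_ball, Real.dist_eq] at hr ⊢
    exact lt_of_le_of_lt (abs_sub_left_of_mem_uIcc hq) hr
  have huniv := hclopen.eq_univ ⟨⟨t₀, ht₀⟩, rfl⟩
  intro t ht
  have : (⟨t, ht⟩ : Icc (0 : ℝ) 1) ∈ {t : Icc (0 : ℝ) 1 | u t = u t₀} := by
    rw [huniv]; trivial
  exact this

section Isotopy

variable [FiniteDimensional ℝ E] {H : ℝ × E → ℂ}

/-- the space derivative and the time derivative, as a linear function of the derivative -/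
def split : (ℝ × E →L[ℝ] ℂ) →L[ℝ] (E →L[ℝ] ℂ) × ℂ :=
  ((ContinuousLinearMap.compL ℝ E (ℝ × E) ℂ).flip (ContinuousLinearMap.inr ℝ ℝ E)).prod
    (ContinuousLinearMap.apply ℝ ℂ ((1 : ℝ), (0 : E)))

theorem split_fst (A : ℝ × E →L[ℝ] ℂ) (y : E) : (split A).1 y = A (0, y) := by
  simp [split]

theorem split_snd (A : ℝ × E →L[ℝ] ℂ) : (split A).2 = A (1, 0) := by
  simp [split]

/-- invertibility of the Gram operator -/
def Good (A : E →L[ℝ] ℂ) : Prop :=
  ∃ e : (ℂ →L[ℝ] ℝ) ≃L[ℝ] ℂ, (e : (ℂ →L[ℝ] ℝ) →L[ℝ] ℂ) = gram A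

/-- the field -/
def vf (θ : ℝ) (A : E →L[ℝ] ℂ) (b : ℂ) : E := -(θ • rinv A b)

theorem contDiffAt_vf {q : ((E →L[ℝ] ℂ) × ℂ) × ℝ} (h : Good q.1.1) :
    ContDiffAt ℝ 1 (fun q : ((E →L[ℝ] ℂ) × ℂ) × ℝ => vf q.2 q.1.1 q.1.2) q := by
  unfold vf
  have h1 : ContDiffAt ℝ 1 (fun q : ((E →L[ℝ] ℂ) × ℂ) × ℝ => q.1.1) q :=
    contDiffAt_fst.fst
  have h2 : ContDiffAt ℝ 1 (fun q : ((E →L[ℝ] ℂ) × ℂ) × ℝ => rinv q.1.1) q :=
    ContDiffAt.comp (g := rinv) (f := fun q : ((E →L[ℝ] ℂ) × ℂ) × ℝ => q.1.1) q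
      (contDiffAt_rinv h) h1
  exact (contDiffAt_snd.smul (h2.clm_apply contDiffAt_fst.snd)).neg

theorem vf_spec {A : E →L[ℝ] ℂ} (h : Good A) (b : ℂ) : A (vf 1 A b) = -b := by
  unfold vf
  rw [one_smul, map_neg, rinv_spec h]

theorem vf_zero (θ : ℝ) (A : E →L[ℝ] ℂ) : vf θ A 0 = 0 := by
  unfold vf
  rw [map_zero, smul_zero, neg_zero]

/-- **isotopy of a path in `M⁻`** -/
theorem MP.isotopy (hH : MP H) :
    ∃ Φ : ℝ → (E ≃ₜ E), (∀ x, Φ 0 x = x) ∧
      (Continuous fun p : ℝ × E => Φ p.1 p.2) ∧ (Continuous fun p : ℝ × E => (Φ p.1).symm p.2) ∧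
      (∀ t (r : ℝ), 0 < r → ∀ x, Φ t (r • x) = r • Φ t x) ∧ (∀ t, Φ t 0 = 0) ∧
      (∀ x, ∀ s ∈ Icc (0 : ℝ) 1, ∀ t ∈ Icc (0 : ℝ) 1, H (s, Φ s x) ∉ Neg →
        H (t, Φ t x) = H (s, Φ s x)) ∧
      (∀ x, (∀ t ∈ Icc (0 : ℝ) 1, fderiv ℝ H (t, x) (1, 0) = 0) → ∀ t, Φ t x = x) := by
  classical
  have : ProperSpace E := FiniteDimensional.proper_real E
  set Q : Set (ℝ × E) := Icc (0 : ℝ) 1 ×ˢ sphere (0 : E) 1 with hQ
  have hQc : IsCompact Q := isCompact_Icc.prod (isCompact_sphere _ _)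
  have hQsub : Q ⊆ Icc (0 : ℝ) 1 ×ˢ (univ : Set E) := fun p hp => ⟨hp.1, mem_univ _⟩
  have hQ0 : ∀ p ∈ Q, p.2 ≠ 0 := by
    intro p hp h0
    have h1 : ‖p.2‖ = 1 := by simpa using hp.2
    rw [h0, norm_zero] at h1
    exact zero_ne_one h1
  have hHc : ContinuousOn H Q := fun p hp =>
    (hH.diff p.1 hp.1 p.2).continuousAt.continuousWithinAt
  have hlip : LocallyLipschitzOn Q (fderiv ℝ H) := hH.lip.mono hQsub
  -- the set of singular points and the set of values outside `Neg`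
  let good : Set (E →L[ℝ] ℂ) := {A | Good A}
  have hgo : IsOpen good := isOpen_good
  have hAc : ContinuousOn (fun p => (split (fderiv ℝ H p)).1) Q := by
    have h1 : Continuous fun A : ℝ × E →L[ℝ] ℂ => (split A).1 :=
      continuous_fst.comp (split (E := E)).continuous
    exact h1.comp_continuousOn hlip.continuousOn
  obtain ⟨U₁, hU₁, hU₁'⟩ := continuousOn_iff'.1 hAc good hgo
  obtain ⟨U₂, hU₂, hU₂'⟩ := continuousOn_iff'.1 hHc Neg isOpen_Neg
  set S : Set (ℝ × E) := Q \ U₁ with hS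
  set F : Set (ℝ × E) := Q \ U₂ with hF
  have hSc : IsCompact S := hQc.diff hU₁
  have hFc : IsCompact F := hQc.diff hU₂
  have hSgood : ∀ p ∈ Q, p ∉ S → Good (split (fderiv ℝ H p)).1 := by
    intro p hp hpS
    have h1 : p ∈ U₁ := by
      by_contra h
      exact hpS ⟨hp, h⟩
    have h2 : p ∈ (fun p => (split (fderiv ℝ H p)).1) ⁻¹' good ∩ Q := by
      rw [hU₁']; exact ⟨h1, hp⟩
    exact h2.1
  have hFN : ∀ p ∈ Q, H p ∉ Neg → p ∈ F := by
    intro p hp h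
    refine ⟨hp, fun h1 => h ?_⟩
    have h2 : p ∈ H ⁻¹' Neg ∩ Q := by rw [hU₂']; exact ⟨h1, hp⟩
    exact h2.1
  have hdisj : Disjoint F S := by
    rw [Set.disjoint_left]
    intro p hpF hpS
    have h1 : H p ∉ Neg := by
      intro h
      have h2 : p ∈ H ⁻¹' Neg ∩ Q := ⟨h, hpF.1⟩
      rw [hU₂'] at h2
      exact hpF.2 h2.1
    have h3 := (hH.reg p.1 hpF.1.1 p.2 (hQ0 p hpF.1)).resolve_right h1
    have h4 : Good (split (fderiv ℝ H p)).1 := by
      refine gram_invertible fun b => ?_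
      obtain ⟨y, hy⟩ := h3 b
      exact ⟨y, by rw [split_fst]; exact hy⟩
    have h5 : p ∈ (fun p => (split (fderiv ℝ H p)).1) ⁻¹' good ∩ Q := ⟨h4, hpF.1⟩
    rw [hU₁'] at h5
    exact hpS.2 h5.1
  obtain ⟨δ, hδ, hδd⟩ := hdisj.exists_cthickenings hFc hSc.isClosed
  have hη : 0 < δ / 2 := half_pos hδ
  let θ : ℝ × E → ℝ := fun p => (thickenedIndicator hη (thickening (δ / 2) F) p : ℝ)
  have hθ1 : ∀ p ∈ thickening (δ / 2) F, θ p = 1 := by
    intro p hp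
    have := thickenedIndicator_one hη (thickening (δ / 2) F) hp
    show ((thickenedIndicator hη (thickening (δ / 2) F) p : ℝ≥0) : ℝ) = 1
    rw [this]; rfl
  have hθ0 : ∀ p ∈ thickening δ S, θ p = 0 := by
    intro p hp
    have h1 : p ∉ thickening (δ / 2) (thickening (δ / 2) F) := by
      intro h
      have h2 := thickening_thickening_subset (δ / 2) (δ / 2) F h
      rw [add_halves] at h2
      exact Set.disjoint_left.1 hδd (thickening_subset_cthickening _ _ h2)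
        (thickening_subset_cthickening _ _ hp)
    have := thickenedIndicator_zero hη (thickening (δ / 2) F) h1
    show ((thickenedIndicator hη (thickening (δ / 2) F) p : ℝ≥0) : ℝ) = 0
    rw [this]; rfl
  have hθlip : LipschitzWith (δ / 2).toNNReal⁻¹ θ := by
    have h1 := lipschitzWith_thickenedIndicator hη (thickening (δ / 2) F)
    intro p q
    exact h1 p q
  -- the field on `Q`
  let W : ℝ × E → E := fun p => vf (θ p) (split (fderiv ℝ H p)).1 (split (fderiv ℝ H p)).2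
  have hWlip : LocallyLipschitzOn Q W := by
    intro p hp
    by_cases hpS : p ∈ thickening δ S
    · refine ⟨0, Q ∩ thickening δ S, inter_mem self_mem_nhdsWithin
        (mem_nhdsWithin_of_mem_nhds (isOpen_thickening.mem_nhds hpS)), ?_⟩
      have h0 : ∀ q ∈ Q ∩ thickening δ S, W q = 0 := by
        intro q hq
        show vf (θ q) _ _ = 0
        rw [hθ0 q hq.2]
        simp [vf]
      intro q hq q' hq'
      rw [h0 q hq, h0 q' hq']
      simp
    · have hpS' : p ∉ S := fun h => hpS (self_subset_thickening hδ S h)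
      have hg := hSgood p hp hpS'
      obtain ⟨K₁, T₁, hT₁, hL₁⟩ := (contDiffAt_vf (E := E)
        (q := (split (fderiv ℝ H p), θ p)) hg).exists_lipschitzOnWith
      obtain ⟨K₂, T₂, hT₂, hL₂⟩ := hlip hp
      have hL₃ : LipschitzOnWith (max (‖(split (E := E))‖₊ * K₂) (δ / 2).toNNReal⁻¹)
          (fun q => (split (fderiv ℝ H q), θ q)) T₂ := by
        have h1 := (split (E := E)).lipschitz.comp_lipschitzOnWith hL₂
        exact h1.prodMk hθlip.lipschitzOnWith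
      have hcont : ContinuousWithinAt (fun q => (split (fderiv ℝ H q), θ q)) Q p :=
        ((split (E := E)).continuous.continuousAt.comp_continuousWithinAt
          (hlip.continuousOn p hp)).prodMk hθlip.continuous.continuousWithinAt
      have hpre := hcont.preimage_mem_nhdsWithin hT₁
      refine ⟨K₁ * max (‖(split (E := E))‖₊ * K₂) (δ / 2).toNNReal⁻¹,
        T₂ ∩ ((fun q => (split (fderiv ℝ H q), θ q)) ⁻¹' T₁), inter_mem hT₂ hpre, ?_⟩
      exact hL₁.comp (hL₃.mono inter_subset_left) fun q hq => hq.2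
  obtain ⟨C, hC⟩ := hWlip.exists_lipschitzOnWith_of_compact hQc
  obtain ⟨Φ, hΦ0, hΦs, hΦc, hΦc', hΦh, hΦz, hΦu⟩ := exists_hflow (W := W) hC
  have hunit : ∀ {t : ℝ} {x : E}, t ∈ Icc (0 : ℝ) 1 → x ≠ 0 → (t, ‖x‖⁻¹ • x) ∈ Q :=
    fun ht hx => ⟨ht, by rw [mem_sphere_zero_iff_norm]; exact norm_unit hx⟩
  have hback : ∀ x : E, x ≠ 0 → ‖x‖ • (‖x‖⁻¹ • x) = x := by
    intro x hx
    rw [smul_smul, mul_inv_cancel₀ (norm_ne_zero_iff.2 hx), one_smul]
  -- the derivative along the field vanishes near `F`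
  have hzero : ∀ {t : ℝ} {x : E}, t ∈ Icc (0 : ℝ) 1 → x ≠ 0 →
      (t, ‖x‖⁻¹ • x) ∈ thickening (δ / 2) F → fderiv ℝ H (t, x) (1, hext W t x) = 0 := by
    intro t x ht hx hth
    have hp := hunit ht hx
    have hnS : (t, ‖x‖⁻¹ • x) ∉ S := by
      intro h
      refine Set.disjoint_left.1 hδd ?_ (self_subset_cthickening S h)
      exact thickening_subset_cthickening_of_le (by linarith) _ hth
    have hg := hSgood _ hp hnS
    have h1 := hH.fderiv_hom ht (norm_pos_iff.2 hx) (‖x‖⁻¹ • x) 1 (W (t, ‖x‖⁻¹ • x))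
    rw [hback x hx] at h1
    rw [hext_of_mem W ht, h1]
    have h2 : fderiv ℝ H (t, ‖x‖⁻¹ • x) (1, W (t, ‖x‖⁻¹ • x)) = 0 := by
      have h3 : ((1 : ℝ), W (t, ‖x‖⁻¹ • x)) = (1, 0) + (0, W (t, ‖x‖⁻¹ • x)) := by simp
      rw [h3, map_add, ← split_snd, ← split_fst]
      have h4 : W (t, ‖x‖⁻¹ • x) = vf 1 (split (fderiv ℝ H (t, ‖x‖⁻¹ • x))).1
          (split (fderiv ℝ H (t, ‖x‖⁻¹ • x))).2 := by
        show vf (θ _) _ _ = _
        rw [hθ1 _ hth]
      rw [h4, vf_spec hg, add_neg_cancel]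
    rw [h2, smul_zero]
  refine ⟨Φ, hΦ0, hΦc, hΦc', hΦh, hΦz, fun x s hs t ht hN => ?_, fun x hx t => ?_⟩
  · by_cases hx : x = 0
    · subst hx
      rw [hΦz, hΦz, hH.zero hs, hH.zero ht]
    have hne : ∀ r, Φ r x ≠ 0 := by
      intro r h
      exact hx ((Φ r).injective (by rw [h, hΦz]))
    have hder : ∀ r ∈ Icc (0 : ℝ) 1, HasDerivAt (fun r => H (r, Φ r x))
        (fderiv ℝ H (r, Φ r x) (1, hext W r (Φ r x))) r := by
      intro r hr
      have h1 := (hH.diff r hr (Φ r x)).hasFDerivAt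
      exact h1.comp_hasDerivAt r ((hasDerivAt_id r).prodMk (hΦs x r))
    refine const_of (u := fun r => H (r, Φ r x)) hs (fun r hr => (hder r hr).continuousAt) ?_ t ht
    intro r hr hrs
    have h1 : H (r, Φ r x) ∉ Neg := by
      have h2 : H (r, Φ r x) = H (s, Φ s x) := hrs
      rw [h2]; exact hN
    have h2 : (r, ‖Φ r x‖⁻¹ • Φ r x) ∈ F := by
      refine hFN _ (hunit hr (hne r)) fun h => h1 ?_
      have h3 := hH.hom r hr ‖Φ r x‖ (norm_pos_iff.2 (hne r)) (‖Φ r x‖⁻¹ • Φ r x)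
      rw [hback _ (hne r)] at h3
      rw [h3, Neg_smul (by have := norm_pos_iff.2 (hne r); positivity)]
      exact h
    have hc1 : Continuous fun r => Φ r x :=
      hΦc.comp (by fun_prop : Continuous fun r : ℝ => (r, x))
    have hc2 : Continuous fun r => (r, ‖Φ r x‖⁻¹ • Φ r x) := by
      refine continuous_id.prodMk (Continuous.smul (Continuous.inv₀ hc1.norm ?_) hc1)
      intro r
      exact norm_ne_zero_iff.2 (hne r)
    have h3 := hc2.continuousAt.eventually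
      (isOpen_thickening.mem_nhds (self_subset_thickening hη F h2))
    filter_upwards [h3] with q hq hqI
    have h4 := hder q hqI
    rwa [hzero hqI (hne q) hq] at h4
  · have h1 : Sol (hext W) fun _ : ℝ => x := by
      intro t
      have h2 : hext W t x = 0 := by
        by_cases hx0 : x = 0
        · rw [hx0, hext_zero]
        have hτ := (projIcc (0 : ℝ) 1 zero_le_one t).2
        have h3 : (split (fderiv ℝ H ((projIcc (0 : ℝ) 1 zero_le_one t : ℝ), ‖x‖⁻¹ • x))).2 = 0 := by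
          rw [split_snd]
          have h4 := hH.fderiv_hom hτ (norm_pos_iff.2 hx0) (‖x‖⁻¹ • x) 1 0
          rw [hback x hx0, smul_zero, hx _ hτ] at h4
          exact (smul_eq_zero.1 h4.symm).resolve_left
            (pow_ne_zero 2 (norm_ne_zero_iff.2 hx0))
        unfold hext
        show ‖x‖ • vf _ _ _ = 0
        rw [h3, vf_zero, smul_zero]
      rw [h2]
      exact hasDerivAt_const t x
    exact (hΦu _ h1 t).symm

end Isotopy

end Crest.Agent.R267.Mneg_951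
end
end

-- ▼ part R267/MnegB_951
section

/-!
# Row 267 (helper951): the class `M⁻`, part 2: ends of a path, level sets, sums, `C²` off `0`
-/

set_option autoImplicit false
set_option linter.unusedSectionVars false

noncomputable section

open Set Filter Topology Metric
open scoped NNReal ContDiff
open Crest.Agent.R267.Reg_808 Crest.Agent.R267.FlowG_951

namespace Crest.Agent.R267.Mneg_951

variable {E : Type*} [NormedAddCommGroup E] [NormedSpace ℝ E]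
variable {E' : Type*} [NormedAddCommGroup E'] [NormedSpace ℝ E']

/-! ### ends of a path -/




theorem MP.exists_homeo [FiniteDimensional ℝ E] {H : ℝ × E → ℂ} (hH : MP H) :
    ∃ h : E ≃ₜ E, (∀ r : ℝ, 0 < r → ∀ x, h (r • x) = r • h x) ∧ h 0 = 0 ∧
      (∀ x, (H (0, x) ∉ Neg ∨ H (1, h x) ∉ Neg) → H (1, h x) = H (0, x)) ∧
      (∀ x, (∀ t ∈ Icc (0 : ℝ) 1, fderiv ℝ H (t, x) (1, 0) = 0) → h x = x) := by
  obtain ⟨Φ, h0, -, -, hh, hz, hN, hfix⟩ := hH.isotopy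
  have m0 : (0 : ℝ) ∈ Icc (0 : ℝ) 1 := by simp
  have m1 : (1 : ℝ) ∈ Icc (0 : ℝ) 1 := by simp
  refine ⟨Φ 1, hh 1, hz 1, fun x hx => ?_, fun x hx => hfix x hx 1⟩
  rcases hx with hx | hx
  · have := hN x 0 m0 1 m1 (by rwa [h0])
    rwa [h0] at this
  · have := hN x 1 m1 0 m0 hx
    rw [h0] at this
    exact this.symm

/-- zero set and page -/
theorem zero_iff_of {H : ℝ × E → ℂ} {h : E → E}
    (hN : ∀ x, (H (0, x) ∉ Neg ∨ H (1, h x) ∉ Neg) → H (1, h x) = H (0, x)) (x : E) :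
    H (1, h x) = 0 ↔ H (0, x) = 0 := by
  constructor
  · intro h1
    rw [← hN x (Or.inr (by rw [h1]; exact zero_notMem_Neg)), h1]
  · intro h1
    rw [hN x (Or.inl (by rw [h1]; exact zero_notMem_Neg)), h1]


/-! ### level sets of homogeneous radii -/

/-- a homogeneous radius -/
structure Radius (ρ : E → ℝ) : Prop where
  cont : Continuous ρ
  hom : ∀ r : ℝ, 0 < r → ∀ x, ρ (r • x) = r * ρ x
  pos : ∀ x, x ≠ 0 → 0 < ρ x

theorem Radius.norm : Radius (fun x : E => ‖x‖) :=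
  ⟨continuous_norm, fun r hr x => by rw [norm_smul, Real.norm_of_nonneg hr.le],
    fun x hx => norm_pos_iff.2 hx⟩

theorem Radius.zero {ρ : E → ℝ} (h : Radius ρ) : ρ 0 = 0 := by
  have h1 := h.hom 2 two_pos 0
  rw [smul_zero] at h1
  linarith

theorem Radius.ne_zero {ρ : E → ℝ} (h : Radius ρ) {x : E} (hx : ρ x = 1) : x ≠ 0 := by
  rintro rfl
  rw [h.zero] at hx
  exact zero_ne_one hx




/-! ### sums -/

section Sum

variable {H : ℝ × E → ℂ} {H' : ℝ × E' → ℂ}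

/-- sum with separated variables -/
def osum (H : ℝ × E → ℂ) (H' : ℝ × E' → ℂ) (p : ℝ × E × E') : ℂ :=
  H (p.1, p.2.1) + H' (p.1, p.2.2)

/-- first projection -/
def pr₁ : ℝ × E × E' →L[ℝ] ℝ × E :=
  (ContinuousLinearMap.fst ℝ ℝ (E × E')).prod
    ((ContinuousLinearMap.fst ℝ E E').comp (ContinuousLinearMap.snd ℝ ℝ (E × E')))

/-- second projection -/
def pr₂ : ℝ × E × E' →L[ℝ] ℝ × E' :=
  (ContinuousLinearMap.fst ℝ ℝ (E × E')).prod
    ((ContinuousLinearMap.snd ℝ E E').comp (ContinuousLinearMap.snd ℝ ℝ (E × E')))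



theorem hasFDerivAt_osum (hH : MP H) (hH' : MP H') {t : ℝ} (ht : t ∈ Icc (0 : ℝ) 1) (x : E)
    (y : E') : HasFDerivAt (osum H H')
      ((fderiv ℝ H (t, x)).comp pr₁ + (fderiv ℝ H' (t, y)).comp pr₂) (t, x, y) := by
  have h1 : HasFDerivAt H (fderiv ℝ H (t, x)) (pr₁ (t, x, y)) := (hH.diff t ht x).hasFDerivAt
  have h2 : HasFDerivAt H' (fderiv ℝ H' (t, y)) (pr₂ (t, x, y)) := (hH'.diff t ht y).hasFDerivAt
  exact (h1.comp (t, x, y) (pr₁ (E := E) (E' := E')).hasFDerivAt).add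
    (h2.comp (t, x, y) (pr₂ (E := E) (E' := E')).hasFDerivAt)

/-- **sums of paths in `M⁻`** -/
theorem MP.sum (hH : MP H) (hH' : MP H') : MP (osum H H') where
  diff := fun t ht p => (hasFDerivAt_osum hH hH' ht p.1 p.2).differentiableAt
  lip := by
    rintro ⟨t, x, y⟩ ⟨ht, -⟩
    obtain ⟨K₁, T₁, hT₁, hL₁⟩ := hH.lip (x := (t, x)) ⟨ht, mem_univ _⟩
    obtain ⟨K₂, T₂, hT₂, hL₂⟩ := hH'.lip (x := (t, y)) ⟨ht, mem_univ _⟩
    let C₁ : (ℝ × E →L[ℝ] ℂ) →L[ℝ] (ℝ × E × E' →L[ℝ] ℂ) :=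
      (ContinuousLinearMap.compL ℝ (ℝ × E × E') (ℝ × E) ℂ).flip pr₁
    let C₂ : (ℝ × E' →L[ℝ] ℂ) →L[ℝ] (ℝ × E × E' →L[ℝ] ℂ) :=
      (ContinuousLinearMap.compL ℝ (ℝ × E × E') (ℝ × E') ℂ).flip pr₂
    have hc₁ : ContinuousWithinAt (pr₁ (E := E) (E' := E')) (Icc (0 : ℝ) 1 ×ˢ univ) (t, x, y) :=
      (pr₁ (E := E) (E' := E')).continuous.continuousWithinAt
    have hc₂ : ContinuousWithinAt (pr₂ (E := E) (E' := E')) (Icc (0 : ℝ) 1 ×ˢ univ) (t, x, y) :=
      (pr₂ (E := E) (E' := E')).continuous.continuousWithinAt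
    have hm₁ : MapsTo (pr₁ (E := E) (E' := E')) (Icc (0 : ℝ) 1 ×ˢ univ) (Icc (0 : ℝ) 1 ×ˢ univ) :=
      fun p hp => ⟨hp.1, mem_univ _⟩
    have hm₂ : MapsTo (pr₂ (E := E) (E' := E')) (Icc (0 : ℝ) 1 ×ˢ univ) (Icc (0 : ℝ) 1 ×ˢ univ) :=
      fun p hp => ⟨hp.1, mem_univ _⟩
    have hp₁ := (hc₁.tendsto_nhdsWithin hm₁) hT₁
    have hp₂ := (hc₂.tendsto_nhdsWithin hm₂) hT₂
    have hl₁ := C₁.lipschitz.comp_lipschitzOnWith
      (hL₁.comp (pr₁ (E := E) (E' := E')).lipschitz.lipschitzOnWith (mapsTo_preimage _ _))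
    have hl₂ := C₂.lipschitz.comp_lipschitzOnWith
      (hL₂.comp (pr₂ (E := E) (E' := E')).lipschitz.lipschitzOnWith (mapsTo_preimage _ _))
    refine ⟨‖C₁‖₊ * (K₁ * ‖(pr₁ (E := E) (E' := E'))‖₊) +
        ‖C₂‖₊ * (K₂ * ‖(pr₂ (E := E) (E' := E'))‖₊),
      (Icc (0 : ℝ) 1 ×ˢ univ) ∩ ((pr₁ ⁻¹' T₁) ∩ (pr₂ ⁻¹' T₂)),
      inter_mem self_mem_nhdsWithin (inter_mem hp₁ hp₂), ?_⟩
    have h := ((hl₁.mono (inter_subset_left (s := pr₁ ⁻¹' T₁) (t := pr₂ ⁻¹' T₂))).add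
      (hl₂.mono (inter_subset_right (s := pr₁ ⁻¹' T₁) (t := pr₂ ⁻¹' T₂)))).mono
        (inter_subset_right (s := Icc (0 : ℝ) 1 ×ˢ univ))
    intro p hp q hq
    have e : ∀ p ∈ (Icc (0 : ℝ) 1 ×ˢ (univ : Set (E × E'))), fderiv ℝ (osum H H') p =
        C₁ (fderiv ℝ H (pr₁ p)) + C₂ (fderiv ℝ H' (pr₂ p)) := fun p hp =>
      (hasFDerivAt_osum hH hH' hp.1 p.2.1 p.2.2).fderiv
    rw [e p hp.1, e q hq.1]
    exact h hp hq
  hom := fun t ht r hr p => by
    unfold osum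
    rw [smul_add]
    exact congrArg₂ (· + ·) (hH.hom t ht r hr p.1) (hH'.hom t ht r hr p.2)
  reg := by
    rintro t ht ⟨x, y⟩ hxy
    have hd := (hasFDerivAt_osum hH hH' ht x y).fderiv
    have on₁ : (∀ b : ℂ, ∃ v : E, fderiv ℝ H (t, x) (0, v) = b) →
        ∀ b : ℂ, ∃ v : E × E', fderiv ℝ (osum H H') (t, x, y) (0, v) = b := by
      intro h b
      obtain ⟨v, hv⟩ := h b
      refine ⟨(v, 0), ?_⟩
      rw [hd]
      have h0 : fderiv ℝ H' (t, y) (0, 0) = 0 := map_zero (fderiv ℝ H' (t, y))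
      show fderiv ℝ H (t, x) (0, v) + fderiv ℝ H' (t, y) (0, 0) = b
      rw [hv, h0, add_zero]
    have on₂ : (∀ b : ℂ, ∃ v : E', fderiv ℝ H' (t, y) (0, v) = b) →
        ∀ b : ℂ, ∃ v : E × E', fderiv ℝ (osum H H') (t, x, y) (0, v) = b := by
      intro h b
      obtain ⟨v, hv⟩ := h b
      refine ⟨(0, v), ?_⟩
      rw [hd]
      have h0 : fderiv ℝ H (t, x) (0, 0) = 0 := map_zero (fderiv ℝ H (t, x))
      show fderiv ℝ H (t, x) (0, 0) + fderiv ℝ H' (t, y) (0, v) = b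
      rw [hv, h0, zero_add]
    by_cases hx : x = 0
    · have hy : y ≠ 0 := fun h => hxy (by rw [hx, h]; rfl)
      rcases hH'.reg t ht y hy with h | h
      · exact Or.inl (on₂ h)
      · right
        show H (t, x) + H' (t, y) ∈ Neg
        rw [hx, hH.zero ht, zero_add]
        exact h
    · rcases hH.reg t ht x hx with h | h
      · exact Or.inl (on₁ h)
      · by_cases hy : y = 0
        · right
          show H (t, x) + H' (t, y) ∈ Neg
          rw [hy, hH'.zero ht, add_zero]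
          exact h
        · rcases hH'.reg t ht y hy with h' | h'
          · exact Or.inl (on₂ h')
          · exact Or.inr (Neg_add h h')

end Sum

end Crest.Agent.R267.Mneg_951
end
end

-- ▼ part R267/MnegC_951

/-!
# Row 267 (helper951): the class `M⁻`, part 3: `C²` off `0` and homogeneous of degree `2`
-/

set_option autoImplicit false
set_option linter.unusedSectionVars false

noncomputable section

open Set Filter Topology Metric
open scoped NNReal ContDiff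
open Crest.Agent.R267.Reg_808 Crest.Agent.R267.FlowG_951

namespace Crest.Agent.R267.Mneg_951

variable {E : Type*} [NormedAddCommGroup E] [NormedSpace ℝ E]

/-- the regularity part of the class: `C^{1,1}` and homogeneous of degree `2` -/
structure C11 (H : ℝ × E → ℂ) : Prop where
  diff : ∀ t ∈ Icc (0 : ℝ) 1, ∀ x, DifferentiableAt ℝ H (t, x)
  lip : LocallyLipschitzOn (Icc (0 : ℝ) 1 ×ˢ univ) (fderiv ℝ H)
  hom : ∀ t ∈ Icc (0 : ℝ) 1, ∀ r : ℝ, 0 < r → ∀ x, H (t, r • x) = (r ^ 2) • H (t, x)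


theorem C11.mp {H : ℝ × E → ℂ} (h : C11 H) (hreg : ∀ t ∈ Icc (0 : ℝ) 1, ∀ x, x ≠ 0 →
    (∀ b : ℂ, ∃ y : E, fderiv ℝ H (t, x) (0, y) = b) ∨ H (t, x) ∈ Neg) : MP H :=
  ⟨h.diff, h.lip, h.hom, hreg⟩

/-- the dilation `(t, x) ↦ (t, r x)` -/
def dil (r : ℝ) : ℝ × E →L[ℝ] ℝ × E :=
  (ContinuousLinearMap.fst ℝ ℝ E).prod (r • ContinuousLinearMap.snd ℝ ℝ E)

theorem dil_apply (r : ℝ) (p : ℝ × E) : dil r p = (p.1, r • p.2) := rfl

theorem dil_inv {r : ℝ} (hr : r ≠ 0) (p : ℝ × E) : dil r (dil r⁻¹ p) = p := by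
  rw [dil_apply, dil_apply, smul_smul, mul_inv_cancel₀ hr, one_smul]

theorem norm_dil_inv_le {r : ℝ} (hr : 0 < r) (hr1 : r ≤ 1) :
    ‖dil (E := E) r⁻¹‖ ≤ r⁻¹ := by
  refine ContinuousLinearMap.opNorm_le_bound _ (inv_nonneg.2 hr.le) fun p => ?_
  rw [dil_apply, Prod.norm_def]
  have h1 : 1 ≤ r⁻¹ := (one_le_inv₀ hr).2 hr1
  refine max_le ?_ ?_
  · calc ‖p.1‖ ≤ ‖p‖ := norm_fst_le p
      _ ≤ r⁻¹ * ‖p‖ := le_mul_of_one_le_left (norm_nonneg _) h1
  · rw [norm_smul, Real.norm_of_nonneg (inv_nonneg.2 hr.le)]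
    exact mul_le_mul_of_nonneg_left (norm_snd_le p) (inv_nonneg.2 hr.le)

section

variable {T : Set ℝ} {H : ℝ × E → ℂ}

/-- open half space -/
theorem isOpen_dom (hT : IsOpen T) : IsOpen (T ×ˢ ({0}ᶜ : Set E)) :=
  hT.prod isOpen_compl_singleton

theorem fderiv_dil (hT : IsOpen T) (hC : ContDiffOn ℝ 2 H (T ×ˢ {0}ᶜ))
    (hom : ∀ t ∈ T, ∀ r : ℝ, 0 < r → ∀ x, H (t, r • x) = (r ^ 2) • H (t, x)) {p : ℝ × E}
    (hp : p ∈ T ×ˢ ({0}ᶜ : Set E)) {r : ℝ} (hr : 0 < r) :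
    fderiv ℝ H (dil r p) = (r ^ 2) • (fderiv ℝ H p).comp (dil r⁻¹) := by
  have hop := isOpen_dom (E := E) hT
  have hp' : dil r p ∈ T ×ˢ ({0}ᶜ : Set E) := ⟨hp.1, smul_ne_zero hr.ne' hp.2⟩
  have h1 : HasFDerivAt (fun q => H (dil r q)) ((fderiv ℝ H (dil r p)).comp (dil r)) p := by
    have h2 : HasFDerivAt H (fderiv ℝ H (dil r p)) (dil r p) :=
      (((hC _ hp').contDiffAt (hop.mem_nhds hp')).differentiableAt (by norm_num)).hasFDerivAt
    exact h2.comp p (dil (E := E) r).hasFDerivAt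
  have h2 : HasFDerivAt (fun q => H (dil r q)) ((r ^ 2) • fderiv ℝ H p) p := by
    have h3 : HasFDerivAt (fun q => (r ^ 2) • H q) ((r ^ 2) • fderiv ℝ H p) p :=
      (((hC _ hp).contDiffAt (hop.mem_nhds hp)).differentiableAt
        (by norm_num)).hasFDerivAt.fun_const_smul (r ^ 2)
    refine h3.congr_of_eventuallyEq ?_
    filter_upwards [hop.mem_nhds hp] with q hq
    exact hom q.1 hq.1 r hr q.2
  have h3 := h1.unique h2
  refine ContinuousLinearMap.ext fun v => ?_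
  have h4 := congrArg (fun A : ℝ × E →L[ℝ] ℂ => A (dil r⁻¹ v)) h3
  simp only [ContinuousLinearMap.comp_apply, dil_inv hr.ne'] at h4
  rw [h4]
  rfl

/-- the second derivative is bounded near the origin -/
theorem fderiv2_dil (hT : IsOpen T) (hC : ContDiffOn ℝ 2 H (T ×ˢ {0}ᶜ))
    (hom : ∀ t ∈ T, ∀ r : ℝ, 0 < r → ∀ x, H (t, r • x) = (r ^ 2) • H (t, x)) {p : ℝ × E}
    (hp : p ∈ T ×ˢ ({0}ᶜ : Set E)) {r : ℝ} (hr : 0 < r) (hr1 : r ≤ 1) :
    ‖fderiv ℝ (fderiv ℝ H) (dil r p)‖ ≤ ‖fderiv ℝ (fderiv ℝ H) p‖ := by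
  have hop := isOpen_dom (E := E) hT
  have hp' : dil r p ∈ T ×ˢ ({0}ᶜ : Set E) := ⟨hp.1, smul_ne_zero hr.ne' hp.2⟩
  have hd : ∀ q ∈ T ×ˢ ({0}ᶜ : Set E), DifferentiableAt ℝ (fderiv ℝ H) q := fun q hq =>
    (((hC _ hq).contDiffAt (hop.mem_nhds hq)).fderiv_right (m := 1) (by norm_num)).differentiableAt
      (by norm_num)
  let R : (ℝ × E →L[ℝ] ℂ) →L[ℝ] (ℝ × E →L[ℝ] ℂ) :=
    (ContinuousLinearMap.compL ℝ (ℝ × E) (ℝ × E) ℂ).flip (dil r⁻¹)
  have hR : ∀ A, R A = A.comp (dil r⁻¹) := fun A => rfl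
  have h1 : HasFDerivAt (fun q => fderiv ℝ H (dil r q))
      ((fderiv ℝ (fderiv ℝ H) (dil r p)).comp (dil r)) p :=
    HasFDerivAt.comp (g := fderiv ℝ H) (f := fun q : ℝ × E => dil r q) p (hd _ hp').hasFDerivAt
      (dil (E := E) r).hasFDerivAt
  have h2 : HasFDerivAt (fun q => fderiv ℝ H (dil r q))
      ((r ^ 2) • (R.comp (fderiv ℝ (fderiv ℝ H) p))) p := by
    have h3 : HasFDerivAt (fun q => (r ^ 2) • R (fderiv ℝ H q))
        ((r ^ 2) • (R.comp (fderiv ℝ (fderiv ℝ H) p))) p :=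
      (R.hasFDerivAt.comp p (hd _ hp).hasFDerivAt).fun_const_smul (r ^ 2)
    refine h3.congr_of_eventuallyEq ?_
    filter_upwards [hop.mem_nhds hp] with q hq
    exact fderiv_dil hT hC hom hq hr
  have h3 := h1.unique h2
  have hn := norm_dil_inv_le (E := E) hr hr1
  refine ContinuousLinearMap.opNorm_le_bound _ (norm_nonneg (fderiv ℝ (fderiv ℝ H) p)) fun v => ?_
  have h4 : fderiv ℝ (fderiv ℝ H) (dil r p) v =
      (r ^ 2) • R (fderiv ℝ (fderiv ℝ H) p (dil r⁻¹ v)) := by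
    have h5 := congrArg (fun A : ℝ × E →L[ℝ] (ℝ × E →L[ℝ] ℂ) => A (dil r⁻¹ v)) h3
    simp only [ContinuousLinearMap.comp_apply, dil_inv hr.ne'] at h5
    rw [h5]
    rfl
  rw [h4, norm_smul, Real.norm_of_nonneg (by positivity), hR]
  have h5 : ‖(fderiv ℝ (fderiv ℝ H) p (dil r⁻¹ v)).comp (dil r⁻¹)‖ ≤
      ‖fderiv ℝ (fderiv ℝ H) p‖ * (r⁻¹ * ‖v‖) * r⁻¹ := by
    refine (ContinuousLinearMap.opNorm_comp_le _ _).trans ?_
    have h6 : ‖fderiv ℝ (fderiv ℝ H) p (dil r⁻¹ v)‖ ≤ ‖fderiv ℝ (fderiv ℝ H) p‖ * (r⁻¹ * ‖v‖) := by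
      refine (ContinuousLinearMap.le_opNorm _ _).trans ?_
      refine mul_le_mul_of_nonneg_left ?_ (norm_nonneg _)
      exact (ContinuousLinearMap.le_opNorm _ _).trans (mul_le_mul_of_nonneg_right hn (norm_nonneg _))
    have h7 : 0 ≤ r⁻¹ := inv_nonneg.2 hr.le
    exact mul_le_mul h6 hn (norm_nonneg _) (by positivity)
  calc r ^ 2 * ‖(fderiv ℝ (fderiv ℝ H) p (dil r⁻¹ v)).comp (dil r⁻¹)‖
      ≤ r ^ 2 * (‖fderiv ℝ (fderiv ℝ H) p‖ * (r⁻¹ * ‖v‖) * r⁻¹) := by gcongr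
    _ = ‖fderiv ℝ (fderiv ℝ H) p‖ * ‖v‖ := by field_simp

theorem fderiv_dil_le (hT : IsOpen T) (hC : ContDiffOn ℝ 2 H (T ×ˢ {0}ᶜ))
    (hom : ∀ t ∈ T, ∀ r : ℝ, 0 < r → ∀ x, H (t, r • x) = (r ^ 2) • H (t, x)) {p : ℝ × E}
    (hp : p ∈ T ×ˢ ({0}ᶜ : Set E)) {r : ℝ} (hr : 0 < r) (hr1 : r ≤ 1) :
    ‖fderiv ℝ H (dil r p)‖ ≤ r * ‖fderiv ℝ H p‖ := by
  rw [fderiv_dil hT hC hom hp hr, norm_smul, Real.norm_of_nonneg (by positivity)]
  have h1 := ContinuousLinearMap.opNorm_comp_le (fderiv ℝ H p) (dil r⁻¹)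
  have h2 := norm_dil_inv_le (E := E) hr hr1
  calc r ^ 2 * ‖(fderiv ℝ H p).comp (dil r⁻¹)‖ ≤ r ^ 2 * (‖fderiv ℝ H p‖ * r⁻¹) := by
        refine mul_le_mul_of_nonneg_left (h1.trans ?_) (by positivity)
        exact mul_le_mul_of_nonneg_left h2 (norm_nonneg _)
    _ = r * ‖fderiv ℝ H p‖ := by field_simp

/-- **`C²` off the origin and homogeneous of degree `2` implies `C^{1,1}`** -/
theorem C11.of_contDiffOn [FiniteDimensional ℝ E] (hT : IsOpen T) (hsub : Icc (0 : ℝ) 1 ⊆ T)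
    (hC : ContDiffOn ℝ 2 H (T ×ˢ {0}ᶜ))
    (hom : ∀ t ∈ T, ∀ r : ℝ, 0 < r → ∀ x, H (t, r • x) = (r ^ 2) • H (t, x)) : C11 H := by
  have : ProperSpace E := FiniteDimensional.proper_real E
  have hop := isOpen_dom (E := E) hT
  have hzero : ∀ t ∈ T, H (t, 0) = 0 := by
    intro t ht
    have h1 := hom t ht 2 two_pos 0
    rw [smul_zero] at h1
    have h2 : (3 : ℝ) • H (t, 0) = 0 := by
      have h3 : (3 : ℝ) • H (t, 0) = ((2 : ℝ) ^ 2) • H (t, 0) - H (t, 0) := by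
        have : (3 : ℝ) = 2 ^ 2 - 1 := by norm_num
        rw [this, sub_smul, one_smul]
      rw [h3, ← h1, sub_self]
    exact (smul_eq_zero.1 h2).resolve_left (by norm_num)
  have hCd : ∀ q ∈ T ×ˢ ({0}ᶜ : Set E), ContDiffAt ℝ 2 H q := fun q hq =>
    (hC _ hq).contDiffAt (hop.mem_nhds hq)
  have hCf : ∀ q ∈ T ×ˢ ({0}ᶜ : Set E), ContDiffAt ℝ 1 (fderiv ℝ H) q := fun q hq =>
    (hCd q hq).fderiv_right (m := 1) (by norm_num)
  -- bounds near `(t, 0)`
  have hloc : ∀ t ∈ Icc (0 : ℝ) 1, ∃ ε > 0, ε ≤ 1 ∧ ∃ M : ℝ, 0 ≤ M ∧ closedBall t ε ⊆ T ∧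
      ∀ s ∈ closedBall t ε, ∀ x : E, x ≠ 0 → ‖x‖ ≤ 1 → ‖H (s, x)‖ ≤ M * ‖x‖ ^ 2 ∧
        ‖fderiv ℝ H (s, x)‖ ≤ M * ‖x‖ ∧ ‖fderiv ℝ (fderiv ℝ H) (s, x)‖ ≤ M := by
    intro t ht
    obtain ⟨ε', hε', hball⟩ := Metric.isOpen_iff.1 hT t (hsub ht)
    set ε := min (ε' / 2) 1 with hε
    have hεpos : 0 < ε := lt_min (half_pos hε') one_pos
    have hcb : closedBall t ε ⊆ T := by
      refine Subset.trans (closedBall_subset_ball ?_) hball
      exact lt_of_le_of_lt (min_le_left _ _) (half_lt_self hε')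
    set Q : Set (ℝ × E) := closedBall t ε ×ˢ sphere (0 : E) 1 with hQ
    have hQc : IsCompact Q := (isCompact_closedBall _ _).prod (isCompact_sphere _ _)
    have hQs : Q ⊆ T ×ˢ ({0}ᶜ : Set E) := by
      intro p hp
      refine ⟨hcb hp.1, fun h0 => ?_⟩
      have h1 : ‖p.2‖ = 1 := by simpa using hp.2
      have h0' : p.2 = 0 := h0
      rw [h0', norm_zero] at h1
      exact zero_ne_one h1
    obtain ⟨M₀, hM₀⟩ := hQc.exists_bound_of_continuousOn (f := H)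
      fun p hp => (hCd p (hQs hp)).continuousAt.continuousWithinAt
    obtain ⟨M₁, hM₁⟩ := hQc.exists_bound_of_continuousOn (f := fderiv ℝ H)
      fun p hp => (hCf p (hQs hp)).continuousAt.continuousWithinAt
    obtain ⟨M₂, hM₂⟩ := hQc.exists_bound_of_continuousOn (f := fderiv ℝ (fderiv ℝ H))
      fun p hp => ((hCf p (hQs hp)).fderiv_right (m := 0) (by norm_num)).continuousAt.continuousWithinAt
    refine ⟨ε, hεpos, min_le_right _ _, max 0 (max M₀ (max M₁ M₂)), le_max_left _ _, hcb, ?_⟩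
    intro s hs x hx hx1
    have hn : 0 < ‖x‖ := norm_pos_iff.2 hx
    have hp : (s, ‖x‖⁻¹ • x) ∈ Q := ⟨hs, by
      rw [mem_sphere_zero_iff_norm]; exact norm_unit hx⟩
    have hback : dil ‖x‖ (s, ‖x‖⁻¹ • x) = (s, x) := by
      rw [dil_apply, smul_smul, mul_inv_cancel₀ hn.ne', one_smul]
    have e0 := hom s (hcb hs) ‖x‖ hn (‖x‖⁻¹ • x)
    rw [smul_smul, mul_inv_cancel₀ hn.ne', one_smul] at e0
    have e1 := fderiv_dil_le hT hC hom (hQs hp) hn hx1
    rw [hback] at e1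
    have e2 := fderiv2_dil hT hC hom (hQs hp) hn hx1
    rw [hback] at e2
    refine ⟨?_, ?_, ?_⟩
    · rw [e0, norm_smul, Real.norm_of_nonneg (by positivity), mul_comm]
      refine mul_le_mul_of_nonneg_right ((hM₀ _ hp).trans ?_) (by positivity)
      exact (le_max_left _ _).trans (le_max_right _ _)
    · refine e1.trans ?_
      rw [mul_comm]
      refine mul_le_mul_of_nonneg_right ((hM₁ _ hp).trans ?_) hn.le
      exact (le_max_left _ _).trans ((le_max_right _ _).trans (le_max_right _ _))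
    · refine (e2.trans (hM₂ _ hp)).trans ?_
      exact (le_max_right _ _).trans ((le_max_right _ _).trans (le_max_right _ _))
  -- the derivative at `(t, 0)`
  have hder0 : ∀ t ∈ Icc (0 : ℝ) 1, ∃ ε > 0, ∀ s ∈ ball t ε, HasFDerivAt H (0 : ℝ × E →L[ℝ] ℂ) (s, (0 : E)) := by
    intro t ht
    obtain ⟨ε, hε, hε1, M, hM, hcb, hb⟩ := hloc t ht
    refine ⟨ε, hε, fun s hs => ?_⟩
    rw [hasFDerivAt_iff_isLittleO_nhds_zero]
    have h1 : ∀ᶠ p : ℝ × E in 𝓝 0, ‖H ((s, (0 : E)) + p) - H (s, 0) - (0 : ℝ × E →L[ℝ] ℂ) p‖ ≤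
        M * ‖‖p‖ ^ 2‖ := by
      have h2 : ∀ᶠ p : ℝ × E in 𝓝 0, (s, (0 : E)) + p ∈ ball t ε ×ˢ ball (0 : E) 1 := by
        have h3 : ContinuousAt (fun p : ℝ × E => (s, (0 : E)) + p) 0 := by fun_prop
        refine h3.eventually (IsOpen.mem_nhds (isOpen_ball.prod isOpen_ball) ?_)
        show (s, (0 : E)) + 0 ∈ ball t ε ×ˢ ball (0 : E) 1
        rw [add_zero]
        exact ⟨hs, mem_ball_self one_pos⟩
      filter_upwards [h2] with p hp
      have hs' : s + p.1 ∈ closedBall t ε := ball_subset_closedBall hp.1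
      have hp2 : ‖p.2‖ ≤ 1 := by
        have := hp.2
        rw [mem_ball_zero_iff] at this
        simpa using this.le
      rw [hzero s (hcb (ball_subset_closedBall hs)), sub_zero]
      rw [show (0 : ℝ × E →L[ℝ] ℂ) p = 0 from rfl, sub_zero, norm_pow, norm_norm]
      have e : (s, (0 : E)) + p = (s + p.1, p.2) := by
        refine Prod.ext rfl ?_
        show 0 + p.2 = p.2
        rw [zero_add]
      rw [e]
      by_cases hx : p.2 = 0
      · rw [hx, hzero _ (hcb hs'), norm_zero]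
        positivity
      · refine ((hb _ hs' _ hx hp2).1).trans ?_
        exact mul_le_mul_of_nonneg_left (pow_le_pow_left₀ (norm_nonneg _) (norm_snd_le p) 2) hM
    have h2 := Asymptotics.IsBigO.of_bound M h1
    refine h2.trans_isLittleO ?_
    have h3 : (fun p : ℝ × E => ‖p‖ ^ 2) =o[𝓝 0] fun p => p :=
      Asymptotics.isLittleO_norm_pow_id one_lt_two
    exact h3
  refine ⟨fun t ht x => ?_, ?_, fun t ht => hom t (hsub ht)⟩
  · by_cases hx : x = 0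
    · obtain ⟨ε, hε, h⟩ := hder0 t ht
      rw [hx]
      exact (h t (mem_ball_self hε)).differentiableAt
    · exact (hCd (t, x) ⟨hsub ht, hx⟩).differentiableAt (by norm_num)
  · rintro ⟨t, x⟩ ⟨ht, -⟩
    by_cases hx : x = 0
    · subst hx
      obtain ⟨ε₁, hε₁, hε11, M, hM, hcb, hb⟩ := hloc t ht
      obtain ⟨ε₂, hε₂, h0⟩ := hder0 t ht
      set B : Set (ℝ × E) := ball t (min ε₁ ε₂) ×ˢ ball (0 : E) 1 with hB
      have hBn : B ∈ 𝓝 (t, (0 : E)) :=
        prod_mem_nhds (ball_mem_nhds _ (lt_min hε₁ hε₂)) (ball_mem_nhds _ one_pos)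
      have hBconv : Convex ℝ B := (convex_ball _ _).prod (convex_ball _ _)
      have hB1 : ∀ p ∈ B, p.1 ∈ closedBall t ε₁ := fun p hp =>
        ball_subset_closedBall (ball_subset_ball (min_le_left _ _) hp.1)
      have hB2 : ∀ p ∈ B, p.1 ∈ ball t ε₂ := fun p hp => ball_subset_ball (min_le_right _ _) hp.1
      have hB3 : ∀ p ∈ B, ‖p.2‖ ≤ 1 := fun p hp => by
        have := hp.2
        rw [mem_ball_zero_iff] at this
        exact this.le
      have hfz : ∀ p ∈ B, p.2 = 0 → fderiv ℝ H p = 0 := by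
        intro p hp hp0
        have : p = (p.1, (0 : E)) := Prod.ext rfl hp0
        rw [this]
        exact (h0 p.1 (hB2 p hp)).fderiv
      have hfb : ∀ p ∈ B, ‖fderiv ℝ H p‖ ≤ M * ‖p.2‖ := by
        intro p hp
        by_cases hp0 : p.2 = 0
        · rw [hfz p hp hp0, hp0]; simp
        · exact (hb p.1 (hB1 p hp) p.2 hp0 (hB3 p hp)).2.1
      refine ⟨Real.toNNReal M, B, mem_nhdsWithin_of_mem_nhds hBn, ?_⟩
      refine LipschitzOnWith.of_dist_le_mul fun p hp q hq => ?_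
      rw [dist_eq_norm, dist_eq_norm, Real.coe_toNNReal _ hM]
      by_cases hseg : ∃ c ∈ segment ℝ p q, c.2 = 0
      · obtain ⟨c, hc, hc0⟩ := hseg
        have h1 : ‖p.2‖ ≤ ‖p - c‖ := by
          have : p.2 = (p - c).2 := by rw [Prod.snd_sub, hc0, sub_zero]
          rw [this]; exact norm_snd_le _
        have h2 : ‖q.2‖ ≤ ‖c - q‖ := by
          have : ‖q.2‖ = ‖(c - q).2‖ := by rw [Prod.snd_sub, hc0, zero_sub, norm_neg]
          rw [this]; exact norm_snd_le _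
        have h3 := dist_add_dist_of_mem_segment hc
        rw [dist_eq_norm, dist_eq_norm, dist_eq_norm] at h3
        calc ‖fderiv ℝ H p - fderiv ℝ H q‖ ≤ ‖fderiv ℝ H p‖ + ‖fderiv ℝ H q‖ := norm_sub_le _ _
          _ ≤ M * ‖p.2‖ + M * ‖q.2‖ := add_le_add (hfb p hp) (hfb q hq)
          _ ≤ M * ‖p - c‖ + M * ‖c - q‖ := by gcongr
          _ = M * ‖p - q‖ := by rw [← mul_add, h3]
      · push Not at hseg
        have hsB : segment ℝ p q ⊆ B := hBconv.segment_subset hp hq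
        have h1 := (convex_segment p q).norm_image_sub_le_of_norm_hasFDerivWithin_le
          (𝕜 := ℝ) (f := fderiv ℝ H) (f' := fun c => fderiv ℝ (fderiv ℝ H) c) (C := M)
          (fun c hc => ((hCf c ⟨hcb (hB1 c (hsB hc)), hseg c hc⟩).differentiableAt
            (by norm_num)).hasFDerivAt.hasFDerivWithinAt)
          (fun c hc => (hb c.1 (hB1 c (hsB hc)) c.2 (hseg c hc) (hB3 c (hsB hc))).2.2)
          (right_mem_segment ℝ p q) (left_mem_segment ℝ p q)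
        exact h1
    · obtain ⟨K, S, hS, hL⟩ := (hCf (t, x) ⟨hsub ht, hx⟩).exists_lipschitzOnWith
      exact ⟨K, S, mem_nhdsWithin_of_mem_nhds hS, hL⟩

end

end Crest.Agent.R267.Mneg_951
end
namespace Crest.Agent.R267.Mneg_951.MP
end Crest.Agent.R267.Mneg_951.MP
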