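import Crest.Agent.R267.P4Defs_780

/-!
# Nested-level Seifert matrices of the S0406 pair (row 267, post 2012 (A))

`AF C R d`: matrix on the index set of pairs (level `k`, letter `u`), `2 ≤ k ≤ d`,
`A ((k,u),(l,v)) = [k ≤ l] L₀(u,v)`.
`Af`, `Ag`: the two official matrices of size 2010.
`isUnit_det_AF`: they are unimodular.  `cong_of_mul`: a square integral matrix `P` with
`Pᵀ A P = B`, `B` unimodular, gives `Cong ℤ A B`.
-/

set_option autoImplicit false

namespace Crest.Agent.R267.NL_330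

open Matrix

/-- letters of one level: `S a`, `O a` (hub), `X i`, `Y a i`, `Z a i` (arms). -/
inductive Lt
  | S (a : Fin 6) | O (a : Fin 6) | X (i : ℕ) | Y (a : Fin 6) (i : ℕ) | Z (a : Fin 6) (i : ℕ)
  deriving DecidableEq

/-- Seifert form of `D₆`: order of the Young diagram `(1,1),(1,2),(1,3),(1,4),(2,1),(2,2)`. -/
def LP : Matrix (Fin 6) (Fin 6) ℤ :=
  !![1,1,1,1,1,1; 0,1,1,1,0,1; 0,0,1,1,0,0; 0,0,0,1,0,0; 0,0,0,0,1,1; 0,0,0,0,0,1]

/-- core data: the `O`-`O` form `D` and the functional `w a = - L_P(a, g)`. -/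
structure Core where
  D : Matrix (Fin 6) (Fin 6) ℤ
  g : Fin 6 → ℤ

/-- core of `f`: `D_t = zeta - E_{(1,2),(2,2)}`, `g_t = (-1,1,0,0,0,-1)`. -/
def coreF : Core where
  D := !![1,1,1,1,1,1; 0,1,1,1,0,0; 0,0,1,1,0,0; 0,0,0,1,0,0; 0,0,0,0,1,1; 0,0,0,0,0,1]
  g := ![-1,1,0,0,0,-1]

/-- core of `g`: `D_s = zeta + 2 E_{(1,1),(1,4)} - E_{(1,4),(2,1)}`, `g_s = (1,0,-1,1,-1,1)`. -/
def coreG : Core where
  D := !![1,1,1,3,1,1; 0,1,1,1,0,1; 0,0,1,1,0,0; 0,0,0,1,-1,0; 0,0,0,0,1,1; 0,0,0,0,0,1]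
  g := ![1,0,-1,1,-1,1]

/-- the form of one level. -/
def L0 (C : Core) : Lt → Lt → ℤ
  | .S a, .O b => - LP a b
  | .O a, .S b => LP a b
  | .O a, .O b => C.D a b
  | .X i, .X j => if i ≤ j then 1 else 0
  | .Y a i, .Y b j => if i ≤ j then LP a b else 0
  | .Z a i, .Z b j => if i ≤ j then LP a b else 0
  | .X _, .O b => - ∑ c, LP b c * C.g c
  | .Y a _, .O b => - LP a b
  | .Z a _, .O b => - LP a b
  | _, _ => 0

/-- staircases of the three ends (index = level, starting with level 1). -/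
structure Rows where
  p : List ℕ
  q : List ℕ
  r : List ℕ

/-- entry `k` (1-based) of a staircase. -/
def at1 (l : List ℕ) (k : ℕ) : ℕ := l.getD (k - 1) 0

/-- `u` is a letter of level `k`. -/
def Pres (R : Rows) (k : ℕ) : Lt → Prop
  | .S _ => True
  | .O _ => True
  | .X i => 1 ≤ i ∧ i < at1 R.p k
  | .Y _ i => 1 ≤ i ∧ i < at1 R.q k
  | .Z _ i => 1 ≤ i ∧ i < at1 R.r k

instance (R : Rows) (k : ℕ) : DecidablePred (Pres R k) := fun u => by
  cases u <;> simp only [Pres] <;> infer_instance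

/-- membership in the index set. -/
def Mem (R : Rows) (d : ℕ) (x : ℕ × Lt) : Prop := 2 ≤ x.1 ∧ x.1 ≤ d ∧ Pres R x.1 x.2

instance (R : Rows) (d : ℕ) : DecidablePred (Mem R d) := fun x => by
  unfold Mem; infer_instance

/-- letters of level `k` as a list. -/
def lets (R : Rows) (k : ℕ) : List Lt :=
  (List.finRange 6).map Lt.S ++ ((List.finRange 6).map Lt.O ++
    ((List.range' 1 (at1 R.p k - 1)).map Lt.X ++
      ((List.range' 1 (at1 R.q k - 1)).flatMap (fun i => (List.finRange 6).map (fun a => Lt.Y a i)) ++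
        (List.range' 1 (at1 R.r k - 1)).flatMap (fun i => (List.finRange 6).map (fun a => Lt.Z a i)))))

theorem mem_lets (R : Rows) (k : ℕ) (u : Lt) : u ∈ lets R k ↔ Pres R k u := by
  unfold lets
  cases u <;> simp [Pres, List.mem_range'_1] <;> omega

/-- the index set as a list. -/
def idx (R : Rows) (d : ℕ) : List (ℕ × Lt) :=
  (List.range' 2 (d - 1)).flatMap (fun k => (lets R k).map (fun u => (k, u)))

theorem mem_idx (R : Rows) (d : ℕ) (x : ℕ × Lt) : x ∈ idx R d ↔ Mem R d x := by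
  obtain ⟨k, u⟩ := x
  unfold idx Mem
  simp only [List.mem_flatMap, List.mem_range'_1, List.mem_map, Prod.mk.injEq]
  constructor
  · rintro ⟨k', hk, u', hu, rfl, rfl⟩
    exact ⟨hk.1, by omega, (mem_lets R _ _).1 hu⟩
  · rintro ⟨h1, h2, h3⟩
    have h1' : 2 ≤ k := h1
    have h2' : k ≤ d := h2
    exact ⟨k, ⟨h1', by omega⟩, u, (mem_lets R _ _).2 h3, rfl, rfl⟩

theorem nodup_lets (R : Rows) (k : ℕ) : (lets R k).Nodup := by
  unfold lets
  have inj6 : (List.finRange 6).Nodup := List.nodup_finRange 6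
  have hS : ((List.finRange 6).map Lt.S).Nodup := inj6.map (fun a b h => by simpa using h)
  have hO : ((List.finRange 6).map Lt.O).Nodup := inj6.map (fun a b h => by simpa using h)
  have hX : ((List.range' 1 (at1 R.p k - 1)).map Lt.X).Nodup :=
    (List.nodup_range' (step := 1)).map (fun a b h => by simpa using h)
  have key : ∀ (f : Fin 6 → ℕ → Lt) (n : ℕ), (∀ a i b j, f a i = f b j → a = b ∧ i = j) →
      ((List.range' 1 n).flatMap (fun i => (List.finRange 6).map (fun a => f a i))).Nodup := by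
    intro f n hf
    rw [List.nodup_flatMap]
    refine ⟨fun i _ => inj6.map (fun a b h => (hf _ _ _ _ h).1), ?_⟩
    refine (List.nodup_range' (s := 1) (n := n) (step := 1)).imp ?_
    intro i j hij
    simp only [Function.onFun, List.disjoint_iff_ne, List.mem_map]
    rintro x ⟨a, _, rfl⟩ y ⟨b, _, rfl⟩ h
    exact hij (hf _ _ _ _ h).2
  have hY := key Lt.Y (at1 R.q k - 1) (fun a i b j h => by simpa using h)
  have hZ := key Lt.Z (at1 R.r k - 1) (fun a i b j h => by simpa using h)
  refine hS.append (hO.append (hX.append (hY.append hZ ?_) ?_) ?_) ?_ <;>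
    · simp only [List.disjoint_iff_ne]
      intro x hx y hy hxy
      subst hxy
      simp only [List.mem_map, List.mem_append, List.mem_flatMap] at hx hy
      aesop

theorem nodup_idx (R : Rows) (d : ℕ) : (idx R d).Nodup := by
  unfold idx
  rw [List.nodup_flatMap]
  refine ⟨fun k _ => (nodup_lets R k).map (fun u v h => by simpa using h), ?_⟩
  refine (List.nodup_range' (s := 2) (n := d - 1) (step := 1)).imp ?_
  intro i j hij
  simp only [Function.onFun, List.disjoint_iff_ne, List.mem_map]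
  rintro x ⟨a, _, rfl⟩ y ⟨b, _, rfl⟩ h
  exact hij (by simpa using congrArg Prod.fst h)

/-- the index type. -/
def Idx (R : Rows) (d : ℕ) : Type := {x : ℕ × Lt // Mem R d x}

instance (R : Rows) (d : ℕ) : DecidableEq (Idx R d) :=
  inferInstanceAs (DecidableEq {x : ℕ × Lt // Mem R d x})

/-- the enumeration. -/
def enum (R : Rows) (d : ℕ) : Fin (idx R d).length ≃ Idx R d :=
  (List.Nodup.getEquiv (idx R d) (nodup_idx R d)).trans
    (Equiv.subtypeEquivRight (fun x => mem_idx R d x))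

instance (R : Rows) (d : ℕ) : Fintype (Idx R d) := Fintype.ofEquiv _ (enum R d)



/-- entries, on pairs (level, letter). -/
def ent (C : Core) (x y : ℕ × Lt) : ℤ := if x.1 ≤ y.1 then L0 C x.2 y.2 else 0

/-- **the nested-level matrix**. -/
def AF (C : Core) (R : Rows) (d : ℕ) : Matrix (Idx R d) (Idx R d) ℤ :=
  fun x y => ent C x.1 y.1

/-- staircases of `f`. -/
def rowsF : Rows where
  p := [15, 15, 15, 15, 7, 7, 7, 2, 2, 2, 2, 2, 2, 1, 1]
  q := [15, 12, 12, 9, 9, 9, 9, 9, 9, 6, 6, 6, 6, 6, 6]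
  r := List.replicate 15 15

/-- staircases of `g`. -/
def rowsG : Rows where
  p := [15, 13, 7, 7, 7, 7, 7, 4, 4, 4, 4, 4, 4, 4, 4]
  q := [15, 15, 15, 15, 15, 15, 9, 9, 9, 3, 3, 3, 1, 1, 1]
  r := List.replicate 15 15

/-- official matrix of `f` (size 2010). -/
def Af : Matrix (Idx rowsF 15) (Idx rowsF 15) ℤ := AF coreF rowsF 15

/-- official matrix of `g` (size 2010). -/
def Ag : Matrix (Idx rowsG 15) (Idx rowsG 15) ℤ := AF coreG rowsG 15

theorem length_idxF : (idx rowsF 15).length = 2010 := by decide +kernel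

theorem length_idxG : (idx rowsG 15).length = 2010 := by decide +kernel

/-! ### unimodularity -/

/-- inverse of `LP`. -/
def LPi : Matrix (Fin 6) (Fin 6) ℤ :=
  !![1,-1,0,0,-1,1; 0,1,-1,0,0,-1; 0,0,1,-1,0,0; 0,0,0,1,0,0; 0,0,0,0,1,-1; 0,0,0,0,0,1]

theorem LP_mul_LPi : LP * LPi = 1 := by decide

theorem LPi_mul_LP : LPi * LP = 1 := by decide

theorem isUnit_LP : IsUnit LP.det :=
  (Matrix.isUnit_iff_isUnit_det _).1 ((Units.mk LP LPi LP_mul_LPi LPi_mul_LP).isUnit)

theorem isUnit_hub (D : Matrix (Fin 6) (Fin 6) ℤ) :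
    IsUnit (Matrix.fromBlocks 0 (-LP) LP D).det := by
  have h : Matrix.fromBlocks 0 (-LP) LP D * Matrix.fromBlocks (LPi * D * LPi) LPi (-LPi) 0 = 1 := by
    rw [Matrix.fromBlocks_multiply]
    simp only [Matrix.zero_mul, Matrix.neg_mul, Matrix.mul_neg, neg_neg, zero_add, LP_mul_LPi,
      Matrix.mul_zero, add_zero]
    rw [← Matrix.mul_assoc, ← Matrix.mul_assoc, LP_mul_LPi, Matrix.one_mul, add_neg_cancel,
      Matrix.fromBlocks_one]
  have h2 := congrArg Matrix.det h
  rw [Matrix.det_mul, Matrix.det_one] at h2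
  exact IsUnit.of_mul_eq_one _ h2

/-- rank of a letter inside its level (arms first, hub last). -/
def rk : Lt → ℕ ×ₗ ℕ
  | .S _ => toLex (1, 0)
  | .O _ => toLex (1, 0)
  | .X i => toLex (0, 3 * i)
  | .Y _ i => toLex (0, 3 * i + 1)
  | .Z _ i => toLex (0, 3 * i + 2)

/-- block label. -/
def bl {R : Rows} {d : ℕ} (x : Idx R d) : ℕ ×ₗ (ℕ ×ₗ ℕ) := toLex (x.1.1, rk x.1.2)

theorem L0_of_lt (C : Core) (u v : Lt) (h : rk v < rk u) : L0 C u v = 0 := by
  cases u <;> cases v <;> simp only [rk, Prod.Lex.toLex_lt_toLex] at h <;> simp only [L0] <;>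
    (try omega)

theorem blockTriangular (C : Core) (R : Rows) (d : ℕ) : (AF C R d).BlockTriangular bl := by
  intro x y h
  unfold AF ent
  rcases Prod.Lex.toLex_lt_toLex.1 h with h | ⟨h1, h2⟩
  · exact if_neg (by simpa using h)
  · rw [if_pos (le_of_eq h1.symm)]
    exact L0_of_lt C _ _ h2

theorem isUnit_block (C : Core) (R : Rows) (d : ℕ) (x : Idx R d) :
    IsUnit ((AF C R d).toSquareBlock bl (bl x)).det := by
  obtain ⟨⟨k, u⟩, hx⟩ := x
  have hk : 2 ≤ k ∧ k ≤ d := ⟨hx.1, hx.2.1⟩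
  have hub : ∀ x0 : Idx R d, bl x0 = toLex (k, toLex (1, 0)) →
      IsUnit ((AF C R d).toSquareBlock bl (bl x0)).det := by
    intro x0 hx0
    rw [hx0]
    let f : Fin 6 ⊕ Fin 6 → {y : Idx R d // bl y = toLex (k, toLex (1, 0))} :=
      Sum.elim (fun a => ⟨⟨(k, .S a), hk.1, hk.2, trivial⟩, rfl⟩)
        (fun a => ⟨⟨(k, .O a), hk.1, hk.2, trivial⟩, rfl⟩)
    have hf : Function.Bijective f := by
      constructor
      · rintro (a | a) (b | b) h <;>
          · have h3 := congrArg (fun z => z.1.1) h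
            simpa [f] using h3
      · rintro ⟨⟨⟨l, v⟩, hv⟩, h⟩
        have h1 : l = k ∧ rk v = toLex (1, 0) := by simpa [bl] using h
        obtain ⟨rfl, h2⟩ := h1
        cases v with
        | S a => exact ⟨Sum.inl a, rfl⟩
        | O a => exact ⟨Sum.inr a, rfl⟩
        | X i => simp [rk] at h2
        | Y a i => simp [rk] at h2
        | Z a i => simp [rk] at h2
    rw [← Matrix.det_submatrix_equiv_self (Equiv.ofBijective f hf)]
    convert isUnit_hub C.D using 2
    ext i j
    rcases i with a | a <;> rcases j with b | b <;>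
      simp [Matrix.toSquareBlock, Matrix.toSquareBlockProp, f, AF, ent, L0]
  have arm : ∀ (F : Fin 6 → Lt) (c : ℕ) (x0 : Idx R d), bl x0 = toLex (k, toLex (0, c)) →
      (∀ a, Pres R k (F a)) → (∀ a, rk (F a) = toLex (0, c)) → Function.Injective F →
      (∀ v, rk v = toLex (0, c) → ∃ a, v = F a) → (∀ a b, L0 C (F a) (F b) = LP a b) →
      IsUnit ((AF C R d).toSquareBlock bl (bl x0)).det := by
    intro F c x0 hx0 hP hr hi hs hL
    rw [hx0]
    let f : Fin 6 → {y : Idx R d // bl y = toLex (k, toLex (0, c))} :=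
      fun a => ⟨⟨(k, F a), hk.1, hk.2, hP a⟩, by simp [bl, hr a]⟩
    have hf : Function.Bijective f := by
      constructor
      · intro a b h
        have h3 := congrArg (fun z => z.1.1) h
        exact hi (by simpa [f] using h3)
      · rintro ⟨⟨⟨l, v⟩, hv⟩, h⟩
        have h1 : l = k ∧ rk v = toLex (0, c) := by simpa [bl] using h
        obtain ⟨rfl, h2⟩ := h1
        obtain ⟨a, rfl⟩ := hs v h2
        exact ⟨a, rfl⟩
    rw [← Matrix.det_submatrix_equiv_self (Equiv.ofBijective f hf)]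
    convert isUnit_LP using 2
    ext a b
    simp [Matrix.toSquareBlock, Matrix.toSquareBlockProp, f, AF, ent, hL]
  cases u with
  | S a => exact hub _ rfl
  | O a => exact hub _ rfl
  | Y a i =>
    refine arm (fun b => .Y b i) (3 * i + 1) _ rfl (fun b => hx.2.2) (fun b => rfl)
      (fun a b h => by simpa using h) ?_ (fun a b => by simp [L0])
    intro v hv
    cases v <;> simp [rk] at hv <;> first | omega | exact ⟨_, by rw [hv]⟩
  | Z a i =>
    refine arm (fun b => .Z b i) (3 * i + 2) _ rfl (fun b => hx.2.2) (fun b => rfl)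
      (fun a b h => by simpa using h) ?_ (fun a b => by simp [L0])
    intro v hv
    cases v <;> simp [rk] at hv <;> first | omega | exact ⟨_, by rw [hv]⟩
  | X i =>
    have huniq : ∀ z : {y : Idx R d // bl y = bl (⟨(k, .X i), hx⟩ : Idx R d)},
        z = ⟨⟨(k, .X i), hx⟩, rfl⟩ := by
      rintro ⟨⟨⟨l, v⟩, hv⟩, h⟩
      have h1 : l = k ∧ rk v = toLex (0, 3 * i) := by simpa [bl, rk] using h
      obtain ⟨rfl, h2⟩ := h1
      cases v with
      | S a => simp [rk] at h2
      | O a => simp [rk] at h2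
      | X j =>
        have : j = i := by simpa [rk] using h2
        subst this; rfl
      | Y a j => simp [rk] at h2; omega
      | Z a j => simp [rk] at h2; omega
    have : Subsingleton {y : Idx R d // bl y = bl (⟨(k, .X i), hx⟩ : Idx R d)} :=
      ⟨fun a b => by rw [huniq a, huniq b]⟩
    rw [Matrix.det_eq_elem_of_subsingleton _ (⟨⟨(k, .X i), hx⟩, rfl⟩)]
    simp [Matrix.toSquareBlock, Matrix.toSquareBlockProp, AF, ent, L0]

theorem isUnit_det_AF (C : Core) (R : Rows) (d : ℕ) : IsUnit (AF C R d).det := by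
  rw [(blockTriangular C R d).det]
  refine Finset.prod_induction _ IsUnit (fun _ _ => IsUnit.mul) isUnit_one ?_
  intro a ha
  obtain ⟨x, -, rfl⟩ := Finset.mem_image.1 ha
  exact isUnit_block C R d x

/-! ### congruence from one square matrix -/

theorem isUnit_of_congr {n : Type} [Fintype n] [DecidableEq n] {A B P : Matrix n n ℤ}
    (hB : IsUnit B.det) (h : Pᵀ * A * P = B) : IsUnit P := by
  rw [Matrix.isUnit_iff_isUnit_det]
  have : P.det * (A.det * P.det) = B.det := by
    rw [← h, Matrix.det_mul, Matrix.det_mul, Matrix.det_transpose]; ring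
  exact isUnit_of_mul_isUnit_left (this ▸ hB)

/-- positional form: matrices of size `m`. -/
def pos (C : Core) (R : Rows) (d m : ℕ) (h : (idx R d).length = m) : Matrix (Fin m) (Fin m) ℤ :=
  fun i j => ent C ((idx R d).get (i.cast h.symm)) ((idx R d).get (j.cast h.symm))

theorem pos_eq (C : Core) (R : Rows) (d m : ℕ) (h : (idx R d).length = m) :
    pos C R d m h = (AF C R d).submatrix ((finCongr h.symm).trans (enum R d))
      ((finCongr h.symm).trans (enum R d)) := by
  subst h
  rfl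


/-- positional matrices of the pair. -/
def pAf : Matrix (Fin 2010) (Fin 2010) ℤ := pos coreF rowsF 15 2010 length_idxF

def pAg : Matrix (Fin 2010) (Fin 2010) ℤ := pos coreG rowsG 15 2010 length_idxG

open Crest.Agent.R267.P4Defs_780 in
theorem cong_of {n ι κ : Type} [Fintype n] [DecidableEq n] [Fintype ι] [DecidableEq ι] [Fintype κ]
    [DecidableEq κ] (A : Matrix ι ι ℤ) (B : Matrix κ κ ℤ) (e : n ≃ ι) (e' : n ≃ κ)
    (P : Matrix n n ℤ) (hB : IsUnit B.det)
    (h : Pᵀ * A.submatrix e e * P = B.submatrix e' e') : Cong ℤ A B := by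
  have hu : IsUnit P := isUnit_of_congr (by rwa [Matrix.det_submatrix_equiv_self]) h
  obtain ⟨u, rfl⟩ := hu
  refine ⟨(u.val).submatrix e.symm e'.symm, (u⁻¹.val).submatrix e'.symm e.symm, ?_, ?_, ?_⟩
  · rw [Matrix.submatrix_mul_equiv, Units.mul_inv, Matrix.submatrix_one_equiv]
  · rw [Matrix.submatrix_mul_equiv, Units.inv_mul, Matrix.submatrix_one_equiv]
  · have : A = (A.submatrix e e).submatrix e.symm e.symm := by
      ext i j; simp
    rw [this, Matrix.transpose_submatrix, Matrix.submatrix_mul_equiv, Matrix.submatrix_mul_equiv, h]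
    ext i j; simp



end Crest.Agent.R267.NL_330
private theorem rz_701bffbecf : type_of% @_root_.Crest.Agent.R267.NL_330.L0.eq_1 := @_root_.Crest.Agent.R267.NL_330.L0.eq_1 -- L44
private theorem rz_7b63799cf7 : type_of% @_root_.Crest.Agent.R267.NL_330.Pres.eq_1 := @_root_.Crest.Agent.R267.NL_330.Pres.eq_1 -- L66
private theorem rz_3298110897 : type_of% @_root_.Crest.Agent.R267.NL_330.rk.eq_1 := @_root_.Crest.Agent.R267.NL_330.rk.eq_1 -- L219
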