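import Crest.Agent.R267.NL_330

/-!
# The nested-level matrices of the pair with `μ = 2049` (row 267, helper662's member)

`f = x²yz + xy³z³ + w¹⁵ + (xw⁹+x³w⁴+x¹⁵) + (y⁴w⁷+y⁸w²+y¹⁰w+y¹⁵) + z¹⁵` (order 4),
`g = xy²z² + x³yz + w¹⁵ + (x⁴w³+x⁹w+x¹⁵) + (yw¹⁰+y²w⁸+y⁷w⁴+y¹⁵) + z¹⁵` (order 5).
Same cores as in `NL_330`; only the staircases change.
-/

set_option autoImplicit false

namespace Crest.Agent.R267.NLb_330

open Matrix NL_330

/-- staircases of `f`. -/
def rowsF : Rows where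
  p := [15, 15, 15, 15, 7, 7, 7, 3, 3, 3, 3, 2, 1, 1, 1]
  q := [15, 12, 10, 10, 10, 10, 10, 10, 10, 10, 8, 5, 5, 5, 5]
  r := List.replicate 15 15

/-- staircases of `g`. -/
def rowsG : Rows where
  p := [15, 12, 11, 7, 7, 7, 7, 4, 4, 4, 4, 4, 4, 4, 4]
  q := [15, 15, 15, 15, 15, 11, 11, 11, 10, 10, 2, 2, 1, 1, 1]
  r := List.replicate 15 15

/-- matrix of `f` (size 2049). -/
def Af : Matrix (Idx rowsF 15) (Idx rowsF 15) ℤ := AF coreF rowsF 15

/-- matrix of `g` (size 2049). -/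
def Ag : Matrix (Idx rowsG 15) (Idx rowsG 15) ℤ := AF coreG rowsG 15

theorem length_idxF : (idx rowsF 15).length = 2049 := by decide +kernel

theorem length_idxG : (idx rowsG 15).length = 2049 := by decide +kernel

/-- positional matrices of the pair. -/
def pAf : Matrix (Fin 2049) (Fin 2049) ℤ := pos coreF rowsF 15 2049 length_idxF

def pAg : Matrix (Fin 2049) (Fin 2049) ℤ := pos coreG rowsG 15 2049 length_idxG


open Crest.Agent.R267.P4Defs_780 in
/-- the wrapper, other direction. -/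
theorem cong_of_pos' (P : Matrix (Fin 2049) (Fin 2049) ℤ) (h : Pᵀ * pAg * P = pAf) :
    Cong ℤ Ag Af := by
  refine cong_of Ag Af ((finCongr length_idxG.symm).trans (enum rowsG 15))
    ((finCongr length_idxF.symm).trans (enum rowsF 15)) P (isUnit_det_AF _ _ _) ?_
  have h1 := pos_eq coreF rowsF 15 2049 length_idxF
  have h2 := pos_eq coreG rowsG 15 2049 length_idxG
  unfold pAf pAg at h
  rw [h1, h2] at h
  exact h



end Crest.Agent.R267.NLb_330
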