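import Crest.Agent.R267.NSArm_780
import Crest.Agent.R267.PlStart_484
import Crest.Agent.R267.NdZ_484

/-!
# Row 267, N2: exponents of the six arms (helper780)

For `sn b v`, `pl b v : Dat (mm v)` (NSArm_780): convexity `NS.Cvx (aw b v)` (NSDefs_966), the
combinatorial data `PlStart_484.Dat` of 484's entry (monomials `TT b v` of the official arms =
`EntD_370.Tf`, `Tg`), and `Af`, `Ag` as `Ac`.
-/

set_option autoImplicit false

noncomputable section

namespace Crest.Agent.R267.NSArmT_780

open Finset
open Crest.Agent.R267.NSDefs_966 Crest.Agent.R267.NSArm_780 Crest.Agent.R267.NdR_484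
open Crest.Agent.R267.NdS_484

/-- monomials of the official arms -/
def TT (b : Bool) (v : Fin 3) : Finset (ℕ × ℕ) := (bif b then EntD_370.Tf else EntD_370.Tg) v









end Crest.Agent.R267.NSArmT_780
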