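import Mathlib

-- ▼ part R267/Order_396
section

/-!
Row 267, node (d): orders of vanishing of polynomial functions.
`order_eq`: if the homogeneous components of `p` vanish below degree `k` but not in degree `k`,
then the iterated derivatives of `x ↦ eval x p` at `0` vanish below order `k` but not at order `k`.
-/

set_option autoImplicit false

namespace Crest.Agent.R267.Order_396

open MvPolynomial

section general

variable {E : Type*} [NormedAddCommGroup E] [NormedSpace ℂ E]

/-- A smooth function homogeneous of degree `d` has vanishing `j`-th derivative at `0`, `j ≠ d`. -/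
theorem iteratedFDeriv_zero_of_hom {F : E → ℂ} {d j : ℕ} (hF : ContDiff ℂ (⊤ : ℕ∞) F)
    (hom : ∀ (t : ℂ) (x : E), F (t • x) = t ^ d * F x) (hj : j ≠ d) :
    iteratedFDeriv ℂ j F 0 = 0 := by
  set g : E →L[ℂ] E := (2 : ℂ) • ContinuousLinearMap.id ℂ E with hg
  have h1 : F ∘ g = fun x => (2 : ℂ) ^ d • F x := by
    funext x
    simp [hg, hom]
  have h2 : iteratedFDeriv ℂ j (F ∘ g) 0
      = (iteratedFDeriv ℂ j F (g 0)).compContinuousLinearMap fun _ => g :=
    g.iteratedFDeriv_comp_right hF 0 (by exact_mod_cast le_top)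
  have h3 : iteratedFDeriv ℂ j (fun x => (2 : ℂ) ^ d • F x) 0
      = (2 : ℂ) ^ d • iteratedFDeriv ℂ j F 0 := by
    have := iteratedFDeriv_const_smul_apply (𝕜 := ℂ) (f := F) (x := (0 : E)) (i := j)
      (a := (2 : ℂ) ^ d) ((hF.of_le (by exact_mod_cast le_top)).contDiffAt)
    exact this
  rw [h1, h3] at h2
  ext m
  have h4 := congrArg (fun T => T m) h2
  simp only [map_zero] at h4
  have h5 : ((iteratedFDeriv ℂ j F 0).compContinuousLinearMap fun _ => g) m
      = (2 : ℂ) ^ j * iteratedFDeriv ℂ j F 0 m := by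
    rw [ContinuousMultilinearMap.compContinuousLinearMap_apply]
    have : (fun i => g (m i)) = fun i => (2 : ℂ) • m i := by
      funext i; simp [hg]
    rw [this, ContinuousMultilinearMap.map_smul_univ]
    simp
  rw [h5] at h4
  have h6 : ((2 : ℂ) ^ d - (2 : ℂ) ^ j) * iteratedFDeriv ℂ j F 0 m = 0 := by
    have : (2 : ℂ) ^ d * iteratedFDeriv ℂ j F 0 m = (2 : ℂ) ^ j * iteratedFDeriv ℂ j F 0 m := by
      simpa using h4
    rw [sub_mul, this, sub_self]
  rcases mul_eq_zero.1 h6 with h | h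
  · exfalso
    have h7 : (2 : ℂ) ^ d = (2 : ℂ) ^ j := sub_eq_zero.1 h
    have h8 : (2 : ℕ) ^ d = 2 ^ j := by exact_mod_cast h7
    exact hj (Nat.pow_right_injective (le_refl 2) h8).symm
  · simpa using h

/-- The `d`-th derivative at `0` of a smooth function homogeneous of degree `d`, on the diagonal. -/
theorem iteratedFDeriv_diag_of_hom {F : E → ℂ} {d : ℕ} (hF : ContDiff ℂ (⊤ : ℕ∞) F)
    (hom : ∀ (t : ℂ) (x : E), F (t • x) = t ^ d * F x) (v : E) :
    iteratedFDeriv ℂ d F 0 (fun _ => v) = (d.factorial : ℂ) * F v := by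
  set g : ℂ →L[ℂ] E := ContinuousLinearMap.toSpanSingleton ℂ v with hg
  have h1 : F ∘ g = fun t => t ^ d * F v := by
    funext t
    simp [hg, hom]
  have h2 : iteratedFDeriv ℂ d (F ∘ g) 0
      = (iteratedFDeriv ℂ d F (g 0)).compContinuousLinearMap fun _ => g :=
    g.iteratedFDeriv_comp_right hF 0 (by exact_mod_cast le_top)
  have h3 := congrArg (fun T => T (fun _ => (1 : ℂ))) h2
  simp only [map_zero, ContinuousMultilinearMap.compContinuousLinearMap_apply] at h3
  have h4 : g 1 = v := by simp [hg]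
  rw [h4] at h3
  rw [← h3, h1]
  have h5 : iteratedFDeriv ℂ d (fun t : ℂ => t ^ d * F v) 0 (fun _ => (1 : ℂ))
      = iteratedDeriv d (fun t : ℂ => t ^ d * F v) 0 := by
    rw [iteratedDeriv_eq_iteratedFDeriv]
  rw [h5]
  rw [iteratedDeriv_mul_const_field, iteratedDeriv_fun_pow_zero]
  simp

end general

variable {n : ℕ}

theorem contDiff_eval (p : MvPolynomial (Fin n) ℂ) :
    ContDiff ℂ (⊤ : ℕ∞) (fun x : Fin n → ℂ => eval x p) := by
  induction p using MvPolynomial.induction_on with
  | C a => simpa using (contDiff_const (c := a))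
  | add p q hp hq => simpa using hp.add hq
  | mul_X p i hp =>
    have : ContDiff ℂ (⊤ : ℕ∞) (fun x : Fin n → ℂ => x i) := contDiff_apply ℂ ℂ i
    simpa using hp.mul this

theorem eval_smul_of_hom {p : MvPolynomial (Fin n) ℂ} {d : ℕ} (hp : p.IsHomogeneous d)
    (t : ℂ) (x : Fin n → ℂ) : eval (t • x) p = t ^ d * eval x p := by
  rw [eval_eq, eval_eq, Finset.mul_sum]
  refine Finset.sum_congr rfl fun m hm => ?_
  have h1 : (∑ i ∈ m.support, m i) = d := by
    have := hp (mem_support_iff.1 hm)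
    rw [Finsupp.weight_apply] at this
    simpa [Finsupp.sum] using this
  simp only [Pi.smul_apply, smul_eq_mul, mul_pow]
  rw [Finset.prod_mul_distrib, Finset.prod_pow_eq_pow_sum, h1]
  ring

/-- The order of vanishing at the origin of a polynomial function. -/
theorem order_eq (p : MvPolynomial (Fin n) ℂ) (k : ℕ)
    (hlow : ∀ j < k, homogeneousComponent j p = 0) (hk : homogeneousComponent k p ≠ 0) :
    (∀ j < k, iteratedFDeriv ℂ j (fun x : Fin n → ℂ => eval x p) 0 = 0) ∧
      iteratedFDeriv ℂ k (fun x : Fin n → ℂ => eval x p) 0 ≠ 0 := by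
  classical
  set F : ℕ → (Fin n → ℂ) → ℂ := fun d x => eval x (homogeneousComponent d p) with hFdef
  have hsum : (fun x : Fin n → ℂ => eval x p)
      = fun x => ∑ d ∈ Finset.range (max p.totalDegree k + 1), F d x := by
    funext x
    have h0 : p = ∑ d ∈ Finset.range (max p.totalDegree k + 1), homogeneousComponent d p := by
      conv_lhs => rw [← sum_homogeneousComponent p]
      refine Finset.sum_subset ?_ ?_
      · intro i hi
        simp only [Finset.mem_range] at hi ⊢
        omega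
      · intro i _ hi
        apply homogeneousComponent_eq_zero
        simp only [Finset.mem_range, not_lt] at hi
        omega
    conv_lhs => rw [h0]
    simp [hFdef, map_sum]
  have hC : ∀ d, ContDiff ℂ (⊤ : ℕ∞) (F d) := fun d => contDiff_eval _
  have hhom : ∀ d (t : ℂ) (x : Fin n → ℂ), F d (t • x) = t ^ d * F d x := fun d t x =>
    eval_smul_of_hom (homogeneousComponent_isHomogeneous d p) t x
  have key : ∀ j ≤ k, iteratedFDeriv ℂ j (fun x : Fin n → ℂ => eval x p) 0
      = iteratedFDeriv ℂ j (F j) 0 := by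
    intro j hj
    rw [hsum]
    have h1 : iteratedFDeriv ℂ j
        (fun x => ∑ d ∈ Finset.range (max p.totalDegree k + 1), F d x) 0
        = ∑ d ∈ Finset.range (max p.totalDegree k + 1), iteratedFDeriv ℂ j (F d) 0 := by
      have h2 := iteratedFDeriv_sum (𝕜 := ℂ) (i := j) (f := F)
        (u := Finset.range (max p.totalDegree k + 1))
        (fun d _ => (hC d).of_le (by exact_mod_cast le_top))
      have h3 := congrFun h2 (0 : Fin n → ℂ)
      simpa using h3
    rw [h1]
    refine Finset.sum_eq_single_of_mem j (Finset.mem_range.2 (by omega)) ?_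
    intro d _ hd
    exact iteratedFDeriv_zero_of_hom (hC d) (hhom d) (Ne.symm hd)
  refine ⟨fun j hj => ?_, fun h0 => ?_⟩
  · rw [key j hj.le]
    have : F j = fun _ => 0 := by
      funext x
      simp [hFdef, hlow j hj]
    rw [this]
    simp
  · rw [key k le_rfl] at h0
    apply hk
    apply MvPolynomial.funext
    intro v
    have h1 := iteratedFDeriv_diag_of_hom (hC k) (hhom k) v
    rw [h0] at h1
    have h2 : (k.factorial : ℂ) ≠ 0 := by exact_mod_cast k.factorial_ne_zero
    have h3 : F k v = 0 := by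
      have : (k.factorial : ℂ) * F k v = 0 := by simpa using h1.symm
      exact (mul_eq_zero.1 this).resolve_left h2
    simpa [hFdef] using h3

end Crest.Agent.R267.Order_396
end

-- ▼ part R267/Reduced_396
section

/-!
Row 267, node (d): a germ with an isolated critical point in dimension at least two is reduced.
-/

set_option autoImplicit false

namespace Crest.Agent.R267.Reduced_396

open Topology Filter Metric

variable {n : ℕ}

/-- In dimension at least two, the zeros of an analytic function vanishing at the origin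
accumulate at the origin. -/
theorem frequently_zero (hn : 2 ≤ n) {h : (Fin n → ℂ) → ℂ} (hh : AnalyticAt ℂ h 0)
    (h0 : h 0 = 0) : ∃ᶠ x in 𝓝[≠] (0 : Fin n → ℂ), h x = 0 := by
  intro hne
  rw [eventually_nhdsWithin_iff] at hne
  have hev := hh.eventually_analyticAt.and hne
  obtain ⟨r, hr, hball⟩ := Metric.eventually_nhds_iff_ball.1 hev
  set i0 : Fin n := ⟨0, by omega⟩ with hi0
  set i1 : Fin n := ⟨1, by omega⟩ with hi1
  have hi01 : i0 ≠ i1 := by
    simp [hi0, hi1]
  set L : ℂ × ℂ → (Fin n → ℂ) := fun p => p.1 • Pi.single i0 (1 : ℂ) + p.2 • Pi.single i1 (1 : ℂ)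
    with hL
  have hL0 : ∀ p, L p i0 = p.1 := by
    intro p; simp [hL, hi01]
  have hL1 : ∀ p, L p i1 = p.2 := by
    intro p; simp [hL, hi01.symm]
  have hLn : ∀ p, ‖L p‖ ≤ max ‖p.1‖ ‖p.2‖ := by
    intro p
    rw [pi_norm_le_iff_of_nonneg (le_max_of_le_left (norm_nonneg _))]
    intro i
    by_cases h1 : i = i0
    · subst h1; rw [hL0]; exact le_max_left _ _
    · by_cases h2 : i = i1
      · subst h2; rw [hL1]; exact le_max_right _ _
      · have : L p i = 0 := by simp [hL, h1, h2]
        rw [this, norm_zero]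
        exact le_max_of_le_left (norm_nonneg _)
  have hLdiff : Differentiable ℂ L := by
    rw [hL]; fun_prop
  have hLcont : Continuous L := hLdiff.continuous
  set ρ : ℝ := r / 2 with hρ
  have hρ0 : 0 < ρ := by positivity
  have hmem : ∀ p : ℂ × ℂ, ‖p.1‖ ≤ ρ → ‖p.2‖ ≤ ρ → L p ∈ ball (0 : Fin n → ℂ) r := by
    intro p h1 h2
    rw [mem_ball_zero_iff]
    calc ‖L p‖ ≤ max ‖p.1‖ ‖p.2‖ := hLn p
      _ ≤ ρ := max_le h1 h2
      _ < r := by rw [hρ]; linarith
  have hne0 : ∀ p : ℂ × ℂ, ‖p.1‖ ≤ ρ → ‖p.2‖ ≤ ρ → p ≠ 0 → h (L p) ≠ 0 := by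
    intro p h1 h2 hp
    refine (hball _ (hmem p h1 h2)).2 ?_
    intro hz
    apply hp
    have hz' : L p = 0 := hz
    have e1 : p.1 = 0 := by rw [← hL0 p, hz']; rfl
    have e2 : p.2 = 0 := by rw [← hL1 p, hz']; rfl
    exact Prod.ext e1 e2
  have hana : ∀ p : ℂ × ℂ, ‖p.1‖ ≤ ρ → ‖p.2‖ ≤ ρ → DifferentiableAt ℂ h (L p) :=
    fun p h1 h2 => (hball _ (hmem p h1 h2)).1.differentiableAt
  -- minimum of `|h|` on the circle
  have hK : IsCompact (sphere (0 : ℂ) ρ) := isCompact_sphere _ _
  have hKne : (sphere (0 : ℂ) ρ).Nonempty := ⟨(ρ : ℂ), by simp [abs_of_pos hρ0]⟩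
  have hcont0 : ContinuousOn (fun t : ℂ => ‖h (L (t, 0))‖) (sphere (0 : ℂ) ρ) := by
    intro t ht
    have ht' : ‖t‖ = ρ := by simpa using ht
    have h1 : ContinuousAt h (L (t, 0)) :=
      (hana (t, 0) ht'.le (by simpa using hρ0.le)).continuousAt
    have h2 : ContinuousAt (fun t : ℂ => L (t, 0)) t := by
      exact (hLcont.comp (by fun_prop : Continuous fun t : ℂ => ((t, 0) : ℂ × ℂ))).continuousAt
    exact (ContinuousAt.norm (ContinuousAt.comp (f := fun t : ℂ => L (t, 0)) h1 h2)).continuousWithinAt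
  obtain ⟨t0, ht0, hmin⟩ := hK.exists_isMinOn hKne hcont0
  set m : ℝ := ‖h (L (t0, 0))‖ with hm
  have ht0' : ‖t0‖ = ρ := by simpa using ht0
  have hm0 : 0 < m := by
    rw [hm, norm_pos_iff]
    refine hne0 (t0, 0) ht0'.le (by simpa using hρ0.le) ?_
    intro hz
    have : t0 = 0 := congrArg Prod.fst hz
    rw [this, norm_zero] at ht0'
    linarith
  -- uniform lower bound for nearby circles
  have hunif : ∀ᶠ s in 𝓝 (0 : ℂ), ∀ t ∈ sphere (0 : ℂ) ρ, m / 2 < ‖h (L (t, s))‖ := by
    refine hK.eventually_forall_of_forall_eventually (fun t ht => ?_)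
    have ht' : ‖t‖ = ρ := by simpa using ht
    have h1 : ContinuousAt h (L (t, 0)) :=
      (hana (t, 0) ht'.le (by simpa using hρ0.le)).continuousAt
    have h2 : ContinuousAt (fun z : ℂ × ℂ => L (z.2, z.1)) ((0 : ℂ), t) := by
      exact (hLcont.comp (by fun_prop : Continuous fun z : ℂ × ℂ => ((z.2, z.1) : ℂ × ℂ))).continuousAt
    have h3 : ContinuousAt (fun z : ℂ × ℂ => ‖h (L (z.2, z.1))‖) ((0 : ℂ), t) :=
      ContinuousAt.norm (ContinuousAt.comp (f := fun z : ℂ × ℂ => L (z.2, z.1)) h1 h2)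
    have h4 : m / 2 < ‖h (L (t, 0))‖ := by
      have := hmin ht
      simp only [Set.mem_ofPred_eq] at this
      linarith
    exact h3.eventually (lt_mem_nhds h4)
  have hsmall : ∀ᶠ s in 𝓝 (0 : ℂ), ‖s‖ < ρ := by
    have : ∀ᶠ s in 𝓝 (0 : ℂ), s ∈ ball (0 : ℂ) ρ := ball_mem_nhds _ hρ0
    filter_upwards [this] with s hs
    simpa using hs
  have hlim : ∀ᶠ s in 𝓝 (0 : ℂ), ‖h (L (0, s))‖ < m / 2 := by
    have h1 : ContinuousAt h (L (0, 0)) :=
      (hana (0, 0) (by simpa using hρ0.le) (by simpa using hρ0.le)).continuousAt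
    have h2 : ContinuousAt (fun s : ℂ => L (0, s)) 0 := by
      exact (hLcont.comp (by fun_prop : Continuous fun s : ℂ => ((0, s) : ℂ × ℂ))).continuousAt
    have h3 : ContinuousAt (fun s : ℂ => ‖h (L (0, s))‖) 0 :=
      ContinuousAt.norm (ContinuousAt.comp (f := fun s : ℂ => L (0, s)) h1 h2)
    have h4 : ‖h (L (0, 0))‖ < m / 2 := by
      have : L (0, 0) = 0 := by simp [hL]
      rw [this, h0, norm_zero]; linarith
    exact h3.eventually (gt_mem_nhds h4)
  have hall := (hunif.and hsmall).and hlim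
  obtain ⟨ε, hε, hε'⟩ := Metric.eventually_nhds_iff_ball.1 hall
  set s : ℂ := ((ε / 2 : ℝ) : ℂ) with hs
  have hs0 : s ≠ 0 := by
    rw [hs]
    exact_mod_cast (by positivity : (ε / 2 : ℝ) ≠ 0)
  have hsball : s ∈ ball (0 : ℂ) ε := by
    rw [mem_ball_zero_iff, hs, Complex.norm_real, Real.norm_eq_abs, abs_of_pos (by positivity)]
    linarith
  obtain ⟨⟨hs1, hs2⟩, hs3⟩ := hε' s hsball
  -- the inverse function on the disc
  set G : ℂ → ℂ := fun t => (h (L (t, s)))⁻¹ with hG
  have hnz : ∀ t : ℂ, ‖t‖ ≤ ρ → h (L (t, s)) ≠ 0 := fun t ht =>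
    hne0 (t, s) ht hs2.le (fun hz => hs0 (congrArg Prod.snd hz))
  have hGd : ∀ t : ℂ, ‖t‖ ≤ ρ → DifferentiableAt ℂ G t := by
    intro t ht
    have h1 : DifferentiableAt ℂ h (L (t, s)) := hana (t, s) ht hs2.le
    have h2 : DifferentiableAt ℂ (fun t : ℂ => L (t, s)) t := by
      have h3 : DifferentiableAt ℂ L (t, s) := hLdiff _
      have h4 : DifferentiableAt ℂ (fun t : ℂ => ((t, s) : ℂ × ℂ)) t := by fun_prop
      exact DifferentiableAt.comp t h3 h4
    exact (DifferentiableAt.comp (f := fun t : ℂ => L (t, s)) t h1 h2).inv (hnz t ht)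
  have hGdc : DiffContOnCl ℂ G (ball (0 : ℂ) ρ) := by
    refine ⟨fun t ht => (hGd t (by simpa using (mem_ball_zero_iff.1 ht).le)).differentiableWithinAt,
      ?_⟩
    rw [closure_ball (0 : ℂ) hρ0.ne']
    intro t ht
    exact (hGd t (by simpa using ht)).continuousAt.continuousWithinAt
  have hbound : ‖G 0‖ ≤ (m / 2)⁻¹ := by
    refine Complex.norm_le_of_forall_mem_frontier_norm_le isBounded_ball hGdc ?_
      (subset_closure (mem_ball_self hρ0))
    intro t ht
    rw [frontier_ball (0 : ℂ) hρ0.ne'] at ht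
    rw [hG]
    simp only [norm_inv]
    exact inv_anti₀ (by positivity) (hs1 t ht).le
  have hG0 : (m / 2)⁻¹ < ‖G 0‖ := by
    rw [hG]
    simp only [norm_inv]
    have : 0 < ‖h (L (0, s))‖ := norm_pos_iff.2 (hnz 0 (by simpa using hρ0.le))
    exact (inv_lt_inv₀ (by positivity) this).2 hs3
  linarith

/-- A germ with an isolated critical point in dimension at least two is reduced. -/
theorem reduced_of_isolated (hn : 2 ≤ n) {f : (Fin n → ℂ) → ℂ}
    (hiso : ∀ᶠ x in 𝓝[≠] (0 : Fin n → ℂ), fderiv ℂ f x ≠ 0)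
    (h u : (Fin n → ℂ) → ℂ) (hh : AnalyticAt ℂ h 0) (hu : AnalyticAt ℂ u 0) (h0 : h 0 = 0) :
    ¬ (f =ᶠ[𝓝 0] fun x => h x ^ 2 * u x) := by
  intro hf
  have hfreq := frequently_zero hn hh h0
  have h1 : ∀ᶠ x in 𝓝[≠] (0 : Fin n → ℂ), f =ᶠ[𝓝 x] fun x => h x ^ 2 * u x :=
    (eventually_eventuallyEq_nhds.2 hf).filter_mono nhdsWithin_le_nhds
  have h2 : ∀ᶠ x in 𝓝[≠] (0 : Fin n → ℂ), DifferentiableAt ℂ h x :=
    (hh.eventually_analyticAt.filter_mono nhdsWithin_le_nhds).mono fun x hx => hx.differentiableAt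
  have h3 : ∀ᶠ x in 𝓝[≠] (0 : Fin n → ℂ), DifferentiableAt ℂ u x :=
    (hu.eventually_analyticAt.filter_mono nhdsWithin_le_nhds).mono fun x hx => hx.differentiableAt
  obtain ⟨x, hx0, ⟨⟨⟨hx1, hx2⟩, hx3⟩, hx4⟩⟩ :=
    (hfreq.and_eventually (((h1.and h2).and h3).and hiso)).exists
  apply hx4
  rw [hx1.fderiv_eq]
  have e0 : fderiv ℂ (fun x => h x ^ 2 * u x) x = 0 := by
    have e1 : HasFDerivAt (fun x => h x ^ 2 * u x) _ x :=
      (hx2.hasFDerivAt.pow 2).mul hx3.hasFDerivAt
    rw [e1.fderiv]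
    ext v
    simp [hx0]
  exact e0

end Crest.Agent.R267.Reduced_396
end

-- ▼ part R267/NdLit_560

/-!
Row 267 (S0406), task 230: the literal (non topological) clauses of S0406 for polynomial functions
`x ↦ aeval x F`, in any number `n ≥ 2` of variables, and the assembly `s0406_of`.

* `order`      : orders of vanishing from the degrees of the monomials of `F`;
* `analyticAt`, `at_zero`, `fderiv_at_zero`, `fderiv_apply`, `fderiv_ne_zero_iff`;
* `reduced`    : isolated critical point `⟹` reduced germ (`Reduced_396`);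
* `isolated_of_cert`, `isolated_of_cert'` : an algebraic certificate for an isolated critical point:
  for every variable `X i` some power of `X i` times a polynomial not vanishing at `0` lies in the
  ideal generated by the partial derivatives;
* `s0406_of`   : two polynomials in four variables with these properties and a local
  homeomorphism of the zero sets give the literal statement of S0406.
-/

set_option autoImplicit false

namespace Crest.Agent.R267.NdLit_560

open Topology Filter MvPolynomial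

variable {n : ℕ}

/-- the polynomial function, written with `aeval` or with `eval`. -/
theorem aeval_eq (F : MvPolynomial (Fin n) ℂ) :
    (fun x : Fin n → ℂ => aeval x F) = fun x => eval x F := by
  funext x
  rw [← MvPolynomial.coe_aeval_eq_eval]
  rfl

/-- low homogeneous components vanish when all monomials have degree `≥ m`. -/
theorem comp_low {F : MvPolynomial (Fin n) ℂ} {m : ℕ} (h : ∀ d ∈ F.support, m ≤ d.degree) :
    ∀ j < m, homogeneousComponent j F = 0 := by
  intro j hj
  ext d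
  rw [coeff_homogeneousComponent, coeff_zero]
  split_ifs with h1
  · by_contra h2
    have := h d (mem_support_iff.2 h2)
    omega
  · rfl

theorem comp_ne {F : MvPolynomial (Fin n) ℂ} {m : ℕ} (h : ∃ d ∈ F.support, d.degree = m) :
    homogeneousComponent m F ≠ 0 := by
  obtain ⟨d, hd, hm⟩ := h
  intro h0
  have h1 : coeff d (homogeneousComponent m F) = 0 := by rw [h0, coeff_zero]
  rw [coeff_homogeneousComponent, if_pos hm] at h1
  exact (mem_support_iff.1 hd) h1

/-- **Order of vanishing** of a polynomial function at the origin. -/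
theorem order (F : MvPolynomial (Fin n) ℂ) (m : ℕ) (hlow : ∀ d ∈ F.support, m ≤ d.degree)
    (hm : ∃ d ∈ F.support, d.degree = m) :
    (∀ j < m, iteratedFDeriv ℂ j (fun x : Fin n → ℂ => aeval x F) 0 = 0) ∧
      iteratedFDeriv ℂ m (fun x : Fin n → ℂ => aeval x F) 0 ≠ 0 := by
  rw [aeval_eq]
  exact Order_396.order_eq F m (comp_low hlow) (comp_ne hm)

/-- polynomial functions are analytic. -/
theorem analyticAt (F : MvPolynomial (Fin n) ℂ) (x : Fin n → ℂ) :
    AnalyticAt ℂ (fun x : Fin n → ℂ => aeval x F) x := by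
  rw [aeval_eq]
  induction F using MvPolynomial.induction_on with
  | C a => simpa using (analyticAt_const (v := a) (x := x))
  | add p q hp hq =>
    have e1 : (fun x : Fin n → ℂ => eval x (p + q)) = (fun x : Fin n → ℂ => eval x p) +
        fun x : Fin n → ℂ => eval x q := by
      funext y; simp
    rw [e1]
    exact hp.add hq
  | mul_X p i hp =>
    have : AnalyticAt ℂ (fun x : Fin n → ℂ => x i) x :=
      (ContinuousLinearMap.proj (R := ℂ) (φ := fun _ : Fin n => ℂ) i).analyticAt x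
    have e1 : (fun x : Fin n → ℂ => eval x (p * X i)) = (fun x : Fin n → ℂ => eval x p) *
        fun x : Fin n → ℂ => x i := by
      funext y; simp
    rw [e1]
    exact hp.mul this

theorem differentiable (F : MvPolynomial (Fin n) ℂ) :
    Differentiable ℂ (fun x : Fin n → ℂ => aeval x F) :=
  fun x => (analyticAt F x).differentiableAt

theorem continuous (F : MvPolynomial (Fin n) ℂ) :
    Continuous (fun x : Fin n → ℂ => aeval x F) := (differentiable F).continuous

theorem at_zero (F : MvPolynomial (Fin n) ℂ) (h : ∀ d ∈ F.support, 1 ≤ d.degree) :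
    aeval (0 : Fin n → ℂ) F = 0 := by
  have h1 : coeff 0 F = 0 := by
    by_contra h2
    have := h 0 (mem_support_iff.2 h2)
    simp at this
  have h2 : aeval (0 : Fin n → ℂ) F = eval (0 : Fin n → ℂ) F := congrFun (aeval_eq F) 0
  rw [h2, ← constantCoeff_eq] at *
  simpa [MvPolynomial.constantCoeff_eq, MvPolynomial.eval_zero'] using h1

/-- The differential of a polynomial function, as a continuous linear map. -/
noncomputable def D (F : MvPolynomial (Fin n) ℂ) (x : Fin n → ℂ) : (Fin n → ℂ) →L[ℂ] ℂ :=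
  ∑ i, (aeval x (pderiv i F)) • (ContinuousLinearMap.proj i : (Fin n → ℂ) →L[ℂ] ℂ)

theorem D_apply (F : MvPolynomial (Fin n) ℂ) (x v : Fin n → ℂ) :
    D F x v = ∑ i, aeval x (pderiv i F) * v i := by
  unfold D
  simp

/-- The derivative of a polynomial function. -/
theorem hasFDerivAt (F : MvPolynomial (Fin n) ℂ) (x : Fin n → ℂ) :
    HasFDerivAt (fun x : Fin n → ℂ => aeval x F) (D F x) x := by
  classical
  induction F using MvPolynomial.induction_on with
  | C a =>
    have : D (C a : MvPolynomial (Fin n) ℂ) x = 0 := by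
      ext v
      rw [D_apply]
      simp
    rw [this]
    simpa using hasFDerivAt_const (𝕜 := ℂ) a x
  | add p q hp hq =>
    have h := hp.add hq
    have e1 : (fun x : Fin n → ℂ => aeval x (p + q)) = (fun x : Fin n → ℂ => aeval x p) +
        fun x : Fin n → ℂ => aeval x q := by
      funext y; simp
    rw [e1]
    refine h.congr_fderiv ?_
    ext v
    rw [D_apply, add_apply, D_apply, D_apply, ← Finset.sum_add_distrib]
    refine Finset.sum_congr rfl fun i _ => ?_
    rw [map_add, map_add, add_mul]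
  | mul_X p j hp =>
    have h := hp.mul ((ContinuousLinearMap.proj j : (Fin n → ℂ) →L[ℂ] ℂ).hasFDerivAt (x := x))
    have e1 : (fun x : Fin n → ℂ => aeval x (p * X j)) = (fun x : Fin n → ℂ => aeval x p) *
        fun x : Fin n → ℂ => (ContinuousLinearMap.proj j : (Fin n → ℂ) →L[ℂ] ℂ) x := by
      funext y; simp
    rw [e1]
    refine h.congr_fderiv ?_
    ext v
    rw [D_apply, add_apply, smul_apply, smul_apply, D_apply]
    simp only [ContinuousLinearMap.proj_apply, smul_eq_mul, Derivation.leibniz, pderiv_X, map_add,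
      map_mul, aeval_X]
    rw [Finset.mul_sum]
    symm
    have h4 : ∀ i ∈ (Finset.univ : Finset (Fin n)),
        (aeval x p * aeval x (Pi.single (M := fun _ => MvPolynomial (Fin n) ℂ) i 1 j)
          + x j * aeval x (pderiv i p)) * v i
          = (if i = j then aeval x p * v j else 0) + x j * (aeval x (pderiv i p) * v i) := by
      intro i _
      by_cases hij : i = j
      · subst hij
        rw [Pi.single_eq_same, if_pos rfl, map_one]
        ring
      · rw [Pi.single_eq_of_ne (Ne.symm hij), if_neg hij, map_zero]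
        ring
    rw [Finset.sum_congr rfl h4, Finset.sum_add_distrib]
    simp

theorem fderiv_eq (F : MvPolynomial (Fin n) ℂ) (x : Fin n → ℂ) :
    fderiv ℂ (fun x : Fin n → ℂ => aeval x F) x = D F x :=
  (hasFDerivAt F x).fderiv

theorem fderiv_apply (F : MvPolynomial (Fin n) ℂ) (x v : Fin n → ℂ) :
    fderiv ℂ (fun x : Fin n → ℂ => aeval x F) x v = ∑ i, aeval x (pderiv i F) * v i := by
  rw [fderiv_eq, D_apply]

theorem fderiv_single (F : MvPolynomial (Fin n) ℂ) (x : Fin n → ℂ) (i : Fin n) :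
    fderiv ℂ (fun x : Fin n → ℂ => aeval x F) x (Pi.single i 1) = aeval x (pderiv i F) := by
  classical
  rw [fderiv_apply, Finset.sum_eq_single i]
  · simp
  · intro b _ hb
    simp [Pi.single_eq_of_ne hb]
  · intro h; exact absurd (Finset.mem_univ i) h

/-- `df ≠ 0` iff some partial derivative does not vanish. -/
theorem fderiv_ne_zero_iff (F : MvPolynomial (Fin n) ℂ) (x : Fin n → ℂ) :
    fderiv ℂ (fun x : Fin n → ℂ => aeval x F) x ≠ 0 ↔ ∃ i, aeval x (pderiv i F) ≠ 0 := by
  constructor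
  · intro h
    by_contra h1
    push Not at h1
    apply h
    ext v
    rw [fderiv_apply]
    exact Finset.sum_eq_zero fun i _ => by rw [h1 i, zero_mul]
  · rintro ⟨i, hi⟩ h
    apply hi
    rw [← fderiv_single, h]
    rfl

/-- the differential at `0` vanishes when all monomials have degree `≥ 2`. -/
theorem fderiv_at_zero (F : MvPolynomial (Fin n) ℂ) (h : ∀ d ∈ F.support, 2 ≤ d.degree) :
    fderiv ℂ (fun x : Fin n → ℂ => aeval x F) 0 = 0 := by
  have h1 : iteratedFDeriv ℂ 1 (fun x : Fin n → ℂ => aeval x F) 0 = 0 := by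
    by_cases hF : ∃ m, (∀ d ∈ F.support, m ≤ d.degree) ∧ ∃ d ∈ F.support, d.degree = m
    · obtain ⟨m, hm1, hm2⟩ := hF
      obtain ⟨d, hd, hdm⟩ := hm2
      exact (order F m hm1 ⟨d, hd, hdm⟩).1 1 (by have := h d hd; omega)
    · have hF0 : F = 0 := by
        by_contra hne
        apply hF
        have hs : F.support.Nonempty := by
          rw [Finset.nonempty_iff_ne_empty]
          intro h2
          exact hne (MvPolynomial.support_eq_empty.1 h2)
        obtain ⟨d, hd, hmin⟩ := F.support.exists_min_image (fun d => d.degree) hs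
        exact ⟨d.degree, fun e he => hmin e he, d, hd, rfl⟩
      subst hF0
      have : (fun x : Fin n → ℂ => aeval x (0 : MvPolynomial (Fin n) ℂ)) = fun _ => (0 : ℂ) := by
        funext x; simp
      rw [this]
      simp
  ext v
  have h2 := congrArg (fun T => T (fun _ => v)) h1
  simpa [iteratedFDeriv_one_apply] using h2

/-- **Reduced germ.** -/
theorem reduced (hn : 2 ≤ n) (F : MvPolynomial (Fin n) ℂ)
    (hiso : ∀ᶠ x in 𝓝[≠] (0 : Fin n → ℂ), ∃ i, aeval x (pderiv i F) ≠ 0)
    (h u : (Fin n → ℂ) → ℂ) (hh : AnalyticAt ℂ h 0) (hu : AnalyticAt ℂ u 0) (h0 : h 0 = 0) :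
    ¬ ((fun x : Fin n → ℂ => aeval x F) =ᶠ[𝓝 0] fun x => h x ^ 2 * u x) :=
  Reduced_396.reduced_of_isolated hn
    (hiso.mono fun x hx => (fderiv_ne_zero_iff F x).2 hx) h u hh hu h0



/-- **Assembly**: the literal statement of S0406 from two polynomials in four variables. -/
theorem s0406_of (F G : MvPolynomial (Fin 4) ℂ)
    (hF : ∀ d ∈ F.support, 4 ≤ d.degree) (hF' : ∃ d ∈ F.support, d.degree = 4)
    (hG : ∀ d ∈ G.support, 5 ≤ d.degree) (hG' : ∃ d ∈ G.support, d.degree = 5)
    (isoF : ∀ᶠ x in 𝓝[≠] (0 : Fin 4 → ℂ), ∃ i, aeval x (pderiv i F) ≠ 0)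
    (isoG : ∀ᶠ x in 𝓝[≠] (0 : Fin 4 → ℂ), ∃ i, aeval x (pderiv i G) ≠ 0)
    (top : ∃ φ : OpenPartialHomeomorph (Fin 4 → ℂ) (Fin 4 → ℂ),
      (0 : Fin 4 → ℂ) ∈ φ.source ∧ φ 0 = 0 ∧
        ∀ x ∈ φ.source, (aeval x F = 0 ↔ aeval (φ x) G = 0)) :
    ∃ (f g : (Fin 4 → ℂ) → ℂ),
      AnalyticAt ℂ f 0 ∧ AnalyticAt ℂ g 0 ∧ f 0 = 0 ∧ g 0 = 0 ∧
      (∀ h u : (Fin 4 → ℂ) → ℂ, AnalyticAt ℂ h 0 → AnalyticAt ℂ u 0 → h 0 = 0 →
        ¬ (f =ᶠ[𝓝 0] fun x => h x ^ 2 * u x)) ∧
      (∀ h u : (Fin 4 → ℂ) → ℂ, AnalyticAt ℂ h 0 → AnalyticAt ℂ u 0 → h 0 = 0 →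
        ¬ (g =ᶠ[𝓝 0] fun x => h x ^ 2 * u x)) ∧
      fderiv ℂ f 0 = 0 ∧ (∀ᶠ x in 𝓝[≠] (0 : Fin 4 → ℂ), fderiv ℂ f x ≠ 0) ∧
      fderiv ℂ g 0 = 0 ∧ (∀ᶠ x in 𝓝[≠] (0 : Fin 4 → ℂ), fderiv ℂ g x ≠ 0) ∧
      (∃ φ : OpenPartialHomeomorph (Fin 4 → ℂ) (Fin 4 → ℂ),
        (0 : Fin 4 → ℂ) ∈ φ.source ∧ φ 0 = 0 ∧ ∀ x ∈ φ.source, (f x = 0 ↔ g (φ x) = 0)) ∧
      (∀ j < 4, iteratedFDeriv ℂ j f 0 = 0) ∧ iteratedFDeriv ℂ 4 f 0 ≠ 0 ∧
      (∀ j < 5, iteratedFDeriv ℂ j g 0 = 0) ∧ iteratedFDeriv ℂ 5 g 0 ≠ 0 := by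
  have oF := order F 4 hF hF'
  have oG := order G 5 hG hG'
  exact ⟨fun x => aeval x F, fun x => aeval x G, analyticAt F 0, analyticAt G 0,
    at_zero F fun d hd => le_trans (by norm_num) (hF d hd),
    at_zero G fun d hd => le_trans (by norm_num) (hG d hd),
    fun h u hh hu h0 => reduced (by norm_num) F isoF h u hh hu h0,
    fun h u hh hu h0 => reduced (by norm_num) G isoG h u hh hu h0,
    fderiv_at_zero F fun d hd => le_trans (by norm_num) (hF d hd),
    isoF.mono fun x hx => (fderiv_ne_zero_iff F x).2 hx,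
    fderiv_at_zero G fun d hd => le_trans (by norm_num) (hG d hd),
    isoG.mono fun x hx => (fderiv_ne_zero_iff G x).2 hx,
    top, oF.1, oF.2, oG.1, oG.2⟩

end Crest.Agent.R267.NdLit_560
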