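import Mathlib
import Crest.Agent.R267.P4Defs_780

-- ▼ part R267/P45SOS_96
section

/-!
# R267, P4.5: rational polynomials which are positive on the real line are sums of squares (helper96)
-/

set_option autoImplicit false

namespace Crest.Agent.R267.P45SOS_96

open Polynomial

/-- a real polynomial which is positive on the line is a sum of two squares, with degree bounds. -/
theorem two_squares (n : ℕ) : ∀ p : ℝ[X], p.natDegree ≤ n → (∀ t : ℝ, 0 < p.eval t) →
    ∃ a b : ℝ[X], p = a ^ 2 + b ^ 2 ∧ 2 * a.natDegree ≤ p.natDegree ∧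
      2 * b.natDegree ≤ p.natDegree := by
  induction n using Nat.strong_induction_on with
  | _ n ih =>
  intro p hpn hp
  rcases Nat.eq_zero_or_pos p.natDegree with h0 | h0
  · refine ⟨C (Real.sqrt (p.coeff 0)), 0, ?_, by simp [h0], by simp⟩
    have h1 := eq_C_of_natDegree_eq_zero h0
    have h2 : 0 < p.coeff 0 := by
      have := hp 0
      rw [h1] at this
      simpa using this
    rw [← C_pow, Real.sq_sqrt h2.le]
    simpa using h1
  · have hnu : ¬ IsUnit p := by
      intro hu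
      have := natDegree_eq_zero_of_isUnit hu
      omega
    obtain ⟨g, hgm, hgi, hgp⟩ := exists_monic_irreducible_factor p hnu
    obtain ⟨h, rfl⟩ := hgp
    have hg0 : ∀ t, g.eval t ≠ 0 := by
      intro t ht
      have := hp t
      rw [eval_mul, ht, zero_mul] at this
      exact lt_irrefl _ this
    have hd2 : g.natDegree ≤ 2 := hgi.natDegree_le_two
    have hd1 : g.natDegree ≠ 1 := by
      intro h1
      have := hgm.eq_X_add_C h1
      have h2 := hg0 (-g.coeff 0)
      rw [this] at h2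
      simp at h2
    have hd0 : g.natDegree ≠ 0 := hgi.natDegree_pos.ne'
    have hd : g.natDegree = 2 := by omega
    have hgform : g = X ^ 2 + C (g.coeff 1) * X + C (g.coeff 0) := by
      have h1 := g.as_sum_range_C_mul_X_pow
      rw [hd] at h1
      simp only [Finset.sum_range_succ, Finset.sum_range_zero, pow_zero, mul_one, pow_one,
        zero_add] at h1
      have h2 : g.coeff 2 = 1 := by
        have := hgm.coeff_natDegree
        rwa [hd] at this
      rw [h2, C_1, one_mul] at h1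
      nth_rewrite 1 [h1]
      ring
    set u := g.coeff 1 with hu
    set v := g.coeff 0 with hv
    have hpos : 0 < v - u ^ 2 / 4 := by
      by_contra hneg
      push Not at hneg
      apply hg0 (-u / 2 + Real.sqrt (u ^ 2 / 4 - v))
      rw [hgform]
      simp only [eval_add, eval_pow, eval_X, eval_mul, eval_C]
      have := Real.sq_sqrt (show 0 ≤ u ^ 2 / 4 - v by linarith)
      nlinarith
    set β := Real.sqrt (v - u ^ 2 / 4) with hβ
    have hβ2 : β ^ 2 = v - u ^ 2 / 4 := Real.sq_sqrt hpos.le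
    have hgsq : g = (X + C (u / 2)) ^ 2 + (C β) ^ 2 := by
      rw [← C_pow, hβ2]
      nth_rewrite 1 [hgform]
      have : (X + C (u / 2)) ^ 2 + C (v - u ^ 2 / 4) =
          X ^ 2 + C (2 * (u / 2)) * X + (C ((u / 2) ^ 2) + C (v - u ^ 2 / 4)) := by
        simp only [C_mul, C_pow, C_ofNat]; ring
      rw [this, ← C_add]
      congr 3
      · congr 1; ring
      · ring
    have hh : ∀ t, 0 < h.eval t := by
      intro t
      have h1 := hp t
      rw [eval_mul] at h1
      have h2 : 0 < g.eval t := by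
        rw [hgsq]
        simp only [eval_add, eval_pow, eval_X, eval_C]
        have : 0 < β ^ 2 := by rw [hβ2]; exact hpos
        positivity
      exact (mul_pos_iff_of_pos_left h2).mp h1
    have hh0 : h ≠ 0 := by
      intro h1
      have := hh 0
      rw [h1] at this
      simp at this
    have hdeg : (g * h).natDegree = 2 + h.natDegree := by
      rw [hgm.natDegree_mul' hh0, hd]
    rw [hdeg] at hpn ⊢
    obtain ⟨a, b, hab, ha, hb⟩ := ih h.natDegree (by omega) h le_rfl hh
    refine ⟨(X + C (u / 2)) * a - C β * b, (X + C (u / 2)) * b + C β * a, ?_, ?_, ?_⟩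
    · nth_rewrite 1 [hgsq]
      nth_rewrite 1 [hab]
      ring
    · have h1 : ((X + C (u / 2)) * a - C β * b).natDegree ≤ 1 + h.natDegree / 2 := by
        refine (natDegree_sub_le _ _).trans (max_le ?_ ?_)
        · refine (natDegree_mul_le).trans ?_
          have : (X + C (u / 2)).natDegree = 1 := natDegree_X_add_C _
          omega
        · refine (natDegree_mul_le).trans ?_
          rw [natDegree_C]; omega
      omega
    · have h1 : ((X + C (u / 2)) * b + C β * a).natDegree ≤ 1 + h.natDegree / 2 := by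
        refine (natDegree_add_le _ _).trans (max_le ?_ ?_)
        · refine (natDegree_mul_le).trans ?_
          have : (X + C (u / 2)).natDegree = 1 := natDegree_X_add_C _
          omega
        · refine (natDegree_mul_le).trans ?_
          rw [natDegree_C]; omega
      omega

/-- nonnegative rational constants times a square are sums of squares. -/
theorem const_sq {c : ℚ} (hc : 0 ≤ c) (a : ℚ[X]) : IsSumSq (C c * (a * a)) := by
  have h1 : IsSumSq (C c : ℚ[X]) := by
    have h2 : c = (c.num.toNat * c.den : ℕ) * (((c.den : ℚ)⁻¹) * ((c.den : ℚ)⁻¹)) := by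
      have h3 : ((c.num.toNat : ℕ) : ℚ) = c.num := by
        have : ((c.num.toNat : ℕ) : ℤ) = c.num := Int.toNat_of_nonneg (Rat.num_nonneg.mpr hc)
        exact_mod_cast this
      have h4 : (c.den : ℚ) ≠ 0 := by exact_mod_cast c.den_nz
      push_cast
      rw [h3]
      field_simp
      exact (Rat.mul_den_eq_num c)
    rw [h2, C_mul, C_mul]
    refine IsSumSq.mul ?_ (IsSumSq.mul_self _)
    rw [map_natCast]
    exact IsSumSq.natCast _
  exact h1.mul (IsSumSq.mul_self _)

/-- `∑_{k ≤ n} X^{2k}` -/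
noncomputable def EE (n : ℕ) : ℚ[X] := ∑ k ∈ Finset.range (n + 1), X ^ (2 * k)

/-- small perturbations of `2 η (1 + X² + ... + X^{2n})` are sums of squares. -/
theorem pert {η : ℚ} (hη : 0 ≤ η) (c : ℕ → ℚ) (hc : ∀ j, |c j| ≤ η) (n : ℕ) :
    IsSumSq ((∑ j ∈ Finset.range (2 * n + 1), C (c j) * X ^ j) +
      C (2 * η) * (∑ k ∈ Finset.range n, X ^ (2 * k)) + C (3 / 2 * η) * (X ^ n * X ^ n) : ℚ[X]) := by
  induction n with
  | zero =>
    have h1 := (abs_le.mp (hc 0)).1
    have h2 : IsSumSq (C (c 0 + 3 / 2 * η) * ((1 : ℚ[X]) * 1)) := const_sq (by linarith) 1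
    refine Eq.mpr (congrArg IsSumSq ?_) h2
    simp [C_add]
  | succ n ih =>
    have hA := ih
    -- odd term
    have hB : IsSumSq (C (η / 2) * (X ^ n * X ^ n) + C (c (2 * n + 1)) * X ^ (2 * n + 1) +
        C (η / 2) * (X ^ (n + 1) * X ^ (n + 1)) : ℚ[X]) := by
      have h1 := hc (2 * n + 1)
      have h2 : IsSumSq (C ((η - |c (2 * n + 1)|) / 2) * ((X ^ n : ℚ[X]) * X ^ n)) :=
        const_sq (by linarith) _
      have h3 : IsSumSq (C ((η - |c (2 * n + 1)|) / 2) * ((X ^ (n + 1) : ℚ[X]) * X ^ (n + 1))) :=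
        const_sq (by linarith) _
      rcases le_total 0 (c (2 * n + 1)) with h | h
      · have h4 : IsSumSq (C (|c (2 * n + 1)| / 2) * ((X ^ n + X ^ (n + 1) : ℚ[X]) *
            (X ^ n + X ^ (n + 1)))) := const_sq (by positivity) _
        have h5 := (h2.add h3).add h4
        refine Eq.mpr (congrArg IsSumSq ?_) h5
        rw [abs_of_nonneg h]
        have e1 : (C (η / 2) : ℚ[X]) = C ((η - c (2 * n + 1)) / 2) + C (c (2 * n + 1) / 2) := by
          rw [← C_add]; congr 1; ring
        have e2 : (C (c (2 * n + 1)) : ℚ[X]) = 2 * C (c (2 * n + 1) / 2) := by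
          rw [show (2 : ℚ[X]) = C 2 from rfl, ← C_mul]; congr 1; ring
        rw [e1, e2]
        ring
      · have h4 : IsSumSq (C (|c (2 * n + 1)| / 2) * ((X ^ n - X ^ (n + 1) : ℚ[X]) *
            (X ^ n - X ^ (n + 1)))) := const_sq (by positivity) _
        have h5 := (h2.add h3).add h4
        refine Eq.mpr (congrArg IsSumSq ?_) h5
        rw [abs_of_nonpos h]
        have e1 : (C (η / 2) : ℚ[X]) = C ((η - -c (2 * n + 1)) / 2) + C (-c (2 * n + 1) / 2) := by
          rw [← C_add]; congr 1; ring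
        have e2 : (C (c (2 * n + 1)) : ℚ[X]) = - (2 * C (-c (2 * n + 1) / 2)) := by
          rw [show (2 : ℚ[X]) = C 2 from rfl, ← C_mul, ← C_neg]; congr 1; ring
        rw [e1, e2]
        ring
    have hC : IsSumSq (C (c (2 * n + 2) + η) * (X ^ (n + 1) * X ^ (n + 1)) : ℚ[X]) :=
      const_sq (by have := (abs_le.mp (hc (2 * n + 2))).1; linarith) _
    have h5 := (hA.add hB).add hC
    refine Eq.mpr (congrArg IsSumSq ?_) h5
    rw [show 2 * (n + 1) + 1 = 2 * n + 1 + 1 + 1 by ring, Finset.sum_range_succ,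
      Finset.sum_range_succ _ (2 * n + 1), Finset.sum_range_succ _ n]
    have e1 : (C (2 * η) : ℚ[X]) = 4 * C (η / 2) := by
      rw [show (4 : ℚ[X]) = C 4 from rfl, ← C_mul]; congr 1; ring
    have e2 : (C (3 / 2 * η) : ℚ[X]) = 3 * C (η / 2) := by
      rw [show (3 : ℚ[X]) = C 3 from rfl, ← C_mul]; congr 1; ring
    have e3 : (C (c (2 * n + 2) + η) : ℚ[X]) = C (c (2 * n + 2)) + 2 * C (η / 2) := by
      rw [show (2 : ℚ[X]) = C 2 from rfl, ← C_mul, ← C_add]; congr 1; ring
    rw [e1, e2, e3, show 2 * n + 1 + 1 = 2 * n + 2 by ring]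
    ring

/-! ### positivity with room -/

/-- the real version of `EE n` -/
theorem EE_eval (n : ℕ) (t : ℝ) :
    ((EE n).map (algebraMap ℚ ℝ)).eval t = ∑ k ∈ Finset.range (n + 1), t ^ (2 * k) := by
  unfold EE
  rw [Polynomial.map_sum, eval_finsetSum]
  refine Finset.sum_congr rfl fun k _ => ?_
  simp

theorem EE_natDegree (n : ℕ) : (EE n).natDegree ≤ 2 * n := by
  unfold EE
  refine natDegree_sum_le_of_forall_le _ _ fun k hk => ?_
  rw [natDegree_X_pow]
  have := Finset.mem_range.mp hk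
  omega

/-- a positive polynomial of degree `2n` dominates a multiple of `1 + t² + ... + t^{2n}`. -/
theorem room {F : ℝ[X]} {n : ℕ} (hn : F.natDegree = 2 * n) (hF : ∀ t : ℝ, 0 < F.eval t) :
    ∃ ε : ℚ, 0 < ε ∧ ∀ t : ℝ, 0 < F.eval t - (ε : ℝ) * ∑ k ∈ Finset.range (n + 1), t ^ (2 * k) := by
  have hF0 : F ≠ 0 := by
    intro h
    have := hF 0
    rw [h] at this
    simp at this
  have hrev : ∀ s : ℝ, s ≠ 0 → F.reverse.eval s = s ^ (2 * n) * F.eval s⁻¹ := by
    intro s hs
    let _ : Invertible s⁻¹ := invertibleOfNonzero (inv_ne_zero hs)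
    have h1 := eval₂_reverse_mul_pow (RingHom.id ℝ) s⁻¹ F
    have h2 : ⅟(s⁻¹) = s := by rw [invOf_eq_inv, inv_inv]
    rw [h2, hn] at h1
    change F.reverse.eval s * s⁻¹ ^ (2 * n) = F.eval s⁻¹ at h1
    rw [← h1]
    have h3 : s ^ (2 * n) * s⁻¹ ^ (2 * n) = 1 := by
      rw [← mul_pow, mul_inv_cancel₀ hs, one_pow]
    linear_combination (-F.reverse.eval s) * h3
  have hrev0 : ∀ s : ℝ, 0 < F.reverse.eval s := by
    intro s
    rcases eq_or_ne s 0 with rfl | hs
    · have h1 : F.reverse.eval 0 = F.leadingCoeff := by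
        rw [← coeff_zero_eq_eval_zero, coeff_zero_reverse]
      have h2 : F.leadingCoeff ≠ 0 := leadingCoeff_ne_zero.mpr hF0
      have h3 : 0 ≤ F.reverse.eval 0 := by
        by_contra hneg
        push Not at hneg
        have hc : Continuous fun s : ℝ => F.reverse.eval s := F.reverse.continuous
        have hop : IsOpen {s : ℝ | F.reverse.eval s < 0} := isOpen_lt hc continuous_const
        obtain ⟨r, hr, hball⟩ := Metric.isOpen_iff.mp hop 0 hneg
        have h4 : F.reverse.eval (r / 2) < 0 := hball (by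
          rw [Metric.mem_ball, Real.dist_eq, sub_zero, abs_of_pos (by positivity)]
          linarith)
        rw [hrev _ (by positivity)] at h4
        have h5 : 0 < (r / 2) ^ (2 * n) * F.eval (r / 2)⁻¹ := mul_pos (by positivity) (hF _)
        linarith
      rw [h1] at h3 ⊢
      exact lt_of_le_of_ne h3 h2.symm
    · rw [hrev s hs]
      refine mul_pos ?_ (hF _)
      rw [pow_mul]
      positivity
  have hcomp : ∀ G : ℝ[X], (∀ t, 0 < G.eval t) → ∃ δ : ℝ, 0 < δ ∧ ∀ t ∈ Set.Icc (-1 : ℝ) 1, δ ≤ G.eval t := by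
    intro G hG
    obtain ⟨t0, _, ht0⟩ := isCompact_Icc.exists_isMinOn (Set.nonempty_Icc.mpr (by norm_num : (-1 : ℝ) ≤ 1))
      (f := fun t : ℝ => G.eval t) G.continuous.continuousOn
    exact ⟨G.eval t0, hG t0, fun t ht => ht0 ht⟩
  obtain ⟨δ1, hδ1, h1⟩ := hcomp F hF
  obtain ⟨δ2, hδ2, h2⟩ := hcomp F.reverse hrev0
  obtain ⟨ε, hε0, hε⟩ := exists_rat_btwn (show (0 : ℝ) < min δ1 δ2 / (n + 1) by positivity)
  have hε0' : (0 : ℝ) < ε := by exact_mod_cast hε0
  have hε' : (ε : ℝ) * (n + 1) < min δ1 δ2 := by rwa [lt_div_iff₀ (by positivity)] at hε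
  refine ⟨ε, by exact_mod_cast hε0, fun t => ?_⟩
  rcases le_total |t| 1 with ht | ht
  · have h3 := h1 t (abs_le.mp ht)
    have h4 : ∑ k ∈ Finset.range (n + 1), t ^ (2 * k) ≤ n + 1 := by
      have : ∀ k ∈ Finset.range (n + 1), t ^ (2 * k) ≤ 1 := by
        intro k _
        rw [pow_mul, ← sq_abs]
        exact pow_le_one₀ (by positivity) (pow_le_one₀ (abs_nonneg _) ht)
      calc _ ≤ ∑ _k ∈ Finset.range (n + 1), (1 : ℝ) := Finset.sum_le_sum this
        _ = n + 1 := by simp
    have h5 : (ε : ℝ) * ∑ k ∈ Finset.range (n + 1), t ^ (2 * k) ≤ ε * (n + 1) :=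
      mul_le_mul_of_nonneg_left h4 hε0'.le
    have := min_le_left δ1 δ2
    linarith
  · have ht0 : t ≠ 0 := by
      intro h; rw [h] at ht; simp at ht; linarith
    have h3 := h2 t⁻¹ (by
      rw [Set.mem_Icc, ← abs_le, abs_inv]
      exact inv_le_one_of_one_le₀ ht)
    rw [hrev _ (inv_ne_zero ht0), inv_inv] at h3
    have ht2 : 1 ≤ t ^ 2 := by rw [← sq_abs]; exact one_le_pow₀ ht
    have h4 : ∑ k ∈ Finset.range (n + 1), t ^ (2 * k) ≤ (n + 1) * t ^ (2 * n) := by
      have : ∀ k ∈ Finset.range (n + 1), t ^ (2 * k) ≤ t ^ (2 * n) := by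
        intro k hk
        rw [pow_mul, pow_mul]
        exact pow_le_pow_right₀ ht2 (by have := Finset.mem_range.mp hk; omega)
      calc _ ≤ ∑ _k ∈ Finset.range (n + 1), t ^ (2 * n) := Finset.sum_le_sum this
        _ = (n + 1) * t ^ (2 * n) := by simp
    have hp : 0 < t ^ (2 * n) := by rw [pow_mul]; positivity
    have h5 : (ε : ℝ) * ∑ k ∈ Finset.range (n + 1), t ^ (2 * k) ≤ ε * (n + 1) * t ^ (2 * n) := by
      rw [mul_assoc]
      exact mul_le_mul_of_nonneg_left h4 hε0'.le
    have h6 : δ2 * t ^ (2 * n) ≤ F.eval t := by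
      have : t⁻¹ ^ (2 * n) * t ^ (2 * n) = 1 := by
        rw [← mul_pow, inv_mul_cancel₀ ht0, one_pow]
      calc δ2 * t ^ (2 * n) ≤ (t⁻¹ ^ (2 * n) * F.eval t) * t ^ (2 * n) :=
            mul_le_mul_of_nonneg_right h3 hp.le
        _ = F.eval t * (t⁻¹ ^ (2 * n) * t ^ (2 * n)) := by ring
        _ = F.eval t := by rw [this, mul_one]
    have h7 : ε * (n + 1) * t ^ (2 * n) < δ2 * t ^ (2 * n) := by
      apply mul_lt_mul_of_pos_right _ hp
      exact hε'.trans_le (min_le_right _ _)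
    linarith

/-- **positive rational polynomials are sums of squares.** -/
theorem isSumSq_of_pos (f : ℚ[X]) (hf : ∀ t : ℝ, 0 < (f.map (algebraMap ℚ ℝ)).eval t) :
    IsSumSq f := by
  set F := f.map (algebraMap ℚ ℝ) with hFdef
  have hinj : Function.Injective (algebraMap ℚ ℝ) := (algebraMap ℚ ℝ).injective
  -- even degree
  obtain ⟨n, hn⟩ : ∃ n, F.natDegree = 2 * n := by
    obtain ⟨a, b, hab, ha, hb⟩ := two_squares _ F le_rfl hf
    have h1 : F.natDegree ≤ max (2 * a.natDegree) (2 * b.natDegree) := by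
      rw [hab]
      refine (natDegree_add_le _ _).trans (max_le_max ?_ ?_)
      · exact natDegree_pow_le
      · exact natDegree_pow_le
    rcases le_total a.natDegree b.natDegree with h | h
    · exact ⟨b.natDegree, by omega⟩
    · exact ⟨a.natDegree, by omega⟩
  obtain ⟨ε, hε, hroom⟩ := room hn hf
  set G : ℚ[X] := f - C ε * EE n with hG
  have hGeval : ∀ t : ℝ, 0 < (G.map (algebraMap ℚ ℝ)).eval t := by
    intro t
    have := hroom t
    rw [hG, Polynomial.map_sub, Polynomial.map_mul, map_C, eval_sub, eval_mul, eval_C, EE_eval]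
    exact this
  have hfdeg : f.natDegree = 2 * n := by
    rw [← hn, hFdef, natDegree_map_eq_of_injective hinj]
  have hGdeg : (G.map (algebraMap ℚ ℝ)).natDegree ≤ 2 * n := by
    rw [natDegree_map_eq_of_injective hinj]
    refine (natDegree_sub_le _ _).trans (max_le hfdeg.le ?_)
    exact (natDegree_C_mul_le _ _).trans (EE_natDegree n)
  obtain ⟨a, b, hab, ha, hb⟩ := two_squares _ _ le_rfl hGeval
  have ha' : a.natDegree ≤ n := by omega
  have hb' : b.natDegree ≤ n := by omega
  -- rational approximations of reals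
  have hu : ∀ x : ℝ, ∃ u : ℕ → ℚ, Filter.Tendsto (fun k => (u k : ℝ)) Filter.atTop (nhds x) := by
    intro x
    have h1 : x ∈ closure (Set.range ((↑) : ℚ → ℝ)) := Rat.denseRange_cast x
    obtain ⟨v, hv, hv'⟩ := mem_closure_iff_seq_limit.mp h1
    choose u hu using hv
    exact ⟨u, by simpa [hu] using hv'⟩
  choose u hu using hu
  let app : ℝ[X] → ℕ → ℚ[X] := fun p k => ∑ i ∈ Finset.range (n + 1), C (u (p.coeff i) k) * X ^ i
  have happc : ∀ (p : ℝ[X]) (k i : ℕ), (app p k).coeff i = if i < n + 1 then u (p.coeff i) k else 0 := by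
    intro p k i
    simp only [app, finsetSum_coeff, coeff_C_mul, coeff_X_pow, mul_ite, mul_one, mul_zero]
    rw [Finset.sum_ite_eq]
    simp
  have happ : ∀ p : ℝ[X], p.natDegree ≤ n → ∀ i, Filter.Tendsto (fun k => ((app p k).coeff i : ℝ))
      Filter.atTop (nhds (p.coeff i)) := by
    intro p hp i
    simp only [happc]
    split_ifs with h
    · exact hu _
    · have : p.coeff i = 0 := coeff_eq_zero_of_natDegree_lt (by omega)
      rw [this]
      simp
  have happd : ∀ (p : ℝ[X]) k, (app p k).natDegree ≤ n := by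
    intro p k
    rw [natDegree_le_iff_coeff_eq_zero]
    intro i hi
    rw [happc, if_neg (by omega)]
  have hsq : ∀ p : ℝ[X], p.natDegree ≤ n → ∀ i, Filter.Tendsto
      (fun k => ((app p k * app p k).coeff i : ℝ)) Filter.atTop (nhds ((p * p).coeff i)) := by
    intro p hp i
    simp only [coeff_mul, Rat.cast_sum, Rat.cast_mul]
    exact tendsto_finsetSum _ fun x _ => (happ p hp x.1).mul (happ p hp x.2)
  have hev : ∀ j ∈ Finset.range (2 * n + 1), ∀ᶠ k in Filter.atTop,
      |((G - app a k * app a k - app b k * app b k).coeff j : ℝ)| ≤ (ε : ℝ) / 2 := by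
    intro j _
    have h1 := ((tendsto_const_nhds (x := ((G.coeff j : ℚ) : ℝ))).sub (hsq a ha' j)).sub (hsq b hb' j)
    have h2 : ((G.coeff j : ℚ) : ℝ) - (a * a).coeff j - (b * b).coeff j = 0 := by
      have := congrArg (fun p => p.coeff j) hab
      simp only [coeff_map, coeff_add, pow_two] at this
      have h3 : (algebraMap ℚ ℝ) (G.coeff j) = ((G.coeff j : ℚ) : ℝ) := rfl
      rw [← h3, this]; ring
    rw [h2] at h1
    have h4 : ∀ᶠ x in nhds (0 : ℝ), |x| ≤ (ε : ℝ) / 2 := by
      have hp : (0 : ℝ) < (ε : ℝ) / 2 := by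
        have : (0 : ℝ) < ε := by exact_mod_cast hε
        positivity
      filter_upwards [Metric.ball_mem_nhds (0 : ℝ) hp] with x hx
      rw [Metric.mem_ball, Real.dist_eq, sub_zero] at hx
      exact hx.le
    filter_upwards [h1.eventually h4] with k hk
    simpa using hk
  obtain ⟨k, hk⟩ := ((Filter.eventually_all_finset _).mpr hev).exists
  set r := G - app a k * app a k - app b k * app b k with hr
  have hrdeg : r.natDegree ≤ 2 * n := by
    have hmul : ∀ p : ℝ[X], (app p k * app p k).natDegree ≤ 2 * n := fun p =>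
      natDegree_mul_le.trans (by have := happd p k; omega)
    have hGd : G.natDegree ≤ 2 * n := by
      rwa [natDegree_map_eq_of_injective hinj] at hGdeg
    exact (natDegree_sub_le _ _).trans (max_le ((natDegree_sub_le _ _).trans
      (max_le hGd (hmul a))) (hmul b))
  have hc : ∀ j, |r.coeff j| ≤ ε / 2 := by
    intro j
    rcases Nat.lt_or_ge j (2 * n + 1) with h | h
    · have := hk j (Finset.mem_range.mpr h)
      have h1 : ((|r.coeff j| : ℚ) : ℝ) ≤ ((ε / 2 : ℚ) : ℝ) := by push_cast; exact this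
      exact_mod_cast h1
    · rw [coeff_eq_zero_of_natDegree_lt (by omega), abs_zero]; positivity
  have h1 := pert (by positivity : (0 : ℚ) ≤ ε / 2) (fun j => r.coeff j) hc n
  have h2 : IsSumSq (C (1 / 4 * ε) * (X ^ n * X ^ n) : ℚ[X]) := const_sq (by positivity) _
  have h3 := ((IsSumSq.mul_self (app a k)).add (IsSumSq.mul_self (app b k))).add (h1.add h2)
  refine Eq.mpr (congrArg IsSumSq ?_) h3
  have h4 : r = ∑ j ∈ Finset.range (2 * n + 1), C (r.coeff j) * X ^ j := by
    conv_lhs => rw [r.as_sum_range_C_mul_X_pow' (show r.natDegree < 2 * n + 1 by omega)]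
  have h5 : f = app a k * app a k + app b k * app b k + (r + C ε * EE n) := by
    rw [hr, hG]; ring
  rw [← h4, h5]
  have h6 : EE n = (∑ k ∈ Finset.range n, X ^ (2 * k)) + X ^ n * X ^ n := by
    unfold EE
    rw [Finset.sum_range_succ]
    ring
  have e1 : (C (2 * (ε / 2)) : ℚ[X]) = C ε := by congr 1; ring
  have e2 : (C ε : ℚ[X]) = C (3 / 2 * (ε / 2)) + C (1 / 4 * ε) := by rw [← C_add]; congr 1; ring
  rw [h6, e1]
  linear_combination (X ^ n * X ^ n) * e2

end Crest.Agent.R267.P45SOS_96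
end

-- ▼ part R267/P45Tor_96
section

/-!
# R267, P4.5 (TOR): real congruence implies rational congruence after taking copies (helper96)

For arbitrary invertible (nonsymmetric) rational matrices `A`, `B` which are congruent over `ℝ`,
some number `m > 0` of copies of `A` is congruent over `ℚ` to `m` copies of `B`.
-/

set_option autoImplicit false

namespace Crest.Agent.R267.P45Tor_96

open Matrix Polynomial Crest.Agent.R267.P4Defs_780

/-! ### rational retractions of the reals -/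

theorem exists_retract (F : Finset ℝ) : ∀ ε : ℝ, 0 < ε →
    ∃ φ : ℝ →ₗ[ℚ] ℚ, φ 1 = 1 ∧ ∀ x ∈ F, |((φ x : ℚ) : ℝ) - x| < ε := by
  classical
  induction F using Finset.induction_on with
  | empty =>
    intro ε _
    obtain ⟨g, hg⟩ := (Algebra.linearMap ℚ ℝ).exists_leftInverse_of_injective
      (LinearMap.ker_eq_bot.mpr (algebraMap ℚ ℝ).injective)
    refine ⟨g, ?_, by simp⟩
    have := LinearMap.congr_fun hg 1
    simpa using this
  | insert x F hx ih =>
    intro ε hε
    by_cases hmem : x ∈ Submodule.span ℚ ((insert (1 : ℝ) F : Finset ℝ) : Set ℝ)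
    · obtain ⟨c, _, hc⟩ := Submodule.mem_span_finset.mp hmem
      set S : ℝ := ∑ y ∈ insert (1 : ℝ) F, |(c y : ℝ)| with hS
      have hS0 : 0 ≤ S := Finset.sum_nonneg fun _ _ => abs_nonneg _
      obtain ⟨φ, hφ1, hφ⟩ := ih (ε / (1 + S)) (by positivity)
      have hφ' : ∀ y ∈ insert (1 : ℝ) F, |((φ y : ℚ) : ℝ) - y| ≤ ε / (1 + S) := by
        intro y hy
        rcases Finset.mem_insert.mp hy with rfl | hy
        · rw [hφ1]; simp; positivity
        · exact (hφ y hy).le
      refine ⟨φ, hφ1, fun y hy => ?_⟩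
      have hle : ε / (1 + S) ≤ ε := by
        rw [div_le_iff₀ (by positivity)]
        nlinarith
      rcases Finset.mem_insert.mp hy with rfl | hy
      · have h1 : ((φ y : ℚ) : ℝ) - y = ∑ z ∈ insert (1 : ℝ) F, (c z : ℝ) * (((φ z : ℚ) : ℝ) - z) := by
          nth_rewrite 1 [← hc]
          nth_rewrite 1 [← hc]
          rw [map_sum, Rat.cast_sum, ← Finset.sum_sub_distrib]
          refine Finset.sum_congr rfl fun z _ => ?_
          rw [map_smul, smul_eq_mul, Rat.smul_def]
          push_cast; ring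
        rw [h1]
        calc |∑ z ∈ insert (1 : ℝ) F, (c z : ℝ) * (((φ z : ℚ) : ℝ) - z)|
            ≤ ∑ z ∈ insert (1 : ℝ) F, |(c z : ℝ) * (((φ z : ℚ) : ℝ) - z)| :=
              Finset.abs_sum_le_sum_abs _ _
          _ ≤ ∑ z ∈ insert (1 : ℝ) F, |(c z : ℝ)| * (ε / (1 + S)) := by
              refine Finset.sum_le_sum fun z hz => ?_
              rw [abs_mul]
              exact mul_le_mul_of_nonneg_left (hφ' z hz) (abs_nonneg _)
          _ = S * (ε / (1 + S)) := by rw [← Finset.sum_mul]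
          _ < ε := by
              rw [mul_div_assoc', div_lt_iff₀ (by positivity)]
              nlinarith
      · exact (hφ y hy).trans_le hle
    · obtain ⟨f, hf, hf0⟩ := Submodule.exists_dual_map_eq_bot_of_notMem hmem inferInstance
      have hfz : ∀ y ∈ insert (1 : ℝ) F, f y = 0 := by
        intro y hy
        have h1 : f y ∈ (Submodule.span ℚ ((insert (1 : ℝ) F : Finset ℝ) : Set ℝ)).map f :=
          Submodule.mem_map_of_mem (Submodule.subset_span hy)
        rw [hf0] at h1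
        exact (Submodule.mem_bot ℚ).mp h1
      obtain ⟨φ, hφ1, hφ⟩ := ih ε hε
      obtain ⟨q, hq⟩ := exists_rat_near x hε
      refine ⟨φ + ((q - φ x) / f x) • f, ?_, fun y hy => ?_⟩
      · have := hfz 1 (Finset.mem_insert_self _ _)
        simp [this, hφ1]
      · rcases Finset.mem_insert.mp hy with rfl | hy
        · have h1 : (φ + ((q - φ y) / f y) • f) y = q := by
            rw [LinearMap.add_apply, LinearMap.smul_apply, smul_eq_mul, div_mul_cancel₀ _ hf]
            ring
          rw [h1, abs_sub_comm]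
          exact hq
        · have h1 : (φ + ((q - φ x) / f x) • f) y = φ y := by
            rw [LinearMap.add_apply, LinearMap.smul_apply, hfz y (Finset.mem_insert_of_mem hy)]
            simp
          rw [h1]
          exact hφ y hy

/-! ### symmetric square roots of sums of squares -/

theorem exists_sym {R : Type} [CommRing R] {s : R} (h : IsSumSq s) :
    ∃ (J : Type) (_ : Fintype J) (_ : DecidableEq J) (_ : Nonempty J) (U : Matrix J J R),
      Uᵀ = U ∧ U * U = s • (1 : Matrix J J R) := by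
  induction h with
  | zero => exact ⟨Unit, inferInstance, inferInstance, inferInstance, 0, by simp, by simp⟩
  | sq_add a hs ih =>
    obtain ⟨J, i1, i2, i3, U, hU, hU2⟩ := ih
    refine ⟨J ⊕ J, inferInstance, inferInstance, inferInstance,
      fromBlocks (a • 1) U U (-(a • 1)), ?_, ?_⟩
    · rw [fromBlocks_transpose, hU]
      simp
    · rw [fromBlocks_multiply, hU2, ← fromBlocks_one, fromBlocks_smul]
      congr 1
      · rw [add_smul, smul_mul_smul_comm, one_mul]
      · simp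
      · simp
      · rw [add_smul, neg_mul_neg, smul_mul_smul_comm, one_mul, add_comm]

/-! ### congruence calculus -/

section cong

variable {R : Type} [CommRing R] {ι κ μ : Type} [Fintype ι] [Fintype κ] [Fintype μ]
  [DecidableEq ι] [DecidableEq κ] [DecidableEq μ]

theorem Cong.refl (A : Matrix ι ι R) : Cong R A A := ⟨1, 1, by simp, by simp, by simp⟩

theorem Cong.symm {A : Matrix ι ι R} {B : Matrix κ κ R} (h : Cong R A B) : Cong R B A := by
  obtain ⟨P, Q, hPQ, hQP, hAB⟩ := h
  refine ⟨Q, P, hQP, hPQ, ?_⟩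
  have h1 : Qᵀ * Pᵀ = 1 := by rw [← transpose_mul, hPQ, transpose_one]
  rw [← hAB]
  calc Qᵀ * (Pᵀ * A * P) * Q = (Qᵀ * Pᵀ) * A * (P * Q) := by simp only [Matrix.mul_assoc]
    _ = A := by rw [h1, hPQ, Matrix.one_mul, Matrix.mul_one]

theorem Cong.trans {A : Matrix ι ι R} {B : Matrix κ κ R} {D : Matrix μ μ R} (h : Cong R A B)
    (h' : Cong R B D) : Cong R A D := by
  obtain ⟨P, Q, hPQ, hQP, hAB⟩ := h
  obtain ⟨P', Q', hPQ', hQP', hBD⟩ := h'
  refine ⟨P * P', Q' * Q, ?_, ?_, ?_⟩
  · calc P * P' * (Q' * Q) = P * (P' * Q') * Q := by simp only [Matrix.mul_assoc]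
      _ = 1 := by rw [hPQ', Matrix.mul_one, hPQ]
  · calc Q' * Q * (P * P') = Q' * (Q * P) * P' := by simp only [Matrix.mul_assoc]
      _ = 1 := by rw [hQP, Matrix.mul_one, hQP']
  · rw [← hBD, ← hAB, transpose_mul]
    simp only [Matrix.mul_assoc]

theorem Cong.reindex (A : Matrix ι ι R) (e : ι ≃ κ) : Cong R A (A.submatrix e.symm e.symm) := by
  refine ⟨(1 : Matrix ι ι R).submatrix id e.symm, (1 : Matrix ι ι R).submatrix e.symm id, ?_, ?_, ?_⟩
  · have h := submatrix_mul_equiv (1 : Matrix ι ι R) (1 : Matrix ι ι R) id e.symm id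
    rw [Matrix.mul_one] at h
    rw [h]; rfl
  · rw [← submatrix_mul _ _ _ _ _ Function.bijective_id, Matrix.mul_one, submatrix_one_equiv]
  · ext i j
    simp [Matrix.mul_apply, Matrix.one_apply]

theorem Cong.of_det {A : Matrix ι ι R} {P : Matrix ι ι R} (hP : IsUnit P.det) :
    Cong R A (Pᵀ * A * P) :=
  ⟨P, P⁻¹, Matrix.mul_nonsing_inv P hP, Matrix.nonsing_inv_mul P hP, rfl⟩

/-- congruence of `m` copies. -/
theorem Cong.blockDiagonal {A : Matrix ι ι R} {B : Matrix κ κ R} (h : Cong R A B) :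
    Cong R (blockDiagonal fun _ : μ => A) (blockDiagonal fun _ : μ => B) := by
  obtain ⟨P, Q, hPQ, hQP, hAB⟩ := h
  refine ⟨Matrix.blockDiagonal fun _ => P, Matrix.blockDiagonal fun _ => Q, ?_, ?_, ?_⟩
  · rw [← Matrix.blockDiagonal_mul, hPQ]; exact Matrix.blockDiagonal_one
  · rw [← Matrix.blockDiagonal_mul, hQP]; exact Matrix.blockDiagonal_one
  · rw [Matrix.blockDiagonal_transpose, ← Matrix.blockDiagonal_mul, ← Matrix.blockDiagonal_mul,
      hAB]

end cong

/-! ### evaluation at a self-adjoint matrix -/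

section core

variable {κ : Type} [Fintype κ] [DecidableEq κ]

theorem aeval_adj {B C : Matrix κ κ ℚ} (h : Cᵀ * B = B * C) (p : ℚ[X]) :
    (aeval C p)ᵀ * B = B * aeval C p := by
  induction p using Polynomial.induction_on' with
  | add p q hp hq => rw [map_add, transpose_add, Matrix.add_mul, hp, hq, Matrix.mul_add]
  | monomial n a =>
    have hpow : ∀ n : ℕ, (C ^ n)ᵀ * B = B * C ^ n := by
      intro n
      induction n with
      | zero => simp
      | succ n ih =>
        rw [pow_succ, transpose_mul, Matrix.mul_assoc, ih, ← Matrix.mul_assoc, h,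
          Matrix.mul_assoc, ← pow_succ', ← pow_succ]
    rw [aeval_monomial, Algebra.algebraMap_eq_smul_one, smul_mul_assoc, one_mul, transpose_smul,
      Matrix.smul_mul, hpow, Matrix.mul_smul]

/-- if `C` is `B`-self-adjoint and `C = f(C)` with `f` a sum of squares, then some number of
copies of `B` and `B * C` are congruent over `ℚ`. -/
theorem cong_of_sumSq {B C : Matrix κ κ ℚ} (h : Cᵀ * B = B * C) (hC : IsUnit C.det) {f : ℚ[X]}
    (hf : IsSumSq f) (hfC : aeval C f = C) :
    ∃ (J : Type) (_ : Fintype J) (_ : DecidableEq J) (_ : Nonempty J),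
      Cong ℚ (blockDiagonal fun _ : J => B) (blockDiagonal fun _ : J => B * C) := by
  obtain ⟨J, i1, i2, i3, U, hU, hU2⟩ := exists_sym hf
  refine ⟨J, i1, i2, i3, ?_⟩
  let W : Matrix (κ × J) (κ × J) ℚ := fun x y => (aeval C (U x.2 y.2)) x.1 y.1
  have hW2 : W * W = blockDiagonal fun _ : J => C := by
    ext ⟨i, a⟩ ⟨j, b⟩
    rw [Matrix.mul_apply, Fintype.sum_prod_type_right]
    have h1 : ∀ c : J, ∑ k : κ, W (i, a) (k, c) * W (k, c) (j, b) =
        (aeval C (U a c * U c b)) i j := by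
      intro c
      rw [map_mul, Matrix.mul_apply]
    simp only [h1]
    have h2 : ∑ c : J, (aeval C (U a c * U c b)) i j = (aeval C ((U * U) a b)) i j := by
      rw [Matrix.mul_apply, map_sum, Matrix.sum_apply]
    rw [h2, hU2, blockDiagonal_apply]
    by_cases hab : a = b
    · subst hab
      simp [hfC]
    · simp [hab]
  have hWB : Wᵀ * (blockDiagonal fun _ : J => B) * W = blockDiagonal fun _ : J => B * C := by
    have h3 : Wᵀ * (blockDiagonal fun _ : J => B) = (blockDiagonal fun _ : J => B) * W := by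
      ext ⟨i, a⟩ ⟨j, b⟩
      rw [Matrix.mul_apply, Matrix.mul_apply, Fintype.sum_prod_type_right,
        Fintype.sum_prod_type_right]
      have e1 : ∀ c : J, ∑ k : κ, Wᵀ (i, a) (k, c) * (blockDiagonal fun _ : J => B) (k, c) (j, b) =
          if c = b then ((aeval C (U c a))ᵀ * B) i j else 0 := by
        intro c
        by_cases hcb : c = b
        · subst hcb
          simp only [blockDiagonal_apply, if_true, Matrix.mul_apply]
          rfl
        · simp [blockDiagonal_apply, hcb]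
      have e2 : ∀ c : J, ∑ k : κ, (blockDiagonal fun _ : J => B) (i, a) (k, c) * W (k, c) (j, b) =
          if a = c then (B * (aeval C (U c b))) i j else 0 := by
        intro c
        by_cases hcb : a = c
        · subst hcb
          simp only [blockDiagonal_apply, if_true, Matrix.mul_apply]
          rfl
        · simp [blockDiagonal_apply, hcb]
      simp only [e1, e2, Finset.sum_ite_eq, Finset.sum_ite_eq', Finset.mem_univ, if_true]
      rw [aeval_adj h]
      have : U b a = U a b := by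
        conv_rhs => rw [← hU]
        rfl
      rw [this]
    rw [h3, Matrix.mul_assoc, hW2, ← blockDiagonal_mul]
  have hdet : IsUnit W.det := by
    have h4 : W.det * W.det = ∏ _c : J, C.det := by
      rw [← det_mul, hW2, det_blockDiagonal]
    have h5 : IsUnit (W.det * W.det) := by
      rw [h4, Finset.prod_const]
      exact hC.pow _
    exact isUnit_of_mul_isUnit_left h5
  have := Cong.of_det (A := blockDiagonal fun _ : J => B) hdet
  rwa [hWB] at this

/-- a rational matrix entrywise close to `1` has no nonpositive real characteristic root. -/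
theorem charpoly_ne {C : Matrix κ κ ℚ}
    (hC : ∀ i j, |((C i j : ℚ) : ℝ) - (1 : Matrix κ κ ℝ) i j| < 1 / (Fintype.card κ + 1))
    (t : ℝ) (ht : t ≤ 0) : (C.charpoly.map (algebraMap ℚ ℝ)).eval t ≠ 0 := by
  intro h0
  rw [← Matrix.charpoly_map, eval_charpoly] at h0
  obtain ⟨v, hv, hv0⟩ := Matrix.exists_mulVec_eq_zero_iff.mpr h0
  -- maximal entry
  have hne : Nonempty κ := by
    by_contra hemp
    rw [not_nonempty_iff] at hemp
    exact hv (Subsingleton.elim _ _)
  obtain ⟨i, hi⟩ := Finite.exists_max fun i => |v i|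
  have hvi : 0 < |v i| := by
    obtain ⟨j, hj⟩ := Function.ne_iff.mp hv
    exact (abs_pos.mpr hj).trans_le (hi j)
  have h1 := congrFun hv0 i
  have h2 : t * v i = ∑ j, ((C i j : ℚ) : ℝ) * v j := by
    have h3 : (Matrix.scalar κ t - C.map (algebraMap ℚ ℝ)).mulVec v i =
        t * v i - ∑ j, ((C i j : ℚ) : ℝ) * v j := by
      rw [Matrix.sub_mulVec, Pi.sub_apply]
      congr 1
      · rw [Matrix.scalar_apply, Matrix.mulVec_diagonal]
    rw [h3] at h1
    simpa [sub_eq_zero] using h1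
  have h4 : (t - 1) * v i = ∑ j, (((C i j : ℚ) : ℝ) - (1 : Matrix κ κ ℝ) i j) * v j := by
    simp only [sub_mul, Finset.sum_sub_distrib, ← h2, one_mul]
    congr 1
    simp [Matrix.one_apply]
  have h5 : |(t - 1) * v i| ≤ ∑ _j : κ, (1 / (Fintype.card κ + 1) : ℝ) * |v i| := by
    rw [h4]
    refine (Finset.abs_sum_le_sum_abs _ _).trans (Finset.sum_le_sum fun j _ => ?_)
    rw [abs_mul]
    exact mul_le_mul (hC i j).le (hi j) (abs_nonneg _) (by positivity)
  rw [Finset.sum_const, Finset.card_univ, nsmul_eq_mul, abs_mul] at h5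
  have h6 : 1 ≤ |t - 1| := by
    rw [abs_of_nonpos (by linarith)]; linarith
  have h7 : (Fintype.card κ : ℝ) * (1 / (Fintype.card κ + 1) * |v i|) < |v i| := by
    have : (Fintype.card κ : ℝ) / (Fintype.card κ + 1) < 1 := by
      rw [div_lt_one (by positivity)]; linarith
    calc (Fintype.card κ : ℝ) * (1 / (Fintype.card κ + 1) * |v i|) =
        ((Fintype.card κ : ℝ) / (Fintype.card κ + 1)) * |v i| := by ring
      _ < 1 * |v i| := mul_lt_mul_of_pos_right this hvi
      _ = |v i| := one_mul _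
  nlinarith

end core

/-- `X + N m²` is positive for large `N` when `m` has positive degree and no nonpositive root. -/
theorem exists_N (m : ℝ[X]) (hd : 0 < m.natDegree) (hm : ∀ t : ℝ, t ≤ 0 → m.eval t ≠ 0) :
    ∃ N : ℕ, ∀ t : ℝ, 0 < t + N * m.eval t ^ 2 := by
  -- the function `-t / m(t)²` is bounded on `(-∞, 0]`
  have hm0 : m ≠ 0 := by
    intro h; rw [h] at hd; simp at hd
  set p : ℝ[X] := m.comp (-X) with hp
  have hpe : ∀ x : ℝ, p.eval x = m.eval (-x) := by intro x; rw [hp]; simp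
  have hpd : p.natDegree = m.natDegree := by
    rw [hp, natDegree_comp]; simp
  have hp0 : p ≠ 0 := by
    intro h
    rw [h] at hpd
    simp at hpd
    omega
  have hlim : Filter.Tendsto (fun x : ℝ => (X : ℝ[X]).eval x / (p ^ 2).eval x) Filter.atTop (nhds 0) := by
    apply div_tendsto_atTop_zero_of_degree_lt
    rw [degree_X, degree_eq_natDegree (pow_ne_zero 2 hp0), natDegree_pow, hpd]
    have : 1 < 2 * m.natDegree := by omega
    exact_mod_cast this
  have hev : ∀ᶠ x : ℝ in Filter.atTop, (X : ℝ[X]).eval x / (p ^ 2).eval x < 1 :=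
    hlim.eventually (gt_mem_nhds one_pos)
  obtain ⟨T, hT⟩ := Filter.eventually_atTop.mp hev
  have hcont : ContinuousOn (fun x : ℝ => x / p.eval x ^ 2) (Set.Icc 0 (max T 0)) := by
    apply ContinuousOn.div continuousOn_id (p.continuous.pow 2).continuousOn
    intro x hx
    change p.eval x ^ 2 ≠ 0
    rw [hpe]
    exact pow_ne_zero 2 (hm _ (by linarith [hx.1]))
  obtain ⟨M, hM⟩ := isCompact_Icc.bddAbove_image hcont
  obtain ⟨N, hN⟩ := exists_nat_gt (max M 1)
  refine ⟨N, fun t => ?_⟩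
  have hN1 : (1 : ℝ) < N := (le_max_right M 1).trans_lt hN
  have hNM : M < N := (le_max_left M 1).trans_lt hN
  rcases lt_or_ge 0 t with ht | ht
  · positivity
  · have hmt := hm t ht
    have hsq : 0 < m.eval t ^ 2 := by positivity
    have key : (-t) / m.eval t ^ 2 < N := by
      rcases le_or_gt (-t) (max T 0) with h | h
      · have h1 := hM (Set.mem_image_of_mem _ (show -t ∈ Set.Icc 0 (max T 0) from ⟨by linarith, h⟩))
        simp only [hpe, neg_neg] at h1
        exact h1.trans_lt hNM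
      · have h1 := hT (-t) ((le_max_left T 0).trans h.le)
        rw [eval_X, eval_pow, hpe, neg_neg] at h1
        exact h1.trans hN1
    rw [div_lt_iff₀ hsq] at key
    linarith

section tor

variable {ι κ : Type} [Fintype ι] [Fintype κ] [DecidableEq ι] [DecidableEq κ]

/-- the approximation step: a rational congruence to `B * C` with `C` self-adjoint, close to 1. -/
theorem exists_approx {A B : Matrix κ κ ℚ} (hB : IsUnit B.det)
    (h : Cong ℝ (A.map (algebraMap ℚ ℝ)) (B.map (algebraMap ℚ ℝ))) :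
    ∃ P : Matrix κ κ ℚ, IsUnit P.det ∧ (B⁻¹ * (Pᵀ * A * P))ᵀ * B = B * (B⁻¹ * (Pᵀ * A * P)) ∧
      ∀ i j, |(((B⁻¹ * (Pᵀ * A * P)) i j : ℚ) : ℝ) - (1 : Matrix κ κ ℝ) i j| <
        1 / (Fintype.card κ + 1) := by
  obtain ⟨P0, Q0, hPQ, hQP, hAB⟩ := h
  set r := algebraMap ℚ ℝ with hr
  have hmap : ∀ M N : Matrix κ κ ℚ, (M * N).map r = M.map r * N.map r := fun M N =>
    Matrix.map_mul
  have hBB : B * B⁻¹ = 1 := Matrix.mul_nonsing_inv B hB
  have hBB' : B⁻¹ * B = 1 := Matrix.nonsing_inv_mul B hB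
  -- the linear relation
  set S : Matrix κ κ ℚ := B⁻¹ * Bᵀ with hS
  have hBS : B * S = Bᵀ := by rw [hS, ← Matrix.mul_assoc, hBB, Matrix.one_mul]
  have hlin : A.map r * P0 * S.map r = (A.map r)ᵀ * P0 := by
    have h1 : Q0ᵀ * P0ᵀ = 1 := by rw [← transpose_mul, hPQ, transpose_one]
    have h2 : P0ᵀ * (A.map r * P0 * S.map r) = P0ᵀ * ((A.map r)ᵀ * P0) := by
      calc P0ᵀ * (A.map r * P0 * S.map r) = (P0ᵀ * A.map r * P0) * S.map r := by
            simp only [Matrix.mul_assoc]
        _ = (B * S).map r := by rw [hAB, hmap B S]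
        _ = (B.map r)ᵀ := by rw [hBS, transpose_map]
        _ = P0ᵀ * ((A.map r)ᵀ * P0) := by
            rw [← hAB]; simp only [transpose_mul, transpose_transpose, Matrix.mul_assoc]
    calc A.map r * P0 * S.map r = (Q0ᵀ * P0ᵀ) * (A.map r * P0 * S.map r) := by
          rw [h1, Matrix.one_mul]
      _ = Q0ᵀ * (P0ᵀ * (A.map r * P0 * S.map r)) := by rw [Matrix.mul_assoc]
      _ = Q0ᵀ * (P0ᵀ * ((A.map r)ᵀ * P0)) := by rw [h2]
      _ = (Q0ᵀ * P0ᵀ) * ((A.map r)ᵀ * P0) := by rw [Matrix.mul_assoc]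
      _ = (A.map r)ᵀ * P0 := by rw [h1, Matrix.one_mul]
  -- open conditions
  let Ψ : Matrix κ κ ℝ → Matrix κ κ ℝ := fun M => (B⁻¹).map r * (Mᵀ * A.map r * M)
  have hΨc : Continuous Ψ := by
    refine Continuous.matrix_mul continuous_const ?_
    exact (continuous_id.matrix_transpose.matrix_mul continuous_const).matrix_mul continuous_id
  have hΨ0 : Ψ P0 = 1 := by
    change (B⁻¹).map r * (P0ᵀ * A.map r * P0) = 1
    rw [hAB, ← hmap, hBB']
    ext i j
    simp [Matrix.one_apply]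
  let O : Set (κ → κ → ℝ) := {M | Matrix.det (M : Matrix κ κ ℝ) ≠ 0 ∧
    ∀ i j, |Ψ M i j - (1 : Matrix κ κ ℝ) i j| < 1 / (Fintype.card κ + 1)}
  have hO : IsOpen O := by
    have h1 : IsOpen {M : κ → κ → ℝ | Matrix.det (M : Matrix κ κ ℝ) ≠ 0} :=
      isOpen_ne_fun (Continuous.matrix_det continuous_id) continuous_const
    have h2 : IsOpen {M : κ → κ → ℝ | ∀ i j, |Ψ M i j - (1 : Matrix κ κ ℝ) i j| <
        1 / (Fintype.card κ + 1)} := by
      simp only [Set.ofPred_forall]
      refine isOpen_iInter_of_finite fun i => isOpen_iInter_of_finite fun j => ?_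
      refine isOpen_lt ?_ continuous_const
      exact ((hΨc.matrix_elem i j).sub continuous_const).abs
    exact h1.inter h2
  have hP0O : P0 ∈ O := by
    refine ⟨?_, fun i j => ?_⟩
    · have : P0.det * Q0.det = 1 := by rw [← det_mul, hPQ, det_one]
      exact left_ne_zero_of_mul_eq_one this
    · rw [hΨ0, sub_self, abs_zero]; positivity
  obtain ⟨η, hη, hball'⟩ := Metric.isOpen_iff.mp hO (fun i j => P0 i j) hP0O
  have hball : ∀ M : Matrix κ κ ℝ, (∀ i j, |M i j - P0 i j| < η) → M ∈ O := by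
    intro M hM
    refine hball' (a := fun i j => M i j) ?_
    rw [Metric.mem_ball, dist_pi_lt_iff hη]
    intro i
    rw [dist_pi_lt_iff hη]
    intro j
    rw [Real.dist_eq]
    exact hM i j
  obtain ⟨φ, hφ1, hφ⟩ := exists_retract (Finset.univ.image fun x : κ × κ => P0 x.1 x.2) η hη
  set P : Matrix κ κ ℚ := P0.map φ with hPdef
  have hPmem : P.map r ∈ O := by
    apply hball
    intro i j
    exact hφ _ (Finset.mem_image_of_mem (fun x : κ × κ => P0 x.1 x.2) (Finset.mem_univ (i, j)))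
  -- the linear relation over `ℚ`
  have hφl : ∀ (M : Matrix κ κ ℚ) (N : Matrix κ κ ℝ), (M.map r * N).map φ = M * N.map φ := by
    intro M N
    ext i j
    simp only [Matrix.map_apply, Matrix.mul_apply, map_sum]
    refine Finset.sum_congr rfl fun k _ => ?_
    have : r (M i k) * N k j = (M i k) • N k j := by rw [Rat.smul_def]; rfl
    rw [this, map_smul, smul_eq_mul]
  have hφr : ∀ (M : Matrix κ κ ℚ) (N : Matrix κ κ ℝ), (N * M.map r).map φ = N.map φ * M := by
    intro M N
    ext i j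
    simp only [Matrix.map_apply, Matrix.mul_apply, map_sum]
    refine Finset.sum_congr rfl fun k _ => ?_
    have : N i k * r (M k j) = (M k j) • N i k := by rw [Rat.smul_def, mul_comm]; rfl
    rw [this, map_smul, smul_eq_mul, mul_comm]
  have hlinQ : A * P * S = Aᵀ * P := by
    have h1 := congrArg (fun M : Matrix κ κ ℝ => M.map φ) hlin
    have h2 : (A.map r * P0 * S.map r).map φ = A * P * S := by rw [hφr, hφl]
    have h3 : ((A.map r)ᵀ * P0).map φ = Aᵀ * P := hφl Aᵀ P0
    rw [← h2, ← h3]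
    exact h1
  have hdetmap : ((P.det : ℚ) : ℝ) = (P.map r).det := RingHom.map_det r P
  refine ⟨P, ?_, ?_, ?_⟩
  · rw [isUnit_iff_ne_zero]
    intro h0
    apply hPmem.1
    rw [← hdetmap, h0, Rat.cast_zero]
  · -- self-adjointness
    have h1 : (B⁻¹ * (Pᵀ * A * P))ᵀ = Pᵀ * Aᵀ * P * (B⁻¹)ᵀ := by
      simp only [transpose_mul, transpose_transpose, Matrix.mul_assoc]
    have h2 : S * ((B⁻¹)ᵀ * B) = 1 := by
      rw [hS]
      calc B⁻¹ * Bᵀ * ((B⁻¹)ᵀ * B) = B⁻¹ * (Bᵀ * (B⁻¹)ᵀ) * B := by simp only [Matrix.mul_assoc]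
        _ = 1 := by rw [← transpose_mul, hBB', transpose_one, Matrix.mul_one, hBB']
    rw [h1, ← Matrix.mul_assoc, hBB, Matrix.one_mul]
    calc Pᵀ * Aᵀ * P * (B⁻¹)ᵀ * B = Pᵀ * (Aᵀ * P) * ((B⁻¹)ᵀ * B) := by
          simp only [Matrix.mul_assoc]
      _ = Pᵀ * (A * P * S) * ((B⁻¹)ᵀ * B) := by rw [hlinQ]
      _ = Pᵀ * A * P * (S * ((B⁻¹)ᵀ * B)) := by simp only [Matrix.mul_assoc]
      _ = Pᵀ * A * P := by rw [h2, Matrix.mul_one]
  · intro i j
    have h1 : Ψ (P.map r) = (B⁻¹ * (Pᵀ * A * P)).map r := by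
      change (B⁻¹).map r * ((P.map r)ᵀ * A.map r * P.map r) = _
      rw [hmap, hmap, hmap, transpose_map]
    have h2 := hPmem.2 i j
    rw [h1] at h2
    exact h2

theorem tor_same {A B : Matrix κ κ ℚ} (hA : IsUnit A.det) (hB : IsUnit B.det)
    (h : Cong ℝ (A.map (algebraMap ℚ ℝ)) (B.map (algebraMap ℚ ℝ))) :
    ∃ (J : Type) (_ : Fintype J) (_ : DecidableEq J) (_ : Nonempty J),
      Cong ℚ (blockDiagonal fun _ : J => A) (blockDiagonal fun _ : J => B) := by
  obtain ⟨P, hP, hadj, hclose⟩ := exists_approx hB h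
  set C : Matrix κ κ ℚ := B⁻¹ * (Pᵀ * A * P) with hC
  have hBC : B * C = Pᵀ * A * P := by
    rw [hC, ← Matrix.mul_assoc, Matrix.mul_nonsing_inv B hB, Matrix.one_mul]
  have hCdet : IsUnit C.det := by
    rw [hC, det_mul, det_mul, det_mul, det_transpose]
    have h1 : IsUnit (B⁻¹).det := Matrix.isUnit_nonsing_inv_det B hB
    exact h1.mul ((hP.mul hA).mul hP)
  -- the polynomial
  set m : ℚ[X] := (X - 1) * C.charpoly with hm
  have hmC : aeval C m = 0 := by rw [hm, map_mul, Matrix.aeval_self_charpoly, mul_zero]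
  have hmmap : m.map (algebraMap ℚ ℝ) = (X - 1) * C.charpoly.map (algebraMap ℚ ℝ) := by
    rw [hm, Polynomial.map_mul]; simp
  have hmdeg : 0 < (m.map (algebraMap ℚ ℝ)).natDegree := by
    rw [natDegree_map_eq_of_injective (algebraMap ℚ ℝ).injective, hm,
      Monic.natDegree_mul (by simpa using monic_X_sub_C (1 : ℚ)) C.charpoly_monic]
    have : (X - 1 : ℚ[X]).natDegree = 1 := by simpa using natDegree_X_sub_C (1 : ℚ)
    omega
  obtain ⟨N, hN⟩ := exists_N _ hmdeg (fun t ht => by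
    rw [hmmap, eval_mul]
    refine mul_ne_zero ?_ (charpoly_ne hclose t ht)
    simp only [eval_sub, eval_X, eval_one]
    linarith)
  have hpos : ∀ t : ℝ, 0 < ((X + (N : ℚ[X]) * m ^ 2 : ℚ[X]).map (algebraMap ℚ ℝ)).eval t := by
    intro t
    have := hN t
    simpa using this
  have hsq := P45SOS_96.isSumSq_of_pos _ hpos
  obtain ⟨J, i1, i2, i3, hJ⟩ := cong_of_sumSq (f := X + (N : ℚ[X]) * m ^ 2) hadj hCdet hsq
    (by simp [hmC])
  refine ⟨J, i1, i2, i3, ?_⟩
  rw [hBC] at hJ
  exact Cong.trans (Cong.blockDiagonal (μ := J) (Cong.of_det (A := A) hP)) (Cong.symm hJ)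

/-- **TOR**: two invertible rational matrices which are congruent over `ℝ` become congruent over
`ℚ` after taking a suitable number `m > 0` of copies of each. -/
theorem tor (A : Matrix ι ι ℚ) (B : Matrix κ κ ℚ) (hA : IsUnit A.det) (hB : IsUnit B.det)
    (h : Cong ℝ (A.map (algebraMap ℚ ℝ)) (B.map (algebraMap ℚ ℝ))) :
    ∃ m : ℕ, 0 < m ∧
      Cong ℚ (blockDiagonal fun _ : Fin m => A) (blockDiagonal fun _ : Fin m => B) := by
  have hcard : Fintype.card ι = Fintype.card κ := by
    obtain ⟨P, Q, hPQ, hQP, _⟩ := h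
    exact Matrix.square_of_invertible P Q hPQ hQP
  have e : ι ≃ κ := Fintype.equivOfCardEq hcard
  have h1 : Cong ℚ A (A.submatrix e.symm e.symm) := Cong.reindex A e
  have h2 : Cong ℝ ((A.submatrix e.symm e.symm).map (algebraMap ℚ ℝ)) (B.map (algebraMap ℚ ℝ)) := by
    rw [← submatrix_map]
    exact Cong.trans (Cong.symm (Cong.reindex _ e)) h
  have hA' : IsUnit (A.submatrix e.symm e.symm).det := by
    rwa [det_submatrix_equiv_self]
  obtain ⟨J, i1, i2, i3, hJ⟩ := tor_same hA' hB h2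
  refine ⟨Fintype.card J, Fintype.card_pos, ?_⟩
  let eJ : J ≃ Fin (Fintype.card J) := Fintype.equivFin J
  have hre : ∀ {μ : Type} [Fintype μ] [DecidableEq μ] (M : Matrix μ μ ℚ),
      Cong ℚ (blockDiagonal fun _ : J => M) (blockDiagonal fun _ : Fin (Fintype.card J) => M) := by
    intro μ _ _ M
    have := Cong.reindex (blockDiagonal fun _ : J => M) ((Equiv.refl μ).prodCongr eJ)
    refine Eq.mp ?_ this
    congr 1
    ext ⟨i, a⟩ ⟨j, b⟩
    simp [blockDiagonal_apply]
  exact Cong.trans (Cong.symm (hre A))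
    (Cong.trans (Cong.trans (Cong.blockDiagonal (μ := J) h1) hJ) (hre B))

end tor

end Crest.Agent.R267.P45Tor_96
end

-- ▼ part R267/P45Canc_96
section

/-!
# R267, P4.5 (CANC): cancellation for nonsymmetric forms over `ℚ` (helper96)

If `D`, `D + Dᵀ`, `D - Dᵀ` are invertible then `A ⊕ D ≅ B ⊕ D` implies `A ≅ B`.
-/

set_option autoImplicit false

namespace Crest.Agent.R267.P45Canc_96

open Matrix Crest.Agent.R267.P4Defs_780 Crest.Agent.R267.P45Tor_96

section loop

variable {ι κ μ : Type} [Fintype ι] [Fintype κ] [Fintype μ]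
  [DecidableEq ι] [DecidableEq κ] [DecidableEq μ]

/-- independence of the kernels of `g_λ - δ`. -/
theorem indep {X δ : Matrix μ μ ℚ} (hX : IsUnit X.det) (hc : X * δ = δ * X)
    (g : ℚ → Matrix μ μ ℚ) (G : Set ℚ)
    (hg : ∀ l ∈ G, g l * (l • 1 - X) = l • 1 + X)
    (hgδ : ∀ l ∈ G, g l * δ = δ * g l) (hgX : ∀ l ∈ G, g l * X = X * g l)
    (hgg : ∀ l ∈ G, ∀ l' ∈ G, g l * g l' = g l' * g l)
    (hinv : ∀ l ∈ G, IsUnit (l • (1 : Matrix μ μ ℚ) - X).det) (s : Finset ℚ) :
    (∀ l ∈ s, l ∈ G) → ∀ w : ℚ → μ → ℚ, (∀ l ∈ s, (g l - δ).mulVec (w l) = 0) →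
      ∑ l ∈ s, w l = 0 → ∀ l ∈ s, w l = 0 := by
  induction s using Finset.induction_on with
  | empty => intro _ w _ _ l hl; simp at hl
  | insert v s hv ih =>
    intro hs w hw hsum
    have hvG := hs v (Finset.mem_insert_self _ _)
    have hsG : ∀ l ∈ s, l ∈ G := fun l hl => hs l (Finset.mem_insert_of_mem hl)
    rw [Finset.sum_insert hv] at hsum
    have h1 : ∑ l ∈ s, (g v - δ).mulVec (w l) = 0 := by
      have := congrArg (fun x => (g v - δ).mulVec x) hsum
      simp only [Matrix.mulVec_add, hw v (Finset.mem_insert_self _ _), zero_add,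
        Matrix.mulVec_zero] at this
      rw [← Matrix.mulVec_sum]
      exact this
    have hcomm : ∀ l ∈ s, (g l - δ) * (g v - δ) = (g v - δ) * (g l - δ) := by
      intro l hl
      rw [sub_mul, mul_sub, mul_sub, sub_mul, mul_sub, mul_sub, hgg l (hsG l hl) v hvG,
        hgδ l (hsG l hl), hgδ v hvG]
      abel
    have h2 := ih hsG (fun l => (g v - δ).mulVec (w l)) (fun l hl => by
      rw [Matrix.mulVec_mulVec, hcomm l hl, ← Matrix.mulVec_mulVec,
        hw l (Finset.mem_insert_of_mem hl), Matrix.mulVec_zero]) h1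
    have h3 : ∀ l ∈ s, w l = 0 := by
      intro l hl
      have hlG := hsG l hl
      have hne : l ≠ v := fun h => hv (h ▸ hl)
      have e1 : (g l - g v).mulVec (w l) = 0 := by
        have e2 : g l - g v = (g l - δ) - (g v - δ) := by abel
        rw [e2, Matrix.sub_mulVec, hw l (Finset.mem_insert_of_mem hl), h2 l hl, sub_zero]
      -- `(g l - g v) (l - X) (v - X) = 2 (v - l) X`
      have e3 : ((l • (1 : Matrix μ μ ℚ) - X) * (v • 1 - X)) * (g l - g v) =
          (2 * (v - l)) • X := by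
        have c1 : (l • (1 : Matrix μ μ ℚ) - X) * g l = l • 1 + X := by
          rw [← hg l hlG, mul_sub, sub_mul, hgX l hlG]
          simp
        have c2 : (v • (1 : Matrix μ μ ℚ) - X) * g v = v • 1 + X := by
          rw [← hg v hvG, mul_sub, sub_mul, hgX v hvG]
          simp
        have c3 : (l • (1 : Matrix μ μ ℚ) - X) * (v • 1 - X) = (v • 1 - X) * (l • 1 - X) := by
          simp only [sub_mul, mul_sub, smul_mul_assoc, mul_smul_comm, one_mul, mul_one]
          module
        rw [mul_sub]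
        nth_rewrite 1 [c3]
        rw [Matrix.mul_assoc, c1, Matrix.mul_assoc, c2]
        simp only [sub_mul, mul_sub, mul_add, smul_mul_assoc, mul_smul_comm, one_mul, mul_one]
        module
      have e4 : ((2 * (v - l)) • X).mulVec (w l) = 0 := by
        rw [← e3, ← Matrix.mulVec_mulVec, e1, Matrix.mulVec_zero]
      rw [Matrix.smul_mulVec, smul_eq_zero] at e4
      rcases e4 with e4 | e4
      · exfalso
        apply hne
        have : v - l = 0 := by linarith
        linarith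
      · exact Matrix.eq_zero_of_mulVec_eq_zero hX.ne_zero e4
    intro l hl
    rcases Finset.mem_insert.mp hl with rfl | hl
    · rw [Finset.sum_eq_zero h3, add_zero] at hsum
      exact hsum
    · exact h3 l hl

/-- a good parameter for the Cayley transform. -/
theorem exists_good {X δ : Matrix μ μ ℚ} (hX : IsUnit X.det) (hc : X * δ = δ * X) :
    ∃ l : ℚ, IsUnit (l • (1 : Matrix μ μ ℚ) - X).det ∧
      IsUnit ((l • (1 : Matrix μ μ ℚ) + X) * (l • (1 : Matrix μ μ ℚ) - X)⁻¹ - δ).det := by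
  set G : Set ℚ := {l | IsUnit (l • (1 : Matrix μ μ ℚ) - X).det} with hG
  have hchar : ∀ l : ℚ, X.charpoly.eval l = (l • (1 : Matrix μ μ ℚ) - X).det := by
    intro l
    rw [eval_charpoly]
    congr 1
    rw [smul_one_eq_diagonal]
    rfl
  have hGinf : G.Infinite := by
    have h1 : Gᶜ ⊆ {l | X.charpoly.IsRoot l} := by
      intro l hl
      have h2 : ¬ IsUnit (l • (1 : Matrix μ μ ℚ) - X).det := hl
      rw [isUnit_iff_ne_zero, not_not] at h2
      change X.charpoly.eval l = 0
      rw [hchar, h2]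
    have h2 : {l | X.charpoly.IsRoot l}.Finite :=
      Polynomial.finite_setOf_isRoot X.charpoly_monic.ne_zero
    have h3 : (Gᶜ).Finite := h2.subset h1
    intro h4
    have := h4.union h3
    rw [Set.union_compl_self] at this
    exact Set.infinite_univ this
  obtain ⟨s, hsG, hcard⟩ := hGinf.exists_subset_card_eq (Fintype.card μ + 1)
  let g : ℚ → Matrix μ μ ℚ := fun l => (l • (1 : Matrix μ μ ℚ) + X) * (l • (1 : Matrix μ μ ℚ) - X)⁻¹
  -- commutation facts
  have hcomX : ∀ (l : ℚ) (Y : Matrix μ μ ℚ), X * Y = Y * X →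
      (l • (1 : Matrix μ μ ℚ) - X) * Y = Y * (l • (1 : Matrix μ μ ℚ) - X) := by
    intro l Y hY
    rw [sub_mul, mul_sub, hY]; simp
  have hcomX' : ∀ (l : ℚ) (Y : Matrix μ μ ℚ), X * Y = Y * X →
      (l • (1 : Matrix μ μ ℚ) + X) * Y = Y * (l • (1 : Matrix μ μ ℚ) + X) := by
    intro l Y hY
    rw [add_mul, mul_add, hY]; simp
  have hinvc : ∀ l ∈ G, ∀ Y : Matrix μ μ ℚ, X * Y = Y * X →
      (l • (1 : Matrix μ μ ℚ) - X)⁻¹ * Y = Y * (l • (1 : Matrix μ μ ℚ) - X)⁻¹ := by
    intro l hl Y hY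
    have h1 := hcomX l Y hY
    have hu : IsUnit (l • (1 : Matrix μ μ ℚ) - X).det := hl
    calc (l • (1 : Matrix μ μ ℚ) - X)⁻¹ * Y
        = (l • (1 : Matrix μ μ ℚ) - X)⁻¹ * Y *
            ((l • (1 : Matrix μ μ ℚ) - X) * (l • (1 : Matrix μ μ ℚ) - X)⁻¹) := by
          rw [Matrix.mul_nonsing_inv _ hu, Matrix.mul_one]
      _ = (l • (1 : Matrix μ μ ℚ) - X)⁻¹ * (Y * (l • (1 : Matrix μ μ ℚ) - X)) *
            (l • (1 : Matrix μ μ ℚ) - X)⁻¹ := by simp only [Matrix.mul_assoc]
      _ = (l • (1 : Matrix μ μ ℚ) - X)⁻¹ * (l • (1 : Matrix μ μ ℚ) - X) * Y *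
            (l • (1 : Matrix μ μ ℚ) - X)⁻¹ := by rw [← h1]; simp only [Matrix.mul_assoc]
      _ = Y * (l • (1 : Matrix μ μ ℚ) - X)⁻¹ := by
          rw [Matrix.nonsing_inv_mul _ hu, Matrix.one_mul]
  have hgY : ∀ l ∈ G, ∀ Y : Matrix μ μ ℚ, X * Y = Y * X → g l * Y = Y * g l := by
    intro l hl Y hY
    change (l • (1 : Matrix μ μ ℚ) + X) * (l • (1 : Matrix μ μ ℚ) - X)⁻¹ * Y =
      Y * ((l • (1 : Matrix μ μ ℚ) + X) * (l • (1 : Matrix μ μ ℚ) - X)⁻¹)
    rw [Matrix.mul_assoc, hinvc l hl Y hY, ← Matrix.mul_assoc, hcomX' l Y hY, Matrix.mul_assoc]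
  have hgX : ∀ l ∈ G, g l * X = X * g l := fun l hl => hgY l hl X rfl
  by_contra hcon
  push Not at hcon
  have hker : ∀ l ∈ s, ∃ w : μ → ℚ, w ≠ 0 ∧ (g l - δ).mulVec w = 0 := by
    intro l hl
    have h1 := hcon l (hsG hl)
    rw [isUnit_iff_ne_zero, not_not] at h1
    exact Matrix.exists_mulVec_eq_zero_iff.mpr h1
  choose! w hw0 hw using hker
  have hli : LinearIndependent ℚ (fun l : s => w l) := by
    rw [Fintype.linearIndependent_iff]
    intro c hc0
    have h1 := indep hX hc g G (fun l hl => by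
        change (l • (1 : Matrix μ μ ℚ) + X) * (l • (1 : Matrix μ μ ℚ) - X)⁻¹ * _ = _
        rw [Matrix.mul_assoc, Matrix.nonsing_inv_mul _ hl, Matrix.mul_one])
      (fun l hl => hgY l hl δ hc) hgX (fun l hl l' hl' => hgY l hl _ (hgX l' hl').symm)
      (fun l hl => hl) s (fun l hl => hsG hl)
      (fun l => if h : l ∈ s then c ⟨l, h⟩ • w l else 0) (fun l hl => by
        simp only [hl, dif_pos]
        rw [Matrix.mulVec_smul, hw l hl, smul_zero])
      (by
        rw [← hc0, ← Finset.sum_attach]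
        refine Finset.sum_congr rfl fun x _ => ?_
        simp)
    intro i
    have h2 := h1 i.1 i.2
    simp only [i.2, dif_pos] at h2
    rcases smul_eq_zero.mp h2 with h3 | h3
    · exact h3
    · exact absurd h3 (hw0 _ i.2)
  have h5 := hli.fintype_card_le_finrank
  rw [Fintype.card_coe, hcard, Module.finrank_fintype_fun_eq_card] at h5
  omega

/-- **CANC**: cancellation. -/
theorem canc (A : Matrix ι ι ℚ) (B : Matrix κ κ ℚ) (D : Matrix μ μ ℚ) (hA : IsUnit A.det)
    (hB : IsUnit B.det) (hD : IsUnit D.det) (hp : IsUnit (D + Dᵀ).det) (hm : IsUnit (D - Dᵀ).det)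
    (h : Cong ℚ (fromBlocks A 0 0 D) (fromBlocks B 0 0 D)) : Cong ℚ A B := by
  obtain ⟨P, Q, hPQ, hQP, hAB⟩ := h
  set α := P.toBlocks₁₁ with hα
  set β := P.toBlocks₁₂ with hβ
  set γ := P.toBlocks₂₁ with hγ
  set δ := P.toBlocks₂₂ with hδ
  have hPb : P = fromBlocks α β γ δ := (fromBlocks_toBlocks P).symm
  have hQT : Qᵀ * Pᵀ = 1 := by rw [← transpose_mul, hPQ, transpose_one]
  set M : Matrix (ι ⊕ μ) (ι ⊕ μ) ℚ := fromBlocks A 0 0 D with hM
  set N : Matrix (κ ⊕ μ) (κ ⊕ μ) ℚ := fromBlocks B 0 0 D with hN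
  have hMP : M * P = Qᵀ * N := by
    rw [← hAB]
    calc M * P = (Qᵀ * Pᵀ) * M * P := by rw [hQT, Matrix.one_mul]
      _ = Qᵀ * (Pᵀ * M * P) := by simp only [Matrix.mul_assoc]
  have hMP' : Mᵀ * P = Qᵀ * Nᵀ := by
    rw [← hAB]
    calc Mᵀ * P = (Qᵀ * Pᵀ) * Mᵀ * P := by rw [hQT, Matrix.one_mul]
      _ = Qᵀ * (Pᵀ * M * P)ᵀ := by
        simp only [Matrix.mul_assoc, transpose_mul, transpose_transpose]
  set d := (Qᵀ).toBlocks₂₂ with hd
  have hQb : Qᵀ = fromBlocks (Qᵀ).toBlocks₁₁ (Qᵀ).toBlocks₁₂ (Qᵀ).toBlocks₂₁ d :=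
    (fromBlocks_toBlocks _).symm
  have h22 : D * δ = d * D := by
    have h1 := hMP
    rw [hPb, hQb, hM, hN, fromBlocks_multiply, fromBlocks_multiply, fromBlocks_inj] at h1
    simpa using h1.2.2.2
  have h22' : Dᵀ * δ = d * Dᵀ := by
    have h1 := hMP'
    rw [hPb, hQb, hM, hN, fromBlocks_transpose, fromBlocks_transpose, fromBlocks_multiply,
      fromBlocks_multiply, fromBlocks_inj] at h1
    simpa using h1.2.2.2
  -- the skew element
  set S := D + Dᵀ with hS
  set K := D - Dᵀ with hK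
  set X : Matrix μ μ ℚ := S⁻¹ * K with hX
  have hSi : S⁻¹ * S = 1 := Matrix.nonsing_inv_mul S hp
  have hSi' : S * S⁻¹ = 1 := Matrix.mul_nonsing_inv S hp
  have hXdet : IsUnit X.det := by
    rw [hX, det_mul]
    exact (Matrix.isUnit_nonsing_inv_det S hp).mul hm
  have hSδ : S * δ = d * S := by rw [hS, add_mul, mul_add, h22, h22']
  have hKδ : K * δ = d * K := by rw [hK, sub_mul, mul_sub, h22, h22']
  have hXδ : X * δ = δ * X := by
    rw [hX, Matrix.mul_assoc, hKδ]
    calc S⁻¹ * (d * K) = S⁻¹ * (d * (S * S⁻¹) * K) := by rw [hSi', Matrix.mul_one]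
      _ = S⁻¹ * (d * S) * (S⁻¹ * K) := by simp only [Matrix.mul_assoc]
      _ = S⁻¹ * (S * δ) * (S⁻¹ * K) := by rw [hSδ]
      _ = (S⁻¹ * S) * δ * (S⁻¹ * K) := by simp only [Matrix.mul_assoc]
      _ = δ * (S⁻¹ * K) := by rw [hSi, Matrix.one_mul]
  obtain ⟨l, hl, hl'⟩ := exists_good hXdet hXδ
  set g : Matrix μ μ ℚ := (l • (1 : Matrix μ μ ℚ) + X) * (l • (1 : Matrix μ μ ℚ) - X)⁻¹ with hg
  -- `g` is an isometry of `D`
  have hXT : Xᵀ * D = - (D * X) := by
    have hST : Sᵀ = S := by rw [hS, transpose_add, transpose_transpose, add_comm]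
    have hKT : Kᵀ = -K := by rw [hK, transpose_sub, transpose_transpose, neg_sub]
    have h1 : Xᵀ = -(K * S⁻¹) := by
      rw [hX, transpose_mul, hKT, transpose_nonsing_inv, hST, Matrix.neg_mul]
    rw [h1, hX, Matrix.neg_mul]
    congr 1
    have h2 : K = (2 : ℚ) • D - S := by
      rw [hK, hS, two_smul]; abel
    rw [h2, sub_mul, mul_sub, sub_mul, mul_sub]
    have h3 : S * S⁻¹ * D = D * (S⁻¹ * S) := by rw [hSi', hSi, Matrix.one_mul, Matrix.mul_one]
    rw [h3]
    congr 1
    simp only [Matrix.smul_mul, Matrix.mul_smul, Matrix.mul_assoc]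
  have hgD : gᵀ * D * g = D := by
    set Y := l • (1 : Matrix μ μ ℚ) - X with hY
    set Z := l • (1 : Matrix μ μ ℚ) + X with hZ
    have hYZ : Y * Z = Z * Y := by
      rw [hY, hZ]
      simp only [sub_mul, mul_sub, add_mul, mul_add, smul_mul_assoc, mul_smul_comm, one_mul,
        mul_one]
      module
    have hYi : Y * Y⁻¹ = 1 := Matrix.mul_nonsing_inv Y hl
    have hYi' : Y⁻¹ * Y = 1 := Matrix.nonsing_inv_mul Y hl
    have hZT : Zᵀ * D = D * Y := by
      rw [hZ, hY, transpose_add, transpose_smul, transpose_one, add_mul, hXT, mul_sub]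
      simp [sub_eq_add_neg]
    have hYT : Yᵀ * D = D * Z := by
      rw [hZ, hY, transpose_sub, transpose_smul, transpose_one, sub_mul, hXT, mul_add]
      simp
    have hYiT : (Y⁻¹)ᵀ * Yᵀ = 1 := by rw [← transpose_mul, hYi, transpose_one]
    calc gᵀ * D * g = (Y⁻¹)ᵀ * (Zᵀ * D) * (Z * Y⁻¹) := by
          rw [hg, transpose_mul]; simp only [Matrix.mul_assoc]
      _ = (Y⁻¹)ᵀ * D * (Y * Z) * Y⁻¹ := by rw [hZT]; simp only [Matrix.mul_assoc]
      _ = (Y⁻¹)ᵀ * (D * Z) * (Y * Y⁻¹) := by rw [hYZ]; simp only [Matrix.mul_assoc]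
      _ = ((Y⁻¹)ᵀ * Yᵀ) * D := by rw [← hYT, hYi, Matrix.mul_one]; simp only [Matrix.mul_assoc]
      _ = D := by rw [hYiT, Matrix.one_mul]
  -- closing the loop
  set Z : Matrix μ κ ℚ := (g - δ)⁻¹ * γ with hZ
  have hgZ : g * Z = γ + δ * Z := by
    have h1 : (g - δ) * Z = γ := by
      rw [hZ, ← Matrix.mul_assoc, Matrix.mul_nonsing_inv _ hl', Matrix.one_mul]
    rw [Matrix.sub_mul, sub_eq_iff_eq_add] at h1
    exact h1
  set R : Matrix ι κ ℚ := α + β * Z with hR
  have hRAR : Rᵀ * A * R = B := by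
    have h1 : P * fromRows (1 : Matrix κ κ ℚ) Z = fromRows R (g * Z) := by
      rw [hPb, fromBlocks_mul_fromRows, Matrix.mul_one, Matrix.mul_one, hgZ]
    have h2 : (fromRows (1 : Matrix κ κ ℚ) Z)ᵀ * N * fromRows (1 : Matrix κ κ ℚ) Z =
        B + Zᵀ * D * Z := by
      rw [hN, transpose_fromRows, fromCols_mul_fromBlocks, fromCols_mul_fromRows]
      simp
    have h3 : (fromRows R (g * Z))ᵀ * M * fromRows R (g * Z) =
        Rᵀ * A * R + Zᵀ * (gᵀ * D * g) * Z := by
      rw [hM, transpose_fromRows, fromCols_mul_fromBlocks, fromCols_mul_fromRows]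
      simp [Matrix.mul_assoc]
    have h4 : (fromRows R (g * Z))ᵀ * M * fromRows R (g * Z) =
        (fromRows (1 : Matrix κ κ ℚ) Z)ᵀ * N * fromRows (1 : Matrix κ κ ℚ) Z := by
      rw [← h1, ← hAB, transpose_mul]
      simp only [Matrix.mul_assoc]
    rw [h2, h3, hgD] at h4
    exact add_right_cancel h4
  have hcard : Fintype.card ι = Fintype.card κ := by
    have := Matrix.square_of_invertible P Q hPQ hQP
    rw [Fintype.card_sum, Fintype.card_sum] at this
    omega
  have hinv : (B⁻¹ * Rᵀ * A) * R = 1 := by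
    calc (B⁻¹ * Rᵀ * A) * R = B⁻¹ * (Rᵀ * A * R) := by simp only [Matrix.mul_assoc]
      _ = 1 := by rw [hRAR, Matrix.nonsing_inv_mul B hB]
  have hinv' : R * (B⁻¹ * Rᵀ * A) = 1 :=
    (Matrix.mul_eq_one_comm_of_equiv (Fintype.equivOfCardEq hcard.symm)).mp hinv
  exact ⟨R, B⁻¹ * Rᵀ * A, hinv', hinv, hRAR⟩

end loop

end Crest.Agent.R267.P45Canc_96
end

-- ▼ part R267/P45Rat_96

/-!
# S0407, package P4.5d: bounded number of rational classes (helper96)

`ratb : REALS → TYPES → NDEG → RATB`.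
-/

set_option autoImplicit false

namespace Crest.Agent.R267.P45Rat_96

open Matrix Crest.Agent.R267.P4Defs_780 Crest.Agent.R267.P45Tor_96

/-- all `F_{s,j}` (fixed `s`) are congruent over `ℝ`. -/
def REALS : Prop :=
  ∀ (L : List (ℕ × ℕ × ℤ)) (u : ℕ) (q : List ℕ), Cert L u → Aux u q →
    ∀ s : ℕ, ∀ i ≤ s, ∀ j ≤ s, CongOver ℝ (sysMat (F L u q s i)) (sysMat (F L u q s j))

/-- finitely many rational types. -/
def TYPES : Prop :=
  ∀ (L : List (ℕ × ℕ × ℤ)) (u : ℕ) (q : List ℕ), Cert L u → Aux u q →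
    ∃ (t : ℕ) (n : Fin t → ℕ) (tau : ∀ k, Matrix (Fin (n k)) (Fin (n k)) ℚ),
      (∀ k, IsUnit (tau k).det) ∧ ∀ s j : ℕ, ∃ (m : ℕ) (f : Fin m → Fin t),
        Cong ℚ ((sysMat (F L u q s j)).map (Int.cast : ℤ → ℚ))
          (Matrix.blockDiagonal' fun i => tau (f i))

/-- symmetric and antisymmetric parts are nondegenerate. -/
def NDEG : Prop :=
  ∀ (L : List (ℕ × ℕ × ℤ)) (u : ℕ) (q : List ℕ), Cert L u → Aux u q → ∀ s j : ℕ,
    IsUnit ((sysMat (F L u q s j)).map (Int.cast : ℤ → ℚ) +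
      ((sysMat (F L u q s j)).map (Int.cast : ℤ → ℚ))ᵀ).det ∧
    IsUnit ((sysMat (F L u q s j)).map (Int.cast : ℤ → ℚ) -
      ((sysMat (F L u q s j)).map (Int.cast : ℤ → ℚ))ᵀ).det

/-! ### more congruence calculus -/

section calc1

variable {R : Type} [CommRing R] {ι κ ι' κ' : Type} [Fintype ι] [Fintype κ] [Fintype ι']
  [Fintype κ'] [DecidableEq ι] [DecidableEq κ] [DecidableEq ι'] [DecidableEq κ']

theorem Cong.of_submatrix (A : Matrix ι ι R) (B : Matrix κ κ R) (e : ι ≃ κ)
    (h : A = B.submatrix e e) : Cong R A B := by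
  have h1 := Cong.reindex A e
  rw [h] at h1 ⊢
  simpa using h1

theorem Cong.sum {A : Matrix ι ι R} {B : Matrix κ κ R} {A' : Matrix ι' ι' R}
    {B' : Matrix κ' κ' R} (h : Cong R A A') (h' : Cong R B B') :
    Cong R (fromBlocks A 0 0 B) (fromBlocks A' 0 0 B') := by
  obtain ⟨P, Q, hPQ, hQP, hA⟩ := h
  obtain ⟨P', Q', hPQ', hQP', hB⟩ := h'
  refine ⟨fromBlocks P 0 0 P', fromBlocks Q 0 0 Q', ?_, ?_, ?_⟩
  · rw [fromBlocks_multiply]
    simp [hPQ, hPQ', fromBlocks_one]
  · rw [fromBlocks_multiply]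
    simp [hQP, hQP', fromBlocks_one]
  · rw [fromBlocks_transpose, fromBlocks_multiply, fromBlocks_multiply]
    simp [hA, hB]

theorem Cong.swap (A : Matrix ι ι R) (B : Matrix κ κ R) :
    Cong R (fromBlocks A 0 0 B) (fromBlocks B 0 0 A) := by
  refine Cong.of_submatrix _ _ (Equiv.sumComm ι κ) ?_
  ext i j
  rcases i with i | i <;> rcases j with j | j <;> simp

end calc1

/-! ### block sums of types -/

section bs

variable {R : Type} [CommRing R] {T : Type} {n : T → ℕ}

/-- block sum of `tau (f i)`. -/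
def bs (tau : ∀ k, Matrix (Fin (n k)) (Fin (n k)) R) {I : Type} [DecidableEq I] (f : I → T) :
    Matrix (Σ i, Fin (n (f i))) (Σ i, Fin (n (f i))) R := Matrix.blockDiagonal' fun i => tau (f i)

variable (tau : ∀ k, Matrix (Fin (n k)) (Fin (n k)) R) {I J : Type} [Fintype I] [Fintype J]
  [DecidableEq I] [DecidableEq J]

theorem bs_equiv (e : I ≃ J) (f : I → T) (g : J → T) (h : ∀ i, g (e i) = f i) :
    Cong R (bs tau f) (bs tau g) := by
  have h' : f = g ∘ e := by funext i; exact (h i).symm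
  subst h'
  refine Cong.of_submatrix _ _ (Equiv.sigmaCongrLeft (β := fun j => Fin (n (g j))) e) ?_
  ext ⟨i, x⟩ ⟨j, y⟩
  by_cases hij : i = j
  · subst hij
    simp [bs, blockDiagonal'_apply, Equiv.sigmaCongrLeft]
  · have : e i ≠ e j := fun h => hij (e.injective h)
    simp [bs, blockDiagonal'_apply, Equiv.sigmaCongrLeft, hij]

/-- the evident equivalence. -/
def sumEquiv (f : I → T) (g : J → T) :
    (Σ i, Fin (n (Sum.elim f g i))) ≃ (Σ i, Fin (n (f i))) ⊕ Σ j, Fin (n (g j)) :=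
  Equiv.sumSigmaDistrib _



theorem bs_sum (f : I → T) (g : J → T) :
    Cong R (bs tau (Sum.elim f g)) (fromBlocks (bs tau f) 0 0 (bs tau g)) := by
  refine Cong.of_submatrix _ _ (sumEquiv f g) ?_
  ext ⟨i, x⟩ ⟨j, y⟩
  rcases i with i | i <;> rcases j with j | j
  · change _ = fromBlocks (bs tau f) 0 0 (bs tau g) (Sum.inl ⟨i, x⟩) (Sum.inl ⟨j, y⟩)
    by_cases hij : i = j
    · subst hij
      simp [bs, blockDiagonal'_apply]
    · simp [bs, blockDiagonal'_apply, hij]
  · change _ = fromBlocks (bs tau f) 0 0 (bs tau g) (Sum.inl ⟨i, x⟩) (Sum.inr ⟨j, y⟩)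
    simp [bs, blockDiagonal'_apply]
  · change _ = fromBlocks (bs tau f) 0 0 (bs tau g) (Sum.inr ⟨i, x⟩) (Sum.inl ⟨j, y⟩)
    simp [bs, blockDiagonal'_apply]
  · change _ = fromBlocks (bs tau f) 0 0 (bs tau g) (Sum.inr ⟨i, x⟩) (Sum.inr ⟨j, y⟩)
    by_cases hij : i = j
    · subst hij
      simp [bs, blockDiagonal'_apply]
    · simp [bs, blockDiagonal'_apply, hij]

/-- the evident equivalence. -/
def repEquiv (m : ℕ) (f : I → T) :
    ((Σ i, Fin (n (f i))) × Fin m) ≃ Σ x : Fin m × I, Fin (n (f x.2)) where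
  toFun x := ⟨(x.2, x.1.1), x.1.2⟩
  invFun x := (⟨x.1.2, x.2⟩, x.1.1)
  left_inv _ := rfl
  right_inv _ := rfl

theorem bs_rep (m : ℕ) (f : I → T) :
    Cong R (blockDiagonal fun _ : Fin m => bs tau f) (bs tau (fun x : Fin m × I => f x.2)) := by
  refine Cong.of_submatrix _ _ (repEquiv m f) ?_
  ext ⟨⟨i, x⟩, k⟩ ⟨⟨j, y⟩, l⟩
  by_cases hkl : k = l
  · subst hkl
    by_cases hij : i = j
    · subst hij
      simp [bs, blockDiagonal'_apply, blockDiagonal_apply, repEquiv]
    · simp [bs, blockDiagonal'_apply, blockDiagonal_apply, repEquiv, hij]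
  · simp [bs, blockDiagonal'_apply, blockDiagonal_apply, repEquiv, hkl]


theorem det_bs (f : I → T) : IsUnit (bs tau f).det ↔ ∀ i, IsUnit (tau (f i)).det := by
  constructor
  · intro h i
    have h1 : bs tau f * (bs tau f)⁻¹ = 1 := Matrix.mul_nonsing_inv _ h
    set X := (bs tau f)⁻¹
    have h2 : tau (f i) * (of fun y z => X ⟨i, y⟩ ⟨i, z⟩) = 1 := by
      ext x z
      have h3 := congrFun (congrFun h1 ⟨i, x⟩) ⟨i, z⟩
      rw [mul_apply, Fintype.sum_sigma, Finset.sum_eq_single i] at h3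
      · rw [mul_apply]
        simpa [bs, blockDiagonal'_apply, one_apply] using h3
      · intro j _ hj
        simp [bs, blockDiagonal'_apply, hj.symm]
      · simp
    exact IsUnit.of_mul_eq_one _ (by rw [← det_mul, h2, det_one])
  · intro h
    have h1 : bs tau f * bs (fun k => (tau k)⁻¹) f = 1 := by
      unfold bs
      rw [← blockDiagonal'_mul, ← blockDiagonal'_one]
      congr 1
      funext i
      exact Matrix.mul_nonsing_inv _ (h i)
    exact IsUnit.of_mul_eq_one _ (by rw [← det_mul, h1, det_one])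

omit [Fintype I] in
theorem bs_transpose (f : I → T) : (bs tau f)ᵀ = bs (fun k => (tau k)ᵀ) f := by
  unfold bs
  rw [blockDiagonal'_transpose]

variable [Fintype T] [DecidableEq T]

/-- the block sum of `a k` copies of `tau k`. -/
def D (a : T → ℕ) : Matrix (Σ x : (Σ k, Fin (a k)), Fin (n x.1)) (Σ x : (Σ k, Fin (a k)), Fin (n x.1)) R :=
  bs tau (fun x : Σ k, Fin (a k) => x.1)

theorem exists_D (f : I → T) : Cong R (bs tau f) (D tau fun k => Fintype.card {i // f i = k}) := by
  refine bs_equiv tau ((Equiv.sigmaFiberEquiv f).symm.trans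
    (Equiv.sigmaCongrRight fun k => Fintype.equivFin {i // f i = k})) _ _ fun i => ?_
  simp [Equiv.sigmaFiberEquiv]

theorem D_add (a b : T → ℕ) : Cong R (D tau (a + b)) (fromBlocks (D tau a) 0 0 (D tau b)) := by
  refine Cong.trans (bs_equiv tau ((Equiv.sigmaCongrRight fun k =>
    (finSumFinEquiv (m := a k) (n := b k)).symm).trans (Equiv.sigmaSumDistrib _ _)) _
    (Sum.elim (fun x : Σ k, Fin (a k) => x.1) (fun x : Σ k, Fin (b k) => x.1)) ?_) (bs_sum tau _ _)
  rintro ⟨k, i⟩
  change Sum.elim (fun x : Σ k, Fin (a k) => x.1) (fun x : Σ k, Fin (b k) => x.1)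
    (Equiv.sigmaSumDistrib (fun k => Fin (a k)) (fun k => Fin (b k))
      ⟨k, finSumFinEquiv.symm i⟩) = k
  obtain ⟨y, hy⟩ : ∃ y, finSumFinEquiv.symm i = y := ⟨_, rfl⟩
  rw [hy]
  rcases y with y | y <;> rfl

theorem D_mul (m : ℕ) (a : T → ℕ) :
    Cong R (blockDiagonal fun _ : Fin m => D tau a) (D tau fun k => m * a k) := by
  refine Cong.trans (bs_rep tau m _) ?_
  refine bs_equiv tau (Equiv.trans ?_ (Equiv.sigmaCongrRight fun k =>
    finProdFinEquiv (m := m) (n := a k))) _ _ ?_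
  · exact
      { toFun := fun x => ⟨x.2.1, (x.1, x.2.2)⟩
        invFun := fun x => (x.2.1, ⟨x.1, x.2.2⟩)
        left_inv := fun _ => rfl
        right_inv := fun _ => rfl }
  · rintro ⟨i, k, j⟩
    rfl

/-- the group of the relations. -/
def K : AddSubgroup (T → ℤ) where
  carrier := {v | ∃ a b : T → ℕ, Cong R (D tau a) (D tau b) ∧ ∀ k, v k = (a k : ℤ) - b k}
  zero_mem' := ⟨0, 0, Cong.refl _, by simp⟩
  neg_mem' := by
    rintro v ⟨a, b, h, hv⟩
    refine ⟨b, a, Cong.symm h, fun k => ?_⟩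
    rw [Pi.neg_apply, hv k]; ring
  add_mem' := by
    rintro v w ⟨a, b, h, hv⟩ ⟨a', b', h', hw⟩
    refine ⟨a + a', b + b', ?_, fun k => ?_⟩
    · exact Cong.trans (D_add tau a a') (Cong.trans (Cong.sum h h') (Cong.symm (D_add tau b b')))
    · rw [Pi.add_apply, hv k, hw k]
      push_cast [Pi.add_apply]
      ring


end bs

/-! ### rational forms -/

section rat

variable {T : Type} {n : T → ℕ} (tau : ∀ k, Matrix (Fin (n k)) (Fin (n k)) ℚ)

variable [Fintype T] [DecidableEq T]

theorem D_det (h0 : ∀ k, IsUnit (tau k).det) (a : T → ℕ) : IsUnit (D tau a).det := by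
  rw [D, det_bs]
  exact fun x => h0 _

theorem D_add_transpose (h0 : ∀ k, IsUnit (tau k + (tau k)ᵀ).det) (a : T → ℕ) :
    IsUnit (D tau a + (D tau a)ᵀ).det := by
  have : D tau a + (D tau a)ᵀ = D (fun k => tau k + (tau k)ᵀ) a := by
    unfold D
    rw [bs_transpose]
    unfold bs
    rw [← blockDiagonal'_add]
    rfl
  rw [this]
  exact D_det _ h0 a

theorem D_sub_transpose (h0 : ∀ k, IsUnit (tau k - (tau k)ᵀ).det) (a : T → ℕ) :
    IsUnit (D tau a - (D tau a)ᵀ).det := by
  have : D tau a - (D tau a)ᵀ = D (fun k => tau k - (tau k)ᵀ) a := by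
    unfold D
    rw [bs_transpose]
    unfold bs
    rw [← blockDiagonal'_sub]
    rfl
  rw [this]
  exact D_det _ h0 a

variable {tau}

/-- cancellation in terms of the group `K`. -/
theorem cong_of_mem (h0 : ∀ k, IsUnit (tau k).det)
    (hp : ∀ k, IsUnit (tau k + (tau k)ᵀ).det) (hm : ∀ k, IsUnit (tau k - (tau k)ᵀ).det)
    {a b : T → ℕ} (h : (fun k => (a k : ℤ) - b k) ∈ K tau) : Cong ℚ (D tau a) (D tau b) := by
  obtain ⟨a', b', h', hv⟩ := h
  have hab : a + b' = b + a' := by
    funext k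
    have h1 : (a k : ℤ) - b k = a' k - b' k := hv k
    simp only [Pi.add_apply]
    omega
  refine P45Canc_96.canc (D tau a) (D tau b) (D tau b') (D_det _ h0 _) (D_det _ h0 _)
    (D_det _ h0 _) (D_add_transpose _ hp _) (D_sub_transpose _ hm _) ?_
  have h1 := Cong.symm (D_add tau a b')
  rw [hab] at h1
  refine Cong.trans h1 (Cong.trans (D_add tau b a') ?_)
  exact Cong.sum (Cong.refl _) h'

/-- torsion in terms of the group `K`. -/
theorem torsion (h0 : ∀ k, IsUnit (tau k).det) {a b : T → ℕ}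
    (h : Cong ℝ ((D tau a).map (algebraMap ℚ ℝ)) ((D tau b).map (algebraMap ℚ ℝ))) :
    ∃ m : ℕ, 0 < m ∧ (m • fun k => (a k : ℤ) - b k) ∈ K tau := by
  obtain ⟨m, hm, h1⟩ := tor (D tau a) (D tau b) (D_det _ h0 _) (D_det _ h0 _) h
  refine ⟨m, hm, fun k => m * a k, fun k => m * b k, ?_, fun k => ?_⟩
  · exact Cong.trans (Cong.symm (D_mul tau m a)) (Cong.trans h1 (D_mul tau m b))
  · simp only [Pi.smul_apply, nsmul_eq_mul]
    push_cast
    ring

theorem bounded (h0 : ∀ k, IsUnit (tau k).det)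
    (hp : ∀ k, IsUnit (tau k + (tau k)ᵀ).det) (hm : ∀ k, IsUnit (tau k - (tau k)ᵀ).det) :
    ∃ B : ℕ, ∀ (s : ℕ) (a : ℕ → T → ℕ), (∀ i ≤ s, ∀ j ≤ s,
      Cong ℝ ((D tau (a i)).map (algebraMap ℚ ℝ)) ((D tau (a j)).map (algebraMap ℚ ℝ))) →
      ∃ col : ℕ → Fin (B + 1), ∀ i ≤ s, ∀ j ≤ s, col i = col j →
        Cong ℚ (D tau (a i)) (D tau (a j)) := by
  classical
  let K' : Submodule ℤ (T → ℤ) := AddSubgroup.toIntSubmodule (K tau)
  let W := Submodule.torsion ℤ ((T → ℤ) ⧸ K')
  have hfin : Finite W := Module.finite_of_fg_torsion W (Submodule.torsion_isTorsion)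
  refine ⟨Nat.card W, fun s a hs => ?_⟩
  let e : W ≃ Fin (Nat.card W) := Finite.equivFin W
  let v : ℕ → T → ℤ := fun i k => (a i k : ℤ) - a 0 k
  have hv : ∀ i ≤ s, K'.mkQ (v i) ∈ W := by
    intro i hi
    obtain ⟨m, hm, h1⟩ := torsion h0 (hs i hi 0 (Nat.zero_le _))
    rw [Submodule.mem_torsion_iff]
    refine ⟨⟨(m : ℤ), mem_nonZeroDivisors_of_ne_zero (by exact_mod_cast hm.ne')⟩, ?_⟩
    change (m : ℤ) • K'.mkQ (v i) = 0
    rw [← map_smul, Submodule.mkQ_apply, Submodule.Quotient.mk_eq_zero, natCast_zsmul]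
    exact h1
  refine ⟨fun i => if h : i ≤ s then (e ⟨_, hv i h⟩).castSucc else 0, fun i hi j hj hij => ?_⟩
  beta_reduce at hij
  rw [dif_pos hi, dif_pos hj] at hij
  have h1 := e.injective (Fin.castSucc_injective _ hij)
  rw [Subtype.mk.injEq, ← sub_eq_zero, ← map_sub, Submodule.mkQ_apply,
    Submodule.Quotient.mk_eq_zero] at h1
  refine cong_of_mem h0 hp hm ?_
  have h2 : (fun k => (a i k : ℤ) - a j k) = v i - v j := by
    funext k
    simp [v]
  rw [h2]
  exact h1

end rat

/-! ### conclusion -/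

theorem ratb (hR : REALS) (hT : TYPES) (hN : NDEG) : RATB := by
  intro L u q hC hA
  classical
  obtain ⟨t, n, tau, h0, hf⟩ := hT L u q hC hA
  -- restrict to the good types
  let T : Type := {k : Fin t // IsUnit (tau k + (tau k)ᵀ).det ∧ IsUnit (tau k - (tau k)ᵀ).det}
  let n' : T → ℕ := fun k => n k.1
  let tau' : ∀ k : T, Matrix (Fin (n' k)) (Fin (n' k)) ℚ := fun k => tau k.1
  obtain ⟨B, hB⟩ := bounded (tau := tau') (fun k => h0 k.1) (fun k => k.2.1) (fun k => k.2.2)
  have hcl : ∀ s j : ℕ, ∃ a : T → ℕ,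
      Cong ℚ ((sysMat (F L u q s j)).map (Int.cast : ℤ → ℚ)) (D tau' a) := by
    intro s j
    obtain ⟨m, f, hmf⟩ := hf s j
    obtain ⟨h1, h2⟩ := hN L u q hC hA s j
    have hgood : ∀ i, IsUnit (tau (f i) + (tau (f i))ᵀ).det ∧
        IsUnit (tau (f i) - (tau (f i))ᵀ).det := by
      obtain ⟨P, Q, hPQ, hQP, hM⟩ := hmf
      set M := (sysMat (F L u q s j)).map (Int.cast : ℤ → ℚ) with hMdef
      have key : ∀ X : Matrix (Idx (F L u q s j)) (Idx (F L u q s j)) ℚ, IsUnit X.det →
          IsUnit (Pᵀ * X * P).det := by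
        intro X hX
        have hXX : X * X⁻¹ = 1 := Matrix.mul_nonsing_inv X hX
        have h3 : (Pᵀ * X * P) * (Q * X⁻¹ * Qᵀ) = 1 := by
          calc (Pᵀ * X * P) * (Q * X⁻¹ * Qᵀ) = Pᵀ * X * (P * Q) * X⁻¹ * Qᵀ := by
                simp only [Matrix.mul_assoc]
            _ = Pᵀ * (X * X⁻¹) * Qᵀ := by rw [hPQ, Matrix.mul_one]; simp only [Matrix.mul_assoc]
            _ = (Q * P)ᵀ := by rw [hXX, Matrix.mul_one, transpose_mul]
            _ = 1 := by rw [hQP, transpose_one]
        exact IsUnit.of_mul_eq_one _ (by rw [← det_mul, h3, det_one])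
      have e1 : Pᵀ * (M + Mᵀ) * P = bs (fun k => tau k + (tau k)ᵀ) f := by
        have hMT : Pᵀ * Mᵀ * P = (bs tau f)ᵀ := by
          rw [bs, ← hM, transpose_mul, transpose_mul, transpose_transpose, Matrix.mul_assoc]
        rw [Matrix.mul_add, Matrix.add_mul, hMT, hM, bs_transpose]
        unfold bs
        rw [← blockDiagonal'_add]
        rfl
      have e2 : Pᵀ * (M - Mᵀ) * P = bs (fun k => tau k - (tau k)ᵀ) f := by
        have hMT : Pᵀ * Mᵀ * P = (bs tau f)ᵀ := by
          rw [bs, ← hM, transpose_mul, transpose_mul, transpose_transpose, Matrix.mul_assoc]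
        rw [Matrix.mul_sub, Matrix.sub_mul, hMT, hM, bs_transpose]
        unfold bs
        rw [← blockDiagonal'_sub]
        rfl
      have u1 := key _ h1
      have u2 := key _ h2
      rw [e1, det_bs] at u1
      rw [e2, det_bs] at u2
      exact fun i => ⟨u1 i, u2 i⟩
    refine ⟨_, Cong.trans hmf (exists_D tau' (fun i : Fin m => (⟨f i, hgood i⟩ : T)))⟩
  choose a ha using hcl
  refine ⟨B, fun s => ?_⟩
  have hreal : ∀ i ≤ s, ∀ j ≤ s, Cong ℝ ((D tau' (a s i)).map (algebraMap ℚ ℝ))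
      ((D tau' (a s j)).map (algebraMap ℚ ℝ)) := by
    intro i hi j hj
    have hmap : ∀ k, Cong ℝ ((sysMat (F L u q s k)).map (Int.cast : ℤ → ℝ))
        ((D tau' (a s k)).map (algebraMap ℚ ℝ)) := by
      intro k
      obtain ⟨P, Q, hPQ, hQP, hM⟩ := ha s k
      refine ⟨P.map (algebraMap ℚ ℝ), Q.map (algebraMap ℚ ℝ), ?_, ?_, ?_⟩
      · rw [← Matrix.map_mul, hPQ, Matrix.map_one _ (map_zero _) (map_one _)]
      · rw [← Matrix.map_mul, hQP, Matrix.map_one _ (map_zero _) (map_one _)]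
      · rw [← hM, Matrix.map_mul, Matrix.map_mul, transpose_map]
        congr 2
    exact Cong.trans (Cong.symm (hmap i)) (Cong.trans (hR L u q hC hA s i hi j hj) (hmap j))
  obtain ⟨col, hcol⟩ := hB s (a s) hreal
  refine ⟨col, fun i hi j hj hij => ?_⟩
  exact Cong.trans (ha s i) (Cong.trans (hcol i hi j hj hij) (Cong.symm (ha s j)))

end Crest.Agent.R267.P45Rat_96

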