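import Crest.Agent.R267.PolF_943

/-!
# Row 267 (helper943): polar library, part 3: normal form of `Bad`, magnitudes, compactness

* `BadD E m c d`: the conormal equations for free data (values `c v`, angular derivatives `d v i`),
  conormal of norm `1` with `0 ≤ Re ζ`; `bad_iff`, `badD_congr` (only `m v * c v`, `m v * d v i`
  matter), `badD_smul`;
* `isClosed_badD`;
* `eventually_of_compact`, `cpt`: no bad point at `μ0` implies none for `μ` near `μ0`;
* `mag_mul`, `mag_rpow`, `mag_const_mul`: identities of magnitudes.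
-/

set_option autoImplicit false
set_option linter.unusedSectionVars false

noncomputable section

open Set Filter Topology Metric
open scoped ContDiff
open Crest.Agent.R267.PolF_943

namespace Crest.Agent.R267.PolCpt_943

variable {ι V : Type} [Fintype ι] [DecidableEq ι] [Fintype V]

/-- conormal equations for free data -/
def Eqs (E : V → ι → ℝ) (m : V → ℝ) (c : V → ℂ) (d : V → ι → ℂ) (ζ : ℂ) : Prop :=
  ∀ i, (∑ v, E v i * m v * ((starRingEnd ℂ) ζ * c v).re = 0) ∧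
    (∑ v, m v * ((starRingEnd ℂ) ζ * d v i).re = 0)

/-- bad data: conormal of norm `1`, real part `≥ 0` -/
def BadD (E : V → ι → ℝ) (m : V → ℝ) (c : V → ℂ) (d : V → ι → ℂ) : Prop :=
  ∃ ζ : ℂ, ‖ζ‖ = 1 ∧ 0 ≤ ζ.re ∧ Eqs E m c d ζ

theorem Eqs.real_mul {E : V → ι → ℝ} {m : V → ℝ} {c : V → ℂ} {d : V → ι → ℂ} {ζ : ℂ}
    (h : Eqs E m c d ζ) (r : ℝ) : Eqs E m c d ((r : ℂ) * ζ) := by
  intro i
  obtain ⟨h1, h2⟩ := h i
  have e : ∀ w : ℂ, ((starRingEnd ℂ) ((r : ℂ) * ζ) * w).re = r * ((starRingEnd ℂ) ζ * w).re := by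
    intro w
    rw [map_mul, Complex.conj_ofReal, mul_assoc, Complex.re_ofReal_mul]
  refine ⟨?_, ?_⟩
  · have : ∑ v, E v i * m v * ((starRingEnd ℂ) ((r : ℂ) * ζ) * c v).re =
        r * ∑ v, E v i * m v * ((starRingEnd ℂ) ζ * c v).re := by
      rw [Finset.mul_sum]
      exact Finset.sum_congr rfl fun v _ => by rw [e]; ring
    rw [this, h1, mul_zero]
  · have : ∑ v, m v * ((starRingEnd ℂ) ((r : ℂ) * ζ) * d v i).re =
        r * ∑ v, m v * ((starRingEnd ℂ) ζ * d v i).re := by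
      rw [Finset.mul_sum]
      exact Finset.sum_congr rfl fun v _ => by rw [e]; ring
    rw [this, h2, mul_zero]

theorem Eqs.badD {E : V → ι → ℝ} {m : V → ℝ} {c : V → ℂ} {d : V → ι → ℂ} {ζ : ℂ}
    (h : Eqs E m c d ζ) (h0 : ζ ≠ 0) : BadD E m c d := by
  have hn : 0 < ‖ζ‖ := norm_pos_iff.2 h0
  have hone : ‖((‖ζ‖⁻¹ : ℝ) : ℂ) * ζ‖ = 1 := by
    rw [norm_mul, Complex.norm_real, norm_inv, norm_norm, inv_mul_cancel₀ hn.ne']
  by_cases hr : 0 ≤ ζ.re
  · refine ⟨((‖ζ‖⁻¹ : ℝ) : ℂ) * ζ, hone, ?_, h.real_mul _⟩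
    rw [Complex.re_ofReal_mul]
    positivity
  · refine ⟨((-‖ζ‖⁻¹ : ℝ) : ℂ) * ζ, ?_, ?_, h.real_mul _⟩
    · rw [← hone]
      push_cast
      rw [neg_mul, norm_neg]
    · rw [Complex.re_ofReal_mul]
      push Not at hr
      have : 0 < ‖ζ‖⁻¹ := inv_pos.2 hn
      nlinarith

/-- `Bad` in normal form -/
theorem bad_iff {E : V → ι → ℝ} {C : V → ℝ × (ι → ℝ) → ℂ} {t : ℝ} {m : V → ℝ} {θ : ι → ℝ} :
    Bad E C t m θ ↔ BadD E m (fun v => C v (t, θ)) (fun v i => dC (C v) t θ i) := by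
  constructor
  · rintro ⟨ζ, h0, h⟩
    exact Eqs.badD (ζ := ζ) h h0
  · rintro ⟨ζ, h1, -, h⟩
    refine ⟨ζ, ?_, h⟩
    rintro rfl
    simp at h1



/-! ### compactness -/

/-- a closed condition without points over `μ0` has none near `μ0` -/
theorem eventually_of_compact {P X : Type*} [TopologicalSpace P] [TopologicalSpace X] {K : Set X}
    (hK : IsCompact K) {B : Set (P × X)} (hB : IsClosed B) {μ0 : P}
    (h0 : ∀ x ∈ K, (μ0, x) ∉ B) : ∀ᶠ μ in 𝓝 μ0, ∀ x ∈ K, (μ, x) ∉ B :=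
  hK.eventually_forall_of_forall_eventually fun x hx => hB.isOpen_compl.mem_nhds (h0 x hx)

theorem isCompact_half : IsCompact {ζ : ℂ | ‖ζ‖ = 1 ∧ 0 ≤ ζ.re} := by
  have h1 : IsCompact (sphere (0 : ℂ) 1) := isCompact_sphere _ _
  have h2 : {ζ : ℂ | ‖ζ‖ = 1 ∧ 0 ≤ ζ.re} = sphere (0 : ℂ) 1 ∩ {ζ : ℂ | 0 ≤ ζ.re} := by
    ext ζ
    simp
  rw [h2]
  exact h1.inter_right (isClosed_le continuous_const Complex.continuous_re)

theorem isClosed_eqs (E : V → ι → ℝ) :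
    IsClosed {q : (V → ℝ) × (V → ℂ) × (V → ι → ℂ) × ℂ | Eqs E q.1 q.2.1 q.2.2.1 q.2.2.2} := by
  unfold Eqs
  simp only [Set.ofPred_forall, Set.ofPred_and]
  refine isClosed_iInter fun i => IsClosed.inter ?_ ?_
  · refine isClosed_eq ?_ continuous_const
    fun_prop
  · refine isClosed_eq ?_ continuous_const
    fun_prop

/-- the set of bad data is closed -/
theorem isClosed_badD (E : V → ι → ℝ) :
    IsClosed {q : (V → ℝ) × (V → ℂ) × (V → ι → ℂ) | BadD E q.1 q.2.1 q.2.2} := by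
  rw [← isOpen_compl_iff, isOpen_iff_mem_nhds]
  intro q hq
  have h1 : ∀ᶠ q' in 𝓝 q, ∀ ζ ∈ {ζ : ℂ | ‖ζ‖ = 1 ∧ 0 ≤ ζ.re},
      (q', ζ) ∉ {p : ((V → ℝ) × (V → ℂ) × (V → ι → ℂ)) × ℂ |
        Eqs E p.1.1 p.1.2.1 p.1.2.2 p.2} := by
    refine eventually_of_compact isCompact_half ?_ ?_
    · have h2 : Continuous fun p : ((V → ℝ) × (V → ℂ) × (V → ι → ℂ)) × ℂ =>
          ((p.1.1, p.1.2.1, p.1.2.2, p.2) : (V → ℝ) × (V → ℂ) × (V → ι → ℂ) × ℂ) := by fun_prop
      exact (isClosed_eqs E).preimage h2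
    · intro ζ hζ h
      exact hq ⟨ζ, hζ.1, hζ.2, h⟩
  filter_upwards [h1] with q' hq' h
  obtain ⟨ζ, h2, h3, h4⟩ := h
  exact hq' ζ ⟨h2, h3⟩ h4

/-- **compactness**: `Λ` = closed set of admissible `(parameter, state)`, `K` = compact set of
states, `m c d` = continuous data of a state. If no admissible state over `μ0` is a bad zero, then
the same holds for all parameters near `μ0`. -/
theorem cpt {P X : Type*} [TopologicalSpace P] [TopologicalSpace X] {K : Set X}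
    (hK : IsCompact K) {Λ : Set (P × X)} (hΛ : IsClosed Λ) (E : V → ι → ℝ)
    {m : P × X → V → ℝ} {c : P × X → V → ℂ} {d : P × X → V → ι → ℂ}
    (hm : Continuous m) (hc : Continuous c) (hd : Continuous d) {μ0 : P}
    (h0 : ∀ x ∈ K, (μ0, x) ∈ Λ → ∑ v, (m (μ0, x) v : ℂ) * c (μ0, x) v = 0 →
      ¬ BadD E (m (μ0, x)) (c (μ0, x)) (d (μ0, x))) :
    ∀ᶠ μ in 𝓝 μ0, ∀ x ∈ K, (μ, x) ∈ Λ → ∑ v, (m (μ, x) v : ℂ) * c (μ, x) v = 0 →
      ¬ BadD E (m (μ, x)) (c (μ, x)) (d (μ, x)) := by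
  have h1 := eventually_of_compact hK (B := Λ ∩ ({q | ∑ v, (m q v : ℂ) * c q v = 0} ∩
    {q | BadD E (m q) (c q) (d q)})) ?_ (μ0 := μ0) ?_
  · filter_upwards [h1] with μ hμ x hx hΛx hz hb
    exact hμ x hx ⟨hΛx, hz, hb⟩
  · refine hΛ.inter (IsClosed.inter ?_ ?_)
    · refine isClosed_eq ?_ continuous_const
      exact continuous_finsetSum _ fun v _ => (Complex.continuous_ofReal.comp
        ((continuous_apply v).comp hm)).mul ((continuous_apply v).comp hc)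
    · exact (isClosed_badD E).preimage (hm.prodMk (hc.prodMk hd))
  · rintro x hx ⟨hΛx, hz, hb⟩
    exact h0 x hx hΛx hz hb

/-! ### magnitudes -/




/-- magnitude of a power of one variable -/
theorem mag_single (i : ι) (e : ℝ) (z : ι → ℂ) : mag (Pi.single i e) z = ‖z i‖ ^ e := by
  rw [mag_self _ z i, Pi.single_eq_same, Finset.prod_eq_one, mul_one]
  intro j hj
  rw [Pi.single_eq_of_ne (Finset.ne_of_mem_erase hj), Real.rpow_zero]



end Crest.Agent.R267.PolCpt_943
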