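import Crest.Agent.R267.SFT_330
import Crest.Agent.R267.SFChkG_330_Mg

/-!
# Signed S-form versus nested levels: final statements (row 267, package P3.6)

`SF_f` is congruent to `A_f ⊕ N` and the padded `SF_g` to `A_g ⊕ N` with the same `N`; so a
congruence of the nested-level matrices gives a congruence of the signed S-forms.
-/

set_option autoImplicit false
set_option synthInstance.maxSize 10000
set_option synthInstance.maxHeartbeats 400000

namespace Crest.Agent.R267.SFCong_330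

open Matrix P4Defs_780 SFLift_330 SFDefs_330 NL_330 Split_330 SFT_330

/-! ### weights -/

theorem wokF : WOK NLb_330.rowsF wtF where
  bd := fun _ h => SFBox_330.wtF_bd h
  le := by decide +kernel
  rp := by decide +kernel
  w0 := by decide +kernel
  w1 := by decide +kernel
  w2 := by decide +kernel
  w3 := by decide +kernel
  w4 := by decide +kernel
  w5 := by decide +kernel
  w6 := by decide +kernel
  w7 := by decide +kernel
  w8 := by decide +kernel

theorem wokG : WOK NLb_330.rowsG wtG where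
  bd := fun _ h => SFBox_330.wtG_bd h
  le := by decide +kernel
  rp := by decide +kernel
  w0 := by decide +kernel
  w1 := by decide +kernel
  w2 := by decide +kernel
  w3 := by decide +kernel
  w4 := by decide +kernel
  w5 := by decide +kernel
  w6 := by decide +kernel
  w7 := by decide +kernel
  w8 := by decide +kernel

/-! ### entries -/

theorem LPn_pz : ∀ a b : Fin 6, pz (LPn a.val b.val) = LP a b := by decide +kernel

theorem LPn_nz : ∀ a b : Fin 6, nz (LPn a.val b.val) = - LP a b := by decide +kernel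

theorem DnF_eq : ∀ a b : Fin 6, DnF a.val b.val = coreF.D a b := by decide +kernel

theorem DnG_eq : ∀ a b : Fin 6, DnG a.val b.val = coreG.D a b := by decide +kernel

theorem wvF_eq : ∀ b : Fin 6, wvF b.val = - ∑ c, LP b c * coreF.g c := by decide +kernel

theorem wvG_eq : ∀ b : Fin 6, wvG b.val = - ∑ c, LP b c * coreG.g c := by decide +kernel

theorem pz_ble (i j : ℕ) : pz (Nat.ble i j) = if i ≤ j then 1 else 0 := by
  by_cases h : i ≤ j
  · rw [if_pos h, Nat.ble_eq_true_of_le h]; rfl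
  · rw [if_neg h, SFBox_330.ble_false (Nat.not_le.1 h)]; rfl

theorem pz_ble_and (i j : ℕ) (c : Bool) : pz (Nat.ble i j && c) = if i ≤ j then pz c else 0 := by
  by_cases h : i ≤ j
  · rw [if_pos h, Nat.ble_eq_true_of_le h, Bool.true_and]
  · rw [if_neg h, SFBox_330.ble_false (Nat.not_le.1 h), Bool.false_and]; rfl

theorem eok_L {D : ℕ → ℕ → ℤ} {w : ℕ → ℤ} {fx fy : ℕ} {C : Core}
    (hD : ∀ a b : Fin 6, D a.val b.val = C.D a b)
    (hw : ∀ b : Fin 6, w b.val = - ∑ c, LP b c * C.g c) (u v : Lt) :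
    tF D w fx fy (enc u) (enc v) = L0 C u v := by
  cases u with
  | S a => cases v with
    | S b => rfl
    | O b => exact LPn_nz a b
    | X i => rfl
    | Y b i => rfl
    | Z b i => rfl
  | O a => cases v with
    | S b => exact LPn_pz a b
    | O b => exact hD a b
    | X i => rfl
    | Y b i => rfl
    | Z b i => rfl
  | X i => cases v with
    | S b => rfl
    | O b => exact hw b
    | X j => exact pz_ble i j
    | Y b j => rfl
    | Z b j => rfl
  | Y a i => cases v with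
    | S b => rfl
    | O b => exact LPn_nz a b
    | X j => rfl
    | Y b j => exact (pz_ble_and i j (LPn a.val b.val)).trans (by rw [LPn_pz]; rfl)
    | Z b j => rfl
  | Z a i => cases v with
    | S b => rfl
    | O b => exact LPn_nz a b
    | X j => rfl
    | Y b j => rfl
    | Z b j => exact (pz_ble_and i j (LPn a.val b.val)).trans (by rw [LPn_pz]; rfl)

theorem eok_n1 {D : ℕ → ℕ → ℤ} {w : ℕ → ℤ} {fx fy : ℕ} (u : Lt)
    (q : Fin 2 ⊕ (Fin 6 × Fin 5)) : tF D w fx fy (enc u) (cN q) = 0 := by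
  cases u <;> rcases q with j | ⟨a, j⟩ <;> rfl

theorem eok_n2 {D : ℕ → ℕ → ℤ} {w : ℕ → ℤ} {fx fy : ℕ} (q : Fin 2 ⊕ (Fin 6 × Fin 5))
    (u : Lt) : tF D w fx fy (cN q) (enc u) = 0 := by
  cases u <;> rcases q with j | ⟨a, j⟩ <;> rfl

theorem eok_n3 {D : ℕ → ℕ → ℤ} {w : ℕ → ℤ} {fx fy : ℕ} (p q : Fin 2 ⊕ (Fin 6 × Fin 5)) :
    tF D w fx fy (cN p) (cN q) = 0 := by
  rcases p with i | ⟨b, i⟩ <;> rcases q with j | ⟨a, j⟩ <;> rfl

theorem eok_P (p q : Fin 2 ⊕ (Fin 6 × Fin 5)) : tF DnF wvF 0 4 (cN p) (cX q) = P3 p q := by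
  revert p q
  decide +kernel

theorem eok_Q (p q : Fin 2 ⊕ (Fin 6 × Fin 5)) : tF DnF wvF 0 4 (cX p) (cN q) = Q3 p q := by
  revert p q
  decide +kernel

theorem eok_P' {D : ℕ → ℕ → ℤ} {w : ℕ → ℤ} {fx fy : ℕ} (p q : Fin 2 ⊕ (Fin 6 × Fin 5)) :
    tF D w fx fy (cN p) (cX q) = tF DnF wvF 0 4 (cN p) (cX q) := by
  rcases p with i | ⟨b, i⟩ <;> rcases q with j | ⟨a, j⟩ <;> rfl

theorem eok_Q' {D : ℕ → ℕ → ℤ} {w : ℕ → ℤ} {fx fy : ℕ} (p q : Fin 2 ⊕ (Fin 6 × Fin 5)) :
    tF D w fx fy (cX p) (cN q) = tF DnF wvF 0 4 (cX p) (cN q) := by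
  rcases p with i | ⟨b, i⟩ <;> rcases q with j | ⟨a, j⟩ <;> rfl

theorem eok {D : ℕ → ℕ → ℤ} {w : ℕ → ℤ} (fx fy : ℕ) {C : Core}
    (hD : ∀ a b : Fin 6, D a.val b.val = C.D a b)
    (hw : ∀ b : Fin 6, w b.val = - ∑ c, LP b c * C.g c) : EOK C (tF D w fx fy) where
  L := eok_L hD hw
  n1 := eok_n1
  n2 := eok_n2
  n3 := eok_n3
  P := fun p q => by rw [eok_P', eok_P]
  Q := fun p q => by rw [eok_Q', eok_Q]

/-! ### the signed S-form -/

/-- `lab` enumerates the strands. -/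
structure IsLab4 (ws : T → ℕ) {I : Type} (lab : I → ℕ × ℕ × ℕ × ℕ) : Prop where
  inj : Function.Injective lab
  rng : ∀ i j k l, (∃ x, lab x = (i, j, k, l)) ↔ 1 ≤ l ∧ l < ws (i, j, k)

/-- signed S-form of `f`: negative x-rays `3,4`, negative y-rays `10..14`. -/
def SFf {I : Type} (lab : I → ℕ × ℕ × ℕ × ℕ) : Matrix I I ℤ :=
  fun x y => ent4 3 5 10 15 (lab x) (lab y)

/-- signed S-form of `g` (padded): negative x-rays `6,7`, negative y-rays `6..10`. -/
def SFg {I : Type} (lab : I → ℕ × ℕ × ℕ × ℕ) : Matrix I I ℤ :=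
  fun x y => ent4 6 8 6 11 (lab x) (lab y)

/-- conversion of labels. -/
def cv (u : ℕ × ℕ × ℕ × ℕ) : ℕ × T := (u.2.2.2 + 1, (u.1, u.2.1, u.2.2.1))

theorem isLab_cv {M : Fm T} {I : Type} {lab : I → ℕ × ℕ × ℕ × ℕ} (h : IsLab4 M.ws lab) :
    IsLab M (fun x => cv (lab x)) where
  inj := by
    intro x y hxy
    apply h.inj
    simp only [cv, Prod.mk.injEq, Nat.add_right_cancel_iff] at hxy
    exact Prod.ext hxy.2.1 (Prod.ext hxy.2.2.1 (Prod.ext hxy.2.2.2 hxy.1))
  mem := by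
    intro x
    obtain ⟨h1, h2⟩ := (h.rng (lab x).1 (lab x).2.1 (lab x).2.2.1 (lab x).2.2.2).1 ⟨x, rfl⟩
    exact ⟨Nat.succ_le_succ h1, h2⟩
  surj := by
    rintro k ⟨a, b, c⟩ hk hku
    obtain ⟨x, hx⟩ := (h.rng a b c (k - 1)).2 ⟨by omega, by omega⟩
    refine ⟨x, ?_⟩
    rw [hx]
    simp only [cv]
    rw [Nat.sub_add_cancel (by omega)]

theorem cond_eq_ite (c : Bool) : (bif c then (1 : ℤ) else 0) = if c = true then 1 else 0 := by
  cases c <;> rfl

theorem sF_eq (a b c d : ℕ) (u v : ℕ × ℕ × ℕ × ℕ) :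
    ent4 a b c d u v = if (cv u).1 ≤ (cv v).1 then sF a b c d (cv u).2 (cv v).2 else 0 := by
  unfold ent4 sF cv
  rw [cond_eq_ite]
  simp only [Bool.and_eq_true, Bool.not_eq_true', ← Bool.not_eq_true, Nat.ble_eq, Nat.beq_eq,
    Nat.blt_eq, Nat.add_le_add_iff_right]
  by_cases h : u.2.2.2 ≤ v.2.2.2
  · rw [if_pos h]
    congr 1
    apply propext
    tauto
  · rw [if_neg h, if_neg]
    tauto

/-- **`SF_f` is congruent to `A_f ⊕ N`**. -/
theorem cong_SFf {I : Type} [Fintype I] [DecidableEq I] {lab : I → ℕ × ℕ × ℕ × ℕ}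
    (h : IsLab4 wsF lab) :
    Cong ℤ (SFf lab) (fromBlocks NLb_330.Af 0 0 (fromBlocks 0 QM PM 0)) := by
  have h1 : SFf lab = Mat SFChkF_330.MS (fun x => cv (lab x)) := by
    ext x y
    exact sF_eq 3 5 10 15 (lab x) (lab y)
  rw [h1]
  exact ctrans (SFChkF_330.cong (isLab_cv (M := SFChkF_330.MS) h)
    (isLabT (M := SFChkF_330.MT) wokF))
    (cong_T NLb_330.rowsF (M := SFChkF_330.MT) (eok 0 4 DnF_eq wvF_eq))

/-- **`SF_g` is congruent to `A_g ⊕ N`**. -/
theorem cong_SFg {I : Type} [Fintype I] [DecidableEq I] {lab : I → ℕ × ℕ × ℕ × ℕ}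
    (h : IsLab4 wsG lab) :
    Cong ℤ (SFg lab) (fromBlocks NLb_330.Ag 0 0 (fromBlocks 0 QM PM 0)) := by
  have h1 : SFg lab = Mat SFChkG_330.MS (fun x => cv (lab x)) := by
    ext x y
    exact sF_eq 6 8 6 11 (lab x) (lab y)
  rw [h1]
  exact ctrans (SFChkG_330.cong (isLab_cv (M := SFChkG_330.MS) h)
    (isLabT (M := SFChkG_330.MT) wokG))
    (cong_T NLb_330.rowsG (M := SFChkG_330.MT) (eok 3 0 DnG_eq wvG_eq))

/-- **a congruence of the nested-level matrices gives one of the signed S-forms**. -/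
theorem cong_SF {I J : Type} [Fintype I] [DecidableEq I] [Fintype J] [DecidableEq J]
    {labF : I → ℕ × ℕ × ℕ × ℕ} {labG : J → ℕ × ℕ × ℕ × ℕ} (hF : IsLab4 wsF labF)
    (hG : IsLab4 wsG labG) (h : Cong ℤ NLb_330.Af NLb_330.Ag) :
    Cong ℤ (SFf labF) (SFg labG) :=
  ctrans (cong_SFf hF) (ctrans (cblock _ h) (csymm (cong_SFg hG)))


end Crest.Agent.R267.SFCong_330
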