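import Crest.Agent.R267.HmD_951
import Crest.Agent.R267.SFCong_330

-- ▼ part R267/Top406_808
section

/-!
# Two links with congruent matrices (row 267): K(G) side of S0406

`zeq_of_cong`: functions `f`, `g` whose links are the links of graph systems with congruent
matrices (at least three strands) are `ZEq`. `cong_submatrix`: enumeration of the letters.
-/

set_option autoImplicit false

namespace Crest.Agent.R267.Top406_808

open Set
open Crest.Agent.R267.P4Defs_780 Crest.Agent.R267.Cone_808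
open Crest.Agent.R267.GS_808 Crest.Agent.R267.DraftB_808 Crest.Agent.R267.TopAsm_808
open Crest.Agent.R267.Hm_951


/-- **the links of two functions with congruent matrices are equivalent.** -/
theorem zeq_of_cong {n : ℕ} (hC : ClassGProp n) {ι ι' : Type} [Fintype ι] [Fintype ι']
    {f : (ι → ℂ) → ℂ} {g : (ι' → ℂ) → ℂ} {m m' : ℕ} {G : S n m} {G' : S n m'}
    {A : Matrix (Fin m) (Fin m) ℤ} {A' : Matrix (Fin m') (Fin m') ℤ} (hG : HasMat G A)
    (hG' : HasMat G' A') (hc : Cong ℤ A A') (hm : 3 ≤ m)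
    (hf : IsLink {z : Sph ι | f z = 0} G) (hg : IsLink {z : Sph ι' | g z = 0} G') :
    ZEq f g := by
  obtain ⟨P, Q, k1, k2, k3⟩ := hc
  have hm' : m = m' := by
    have := T2alg1_684.card_eq_of_cong P Q k1 k2
    rwa [Fintype.card_fin, Fintype.card_fin] at this
  subst hm'
  have E := hC m G G' A A' ⟨P, Q, k1, k2⟩ hm hG hG' k3.symm
  exact homeo_of_links hf hg E


end Crest.Agent.R267.Top406_808
end

-- ▼ part R267/SFLDa_330

/-!
# The matrices of the end functions of S0406 (row 267): letters `Fin 4 → ℕ`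

`lb k = k + 1` sends letters to strands of the signed S-forms of `SFDefs_330`. If the letters are
exactly the `k` with `k 3 + 1 < ws (k 0 + 1, k 1 + 1, k 2 + 1)`, any enumeration of the letters
enumerates the strands (`isLab4_of`), and the matrix "`1` iff letter `b ≤` letter `a` and the two
letters have no common negative lobe" is the transposed signed S-form (`tmat`). So the two matrices
are congruent (`cong_of_letters`) as soon as the nested-level matrices of `NLb_330` are.
-/

set_option autoImplicit false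

namespace Crest.Agent.R267.SFLDa_330

open Matrix P4Defs_780 SFLift_330 SFDefs_330 SFCong_330

/-- strand of a letter. -/
def lb (k : Fin 4 → ℕ) : ℕ × ℕ × ℕ × ℕ := (k 0 + 1, k 1 + 1, k 2 + 1, k 3 + 1)

theorem lb_inj : Function.Injective lb := by
  intro k l h
  simp only [lb, Prod.mk.injEq, Nat.add_right_cancel_iff] at h
  funext j
  fin_cases j
  exacts [h.1, h.2.1, h.2.2.1, h.2.2.2]

/-- windows start at `1` in all coordinates. -/
def Pos1 (ws : ℕ × ℕ × ℕ → ℕ) : Prop := ∀ i j k, 0 < ws (i, j, k) → 1 ≤ i ∧ 1 ≤ j ∧ 1 ≤ k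

theorem pos1F : Pos1 wsF := by
  have a1 : Nat.ble 1 0 = false := rfl
  have a2 : ∀ n, Nat.ble 0 n = true := fun n => Nat.ble_eq_true_of_le (Nat.zero_le n)
  have a3 : Nat.beq 0 1 = false := rfl
  have a4 : Nat.beq 0 2 = false := rfl
  have a5 : Nat.beq 0 3 = false := rfl
  intro i j k h
  refine ⟨?_, ?_, ?_⟩
  · by_contra hi
    obtain rfl : i = 0 := by omega
    simp [wsF, hubF, rayXF, hasCellF, a1, a2, a3, a4, a5] at h
  · by_contra hj
    obtain rfl : j = 0 := by omega
    simp [wsF, hubF, rayYF, hasCellF, a1, a2, a3, a4, a5] at h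
  · by_contra hk
    obtain rfl : k = 0 := by omega
    simp [wsF, hubF, rayZF, hasCellF, a1, a2, a3, a4, a5] at h

theorem pos1G : Pos1 wsG := by
  have a1 : Nat.ble 1 0 = false := rfl
  have a2 : ∀ n, Nat.ble 0 n = true := fun n => Nat.ble_eq_true_of_le (Nat.zero_le n)
  have a3 : Nat.beq 0 1 = false := rfl
  have a4 : Nat.beq 0 2 = false := rfl
  intro i j k h
  refine ⟨?_, ?_, ?_⟩
  · by_contra hi
    obtain rfl : i = 0 := by omega
    simp [wsG, hubG, rayXG, hasCellG, a1, a2, a3, a4] at h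
  · by_contra hj
    obtain rfl : j = 0 := by omega
    simp [wsG, hubG, rayYG, hasCellG, a1, a2, a3, a4] at h
  · by_contra hk
    obtain rfl : k = 0 := by omega
    simp [wsG, hubG, rayZG, hasCellG, a1, a2, a3, a4] at h

theorem isLab4_of {ws : ℕ × ℕ × ℕ → ℕ} {Lt : (Fin 4 → ℕ) → Prop} (hz : Pos1 ws)
    (h : ∀ k, Lt k ↔ k 3 + 1 < ws (k 0 + 1, k 1 + 1, k 2 + 1)) {I : Type}
    (e : I ≃ {k : Fin 4 → ℕ // Lt k}) : IsLab4 ws (fun x => lb (e x).1) where
  inj := fun x y hxy => e.injective (Subtype.ext (lb_inj hxy))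
  rng := by
    intro i j k l
    constructor
    · rintro ⟨x, hx⟩
      have h1 := (h _).1 (e x).2
      simp only [lb, Prod.mk.injEq] at hx
      obtain ⟨rfl, rfl, rfl, rfl⟩ := hx
      exact ⟨Nat.le_add_left _ _, h1⟩
    · rintro ⟨h1, h2⟩
      obtain ⟨h3, h4, h5⟩ := hz i j k (by omega)
      have e1 : ∀ n : ℕ, 1 ≤ n → n - 1 + 1 = n := fun n hn => Nat.sub_add_cancel hn
      have h6 : Lt ![i - 1, j - 1, k - 1, l - 1] := by
        rw [h]
        show l - 1 + 1 < ws (i - 1 + 1, j - 1 + 1, k - 1 + 1)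
        rw [e1 l h1, e1 i h3, e1 j h4, e1 k h5]
        exact h2
      refine ⟨e.symm ⟨_, h6⟩, ?_⟩
      simp only [Equiv.apply_symm_apply]
      show (i - 1 + 1, j - 1 + 1, k - 1 + 1, l - 1 + 1) = (i, j, k, l)
      rw [e1 l h1, e1 i h3, e1 j h4, e1 k h5]

/-- signs of the lobes: `a ≤ k + 1 < b` negative in the variable `0`, `c ≤ k + 1 < d` negative in
the variable `1`, all other lobes positive. -/
def NegIn (neg : Fin 4 → ℕ → Bool) (a b c d : ℕ) : Prop :=
  (∀ k, neg 0 k = true ↔ a ≤ k + 1 ∧ k + 1 < b) ∧ (∀ k, neg 1 k = true ↔ c ≤ k + 1 ∧ k + 1 < d) ∧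
    (∀ k, neg 2 k = false) ∧ ∀ k, neg 3 k = false

open Classical in
theorem tmat {neg : Fin 4 → ℕ → Bool} {a b c d : ℕ} (hn : NegIn neg a b c d)
    (k l : Fin 4 → ℕ) :
    (if (∀ j, l j ≤ k j) ∧ ∀ j, k j = l j → neg j (k j) = false then (1 : ℤ) else 0) =
      ent4 a b c d (lb l) (lb k) := by
  obtain ⟨h0, h1, h2, h3⟩ := hn
  unfold ent4 lb
  congr 1
  apply propext
  simp only [Fin.forall_fin_succ, Fin.succ_zero_eq_one, Fin.succ_one_eq_two, IsEmpty.forall_iff,
    and_true]
  have e3 : (Fin.succ (2 : Fin 3) : Fin 4) = 3 := rfl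
  have f0 := h0 (k 0)
  have f1 := h1 (k 1)
  simp only [e3, h2, h3, implies_true, and_true, Nat.add_le_add_iff_right,
    Nat.add_right_cancel_iff]
  constructor
  · rintro ⟨⟨g0, g1, g2, g3⟩, g4, g5⟩
    refine ⟨⟨g0, g1, g2, g3⟩, fun g => ?_, fun g => ?_⟩
    · have := g4 g.1.symm
      rw [Bool.eq_false_iff] at this
      exact this (f0.2 (by rw [← g.1]; exact g.2))
    · have := g5 g.1.symm
      rw [Bool.eq_false_iff] at this
      exact this (f1.2 (by rw [← g.1]; exact g.2))
  · rintro ⟨⟨g0, g1, g2, g3⟩, g4, g5⟩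
    refine ⟨⟨g0, g1, g2, g3⟩, fun g => ?_, fun g => ?_⟩
    · rw [Bool.eq_false_iff]
      intro t
      exact g4 ⟨g.symm, by rw [← g]; exact f0.1 t⟩
    · rw [Bool.eq_false_iff]
      intro t
      exact g5 ⟨g.symm, by rw [← g]; exact f1.1 t⟩

end Crest.Agent.R267.SFLDa_330
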