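import Crest.Agent.R267.SFLDa_330
import Crest.Agent.R267.T3aNDefs_88

/-!
# The data of the end functions of S0406 (row 267)

`Df`, `Dg : SD 4`: lobes (strand lobes, numbered from `0`) of the variables `x, y, z, w`:
numbers `18, 24, 14, 14`, signs `negF`, `negG`, deletion boxes `bxF`, `bxG` (an entry `none` means
that the variable is not in the box; the last entry `some a` is the interval `[a, 14)` of
`w`-lobes).

* `f`: hub `x < 2, y < 9, z < 9`; x-word `| - - | 12 11 7^4 4^8` over the cell `(2,2)`,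
  y-word `| -^5 | 11^3 10^2 2^2 1^3`, z-word `| +^5`;
* `g`: hub `x, y, z < 4`; x-word `| + | - - | 7^3 3^4 2 1^3` over the cell `(1,1)`, y-word
  `| + | -^5 | 12 10^8 8 5^4`, z-word `| +^10`.

`let_f`, `let_g`: the letters are exactly the strands of `SFDefs_330`.
-/

set_option autoImplicit false

namespace Crest.Agent.R267.SFLDb_330

open Finset
open SFLift_330 SFDefs_330 SFBox_330 T3aNDefs_88 SFLDa_330

/-- intervals in `x`, `y`, `z`, start of the interval in `w`. -/
abbrev B4 := Option (ℕ × ℕ) × Option (ℕ × ℕ) × Option (ℕ × ℕ) × Option ℕ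

/-- interval of one variable. -/
def iv (b : B4) (j : Fin 4) : Option (ℕ × ℕ) :=
  ![b.1, b.2.1, b.2.2.1, b.2.2.2.map fun a => (a, 14)] j

/-- the box. -/
def mkB (b : B4) : Box 4 where
  S := univ.filter fun j => (iv b j).isSome
  lo j := ((iv b j).getD (0, 0)).1
  hi j := ((iv b j).getD (0, 0)).2

/-- numbers of strand lobes. -/
def MM : Fin 4 → ℕ := ![18, 24, 14, 14]

def negF (j : Fin 4) (l : ℕ) : Bool :=
  (j == 0 && decide (2 ≤ l) && decide (l < 4)) || (j == 1 && decide (9 ≤ l) && decide (l < 14))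

def negG (j : Fin 4) (l : ℕ) : Bool :=
  (j == 0 && decide (5 ≤ l) && decide (l < 7)) || (j == 1 && decide (5 ≤ l) && decide (l < 10))

/-- deletion boxes of `f`. -/
def bxF : List B4 :=
  [ -- x-arm: only the cell `(2,2)`
    (some (2, 18), some (0, 2), none, none),
    (some (2, 18), some (3, 24), none, none),
    (some (2, 18), none, some (0, 2), none),
    (some (2, 18), none, some (3, 14), none),
    -- y-arm and z-arm
    (none, some (9, 24), some (4, 14), none),
    (none, some (4, 24), some (9, 14), none),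
    (some (1, 2), some (9, 24), some (2, 4), none),
    (some (1, 2), some (2, 4), some (9, 14), none),
    -- hub, `x`-lobe `1`
    (some (1, 2), some (2, 9), some (5, 9), none),
    (some (1, 2), some (5, 9), some (2, 9), none),
    -- windows over the x-arm
    (some (4, 5), none, none, some 11),
    (some (5, 6), none, none, some 10),
    (some (6, 10), none, none, some 6),
    (some (10, 18), none, none, some 3),
    -- windows over the y-arm
    (none, some (14, 17), none, some 10),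
    (none, some (17, 19), none, some 9),
    (none, some (19, 21), none, some 1),
    (none, some (21, 24), none, some 0)]

/-- deletion boxes of `g`. -/
def bxG : List B4 :=
  [ -- x-arm: only the cell `(1,1)`
    (some (4, 18), some (0, 1), none, none),
    (some (4, 18), some (2, 24), none, none),
    (some (4, 18), none, some (0, 1), none),
    (some (4, 18), none, some (2, 14), none),
    -- y-arm and z-arm
    (none, some (4, 24), some (2, 14), none),
    (none, some (2, 24), some (4, 14), none),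
    (some (2, 4), some (4, 24), some (1, 2), none),
    (some (2, 4), some (1, 2), some (4, 14), none),
    -- windows over the x-arm
    (some (7, 10), none, none, some 6),
    (some (10, 14), none, none, some 2),
    (some (14, 15), none, none, some 1),
    (some (15, 18), none, none, some 0),
    -- windows over the y-arm
    (none, some (10, 11), none, some 11),
    (none, some (11, 19), none, some 9),
    (none, some (19, 20), none, some 7),
    (none, some (20, 24), none, some 4)]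

theorem all_get {L : List B4} {P : B4 → Prop} (h : ∀ b ∈ L, P b) (e : Fin L.length) :
    P (L.get e) := h _ (List.get_mem L e)

/-- the data given by a list of boxes. -/
def mkD (neg : Fin 4 → ℕ → Bool) (L : List B4) (h2 : ∀ b ∈ L, 2 ≤ (mkB b).S.card)
    (hhi : ∀ b ∈ L, ∀ j ∈ (mkB b).S, (mkB b).hi j ≤ MM j) : SD 4 where
  M := MM
  hM := by decide
  neg := neg
  nb := L.length
  bx e := mkB (L.get e)
  h2 := all_get h2
  hhi := all_get hhi

/-- **data of the end function of `f`**. -/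
def Df : SD 4 := mkD negF bxF (by decide) (by decide)

/-- **data of the end function of `g`**. -/
def Dg : SD 4 := mkD negG bxG (by decide) (by decide)

/-! ### letters -/

def hit1 (o : Option (ℕ × ℕ)) (k : ℕ) : Bool :=
  match o with
  | none => true
  | some p => Nat.ble p.1 k && Nat.blt k p.2

def hit3 (b : B4) (k0 k1 k2 : ℕ) : Bool := hit1 b.1 k0 && (hit1 b.2.1 k1 && hit1 b.2.2.1 k2)

/-- the number of kept `w`-lobes. -/
def lim (L : List B4) (k0 k1 k2 : ℕ) : ℕ :=
  L.foldr (fun b r => bif hit3 b k0 k1 k2 then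
    (bif Nat.ble (b.2.2.2.getD 0) r then b.2.2.2.getD 0 else r) else r) 14

theorem hit1_iff (o : Option (ℕ × ℕ)) (k : ℕ) : hit1 o k = true ↔
    (o.isSome = true → (o.getD (0, 0)).1 ≤ k ∧ k < (o.getD (0, 0)).2) := by
  cases o with
  | none => simp [hit1]
  | some p => simp [hit1, Nat.blt_eq]

theorem box_iff (b : B4) (k : Fin 4 → ℕ) (h3 : k 3 < 14) :
    (∃ j ∈ (mkB b).S, ¬ ((mkB b).lo j ≤ k j ∧ k j < (mkB b).hi j)) ↔
      ¬ (hit3 b (k 0) (k 1) (k 2) = true ∧ b.2.2.2.getD 0 ≤ k 3) := by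
  rw [← not_iff_not, not_not]
  push Not
  have e : (∀ j ∈ (mkB b).S, (mkB b).lo j ≤ k j ∧ k j < (mkB b).hi j) ↔
      ∀ j, hit1 (iv b j) (k j) = true := by
    constructor
    · intro h j
      rw [hit1_iff]
      intro hj
      exact h j (by simpa [mkB] using hj)
    · intro h j hj
      have := (hit1_iff _ _).1 (h j)
      exact this (by simpa [mkB] using hj)
  rw [e]
  have e4 : hit1 (iv b 3) (k 3) = true ↔ b.2.2.2.getD 0 ≤ k 3 := by
    rw [hit1_iff]
    show ((b.2.2.2.map fun a => (a, 14)).isSome = true → _) ↔ _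
    cases h : b.2.2.2 with
    | none => simp
    | some a => simp [iv, h, h3]
  simp only [Fin.forall_fin_succ, Fin.succ_zero_eq_one, Fin.succ_one_eq_two, IsEmpty.forall_iff,
    and_true, hit3, Bool.and_eq_true]
  have e3 : (Fin.succ (2 : Fin 3) : Fin 4) = 3 := rfl
  rw [e3, e4]
  show (hit1 b.1 (k 0) = true ∧ hit1 b.2.1 (k 1) = true ∧ hit1 b.2.2.1 (k 2) = true ∧ _) ↔ _
  tauto

theorem lim_iff (L : List B4) (k0 k1 k2 k3 : ℕ) :
    (k3 < 14 ∧ ∀ b ∈ L, ¬ (hit3 b k0 k1 k2 = true ∧ b.2.2.2.getD 0 ≤ k3)) ↔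
      k3 < lim L k0 k1 k2 := by
  induction L with
  | nil => simp [lim]
  | cons b L ih =>
    have e : lim (b :: L) k0 k1 k2 = bif hit3 b k0 k1 k2 then
      (bif Nat.ble (b.2.2.2.getD 0) (lim L k0 k1 k2) then b.2.2.2.getD 0 else lim L k0 k1 k2)
        else lim L k0 k1 k2 := rfl
    rw [e, List.forall_mem_cons]
    have h1 : (k3 < 14 ∧ (¬ (hit3 b k0 k1 k2 = true ∧ b.2.2.2.getD 0 ≤ k3)) ∧
        ∀ b ∈ L, ¬ (hit3 b k0 k1 k2 = true ∧ b.2.2.2.getD 0 ≤ k3)) ↔
        (¬ (hit3 b k0 k1 k2 = true ∧ b.2.2.2.getD 0 ≤ k3)) ∧ k3 < lim L k0 k1 k2 := by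
      rw [← ih]
      tauto
    rw [h1]
    cases hit3 b k0 k1 k2 with
    | false => simp
    | true =>
      cases h : Nat.ble (b.2.2.2.getD 0) (lim L k0 k1 k2) with
      | true =>
        have := Nat.le_of_ble_eq_true h
        simp only [cond_true, true_and]
        omega
      | false =>
        have : ¬ b.2.2.2.getD 0 ≤ lim L k0 k1 k2 := by
          intro h'
          rw [Nat.ble_eq_true_of_le h'] at h
          exact Bool.noConfusion h
        simp only [cond_true, cond_false, true_and]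
        omega

/-- `lim + 1` is the window on the whole box. -/
noncomputable def limChk (L : List B4) (ws : ℕ × ℕ × ℕ → ℕ) : Bool :=
  ballR 18 fun k0 => ballR 24 fun k1 => ballR 14 fun k2 =>
    Nat.beq (lim L k0 k1 k2) (Nat.pred (ws (Nat.succ k0, Nat.succ k1, Nat.succ k2)))

theorem let_of {neg : Fin 4 → ℕ → Bool} {L : List B4} {h2 : ∀ b ∈ L, 2 ≤ (mkB b).S.card}
    {hhi : ∀ b ∈ L, ∀ j ∈ (mkB b).S, (mkB b).hi j ≤ MM j} {ws : ℕ × ℕ × ℕ → ℕ}
    (hc : limChk L ws = true)
    (hb : ∀ u, 2 ≤ ws u → u.1 < 19 ∧ u.2.1 < 25 ∧ u.2.2 < 15) (k : Fin 4 → ℕ) :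
    (mkD neg L h2 hhi).Let k ↔ k 3 + 1 < ws (k 0 + 1, k 1 + 1, k 2 + 1) := by
  have e1 : (∀ j, k j < MM j) ↔ k 0 < 18 ∧ k 1 < 24 ∧ k 2 < 14 ∧ k 3 < 14 := by
    simp only [Fin.forall_fin_succ, Fin.succ_zero_eq_one, Fin.succ_one_eq_two, IsEmpty.forall_iff,
      and_true]
    rfl
  have e2 : (mkD neg L h2 hhi).Let k ↔ (∀ j, k j < MM j) ∧
      ∀ b ∈ L, ∃ j ∈ (mkB b).S, ¬ ((mkB b).lo j ≤ k j ∧ k j < (mkB b).hi j) := by
    constructor
    · rintro ⟨h, h'⟩
      refine ⟨h, fun b hb => ?_⟩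
      obtain ⟨e, rfl⟩ := List.get_of_mem hb
      exact h' e
    · rintro ⟨h, h'⟩
      exact ⟨h, fun e => h' _ (List.get_mem L e)⟩
  rw [e2, e1]
  have key : ∀ k0 < 18, ∀ k1 < 24, ∀ k2 < 14,
      lim L k0 k1 k2 = ws (k0 + 1, k1 + 1, k2 + 1) - 1 := by
    intro k0 h0 k1 h1 k2 h2
    exact Nat.eq_of_beq_eq_true
      (ballR_elim (ballR_elim (ballR_elim hc h0) h1) h2)
  constructor
  · rintro ⟨⟨g0, g1, g2, g3⟩, h⟩
    have := (lim_iff L (k 0) (k 1) (k 2) (k 3)).1
      ⟨g3, fun b hb => (box_iff b k g3).1 (h b hb)⟩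
    rw [key _ g0 _ g1 _ g2] at this
    omega
  · intro h
    obtain ⟨g0, g1, g2⟩ := hb _ (by omega : 2 ≤ ws (k 0 + 1, k 1 + 1, k 2 + 1))
    simp only at g0 g1 g2
    have g0' : k 0 < 18 := by omega
    have g1' : k 1 < 24 := by omega
    have g2' : k 2 < 14 := by omega
    have h' : k 3 < lim L (k 0) (k 1) (k 2) := by
      rw [key _ g0' _ g1' _ g2']
      omega
    obtain ⟨g3, h3⟩ := (lim_iff L (k 0) (k 1) (k 2) (k 3)).2 h'
    exact ⟨⟨g0', g1', g2', g3⟩, fun b hb => (box_iff b k g3).2 (h3 b hb)⟩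





theorem neg_f : NegIn Df.neg 3 5 10 15 := by
  refine ⟨fun k => ?_, fun k => ?_, fun k => rfl, fun k => rfl⟩ <;>
  · simp [Df, mkD, negF]
    omega

theorem neg_g : NegIn Dg.neg 6 8 6 11 := by
  refine ⟨fun k => ?_, fun k => ?_, fun k => rfl, fun k => rfl⟩ <;>
  · simp [Dg, mkD, negG]
    omega

end Crest.Agent.R267.SFLDb_330
private theorem rz_70f31f1fc1 : type_of% @_root_.Crest.Agent.R267.SFLDb_330.hit1.eq_1 := @_root_.Crest.Agent.R267.SFLDb_330.hit1.eq_1 -- L120
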