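import Crest.Agent.R267.SFDefs_330
import Crest.Agent.R267.Split_330

/-!
# The target form = nested levels plus a nilpotent part (row 267, package P3.6)
-/

set_option autoImplicit false
set_option synthInstance.maxSize 10000
set_option synthInstance.maxHeartbeats 400000

namespace Crest.Agent.R267.SFT_330

open Matrix P4Defs_780 SFLift_330 SFDefs_330 NL_330 Split_330

/-! ### generic facts on congruence -/

theorem csymm {ι κ : Type} [Fintype ι] [Fintype κ] [DecidableEq ι] [DecidableEq κ]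
    {A : Matrix ι ι ℤ} {B : Matrix κ κ ℤ} (h : Cong ℤ A B) : Cong ℤ B A := by
  obtain ⟨P, Q, h1, h2, h3⟩ := h
  refine ⟨Q, P, h2, h1, ?_⟩
  have h4 : Qᵀ * Pᵀ = 1 := by rw [← Matrix.transpose_mul, h1, Matrix.transpose_one]
  calc Qᵀ * B * Q = (Qᵀ * Pᵀ) * A * (P * Q) := by rw [← h3]; simp only [Matrix.mul_assoc]
    _ = A := by rw [h4, h1, Matrix.one_mul, Matrix.mul_one]

theorem ctrans {ι κ ν : Type} [Fintype ι] [Fintype κ] [Fintype ν] [DecidableEq ι]
    [DecidableEq κ] [DecidableEq ν] {A : Matrix ι ι ℤ} {B : Matrix κ κ ℤ} {C : Matrix ν ν ℤ}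
    (h : Cong ℤ A B) (h' : Cong ℤ B C) : Cong ℤ A C := by
  obtain ⟨P, Q, h1, h2, h3⟩ := h
  obtain ⟨P', Q', h1', h2', h3'⟩ := h'
  refine ⟨P * P', Q' * Q, ?_, ?_, ?_⟩
  · calc P * P' * (Q' * Q) = P * (P' * Q') * Q := by simp only [Matrix.mul_assoc]
      _ = 1 := by rw [h1', Matrix.mul_one, h1]
  · calc Q' * Q * (P * P') = Q' * (Q * P) * P' := by simp only [Matrix.mul_assoc]
      _ = 1 := by rw [h2, Matrix.mul_one, h2']
  · rw [Matrix.transpose_mul, ← h3', ← h3]; simp only [Matrix.mul_assoc]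

theorem cblock {ι κ ν : Type} [Fintype ι] [Fintype κ] [Fintype ν] [DecidableEq ι]
    [DecidableEq κ] [DecidableEq ν] {A : Matrix ι ι ℤ} {B : Matrix κ κ ℤ} (C : Matrix ν ν ℤ)
    (h : Cong ℤ A B) : Cong ℤ (fromBlocks A 0 0 C) (fromBlocks B 0 0 C) := by
  obtain ⟨P, Q, h1, h2, h3⟩ := h
  refine ⟨fromBlocks P 0 0 1, fromBlocks Q 0 0 1, ?_, ?_, ?_⟩
  · rw [fromBlocks_multiply]; simp [h1]
  · rw [fromBlocks_multiply]; simp [h2]
  · rw [fromBlocks_transpose, fromBlocks_multiply, fromBlocks_multiply]; simp [h3]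

/-! ### the nilpotent part -/

/-- index type of the cancelled letters: level times ((x-ray) or (cell, y-ray)). -/
abbrev Mu := Fin 14 × (Fin 2 ⊕ (Fin 6 × Fin 5))

/-- code of a cancelled full ray. -/
def cX : Fin 2 ⊕ (Fin 6 × Fin 5) → T
  | .inl j => (5, 0, j.val + 1)
  | .inr (a, j) => (6, a.val, j.val + 1)

/-- code of a difference letter. -/
def cN : Fin 2 ⊕ (Fin 6 × Fin 5) → T
  | .inl j => (7, 0, j.val + 1)
  | .inr (a, j) => (8, a.val, j.val + 1)

/-- code of a letter of the nested levels. -/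
def enc : Lt → T
  | .S a => (0, a.val, 0)
  | .O a => (1, a.val, 0)
  | .X i => (2, 0, i)
  | .Y a i => (3, a.val, i)
  | .Z a i => (4, a.val, i)

theorem enc_inj : Function.Injective enc := by
  intro u v h
  cases u <;> cases v <;> simp [enc, Fin.val_inj] at h ⊢ <;> exact h

theorem cX_inj : Function.Injective cX := by
  rintro (i | ⟨a, i⟩) (j | ⟨b, j⟩) h <;> simp [cX, Fin.val_inj] at h ⊢ <;> exact h

theorem cN_inj : Function.Injective cN := by
  rintro (i | ⟨a, i⟩) (j | ⟨b, j⟩) h <;> simp [cN, Fin.val_inj] at h ⊢ <;> exact h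

/-- labelling of the target. -/
def labT (R : Rows) : Idx R 15 ⊕ (Mu ⊕ Mu) → ℕ × T
  | .inl x => (x.1.1, enc x.1.2)
  | .inr (.inl m) => (m.1.val + 2, cX m.2)
  | .inr (.inr m) => (m.1.val + 2, cN m.2)

theorem labT_inj (R : Rows) : Function.Injective (labT R) := by
  rintro (x | ⟨k, x⟩ | ⟨k, x⟩) (y | ⟨l, y⟩ | ⟨l, y⟩) h
  · simp only [labT, Prod.mk.injEq] at h
    have : x.1 = y.1 := Prod.ext h.1 (enc_inj h.2)
    rw [Subtype.ext this]
  · exfalso
    simp only [labT, Prod.mk.injEq] at h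
    obtain ⟨⟨k, u⟩, hx⟩ := x
    rcases y with j | ⟨b, j⟩ <;> cases u <;> simp [enc, cX] at h
  · exfalso
    simp only [labT, Prod.mk.injEq] at h
    obtain ⟨⟨k, u⟩, hx⟩ := x
    rcases y with j | ⟨b, j⟩ <;> cases u <;> simp [enc, cN] at h
  · exfalso
    simp only [labT, Prod.mk.injEq] at h
    obtain ⟨⟨k, u⟩, hx⟩ := y
    rcases x with j | ⟨b, j⟩ <;> cases u <;> simp [enc, cX] at h
  · simp only [labT, Prod.mk.injEq] at h
    have h1 : k = l := Fin.ext (by omega)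
    rw [h1, cX_inj h.2]
  · exfalso
    simp only [labT, Prod.mk.injEq] at h
    rcases x with j | ⟨b, j⟩ <;> rcases y with i | ⟨a, i⟩ <;> simp [cN, cX] at h
  · exfalso
    simp only [labT, Prod.mk.injEq] at h
    obtain ⟨⟨k, u⟩, hx⟩ := y
    rcases x with j | ⟨b, j⟩ <;> cases u <;> simp [enc, cN] at h
  · exfalso
    simp only [labT, Prod.mk.injEq] at h
    rcases x with j | ⟨b, j⟩ <;> rcases y with i | ⟨a, i⟩ <;> simp [cN, cX] at h
  · simp only [labT, Prod.mk.injEq] at h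
    have h1 : k = l := Fin.ext (by omega)
    rw [h1, cN_inj h.2]

/-- compatibility of a weight function with the staircases. -/
structure WOK (R : Rows) (wt : T → ℕ) : Prop where
  bd : ∀ u, 2 ≤ wt u → u.1 < 9 ∧ u.2.1 < 6 ∧ u.2.2 < 15
  le : ∀ t < 9, ∀ a < 6, ∀ i < 15, wt (t, a, i) ≤ 15
  rp : ∀ k < 16, 2 ≤ k → at1 R.p k ≤ 15 ∧ at1 R.q k ≤ 15 ∧ at1 R.r k ≤ 15
  w0 : ∀ a < 6, ∀ i < 15, wt (0, a, i) = if i = 0 then 15 else 0
  w1 : ∀ a < 6, ∀ i < 15, wt (1, a, i) = if i = 0 then 15 else 0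
  w2 : ∀ k < 16, 2 ≤ k → ∀ a < 6, ∀ i < 15, (k ≤ wt (2, a, i) ↔ a = 0 ∧ 1 ≤ i ∧ i < at1 R.p k)
  w3 : ∀ k < 16, 2 ≤ k → ∀ a < 6, ∀ i < 15, (k ≤ wt (3, a, i) ↔ 1 ≤ i ∧ i < at1 R.q k)
  w4 : ∀ k < 16, 2 ≤ k → ∀ a < 6, ∀ i < 15, (k ≤ wt (4, a, i) ↔ 1 ≤ i ∧ i < at1 R.r k)
  w5 : ∀ a < 6, ∀ i < 15, wt (5, a, i) = if a = 0 ∧ 1 ≤ i ∧ i ≤ 2 then 15 else 0
  w6 : ∀ a < 6, ∀ i < 15, wt (6, a, i) = if 1 ≤ i ∧ i ≤ 5 then 15 else 0
  w7 : ∀ a < 6, ∀ i < 15, wt (7, a, i) = if a = 0 ∧ 1 ≤ i ∧ i ≤ 2 then 15 else 0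
  w8 : ∀ a < 6, ∀ i < 15, wt (8, a, i) = if 1 ≤ i ∧ i ≤ 5 then 15 else 0

theorem isLabT {R : Rows} {M : Fm T} (h : WOK R M.ws) : IsLab M (labT R) where
  inj := labT_inj R
  mem := by
    rintro (⟨⟨k, u⟩, hk1, hk2, hp⟩ | ⟨k, x⟩ | ⟨k, x⟩)
    · simp only [labT]
      have hk1 : 2 ≤ k := hk1
      have hk2 : k ≤ 15 := hk2
      refine ⟨hk1, ?_⟩
      have hr := h.rp k (by omega) hk1
      cases u with
      | S a => rw [enc, h.w0 a.val a.isLt 0 (by omega), if_pos rfl]; exact hk2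
      | O a => rw [enc, h.w1 a.val a.isLt 0 (by omega), if_pos rfl]; exact hk2
      | X i =>
        have hp' : 1 ≤ i ∧ i < at1 R.p k := hp
        exact (h.w2 k (by omega) hk1 0 (by omega) i (by omega)).2 ⟨rfl, hp'⟩
      | Y a i =>
        have hp' : 1 ≤ i ∧ i < at1 R.q k := hp
        exact (h.w3 k (by omega) hk1 a.val a.isLt i (by omega)).2 hp'
      | Z a i =>
        have hp' : 1 ≤ i ∧ i < at1 R.r k := hp
        exact (h.w4 k (by omega) hk1 a.val a.isLt i (by omega)).2 hp'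
    · simp only [labT]
      have hk := k.isLt
      refine ⟨by omega, ?_⟩
      rcases x with j | ⟨a, j⟩
      · have hj := j.isLt
        rw [cX, h.w5 0 (by omega) _ (by omega), if_pos (by omega)]; omega
      · have hj := j.isLt
        rw [cX, h.w6 a.val a.isLt _ (by omega), if_pos (by omega)]; omega
    · simp only [labT]
      have hk := k.isLt
      refine ⟨by omega, ?_⟩
      rcases x with j | ⟨a, j⟩
      · have hj := j.isLt
        rw [cN, h.w7 0 (by omega) _ (by omega), if_pos (by omega)]; omega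
      · have hj := j.isLt
        rw [cN, h.w8 a.val a.isLt _ (by omega), if_pos (by omega)]; omega
  surj := by
    rintro k ⟨t, a, i⟩ hk hku
    have hb := h.bd (t, a, i) (le_trans hk hku)
    obtain ⟨ht, ha, hi⟩ := hb
    simp only at ht ha hi
    have hk15 : k ≤ 15 := le_trans hku (h.le t ht a ha i hi)
    have cases9 : t = 0 ∨ t = 1 ∨ t = 2 ∨ t = 3 ∨ t = 4 ∨ t = 5 ∨ t = 6 ∨ t = 7 ∨ t = 8 := by omega
    rcases cases9 with rfl | rfl | rfl | rfl | rfl | rfl | rfl | rfl | rfl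
    · rw [h.w0 a ha i hi] at hku
      split_ifs at hku with h0
      · subst h0
        exact ⟨.inl ⟨(k, .S ⟨a, ha⟩), hk, hk15, trivial⟩, rfl⟩
      · omega
    · rw [h.w1 a ha i hi] at hku
      split_ifs at hku with h0
      · subst h0
        exact ⟨.inl ⟨(k, .O ⟨a, ha⟩), hk, hk15, trivial⟩, rfl⟩
      · omega
    · obtain ⟨rfl, hp⟩ := (h.w2 k (by omega) hk a ha i hi).1 hku
      exact ⟨.inl ⟨(k, .X i), hk, hk15, hp⟩, rfl⟩
    · have hp := (h.w3 k (by omega) hk a ha i hi).1 hku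
      exact ⟨.inl ⟨(k, .Y ⟨a, ha⟩ i), hk, hk15, hp⟩, rfl⟩
    · have hp := (h.w4 k (by omega) hk a ha i hi).1 hku
      exact ⟨.inl ⟨(k, .Z ⟨a, ha⟩ i), hk, hk15, hp⟩, rfl⟩
    · rw [h.w5 a ha i hi] at hku
      split_ifs at hku with h0
      · obtain ⟨rfl, h1, h2⟩ := h0
        refine ⟨.inr (.inl (⟨k - 2, by omega⟩, .inl ⟨i - 1, by omega⟩)), ?_⟩
        simp only [labT, cX]
        rw [Nat.sub_add_cancel hk, Nat.sub_add_cancel h1]
      · omega
    · rw [h.w6 a ha i hi] at hku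
      split_ifs at hku with h0
      · obtain ⟨h1, h2⟩ := h0
        refine ⟨.inr (.inl (⟨k - 2, by omega⟩, .inr (⟨a, ha⟩, ⟨i - 1, by omega⟩))), ?_⟩
        simp only [labT, cX]
        rw [Nat.sub_add_cancel hk, Nat.sub_add_cancel h1]
      · omega
    · rw [h.w7 a ha i hi] at hku
      split_ifs at hku with h0
      · obtain ⟨rfl, h1, h2⟩ := h0
        refine ⟨.inr (.inr (⟨k - 2, by omega⟩, .inl ⟨i - 1, by omega⟩)), ?_⟩
        simp only [labT, cN]
        rw [Nat.sub_add_cancel hk, Nat.sub_add_cancel h1]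
      · omega
    · rw [h.w8 a ha i hi] at hku
      split_ifs at hku with h0
      · obtain ⟨h1, h2⟩ := h0
        refine ⟨.inr (.inr (⟨k - 2, by omega⟩, .inr (⟨a, ha⟩, ⟨i - 1, by omega⟩))), ?_⟩
        simp only [labT, cN]
        rw [Nat.sub_add_cancel hk, Nat.sub_add_cancel h1]
      · omega

/-! ### the blocks `P`, `Q` -/

/-- upper triangular ones. -/
def U14 : Matrix (Fin 14) (Fin 14) ℤ := fun i j => if i ≤ j then 1 else 0

/-- inverse of `U14`. -/
def U14i : Matrix (Fin 14) (Fin 14) ℤ :=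
  fun i j => if i = j then 1 else if i.val + 1 = j.val then -1 else 0

/-- lower triangular ones: `L(n_i, x_j)` up to sign. -/
def Lo (m : ℕ) : Matrix (Fin m) (Fin m) ℤ := fun i j => if j ≤ i then 1 else 0

def Loi (m : ℕ) : Matrix (Fin m) (Fin m) ℤ :=
  fun i j => if i = j then 1 else if j.val + 1 = i.val then -1 else 0

/-- strictly upper triangular ones. -/
def Up (m : ℕ) : Matrix (Fin m) (Fin m) ℤ := fun i j => if i < j then 1 else 0

/-- one-level `P`, rows `n`, columns `x`. -/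
def P3 : Matrix (Fin 2 ⊕ (Fin 6 × Fin 5)) (Fin 2 ⊕ (Fin 6 × Fin 5)) ℤ :=
  fromBlocks (-Lo 2) 0 0 (-kroneckerMap (· * ·) LP (Lo 5))

def P3i : Matrix (Fin 2 ⊕ (Fin 6 × Fin 5)) (Fin 2 ⊕ (Fin 6 × Fin 5)) ℤ :=
  fromBlocks (-Loi 2) 0 0 (-kroneckerMap (· * ·) LPi (Loi 5))

/-- one-level `Q`, rows `x`, columns `n`. -/
def Q3 : Matrix (Fin 2 ⊕ (Fin 6 × Fin 5)) (Fin 2 ⊕ (Fin 6 × Fin 5)) ℤ :=
  fromBlocks (Up 2) 0 0 (kroneckerMap (· * ·) LP (Up 5))

def PM : Matrix Mu Mu ℤ := kroneckerMap (· * ·) U14 P3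

def PMi : Matrix Mu Mu ℤ := kroneckerMap (· * ·) U14i P3i

def QM : Matrix Mu Mu ℤ := kroneckerMap (· * ·) U14 Q3

theorem U14_mul : U14 * U14i = 1 := by decide +kernel

theorem Lo2_mul : Lo 2 * Loi 2 = 1 := by decide +kernel

theorem Lo5_mul : Lo 5 * Loi 5 = 1 := by decide +kernel

theorem P3_mul : P3 * P3i = 1 := by
  unfold P3 P3i
  rw [fromBlocks_multiply]
  simp only [Matrix.neg_mul, Matrix.mul_neg, neg_neg, Matrix.mul_zero, Matrix.zero_mul,
    add_zero, zero_add, neg_zero]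
  rw [← Matrix.mul_kronecker_mul, Lo2_mul, Lo5_mul, LP_mul_LPi, Matrix.one_kronecker_one,
    fromBlocks_one]

theorem PM_mul : PM * PMi = 1 := by
  unfold PM PMi
  rw [← Matrix.mul_kronecker_mul, U14_mul, P3_mul, Matrix.one_kronecker_one]

/-- one-level nilpotent operator. -/
theorem Q3_nil : (Q3 * P3iᵀ) ^ 5 = 0 := by
  have h2 : (Up 2 * (Loi 2)ᵀ) ^ 5 = 0 := by decide +kernel
  have h5 : (Up 5 * (Loi 5)ᵀ) ^ 5 = 0 := by decide +kernel
  have e : Q3 * P3iᵀ = -fromBlocks (Up 2 * (Loi 2)ᵀ) 0 0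
      (kroneckerMap (· * ·) (LP * LPiᵀ) (Up 5 * (Loi 5)ᵀ)) := by
    unfold Q3 P3i
    rw [fromBlocks_transpose, fromBlocks_multiply, Matrix.mul_kronecker_mul, fromBlocks_neg]
    simp only [Matrix.transpose_neg, Matrix.transpose_zero, Matrix.mul_neg, Matrix.mul_zero,
      Matrix.zero_mul, add_zero, zero_add, Matrix.kroneckerMap_transpose, neg_zero]
  have hp : ∀ (A : Matrix (Fin 2) (Fin 2) ℤ) (B : Matrix (Fin 6 × Fin 5) (Fin 6 × Fin 5) ℤ)
      (n : ℕ), (fromBlocks A 0 0 B) ^ n = fromBlocks (A ^ n) 0 0 (B ^ n) := by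
    intro A B n
    induction n with
    | zero => simp [fromBlocks_one]
    | succ n ih => rw [pow_succ, ih, fromBlocks_multiply]; simp [pow_succ]
  have hk : ∀ (A : Matrix (Fin 6) (Fin 6) ℤ) (B : Matrix (Fin 5) (Fin 5) ℤ)
      (n : ℕ), (kroneckerMap (· * ·) A B) ^ n = kroneckerMap (· * ·) (A ^ n) (B ^ n) := by
    intro A B n
    induction n with
    | zero => simp
    | succ n ih => rw [pow_succ, ih, ← Matrix.mul_kronecker_mul, pow_succ, pow_succ]
  rw [e, neg_pow, hp, hk, h2, h5, Matrix.kroneckerMap_zero_right _ (by simp),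
    fromBlocks_zero, mul_zero]

theorem QM_nil : (QM * PMiᵀ) ^ 5 = 0 := by
  have e : QM * PMiᵀ = kroneckerMap (· * ·) (U14 * U14iᵀ) (Q3 * P3iᵀ) := by
    unfold QM PMi
    rw [Matrix.mul_kronecker_mul, Matrix.kroneckerMap_transpose]
  have hk : ∀ (A : Matrix (Fin 14) (Fin 14) ℤ)
      (B : Matrix (Fin 2 ⊕ (Fin 6 × Fin 5)) (Fin 2 ⊕ (Fin 6 × Fin 5)) ℤ)
      (n : ℕ), (kroneckerMap (· * ·) A B) ^ n = kroneckerMap (· * ·) (A ^ n) (B ^ n) := by
    intro A B n
    induction n with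
    | zero => simp
    | succ n ih => rw [pow_succ, ih, ← Matrix.mul_kronecker_mul, pow_succ, pow_succ]
  rw [e, hk, Q3_nil, Matrix.kroneckerMap_zero_right _ (by simp)]

/-- entry conditions for the target form. -/
structure EOK (C : Core) (F : T → T → ℤ) : Prop where
  L : ∀ u v, F (enc u) (enc v) = L0 C u v
  n1 : ∀ u q, F (enc u) (cN q) = 0
  n2 : ∀ q u, F (cN q) (enc u) = 0
  n3 : ∀ p q, F (cN p) (cN q) = 0
  P : ∀ p q, F (cN p) (cX q) = P3 p q
  Q : ∀ p q, F (cX p) (cN q) = Q3 p q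

theorem mat_eq {C : Core} (R : Rows) {M : Fm T} (h : EOK C M.F) :
    ∃ (b : Matrix (Idx R 15) Mu ℤ) (c : Matrix Mu (Idx R 15) ℤ) (H : Matrix Mu Mu ℤ),
      Mat M (labT R) = B3 (AF C R 15) b 0 c H QM 0 PM 0 := by
  refine ⟨fun x m => Mat M (labT R) (.inl x) (.inr (.inl m)),
    fun m x => Mat M (labT R) (.inr (.inl m)) (.inl x),
    fun m n => Mat M (labT R) (.inr (.inl m)) (.inr (.inl n)), ?_⟩
  ext x y
  rcases x with x | x | x <;> rcases y with y | y | y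
  · simp only [B3, fromBlocks_apply₁₁, Mat, labT, AF, ent, h.L]
  · simp only [B3, fromBlocks_apply₁₂, fromCols_apply_inl]
  · simp only [B3, fromBlocks_apply₁₂, fromCols_apply_inr, Mat, labT, h.n1, ite_self,
      Matrix.zero_apply]
  · simp only [B3, fromBlocks_apply₂₁, fromRows_apply_inl]
  · simp only [B3, fromBlocks_apply₂₂, fromBlocks_apply₁₁]
  · simp only [B3, fromBlocks_apply₂₂, fromBlocks_apply₁₂, Mat, labT, h.Q, QM,
      Matrix.kroneckerMap_apply, U14, Fin.le_def, Nat.add_le_add_iff_right, ite_mul, one_mul,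
      zero_mul]
  · simp only [B3, fromBlocks_apply₂₁, fromRows_apply_inr, Mat, labT, h.n2, ite_self,
      Matrix.zero_apply]
  · simp only [B3, fromBlocks_apply₂₂, fromBlocks_apply₂₁, Mat, labT, h.P, PM,
      Matrix.kroneckerMap_apply, U14, Fin.le_def, Nat.add_le_add_iff_right, ite_mul, one_mul,
      zero_mul]
  · simp only [B3, fromBlocks_apply₂₂, Mat, labT, h.n3, ite_self, Matrix.zero_apply]

/-- **the target form is congruent to nested levels plus a fixed nilpotent form**. -/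
theorem cong_T {C : Core} (R : Rows) {M : Fm T} (h : EOK C M.F) :
    Cong ℤ (Mat M (labT R)) (fromBlocks (AF C R 15) 0 0 (fromBlocks 0 QM PM 0)) := by
  obtain ⟨b, c, H, e⟩ := mat_eq R h
  rw [e]
  have := split (AF C R 15) b c H QM PM 0 PMi (isUnit_det_AF C R 15) PM_mul 5 QM_nil
  simpa only [B3, fromCols_zero, fromRows_zero] using this

end Crest.Agent.R267.SFT_330
private theorem rz_5b8a18f364 : type_of% @_root_.Crest.Agent.R267.SFT_330.cN.eq_1 := @_root_.Crest.Agent.R267.SFT_330.cN.eq_1 -- L58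
private theorem rz_71cf17c3f5 : type_of% @_root_.Crest.Agent.R267.SFT_330.cX.eq_1 := @_root_.Crest.Agent.R267.SFT_330.cX.eq_1 -- L53
private theorem rz_2755f7a6de : type_of% @_root_.Crest.Agent.R267.SFT_330.enc.eq_1 := @_root_.Crest.Agent.R267.SFT_330.enc.eq_1 -- L63
private theorem rz_435cdb2b01 : type_of% @_root_.Crest.Agent.R267.SFT_330.labT.eq_1 := @_root_.Crest.Agent.R267.SFT_330.labT.eq_1 -- L81
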