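import Crest.Agent.R267.StLit_143
import Crest.Agent.R267.HubInst_370

-- ▼ part R267/StOwn_143
section

/-!
# Row 267 (S0406), arrow C4 (helper143): own words minus product boxes have no bad points

`ownReg : OwnReg X` from: the windows are `0` or `1` at the centres of the positive lobes and the
coefficients are large, `1 < ce e * ∏ (be e j) ^ (be e j)`.
-/

set_option autoImplicit false
set_option linter.unusedSectionVars false

noncomputable section

open Set Filter Topology
open scoped ContDiff ComplexConjugate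
open Crest.Agent.R267.Ang_739 Crest.Agent.R267.StairFn_739 Crest.Agent.R267.StairPh_739
open Crest.Agent.R267.Start_862 (rp ip Pt Sys)
open Crest.Agent.R267.StLit_143

namespace Crest.Agent.R267.StOwn_143

variable {ε : Type} [Fintype ε]

/-- windows and coefficients of the boxes -/
structure Big (X : HD ε) : Prop where
  one : ∀ e i, X.be e i = 0 → ∀ x, X.lam e i x = 1
  win : ∀ e i x, cis (X.p i x) = 1 → X.lam e i x = 0 ∨ X.lam e i x = 1
  big : ∀ e, 1 < X.ce e * ∏ j, X.be e j ^ X.be e j

/-- a unit vector which is real along and across -/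
theorem cis_real {x : ℝ} (h : (cis x).im = 0) : cis x = 1 ∨ cis x = -1 := by
  have h1 : ‖cis x‖ = 1 := norm_cis _
  have h2 : (cis x).re * (cis x).re = 1 := by
    have h3 := Complex.normSq_apply (cis x)
    rw [Complex.normSq_eq_norm_sq, h1, h] at h3
    linarith
  rcases mul_self_eq_one_iff.1 h2 with h4 | h4
  · left; exact Complex.ext h4 (by simpa using h)
  · right; exact Complex.ext (by simpa using h4) (by simpa using h)

theorem ownReg {X : HD ε} (hX : X.OK) (hb : Big X) : OwnReg X := by
  intro θ r hr hr0 ζ hζ h0 hrad hang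
  set e : Fin 4 → ℂ := fun i => cis (X.p i (θ i)) with he
  set T : ε → ℝ := fun k => bx X k ((0, θ), r) with hT
  have hT0 : ∀ k, 0 ≤ T k := fun k => bx_nonneg hX k _
  have hN0 : ∀ i, 0 ≤ ∑ k, X.be k i * T k := fun i =>
    Finset.sum_nonneg fun k _ => mul_nonneg (hX.be0 k i) (hT0 k)
  -- across
  have hac : ∀ i, deriv (X.p i) (θ i) ≠ 0 → r i * ip ζ (e i) = 0 := by
    intro i hi
    have h1 := hang i
    have h2 : ∑ k, X.ce k * dl X k i θ * ∏ j, |r j| ^ X.be k j = 0 := by
      refine Finset.sum_eq_zero fun k _ => ?_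
      have : dl X k i θ = 0 := by
        unfold dl
        rw [hX.lq k i _ hi, zero_mul]
      rw [this, mul_zero, zero_mul]
    rw [h2, zero_mul, add_zero] at h1
    exact (mul_eq_zero.1 h1).resolve_left hi
  have hfl : ∀ i, deriv (X.p i) (θ i) = 0 → e i = -1 := fun i hi => hX.pf i _ hi
  have him : ∀ i, r i * ip ζ (e i) = (if deriv (X.p i) (θ i) = 0 then r i else 0) * ζ.im := by
    intro i
    split_ifs with h
    · rw [hfl i h, Start_862.ip_neg_one]
    · rw [hac i h, zero_mul]
  have htot : ((∑ i, if deriv (X.p i) (θ i) = 0 then r i else 0) + ∑ k, T k) * ζ.im = 0 := by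
    have h1 : (conj ζ * ((∑ i, (r i : ℂ) * e i) - ((∑ k, T k : ℝ) : ℂ))).im = 0 := by
      rw [h0, mul_zero]; rfl
    rw [mul_sub, Complex.sub_im, Finset.mul_sum, Complex.im_sum] at h1
    have h2 : ∀ i, (conj ζ * ((r i : ℂ) * e i)).im = r i * ip ζ (e i) := fun i => by
      have : conj ζ * ((r i : ℂ) * e i) = (r i : ℂ) * (conj ζ * e i) := by ring
      rw [this, Complex.im_ofReal_mul]; rfl
    have h3 : (conj ζ * ((∑ k, T k : ℝ) : ℂ)).im = -((∑ k, T k) * ζ.im) := by
      rw [mul_comm, Complex.im_ofReal_mul, Complex.conj_im]; ring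
    rw [Finset.sum_congr rfl fun i _ => (h2 i).trans (him i), ← Finset.sum_mul, h3] at h1
    linarith
  have hflat0 : ∀ i, 0 ≤ (if deriv (X.p i) (θ i) = 0 then r i else 0) := fun i => by
    split_ifs
    · exact hr i
    · exact le_rfl
  by_cases hz : ζ.im = 0
  · -- real conormal
    have hre : ζ.re = 1 ∨ ζ.re = -1 := by
      have h3 := Complex.normSq_apply ζ
      rw [Complex.normSq_eq_norm_sq, hζ, hz] at h3
      exact mul_self_eq_one_iff.1 (by linarith)
    have hsq : ζ.re * ζ.re = 1 := by rcases hre with h | h <;> rw [h] <;> norm_num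
    have hrp : ∀ w : ℂ, rp ζ w = ζ.re * w.re := fun w => by
      unfold rp
      rw [Complex.mul_re, Complex.conj_re, Complex.conj_im, hz]
      ring
    have hip : ∀ w : ℂ, ip ζ w = ζ.re * w.im := fun w => by
      unfold ip
      rw [Complex.mul_im, Complex.conj_re, Complex.conj_im, hz]
      ring
    have hR : ∀ i, r i * (e i).re = ∑ k, X.be k i * T k := by
      intro i
      have h1 := hrad i
      rw [hrp] at h1
      change r i * (ζ.re * (e i).re) = (∑ k, X.be k i * T k) * ζ.re at h1
      linear_combination ζ.re * h1 - (r i * (e i).re - ∑ k, X.be k i * T k) * hsq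
    -- active variables are at `+1`
    have hone : ∀ i, r i ≠ 0 → e i = 1 := by
      intro i hi
      have hpos : 0 < r i := lt_of_le_of_ne (hr i) (Ne.symm hi)
      have h1 : e i = 1 ∨ e i = -1 := by
        by_cases h : deriv (X.p i) (θ i) = 0
        · exact Or.inr (hfl i h)
        · have h2 := hac i h
          rw [hip] at h2
          have h3 : (e i).im = 0 := by
            rcases mul_eq_zero.1 h2 with h4 | h4
            · exact absurd h4 hi
            · refine (mul_eq_zero.1 h4).resolve_left ?_
              rcases hre with h | h <;> rw [h] <;> norm_num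
          exact cis_real h3
      rcases h1 with h1 | h1
      · exact h1
      · exfalso
        have h2 := hR i
        rw [h1] at h2
        have h3 := hN0 i
        simp only [Complex.neg_re, Complex.one_re] at h2
        linarith
    have hrN : ∀ i, r i = ∑ k, X.be k i * T k := by
      intro i
      by_cases h : r i = 0
      · rw [h]
        have h1 := hR i
        rw [h, zero_mul] at h1
        exact h1
      · have h1 := hR i
        rw [hone i h, Complex.one_re, mul_one] at h1
        exact h1
    -- some box is active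
    obtain ⟨i, hi⟩ : ∃ i, r i ≠ 0 := by
      by_contra hcon
      push Not at hcon
      exact hr0 (funext hcon)
    obtain ⟨k, hk⟩ : ∃ k, T k ≠ 0 := by
      by_contra hcon
      push Not at hcon
      refine hi ?_
      rw [hrN i]
      exact Finset.sum_eq_zero fun k _ => by rw [hcon k, mul_zero]
    have hkpos : 0 < T k := lt_of_le_of_ne (hT0 k) (Ne.symm hk)
    have hge : ∀ j, X.be k j * T k ≤ r j := by
      intro j
      rw [hrN j]
      exact Finset.single_le_sum (f := fun k => X.be k j * T k)
        (fun k _ => mul_nonneg (hX.be0 k j) (hT0 k)) (Finset.mem_univ k)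
    have hlam : ∀ j, X.lam k j (θ j) = 1 := by
      intro j
      by_cases h : X.be k j = 0
      · exact hb.one k j h _
      · have h1 : 0 < r j :=
          (mul_pos (lt_of_le_of_ne (hX.be0 k j) (Ne.symm h)) hkpos).trans_le (hge j)
        rcases hb.win k j (θ j) (hone j h1.ne') with h2 | h2
        · exfalso
          refine hk ?_
          simp only [hT, bx]
          have : ∏ j, X.lam k j (θ j) = 0 := Finset.prod_eq_zero (Finset.mem_univ j) h2
          rw [this]; ring
        · exact h2
    have hTk : T k = X.ce k * ∏ j, |r j| ^ X.be k j := by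
      simp only [hT, bx]
      rw [Finset.prod_congr rfl fun j _ => hlam j, Finset.prod_const_one, mul_one]
    have h5 : ∏ j, (X.be k j * T k) ^ X.be k j ≤ ∏ j, |r j| ^ X.be k j := by
      refine Finset.prod_le_prod (fun j _ => Real.rpow_nonneg
        (mul_nonneg (hX.be0 k j) hkpos.le) _) fun j _ => ?_
      rw [abs_of_nonneg (hr j)]
      exact Real.rpow_le_rpow (mul_nonneg (hX.be0 k j) hkpos.le) (hge j) (hX.be0 k j)
    have h6 : ∏ j, (X.be k j * T k) ^ X.be k j = (∏ j, X.be k j ^ X.be k j) * T k := by
      rw [Finset.prod_congr rfl fun j _ => Real.mul_rpow (hX.be0 k j) hkpos.le,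
        Finset.prod_mul_distrib, ← Real.rpow_sum_of_pos hkpos, hX.be1, Real.rpow_one]
    rw [h6] at h5
    have h7 := mul_le_mul_of_nonneg_left h5 (hX.ce0 k)
    rw [← hTk, ← mul_assoc] at h7
    have h8 := hb.big k
    nlinarith
  · -- non real conormal
    have h1 := (mul_eq_zero.1 htot).resolve_right hz
    have hTs : 0 ≤ ∑ k, T k := Finset.sum_nonneg fun k _ => hT0 k
    have hfs : 0 ≤ ∑ i, (if deriv (X.p i) (θ i) = 0 then r i else 0) :=
      Finset.sum_nonneg fun i _ => hflat0 i
    have hT1 : ∀ k, T k = 0 := fun k =>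
      (Finset.sum_eq_zero_iff_of_nonneg fun k _ => hT0 k).1 (by linarith) k (Finset.mem_univ k)
    have hf1 : ∀ i, (if deriv (X.p i) (θ i) = 0 then r i else 0) = 0 := fun i =>
      (Finset.sum_eq_zero_iff_of_nonneg fun i _ => hflat0 i).1 (by linarith) i (Finset.mem_univ i)
    refine hr0 (funext fun i => ?_)
    change r i = 0
    by_cases h : deriv (X.p i) (θ i) = 0
    · have := hf1 i
      rwa [if_pos h] at this
    · have h2 := hac i h
      have h3 := hrad i
      have h4 : ∑ k, X.be k i * T k = 0 :=
        Finset.sum_eq_zero fun k _ => by rw [hT1 k, mul_zero]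
      change r i * rp ζ (e i) = (∑ k, X.be k i * T k) * ζ.re at h3
      rw [h4, zero_mul] at h3
      have h5 := Start_862.rp_sq_add ζ (e i)
      have h6 : ‖e i‖ = 1 := norm_cis _
      rw [hζ, h6] at h5
      by_contra hne
      have h7 := (mul_eq_zero.1 h2).resolve_left hne
      have h8 := (mul_eq_zero.1 h3).resolve_left hne
      rw [h7, h8] at h5
      norm_num at h5

/-- **START, literal form, with the boxes.** -/
theorem start {X : HD ε} (hX : X.OK) (hb : Big X) {d : ℝ} (hd : 0 < d) (hd1 : 15 * d < 1) :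
    ∃ M0 > 0, ∀ M : ℝ, M0 ≤ M → Hm_951.HPath0 (PolF_943.PF X.E (X.C M hd)) :=
  StLit_143.start hX (ownReg hX hb) hd hd1

end Crest.Agent.R267.StOwn_143

end
end

-- ▼ part R267/StartP_143

/-!
# Row 267 (S0406), arrow C4 (helper143): `StartP b D` of `HubDefs_284`

`startP : Facts b D → (∀ j : Fin 3, nh b j ≤ D.M j + 1) → StartP b D`.
-/

set_option autoImplicit false
set_option linter.unusedSectionVars false

noncomputable section

open Set Filter Topology
open scoped ContDiff ComplexConjugate
open Crest.Agent.R267.T3aNDefs_88 Crest.Agent.R267.Hm_951 Crest.Agent.R267.Ang_739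
open Crest.Agent.R267.GlNDefs_9 Crest.Agent.R267.StairFn_739 Crest.Agent.R267.HubDefs_284
open Crest.Agent.R267.StairPh_739 Crest.Agent.R267.PolF_943 Crest.Agent.R267.WordPh_9
open Crest.Agent.R267.WordPh2_9 Crest.Agent.R267.HubInst_370
open Crest.Agent.R267.StLit_143 Crest.Agent.R267.StOwn_143

namespace Crest.Agent.R267.StartP_143

variable {D : SD 4} {b : Bool}

/-- the data of the stage -/
def Y (b : Bool) (D : SD 4) : HD (Fin D.nb) where
  b := b
  D := D3 b
  p := pp D
  ph := fun j => hh b D j.castSucc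
  ce := cc D
  be := fun e j => if j ∈ (D.bx e).S then 1 / cd D e else 0
  lam := fun e j => if j ∈ (D.bx e).S then ww D e j else fun _ => 1

/-! ### the arcs of the flat lifts -/

theorem arcsJ {M n : ℕ} (hn : 0 < n) (hM : n ≤ M + 1) : Arcs (n - 1) (aJ M n) (bE M) where
  ab := fun i hi => by
    unfold aJ
    rw [if_pos (by omega)]
    exact (arcsE M).ab i (by omega)
  ba := fun i hi => by
    unfold aJ
    split_ifs with h
    · exact (arcsE M).ba i (by omega)
    · rw [← (arcsE M).last]
      exact ((arcsE M).ba i (by omega)).trans_le (arcs_mono (arcsE M) (by omega) le_rfl)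
  last := by
    unfold aJ
    rw [if_neg (by omega), if_pos hn]

theorem deriv_hh {j : Fin 4} (hn : 0 < nh b j) (hM : nh b j ≤ D.M j + 1) (x : ℝ) :
    0 ≤ deriv (hh b D j) x := by
  have h := arcsJ hn hM
  have h1 : HasDerivAt (hh b D j) _ x := hasDerivAt_wph (e := fun _ => 1) h x
  rw [h1.deriv]
  refine mul_nonneg two_pi_pos'.le (Finset.sum_nonneg fun i hi => mul_nonneg ?_ ?_)
  · unfold se; split_ifs <;> norm_num
  · have hi' : i ≤ nh b j - 1 := by have := Finset.mem_range.1 hi; omega
    exact deriv_ps_nonneg (h.ab i hi') (len h hi') x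

theorem nh_pos (b : Bool) (j : Fin 4) : 0 < nh b j := by
  cases b <;> fin_cases j <;> decide

/-- the windows are `0` or `1` where `cis pp = 1` -/
theorem win (F : Facts b D) (e : Fin D.nb) (j : Fin 4) (hj : j ∈ (D.bx e).S) (x : ℝ)
    (hx : cis (pp D j x) = 1) : ww D e j x = 0 ∨ ww D e j x = 1 := by
  have h := arcsE (D.M j)
  obtain ⟨k, y, hy1, hy2, rfl⟩ := exists_dom (aE (D.M j) 0) x
  obtain ⟨i, hi, h1, h2⟩ := exists_piece h hy1 hy2
  have h3 : ww D e j (y + 2 * Real.pi * k) = ww D e j y := wn_add_int _ _ _ _ _ _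
  rw [h3]
  rcases le_total y (bE (D.M j) i) with h4 | h4
  · have h5 : ww D e j y = _ := wn_lobe h (F.lohi e j hj) (D.hhi e j hj) hi h1 h4
    rw [h5]
    split_ifs
    · exact Or.inr rfl
    · exact Or.inl rfl
  · exfalso
    have h5 : cis (pp D j (y + 2 * Real.pi * k)) = -1 :=
      cis_wph_gap h (sn_pm (D := D) j) hi h4 h2.le k
    rw [h5] at hx
    have := congrArg Complex.re hx
    norm_num at this

theorem be_eq (F : Facts b D) (e : Fin D.nb) (j : Fin 4) :
    (Y b D).be e j = 0 ↔ j ∉ (D.bx e).S := by
  show (if j ∈ (D.bx e).S then 1 / cd D e else 0) = 0 ↔ _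
  have h := cd_pos F e
  split_ifs with hj
  · simp only [hj, not_true_eq_false, iff_false]
    positivity
  · simp [hj]

theorem nh_nn (b : Bool) (j : Fin 3) : nn b j = nh b j.castSucc := by
  cases b <;> fin_cases j <;> rfl

theorem okY (F : Facts b D) (hM : ∀ j : Fin 3, nh b j.castSucc ≤ D.M j.castSucc + 1) :
    (Y b D).OK where
  D0 := fun i => by
    have := D3_pos b i
    show 0 < D3 b i
    linarith
  exp := fun v i => by
    rcases v with j | c | e
    · show (Pi.single j (D3 b j) : Fin 4 → ℝ) i = 0 ∨ 2 < (Pi.single j (D3 b j) : Fin 4 → ℝ) i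
      by_cases h : i = j
      · subst h
        rw [Pi.single_eq_same]
        have := D3_pos b i
        exact Or.inr (by linarith)
      · rw [Pi.single_eq_of_ne h]
        exact Or.inl rfl
    · show sh b c i * D3 b i = 0 ∨ 2 < sh b c i * D3 b i
      cases b <;> cases c <;> fin_cases i <;> norm_num [sh, D3, DS]
    · show (if i ∈ (D.bx e).S then 1 / cd D e else 0) * D3 b i = 0 ∨
        2 < (if i ∈ (D.bx e).S then 1 / cd D e else 0) * D3 b i
      split_ifs with hj
      · right
        have h1 := D3_pos b i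
        have h2 := cd_pos F e
        rw [one_div, inv_mul_eq_div, lt_div_iff₀ h2]
        rcases cd_eq F e with h | h <;> rw [h] <;> linarith
      · exact Or.inl (zero_mul _)
  pS := pp_C2 D
  pP := pp_per D
  own := ⟨fun i => F.hC i.castSucc, fun i x => by rw [nh_nn]; exact F.hdeg i.castSucc x⟩
  lamS := fun e j => by
    show ContDiff ℝ 2 (if j ∈ (D.bx e).S then ww D e j else fun _ => 1)
    split_ifs with hj
    · exact (ww_win F e j hj).smooth
    · exact contDiff_const
  lamP := fun e j x => by
    show (if j ∈ (D.bx e).S then ww D e j else fun _ => 1) (x + 2 * Real.pi) =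
      (if j ∈ (D.bx e).S then ww D e j else fun _ => 1) x
    split_ifs with hj
    · exact (ww_win F e j hj).per x
    · rfl
  lam0 := fun e j x => by
    show 0 ≤ (if j ∈ (D.bx e).S then ww D e j else fun _ => 1) x
    split_ifs with hj
    · exact (ww_win F e j hj).nn x
    · exact zero_le_one
  lamI := fun e j hj x y => by
    have h := (be_eq F e j).1 hj
    show (if j ∈ (D.bx e).S then ww D e j else fun _ => 1) x =
      (if j ∈ (D.bx e).S then ww D e j else fun _ => 1) y
    rw [if_neg h]
  ce0 := fun e => by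
    show 0 ≤ cc D e
    unfold cc
    split_ifs <;> norm_num
  be0 := fun e j => by
    show 0 ≤ (if j ∈ (D.bx e).S then 1 / cd D e else 0)
    have := cd_pos F e
    split_ifs <;> positivity
  be1 := fun e => by
    show ∑ j, (if j ∈ (D.bx e).S then 1 / cd D e else 0) = 1
    have h2 := cd_pos F e
    rw [Finset.sum_ite_mem, Finset.univ_inter, Finset.sum_const, nsmul_eq_mul]
    show (cd D e) * (1 / cd D e) = 1
    field_simp
  pj := fun j x hx => by
    rcases F.st j.castSucc x with ⟨_, h2, h3⟩ | ⟨_, h2, _⟩ | ⟨_, h2, _, _⟩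
    · exact ⟨h2, h3⟩
    · exact absurd h2 hx
    · exact absurd h2 hx
  phf := fun j x hx => by
    rcases F.st j.castSucc x with ⟨h1, h2, _⟩ | ⟨_, _, h3⟩ | ⟨_, _, _, h4⟩
    · exact absurd (h2.symm.trans hx) h1
    · exact h3
    · exact h4
  ph0 := fun j x => deriv_hh (nh_pos b _) (hM j) x
  pf := fun i x hx => by
    rcases F.st i x with ⟨h1, _, _⟩ | ⟨h1, _, _⟩ | ⟨_, _, h3, _⟩
    · exact absurd hx h1
    · exact absurd hx h1
    · exact h3
  lq := fun e j x hx => by
    show deriv (if j ∈ (D.bx e).S then ww D e j else fun _ => 1) x = 0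
    split_ifs with hj
    · exact F.lamd e j hj x hx
    · exact deriv_const x 1

theorem bigY (F : Facts b D) : Big (Y b D) where
  one := fun e j hj x => by
    have h := (be_eq F e j).1 hj
    show (if j ∈ (D.bx e).S then ww D e j else fun _ => 1) x = 1
    rw [if_neg h]
  win := fun e j x hx => by
    show (if j ∈ (D.bx e).S then ww D e j else fun _ => 1) x = 0 ∨
      (if j ∈ (D.bx e).S then ww D e j else fun _ => 1) x = 1
    split_ifs with hj
    · exact win F e j hj x hx
    · exact Or.inr rfl
  big := fun e => by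
    show 1 < cc D e * ∏ j, (if j ∈ (D.bx e).S then 1 / cd D e else 0) ^
      (if j ∈ (D.bx e).S then 1 / cd D e else 0)
    have h2 := cd_pos F e
    have h1 : ∀ j, (if j ∈ (D.bx e).S then 1 / cd D e else 0) ^
        (if j ∈ (D.bx e).S then 1 / cd D e else 0) =
        if j ∈ (D.bx e).S then (1 / cd D e) ^ (1 / cd D e) else 1 := by
      intro j
      split_ifs
      · rfl
      · exact Real.rpow_zero _
    have h3 : ∏ j, (if j ∈ (D.bx e).S then (1 / cd D e) ^ (1 / cd D e) else 1) =
        1 / cd D e := by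
      rw [Finset.prod_ite_mem, Finset.univ_inter, Finset.prod_const]
      rw [← Real.rpow_natCast, ← Real.rpow_mul (by positivity)]
      have : (1 / cd D e) * ((D.bx e).S.card : ℝ) = 1 := by
        show (1 / cd D e) * cd D e = 1
        field_simp
      rw [this, Real.rpow_one]
    rw [Finset.prod_congr rfl fun j _ => h1 j, h3]
    rcases F.card e with h | h
    · have e1 : cd D e = 2 := by show ((D.bx e).S.card : ℝ) = 2; rw [h]; norm_num
      have e2 : cc D e = 5 / 2 := by unfold cc; rw [if_pos h]
      rw [e1, e2]; norm_num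
    · have e1 : cd D e = 3 := by show ((D.bx e).S.card : ℝ) = 3; rw [h]; norm_num
      have e2 : cc D e = 4 := by unfold cc; rw [if_neg (by omega)]
      rw [e1, e2]; norm_num

/-! ### the stage function -/

/-- reindexing of the couplings -/
def ix : V (Fin D.nb) ≃ Fin 4 ⊕ (Fin 2 ⊕ Fin D.nb) :=
  Equiv.sumCongr (Equiv.refl _) (Equiv.sumCongr finTwoEquiv.symm (Equiv.refl _))

theorem sh_vc (b c : Bool) (j : Fin 4) :
    sh b c j * D3 b j = 3 * (vc b (finTwoEquiv.symm c) j : ℝ) := by
  cases b <;> cases c <;> fin_cases j <;> norm_num [sh, D3, DS, vc, finTwoEquiv]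

theorem path_eq (b c : Bool) (ph : Fin 4 → ℝ → ℝ) (H : ℕ → ℕ → ℝ → ℝ) (s : ℝ)
    (θ : Fin 4 → ℝ) :
    path (Ph b H (finTwoEquiv.symm c)) ph (vc b (finTwoEquiv.symm c)) (s, θ) =
      path (Fi b H c) (fun j => ph j.castSucc) (vv b c) (s, res θ) := by
  have h1 : ∑ i, (vc b (finTwoEquiv.symm c) i : ℝ) * θ i = ∑ i, (vv b c i : ℝ) * res θ i := by
    rw [Fin.sum_univ_castSucc, vc_last, Nat.cast_zero, zero_mul, add_zero]
    refine Finset.sum_congr rfl fun i _ => ?_
    have : vc b (finTwoEquiv.symm c) i.castSucc = vv b c i := by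
      cases b <;> cases c <;> fin_cases i <;> rfl
    rw [this]
    rfl
  have h2 : Ph b H (finTwoEquiv.symm c) (lft ph θ) =
      Fi b H c (lft (fun j => ph j.castSucc) (res θ)) := by
    cases b <;> cases c <;> rfl
  simp only [path]
  rw [h1, h2]

theorem fs_eq (b : Bool) (D : SD 4) {d : ℝ} (hd : 0 < d) (M : ℝ) :
    Fs b D (Hs hd) (fun t => t) (fun _ _ => M) (fun _ _ => M) =
      PF (Y b D).E ((Y b D).C M hd) := by
  funext q
  obtain ⟨s, z⟩ := q
  rw [Fs, PF, PF, ← Equiv.sum_comp (ix (D := D))]
  refine Finset.sum_congr rfl fun v _ => ?_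
  rcases v with i | c | e
  · rfl
  · have hE : (HX b D (Hs hd) (fun _ _ => M) fun _ _ => M).E
        (ix (.inr (.inl c))) = (Y b D).E (.inr (.inl c)) := by
      funext j
      exact (sh_vc b c j).symm
    rw [hE, PM, PM]
    congr 1
    show (((if finTwoEquiv.symm c = 0 then M else M : ℝ)) : ℂ) *
      cis (path (Ph b (Hs hd) (finTwoEquiv.symm c)) (hh b D) (vc b (finTwoEquiv.symm c))
        (s, ag z)) = (M : ℂ) * cis (path (Fi b (Hs hd) c) (fun j => hh b D j.castSucc) (vv b c)
          (s, res (ag z)))
    rw [path_eq, ite_self]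
  · have hE : (HX b D (Hs hd) (fun _ _ => M) fun _ _ => M).E
        (ix (.inr (.inr e))) = (Y b D).E (.inr (.inr e)) := by
      funext j
      show (if j ∈ (D.bx e).S then D3 b j / cd D e else 0) =
        (if j ∈ (D.bx e).S then 1 / cd D e else 0) * D3 b j
      split_ifs
      · ring
      · rw [zero_mul]
    rw [hE]
    rfl

/-- **C4 (START).** -/
theorem startP (F : Facts b D) (hM : ∀ j : Fin 3, nh b j.castSucc ≤ D.M j.castSucc + 1) :
    StartP b D := by
  obtain ⟨M0, -, h⟩ := StOwn_143.start (okY F hM) (bigY F) dd_pos (by unfold dd; norm_num)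
  refine ⟨M0, fun M hM => ?_⟩
  rw [fs_eq]
  exact h M hM

end Crest.Agent.R267.StartP_143

end
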