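import Crest.Agent.R267.GlNDefs_9
import Crest.Agent.R267.Calc_957

-- ▼ part R267/WordPh_9
section

/-!
# Row 267 (helper9): explicit phases and windows of a signed word

Lobes `[α i, β i]`, `i ≤ M` (`i = 0`: plate), `Arcs M α β`.

* `ps α β`: the `C²` staircase, `+1` on `[α, β]`, constant elsewhere (mod `2 π`).
* `wph e M α β`: the phase of the signed word; it is constant (`= cen e i + π se e i`, an odd multiple
  of `π`) off the lobes. `wrd : Wrd e M (wa M α β) (wb M α β) (wph e M α β)`.
* `wn M α β lo hi`: the window `1` on the lobes `lo < i ≤ hi`, `0` on the other lobes.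
-/

set_option autoImplicit false

noncomputable section

open Finset Set Filter Topology
open Crest.Agent.R267.T3aDefs_957 (st)
open Crest.Agent.R267.Calc_957
open Crest.Agent.R267.GlNDefs_9

namespace Crest.Agent.R267.WordPh_9

/-! ### the periodic staircase -/

/-- staircase with the step `[α, β]` -/
def ps (α β x : ℝ) : ℝ :=
  ⌊(x - α) / (2 * Real.pi)⌋ + st ((x - α - 2 * Real.pi * ⌊(x - α) / (2 * Real.pi)⌋) / (β - α))

theorem two_pi_pos' : (0 : ℝ) < 2 * Real.pi := by positivity

theorem ps_eq {α β : ℝ} (h : α < β) (h' : β ≤ α + 2 * Real.pi) (k : ℤ) {x : ℝ}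
    (h1 : β - 2 * Real.pi + 2 * Real.pi * k ≤ x) (h2 : x ≤ α + 2 * Real.pi * (k + 1)) :
    ps α β x = k + st ((x - α - 2 * Real.pi * k) / (β - α)) := by
  have hp := two_pi_pos'
  have hw : 0 < β - α := by linarith
  unfold ps
  rcases lt_or_ge x (α + 2 * Real.pi * k) with h3 | h3
  · have hf : ⌊(x - α) / (2 * Real.pi)⌋ = k - 1 := by
      rw [Int.floor_eq_iff]
      push_cast
      constructor
      · rw [le_div_iff₀ hp]; nlinarith
      · rw [div_lt_iff₀ hp]; nlinarith
    rw [hf]
    push_cast
    rw [st_of_ge (x := (x - α - 2 * Real.pi * ((k : ℝ) - 1)) / (β - α)),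
      st_of_le (x := (x - α - 2 * Real.pi * k) / (β - α))]
    · ring
    · exact div_nonpos_of_nonpos_of_nonneg (by linarith) hw.le
    · rw [le_div_iff₀ hw]; nlinarith
  · rcases h2.lt_or_eq with h4 | h4
    · have hf : ⌊(x - α) / (2 * Real.pi)⌋ = k := by
        rw [Int.floor_eq_iff]
        constructor
        · rw [le_div_iff₀ hp]; nlinarith
        · rw [div_lt_iff₀ hp]; nlinarith
      rw [hf]
    · have hf : ⌊(x - α) / (2 * Real.pi)⌋ = k + 1 := by
        rw [Int.floor_eq_iff]
        push_cast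
        constructor
        · rw [le_div_iff₀ hp]; nlinarith
        · rw [div_lt_iff₀ hp]; nlinarith
      rw [hf]
      push_cast
      rw [st_of_le (x := (x - α - 2 * Real.pi * ((k : ℝ) + 1)) / (β - α)),
        st_of_ge (x := (x - α - 2 * Real.pi * k) / (β - α))]
      · ring
      · rw [le_div_iff₀ hw]; nlinarith
      · exact div_nonpos_of_nonpos_of_nonneg (by nlinarith) hw.le

/-- the fundamental domain -/
theorem ps_eq0 {α β : ℝ} (h : α < β) (h' : β ≤ α + 2 * Real.pi) {x : ℝ}
    (h1 : β - 2 * Real.pi ≤ x) (h2 : x ≤ α + 2 * Real.pi) :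
    ps α β x = st ((x - α) / (β - α)) := by
  have := ps_eq h h' 0 (x := x) (by simpa using h1) (by simpa using h2)
  simpa using this

theorem ps_add (α β x : ℝ) : ps α β (x + 2 * Real.pi) = ps α β x + 1 := by
  unfold ps
  have e : (x + 2 * Real.pi - α) / (2 * Real.pi) = (x - α) / (2 * Real.pi) + 1 := by
    have := two_pi_pos'
    field_simp
    ring
  rw [e, Int.floor_add_one]
  push_cast
  have e2 : x + 2 * Real.pi - α - 2 * Real.pi * ((⌊(x - α) / (2 * Real.pi)⌋ : ℝ) + 1) =
      x - α - 2 * Real.pi * ⌊(x - α) / (2 * Real.pi)⌋ := by ring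
  rw [e2]
  ring

theorem exists_k {α β : ℝ} (h' : β < α + 2 * Real.pi) (x : ℝ) :
    ∃ k : ℤ, β - 2 * Real.pi + 2 * Real.pi * k < x ∧ x < α + 2 * Real.pi * (k + 1) := by
  have hp := two_pi_pos'
  refine ⟨⌊(x - α) / (2 * Real.pi)⌋, ?_, ?_⟩
  · have := Int.floor_le ((x - α) / (2 * Real.pi))
    rw [le_div_iff₀ hp] at this
    nlinarith
  · have := Int.lt_floor_add_one ((x - α) / (2 * Real.pi))
    rw [div_lt_iff₀ hp] at this
    nlinarith

theorem ps_nhds {α β : ℝ} (h : α < β) (h' : β < α + 2 * Real.pi) {k : ℤ} {x : ℝ}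
    (h1 : β - 2 * Real.pi + 2 * Real.pi * k < x) (h2 : x < α + 2 * Real.pi * (k + 1)) :
    ps α β =ᶠ[𝓝 x] fun y => (k : ℝ) + st ((y - α - 2 * Real.pi * k) / (β - α)) := by
  filter_upwards [Ioo_mem_nhds h1 h2] with y hy
  exact ps_eq h h'.le k hy.1.le hy.2.le

theorem contDiff_ps {α β : ℝ} (h : α < β) (h' : β < α + 2 * Real.pi) : ContDiff ℝ 2 (ps α β) := by
  rw [contDiff_iff_contDiffAt]
  intro x
  obtain ⟨k, h1, h2⟩ := exists_k h' x
  refine ContDiffAt.congr_of_eventuallyEq ?_ (ps_nhds h h' h1 h2)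
  refine contDiffAt_const.add (contDiff_st.contDiffAt.comp x ?_)
  exact ((contDiffAt_id.sub contDiffAt_const).sub contDiffAt_const).div_const _

theorem hasDerivAt_ps {α β : ℝ} (h : α < β) (h' : β < α + 2 * Real.pi) {k : ℤ} {x : ℝ}
    (h1 : β - 2 * Real.pi + 2 * Real.pi * k < x) (h2 : x < α + 2 * Real.pi * (k + 1)) :
    HasDerivAt (ps α β) (std ((x - α - 2 * Real.pi * k) / (β - α)) / (β - α)) x := by
  refine HasDerivAt.congr_of_eventuallyEq ?_ (ps_nhds h h' h1 h2)
  have h3 : HasDerivAt (fun y : ℝ => (y - α - 2 * Real.pi * k) / (β - α)) (1 / (β - α)) x :=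
    (((hasDerivAt_id x).sub_const α).sub_const (2 * Real.pi * k)).div_const _
  have h4 := ((hasDerivAt_st _).comp x h3).const_add (k : ℝ)
  refine h4.congr_deriv ?_
  ring

theorem deriv_ps_nonneg {α β : ℝ} (h : α < β) (h' : β < α + 2 * Real.pi) (x : ℝ) :
    0 ≤ deriv (ps α β) x := by
  obtain ⟨k, h1, h2⟩ := exists_k h' x
  rw [(hasDerivAt_ps h h' h1 h2).deriv]
  exact div_nonneg (std_nonneg _) (by linarith)


/-! ### the quarter points of `st` -/

theorem st_one_sub (x : ℝ) : st (1 - x) = 1 - st x := by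
  rcases le_total x 0 with h | h
  · rw [st_of_le h, st_of_ge (by linarith)]; ring
  · rcases le_total x 1 with h1 | h1
    · unfold st
      rw [c01_of_mem h h1, c01_of_mem (by linarith) (by linarith)]
      ring
    · rw [st_of_ge h1, st_of_le (by linarith)]; ring

theorem st_strict {x y : ℝ} (h0 : 0 ≤ x) (h1 : y ≤ 1) (h : x < y) : st x < st y := by
  have := strictMonoOn_of_deriv_pos (convex_Icc (0 : ℝ) 1) contDiff_st.continuous.continuousOn
    (fun z hz => by
      rw [interior_Icc] at hz
      rw [(hasDerivAt_st z).deriv]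
      exact std_pos hz.1 hz.2)
  exact this ⟨h0, by linarith⟩ ⟨by linarith, h1⟩ h

theorem exists_quarter : ∃ u : ℝ, 0 < u ∧ u < 1 / 2 ∧ st u = 1 / 4 := by
  have h0 : st 0 = 0 := st_of_le le_rfl
  have h1 : st (1 / 2) = 1 / 2 := by
    have := st_one_sub (1 / 2)
    norm_num at this
    linarith
  obtain ⟨u, hu, hu'⟩ := intermediate_value_Icc (by norm_num : (0 : ℝ) ≤ 1 / 2)
    contDiff_st.continuous.continuousOn
    (show (1 / 4 : ℝ) ∈ Icc (st 0) (st (1 / 2)) by rw [h0, h1]; constructor <;> norm_num)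
  refine ⟨u, lt_of_le_of_ne hu.1 ?_, lt_of_le_of_ne hu.2 ?_, hu'⟩
  · rintro rfl; rw [h0] at hu'; norm_num at hu'
  · rintro rfl; rw [h1] at hu'; norm_num at hu'

/-- the quarter point -/
def u0 : ℝ := exists_quarter.choose

theorem u0_pos : 0 < u0 := exists_quarter.choose_spec.1

theorem u0_lt : u0 < 1 / 2 := exists_quarter.choose_spec.2.1

theorem st_u0 : st u0 = 1 / 4 := exists_quarter.choose_spec.2.2

theorem st_mid {v : ℝ} (h : u0 ≤ v) (h' : v ≤ 1 - u0) : |st v - 1 / 2| ≤ 1 / 4 := by
  have h1 := st_mono h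
  have h2 := st_mono h'
  rw [st_u0] at h1
  rw [st_one_sub, st_u0] at h2
  rw [abs_le]
  constructor <;> linarith

theorem st_lt_quarter {v : ℝ} (h : v < u0) : st v < 1 / 4 := by
  rcases le_total v 0 with h0 | h0
  · rw [st_of_le h0]; norm_num
  · rw [← st_u0]
    exact st_strict h0 (by linarith [u0_lt]) h

theorem quarter_lt_st {v : ℝ} (h : 1 - u0 < v) : 3 / 4 < st v := by
  have h1 : st (1 - v) < 1 / 4 := st_lt_quarter (by linarith)
  rw [st_one_sub] at h1
  linarith

/-! ### the word phase -/

variable {M : ℕ} {α β : ℕ → ℝ} {e : ℕ → ℝ}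

theorem cen_eq (e : ℕ → ℝ) (i : ℕ) :
    cen e i = -Real.pi + 2 * Real.pi * ∑ k ∈ range i, se e k + Real.pi * se e i := by
  induction i with
  | zero => simp [cen, se]
  | succ i ih =>
    rw [cen, ih, Finset.sum_range_succ]
    ring

theorem tot_eq (e : ℕ → ℝ) (M : ℕ) : tot e M = 2 * Real.pi * ∑ k ∈ range (M + 1), se e k := by
  unfold tot
  rw [cen_eq, Finset.sum_range_succ]
  ring

/-- **the phase of the word** -/
def wph (e : ℕ → ℝ) (M : ℕ) (α β : ℕ → ℝ) (x : ℝ) : ℝ :=
  -Real.pi + 2 * Real.pi * ∑ i ∈ range (M + 1), se e i * ps (α i) (β i) x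

section arcs

variable (h : Arcs M α β)

include h

theorem arcs_mono {i j : ℕ} (hij : i ≤ j) (hj : j ≤ M + 1) : α i ≤ α j := by
  induction j, hij using Nat.le_induction with
  | base => exact le_rfl
  | succ j _ ih =>
    have h1 := h.ab j (by omega)
    have h2 := h.ba j (by omega)
    exact (ih (by omega)).trans (by linarith)

theorem beta_le {i j : ℕ} (hij : i < j) (hj : j ≤ M + 1) : β i ≤ α j := by
  have h1 := h.ba i (by omega)
  have h2 := arcs_mono h (show i + 1 ≤ j from hij) hj
  linarith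

theorem len {i : ℕ} (hi : i ≤ M) : β i < α i + 2 * Real.pi := by
  have h1 := h.ba i hi
  have h2 := arcs_mono h (show i + 1 ≤ M + 1 by omega) le_rfl
  have h3 := arcs_mono h (Nat.zero_le i) (by omega)
  have h4 := h.last
  linarith

theorem contDiff_wph : ContDiff ℝ 2 (wph e M α β) := by
  unfold wph
  refine contDiff_const.add (contDiff_const.mul (ContDiff.sum fun i hi => ?_))
  have hi' : i ≤ M := by have := Finset.mem_range.1 hi; omega
  exact contDiff_const.mul (contDiff_ps (h.ab i hi') (len h hi'))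

omit h in
theorem wph_add (x : ℝ) : wph e M α β (x + 2 * Real.pi) = wph e M α β x + tot e M := by
  unfold wph
  simp only [ps_add, mul_add, mul_one, Finset.sum_add_distrib, tot_eq]
  ring

/-- on the fundamental domain -/
theorem ps_dom {i : ℕ} (hi : i ≤ M) {x : ℝ} (h1 : α 0 ≤ x) (h2 : x ≤ α 0 + 2 * Real.pi) :
    ps (α i) (β i) x = st ((x - α i) / (β i - α i)) := by
  refine ps_eq0 (h.ab i hi) (len h hi).le ?_ ?_
  · have h3 := beta_le h (show i < M + 1 by omega) le_rfl
    have h4 := h.last
    linarith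
  · have h3 := arcs_mono h (Nat.zero_le i) (by omega)
    linarith

/-- **value on `[α i, α (i + 1)]`** -/
theorem wph_val {i : ℕ} (hi : i ≤ M) {x : ℝ} (h1 : α i ≤ x) (h2 : x ≤ α (i + 1)) :
    wph e M α β x = cen e i + 2 * Real.pi * se e i * (st ((x - α i) / (β i - α i)) - 1 / 2) := by
  have h0 : α 0 ≤ x := (arcs_mono h (Nat.zero_le i) (by omega)).trans h1
  have h0' : x ≤ α 0 + 2 * Real.pi := by
    have h3 := arcs_mono h (show i + 1 ≤ M + 1 by omega) le_rfl
    have h4 := h.last
    linarith
  have e1 : ∑ k ∈ range (M + 1), se e k * ps (α k) (β k) x =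
      ∑ k ∈ range i, se e k + se e i * st ((x - α i) / (β i - α i)) := by
    have hsplit : range (M + 1) = range i ∪ ({i} ∪ Finset.Ico (i + 1) (M + 1)) := by
      ext k
      simp only [Finset.mem_range, Finset.mem_union, Finset.mem_singleton, Finset.mem_Ico]
      omega
    rw [hsplit, Finset.sum_union, Finset.sum_union, Finset.sum_singleton]
    · have e2 : ∑ k ∈ range i, se e k * ps (α k) (β k) x = ∑ k ∈ range i, se e k := by
        refine Finset.sum_congr rfl fun k hk => ?_
        have hk' := Finset.mem_range.1 hk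
        rw [ps_dom h (by omega) h0 h0', st_of_ge, mul_one]
        have h3 := beta_le h hk' (by omega)
        have h4 := h.ab k (by omega)
        rw [le_div_iff₀ (by linarith)]
        linarith
      have e3 : ∑ k ∈ Finset.Ico (i + 1) (M + 1), se e k * ps (α k) (β k) x = 0 := by
        refine Finset.sum_eq_zero fun k hk => ?_
        have hk' := Finset.mem_Ico.1 hk
        rw [ps_dom h (by omega) h0 h0', st_of_le, mul_zero]
        have h3 := arcs_mono h hk'.1 (by omega)
        have h4 := h.ab k (by omega)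
        exact div_nonpos_of_nonpos_of_nonneg (by linarith) (by linarith)
      rw [e2, e3, ps_dom h hi h0 h0']
      ring
    · rw [Finset.disjoint_left]
      intro k
      simp only [Finset.mem_singleton, Finset.mem_Ico]
      omega
    · rw [Finset.disjoint_left]
      intro k
      simp only [Finset.mem_range, Finset.mem_union, Finset.mem_singleton, Finset.mem_Ico]
      omega
  unfold wph
  rw [e1, cen_eq]
  ring

/-- value off the lobes -/
theorem wph_flat {i : ℕ} (hi : i ≤ M) {x : ℝ} (h1 : β i ≤ x) (h2 : x ≤ α (i + 1)) :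
    wph e M α β x = cen e i + Real.pi * se e i := by
  have h3 := h.ab i hi
  rw [wph_val h hi (by linarith) h2, st_of_ge]
  · ring
  · rw [le_div_iff₀ (by linarith)]
    linarith

theorem hasDerivAt_wph (x : ℝ) : HasDerivAt (wph e M α β)
    (2 * Real.pi * ∑ i ∈ range (M + 1), se e i * deriv (ps (α i) (β i)) x) x := by
  unfold wph
  refine HasDerivAt.const_add _ (HasDerivAt.const_mul _ (HasDerivAt.fun_sum fun i hi => ?_))
  have hi' : i ≤ M := by have := Finset.mem_range.1 hi; omega
  exact HasDerivAt.const_mul _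
    (((contDiff_ps (h.ab i hi') (len h hi')).differentiable (by norm_num)) x).hasDerivAt

/-- derivative on the open lobe `i` -/
theorem deriv_wph {i : ℕ} (hi : i ≤ M) {x : ℝ} (h1 : α i < x) (h2 : x < β i) :
    deriv (wph e M α β) x =
      2 * Real.pi * se e i * (std ((x - α i) / (β i - α i)) / (β i - α i)) := by
  have hb := h.ba i hi
  have hev : wph e M α β =ᶠ[𝓝 x] fun y =>
      cen e i + 2 * Real.pi * se e i * (st ((y - α i) / (β i - α i)) - 1 / 2) := by
    filter_upwards [Ioo_mem_nhds h1 (show x < α (i + 1) by linarith)] with y hy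
    exact wph_val h hi hy.1.le hy.2.le
  rw [hev.deriv_eq]
  have h3 : HasDerivAt (fun y : ℝ => (y - α i) / (β i - α i)) (1 / (β i - α i)) x :=
    ((hasDerivAt_id x).sub_const (α i)).div_const _
  have h4 := ((((hasDerivAt_st _).comp x h3).sub_const (1 / 2)).const_mul
    (2 * Real.pi * se e i)).const_add (cen e i)
  have h5 := h4.deriv
  refine (Eq.trans ?_ h5).trans (by ring)
  rfl

end arcs

/-- left ends of the arcs `|phase - cen| ≤ π / 2` -/
def wa (M : ℕ) (α β : ℕ → ℝ) (i : ℕ) : ℝ :=
  if i ≤ M then α i + u0 * (β i - α i) else α 0 + u0 * (β 0 - α 0) + 2 * Real.pi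

/-- right ends of the arcs -/
def wb (α β : ℕ → ℝ) (i : ℕ) : ℝ := β i - u0 * (β i - α i)

theorem wa_gt (h : Arcs M α β) {i : ℕ} (hi : i ≤ M) : α i < wa M α β i := by
  unfold wa
  rw [if_pos hi]
  have := mul_pos u0_pos (sub_pos.2 (h.ab i hi))
  linarith

theorem wb_lt (h : Arcs M α β) {i : ℕ} (hi : i ≤ M) : wb α β i < β i := by
  unfold wb
  have := mul_pos u0_pos (sub_pos.2 (h.ab i hi))
  linarith

theorem wa_lt_wb (h : Arcs M α β) {i : ℕ} (hi : i ≤ M) : wa M α β i < wb α β i := by
  unfold wa wb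
  rw [if_pos hi]
  have h1 := h.ab i hi
  have h2 := u0_lt
  nlinarith

theorem wb_lt_wa (h : Arcs M α β) {i : ℕ} (hi : i ≤ M) : wb α β i < wa M α β (i + 1) := by
  have h1 := wb_lt h hi
  have h2 := h.ba i hi
  rcases Nat.lt_or_ge i M with h3 | h3
  · have h4 := wa_gt h (show i + 1 ≤ M by omega)
    linarith
  · have hiM : i = M := le_antisymm hi h3
    subst hiM
    unfold wa
    rw [if_neg (by omega)]
    have h4 := mul_pos u0_pos (sub_pos.2 (h.ab 0 (Nat.zero_le _)))
    have h5 := h.last
    linarith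

theorem warcs (h : Arcs M α β) : Arcs M (wa M α β) (wb α β) where
  ab := fun _ hi => wa_lt_wb h hi
  ba := fun _ hi => wb_lt_wa h hi
  last := by
    unfold wa
    rw [if_neg (by omega), if_pos (Nat.zero_le _)]

theorem se_sq (he : ∀ l, e l = 1 ∨ e l = -1) (i : ℕ) : se e i = 1 ∨ se e i = -1 := by
  unfold se
  split
  · exact Or.inl rfl
  · exact he _

/-- **the phase of the word is in the class `Wrd`** -/
theorem wrd (h : Arcs M α β) (he : ∀ l, e l = 1 ∨ e l = -1) :
    Wrd e M (wa M α β) (wb α β) (wph e M α β) where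
  smooth := contDiff_wph h
  per := wph_add
  arc := by
    intro i hi x h1 h2
    have hab := h.ab i hi
    have hw : 0 < β i - α i := by linarith
    have ha := wa_gt h hi
    have hb := wb_lt h hi
    have hba := h.ba i hi
    have hs := se_sq he i
    have hs2 : se e i * se e i = 1 := by rcases hs with h | h <;> rw [h] <;> norm_num
    have hs3 : |se e i| = 1 := by rcases hs with h | h <;> rw [h] <;> norm_num
    have hv1 : u0 ≤ (x - α i) / (β i - α i) := by
      rw [le_div_iff₀ hw]
      unfold wa at h1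
      rw [if_pos hi] at h1
      linarith
    have hv2 : (x - α i) / (β i - α i) ≤ 1 - u0 := by
      rw [div_le_iff₀ hw]
      unfold wb at h2
      linarith
    constructor
    · rw [wph_val h hi (by linarith) (by linarith)]
      have := st_mid hv1 hv2
      rw [add_sub_cancel_left, abs_mul, abs_mul, hs3, abs_of_pos two_pi_pos']
      nlinarith [Real.pi_pos]
    · rw [deriv_wph h hi (by linarith) (by linarith)]
      have h3 : 0 < std ((x - α i) / (β i - α i)) := std_pos (lt_of_lt_of_le u0_pos hv1)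
        (lt_of_le_of_lt hv2 (by linarith [u0_pos]))
      have h4 : se e i * (2 * Real.pi * se e i * (std ((x - α i) / (β i - α i)) / (β i - α i))) =
          (se e i * se e i) * (2 * Real.pi * (std ((x - α i) / (β i - α i)) / (β i - α i))) := by
        ring
      rw [h4, hs2, one_mul]
      exact mul_pos two_pi_pos' (div_pos h3 hw)
  gap := by
    intro i hi x h1 h2
    have hab := h.ab i hi
    have hw : 0 < β i - α i := by linarith
    have ha := wa_gt h hi
    have hab' := wa_lt_wb h hi
    have hs := se_sq he i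
    have hs3 : |se e i| = 1 := by rcases hs with h | h <;> rw [h] <;> norm_num
    have hpi := Real.pi_pos
    rcases le_total x (α (i + 1)) with h3 | h3
    · rw [wph_val h hi (by linarith) h3]
      have hv : 1 - u0 < (x - α i) / (β i - α i) := by
        rw [lt_div_iff₀ hw]
        unfold wb at h1
        linarith
      have h4 := quarter_lt_st hv
      have h5 := st_le_one ((x - α i) / (β i - α i))
      have e1 : cen e i + 2 * Real.pi * se e i * (st ((x - α i) / (β i - α i)) - 1 / 2) -
          (cen e i + Real.pi * se e i) =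
          (2 * Real.pi * (st ((x - α i) / (β i - α i)) - 1)) * se e i := by ring
      rw [e1, abs_mul, hs3, mul_one, abs_lt]
      constructor <;> nlinarith
    · rcases Nat.lt_or_ge i M with h4 | h4
      · have hi1 : i + 1 ≤ M := h4
        have hw1 : 0 < β (i + 1) - α (i + 1) := by linarith [h.ab (i + 1) hi1]
        have hx : x < wa M α β (i + 1) := h2
        have hx2 : x ≤ α (i + 1 + 1) := by
          have h6 := wa_lt_wb h hi1
          have h7 := wb_lt h hi1
          have h8 := h.ba (i + 1) hi1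
          linarith
        rw [wph_val h hi1 h3 hx2]
        have hs' := se_sq he (i + 1)
        have hs3' : |se e (i + 1)| = 1 := by rcases hs' with h | h <;> rw [h] <;> norm_num
        have hv : (x - α (i + 1)) / (β (i + 1) - α (i + 1)) < u0 := by
          rw [div_lt_iff₀ hw1]
          unfold wa at hx
          rw [if_pos hi1] at hx
          linarith
        have h5 := st_lt_quarter hv
        have h6 := st_nonneg ((x - α (i + 1)) / (β (i + 1) - α (i + 1)))
        have e1 : cen e (i + 1) + 2 * Real.pi * se e (i + 1) *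
            (st ((x - α (i + 1)) / (β (i + 1) - α (i + 1))) - 1 / 2) -
            (cen e i + Real.pi * se e i) =
            (2 * Real.pi * st ((x - α (i + 1)) / (β (i + 1) - α (i + 1)))) * se e (i + 1) := by
          rw [show cen e (i + 1) = cen e i + Real.pi * (se e i + se e (i + 1)) from rfl]
          ring
        rw [e1, abs_mul, hs3', mul_one, abs_lt]
        constructor <;> nlinarith
      · have hiM : i = M := le_antisymm hi h4
        subst hiM
        have hx : x < wa i α β (i + 1) := h2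
        have hw0 : 0 < β 0 - α 0 := by linarith [h.ab 0 (Nat.zero_le _)]
        have hlast := h.last
        have hy : x = (x - 2 * Real.pi) + 2 * Real.pi := by ring
        have hx1 : x - 2 * Real.pi < wa i α β 0 := by
          have := (warcs h).last
          linarith
        have hx2 : x - 2 * Real.pi ≤ α (0 + 1) := by
          have h6 := wa_lt_wb h (Nat.zero_le i)
          have h7 := wb_lt h (Nat.zero_le i)
          have h8 := h.ba 0 (Nat.zero_le i)
          linarith
        rw [hy, wph_add, wph_val h (Nat.zero_le i) (by linarith) hx2]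
        have hv : (x - 2 * Real.pi - α 0) / (β 0 - α 0) < u0 := by
          rw [div_lt_iff₀ hw0]
          unfold wa at hx1
          rw [if_pos (Nat.zero_le _)] at hx1
          linarith
        have h5 := st_lt_quarter hv
        have h6 := st_nonneg ((x - 2 * Real.pi - α 0) / (β 0 - α 0))
        have e1 : cen e 0 + 2 * Real.pi * se e 0 *
            (st ((x - 2 * Real.pi - α 0) / (β 0 - α 0)) - 1 / 2) + tot e i -
            (cen e i + Real.pi * se e i) =
            2 * Real.pi * st ((x - 2 * Real.pi - α 0) / (β 0 - α 0)) := by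
          unfold tot
          rw [show cen e 0 = 0 from rfl, show se e 0 = 1 from rfl]
          ring
        rw [e1, abs_lt]
        constructor <;> nlinarith

/-! ### windows -/

/-- **the window**: rises between the lobes `lo`, `lo + 1`, falls between `hi`, `hi + 1` -/
def wn (α β : ℕ → ℝ) (lo hi : ℕ) (x : ℝ) : ℝ :=
  ps (β lo) (α (lo + 1)) x - ps (β hi) (α (hi + 1)) x

section win

variable (h : Arcs M α β)

include h

theorem len' {i : ℕ} (hi : i ≤ M) : α (i + 1) < β i + 2 * Real.pi := by
  have h1 := h.ab i hi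
  have h2 := arcs_mono h (show i + 1 ≤ M + 1 by omega) le_rfl
  have h3 := arcs_mono h (Nat.zero_le i) (by omega)
  have h4 := h.last
  linarith

theorem ps_dom' {i : ℕ} (hi : i ≤ M) {x : ℝ} (h1 : α 0 ≤ x) (h2 : x ≤ α 0 + 2 * Real.pi) :
    ps (β i) (α (i + 1)) x = st ((x - β i) / (α (i + 1) - β i)) := by
  refine ps_eq0 (h.ba i hi) (len' h hi).le ?_ ?_
  · have h3 := arcs_mono h (show i + 1 ≤ M + 1 by omega) le_rfl
    have h4 := h.last
    linarith
  · have h3 := arcs_mono h (Nat.zero_le i) (by omega)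
    have h4 := h.ab i hi
    linarith

theorem ps_le_one_add {i j : ℕ} (hij : i ≤ j) (hj : j ≤ M) (x : ℝ) :
    ps (β j) (α (j + 1)) x ≤ ps (β i) (α (i + 1)) x ∧
      ps (β i) (α (i + 1)) x ≤ ps (β j) (α (j + 1)) x + 1 := by
  -- reduce to the fundamental domain
  have hper : ∀ (k : ℤ) (l : ℕ) (y : ℝ), ps (β l) (α (l + 1)) (y + 2 * Real.pi * k) =
      ps (β l) (α (l + 1)) y + k := by
    intro k l y
    induction k using Int.induction_on with
    | zero => simp
    | succ k ih =>
      have : y + 2 * Real.pi * ((k : ℤ) + 1 : ℤ) = y + 2 * Real.pi * (k : ℤ) + 2 * Real.pi := by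
        push_cast; ring
      rw [this, ps_add, ih]
      push_cast; ring
    | pred k ih =>
      have h1 : y + 2 * Real.pi * (-(k : ℤ) : ℤ) =
          y + 2 * Real.pi * ((-(k : ℤ) - 1 : ℤ)) + 2 * Real.pi := by
        push_cast; ring
      rw [h1, ps_add] at ih
      push_cast at ih ⊢
      linarith
  obtain ⟨k, y, hy1, hy2, hx⟩ : ∃ (k : ℤ) (y : ℝ), α 0 ≤ y ∧ y ≤ α 0 + 2 * Real.pi ∧
      x = y + 2 * Real.pi * k := by
    have hp := two_pi_pos'
    refine ⟨⌊(x - α 0) / (2 * Real.pi)⌋, x - 2 * Real.pi * ⌊(x - α 0) / (2 * Real.pi)⌋, ?_, ?_,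
      by ring⟩
    · have := Int.floor_le ((x - α 0) / (2 * Real.pi))
      rw [le_div_iff₀ hp] at this
      linarith
    · have := Int.lt_floor_add_one ((x - α 0) / (2 * Real.pi))
      rw [div_lt_iff₀ hp] at this
      linarith
  rw [hx, hper, hper, ps_dom' h hj hy1 hy2, ps_dom' h (hij.trans hj) hy1 hy2]
  have h1 := st_nonneg ((y - β i) / (α (i + 1) - β i))
  have h2 := st_le_one ((y - β i) / (α (i + 1) - β i))
  have h3 := st_nonneg ((y - β j) / (α (j + 1) - β j))
  have h4 := st_le_one ((y - β j) / (α (j + 1) - β j))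
  refine ⟨?_, by linarith⟩
  rcases hij.lt_or_eq with h5 | h5
  · rcases le_total y (β j) with h6 | h6
    · have h7 : st ((y - β j) / (α (j + 1) - β j)) = 0 := st_of_le
        (div_nonpos_of_nonpos_of_nonneg (by linarith) (by linarith [h.ba j hj]))
      linarith
    · have h7 : st ((y - β i) / (α (i + 1) - β i)) = 1 := by
        apply st_of_ge
        have h8 := h.ba i (by omega)
        have h9 := arcs_mono h (show i + 1 ≤ j by omega) (by omega)
        have h10 := h.ab j hj
        rw [le_div_iff₀ (by linarith)]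
        linarith
      linarith
  · subst h5
    linarith

/-- **the window is in the class `WinA`** -/
theorem winA {lo hi : ℕ} (hlo : lo ≤ hi) (hhi : hi ≤ M) : WinA M α β lo hi (wn α β lo hi) where
  smooth := (contDiff_ps (h.ba lo (hlo.trans hhi)) (len' h (hlo.trans hhi))).sub
    (contDiff_ps (h.ba hi hhi) (len' h hhi))
  per := fun x => by
    unfold wn
    rw [ps_add, ps_add]
    ring
  nn := fun x => by
    have := (ps_le_one_add h hlo hhi x).1
    unfold wn
    linarith
  le := fun x => by
    have := (ps_le_one_add h hlo hhi x).2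
    unfold wn
    linarith
  val := by
    intro i hi' x h1 h2
    have hab := h.ab i hi'
    have h0 : α 0 ≤ x := (arcs_mono h (Nat.zero_le i) (by omega)).trans h1
    have h0' : x ≤ α 0 + 2 * Real.pi := by
      have h3 := beta_le h (show i < M + 1 by omega) le_rfl
      have h4 := h.last
      linarith
    have hst : ∀ j ≤ M, ps (β j) (α (j + 1)) x = if j < i then 1 else 0 := by
      intro j hj
      rw [ps_dom' h hj h0 h0']
      have hbj := h.ba j hj
      split
      · rename_i hji
        apply st_of_ge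
        have h3 := arcs_mono h (show j + 1 ≤ i by omega) (by omega)
        rw [le_div_iff₀ (by linarith)]
        linarith
      · rename_i hji
        apply st_of_le
        have h3 : β i ≤ β j := by
          rcases (Nat.not_lt.1 hji).lt_or_eq with h4 | h4
          · have h5 := beta_le h h4 (by omega)
            have h6 := h.ab j hj
            linarith
          · rw [h4]
        exact div_nonpos_of_nonpos_of_nonneg (by linarith) (by linarith)
    unfold wn
    rw [hst lo (hlo.trans hhi), hst hi hhi]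
    by_cases c1 : lo < i
    · by_cases c2 : hi < i
      · rw [if_pos c1, if_pos c2, if_neg (by omega)]
        norm_num
      · rw [if_pos c1, if_neg c2, if_pos (by omega)]
        norm_num
    · rw [if_neg c1, if_neg (by omega), if_neg (by omega)]
      norm_num

end win

/-- arcs inside lobes: windows of the lobes are windows of the arcs -/
theorem WinA.sub {a b : ℕ → ℝ} {lo hi : ℕ} {l : ℝ → ℝ} (h : WinA M α β lo hi l)
    (ha : ∀ i ≤ M, α i ≤ a i) (hb : ∀ i ≤ M, b i ≤ β i) : WinA M a b lo hi l where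
  smooth := h.smooth
  per := h.per
  nn := h.nn
  le := h.le
  val := fun i hi' x h1 h2 => h.val i hi' x ((ha i hi').trans h1) (h2.trans (hb i hi'))

theorem winA' (h : Arcs M α β) {lo hi : ℕ} (hlo : lo ≤ hi) (hhi : hi ≤ M) :
    WinA M (wa M α β) (wb α β) lo hi (wn α β lo hi) :=
  WinA.sub (winA h hlo hhi) (fun _ hi' => (wa_gt h hi').le) (fun _ hi' => (wb_lt h hi').le)

end Crest.Agent.R267.WordPh_9
end
end

-- ▼ part R267/WordPh2_9

/-!
# Row 267 (helper9): supports and derivatives of the word phases `wph` and of the windows `wn`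

Every real `x` is `y + 2 π k` with `α 0 ≤ y < α 0 + 2 π` (`exists_dom`), and `y` lies in a lobe
`[α i, β i]` or in a gap `[β i, α (i + 1)]`, `i ≤ M` (`exists_piece`).
-/

set_option autoImplicit false

noncomputable section

open Finset Set Filter Topology
open Crest.Agent.R267.T3aDefs_957 (st)
open Crest.Agent.R267.Calc_957
open Crest.Agent.R267.Ang_739 (cis)
open Crest.Agent.R267.GlNDefs_9 Crest.Agent.R267.WordPh_9

namespace Crest.Agent.R267.WordPh2_9

variable {M : ℕ} {α β : ℕ → ℝ} {e : ℕ → ℝ}

/-! ### pieces -/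

theorem exists_dom (c x : ℝ) : ∃ (k : ℤ) (y : ℝ), c ≤ y ∧ y < c + 2 * Real.pi ∧
    x = y + 2 * Real.pi * k := by
  have hp := two_pi_pos'
  refine ⟨⌊(x - c) / (2 * Real.pi)⌋, x - 2 * Real.pi * ⌊(x - c) / (2 * Real.pi)⌋, ?_, ?_, by ring⟩
  · have := Int.floor_le ((x - c) / (2 * Real.pi))
    rw [le_div_iff₀ hp] at this
    linarith
  · have := Int.lt_floor_add_one ((x - c) / (2 * Real.pi))
    rw [div_lt_iff₀ hp] at this
    linarith

/-- pieces of the fundamental domain -/
theorem exists_piece (h : Arcs M α β) {y : ℝ} (h1 : α 0 ≤ y) (h2 : y < α 0 + 2 * Real.pi) :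
    ∃ i ≤ M, α i ≤ y ∧ y < α (i + 1) := by
  have key : ∀ n ≤ M + 1, y < α n → ∃ i ≤ M, α i ≤ y ∧ y < α (i + 1) := by
    intro n
    induction n with
    | zero => intro _ hy; exact absurd hy (not_lt.2 h1)
    | succ n ih =>
      intro hn hy
      rcases lt_or_ge y (α n) with h3 | h3
      · exact ih (by omega) h3
      · exact ⟨n, by omega, h3, hy⟩
  exact key (M + 1) le_rfl (by rw [h.last]; exact h2)

/-! ### integer periods -/

theorem ps_add_int (a b x : ℝ) (k : ℤ) : ps a b (x + 2 * Real.pi * k) = ps a b x + k := by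
  induction k using Int.induction_on with
  | zero => simp
  | succ k ih =>
    have : x + 2 * Real.pi * ((k : ℤ) + 1 : ℤ) = x + 2 * Real.pi * (k : ℤ) + 2 * Real.pi := by
      push_cast; ring
    rw [this, ps_add, ih]
    push_cast; ring
  | pred k ih =>
    have h1 : x + 2 * Real.pi * (-(k : ℤ) : ℤ) =
        x + 2 * Real.pi * ((-(k : ℤ) - 1 : ℤ)) + 2 * Real.pi := by
      push_cast; ring
    rw [h1, ps_add] at ih
    push_cast at ih ⊢
    linarith

theorem wn_add_int (α β : ℕ → ℝ) (lo hi : ℕ) (x : ℝ) (k : ℤ) :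
    wn α β lo hi (x + 2 * Real.pi * k) = wn α β lo hi x := by
  unfold wn
  rw [ps_add_int, ps_add_int]
  ring

theorem wph_add_int (e : ℕ → ℝ) (M : ℕ) (α β : ℕ → ℝ) (x : ℝ) (k : ℤ) :
    wph e M α β (x + 2 * Real.pi * k) = wph e M α β x + k * tot e M := by
  unfold wph
  simp only [ps_add_int, mul_add, Finset.sum_add_distrib, tot_eq, ← Finset.sum_mul]
  ring

theorem deriv_wn_add_int (α β : ℕ → ℝ) (lo hi : ℕ) (x : ℝ) (k : ℤ) :
    deriv (wn α β lo hi) (x + 2 * Real.pi * k) = deriv (wn α β lo hi) x := by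
  have h1 : (fun y => wn α β lo hi (y + 2 * Real.pi * k)) = wn α β lo hi := by
    funext y; exact wn_add_int α β lo hi y k
  have h2 := deriv_comp_add_const (wn α β lo hi) (2 * Real.pi * k) x
  rw [← h2, h1]

theorem deriv_wph_add_int (e : ℕ → ℝ) (M : ℕ) (α β : ℕ → ℝ) (x : ℝ) (k : ℤ) :
    deriv (wph e M α β) (x + 2 * Real.pi * k) = deriv (wph e M α β) x := by
  have h1 : (fun y => wph e M α β (y + 2 * Real.pi * k)) =
      fun y => wph e M α β y + k * tot e M := by
    funext y; exact wph_add_int e M α β y k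
  have h2 := deriv_comp_add_const (wph e M α β) (2 * Real.pi * k) x
  rw [← h2, h1]
  exact deriv_add_const _

/-! ### windows: values -/

section win

variable (h : Arcs M α β) {lo hi : ℕ}

include h

/-- value of the jump at the gap `j` on the gap `i` -/
theorem ps_gap {i j : ℕ} (hi' : i ≤ M) (hj : j ≤ M) (hij : i ≠ j) {x : ℝ} (h1 : β i ≤ x)
    (h2 : x ≤ α (i + 1)) : ps (β j) (α (j + 1)) x = if j < i then 1 else 0 := by
  have hab := h.ab i hi'
  have h0 : α 0 ≤ x := by
    have := arcs_mono h (Nat.zero_le i) (by omega)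
    linarith
  have h0' : x ≤ α 0 + 2 * Real.pi := by
    have h3 := arcs_mono h (show i + 1 ≤ M + 1 by omega) le_rfl
    have h4 := h.last
    linarith
  rw [ps_dom' h hj h0 h0']
  have hbj := h.ba j hj
  split
  · rename_i hji
    apply st_of_ge
    have h3 := arcs_mono h (show j + 1 ≤ i by omega) (by omega)
    rw [le_div_iff₀ (by linarith)]
    linarith
  · rename_i hji
    apply st_of_le
    have h3 : α (i + 1) ≤ β j := by
      have h5 := arcs_mono h (show i + 1 ≤ j by omega) (by omega)
      have h6 := h.ab j hj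
      linarith
    exact div_nonpos_of_nonpos_of_nonneg (by linarith) (by linarith)

/-- **support of the window**: it vanishes in the gap `i` if `i < lo` or `hi < i`. -/
theorem wn_supp (hlo : lo ≤ hi) (hhi : hi ≤ M) {i : ℕ} (hi' : i ≤ M) (hc : i < lo ∨ hi < i)
    {x : ℝ} (h1 : β i ≤ x) (h2 : x ≤ α (i + 1)) : wn α β lo hi x = 0 := by
  unfold wn
  rw [ps_gap h hi' (hlo.trans hhi) (by omega) h1 h2, ps_gap h hi' hhi (by omega) h1 h2]
  rcases hc with hc | hc
  · rw [if_neg (by omega), if_neg (by omega)]; norm_num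
  · rw [if_pos (by omega), if_pos (by omega)]; norm_num


/-- value on the lobes -/
theorem wn_lobe (hlo : lo ≤ hi) (hhi : hi ≤ M) {i : ℕ} (hi' : i ≤ M) {x : ℝ} (h1 : α i ≤ x)
    (h2 : x ≤ β i) : wn α β lo hi x = if lo < i ∧ i ≤ hi then 1 else 0 :=
  (winA h hlo hhi).val i hi' x h1 h2

omit h in
/-- `ps` is constant off its step -/
theorem deriv_ps_zero {a b : ℝ} (hab : a < b) (hba : b < a + 2 * Real.pi) {x : ℝ}
    (h1 : b - 2 * Real.pi ≤ x) (h2 : x ≤ a + 2 * Real.pi) (h3 : x ≤ a ∨ b ≤ x) :
    deriv (ps a b) x = 0 := by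
  have hp := two_pi_pos'
  rcases h3 with h3 | h3
  · -- `x ≤ a`
    rcases h1.lt_or_eq with h4 | h4
    · rw [(hasDerivAt_ps hab hba (k := 0) (by simpa using h4) (by simp; linarith)).deriv]
      rw [std_of_le, zero_div]
      exact div_nonpos_of_nonpos_of_nonneg (by simp; linarith) (by linarith)
    · rw [(hasDerivAt_ps hab hba (k := -1) (by push_cast; linarith) (by push_cast; linarith)).deriv]
      rw [std_of_ge, zero_div]
      rw [le_div_iff₀ (by linarith)]
      push_cast
      linarith
  · rcases h2.lt_or_eq with h4 | h4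
    · rw [(hasDerivAt_ps hab hba (k := 0) (by simp; linarith) (by simpa using h4)).deriv]
      rw [std_of_ge, zero_div]
      rw [le_div_iff₀ (by linarith)]
      simp
      linarith
    · rw [(hasDerivAt_ps hab hba (k := 1) (by push_cast; linarith) (by push_cast; linarith)).deriv]
      rw [std_of_le, zero_div]
      exact div_nonpos_of_nonpos_of_nonneg (by push_cast; linarith) (by linarith)

theorem hasDerivAt_wn (hlo : lo ≤ hi) (hhi : hi ≤ M) (x : ℝ) : HasDerivAt (wn α β lo hi)
    (deriv (ps (β lo) (α (lo + 1))) x - deriv (ps (β hi) (α (hi + 1))) x) x := by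
  have h1 := ((contDiff_ps (h.ba lo (hlo.trans hhi)) (len' h (hlo.trans hhi))).differentiable
    (by norm_num) x).hasDerivAt
  have h2 := ((contDiff_ps (h.ba hi hhi) (len' h hhi)).differentiable
    (by norm_num) x).hasDerivAt
  exact h1.sub h2

/-- **derivative of the window**: zero on the lobes (closed) -/
theorem deriv_wn_lobe (hlo : lo ≤ hi) (hhi : hi ≤ M) {i : ℕ} (hi' : i ≤ M) {x : ℝ}
    (h1 : α i ≤ x) (h2 : x ≤ β i) : deriv (wn α β lo hi) x = 0 := by
  have key : ∀ j ≤ M, deriv (ps (β j) (α (j + 1))) x = 0 := by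
    intro j hj
    have h0 : α 0 ≤ x := (arcs_mono h (Nat.zero_le i) (by omega)).trans h1
    have h0' : x ≤ α 0 + 2 * Real.pi := by
      have h3 := beta_le h (show i < M + 1 by omega) le_rfl
      have h4 := h.last
      linarith
    refine deriv_ps_zero (h.ba j hj) (len' h hj) ?_ ?_ ?_
    · have h3 := arcs_mono h (show j + 1 ≤ M + 1 by omega) le_rfl
      have h4 := h.last
      linarith
    · have h3 := arcs_mono h (Nat.zero_le j) (by omega)
      have h4 := h.ab j hj
      linarith
    · rcases lt_or_ge j i with h5 | h5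
      · right
        have := arcs_mono h (show j + 1 ≤ i by omega) (by omega)
        linarith
      · left
        rcases h5.lt_or_eq with h6 | h6
        · have h7 := beta_le h h6 (by omega)
          have h8 := h.ab j hj
          linarith
        · subst h6; exact h2
  rw [(hasDerivAt_wn h hlo hhi x).deriv, key lo (hlo.trans hhi), key hi hhi, sub_zero]

/-- zero in the gaps other than `lo`, `hi` (closed) -/
theorem deriv_wn_gap (hlo : lo ≤ hi) (hhi : hi ≤ M) {i : ℕ} (hi' : i ≤ M) (hc : i ≠ lo)
    (hc' : i ≠ hi) {x : ℝ} (h1 : β i ≤ x) (h2 : x ≤ α (i + 1)) :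
    deriv (wn α β lo hi) x = 0 := by
  have hab := h.ab i hi'
  have key : ∀ j ≤ M, i ≠ j → deriv (ps (β j) (α (j + 1))) x = 0 := by
    intro j hj hij
    have h0 : α 0 ≤ x := by
      have := arcs_mono h (Nat.zero_le i) (by omega)
      linarith
    have h0' : x ≤ α 0 + 2 * Real.pi := by
      have h3 := arcs_mono h (show i + 1 ≤ M + 1 by omega) le_rfl
      have h4 := h.last
      linarith
    refine deriv_ps_zero (h.ba j hj) (len' h hj) ?_ ?_ ?_
    · have h3 := arcs_mono h (show j + 1 ≤ M + 1 by omega) le_rfl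
      have h4 := h.last
      linarith
    · have h3 := arcs_mono h (Nat.zero_le j) (by omega)
      have h4 := h.ab j hj
      linarith
    · rcases lt_or_ge j i with h5 | h5
      · right
        have := arcs_mono h (show j + 1 ≤ i by omega) (by omega)
        linarith
      · left
        have h6 := arcs_mono h (show i + 1 ≤ j by omega) (by omega)
        have h8 := h.ab j hj
        linarith
  rw [(hasDerivAt_wn h hlo hhi x).deriv, key lo (hlo.trans hhi) hc, key hi hhi hc', sub_zero]

/-- **where the window moves**: strictly inside the gap `lo` or `hi` (mod `2 π`) -/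
theorem wn_moves (hlo : lo ≤ hi) (hhi : hi ≤ M) {x : ℝ} (hx : deriv (wn α β lo hi) x ≠ 0) :
    ∃ (k : ℤ) (i : ℕ), (i = lo ∨ i = hi) ∧ β i < x - 2 * Real.pi * k ∧
      x - 2 * Real.pi * k < α (i + 1) := by
  obtain ⟨k, y, hy1, hy2, rfl⟩ := exists_dom (α 0) x
  obtain ⟨i, hi', h1, h2⟩ := exists_piece h hy1 hy2
  rw [deriv_wn_add_int] at hx
  refine ⟨k, i, ?_, ?_, ?_⟩
  · by_contra hc
    push Not at hc
    rcases le_total y (β i) with h3 | h3
    · exact hx (deriv_wn_lobe h hlo hhi hi' h1 h3)
    · exact hx (deriv_wn_gap h hlo hhi hi' hc.1 hc.2 h3 h2.le)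
  · have e1 : y + 2 * Real.pi * k - 2 * Real.pi * k = y := by ring
    rw [e1]
    by_contra hc
    exact hx (deriv_wn_lobe h hlo hhi hi' h1 (not_lt.1 hc))
  · have e1 : y + 2 * Real.pi * k - 2 * Real.pi * k = y := by ring
    rw [e1]
    exact h2

end win

/-! ### the phase -/

section phase

variable (h : Arcs M α β)

include h

/-- derivative in the gaps (closed) -/
theorem deriv_wph_gap {i : ℕ} (hi : i ≤ M) {x : ℝ} (h1 : β i ≤ x) (h2 : x ≤ α (i + 1)) :
    deriv (wph e M α β) x = 0 := by
  have hab := h.ab i hi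
  rw [(hasDerivAt_wph h x).deriv]
  have : ∑ j ∈ range (M + 1), se e j * deriv (ps (α j) (β j)) x = 0 := by
    refine Finset.sum_eq_zero fun j hj' => ?_
    have hj : j ≤ M := by have := Finset.mem_range.1 hj'; omega
    have h0 : α 0 ≤ x := by
      have := arcs_mono h (Nat.zero_le i) (by omega)
      linarith
    have h0' : x ≤ α 0 + 2 * Real.pi := by
      have h3 := arcs_mono h (show i + 1 ≤ M + 1 by omega) le_rfl
      have h4 := h.last
      linarith
    rw [deriv_ps_zero (h.ab j hj) (len h hj), mul_zero]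
    · have h3 := beta_le h (show j < M + 1 by omega) le_rfl
      have h4 := h.last
      linarith
    · have h3 := arcs_mono h (Nat.zero_le j) (by omega)
      linarith
    · rcases le_or_gt j i with h5 | h5
      · right
        rcases h5.lt_or_eq with h6 | h6
        · have h7 := beta_le h h6 (by omega)
          linarith
        · subst h6; exact h1
      · left
        exact h2.trans (arcs_mono h h5 (by omega))
  rw [this, mul_zero]

/-- sign of the derivative on the open lobes -/
theorem deriv_wph_pos (he : ∀ l, e l = 1 ∨ e l = -1) {i : ℕ} (hi : i ≤ M) {x : ℝ}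
    (h1 : α i < x) (h2 : x < β i) : 0 < se e i * deriv (wph e M α β) x := by
  have hab := h.ab i hi
  have hw : 0 < β i - α i := by linarith
  have hs := se_sq he i
  have hs2 : se e i * se e i = 1 := by rcases hs with h | h <;> rw [h] <;> norm_num
  rw [deriv_wph h hi h1 h2]
  have h3 : 0 < std ((x - α i) / (β i - α i)) :=
    std_pos (div_pos (by linarith) hw) (by rw [div_lt_one hw]; linarith)
  have h4 : se e i * (2 * Real.pi * se e i * (std ((x - α i) / (β i - α i)) / (β i - α i))) =
      (se e i * se e i) * (2 * Real.pi * (std ((x - α i) / (β i - α i)) / (β i - α i))) := by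
    ring
  rw [h4, hs2, one_mul]
  exact mul_pos two_pi_pos' (div_pos h3 hw)

omit h in
theorem cis_add_int_mul (x : ℝ) (k : ℤ) : cis (x + 2 * Real.pi * k) = cis x :=
  Ang_739.cis_per x k

omit h in
/-- `cen` and `tot` are multiples of `2 π` -/
theorem exists_cen (he : ∀ l, e l = 1 ∨ e l = -1) (i : ℕ) : ∃ n : ℤ, cen e i = 2 * Real.pi * n := by
  induction i with
  | zero => exact ⟨0, by simp [cen]⟩
  | succ i ih =>
    obtain ⟨n, hn⟩ := ih
    rw [show cen e (i + 1) = cen e i + Real.pi * (se e i + se e (i + 1)) from rfl, hn]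
    rcases se_sq he i with h1 | h1 <;> rcases se_sq he (i + 1) with h2 | h2 <;> rw [h1, h2]
    · exact ⟨n + 1, by push_cast; ring⟩
    · exact ⟨n, by ring⟩
    · exact ⟨n, by ring⟩
    · exact ⟨n - 1, by push_cast; ring⟩

omit h in
theorem exists_tot (he : ∀ l, e l = 1 ∨ e l = -1) (M : ℕ) : ∃ n : ℤ, tot e M = 2 * Real.pi * n := by
  obtain ⟨n, hn⟩ := exists_cen he M
  unfold tot
  rw [hn]
  rcases se_sq he M with h1 | h1 <;> rw [h1]
  · exact ⟨n + 1, by push_cast; ring⟩
  · exact ⟨n, by ring⟩

omit h in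
theorem cis_pi : cis Real.pi = -1 := by
  unfold Ang_739.cis
  exact Complex.exp_pi_mul_I

/-- **in the gaps `e^{iφ} = -1`** (closed gaps, mod `2 π`) -/
theorem cis_wph_gap (he : ∀ l, e l = 1 ∨ e l = -1) {i : ℕ} (hi : i ≤ M) {x : ℝ} (h1 : β i ≤ x)
    (h2 : x ≤ α (i + 1)) (k : ℤ) : cis (wph e M α β (x + 2 * Real.pi * k)) = -1 := by
  obtain ⟨n, hn⟩ := exists_cen he i
  obtain ⟨m, hm⟩ := exists_tot he M
  rw [wph_add_int, wph_flat h hi h1 h2, hn, hm]
  rcases se_sq he i with h3 | h3 <;> rw [h3]
  · have e1 : 2 * Real.pi * (n : ℝ) + Real.pi * 1 + k * (2 * Real.pi * m) =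
        Real.pi + 2 * Real.pi * ((n + k * m : ℤ)) := by push_cast; ring
    rw [e1, cis_add_int_mul, cis_pi]
  · have e1 : 2 * Real.pi * (n : ℝ) + Real.pi * (-1) + k * (2 * Real.pi * m) =
        Real.pi + 2 * Real.pi * ((n - 1 + k * m : ℤ)) := by push_cast; ring
    rw [e1, cis_add_int_mul, cis_pi]

/-- **turning points only at `e^{iφ} = -1`** -/
theorem cis_of_deriv_zero (he : ∀ l, e l = 1 ∨ e l = -1) {x : ℝ}
    (hx : deriv (wph e M α β) x = 0) : cis (wph e M α β x) = -1 := by
  obtain ⟨k, y, hy1, hy2, rfl⟩ := exists_dom (α 0) x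
  obtain ⟨i, hi, h1, h2⟩ := exists_piece h hy1 hy2
  rw [deriv_wph_add_int] at hx
  have hab := h.ab i hi
  rcases h1.lt_or_eq with h3 | h3
  · rcases lt_or_ge y (β i) with h4 | h4
    · have := deriv_wph_pos h he hi h3 h4
      rw [hx, mul_zero] at this
      exact absurd this (lt_irrefl _)
    · exact cis_wph_gap h he hi h4 h2.le k
  · -- `y = α i`: end of the gap `i - 1`
    subst h3
    rcases Nat.eq_zero_or_pos i with h5 | h5
    · subst h5
      have h6 := cis_wph_gap h he (i := M) le_rfl (x := α (M + 1)) (h.ba M le_rfl).le le_rfl (k - 1)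
      have e1 : α (M + 1) + 2 * Real.pi * ((k - 1 : ℤ) : ℝ) = α 0 + 2 * Real.pi * k := by
        rw [h.last]; push_cast; ring
      rw [e1] at h6
      exact h6
    · obtain ⟨j, rfl⟩ : ∃ j, i = j + 1 := ⟨i - 1, by omega⟩
      exact cis_wph_gap h he (i := j) (by omega) (h.ba j (by omega)).le le_rfl k

/-- **the windows move only where the phase is flat** -/
theorem flat_of_wn (he : ∀ l, e l = 1 ∨ e l = -1) {lo hi : ℕ} (hlo : lo ≤ hi) (hhi : hi ≤ M)
    {x : ℝ} (hx : deriv (wn α β lo hi) x ≠ 0) :
    deriv (wph e M α β) x = 0 ∧ cis (wph e M α β x) = -1 := by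
  obtain ⟨k, i, hi', h1, h2⟩ := wn_moves h hlo hhi hx
  have hiM : i ≤ M := by rcases hi' with rfl | rfl <;> omega
  have e1 : x = (x - 2 * Real.pi * k) + 2 * Real.pi * k := by ring
  constructor
  · rw [e1, deriv_wph_add_int]
    exact deriv_wph_gap h hiM h1.le h2.le
  · rw [e1]
    exact cis_wph_gap h he hiM h1.le h2.le k

end phase

/-! ### equal lobes -/

/-- left ends of `M + 1` equal lobes of half width `3 / (M + 1)` -/
def aE (M k : ℕ) : ℝ := (2 * Real.pi * k - 3) / (M + 1)

/-- right ends -/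
def bE (M k : ℕ) : ℝ := (2 * Real.pi * k + 3) / (M + 1)

theorem arcsE (M : ℕ) : Arcs M (aE M) (bE M) where
  ab := fun i _ => by
    unfold aE bE
    exact div_lt_div_of_pos_right (by linarith) (by positivity)
  ba := fun i _ => by
    unfold aE bE
    refine div_lt_div_of_pos_right ?_ (by positivity)
    push_cast
    nlinarith [Real.pi_gt_three]
  last := by
    unfold aE
    push_cast
    field_simp
    ring

theorem st_near {u : ℝ} (h0 : 0 ≤ u) (h1 : u ≤ 1) : |st u - u| ≤ 1 / 5 := by
  have key : ∀ v : ℝ, 1 / 2 ≤ v → v ≤ 1 → |st v - v| ≤ 1 / 5 := by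
    intro v hv hv1
    unfold T3aDefs_957.st
    rw [c01_of_mem (by linarith) hv1]
    obtain ⟨w, rfl⟩ : ∃ w, v = 1 / 2 + w := ⟨v - 1 / 2, by ring⟩
    have hw : 0 ≤ w := by linarith
    have hw1 : w ≤ 1 / 2 := by linarith
    have e1 : (1 / 2 + w) ^ 3 * (10 - 15 * (1 / 2 + w) + 6 * (1 / 2 + w) ^ 2) - (1 / 2 + w) =
        7 * w / 8 - 5 * w ^ 3 + 6 * w ^ 5 := by ring
    rw [e1, abs_le]
    have hw2 : w ^ 2 ≤ 1 / 4 := by nlinarith
    constructor
    · have : 0 ≤ 7 * w / 8 - 5 * w ^ 3 + 6 * w ^ 5 := by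
        have e2 : 7 * w / 8 - 5 * w ^ 3 + 6 * w ^ 5 = w * (6 * ((1 / 4 - w ^ 2) * (7 / 12 - w ^ 2))) := by
          ring
        rw [e2]
        exact mul_nonneg hw (mul_nonneg (by norm_num) (mul_nonneg (by linarith) (by linarith)))
      linarith
    · have h5 : w ^ 5 ≤ w ^ 3 / 4 := by
        have : w ^ 5 = w ^ 3 * w ^ 2 := by ring
        rw [this]
        nlinarith [pow_nonneg hw 3]
      have h6 : 0 ≤ (w - 289 / 1000) ^ 2 * (w + 578 / 1000) := by positivity
      nlinarith
  rcases le_total (1 / 2) u with h | h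
  · exact key u h h1
  · have := key (1 - u) (by linarith) (by linarith)
    rw [st_one_sub] at this
    rw [abs_le] at this ⊢
    constructor <;> linarith [this.1, this.2]

/-- **the phase of `M + 1` equal positive lobes is near `(M + 1) x`** -/
theorem wph_near (M : ℕ) (x : ℝ) :
    |wph (fun _ => 1) M (aE M) (bE M) x - (M + 1) * x| ≤ Real.pi / 2 := by
  have h := arcsE M
  have hM : (0 : ℝ) < M + 1 := by positivity
  have hpi := Real.pi_gt_three
  have hpi2 := Real.pi_lt_d2
  have hse : ∀ i, se (fun _ => (1 : ℝ)) i = 1 := by intro i; unfold se; split <;> rfl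
  have hcen : ∀ i, cen (fun _ => (1 : ℝ)) i = 2 * Real.pi * i := by
    intro i
    rw [cen_eq]
    simp only [hse, Finset.sum_const, Finset.card_range, nsmul_eq_mul]
    ring
  have htot : tot (fun _ => (1 : ℝ)) M = 2 * Real.pi * (M + 1) := by
    rw [tot_eq]
    simp only [hse, Finset.sum_const, Finset.card_range, nsmul_eq_mul]
    push_cast
    ring
  obtain ⟨k, y, hy1, hy2, rfl⟩ := exists_dom (aE M 0) x
  rw [wph_add_int, htot]
  have e1 : wph (fun _ => 1) M (aE M) (bE M) y + k * (2 * Real.pi * (M + 1)) -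
      (M + 1) * (y + 2 * Real.pi * k) =
      wph (fun _ => 1) M (aE M) (bE M) y - (M + 1) * y := by ring
  rw [e1]
  obtain ⟨i, hi, h1, h2⟩ := exists_piece h hy1 hy2
  rw [wph_val h hi h1 h2.le, hcen, hse]
  have hA : (M + 1) * aE M i = 2 * Real.pi * i - 3 := by unfold aE; field_simp
  have hB : bE M i - aE M i = 6 / (M + 1) := by unfold aE bE; field_simp; ring
  have hC : (M + 1) * aE M (i + 1) = 2 * Real.pi * i + 2 * Real.pi - 3 := by
    unfold aE; push_cast; field_simp
  have hD : (y - aE M i) / (bE M i - aE M i) = ((M + 1) * y - 2 * Real.pi * i + 3) / 6 := by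
    rw [hB]
    field_simp
    linarith
  rw [hD]
  obtain ⟨u, hu⟩ : ∃ u, u = ((M + 1) * y - 2 * Real.pi * i + 3) / 6 := ⟨_, rfl⟩
  rw [← hu]
  have hy : (M + 1) * y = 2 * Real.pi * i + 6 * u - 3 := by rw [hu]; ring
  rw [hy]
  have hu0 : 0 ≤ u := by
    have := mul_le_mul_of_nonneg_left h1 hM.le
    rw [hA] at this
    rw [hu]
    linarith
  have hu2 : 6 * u - 3 < 2 * Real.pi - 3 := by
    have := mul_lt_mul_of_pos_left h2 hM
    rw [hC] at this
    linarith
  rcases le_total u 1 with h3 | h3
  · have h4 := abs_le.1 (st_near hu0 h3)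
    rw [abs_le]
    constructor <;> nlinarith [h4.1, h4.2]
  · rw [st_of_ge h3, abs_le]
    constructor <;> nlinarith

end Crest.Agent.R267.WordPh2_9
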